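import Crest.Agent.R097.T4

/-!
# Row 97, box cover in dimension n = 4 (generated)
-/

set_option autoImplicit false
set_option Elab.async false
set_option maxHeartbeats 0
set_option maxRecDepth 100000

open Crest.Agent.R097 Crest.Agent.R097.KA


namespace Crest.Agent.R097C4.N4mm

theorem L00060 : Good (Phi V4.P V4.D (-1) (-1)) ⟨3, 2, 2, 0, 3, 6, 2, 3, 5, 1⟩ :=
  leaf_sound (S := T4.ds_mm) T4.ok_mm (w := 184) (c := ⟨⟨.negSucc 507, .negSucc 129, .ofNat 106, .negSucc 62, .negSucc 131, .negSucc 41⟩, ⟨.negSucc 86, .ofNat 33, .ofNat 172, .negSucc 1, .ofNat 3, .negSucc 0⟩, ⟨.ofNat 83, .ofNat 76, .negSucc 31, .ofNat 74, .ofNat 55, .ofNat 28⟩, ⟨.negSucc 1380, .negSucc 178, .ofNat 106, .negSucc 168, .negSucc 352, .negSucc 106⟩, ⟨.negSucc 868, .negSucc 146, .ofNat 36, .ofNat 32, .ofNat 154, .ofNat 7⟩, .ofNat 537, .negSucc 32, .ofNat 0, .negSucc 32,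 .ofNat 1869, .ofNat 0, .ofNat 386, .ofNat 43, .negSucc 290, .ofNat 0, .ofNat 145, .ofNat 11, .ofNat 0, .ofNat 0, .ofNat 531, .ofNat 6309, .ofNat 0, .ofNat 0, .ofNat 0, .ofNat 0, .ofNat 0, .ofNat 0, .ofNat 52000405034760535715990074294272000, .ofNat 0, .ofNat 0, .ofNat 0, .ofNat 62217133764607772410976843857920000, .ofNat 0, .ofNat 0, .ofNat 0, .ofNat 0, .ofNat 0⟩)
    (by decide +kernel)
theorem L00061 : Good (Phi V4.P V4.D (-1) (-1)) ⟨3, 2, 2, 0, 3, 7, 3, 6, 5, 1⟩ :=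
  leaf_sound (S := T4.ds_mm) T4.ok_mm (w := 192) (c := ⟨⟨.negSucc 550, .negSucc 124, .ofNat 115, .ofNat 2, .negSucc 67, .negSucc 88⟩, ⟨.negSucc 87, .ofNat 34, .ofNat 170, .ofNat 5, .ofNat 1, .negSucc 2⟩, ⟨.ofNat 149, .ofNat 64, .negSucc 8, .ofNat 38, .ofNat 21, .ofNat 49⟩, ⟨.negSucc 1489, .negSucc 171, .ofNat 128, .negSucc 0, .negSucc 180, .negSucc 236⟩, ⟨.negSucc 842, .negSucc 136, .ofNat 72, .ofNat 149, .ofNat 55, .negSucc 30⟩, .ofNat 537, .negSucc 18, .ofNat 0, .negSucc 18, .ofNat 1892, .ofNat 0, .ofNat 818, .ofNat 87, .negSucc 506, .ofNat 0, .ofNat 288, .ofNat 37, .ofNat 0, .ofNat 0, .ofNat 995, .ofNat 11816, .ofNat 0, .ofNat 0, .ofNat 0, .ofNat 0, .ofNat 0, .ofNat 0, .ofNat 1927503671228595539481337641566208000, .ofNat 0, .ofNat 0, .ofNat 0, .ofNat 0, .ofNat 0, .ofNat 0, .ofNat 0, .ofNat 0, .ofNat 0⟩)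
    (by decide +kernel)
theorem L00062 : Good (Phi V4.P V4.D (-1) (-1)) ⟨3, 2, 2, 0, 3, 7, 3, 7, 5, 1⟩ :=
  leaf_sound (S := T4.ds_mm) T4.ok_mm (w := 192) (c := ⟨⟨.negSucc 642, .negSucc 130, .ofNat 128, .ofNat 24, .negSucc 61, .negSucc 57⟩, ⟨.negSucc 85, .ofNat 24, .ofNat 184, .ofNat 7, .ofNat 7, .negSucc 1⟩, ⟨.ofNat 195, .ofNat 46, .ofNat 4, .ofNat 24, .ofNat 41, .ofNat 23⟩, ⟨.negSucc 1750, .negSucc 173, .ofNat 201, .ofNat 62, .negSucc 160, .negSucc 156⟩, ⟨.negSucc 780, .negSucc 244, .ofNat 147, .ofNat 199, .ofNat 191, .negSucc 25⟩, .ofNat 536, .negSucc 20, .ofNat 0, .negSucc 20, .ofNat 1904, .ofNat 0, .ofNat 866, .ofNat 129, .negSucc 534, .ofNat 0, .ofNat 301, .ofNat 37, .ofNat 0, .ofNat 0, .ofNat 1012, .ofNat 8897, .ofNat 0, .ofNat 433576884245069519225891075181772800, .ofNat 7787305282478527578257320889548800, .ofNat 0, .ofNat 0, .ofNat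 0, .ofNat 0, .ofNat 0, .ofNat 0, .ofNat 0, .ofNat 0, .ofNat 0, .ofNat 0, .ofNat 0, .ofNat 0, .ofNat 0⟩)
    (by decide +kernel)
theorem L00063 : Good (Phi V4.P V4.D (-1) (-1)) ⟨3, 3, 2, 0, 2, 3, 2, 3, 4, 0⟩ :=
  leaf_sound (S := T4.ds_mm) T4.ok_mm (w := 176) (c := ⟨⟨.negSucc 519, .negSucc 214, .negSucc 72, .ofNat 0, .negSucc 221, .negSucc 166⟩, ⟨.negSucc 48, .ofNat 51, .ofNat 176, .ofNat 2, .negSucc 3, .negSucc 2⟩, ⟨.ofNat 111, .ofNat 127, .ofNat 91, .ofNat 37, .ofNat 108, .ofNat 89⟩, ⟨.negSucc 1319, .negSucc 314, .negSucc 190, .negSucc 3, .negSucc 522, .negSucc 396⟩, ⟨.negSucc 896, .negSucc 173, .negSucc 224, .ofNat 137, .ofNat 19, .negSucc 55⟩, .ofNat 494, .negSucc 38, .ofNat 0, .negSucc 38, .ofNat 2403, .ofNat 0, .ofNat 430, .ofNat 57, .negSucc 339, .ofNat 0, .ofNat 123, .ofNat 7, .ofNat 0, .ofNat 0, .ofNat 544, .ofNat 3235, .ofNat 0,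 .ofNat 97971913249609808063976859238400, .ofNat 106498469774176144943638118400, .ofNat 0, .ofNat 0, .ofNat 0, .ofNat 20334488234128022911280637542400, .ofNat 0, .ofNat 0, .ofNat 2079383762518256131090554028032000, .ofNat 25540614847458781681304154931200, .ofNat 0, .ofNat 0, .ofNat 0, .ofNat 18819861542531413463123833651200, .ofNat 0⟩)
    (by decide +kernel)
theorem L00064 : Good (Phi V4.P V4.D (-1) (-1)) ⟨3, 2, 2, 0, 3, 6, 2, 3, 4, 1⟩ :=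
  leaf_sound (S := T4.ds_mm) T4.ok_mm (w := 184) (c := ⟨⟨.negSucc 578, .negSucc 125, .ofNat 86, .negSucc 94, .negSucc 40, .negSucc 36⟩, ⟨.negSucc 90, .ofNat 33, .ofNat 181, .ofNat 0, .ofNat 6, .negSucc 0⟩, ⟨.ofNat 141, .ofNat 73, .negSucc 23, .ofNat 84, .negSucc 11, .ofNat 26⟩, ⟨.negSucc 1568, .negSucc 163, .ofNat 55, .negSucc 249, .negSucc 111, .negSucc 102⟩, ⟨.negSucc 835, .negSucc 172, .ofNat 23, .ofNat 3, .ofNat 164, .negSucc 17⟩, .ofNat 631, .negSucc 76, .ofNat 0, .negSucc 76, .ofNat 3837, .ofNat 0, .ofNat 728, .ofNat 73, .negSucc 506, .ofNat 0, .ofNat 214, .ofNat 7, .ofNat 0, .ofNat 0, .ofNat 1009, .ofNat 5003, .ofNat 0, .ofNat 10948314548916929428449800277196800, .ofNat 20110583523989704838296161484800, .ofNat 0, .ofNat 0, .ofNat 494883935056344134120292473005670400, .ofNat 13212519326199785520225917809459200, .ofNat 0, .ofNat 0, .ofNat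 0, .ofNat 8458339910719859234804767024742400, .ofNat 0, .ofNat 0, .ofNat 0, .ofNat 0, .ofNat 0⟩)
    (by decide +kernel)
theorem L00065 : Good (Phi V4.P V4.D (-1) (-1)) ⟨3, 2, 2, 0, 3, 7, 3, 6, 4, 1⟩ :=
  leaf_sound (S := T4.ds_mm) T4.ok_mm (w := 184) (c := ⟨⟨.negSucc 648, .negSucc 125, .ofNat 123, .negSucc 43, .negSucc 22, .negSucc 95⟩, ⟨.negSucc 92, .ofNat 35, .ofNat 194, .ofNat 2, .ofNat 4, .negSucc 5⟩, ⟨.ofNat 220, .ofNat 57, .negSucc 17, .ofNat 43, .negSucc 6, .ofNat 41⟩, ⟨.negSucc 1760, .negSucc 150, .ofNat 140, .negSucc 116, .negSucc 60, .negSucc 255⟩, ⟨.negSucc 802, .negSucc 188, .ofNat 51, .ofNat 70, .ofNat 74, .negSucc 101⟩, .ofNat 631, .negSucc 38, .ofNat 0, .negSucc 38, .ofNat 3863, .ofNat 0, .ofNat 785, .ofNat 61, .negSucc 452, .ofNat 0, .ofNat 219, .ofNat 19, .ofNat 0, .ofNat 0, .ofNat 966, .ofNat 6266, .ofNat 0, .ofNat 0, .ofNat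 0, .ofNat 0, .ofNat 0, .ofNat 0, .ofNat 113271053589886989770585468515123200, .ofNat 0, .ofNat 0, .ofNat 0, .ofNat 77195831965250399090685369542246400, .ofNat 0, .ofNat 0, .ofNat 0, .ofNat 0, .ofNat 0⟩)
    (by decide +kernel)
theorem L00066 : Good (Phi V4.P V4.D (-1) (-1)) ⟨4, 4, 2, 0, 3, 7, 3, 7, 5, 2⟩ :=
  leaf_sound (S := T4.ds_mm) T4.ok_mm (w := 192) (c := ⟨⟨.negSucc 693, .negSucc 53, .ofNat 110, .negSucc 16, .negSucc 33, .negSucc 39⟩, ⟨.negSucc 88, .ofNat 9, .ofNat 190, .ofNat 7, .ofNat 9, .negSucc 1⟩, ⟨.ofNat 221, .ofNat 17, .negSucc 3, .ofNat 41, .ofNat 20, .ofNat 15⟩, ⟨.negSucc 1884, .negSucc 57, .ofNat 142, .negSucc 46, .negSucc 94, .negSucc 104⟩, ⟨.negSucc 777, .negSucc 115, .ofNat 77, .ofNat 158, .ofNat 190, .negSucc 24⟩, .ofNat 642, .negSucc 22, .ofNat 0, .negSucc 22, .ofNat 3430, .ofNat 0, .ofNat 812, .ofNat 76, .negSucc 473,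 .ofNat 0, .ofNat 246, .ofNat 25, .ofNat 0, .ofNat 0, .ofNat 984, .ofNat 14655, .ofNat 0, .ofNat 9650822647779531968409362599457587200, .ofNat 1758630167320936358955650855731200, .ofNat 0, .ofNat 0, .ofNat 36075511319660649939275070440472576000, .ofNat 369890610484852402971202093370572800, .ofNat 0, .ofNat 0, .ofNat 0, .ofNat 226063776496126397304682922272358400, .ofNat 0, .ofNat 0, .ofNat 0, .ofNat 0, .ofNat 0⟩)
    (by decide +kernel)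
theorem L00067 : Good (Phi V4.P V4.D (-1) (-1)) ⟨4, 5, 3, 0, 3, 7, 3, 7, 5, 2⟩ :=
  leaf_sound (S := T4.ds_mm) T4.ok_mm (w := 200) (c := ⟨⟨.negSucc 752, .negSucc 75, .ofNat 64, .negSucc 15, .negSucc 31, .negSucc 38⟩, ⟨.negSucc 77, .ofNat 19, .ofNat 103, .ofNat 3, .ofNat 3, .negSucc 1⟩, ⟨.ofNat 250, .ofNat 33, .negSucc 2, .ofNat 26, .ofNat 13, .ofNat 14⟩, ⟨.negSucc 1956, .negSucc 96, .ofNat 80, .negSucc 40, .negSucc 84, .negSucc 99⟩, ⟨.negSucc 859, .negSucc 114, .ofNat 61, .ofNat 120, .ofNat 147, .negSucc 42⟩, .ofNat 618, .negSucc 91, .ofNat 0, .negSucc 91, .ofNat 4581, .ofNat 0, .ofNat 834, .ofNat 122, .negSucc 517, .ofNat 0, .ofNat 205, .ofNat 8, .ofNat 0, .ofNat 0, .ofNat 998, .ofNat 20009, .ofNat 0, .ofNat 39963801542223387571979439698450841600, .ofNat 0, .ofNat 0, .ofNat 0, .ofNat 0, .ofNat 0, .ofNat 0, .ofNat 0, .ofNat 0, .ofNat 0, .ofNat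 0, .ofNat 0, .ofNat 0, .ofNat 0, .ofNat 0⟩)
    (by decide +kernel)
theorem L00068 : Good (Phi V4.P V4.D (-1) (-1)) ⟨4, 5, 3, 1, 3, 7, 3, 7, 5, 2⟩ :=
  out_sound (S := T4.ds_mm) T4.ok_mm (w := 56) (j := 3) (by decide +kernel)
theorem L00069 : Good (Phi V4.P V4.D (-1) (-1)) ⟨4, 4, 2, 0, 3, 7, 3, 7, 5, 3⟩ :=
  leaf_sound (S := T4.ds_mm) T4.ok_mm (w := 192) (c := ⟨⟨.negSucc 729, .negSucc 49, .ofNat 110, .negSucc 40, .negSucc 1, .negSucc 20⟩, ⟨.negSucc 91, .ofNat 11, .ofNat 197, .ofNat 6, .ofNat 7, .negSucc 1⟩, ⟨.ofNat 240, .ofNat 14, .negSucc 5, .ofNat 51, .negSucc 4, .ofNat 5⟩, ⟨.negSucc 1981, .negSucc 47, .ofNat 132, .negSucc 110, .negSucc 4, .negSucc 56⟩, ⟨.negSucc 780, .negSucc 123, .ofNat 76, .ofNat 124, .ofNat 189, .negSucc 44⟩, .ofNat 642, .ofNat 20, .ofNat 0, .ofNat 20, .ofNat 3500, .ofNat 0, .ofNat 802, .ofNat 28, .negSucc 460, .ofNat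 0, .ofNat 239, .ofNat 29, .ofNat 0, .ofNat 0, .ofNat 972, .ofNat 6644, .ofNat 0, .ofNat 4214974768842948520303111375002009600, .ofNat 867313309994059274443240243200000, .ofNat 0, .ofNat 0, .ofNat 0, .ofNat 0, .ofNat 0, .ofNat 0, .ofNat 0, .ofNat 0, .ofNat 0, .ofNat 0, .ofNat 0, .ofNat 0, .ofNat 0⟩)
    (by decide +kernel)
theorem L00070 : Good (Phi V4.P V4.D (-1) (-1)) ⟨4, 5, 3, 0, 3, 7, 3, 7, 5, 3⟩ :=
  leaf_sound (S := T4.ds_mm) T4.ok_mm (w := 200) (c := ⟨⟨.negSucc 789, .negSucc 74, .ofNat 58, .negSucc 38, .ofNat 8, .negSucc 9⟩, ⟨.negSucc 80, .ofNat 21, .ofNat 106, .ofNat 0, .ofNat 4, .negSucc 0⟩, ⟨.ofNat 272, .ofNat 34, .negSucc 4, .ofNat 27, .negSucc 18, .negSucc 2⟩, ⟨.negSucc 2048, .negSucc 92, .ofNat 58, .negSucc 103, .ofNat 16, .negSucc 24⟩, ⟨.negSucc 857, .negSucc 129, .ofNat 26, .ofNat 65, .ofNat 146, .negSucc 55⟩, .ofNat 616, .negSucc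 93, .ofNat 0, .negSucc 93, .ofNat 4664, .ofNat 0, .ofNat 829, .ofNat 113, .negSucc 505, .ofNat 0, .ofNat 200, .ofNat 7, .ofNat 0, .ofNat 0, .ofNat 989, .ofNat 16994, .ofNat 0, .ofNat 26280101512690399733904834214389350400, .ofNat 0, .ofNat 0, .ofNat 0, .ofNat 1074160224001465467953194425586286592000, .ofNat 0, .ofNat 0, .ofNat 0, .ofNat 0, .ofNat 0, .ofNat 0, .ofNat 0, .ofNat 0, .ofNat 0, .ofNat 0⟩)
    (by decide +kernel)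
theorem L00071 : Good (Phi V4.P V4.D (-1) (-1)) ⟨4, 5, 3, 1, 3, 7, 3, 7, 5, 3⟩ :=
  out_sound (S := T4.ds_mm) T4.ok_mm (w := 56) (j := 3) (by decide +kernel)
theorem L00072 : Good (Phi V4.P V4.D (-1) (-1)) ⟨3, 3, 2, 0, 2, 3, 3, 6, 4, 1⟩ :=
  leaf_sound (S := T4.ds_mm) T4.ok_mm (w := 176) (c := ⟨⟨.negSucc 687, .negSucc 213, .ofNat 21, .negSucc 156, .negSucc 11, .negSucc 80⟩, ⟨.negSucc 54, .ofNat 57, .ofNat 203, .negSucc 2, .negSucc 0, .negSucc 1⟩, ⟨.ofNat 248, .ofNat 125, .ofNat 34, .ofNat 72, .negSucc 19, .ofNat 37⟩, ⟨.negSucc 1727, .negSucc 290, .negSucc 90, .negSucc 370, .negSucc 30, .negSucc 188⟩, ⟨.negSucc 863, .negSucc 143, .negSucc 16, .negSucc 66, .ofNat 9, .negSucc 118⟩, .ofNat 575, .negSucc 132, .ofNat 0, .negSucc 132, .ofNat 7011, .ofNat 0, .ofNat 817, .ofNat 113, .negSucc 572, .ofNat 0, .ofNat 144, .negSucc 0, .ofNat 0, .ofNat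 0, .ofNat 1017, .ofNat 11802, .ofNat 0, .ofNat 0, .ofNat 0, .ofNat 0, .ofNat 0, .ofNat 0, .ofNat 645632871300332407704491812454400, .ofNat 0, .ofNat 0, .ofNat 0, .ofNat 918666537388387158261061228953600, .ofNat 0, .ofNat 0, .ofNat 0, .ofNat 719444845716552280960731080294400, .ofNat 0⟩)
    (by decide +kernel)
theorem L00073 : Good (Phi V4.P V4.D (-1) (-1)) ⟨3, 3, 2, 0, 3, 6, 3, 7, 4, 1⟩ :=
  leaf_sound (S := T4.ds_mm) T4.ok_mm (w := 184) (c := ⟨⟨.negSucc 744, .negSucc 197, .ofNat 165, .negSucc 112, .negSucc 11, .ofNat 12⟩, ⟨.negSucc 53, .ofNat 53, .ofNat 177, .negSucc 2, .negSucc 0, .ofNat 0⟩, ⟨.ofNat 239, .ofNat 130, .negSucc 58, .ofNat 68, .negSucc 11, .negSucc 14⟩, ⟨.negSucc 1850, .negSucc 267, .ofNat 206, .negSucc 272, .negSucc 31, .ofNat 31⟩, ⟨.negSucc 867, .negSucc 162, .ofNat 152, .negSucc 79, .ofNat 62, .negSucc 57⟩, .ofNat 576, .negSucc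 140, .ofNat 0, .negSucc 140, .ofNat 6985, .ofNat 0, .ofNat 402, .ofNat 58, .negSucc 322, .ofNat 0, .ofNat 73, .negSucc 2, .ofNat 0, .ofNat 0, .ofNat 533, .ofNat 4629, .ofNat 0, .ofNat 22396689861963919065717138889113600, .ofNat 712756700426218954053504938803200, .ofNat 0, .ofNat 0, .ofNat 143114931059517681031145121959116800, .ofNat 102893799515355912883117121077248000, .ofNat 0, .ofNat 0, .ofNat 0, .ofNat 91538275254460267931333666065612800, .ofNat 0, .ofNat 0, .ofNat 1820527426708230684443764377570508800, .ofNat 59370784848394852336250463977472000, .ofNat 0⟩)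
    (by decide +kernel)
theorem L00074 : Good (Phi V4.P V4.D (-1) (-1)) ⟨3, 3, 3, 0, 3, 7, 3, 7, 4, 1⟩ :=
  leaf_sound (S := T4.ds_mm) T4.ok_mm (w := 192) (c := ⟨⟨.negSucc 837, .negSucc 204, .ofNat 46, .negSucc 25, .negSucc 10, .negSucc 26⟩, ⟨.negSucc 60, .ofNat 61, .ofNat 117, .ofNat 0, .ofNat 0, .negSucc 0⟩, ⟨.ofNat 314, .ofNat 111, .ofNat 10, .negSucc 4, .negSucc 13, .negSucc 6⟩, ⟨.negSucc 2090, .negSucc 255, .ofNat 42, .negSucc 61, .negSucc 27, .negSucc 61⟩, ⟨.negSucc 879, .negSucc 218, .ofNat 58, .ofNat 12, .ofNat 76, .negSucc 134⟩, .ofNat 570, .negSucc 119, .ofNat 0, .negSucc 119, .ofNat 7262, .ofNat 0, .ofNat 442, .ofNat 64, .negSucc 310, .ofNat 0, .ofNat 74, .negSucc 0, .ofNat 0, .ofNat 0, .ofNat 517, .ofNat 6167, .ofNat 0, .ofNat 209076689797005831245289527810457600, .ofNat 475039292632355483432626264473600, .ofNat 0, .ofNat 0, .ofNat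 1059411307692273593352737635329638400, .ofNat 79176576682394063830760226501427200, .ofNat 0, .ofNat 0, .ofNat 0, .ofNat 0, .ofNat 0, .ofNat 0, .ofNat 6793418414305139914359049585007001600, .ofNat 48803223029301315264053945932185600, .ofNat 0⟩)
    (by decide +kernel)
theorem L00075 : Good (Phi V4.P V4.D (-1) (-1)) ⟨3, 3, 3, 1, 3, 7, 3, 7, 4, 1⟩ :=
  out_sound (S := T4.ds_mm) T4.ok_mm (w := 48) (j := 3) (by decide +kernel)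
theorem L00076 : Good (Phi V4.P V4.D (-1) (-1)) ⟨2, 1, 2, 1, 2, 3, 1, 1, 3, 0⟩ :=
  out_sound (S := T4.ds_mm) T4.ok_mm (w := 40) (j := 3) (by decide +kernel)
theorem L00077 : Good (Phi V4.P V4.D (-1) (-1)) ⟨2, 0, 1, 0, 2, 2, 2, 2, 3, 1⟩ :=
  leaf_sound (S := T4.ds_mm) T4.ok_mm (w := 168) (c := ⟨⟨.negSucc 429, .negSucc 45, .ofNat 113, .negSucc 145, .ofNat 55, .negSucc 51⟩, ⟨.negSucc 81, .negSucc 4, .ofNat 266, .ofNat 3, .negSucc 3, .ofNat 10⟩, ⟨.ofNat 130, .ofNat 24, .negSucc 43, .ofNat 121, .negSucc 137, .ofNat 29⟩, ⟨.negSucc 1294, .ofNat 9, .ofNat 26, .negSucc 439, .ofNat 166, .negSucc 157⟩, ⟨.negSucc 475, .negSucc 190, .negSucc 20, .negSucc 184, .ofNat 28, .negSucc 1⟩, .ofNat 401, .ofNat 44, .ofNat 0, .ofNat 44, .ofNat 668, .ofNat 0, .ofNat 593, .negSucc 86, .negSucc 460, .ofNat 0, .ofNat 376, .ofNat 115, .ofNat 0, .ofNat 0, .ofNat 964,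 .ofNat 8242, .ofNat 0, .ofNat 0, .ofNat 0, .ofNat 0, .ofNat 0, .ofNat 0, .ofNat 0, .ofNat 0, .ofNat 0, .ofNat 0, .ofNat 0, .ofNat 0, .ofNat 0, .ofNat 0, .ofNat 0, .ofNat 0⟩)
    (by decide +kernel)
theorem L00078 : Good (Phi V4.P V4.D (-1) (-1)) ⟨2, 0, 1, 0, 2, 3, 2, 2, 3, 1⟩ :=
  leaf_sound (S := T4.ds_mm) T4.ok_mm (w := 160) (c := ⟨⟨.negSucc 576, .negSucc 31, .ofNat 112, .negSucc 217, .ofNat 36, .negSucc 59⟩, ⟨.negSucc 84, .negSucc 36, .ofNat 370, .ofNat 25, .ofNat 0, .negSucc 6⟩, ⟨.ofNat 235, .ofNat 5, .negSucc 14, .ofNat 173, .negSucc 77, .ofNat 12⟩, ⟨.negSucc 1749, .ofNat 88, .ofNat 8, .negSucc 618, .ofNat 107, .negSucc 195⟩, ⟨.negSucc 501, .negSucc 423, .negSucc 13, .ofNat 9, .ofNat 56, .negSucc 111⟩, .ofNat 400, .ofNat 34, .ofNat 0, .ofNat 34, .ofNat 663, .ofNat 0, .ofNat 704, .negSucc 103, .negSucc 444, .ofNat 0, .ofNat 420, .ofNat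 123, .ofNat 0, .ofNat 0, .ofNat 951, .ofNat 4669, .ofNat 0, .ofNat 0, .ofNat 0, .ofNat 0, .ofNat 0, .ofNat 0, .ofNat 1727957448412770717063865958400, .ofNat 0, .ofNat 0, .ofNat 0, .ofNat 0, .ofNat 0, .ofNat 0, .ofNat 0, .ofNat 0, .ofNat 0⟩)
    (by decide +kernel)
theorem L00079 : Good (Phi V4.P V4.D (-1) (-1)) ⟨2, 1, 2, 0, 1, 1, 2, 2, 3, 1⟩ :=
  leaf_sound (S := T4.ds_mm) T4.ok_mm (w := 160) (c := ⟨⟨.negSucc 459, .negSucc 258, .ofNat 68, .negSucc 424, .ofNat 54, .negSucc 18⟩, ⟨.negSucc 82, .ofNat 89, .ofNat 174, .negSucc 16, .negSucc 2, .negSucc 2⟩, ⟨.ofNat 171, .ofNat 199, .negSucc 22, .ofNat 254, .negSucc 147, .ofNat 27⟩, ⟨.negSucc 1295, .negSucc 300, .negSucc 9, .negSucc 1055, .ofNat 131, .negSucc 37⟩, ⟨.negSucc 487, .negSucc 179, .ofNat 9, .negSucc 568, .negSucc 47, .negSucc 136⟩, .ofNat 519, .negSucc 36, .ofNat 0, .negSucc 36, .ofNat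 2060, .ofNat 0, .ofNat 620, .ofNat 29, .negSucc 411, .ofNat 0, .ofNat 223, .ofNat 18, .ofNat 0, .ofNat 0, .ofNat 947, .ofNat 4838, .ofNat 0, .ofNat 0, .ofNat 0, .ofNat 0, .ofNat 0, .ofNat 175620369901294062246297600000, .ofNat 5685651339784748010779443200, .ofNat 0, .ofNat 0, .ofNat 0, .ofNat 10528036382746189495900569600, .ofNat 0, .ofNat 0, .ofNat 0, .ofNat 0, .ofNat 0⟩)
    (by decide +kernel)
theorem L00080 : Good (Phi V4.P V4.D (-1) (-1)) ⟨2, 1, 2, 1, 1, 1, 2, 2, 3, 1⟩ :=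
  out_sound (S := T4.ds_mm) T4.ok_mm (w := 40) (j := 3) (by decide +kernel)
theorem L00081 : Good (Phi V4.P V4.D (-1) (-1)) ⟨2, 0, 1, 0, 2, 2, 2, 3, 3, 1⟩ :=
  leaf_sound (S := T4.ds_mm) T4.ok_mm (w := 160) (c := ⟨⟨.negSucc 385, .negSucc 35, .ofNat 102, .negSucc 186, .ofNat 73, .ofNat 11⟩, ⟨.negSucc 73, .negSucc 10, .ofNat 233, .ofNat 12, .ofNat 10, .ofNat 7⟩, ⟨.negSucc 42, .ofNat 20, .negSucc 28, .ofNat 204, .negSucc 120, .ofNat 11⟩, ⟨.negSucc 1179, .ofNat 25, .ofNat 36, .negSucc 556, .ofNat 231, .ofNat 38⟩, ⟨.negSucc 493, .negSucc 223, .negSucc 4, .negSucc 137, .ofNat 214, .ofNat 57⟩, .ofNat 400, .ofNat 35, .ofNat 0, .ofNat 35, .ofNat 663, .ofNat 0, .ofNat 644, .negSucc 59, .negSucc 564, .ofNat 0, .ofNat 405, .ofNat 84, .ofNat 0, .ofNat 0, .ofNat 1018, .ofNat 4584, .ofNat 0, .ofNat 0, .ofNat 0, .ofNat 0, .ofNat 0, .ofNat 64663925115594053105136068198400,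 .ofNat 991255121176408694741532672000, .ofNat 0, .ofNat 0, .ofNat 0, .ofNat 0, .ofNat 0, .ofNat 0, .ofNat 81381308224750534916390780928000, .ofNat 0, .ofNat 0⟩)
    (by decide +kernel)
theorem L00082 : Good (Phi V4.P V4.D (-1) (-1)) ⟨2, 1, 1, 0, 2, 2, 2, 3, 3, 1⟩ :=
  leaf_sound (S := T4.ds_mm) T4.ok_mm (w := 160) (c := ⟨⟨.negSucc 495, .negSucc 185, .ofNat 132, .negSucc 211, .ofNat 164, .ofNat 109⟩, ⟨.negSucc 74, .ofNat 73, .ofNat 267, .negSucc 7, .ofNat 5, .ofNat 3⟩, ⟨.ofNat 63, .ofNat 164, .negSucc 121, .ofNat 167, .negSucc 193, .negSucc 48⟩, ⟨.negSucc 1349, .negSucc 196, .ofNat 85, .negSucc 530, .ofNat 413, .ofNat 268⟩, ⟨.negSucc 525, .negSucc 193, .negSucc 2, .negSucc 365, .ofNat 109, .negSucc 34⟩, .ofNat 511, .negSucc 24, .ofNat 0, .negSucc 24, .ofNat 2166, .ofNat 0, .ofNat 617, .ofNat 26, .negSucc 500, .ofNat 0, .ofNat 216, .ofNat 6,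 .ofNat 0, .ofNat 0, .ofNat 980, .ofNat 2705, .ofNat 0, .ofNat 7918767554569472788188364800, .ofNat 6806857124882148818839142400, .ofNat 0, .ofNat 0, .ofNat 66311448246148785949342118707200, .ofNat 3603210013766808374862466252800, .ofNat 0, .ofNat 0, .ofNat 0, .ofNat 4625638935979389949444305715200, .ofNat 0, .ofNat 0, .ofNat 82640830346496078961703701708800, .ofNat 2677759141138848501497384140800, .ofNat 0⟩)
    (by decide +kernel)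
theorem L00083 : Good (Phi V4.P V4.D (-1) (-1)) ⟨2, 0, 2, 0, 2, 3, 2, 3, 3, 1⟩ :=
  leaf_sound (S := T4.ds_mm) T4.ok_mm (w := 168) (c := ⟨⟨.negSucc 569, .negSucc 21, .ofNat 61, .negSucc 210, .ofNat 13, .negSucc 17⟩, ⟨.negSucc 74, .negSucc 48, .ofNat 172, .ofNat 28, .ofNat 34, .ofNat 1⟩, ⟨.ofNat 166, .negSucc 44, .ofNat 6, .ofNat 201, .negSucc 18, .ofNat 9⟩, ⟨.negSucc 1745, .ofNat 109, .ofNat 27, .negSucc 583, .ofNat 72, .negSucc 48⟩, ⟨.negSucc 479, .negSucc 502, .ofNat 29, .ofNat 110, .ofNat 312, .negSucc 51⟩, .ofNat 579, .ofNat 68, .ofNat 0, .ofNat 68, .ofNat 1404, .ofNat 0, .ofNat 675, .negSucc 64, .negSucc 391, .ofNat 0, .ofNat 327, .ofNat 66, .ofNat 0, .ofNat 0, .ofNat 935, .ofNat 3011, .ofNat 0, .ofNat 0, .ofNat 0, .ofNat 0, .ofNat 0, .ofNat 210995007379939441202365779148800, .ofNat 0, .ofNat 0, .ofNat 0, .ofNat 177026745280490999715033671270400,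 .ofNat 0, .ofNat 0, .ofNat 0, .ofNat 0, .ofNat 0, .ofNat 0⟩)
    (by decide +kernel)
theorem L00084 : Good (Phi V4.P V4.D (-1) (-1)) ⟨2, 0, 2, 1, 2, 3, 2, 3, 3, 1⟩ :=
  leaf_sound (S := T4.ds_mm) T4.ok_mm (w := 168) (c := ⟨⟨.negSucc 521, .ofNat 93, .ofNat 66, .negSucc 226, .negSucc 26, .negSucc 59⟩, ⟨.ofNat 83, .negSucc 99, .ofNat 154, .ofNat 80, .ofNat 32, .ofNat 13⟩, ⟨.ofNat 160, .negSucc 118, .ofNat 5, .ofNat 248, .ofNat 25, .ofNat 23⟩, ⟨.negSucc 1712, .ofNat 272, .ofNat 89, .negSucc 599, .ofNat 14, .negSucc 192⟩, ⟨.negSucc 546, .negSucc 548, .ofNat 10, .ofNat 268, .ofNat 375, .negSucc 23⟩, .ofNat 646, .ofNat 295, .ofNat 0, .ofNat 295, .ofNat 1445, .ofNat 0, .ofNat 611, .negSucc 290, .negSucc 388, .ofNat 0, .ofNat 352, .ofNat 133, .ofNat 0, .ofNat 0, .ofNat 919, .ofNat 3155, .ofNat 0, .ofNat 1572355765992458180673876787200, .ofNat 35285332977349049479436697600,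 .ofNat 0, .ofNat 0, .ofNat 200402807765624600044249704038400, .ofNat 0, .ofNat 0, .ofNat 0, .ofNat 176158095266301578766810139852800, .ofNat 0, .ofNat 0, .ofNat 0, .ofNat 0, .ofNat 0, .ofNat 0⟩)
    (by decide +kernel)
theorem L00085 : Good (Phi V4.P V4.D (-1) (-1)) ⟨3, 2, 2, 0, 3, 6, 2, 3, 5, 4⟩ :=
  leaf_sound (S := T4.ds_mm) T4.ok_mm (w := 184) (c := ⟨⟨.negSucc 640, .negSucc 108, .ofNat 116, .negSucc 111, .ofNat 34, .ofNat 1⟩, ⟨.negSucc 92, .ofNat 36, .ofNat 186, .negSucc 3, .ofNat 6, .negSucc 1⟩, ⟨.ofNat 192, .ofNat 68, .negSucc 43, .ofNat 79, .negSucc 71, .negSucc 2⟩, ⟨.negSucc 1734, .negSucc 120, .ofNat 113, .negSucc 298, .ofNat 94, .ofNat 6⟩, ⟨.negSucc 818, .negSucc 169, .ofNat 21, .negSucc 76, .ofNat 160, .negSucc 30⟩, .ofNat 539, .negSucc 13, .ofNat 0, .negSucc 13, .ofNat 1871, .ofNat 0, .ofNat 727, .ofNat 35, .negSucc 498, .ofNat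 0, .ofNat 271, .ofNat 25, .ofNat 0, .ofNat 0, .ofNat 989, .ofNat 9313, .ofNat 0, .ofNat 62553086194302316590286933013299200, .ofNat 0, .ofNat 0, .ofNat 0, .ofNat 7659782782097352896410044512757350400, .ofNat 0, .ofNat 0, .ofNat 0, .ofNat 0, .ofNat 0, .ofNat 0, .ofNat 0, .ofNat 0, .ofNat 0, .ofNat 0⟩)
    (by decide +kernel)
theorem L00086 : Good (Phi V4.P V4.D (-1) (-1)) ⟨3, 2, 2, 0, 3, 7, 2, 3, 5, 4⟩ :=
  leaf_sound (S := T4.ds_mm) T4.ok_mm (w := 184) (c := ⟨⟨.negSucc 749, .negSucc 118, .ofNat 109, .negSucc 67, .ofNat 38, .negSucc 6⟩, ⟨.negSucc 102, .ofNat 38, .ofNat 210, .ofNat 0, .ofNat 8, .negSucc 2⟩, ⟨.ofNat 274, .ofNat 51, .negSucc 9, .ofNat 45, .negSucc 66, .negSucc 1⟩, ⟨.negSucc 2033, .negSucc 119, .ofNat 96, .negSucc 176, .ofNat 98, .negSucc 17⟩, ⟨.negSucc 853, .negSucc 234, .ofNat 39, .ofNat 9, .ofNat 181, .negSucc 64⟩, .ofNat 628,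 .negSucc 35, .ofNat 0, .negSucc 35, .ofNat 3998, .ofNat 0, .ofNat 771, .ofNat 46, .negSucc 433, .ofNat 0, .ofNat 211, .ofNat 17, .ofNat 0, .ofNat 0, .ofNat 955, .ofNat 4342, .ofNat 0, .ofNat 62987257703015764523192702258380800, .ofNat 290598641218920971758531195699200, .ofNat 0, .ofNat 0, .ofNat 6072430991331519817677590342978764800, .ofNat 0, .ofNat 0, .ofNat 0, .ofNat 0, .ofNat 0, .ofNat 0, .ofNat 0, .ofNat 0, .ofNat 0, .ofNat 0⟩)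
    (by decide +kernel)
theorem L00087 : Good (Phi V4.P V4.D (-1) (-1)) ⟨3, 2, 2, 0, 2, 3, 2, 3, 5, 5⟩ :=
  leaf_sound (S := T4.ds_mm) T4.ok_mm (w := 176) (c := ⟨⟨.negSucc 656, .negSucc 99, .ofNat 111, .negSucc 199, .ofNat 78, .ofNat 9⟩, ⟨.negSucc 100, .ofNat 42, .ofNat 200, .negSucc 7, .ofNat 8, .ofNat 1⟩, ⟨.ofNat 206, .ofNat 51, .negSucc 31, .ofNat 123, .negSucc 92, .negSucc 3⟩, ⟨.negSucc 1779, .negSucc 75, .ofNat 91, .negSucc 527, .ofNat 193, .ofNat 21⟩, ⟨.negSucc 812, .negSucc 213, .negSucc 0, .negSucc 148, .ofNat 160, .negSucc 51⟩, .ofNat 538, .negSucc 25, .ofNat 0, .negSucc 25, .ofNat 1868, .ofNat 0, .ofNat 732, .ofNat 43, .negSucc 441, .ofNat 0, .ofNat 271, .ofNat 25, .ofNat 0, .ofNat 0, .ofNat 956, .ofNat 6078, .ofNat 0, .ofNat 0, .ofNat 0, .ofNat 0, .ofNat 0, .ofNat 82976437038000405133256695794892800, .ofNat 0, .ofNat 0, .ofNat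 0, .ofNat 0, .ofNat 0, .ofNat 0, .ofNat 0, .ofNat 0, .ofNat 0, .ofNat 0⟩)
    (by decide +kernel)
theorem L00088 : Good (Phi V4.P V4.D (-1) (-1)) ⟨3, 2, 2, 0, 2, 3, 2, 3, 4, 3⟩ :=
  leaf_sound (S := T4.ds_mm) T4.ok_mm (w := 176) (c := ⟨⟨.negSucc 652, .negSucc 88, .ofNat 112, .negSucc 208, .ofNat 101, .ofNat 43⟩, ⟨.negSucc 96, .ofNat 40, .ofNat 185, .negSucc 8, .ofNat 5, .negSucc 0⟩, ⟨.ofNat 207, .ofNat 53, .negSucc 49, .ofNat 125, .negSucc 121, .negSucc 25⟩, ⟨.negSucc 1766, .negSucc 60, .ofNat 85, .negSucc 548, .ofNat 269, .ofNat 120⟩, ⟨.negSucc 827, .negSucc 206, .negSucc 1, .negSucc 236, .ofNat 118, .negSucc 65⟩, .ofNat 538, .negSucc 21, .ofNat 0, .negSucc 21, .ofNat 1874, .ofNat 0, .ofNat 676, .ofNat 27, .negSucc 413, .ofNat 0, .ofNat 255, .ofNat 21, .ofNat 0, .ofNat 0, .ofNat 934, .ofNat 7133, .ofNat 0, .ofNat 0, .ofNat 0, .ofNat 0, .ofNat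 0, .ofNat 46117435739593295964718443685478400, .ofNat 0, .ofNat 0, .ofNat 0, .ofNat 9014519421681758386131181554892800, .ofNat 6545337782500095760980246528000, .ofNat 0, .ofNat 0, .ofNat 37724090607544717707776052166656000, .ofNat 0, .ofNat 0⟩)
    (by decide +kernel)
theorem L00089 : Good (Phi V4.P V4.D (-1) (-1)) ⟨3, 3, 2, 0, 2, 3, 2, 3, 4, 2⟩ :=
  leaf_sound (S := T4.ds_mm) T4.ok_mm (w := 176) (c := ⟨⟨.negSucc 779, .negSucc 175, .ofNat 205, .negSucc 208, .ofNat 79, .ofNat 39⟩, ⟨.negSucc 59, .ofNat 61, .ofNat 205, .negSucc 4, .ofNat 4, .ofNat 0⟩, ⟨.ofNat 314, .ofNat 104, .negSucc 97, .ofNat 77, .negSucc 124, .negSucc 31⟩, ⟨.negSucc 1944, .negSucc 205, .ofNat 315, .negSucc 494, .ofNat 192, .ofNat 98⟩, ⟨.negSucc 846, .negSucc 191, .ofNat 67, .negSucc 268, .ofNat 25, .negSucc 158⟩, .ofNat 575, .negSucc 141, .ofNat 0, .negSucc 141, .ofNat 6918,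 .ofNat 0, .ofNat 768, .ofNat 100, .negSucc 516, .ofNat 0, .ofNat 140, .negSucc 1, .ofNat 0, .ofNat 0, .ofNat 986, .ofNat 4709, .ofNat 0, .ofNat 114333437056015474099803389952000, .ofNat 56107816109348641887485952000, .ofNat 0, .ofNat 0, .ofNat 15115729593550604715020457816883200, .ofNat 61811289853940731604590028390400, .ofNat 0, .ofNat 0, .ofNat 0, .ofNat 53083380944944523744840672870400, .ofNat 0, .ofNat 0, .ofNat 21865750161097281985915161831014400, .ofNat 38740043361139760427666348441600, .ofNat 0⟩)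
    (by decide +kernel)
theorem L00090 : Good (Phi V4.P V4.D (-1) (-1)) ⟨3, 3, 2, 0, 2, 3, 2, 3, 4, 3⟩ :=
  leaf_sound (S := T4.ds_mm) T4.ok_mm (w := 176) (c := ⟨⟨.negSucc 758, .negSucc 136, .ofNat 134, .negSucc 227, .ofNat 159, .ofNat 82⟩, ⟨.negSucc 57, .ofNat 59, .ofNat 192, .negSucc 3, .ofNat 4, .ofNat 2⟩, ⟨.ofNat 296, .ofNat 86, .negSucc 84, .ofNat 81, .negSucc 186, .negSucc 46⟩, ⟨.negSucc 1883, .negSucc 131, .ofNat 134, .negSucc 528, .ofNat 383, .ofNat 195⟩, ⟨.negSucc 957, .negSucc 184, .negSucc 16, .negSucc 398, .ofNat 26, .negSucc 94⟩, .ofNat 493, .negSucc 35, .ofNat 0, .negSucc 35, .ofNat 2417, .ofNat 0, .ofNat 1439, .ofNat 88, .negSucc 1000, .ofNat 0, .ofNat 422, .ofNat 21, .ofNat 0, .ofNat 0, .ofNat 1939, .ofNat 8242, .ofNat 0, .ofNat 0, .ofNat 0, .ofNat 0, .ofNat 0, .ofNat 113712387420019038005074017543782400, .ofNat 0, .ofNat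 0, .ofNat 0, .ofNat 0, .ofNat 207841759874993078463973294080000, .ofNat 0, .ofNat 0, .ofNat 137101083145599395549231021083852800, .ofNat 0, .ofNat 0⟩)
    (by decide +kernel)
theorem L00091 : Good (Phi V4.P V4.D (-1) (-1)) ⟨2, 1, 2, 1, 2, 3, 2, 3, 3, 1⟩ :=
  out_sound (S := T4.ds_mm) T4.ok_mm (w := 40) (j := 3) (by decide +kernel)
theorem L00092 : Good (Phi V4.P V4.D (-1) (-1)) ⟨1, 0, 1, 0, 2, 2, 2, 2, 3, 2⟩ :=
  leaf_sound (S := T4.ds_mm) T4.ok_mm (w := 160) (c := ⟨⟨.negSucc 491, .negSucc 191, .ofNat 144, .negSucc 168, .ofNat 125, .ofNat 60⟩, ⟨.negSucc 81, .ofNat 57, .ofNat 243, .negSucc 0, .negSucc 1, .ofNat 1⟩, ⟨.ofNat 146, .ofNat 230, .negSucc 80, .ofNat 120, .negSucc 183, .negSucc 41⟩, ⟨.negSucc 1508, .negSucc 57, .ofNat 64, .negSucc 454, .ofNat 335, .ofNat 143⟩, ⟨.negSucc 410, .negSucc 382, .negSucc 7, .negSucc 322, .ofNat 19, .negSucc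 3⟩, .ofNat 384, .ofNat 15, .ofNat 0, .ofNat 15, .ofNat 714, .ofNat 0, .ofNat 534, .negSucc 29, .negSucc 380, .ofNat 0, .ofNat 318, .ofNat 58, .ofNat 0, .ofNat 0, .ofNat 889, .ofNat 2507, .ofNat 0, .ofNat 0, .ofNat 0, .ofNat 0, .ofNat 0, .ofNat 0, .ofNat 0, .ofNat 0, .ofNat 0, .ofNat 0, .ofNat 0, .ofNat 0, .ofNat 0, .ofNat 0, .ofNat 0, .ofNat 0⟩)
    (by decide +kernel)
theorem L00093 : Good (Phi V4.P V4.D (-1) (-1)) ⟨1, 0, 1, 0, 2, 3, 2, 2, 3, 2⟩ :=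
  leaf_sound (S := T4.ds_mm) T4.ok_mm (w := 160) (c := ⟨⟨.negSucc 629, .negSucc 273, .ofNat 129, .negSucc 192, .ofNat 114, .ofNat 93⟩, ⟨.negSucc 109, .ofNat 78, .ofNat 370, .negSucc 0, .negSucc 0, .ofNat 1⟩, ⟨.ofNat 236, .ofNat 245, .negSucc 43, .ofNat 120, .negSucc 152, .negSucc 33⟩, ⟨.negSucc 1943, .negSucc 91, .negSucc 30, .negSucc 533, .ofNat 269, .ofNat 199⟩, ⟨.negSucc 534, .negSucc 747, .negSucc 26, .negSucc 246, .ofNat 5, .negSucc 58⟩, .ofNat 378, .ofNat 11, .ofNat 0, .ofNat 11, .ofNat 731, .ofNat 0, .ofNat 635, .negSucc 58, .negSucc 371, .ofNat 0, .ofNat 351, .ofNat 75, .ofNat 0, .ofNat 0, .ofNat 911, .ofNat 2442, .ofNat 0, .ofNat 0, .ofNat 0, .ofNat 0, .ofNat 0, .ofNat 3794603851376502317842327142400, .ofNat 0, .ofNat 0, .ofNat 0, .ofNat 0, .ofNat 0, .ofNat 0, .ofNat 0, .ofNat 4136057554041230362466372812800, .ofNat 0, .ofNat 0⟩)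
    (by decide +kernel)
theorem L00094 : Good (Phi V4.P V4.D (-1) (-1)) ⟨1, 0, 1, 0, 1, 1, 2, 2, 3, 3⟩ :=
  leaf_sound (S := T4.ds_mm) T4.ok_mm (w := 152) (c := ⟨⟨.negSucc 462, .negSucc 157, .ofNat 117, .negSucc 232, .ofNat 147, .ofNat 50⟩, ⟨.negSucc 79, .ofNat 63, .ofNat 230, .negSucc 4, .negSucc 8, .ofNat 5⟩, ⟨.ofNat 95, .ofNat 260, .negSucc 66, .ofNat 187, .negSucc 196, .negSucc 32⟩, ⟨.negSucc 1423, .negSucc 6, .ofNat 33, .negSucc 650, .ofNat 367, .ofNat 151⟩, ⟨.negSucc 451, .negSucc 321, .negSucc 21, .negSucc 645, .ofNat 48, .ofNat 13⟩, .ofNat 382, .ofNat 17, .ofNat 0, .ofNat 17, .ofNat 722, .ofNat 0, .ofNat 445, .negSucc 25, .negSucc 285, .ofNat 0, .ofNat 272, .ofNat 42, .ofNat 0, .ofNat 0, .ofNat 805, .ofNat 3417, .ofNat 0, .ofNat 0, .ofNat 0, .ofNat 0, .ofNat 0, .ofNat 37474024877800558717147545600, .ofNat 0, .ofNat 0, .ofNat 0, .ofNat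 20025082164733604603206041600, .ofNat 0, .ofNat 0, .ofNat 0, .ofNat 41684036574855310675122585600, .ofNat 0, .ofNat 0⟩)
    (by decide +kernel)
theorem L00095 : Good (Phi V4.P V4.D (-1) (-1)) ⟨1, 0, 1, 0, 1, 1, 2, 3, 2, 1⟩ :=
  leaf_sound (S := T4.ds_mm) T4.ok_mm (w := 144) (c := ⟨⟨.negSucc 382, .negSucc 143, .ofNat 82, .negSucc 352, .ofNat 195, .ofNat 121⟩, ⟨.negSucc 75, .ofNat 61, .ofNat 223, .negSucc 9, .negSucc 8, .ofNat 5⟩, ⟨.negSucc 28, .ofNat 172, .negSucc 20, .ofNat 295, .negSucc 218, .negSucc 46⟩, ⟨.negSucc 1208, .ofNat 1, .ofNat 17, .negSucc 937, .ofNat 509, .ofNat 339⟩, ⟨.negSucc 384, .negSucc 380, .negSucc 5, .negSucc 633, .ofNat 167, .ofNat 44⟩, .ofNat 384, .ofNat 24, .ofNat 0, .ofNat 24, .ofNat 713, .ofNat 0, .ofNat 566, .negSucc 38, .negSucc 475, .ofNat 0, .ofNat 336, .ofNat 47, .ofNat 0, .ofNat 0, .ofNat 924, .ofNat 2652,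 .ofNat 0, .ofNat 0, .ofNat 0, .ofNat 0, .ofNat 0, .ofNat 15548095411855543817050521600, .ofNat 0, .ofNat 0, .ofNat 0, .ofNat 16860084034225557037960396800, .ofNat 933798110293539132486451200, .ofNat 0, .ofNat 0, .ofNat 14202576876471719818375987200, .ofNat 1016317305227086263956275200, .ofNat 0⟩)
    (by decide +kernel)
theorem L00096 : Good (Phi V4.P V4.D (-1) (-1)) ⟨1, 0, 1, 0, 1, 0, 1, 0, 2, 2⟩ :=
  leaf_sound (S := T4.ds_mm) T4.ok_mm (w := 144) (c := ⟨⟨.negSucc 498, .negSucc 155, .ofNat 37, .negSucc 48, .ofNat 182, .ofNat 77⟩, ⟨.negSucc 14, .ofNat 26, .ofNat 199, .negSucc 26, .negSucc 20, .ofNat 19⟩, ⟨.ofNat 263, .ofNat 237, .negSucc 18, .ofNat 99, .negSucc 318, .negSucc 64⟩, ⟨.negSucc 1509, .negSucc 64, .negSucc 6, .negSucc 159, .ofNat 498, .ofNat 233⟩, ⟨.ofNat 90, .negSucc 61, .ofNat 9, .negSucc 587, .negSucc 44, .ofNat 16⟩, .ofNat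 382, .ofNat 16, .ofNat 0, .ofNat 16, .ofNat 724, .ofNat 0, .ofNat 346, .negSucc 14, .negSucc 217, .ofNat 0, .ofNat 221, .ofNat 20, .ofNat 0, .ofNat 0, .ofNat 730, .ofNat 7809, .ofNat 340605800837452641101414400, .ofNat 0, .ofNat 0, .ofNat 0, .ofNat 9860751637085913447451852800, .ofNat 0, .ofNat 0, .ofNat 0, .ofNat 0, .ofNat 0, .ofNat 0, .ofNat 0, .ofNat 19334761005796844574552883200, .ofNat 0, .ofNat 0, .ofNat 0⟩)
    (by decide +kernel)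
theorem L00097 : Good (Phi V4.P V4.D (-1) (-1)) ⟨1, 0, 1, 0, 1, 1, 1, 0, 2, 2⟩ :=
  leaf_sound (S := T4.ds_mm) T4.ok_mm (w := 144) (c := ⟨⟨.negSucc 571, .negSucc 185, .ofNat 74, .negSucc 121, .ofNat 184, .ofNat 151⟩, ⟨.negSucc 75, .ofNat 60, .ofNat 248, .negSucc 42, .negSucc 5, .negSucc 9⟩, ⟨.ofNat 348, .ofNat 374, .negSucc 15, .ofNat 64, .negSucc 356, .negSucc 193⟩, ⟨.negSucc 1745, .negSucc 56, .negSucc 14, .negSucc 385, .ofNat 504, .ofNat 359⟩, ⟨.negSucc 441, .negSucc 226, .negSucc 5, .negSucc 665, .negSucc 41, .negSucc 21⟩, .ofNat 186, .ofNat 2, .ofNat 0, .ofNat 2, .ofNat 244, .ofNat 0, .ofNat 488, .negSucc 20, .negSucc 384, .ofNat 0, .ofNat 387, .ofNat 115, .ofNat 0, .ofNat 0, .ofNat 877, .ofNat 2348, .ofNat 0, .ofNat 0, .ofNat 0, .ofNat 0, .ofNat 0, .ofNat 3332125622615589599890636800, .ofNat 0, .ofNat 0, .ofNat 0, .ofNat 5548286650128421020814540800,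 .ofNat 0, .ofNat 0, .ofNat 0, .ofNat 2721063838446382527125913600, .ofNat 0, .ofNat 0⟩)
    (by decide +kernel)
theorem L00098 : Good (Phi V4.P V4.D (-1) (-1)) ⟨1, 0, 1, 0, 1, 0, 1, 0, 2, 3⟩ :=
  out_sound (S := T4.ds_mm) T4.ok_mm (w := 24) (j := 1) (by decide +kernel)
theorem L00099 : Good (Phi V4.P V4.D (-1) (-1)) ⟨1, 0, 1, 0, 1, 1, 1, 0, 2, 3⟩ :=
  out_sound (S := T4.ds_mm) T4.ok_mm (w := 24) (j := 2) (by decide +kernel)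
theorem L00100 : Good (Phi V4.P V4.D (-1) (-1)) ⟨2, 0, 1, 0, 1, 0, 2, 2, 2, 2⟩ :=
  leaf_sound (S := T4.ds_mm) T4.ok_mm (w := 152) (c := ⟨⟨.negSucc 359, .negSucc 10, .ofNat 33, .negSucc 25, .ofNat 102, .ofNat 52⟩, ⟨.negSucc 2, .negSucc 10, .ofNat 148, .negSucc 34, .negSucc 6, .negSucc 1⟩, ⟨.ofNat 2, .ofNat 33, .negSucc 17, .ofNat 51, .negSucc 120, .negSucc 6⟩, ⟨.negSucc 1062, .ofNat 41, .ofNat 8, .negSucc 128, .ofNat 303, .ofNat 154⟩, ⟨.negSucc 1, .negSucc 33, .negSucc 8, .negSucc 467, .ofNat 39, .ofNat 17⟩, .ofNat 400, .ofNat 34, .ofNat 0, .ofNat 34, .ofNat 667, .ofNat 0, .ofNat 332, .negSucc 30, .negSucc 238, .ofNat 0, .ofNat 233, .ofNat 21, .ofNat 0, .ofNat 0, .ofNat 679, .ofNat 6973, .ofNat 4918767227153602463976652800, .ofNat 0, .ofNat 0, .ofNat 0, .ofNat 0, .ofNat 38759677814198618356816281600, .ofNat 0, .ofNat 0, .ofNat 0, .ofNat 0,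 .ofNat 0, .ofNat 0, .ofNat 0, .ofNat 0, .ofNat 0, .ofNat 0⟩)
    (by decide +kernel)
theorem L00101 : Good (Phi V4.P V4.D (-1) (-1)) ⟨2, 0, 1, 0, 1, 0, 2, 3, 2, 2⟩ :=
  leaf_sound (S := T4.ds_mm) T4.ok_mm (w := 152) (c := ⟨⟨.negSucc 253, .ofNat 4, .ofNat 23, .ofNat 1, .ofNat 218, .ofNat 20⟩, ⟨.ofNat 8, .negSucc 11, .ofNat 78, .negSucc 23, .negSucc 19, .negSucc 2⟩, ⟨.negSucc 117, .ofNat 8, .negSucc 19, .ofNat 29, .negSucc 208, .ofNat 36⟩, ⟨.negSucc 754, .ofNat 58, .ofNat 23, .negSucc 33, .ofNat 642, .ofNat 59⟩, ⟨.negSucc 4, .negSucc 19, .negSucc 0, .negSucc 340, .ofNat 51, .ofNat 8⟩, .ofNat 400, .ofNat 34, .ofNat 0, .ofNat 34, .ofNat 663, .ofNat 0, .ofNat 353, .negSucc 31, .negSucc 320, .ofNat 0, .ofNat 249, .ofNat 19, .ofNat 0, .ofNat 0, .ofNat 700, .ofNat 4491, .ofNat 0, .ofNat 0, .ofNat 0, .ofNat 0, .ofNat 0, .ofNat 108714715605097133610369024000,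 .ofNat 0, .ofNat 0, .ofNat 0, .ofNat 52344373586046572875795660800, .ofNat 0, .ofNat 0, .ofNat 0, .ofNat 101285881039120297529180160000, .ofNat 0, .ofNat 0⟩)
    (by decide +kernel)
theorem L00102 : Good (Phi V4.P V4.D (-1) (-1)) ⟨2, 1, 1, 0, 2, 0, 2, 2, 2, 2⟩ :=
  leaf_sound (S := T4.ds_mm) T4.ok_mm (w := 160) (c := ⟨⟨.negSucc 412, .negSucc 76, .ofNat 38, .ofNat 27, .ofNat 131, .ofNat 56⟩, ⟨.negSucc 27, .ofNat 25, .ofNat 160, .negSucc 5, .ofNat 3, .ofNat 0⟩, ⟨.ofNat 65, .ofNat 93, .negSucc 16, .ofNat 17, .negSucc 150, .negSucc 17⟩, ⟨.negSucc 1118, .negSucc 32, .ofNat 61, .ofNat 66, .ofNat 335, .ofNat 143⟩, ⟨.negSucc 9, .negSucc 2, .ofNat 10, .negSucc 238, .ofNat 18, .ofNat 13⟩, .ofNat 368, .negSucc 6, .ofNat 0, .negSucc 6, .ofNat 795, .ofNat 0, .ofNat 344, .ofNat 6, .negSucc 277, .ofNat 0, .ofNat 201, .negSucc 0, .ofNat 0, .ofNat 0, .ofNat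 695, .ofNat 12314, .ofNat 1246743047224625976937178726400, .ofNat 0, .ofNat 0, .ofNat 0, .ofNat 6691005388985981290675804569600, .ofNat 0, .ofNat 266881383537104543771787264000, .ofNat 0, .ofNat 0, .ofNat 0, .ofNat 392531700568174055178161356800, .ofNat 0, .ofNat 0, .ofNat 0, .ofNat 0, .ofNat 0⟩)
    (by decide +kernel)
theorem L00103 : Good (Phi V4.P V4.D (-1) (-1)) ⟨2, 1, 1, 0, 2, 1, 2, 2, 2, 2⟩ :=
  leaf_sound (S := T4.ds_mm) T4.ok_mm (w := 160) (c := ⟨⟨.negSucc 424, .negSucc 70, .ofNat 76, .negSucc 42, .ofNat 161, .ofNat 90⟩, ⟨.negSucc 39, .ofNat 40, .ofNat 167, .negSucc 7, .ofNat 2, .ofNat 0⟩, ⟨.ofNat 114, .ofNat 118, .negSucc 54, .ofNat 68, .negSucc 192, .negSucc 55⟩, ⟨.negSucc 1137, .negSucc 1, .ofNat 70, .negSucc 96, .ofNat 388, .ofNat 220⟩, ⟨.negSucc 238, .negSucc 56, .ofNat 9, .negSucc 385, .ofNat 27, .ofNat 21⟩, .ofNat 364, .negSucc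 7, .ofNat 0, .negSucc 7, .ofNat 808, .ofNat 0, .ofNat 355, .ofNat 7, .negSucc 257, .ofNat 0, .ofNat 201, .ofNat 4, .ofNat 0, .ofNat 0, .ofNat 697, .ofNat 7046, .ofNat 0, .ofNat 0, .ofNat 0, .ofNat 0, .ofNat 0, .ofNat 8216390432153166548524911820800, .ofNat 0, .ofNat 0, .ofNat 0, .ofNat 0, .ofNat 0, .ofNat 0, .ofNat 0, .ofNat 12056694722746113382515789004800, .ofNat 0, .ofNat 0⟩)
    (by decide +kernel)
theorem L00104 : Good (Phi V4.P V4.D (-1) (-1)) ⟨2, 1, 1, 0, 1, 0, 2, 3, 2, 2⟩ :=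
  leaf_sound (S := T4.ds_mm) T4.ok_mm (w := 152) (c := ⟨⟨.negSucc 322, .negSucc 33, .negSucc 36, .ofNat 85, .ofNat 308, .ofNat 67⟩, ⟨.negSucc 18, .ofNat 15, .ofNat 83, .negSucc 6, .ofNat 9, .ofNat 2⟩, ⟨.negSucc 50, .ofNat 45, .ofNat 24, .negSucc 0, .negSucc 295, .negSucc 10⟩, ⟨.negSucc 853, .ofNat 5, .negSucc 126, .ofNat 219, .ofNat 770, .ofNat 167⟩, ⟨.negSucc 3, .negSucc 20, .negSucc 10, .negSucc 460, .ofNat 64, .ofNat 28⟩, .ofNat 368, .negSucc 10, .ofNat 0, .negSucc 10, .ofNat 792, .ofNat 0, .ofNat 372, .ofNat 11, .negSucc 365, .ofNat 0, .ofNat 217, .negSucc 6, .ofNat 0, .ofNat 0, .ofNat 730, .ofNat 2968, .ofNat 0, .ofNat 0, .ofNat 542544120374995827302400, .ofNat 0, .ofNat 0, .ofNat 148797502641053758802991513600, .ofNat 207942392501784424533196800, .ofNat 0, .ofNat 0, .ofNat 0, .ofNat 0, .ofNat 0, .ofNat 0, .ofNat 143258574181492306834410700800,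 .ofNat 251828766274016402472960000, .ofNat 0⟩)
    (by decide +kernel)
theorem L00105 : Good (Phi V4.P V4.D (-1) (-1)) ⟨1, 0, 1, 0, 1, 1, 1, 1, 2, 2⟩ :=
  leaf_sound (S := T4.ds_mm) T4.ok_mm (w := 144) (c := ⟨⟨.negSucc 398, .negSucc 150, .ofNat 83, .ofNat 0, .ofNat 0, .ofNat 0⟩, ⟨.negSucc 83, .ofNat 67, .ofNat 232, .ofNat 0, .ofNat 0, .ofNat 0⟩, ⟨.ofNat 33, .ofNat 282, .negSucc 35, .ofNat 0, .ofNat 0, .ofNat 0⟩, ⟨.negSucc 1261, .ofNat 0, .ofNat 11, .ofNat 0, .ofNat 0, .ofNat 0⟩, ⟨.negSucc 460, .negSucc 262, .negSucc 12, .ofNat 0, .ofNat 0, .ofNat 0⟩, .ofNat 186, .ofNat 1, .ofNat 0, .ofNat 1, .ofNat 244, .ofNat 0, .ofNat 523, .negSucc 12, .negSucc 503, .ofNat 0, .ofNat 406, .ofNat 94, .ofNat 0, .ofNat 0, .ofNat 907, .ofNat 11217, .ofNat 0, .ofNat 0, .ofNat 0, .ofNat 0, .ofNat 0, .ofNat 97728611401990338555307622400, .ofNat 0, .ofNat 0, .ofNat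 0, .ofNat 78247815299084810276831232000, .ofNat 170506073552170612948992000, .ofNat 0, .ofNat 0, .ofNat 140392747022418113890929868800, .ofNat 157128894360420549525504000, .ofNat 0⟩)
    (by decide +kernel)
theorem L00106 : Good (Phi V4.P V4.D (-1) (-1)) ⟨1, 0, 1, 0, 1, 0, 2, 2, 2, 3⟩ :=
  leaf_sound (S := T4.ds_mm) T4.ok_mm (w := 144) (c := ⟨⟨.negSucc 308, .negSucc 50, .ofNat 9, .ofNat 69, .ofNat 85, .ofNat 70⟩, ⟨.negSucc 27, .ofNat 9, .ofNat 104, .negSucc 13, .ofNat 15, .ofNat 17⟩, ⟨.negSucc 16, .ofNat 84, .negSucc 10, .negSucc 10, .negSucc 90, .negSucc 26⟩, ⟨.negSucc 983, .ofNat 50, .negSucc 33, .ofNat 180, .ofNat 293, .ofNat 155⟩, ⟨.negSucc 82, .negSucc 39, .ofNat 19, .negSucc 403, .ofNat 109, .negSucc 117⟩, .ofNat 545, .ofNat 58, .ofNat 0, .ofNat 58, .ofNat 1671, .ofNat 0, .ofNat 285, .negSucc 22, .negSucc 198, .ofNat 0, .ofNat 140,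 .ofNat 8, .ofNat 0, .ofNat 0, .ofNat 597, .ofNat 4168, .ofNat 6299918084515519140986880000, .ofNat 0, .ofNat 0, .ofNat 0, .ofNat 0, .ofNat 0, .ofNat 0, .ofNat 0, .ofNat 30319203556735315693535232000, .ofNat 0, .ofNat 1161377346808473617380147200, .ofNat 0, .ofNat 0, .ofNat 0, .ofNat 0, .ofNat 0⟩)
    (by decide +kernel)
theorem L00107 : Good (Phi V4.P V4.D (-1) (-1)) ⟨1, 0, 1, 0, 2, 0, 2, 3, 3, 6⟩ :=
  leaf_sound (S := T4.ds_mm) T4.ok_mm (w := 160) (c := ⟨⟨.negSucc 273, .ofNat 9, .ofNat 9, .ofNat 47, .ofNat 249, .ofNat 11⟩, ⟨.ofNat 2, .ofNat 4, .ofNat 54, .negSucc 7, .negSucc 14, .ofNat 2⟩, ⟨.negSucc 50, .ofNat 13, .negSucc 5, .negSucc 24, .negSucc 228, .ofNat 14⟩, ⟨.negSucc 785, .ofNat 123, .ofNat 6, .ofNat 120, .ofNat 677, .ofNat 20⟩, ⟨.negSucc 1, .negSucc 27, .ofNat 0, .negSucc 153, .ofNat 39, .ofNat 0⟩, .ofNat 382, .ofNat 17, .ofNat 0,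 .ofNat 17, .ofNat 725, .ofNat 0, .ofNat 331, .negSucc 14, .negSucc 336, .ofNat 0, .ofNat 212, .ofNat 7, .ofNat 0, .ofNat 0, .ofNat 656, .ofNat 5857, .ofNat 418262124765839845848042700800, .ofNat 0, .ofNat 0, .ofNat 0, .ofNat 0, .ofNat 3412872361705798692043436851200, .ofNat 0, .ofNat 0, .ofNat 0, .ofNat 0, .ofNat 0, .ofNat 0, .ofNat 0, .ofNat 3642409331302267586903172710400, .ofNat 0, .ofNat 0⟩)
    (by decide +kernel)
theorem L00108 : Good (Phi V4.P V4.D (-1) (-1)) ⟨1, 0, 1, 0, 2, 1, 2, 3, 3, 6⟩ :=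
  leaf_sound (S := T4.ds_mm) T4.ok_mm (w := 160) (c := ⟨⟨.negSucc 213, .negSucc 3, .ofNat 26, .ofNat 0, .ofNat 94, .ofNat 33⟩, ⟨.negSucc 31, .ofNat 25, .ofNat 118, .ofNat 0, .ofNat 9, .negSucc 24⟩, ⟨.negSucc 102, .ofNat 59, .negSucc 15, .ofNat 0, .negSucc 91, .negSucc 16⟩, ⟨.negSucc 664, .ofNat 170, .ofNat 9, .ofNat 0, .ofNat 255, .ofNat 54⟩, ⟨.negSucc 156, .negSucc 89, .ofNat 0, .ofNat 0, .ofNat 32, .ofNat 2⟩, .ofNat 187, .ofNat 2, .ofNat 0, .ofNat 2, .ofNat 243, .ofNat 0, .ofNat 838, .negSucc 10, .negSucc 1167, .ofNat 0, .ofNat 681, .ofNat 3, .ofNat 0, .ofNat 0, .ofNat 1692, .ofNat 55549, .ofNat 0, .ofNat 0, .ofNat 0, .ofNat 0, .ofNat 0, .ofNat 460367606017965673405686900326400, .ofNat 0, .ofNat 0, .ofNat 344909445355987245450419974963200, .ofNat 225421396208080641393467955609600, .ofNat 0, .ofNat 0, .ofNat 0, .ofNat 457647519571169418788804650598400,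 .ofNat 24840893850896913894682184908800, .ofNat 0⟩)
    (by decide +kernel)
theorem L00109 : Good (Phi V4.P V4.D (-1) (-1)) ⟨1, 0, 1, 0, 2, 0, 3, 6, 4, 14⟩ :=
  out_sound (S := T4.ds_mm) T4.ok_mm (w := 32) (j := 1) (by decide +kernel)
theorem L00110 : Good (Phi V4.P V4.D (-1) (-1)) ⟨1, 0, 1, 0, 2, 0, 4, 14, 5, 28⟩ :=
  out_sound (S := T4.ds_mm) T4.ok_mm (w := 32) (j := 1) (by decide +kernel)
theorem L00111 : Good (Phi V4.P V4.D (-1) (-1)) ⟨1, 0, 1, 0, 3, 0, 4, 15, 5, 28⟩ :=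
  out_sound (S := T4.ds_mm) T4.ok_mm (w := 32) (j := 1) (by decide +kernel)
theorem L00112 : Good (Phi V4.P V4.D (-1) (-1)) ⟨1, 0, 1, 0, 3, 1, 4, 15, 5, 28⟩ :=
  out_sound (S := T4.ds_mm) T4.ok_mm (w := 40) (j := 2) (by decide +kernel)
theorem L00113 : Good (Phi V4.P V4.D (-1) (-1)) ⟨1, 0, 1, 0, 2, 0, 3, 7, 5, 29⟩ :=
  out_sound (S := T4.ds_mm) T4.ok_mm (w := 32) (j := 1) (by decide +kernel)
theorem L00114 : Good (Phi V4.P V4.D (-1) (-1)) ⟨1, 0, 1, 0, 2, 0, 2, 3, 4, 15⟩ :=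
  out_sound (S := T4.ds_mm) T4.ok_mm (w := 24) (j := 1) (by decide +kernel)
theorem L00115 : Good (Phi V4.P V4.D (-1) (-1)) ⟨1, 0, 1, 0, 2, 1, 2, 3, 3, 7⟩ :=
  out_sound (S := T4.ds_mm) T4.ok_mm (w := 32) (j := 2) (by decide +kernel)
theorem L00116 : Good (Phi V4.P V4.D (-1) (-1)) ⟨1, 0, 1, 0, 1, 1, 1, 1, 2, 3⟩ :=
  out_sound (S := T4.ds_mm) T4.ok_mm (w := 24) (j := 2) (by decide +kernel)
theorem L00117 : Good (Phi V4.P V4.D (-1) (-1)) ⟨1, 0, 1, 1, 0, 0, 0, 0, 0, 0⟩ :=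
  out_sound (S := T4.ds_mm) T4.ok_mm (w := 32) (j := 3) (by decide +kernel)
theorem L00118 : Good (Phi V4.P V4.D (-1) (-1)) ⟨3, 4, 3, 0, 1, 0, 2, 0, 3, 0⟩ :=
  leaf_sound (S := T4.ds_mm) T4.ok_mm (w := 160) (c := ⟨⟨.negSucc 295, .negSucc 107, .ofNat 130, .ofNat 399, .negSucc 151, .negSucc 489⟩, ⟨.negSucc 4, .ofNat 37, .ofNat 36, .negSucc 19, .ofNat 6, .ofNat 19⟩, ⟨.ofNat 675, .ofNat 90, .negSucc 119, .negSucc 644, .negSucc 81, .ofNat 438⟩, ⟨.negSucc 675, .negSucc 108, .ofNat 260, .ofNat 828, .negSucc 324, .negSucc 1037⟩, ⟨.ofNat 98, .negSucc 12, .ofNat 31, .negSucc 353, .negSucc 108, .ofNat 18⟩, .ofNat 452, .ofNat 71, .ofNat 0, .ofNat 71, .ofNat 2423, .ofNat 0, .ofNat 532, .negSucc 53, .negSucc 559, .ofNat 0, .ofNat 174, .ofNat 29, .ofNat 0, .ofNat 0, .ofNat 1009, .ofNat 4623, .ofNat 2152079306549542580181899673600, .ofNat 0, .ofNat 21333826566543190671360000,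 .ofNat 0, .ofNat 0, .ofNat 0, .ofNat 0, .ofNat 0, .ofNat 0, .ofNat 0, .ofNat 0, .ofNat 0, .ofNat 0, .ofNat 0, .ofNat 0, .ofNat 0⟩)
    (by decide +kernel)
theorem L00119 : Good (Phi V4.P V4.D (-1) (-1)) ⟨3, 5, 3, 0, 2, 0, 2, 0, 3, 0⟩ :=
  leaf_sound (S := T4.ds_mm) T4.ok_mm (w := 168) (c := ⟨⟨.negSucc 474, .negSucc 296, .ofNat 24, .ofNat 302, .negSucc 72, .negSucc 524⟩, ⟨.ofNat 24, .ofNat 115, .ofNat 56, .negSucc 50, .ofNat 2, .ofNat 91⟩, ⟨.ofNat 846, .ofNat 299, .negSucc 33, .negSucc 463, .negSucc 156, .ofNat 490⟩, ⟨.negSucc 948, .negSucc 359, .ofNat 46, .ofNat 544, .negSucc 154, .negSucc 956⟩, ⟨.ofNat 27, .ofNat 41, .negSucc 20, .negSucc 81, .negSucc 58, .ofNat 31⟩, .ofNat 515, .ofNat 443, .ofNat 0, .ofNat 443, .ofNat 2780, .ofNat 0, .ofNat 247, .negSucc 116, .negSucc 355, .ofNat 0, .ofNat 106, .ofNat 64, .ofNat 0, .ofNat 0, .ofNat 563,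 .ofNat 2288, .ofNat 0, .ofNat 0, .ofNat 0, .ofNat 0, .ofNat 0, .ofNat 0, .ofNat 0, .ofNat 0, .ofNat 0, .ofNat 0, .ofNat 3170671617423045956120189337600, .ofNat 0, .ofNat 0, .ofNat 0, .ofNat 1438439215838244778032286924800, .ofNat 0⟩)
    (by decide +kernel)
theorem L00120 : Good (Phi V4.P V4.D (-1) (-1)) ⟨3, 5, 3, 0, 2, 1, 2, 0, 3, 0⟩ :=
  leaf_sound (S := T4.ds_mm) T4.ok_mm (w := 168) (c := ⟨⟨.ofNat 132, .negSucc 133, .ofNat 14, .ofNat 295, .negSucc 270, .negSucc 993⟩, ⟨.negSucc 74, .ofNat 73, .ofNat 31, .negSucc 78, .ofNat 34, .ofNat 194⟩, ⟨.ofNat 89, .ofNat 107, .negSucc 23, .negSucc 427, .ofNat 43, .ofNat 954⟩, ⟨.ofNat 158, .negSucc 105, .ofNat 2, .ofNat 476, .negSucc 523, .negSucc 1769⟩, ⟨.negSucc 70, .ofNat 15, .negSucc 4, .negSucc 293, .negSucc 148, .ofNat 132⟩, .ofNat 429, .ofNat 230, .ofNat 0, .ofNat 230, .ofNat 1573, .ofNat 0, .ofNat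 281, .negSucc 117, .negSucc 399, .ofNat 0, .ofNat 129, .ofNat 82, .ofNat 0, .ofNat 0, .ofNat 578, .ofNat 2896, .ofNat 0, .ofNat 0, .ofNat 0, .ofNat 0, .ofNat 0, .ofNat 0, .ofNat 0, .ofNat 0, .ofNat 0, .ofNat 0, .ofNat 0, .ofNat 0, .ofNat 0, .ofNat 0, .ofNat 0, .ofNat 0⟩)
    (by decide +kernel)
theorem L00121 : Good (Phi V4.P V4.D (-1) (-1)) ⟨2, 2, 3, 0, 1, 0, 2, 0, 3, 1⟩ :=
  leaf_sound (S := T4.ds_mm) T4.ok_mm (w := 160) (c := ⟨⟨.negSucc 584, .negSucc 467, .negSucc 8, .negSucc 1, .ofNat 13, .negSucc 195⟩, ⟨.negSucc 22, .ofNat 174, .ofNat 102, .negSucc 9, .ofNat 1, .ofNat 22⟩, ⟨.ofNat 874, .ofNat 464, .negSucc 4, .negSucc 218, .negSucc 238, .ofNat 179⟩, ⟨.negSucc 1351, .negSucc 481, .ofNat 6, .negSucc 39, .ofNat 23, .negSucc 391⟩, ⟨.ofNat 113, .ofNat 65, .ofNat 3, .negSucc 349, .negSucc 107, .negSucc 64⟩, .ofNat 320, .ofNat 52, .ofNat 0,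 .ofNat 52, .ofNat 760, .ofNat 0, .ofNat 280, .negSucc 45, .negSucc 306, .ofNat 0, .ofNat 151, .ofNat 49, .ofNat 0, .ofNat 0, .ofNat 537, .ofNat 3339, .ofNat 0, .ofNat 0, .ofNat 0, .ofNat 0, .ofNat 0, .ofNat 0, .ofNat 0, .ofNat 0, .ofNat 0, .ofNat 0, .ofNat 0, .ofNat 0, .ofNat 0, .ofNat 0, .ofNat 0, .ofNat 0⟩)
    (by decide +kernel)
theorem L00122 : Good (Phi V4.P V4.D (-1) (-1)) ⟨3, 4, 3, 0, 1, 0, 2, 1, 3, 0⟩ :=
  leaf_sound (S := T4.ds_mm) T4.ok_mm (w := 160) (c := ⟨⟨.negSucc 425, .negSucc 121, .ofNat 40, .ofNat 150, .negSucc 43, .negSucc 269⟩, ⟨.negSucc 1, .ofNat 38, .ofNat 69, .negSucc 12, .ofNat 4, .ofNat 11⟩, ⟨.ofNat 547, .ofNat 104, .negSucc 31, .negSucc 362, .negSucc 215, .ofNat 230⟩, ⟨.negSucc 961, .negSucc 126, .ofNat 105, .ofNat 286, .negSucc 90, .negSucc 569⟩, ⟨.ofNat 50, .ofNat 8, .ofNat 18, .negSucc 548, .negSucc 95, .ofNat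 41⟩, .ofNat 448, .ofNat 87, .ofNat 0, .ofNat 87, .ofNat 2356, .ofNat 0, .ofNat 281, .negSucc 34, .negSucc 292, .ofNat 0, .ofNat 94, .ofNat 18, .ofNat 0, .ofNat 0, .ofNat 545, .ofNat 2029, .ofNat 0, .ofNat 0, .ofNat 0, .ofNat 0, .ofNat 0, .ofNat 0, .ofNat 0, .ofNat 0, .ofNat 0, .ofNat 0, .ofNat 0, .ofNat 0, .ofNat 0, .ofNat 0, .ofNat 0, .ofNat 0⟩)
    (by decide +kernel)
theorem L00123 : Good (Phi V4.P V4.D (-1) (-1)) ⟨3, 5, 3, 0, 1, 0, 2, 1, 3, 0⟩ :=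
  leaf_sound (S := T4.ds_mm) T4.ok_mm (w := 160) (c := ⟨⟨.negSucc 546, .negSucc 302, .ofNat 111, .ofNat 192, .negSucc 16, .negSucc 379⟩, ⟨.ofNat 37, .ofNat 103, .ofNat 52, .negSucc 66, .negSucc 6, .ofNat 66⟩, ⟨.ofNat 661, .ofNat 298, .negSucc 125, .negSucc 431, .negSucc 228, .ofNat 336⟩, ⟨.negSucc 1070, .negSucc 366, .ofNat 183, .ofNat 259, .negSucc 53, .negSucc 686⟩, ⟨.ofNat 71, .ofNat 50, .negSucc 18, .negSucc 563, .negSucc 126, .ofNat 71⟩, .ofNat 430, .ofNat 227, .ofNat 0, .ofNat 227, .ofNat 1632, .ofNat 0, .ofNat 282, .negSucc 108, .negSucc 373, .ofNat 0, .ofNat 129, .ofNat 69, .ofNat 0, .ofNat 0, .ofNat 599, .ofNat 770, .ofNat 0, .ofNat 0, .ofNat 0, .ofNat 0, .ofNat 0, .ofNat 0, .ofNat 0, .ofNat 0, .ofNat 0, .ofNat 0, .ofNat 0, .ofNat 0, .ofNat 0, .ofNat 0, .ofNat 0, .ofNat 0⟩)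
    (by decide +kernel)
theorem L00124 : Good (Phi V4.P V4.D (-1) (-1)) ⟨2, 2, 3, 0, 1, 0, 2, 1, 3, 1⟩ :=
  leaf_sound (S := T4.ds_mm) T4.ok_mm (w := 160) (c := ⟨⟨.negSucc 651, .negSucc 403, .negSucc 15, .negSucc 77, .ofNat 110, .negSucc 35⟩, ⟨.ofNat 3, .ofNat 154, .ofNat 96, .negSucc 11, .negSucc 18, .negSucc 0⟩, ⟨.ofNat 625, .ofNat 409, .ofNat 14, .negSucc 16, .negSucc 308, .ofNat 28⟩, ⟨.negSucc 1455, .negSucc 389, .negSucc 14, .negSucc 207, .ofNat 197, .negSucc 77⟩, ⟨.ofNat 66, .ofNat 43, .ofNat 8, .negSucc 511, .negSucc 96, .negSucc 18⟩, .ofNat 320, .ofNat 51, .ofNat 0, .ofNat 51, .ofNat 756, .ofNat 0, .ofNat 281, .negSucc 43, .negSucc 315, .ofNat 0, .ofNat 153, .ofNat 44, .ofNat 0, .ofNat 0, .ofNat 553, .ofNat 2328, .ofNat 0, .ofNat 0, .ofNat 0, .ofNat 0, .ofNat 0, .ofNat 0, .ofNat 0, .ofNat 0, .ofNat 0, .ofNat 0, .ofNat 0, .ofNat 0,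 .ofNat 0, .ofNat 0, .ofNat 1637277930334912271037235200, .ofNat 0⟩)
    (by decide +kernel)
theorem L00125 : Good (Phi V4.P V4.D (-1) (-1)) ⟨2, 3, 3, 0, 1, 0, 1, 0, 2, 0⟩ :=
  out_sound (S := T4.ds_mm) T4.ok_mm (w := 40) (j := 3) (by decide +kernel)
theorem L00126 : Good (Phi V4.P V4.D (-1) (-1)) ⟨2, 2, 3, 0, 1, 0, 1, 0, 3, 2⟩ :=
  leaf_sound (S := T4.ds_mm) T4.ok_mm (w := 152) (c := ⟨⟨.negSucc 789, .negSucc 375, .negSucc 8, .negSucc 123, .ofNat 246, .ofNat 58⟩, ⟨.ofNat 14, .ofNat 168, .ofNat 90, .negSucc 9, .negSucc 48, .negSucc 0⟩, ⟨.ofNat 920, .ofNat 432, .negSucc 8, .ofNat 111, .negSucc 663, .negSucc 83⟩, ⟨.negSucc 1722, .negSucc 293, .negSucc 26, .negSucc 321, .ofNat 429, .ofNat 119⟩, ⟨.ofNat 179, .ofNat 53, .negSucc 24, .negSucc 599, .negSucc 201, .negSucc 34⟩, .ofNat 318, .ofNat 57, .ofNat 0, .ofNat 57, .ofNat 746, .ofNat 0, .ofNat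 501, .negSucc 86, .negSucc 467, .ofNat 0, .ofNat 278, .ofNat 77, .ofNat 0, .ofNat 0, .ofNat 982, .ofNat 4678, .ofNat 0, .ofNat 0, .ofNat 0, .ofNat 0, .ofNat 0, .ofNat 0, .ofNat 0, .ofNat 0, .ofNat 5130146603699532488532138393600, .ofNat 0, .ofNat 0, .ofNat 0, .ofNat 0, .ofNat 0, .ofNat 0, .ofNat 0⟩)
    (by decide +kernel)
theorem L00127 : Good (Phi V4.P V4.D (-1) (-1)) ⟨2, 2, 3, 0, 1, 0, 1, 0, 3, 3⟩ :=
  leaf_sound (S := T4.ds_mm) T4.ok_mm (w := 160) (c := ⟨⟨.negSucc 890, .negSucc 236, .negSucc 2, .negSucc 63, .ofNat 325, .ofNat 109⟩, ⟨.ofNat 77, .ofNat 92, .ofNat 87, .negSucc 27, .negSucc 68, .negSucc 17⟩, ⟨.ofNat 842, .ofNat 288, .negSucc 8, .ofNat 179, .negSucc 618, .negSucc 104⟩, ⟨.negSucc 1820, .negSucc 158, .negSucc 13, .negSucc 226, .ofNat 569, .ofNat 206⟩, ⟨.ofNat 207, .negSucc 26, .negSucc 2, .negSucc 739, .negSucc 148, .negSucc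 17⟩, .ofNat 316, .ofNat 61, .ofNat 0, .ofNat 61, .ofNat 735, .ofNat 0, .ofNat 435, .negSucc 80, .negSucc 356, .ofNat 0, .ofNat 245, .ofNat 60, .ofNat 0, .ofNat 0, .ofNat 866, .ofNat 5440, .ofNat 0, .ofNat 0, .ofNat 0, .ofNat 0, .ofNat 0, .ofNat 0, .ofNat 0, .ofNat 0, .ofNat 0, .ofNat 0, .ofNat 0, .ofNat 0, .ofNat 9466322254914890334567451852800, .ofNat 0, .ofNat 0, .ofNat 0⟩)
    (by decide +kernel)
theorem L00128 : Good (Phi V4.P V4.D (-1) (-1)) ⟨2, 3, 3, 0, 1, 0, 1, 0, 2, 1⟩ :=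
  out_sound (S := T4.ds_mm) T4.ok_mm (w := 40) (j := 3) (by decide +kernel)
theorem L00129 : Good (Phi V4.P V4.D (-1) (-1)) ⟨3, 4, 3, 0, 1, 0, 2, 2, 3, 0⟩ :=
  leaf_sound (S := T4.ds_mm) T4.ok_mm (w := 160) (c := ⟨⟨.negSucc 421, .negSucc 105, .negSucc 64, .negSucc 45, .negSucc 1, .negSucc 195⟩, ⟨.negSucc 3, .ofNat 40, .ofNat 72, .negSucc 3, .negSucc 1, .ofNat 11⟩, ⟨.ofNat 197, .ofNat 81, .ofNat 29, .negSucc 45, .negSucc 217, .ofNat 224⟩, ⟨.negSucc 956, .negSucc 80, .negSucc 168, .negSucc 127, .negSucc 8, .negSucc 402⟩, ⟨.ofNat 28, .ofNat 18, .negSucc 0, .negSucc 701, .negSucc 82, .ofNat 41⟩, .ofNat 518, .ofNat 276, .ofNat 0, .ofNat 276, .ofNat 6535, .ofNat 0, .ofNat 294, .negSucc 61, .negSucc 307, .ofNat 0, .ofNat 64, .ofNat 16, .ofNat 0, .ofNat 0, .ofNat 574, .ofNat 1923, .ofNat 0, .ofNat 0, .ofNat 0, .ofNat 0, .ofNat 0, .ofNat 0, .ofNat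 0, .ofNat 0, .ofNat 0, .ofNat 0, .ofNat 0, .ofNat 0, .ofNat 0, .ofNat 0, .ofNat 1590478953612620834694758400, .ofNat 0⟩)
    (by decide +kernel)
theorem L00130 : Good (Phi V4.P V4.D (-1) (-1)) ⟨3, 5, 3, 0, 1, 0, 2, 2, 3, 0⟩ :=
  leaf_sound (S := T4.ds_mm) T4.ok_mm (w := 160) (c := ⟨⟨.negSucc 536, .negSucc 253, .ofNat 63, .negSucc 44, .ofNat 11, .negSucc 241⟩, ⟨.ofNat 41, .ofNat 76, .ofNat 68, .negSucc 38, .negSucc 5, .ofNat 41⟩, ⟨.ofNat 301, .ofNat 241, .negSucc 68, .negSucc 68, .negSucc 238, .ofNat 280⟩, ⟨.negSucc 1041, .negSucc 306, .ofNat 98, .negSucc 215, .ofNat 9, .negSucc 432⟩, ⟨.ofNat 46, .ofNat 17, .negSucc 20, .negSucc 715, .negSucc 77, .ofNat 55⟩, .ofNat 429, .ofNat 222, .ofNat 0, .ofNat 222, .ofNat 1609, .ofNat 0, .ofNat 303, .negSucc 113, .negSucc 416, .ofNat 0, .ofNat 139, .ofNat 74, .ofNat 0, .ofNat 0, .ofNat 651, .ofNat 609,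 .ofNat 0, .ofNat 0, .ofNat 0, .ofNat 0, .ofNat 0, .ofNat 0, .ofNat 0, .ofNat 0, .ofNat 0, .ofNat 0, .ofNat 0, .ofNat 0, .ofNat 0, .ofNat 0, .ofNat 0, .ofNat 0⟩)
    (by decide +kernel)
theorem L00131 : Good (Phi V4.P V4.D (-1) (-1)) ⟨2, 2, 3, 0, 1, 0, 2, 2, 3, 1⟩ :=
  leaf_sound (S := T4.ds_mm) T4.ok_mm (w := 160) (c := ⟨⟨.negSucc 600, .negSucc 339, .negSucc 8, .negSucc 165, .ofNat 178, .ofNat 44⟩, ⟨.ofNat 10, .ofNat 104, .ofNat 94, .negSucc 0, .negSucc 21, .negSucc 4⟩, ⟨.ofNat 300, .ofNat 355, .negSucc 7, .ofNat 148, .negSucc 315, .negSucc 3⟩, ⟨.negSucc 1322, .negSucc 355, .negSucc 20, .negSucc 389, .ofNat 343, .ofNat 88⟩, ⟨.ofNat 43, .ofNat 27, .negSucc 11, .negSucc 680, .negSucc 52, .ofNat 12⟩, .ofNat 321, .ofNat 48, .ofNat 0, .ofNat 48, .ofNat 761, .ofNat 0, .ofNat 297, .negSucc 42, .negSucc 370, .ofNat 0, .ofNat 161, .ofNat 44, .ofNat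 0, .ofNat 0, .ofNat 588, .ofNat 1720, .ofNat 0, .ofNat 0, .ofNat 0, .ofNat 0, .ofNat 0, .ofNat 0, .ofNat 0, .ofNat 0, .ofNat 0, .ofNat 0, .ofNat 0, .ofNat 0, .ofNat 0, .ofNat 0, .ofNat 0, .ofNat 0⟩)
    (by decide +kernel)
theorem L00132 : Good (Phi V4.P V4.D (-1) (-1)) ⟨2, 2, 3, 0, 1, 0, 2, 2, 2, 1⟩ :=
  leaf_sound (S := T4.ds_mm) T4.ok_mm (w := 152) (c := ⟨⟨.negSucc 711, .negSucc 255, .ofNat 48, .ofNat 14, .ofNat 228, .ofNat 195⟩, ⟨.ofNat 40, .ofNat 88, .ofNat 56, .negSucc 38, .negSucc 27, .negSucc 24⟩, ⟨.ofNat 369, .ofNat 284, .negSucc 62, .ofNat 73, .negSucc 311, .negSucc 144⟩, ⟨.negSucc 1495, .negSucc 223, .ofNat 42, .negSucc 74, .ofNat 439, .ofNat 370⟩, ⟨.ofNat 97, .negSucc 1, .negSucc 63, .negSucc 764, .negSucc 10, .negSucc 33⟩, .ofNat 318, .ofNat 55, .ofNat 0, .ofNat 55, .ofNat 747, .ofNat 0, .ofNat 485, .negSucc 79, .negSucc 506,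 .ofNat 0, .ofNat 268, .ofNat 61, .ofNat 0, .ofNat 0, .ofNat 938, .ofNat 2681, .ofNat 0, .ofNat 0, .ofNat 0, .ofNat 0, .ofNat 0, .ofNat 0, .ofNat 0, .ofNat 0, .ofNat 0, .ofNat 0, .ofNat 0, .ofNat 0, .ofNat 0, .ofNat 0, .ofNat 0, .ofNat 0⟩)
    (by decide +kernel)
theorem L00133 : Good (Phi V4.P V4.D (-1) (-1)) ⟨3, 4, 4, 0, 1, 0, 2, 3, 3, 0⟩ :=
  leaf_sound (S := T4.ds_mm) T4.ok_mm (w := 160) (c := ⟨⟨.negSucc 385, .negSucc 135, .ofNat 20, .negSucc 377, .ofNat 200, .ofNat 86⟩, ⟨.ofNat 1, .ofNat 33, .ofNat 26, .ofNat 9, .negSucc 7, .negSucc 4⟩, ⟨.negSucc 189, .ofNat 158, .negSucc 27, .ofNat 415, .negSucc 341, .ofNat 28⟩, ⟨.negSucc 862, .negSucc 174, .ofNat 26, .negSucc 833, .ofNat 423, .ofNat 181⟩, ⟨.negSucc 32, .ofNat 8, .negSucc 22, .negSucc 770, .ofNat 18, .ofNat 89⟩, .ofNat 451, .ofNat 76, .ofNat 0, .ofNat 76, .ofNat 2400, .ofNat 0, .ofNat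 330, .negSucc 33, .negSucc 402, .ofNat 0, .ofNat 109, .ofNat 17, .ofNat 0, .ofNat 0, .ofNat 646, .ofNat 1426, .ofNat 0, .ofNat 0, .ofNat 0, .ofNat 0, .ofNat 0, .ofNat 0, .ofNat 0, .ofNat 0, .ofNat 0, .ofNat 0, .ofNat 0, .ofNat 0, .ofNat 0, .ofNat 0, .ofNat 0, .ofNat 0⟩)
    (by decide +kernel)

end Crest.Agent.R097C4.N4mm
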