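import Crest.Agent.R097.T4

/-!
# Row 97, box cover in dimension n = 4 (generated)
-/

set_option autoImplicit false
set_option Elab.async false
set_option maxHeartbeats 0
set_option maxRecDepth 100000

open Crest.Agent.R097 Crest.Agent.R097.KA


namespace Crest.Agent.R097C4.N4mm

theorem L00134 : Good (Phi V4.P V4.D (-1) (-1)) ⟨4, 10, 4, 0, 1, 0, 2, 3, 3, 0⟩ :=
  leaf_sound (S := T4.ds_mm) T4.ok_mm (w := 168) (c := ⟨⟨.negSucc 504, .negSucc 131, .ofNat 25, .negSucc 409, .ofNat 246, .ofNat 77⟩, ⟨.ofNat 41, .ofNat 26, .ofNat 28, .ofNat 13, .negSucc 29, .negSucc 3⟩, ⟨.negSucc 74, .ofNat 125, .negSucc 21, .ofNat 437, .negSucc 389, .ofNat 62⟩, ⟨.negSucc 984, .negSucc 188, .ofNat 33, .negSucc 876, .ofNat 469, .ofNat 157⟩, ⟨.negSucc 19, .negSucc 3, .ofNat 7, .negSucc 801, .ofNat 9, .ofNat 92⟩, .ofNat 506, .ofNat 393, .ofNat 0, .ofNat 393, .ofNat 3415,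 .ofNat 0, .ofNat 324, .negSucc 124, .negSucc 491, .ofNat 0, .ofNat 115, .ofNat 62, .ofNat 0, .ofNat 0, .ofNat 716, .ofNat 980, .ofNat 0, .ofNat 0, .ofNat 0, .ofNat 0, .ofNat 0, .ofNat 0, .ofNat 0, .ofNat 0, .ofNat 0, .ofNat 0, .ofNat 0, .ofNat 0, .ofNat 0, .ofNat 0, .ofNat 0, .ofNat 0⟩)
    (by decide +kernel)
theorem L00135 : Good (Phi V4.P V4.D (-1) (-1)) ⟨4, 11, 4, 0, 1, 0, 2, 3, 3, 0⟩ :=
  leaf_sound (S := T4.ds_mm) T4.ok_mm (w := 168) (c := ⟨⟨.negSucc 683, .negSucc 139, .ofNat 32, .negSucc 472, .ofNat 249, .ofNat 213⟩, ⟨.ofNat 83, .ofNat 39, .ofNat 31, .ofNat 9, .negSucc 41, .negSucc 25⟩, ⟨.ofNat 86, .ofNat 144, .negSucc 27, .ofNat 491, .negSucc 371, .negSucc 68⟩, ⟨.negSucc 1243, .negSucc 183, .ofNat 44, .negSucc 986, .ofNat 446, .ofNat 398⟩, ⟨.negSucc 14, .ofNat 2, .ofNat 0, .negSucc 817, .negSucc 3, .ofNat 99⟩, .ofNat 543, .ofNat 501,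 .ofNat 0, .ofNat 501, .ofNat 3016, .ofNat 0, .ofNat 327, .negSucc 141, .negSucc 559, .ofNat 0, .ofNat 147, .ofNat 98, .ofNat 0, .ofNat 0, .ofNat 763, .ofNat 897, .ofNat 0, .ofNat 0, .ofNat 0, .ofNat 0, .ofNat 0, .ofNat 0, .ofNat 1165205237731154320372531200, .ofNat 0, .ofNat 0, .ofNat 0, .ofNat 2339362967192457086553292800, .ofNat 0, .ofNat 0, .ofNat 0, .ofNat 958265220255616977076224000, .ofNat 0⟩)
    (by decide +kernel)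
theorem L00136 : Good (Phi V4.P V4.D (-1) (-1)) ⟨3, 4, 4, 0, 1, 0, 2, 3, 3, 1⟩ :=
  leaf_sound (S := T4.ds_mm) T4.ok_mm (w := 160) (c := ⟨⟨.negSucc 465, .negSucc 90, .ofNat 39, .negSucc 283, .ofNat 415, .ofNat 118⟩, ⟨.ofNat 6, .ofNat 28, .ofNat 23, .ofNat 8, .negSucc 19, .negSucc 6⟩, ⟨.negSucc 34, .ofNat 88, .negSucc 28, .ofNat 337, .negSucc 474, .negSucc 26⟩, ⟨.negSucc 1024, .negSucc 96, .ofNat 73, .negSucc 620, .ofNat 866, .ofNat 241⟩, ⟨.ofNat 8, .negSucc 21, .ofNat 16, .negSucc 709, .ofNat 61, .ofNat 39⟩, .ofNat 517, .ofNat 278, .ofNat 0, .ofNat 278, .ofNat 6446, .ofNat 0, .ofNat 285, .negSucc 59, .negSucc 333, .ofNat 0, .ofNat 63, .ofNat 16, .ofNat 0, .ofNat 0, .ofNat 556, .ofNat 1529, .ofNat 0, .ofNat 0, .ofNat 0, .ofNat 0, .ofNat 0, .ofNat 0, .ofNat 0, .ofNat 0, .ofNat 0, .ofNat 0, .ofNat 0, .ofNat 0, .ofNat 0, .ofNat 0, .ofNat 0, .ofNat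 0⟩)
    (by decide +kernel)
theorem L00137 : Good (Phi V4.P V4.D (-1) (-1)) ⟨3, 5, 4, 0, 1, 0, 2, 3, 3, 1⟩ :=
  leaf_sound (S := T4.ds_mm) T4.ok_mm (w := 160) (c := ⟨⟨.negSucc 699, .negSucc 131, .ofNat 57, .negSucc 234, .ofNat 513, .ofNat 208⟩, ⟨.ofNat 83, .ofNat 22, .ofNat 13, .negSucc 9, .negSucc 67, .negSucc 22⟩, ⟨.ofNat 190, .ofNat 129, .negSucc 51, .ofNat 306, .negSucc 571, .negSucc 108⟩, ⟨.negSucc 1328, .negSucc 169, .ofNat 90, .negSucc 531, .ofNat 961, .ofNat 395⟩, ⟨.ofNat 15, .negSucc 38, .ofNat 11, .negSucc 725, .ofNat 39, .ofNat 45⟩, .ofNat 423, .ofNat 181, .ofNat 0, .ofNat 181, .ofNat 1595, .ofNat 0, .ofNat 298, .negSucc 89, .negSucc 448, .ofNat 0, .ofNat 133, .ofNat 58, .ofNat 0, .ofNat 0, .ofNat 635, .ofNat 1049, .ofNat 0, .ofNat 0, .ofNat 0, .ofNat 0, .ofNat 0, .ofNat 0, .ofNat 0, .ofNat 0, .ofNat 0, .ofNat 0, .ofNat 0, .ofNat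 0, .ofNat 0, .ofNat 102099698252651018565880853299200, .ofNat 1508447798409083695084339200, .ofNat 0⟩)
    (by decide +kernel)
theorem L00138 : Good (Phi V4.P V4.D (-1) (-1)) ⟨3, 4, 4, 0, 1, 0, 2, 3, 3, 2⟩ :=
  leaf_sound (S := T4.ds_mm) T4.ok_mm (w := 168) (c := ⟨⟨.negSucc 494, .negSucc 68, .ofNat 37, .negSucc 78, .ofNat 446, .ofNat 108⟩, ⟨.ofNat 12, .ofNat 19, .ofNat 23, .negSucc 4, .negSucc 18, .negSucc 4⟩, ⟨.ofNat 56, .ofNat 72, .negSucc 20, .ofNat 151, .negSucc 475, .negSucc 48⟩, ⟨.negSucc 1071, .negSucc 78, .ofNat 76, .negSucc 203, .ofNat 941, .ofNat 229⟩, ⟨.ofNat 33, .negSucc 35, .ofNat 49, .negSucc 701, .ofNat 71, .ofNat 12⟩, .ofNat 448, .ofNat 88, .ofNat 0, .ofNat 88, .ofNat 2364, .ofNat 0, .ofNat 509, .negSucc 62, .negSucc 554, .ofNat 0, .ofNat 170, .ofNat 25, .ofNat 0, .ofNat 0, .ofNat 970, .ofNat 2768, .ofNat 0, .ofNat 0, .ofNat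 0, .ofNat 0, .ofNat 0, .ofNat 515602234084669379831690742988800, .ofNat 0, .ofNat 0, .ofNat 0, .ofNat 0, .ofNat 0, .ofNat 0, .ofNat 0, .ofNat 0, .ofNat 0, .ofNat 0⟩)
    (by decide +kernel)
theorem L00139 : Good (Phi V4.P V4.D (-1) (-1)) ⟨3, 5, 4, 0, 1, 0, 2, 3, 3, 2⟩ :=
  leaf_sound (S := T4.ds_mm) T4.ok_mm (w := 160) (c := ⟨⟨.negSucc 758, .negSucc 61, .ofNat 53, .ofNat 26, .ofNat 657, .ofNat 214⟩, ⟨.ofNat 110, .ofNat 5, .ofNat 15, .negSucc 58, .negSucc 97, .negSucc 32⟩, ⟨.ofNat 315, .ofNat 74, .negSucc 50, .ofNat 55, .negSucc 679, .negSucc 149⟩, ⟨.negSucc 1398, .negSucc 58, .ofNat 83, .negSucc 73, .ofNat 1217, .ofNat 385⟩, ⟨.ofNat 54, .ofNat 3, .ofNat 10, .negSucc 796, .ofNat 59, .ofNat 4⟩, .ofNat 422, .ofNat 187, .ofNat 0, .ofNat 187, .ofNat 1538, .ofNat 0, .ofNat 263, .negSucc 83, .negSucc 360, .ofNat 0, .ofNat 121, .ofNat 50, .ofNat 0,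 .ofNat 0, .ofNat 540, .ofNat 643, .ofNat 0, .ofNat 0, .ofNat 0, .ofNat 0, .ofNat 0, .ofNat 0, .ofNat 0, .ofNat 0, .ofNat 0, .ofNat 0, .ofNat 0, .ofNat 0, .ofNat 0, .ofNat 146880216619788569783528167833600, .ofNat 0, .ofNat 0⟩)
    (by decide +kernel)
theorem L00140 : Good (Phi V4.P V4.D (-1) (-1)) ⟨2, 2, 4, 0, 1, 0, 3, 6, 3, 3⟩ :=
  leaf_sound (S := T4.ds_mm) T4.ok_mm (w := 160) (c := ⟨⟨.negSucc 500, .negSucc 114, .ofNat 13, .ofNat 146, .ofNat 205, .ofNat 89⟩, ⟨.ofNat 31, .ofNat 36, .ofNat 20, .negSucc 41, .negSucc 17, .negSucc 6⟩, ⟨.ofNat 98, .ofNat 134, .negSucc 12, .negSucc 37, .negSucc 212, .negSucc 46⟩, ⟨.negSucc 1050, .negSucc 86, .ofNat 19, .ofNat 220, .ofNat 413, .ofNat 179⟩, ⟨.ofNat 51, .negSucc 43, .ofNat 8, .negSucc 686, .ofNat 35, .ofNat 9⟩, .ofNat 322, .ofNat 41, .ofNat 0, .ofNat 41, .ofNat 766, .ofNat 0, .ofNat 479, .negSucc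 56, .negSucc 582, .ofNat 0, .ofNat 262, .ofNat 41, .ofNat 0, .ofNat 0, .ofNat 943, .ofNat 3225, .ofNat 0, .ofNat 0, .ofNat 0, .ofNat 0, .ofNat 0, .ofNat 0, .ofNat 0, .ofNat 0, .ofNat 0, .ofNat 35697356182882342028168921088000, .ofNat 0, .ofNat 0, .ofNat 0, .ofNat 0, .ofNat 0, .ofNat 0⟩)
    (by decide +kernel)
theorem L00141 : Good (Phi V4.P V4.D (-1) (-1)) ⟨2, 2, 4, 0, 1, 0, 3, 7, 3, 3⟩ :=
  leaf_sound (S := T4.ds_mm) T4.ok_mm (w := 160) (c := ⟨⟨.negSucc 378, .ofNat 35, .negSucc 16, .ofNat 283, .ofNat 358, .ofNat 84⟩, ⟨.ofNat 26, .negSucc 6, .ofNat 12, .negSucc 32, .negSucc 23, .negSucc 7⟩, ⟨.negSucc 39, .negSucc 16, .ofNat 15, .negSucc 148, .negSucc 356, .negSucc 36⟩, ⟨.negSucc 777, .ofNat 96, .negSucc 34, .ofNat 529, .ofNat 731, .ofNat 167⟩, ⟨.ofNat 4, .ofNat 0, .negSucc 25, .negSucc 504, .ofNat 58, .ofNat 24⟩, .ofNat 436, .ofNat 143, .ofNat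 0, .ofNat 143, .ofNat 1975, .ofNat 0, .ofNat 461, .negSucc 97, .negSucc 605, .ofNat 0, .ofNat 179, .ofNat 47, .ofNat 0, .ofNat 0, .ofNat 948, .ofNat 868, .ofNat 0, .ofNat 10685873547738597186286387200, .ofNat 0, .ofNat 0, .ofNat 0, .ofNat 0, .ofNat 0, .ofNat 0, .ofNat 0, .ofNat 14866674246327289407021357465600, .ofNat 301993068749797463641030656000, .ofNat 0, .ofNat 0, .ofNat 74514502116071645272354691481600, .ofNat 132151194701301744811376640000, .ofNat 0⟩)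
    (by decide +kernel)
theorem L00142 : Good (Phi V4.P V4.D (-1) (-1)) ⟨3, 4, 4, 1, 1, 0, 2, 3, 2, 0⟩ :=
  out_sound (S := T4.ds_mm) T4.ok_mm (w := 48) (j := 3) (by decide +kernel)
theorem L00143 : Good (Phi V4.P V4.D (-1) (-1)) ⟨3, 5, 4, 1, 1, 0, 2, 3, 3, 0⟩ :=
  leaf_sound (S := T4.ds_mm) T4.ok_mm (w := 160) (c := ⟨⟨.negSucc 515, .negSucc 323, .ofNat 124, .negSucc 350, .ofNat 229, .ofNat 111⟩, ⟨.ofNat 76, .ofNat 82, .ofNat 5, .ofNat 19, .negSucc 43, .negSucc 17⟩, ⟨.negSucc 76, .ofNat 312, .negSucc 117, .ofNat 383, .negSucc 360, .ofNat 38⟩, ⟨.negSucc 1006, .negSucc 466, .ofNat 212, .negSucc 790, .ofNat 418, .ofNat 219⟩, ⟨.negSucc 34, .negSucc 21, .ofNat 13, .negSucc 789, .ofNat 10, .ofNat 103⟩, .ofNat 435, .ofNat 256, .ofNat 0, .ofNat 256, .ofNat 1640, .ofNat 0, .ofNat 330, .negSucc 139, .negSucc 578, .ofNat 0, .ofNat 155, .ofNat 104, .ofNat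 0, .ofNat 0, .ofNat 779, .ofNat 585, .ofNat 0, .ofNat 0, .ofNat 17461545920081772031180800, .ofNat 0, .ofNat 0, .ofNat 0, .ofNat 0, .ofNat 0, .ofNat 0, .ofNat 0, .ofNat 0, .ofNat 0, .ofNat 0, .ofNat 0, .ofNat 0, .ofNat 0⟩)
    (by decide +kernel)
theorem L00144 : Good (Phi V4.P V4.D (-1) (-1)) ⟨3, 5, 4, 1, 1, 0, 2, 3, 3, 1⟩ :=
  leaf_sound (S := T4.ds_mm) T4.ok_mm (w := 160) (c := ⟨⟨.negSucc 729, .negSucc 145, .ofNat 35, .negSucc 166, .ofNat 565, .ofNat 197⟩, ⟨.ofNat 121, .ofNat 41, .ofNat 23, .negSucc 9, .negSucc 105, .negSucc 39⟩, ⟨.ofNat 230, .ofNat 139, .negSucc 22, .ofNat 215, .negSucc 625, .negSucc 106⟩, ⟨.negSucc 1374, .negSucc 159, .ofNat 54, .negSucc 448, .ofNat 1031, .ofNat 353⟩, ⟨.ofNat 27, .negSucc 28, .ofNat 26, .negSucc 771, .ofNat 49, .ofNat 16⟩, .ofNat 438, .ofNat 268, .ofNat 0, .ofNat 268, .ofNat 1661, .ofNat 0, .ofNat 288,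 .negSucc 128, .negSucc 458, .ofNat 0, .ofNat 136, .ofNat 84, .ofNat 0, .ofNat 0, .ofNat 646, .ofNat 928, .ofNat 0, .ofNat 0, .ofNat 0, .ofNat 0, .ofNat 0, .ofNat 0, .ofNat 0, .ofNat 0, .ofNat 0, .ofNat 0, .ofNat 0, .ofNat 0, .ofNat 0, .ofNat 0, .ofNat 0, .ofNat 0⟩)
    (by decide +kernel)
theorem L00145 : Good (Phi V4.P V4.D (-1) (-1)) ⟨3, 4, 4, 1, 1, 0, 2, 3, 2, 1⟩ :=
  out_sound (S := T4.ds_mm) T4.ok_mm (w := 48) (j := 3) (by decide +kernel)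
theorem L00146 : Good (Phi V4.P V4.D (-1) (-1)) ⟨3, 5, 4, 1, 1, 0, 2, 3, 3, 2⟩ :=
  leaf_sound (S := T4.ds_mm) T4.ok_mm (w := 160) (c := ⟨⟨.negSucc 712, .negSucc 47, .ofNat 6, .ofNat 58, .ofNat 638, .ofNat 174⟩, ⟨.ofNat 122, .ofNat 10, .ofNat 20, .negSucc 47, .negSucc 109, .negSucc 29⟩, ⟨.ofNat 275, .ofNat 51, .negSucc 7, .ofNat 23, .negSucc 669, .negSucc 103⟩, ⟨.negSucc 1326, .negSucc 30, .ofNat 0, .negSucc 30, .ofNat 1182, .ofNat 322⟩, ⟨.ofNat 49, .negSucc 18, .negSucc 13, .negSucc 766, .ofNat 52, .ofNat 32⟩, .ofNat 437, .ofNat 259, .ofNat 0, .ofNat 259, .ofNat 1694, .ofNat 0, .ofNat 255, .negSucc 108, .negSucc 369, .ofNat 0, .ofNat 118, .ofNat 64, .ofNat 0, .ofNat 0, .ofNat 550, .ofNat 527, .ofNat 0, .ofNat 0, .ofNat 0, .ofNat 0, .ofNat 0, .ofNat 0, .ofNat 0, .ofNat 0, .ofNat 0, .ofNat 0, .ofNat 0, .ofNat 0, .ofNat 0, .ofNat 0, .ofNat 0,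 .ofNat 0⟩)
    (by decide +kernel)
theorem L00147 : Good (Phi V4.P V4.D (-1) (-1)) ⟨3, 5, 4, 1, 1, 0, 3, 6, 3, 3⟩ :=
  leaf_sound (S := T4.ds_mm) T4.ok_mm (w := 168) (c := ⟨⟨.negSucc 614, .negSucc 88, .ofNat 40, .ofNat 302, .ofNat 232, .ofNat 88⟩, ⟨.ofNat 98, .ofNat 21, .ofNat 13, .negSucc 90, .negSucc 37, .negSucc 12⟩, ⟨.ofNat 218, .ofNat 96, .negSucc 37, .negSucc 179, .negSucc 240, .negSucc 47⟩, ⟨.negSucc 1161, .negSucc 91, .ofNat 61, .ofNat 428, .ofNat 435, .ofNat 164⟩, ⟨.ofNat 41, .negSucc 21, .ofNat 13, .negSucc 715, .ofNat 29, .negSucc 0⟩, .ofNat 313, .ofNat 85, .ofNat 0, .ofNat 85, .ofNat 716, .ofNat 0, .ofNat 486, .negSucc 125, .negSucc 684, .ofNat 0, .ofNat 283, .ofNat 101, .ofNat 0, .ofNat 0, .ofNat 1016, .ofNat 4543, .ofNat 0, .ofNat 0, .ofNat 0, .ofNat 0, .ofNat 0, .ofNat 0, .ofNat 0, .ofNat 0, .ofNat 0, .ofNat 803301383727330151823415705600000,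 .ofNat 0, .ofNat 0, .ofNat 0, .ofNat 353047770339870615223485962649600, .ofNat 0, .ofNat 0⟩)
    (by decide +kernel)
theorem L00148 : Good (Phi V4.P V4.D (-1) (-1)) ⟨3, 5, 4, 1, 1, 0, 3, 7, 3, 3⟩ :=
  leaf_sound (S := T4.ds_mm) T4.ok_mm (w := 168) (c := ⟨⟨.negSucc 517, .negSucc 31, .ofNat 45, .ofNat 582, .ofNat 514, .ofNat 101⟩, ⟨.ofNat 96, .ofNat 4, .ofNat 0, .negSucc 140, .negSucc 95, .negSucc 17⟩, ⟨.ofNat 100, .ofNat 39, .negSucc 43, .negSucc 430, .negSucc 508, .negSucc 52⟩, ⟨.negSucc 953, .negSucc 33, .ofNat 78, .ofNat 957, .ofNat 944, .ofNat 188⟩, ⟨.negSucc 1, .negSucc 22, .ofNat 19, .negSucc 509, .ofNat 64, .ofNat 23⟩, .ofNat 437, .ofNat 261, .ofNat 0, .ofNat 261, .ofNat 1653, .ofNat 0, .ofNat 226, .negSucc 96, .negSucc 364, .ofNat 0, .ofNat 108, .ofNat 62, .ofNat 0, .ofNat 0, .ofNat 520, .ofNat 984, .ofNat 0, .ofNat 0, .ofNat 0, .ofNat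 0, .ofNat 0, .ofNat 429713066631272696084265172992000, .ofNat 0, .ofNat 0, .ofNat 0, .ofNat 286748029179715228385385067315200, .ofNat 0, .ofNat 0, .ofNat 0, .ofNat 368782921600002886723305681715200, .ofNat 0, .ofNat 0⟩)
    (by decide +kernel)
theorem L00149 : Good (Phi V4.P V4.D (-1) (-1)) ⟨2, 3, 3, 0, 1, 0, 1, 1, 1, 0⟩ :=
  out_sound (S := T4.ds_mm) T4.ok_mm (w := 40) (j := 3) (by decide +kernel)
theorem L00150 : Good (Phi V4.P V4.D (-1) (-1)) ⟨3, 4, 3, 1, 1, 0, 0, 0, 1, 0⟩ :=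
  out_sound (S := T4.ds_mm) T4.ok_mm (w := 48) (j := 3) (by decide +kernel)
theorem L00151 : Good (Phi V4.P V4.D (-1) (-1)) ⟨3, 5, 3, 1, 2, 0, 2, 0, 3, 0⟩ :=
  leaf_sound (S := T4.ds_mm) T4.ok_mm (w := 168) (c := ⟨⟨.negSucc 427, .negSucc 318, .ofNat 8, .ofNat 347, .negSucc 56, .negSucc 594⟩, ⟨.ofNat 44, .ofNat 144, .ofNat 59, .negSucc 87, .ofNat 8, .ofNat 149⟩, ⟨.ofNat 784, .ofNat 332, .negSucc 20, .negSucc 516, .negSucc 171, .ofNat 564⟩, ⟨.negSucc 891, .negSucc 371, .ofNat 13, .ofNat 594, .negSucc 122, .negSucc 1041⟩, ⟨.ofNat 37, .ofNat 9, .ofNat 5, .negSucc 94, .negSucc 68, .ofNat 47⟩, .ofNat 611, .ofNat 778, .ofNat 0, .ofNat 778, .ofNat 3372, .ofNat 0, .ofNat 219, .negSucc 171, .negSucc 386, .ofNat 0, .ofNat 108, .ofNat 96, .ofNat 0, .ofNat 0, .ofNat 583, .ofNat 2645, .ofNat 0, .ofNat 0, .ofNat 0, .ofNat 0, .ofNat 0, .ofNat 0, .ofNat 0,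 .ofNat 0, .ofNat 0, .ofNat 0, .ofNat 0, .ofNat 0, .ofNat 0, .ofNat 0, .ofNat 0, .ofNat 0⟩)
    (by decide +kernel)
theorem L00152 : Good (Phi V4.P V4.D (-1) (-1)) ⟨3, 5, 3, 1, 2, 0, 2, 1, 3, 0⟩ :=
  leaf_sound (S := T4.ds_mm) T4.ok_mm (w := 168) (c := ⟨⟨.negSucc 520, .negSucc 318, .ofNat 14, .ofNat 202, .negSucc 25, .negSucc 365⟩, ⟨.ofNat 63, .ofNat 148, .ofNat 63, .negSucc 54, .ofNat 2, .ofNat 86⟩, ⟨.ofNat 639, .ofNat 309, .negSucc 21, .negSucc 329, .negSucc 231, .ofNat 332⟩, ⟨.negSucc 1068, .negSucc 347, .ofNat 19, .ofNat 315, .negSucc 67, .negSucc 650⟩, ⟨.ofNat 31, .ofNat 42, .ofNat 12, .negSucc 208, .negSucc 85, .ofNat 14⟩, .ofNat 597, .ofNat 732, .ofNat 0, .ofNat 732, .ofNat 3248, .ofNat 0, .ofNat 235, .negSucc 175, .negSucc 375, .ofNat 0, .ofNat 115, .ofNat 92, .ofNat 0, .ofNat 0, .ofNat 606, .ofNat 2767, .ofNat 0, .ofNat 0, .ofNat 0,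 .ofNat 0, .ofNat 0, .ofNat 0, .ofNat 0, .ofNat 0, .ofNat 0, .ofNat 0, .ofNat 0, .ofNat 0, .ofNat 0, .ofNat 0, .ofNat 0, .ofNat 0⟩)
    (by decide +kernel)
theorem L00153 : Good (Phi V4.P V4.D (-1) (-1)) ⟨3, 5, 3, 1, 2, 1, 2, 0, 4, 0⟩ :=
  leaf_sound (S := T4.ds_mm) T4.ok_mm (w := 176) (c := ⟨⟨.negSucc 32, .ofNat 129, .ofNat 83, .ofNat 606, .negSucc 399, .negSucc 666⟩, ⟨.ofNat 22, .negSucc 55, .negSucc 3, .negSucc 170, .ofNat 90, .ofNat 169⟩, ⟨.ofNat 222, .negSucc 133, .negSucc 67, .negSucc 677, .ofNat 159, .ofNat 618⟩, ⟨.negSucc 69, .ofNat 231, .ofNat 117, .ofNat 982, .negSucc 738, .negSucc 1155⟩, ⟨.negSucc 31, .negSucc 37, .negSucc 18, .negSucc 340, .negSucc 129, .ofNat 75⟩, .ofNat 455, .ofNat 341, .ofNat 0, .ofNat 341, .ofNat 1666, .ofNat 0, .ofNat 263, .negSucc 161, .negSucc 461, .ofNat 0, .ofNat 133, .ofNat 119, .ofNat 0, .ofNat 0, .ofNat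 611, .ofNat 4028, .ofNat 0, .ofNat 0, .ofNat 0, .ofNat 0, .ofNat 0, .ofNat 0, .ofNat 0, .ofNat 0, .ofNat 0, .ofNat 0, .ofNat 0, .ofNat 0, .ofNat 0, .ofNat 0, .ofNat 40722395280519645054422640230400, .ofNat 0⟩)
    (by decide +kernel)
theorem L00154 : Good (Phi V4.P V4.D (-1) (-1)) ⟨3, 5, 3, 1, 2, 1, 2, 0, 4, 1⟩ :=
  leaf_sound (S := T4.ds_mm) T4.ok_mm (w := 176) (c := ⟨⟨.negSucc 337, .negSucc 230, .ofNat 55, .ofNat 238, .negSucc 198, .negSucc 451⟩, ⟨.ofNat 32, .ofNat 99, .ofNat 53, .negSucc 69, .ofNat 44, .ofNat 114⟩, ⟨.ofNat 541, .ofNat 188, .negSucc 59, .negSucc 391, .negSucc 17, .ofNat 433⟩, ⟨.negSucc 732, .negSucc 238, .ofNat 87, .ofNat 357, .negSucc 383, .negSucc 783⟩, ⟨.negSucc 46, .ofNat 56, .negSucc 12, .negSucc 283, .negSucc 144, .ofNat 71⟩, .ofNat 605, .ofNat 754, .ofNat 0, .ofNat 754, .ofNat 3286, .ofNat 0, .ofNat 236, .negSucc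 195, .negSucc 404, .ofNat 0, .ofNat 115, .ofNat 107, .ofNat 0, .ofNat 0, .ofNat 583, .ofNat 2165, .ofNat 0, .ofNat 0, .ofNat 0, .ofNat 0, .ofNat 0, .ofNat 0, .ofNat 0, .ofNat 0, .ofNat 0, .ofNat 0, .ofNat 0, .ofNat 0, .ofNat 0, .ofNat 0, .ofNat 0, .ofNat 0⟩)
    (by decide +kernel)
theorem L00155 : Good (Phi V4.P V4.D (-1) (-1)) ⟨3, 5, 3, 1, 2, 1, 2, 1, 3, 0⟩ :=
  leaf_sound (S := T4.ds_mm) T4.ok_mm (w := 168) (c := ⟨⟨.negSucc 159, .negSucc 212, .ofNat 17, .ofNat 195, .negSucc 139, .negSucc 748⟩, ⟨.ofNat 10, .ofNat 59, .ofNat 72, .negSucc 68, .ofNat 26, .ofNat 189⟩, ⟨.ofNat 108, .ofNat 199, .negSucc 25, .negSucc 323, .negSucc 71, .ofNat 750⟩, ⟨.negSucc 418, .negSucc 241, .ofNat 5, .ofNat 249, .negSucc 286, .negSucc 1293⟩, ⟨.negSucc 189, .ofNat 14, .negSucc 1, .negSucc 366, .negSucc 153, .ofNat 136⟩, .ofNat 601, .ofNat 739, .ofNat 0, .ofNat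 739, .ofNat 3194, .ofNat 0, .ofNat 247, .negSucc 200, .negSucc 433, .ofNat 0, .ofNat 122, .ofNat 116, .ofNat 0, .ofNat 0, .ofNat 630, .ofNat 1261, .ofNat 0, .ofNat 0, .ofNat 0, .ofNat 0, .ofNat 0, .ofNat 0, .ofNat 0, .ofNat 0, .ofNat 0, .ofNat 0, .ofNat 0, .ofNat 0, .ofNat 0, .ofNat 0, .ofNat 0, .ofNat 0⟩)
    (by decide +kernel)
theorem L00156 : Good (Phi V4.P V4.D (-1) (-1)) ⟨4, 10, 3, 1, 1, 0, 1, 0, 3, 1⟩ :=
  leaf_sound (S := T4.ds_mm) T4.ok_mm (w := 160) (c := ⟨⟨.negSucc 1005, .ofNat 0, .ofNat 347, .ofNat 13, .ofNat 146, .negSucc 115⟩, ⟨.ofNat 209, .ofNat 0, .negSucc 50, .negSucc 14, .negSucc 35, .ofNat 22⟩, ⟨.ofNat 1244, .ofNat 0, .negSucc 389, .negSucc 199, .negSucc 582, .ofNat 133⟩, ⟨.negSucc 1811, .ofNat 0, .ofNat 679, .negSucc 63, .ofNat 224, .negSucc 222⟩, ⟨.ofNat 192, .ofNat 0, .ofNat 213, .negSucc 433, .negSucc 221, .negSucc 51⟩,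 .ofNat 807, .ofNat 1684, .ofNat 0, .ofNat 1684, .ofNat 8367, .ofNat 0, .ofNat 201, .negSucc 186, .negSucc 285, .ofNat 0, .ofNat 82, .ofNat 61, .ofNat 0, .ofNat 0, .ofNat 526, .ofNat 2667, .ofNat 0, .ofNat 0, .ofNat 13400155152790464938803200, .ofNat 0, .ofNat 0, .ofNat 0, .ofNat 0, .ofNat 0, .ofNat 0, .ofNat 0, .ofNat 6079669172184736187862220800, .ofNat 0, .ofNat 405634951114539136988645582438400, .ofNat 0, .ofNat 700009053268272693431500800, .ofNat 0⟩)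
    (by decide +kernel)
theorem L00157 : Good (Phi V4.P V4.D (-1) (-1)) ⟨4, 11, 3, 1, 1, 0, 2, 0, 3, 1⟩ :=
  leaf_sound (S := T4.ds_mm) T4.ok_mm (w := 168) (c := ⟨⟨.negSucc 980, .negSucc 143, .negSucc 11, .ofNat 19, .ofNat 41, .negSucc 134⟩, ⟨.ofNat 202, .ofNat 85, .ofNat 87, .negSucc 18, .negSucc 14, .ofNat 32⟩, ⟨.ofNat 1270, .ofNat 142, .negSucc 13, .negSucc 267, .negSucc 275, .ofNat 127⟩, ⟨.negSucc 1765, .negSucc 107, .negSucc 37, .negSucc 50, .ofNat 35, .negSucc 246⟩, ⟨.ofNat 172, .ofNat 49, .negSucc 36, .negSucc 345, .negSucc 162, .negSucc 28⟩, .ofNat 604, .ofNat 749, .ofNat 0, .ofNat 749, .ofNat 3244, .ofNat 0, .ofNat 217, .negSucc 171, .negSucc 299, .ofNat 0, .ofNat 107, .ofNat 79, .ofNat 0, .ofNat 0, .ofNat 531, .ofNat 3590, .ofNat 0, .ofNat 0, .ofNat 0, .ofNat 0, .ofNat 0, .ofNat 0, .ofNat 0, .ofNat 0, .ofNat 0, .ofNat 0, .ofNat 0,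 .ofNat 0, .ofNat 0, .ofNat 0, .ofNat 0, .ofNat 0⟩)
    (by decide +kernel)
theorem L00158 : Good (Phi V4.P V4.D (-1) (-1)) ⟨4, 11, 3, 1, 1, 0, 2, 1, 3, 1⟩ :=
  leaf_sound (S := T4.ds_mm) T4.ok_mm (w := 168) (c := ⟨⟨.negSucc 948, .negSucc 156, .negSucc 0, .negSucc 48, .ofNat 112, .negSucc 59⟩, ⟨.ofNat 199, .ofNat 72, .ofNat 87, .negSucc 9, .negSucc 32, .ofNat 13⟩, ⟨.ofNat 933, .ofNat 141, .ofNat 22, .negSucc 89, .negSucc 301, .ofNat 66⟩, ⟨.negSucc 1720, .negSucc 157, .negSucc 3, .negSucc 202, .ofNat 176, .negSucc 118⟩, ⟨.ofNat 89, .ofNat 14, .ofNat 22, .negSucc 492, .negSucc 106, .negSucc 41⟩, .ofNat 606, .ofNat 769, .ofNat 0, .ofNat 769, .ofNat 3443, .ofNat 0, .ofNat 222, .negSucc 174, .negSucc 312, .ofNat 0, .ofNat 106, .ofNat 78, .ofNat 0, .ofNat 0, .ofNat 549, .ofNat 1317, .ofNat 0, .ofNat 0, .ofNat 0, .ofNat 0, .ofNat 0, .ofNat 0, .ofNat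 0, .ofNat 0, .ofNat 0, .ofNat 0, .ofNat 0, .ofNat 0, .ofNat 0, .ofNat 0, .ofNat 0, .ofNat 0⟩)
    (by decide +kernel)
theorem L00159 : Good (Phi V4.P V4.D (-1) (-1)) ⟨4, 10, 3, 1, 1, 0, 1, 1, 3, 0⟩ :=
  leaf_sound (S := T4.ds_mm) T4.ok_mm (w := 160) (c := ⟨⟨.negSucc 616, .ofNat 0, .negSucc 610, .negSucc 117, .ofNat 173, .negSucc 84⟩, ⟨.ofNat 126, .ofNat 0, .ofNat 132, .ofNat 3, .negSucc 36, .ofNat 19⟩, ⟨.ofNat 277, .ofNat 0, .ofNat 667, .ofNat 72, .negSucc 517, .ofNat 193⟩, ⟨.negSucc 1127, .ofNat 0, .negSucc 1143, .negSucc 372, .ofNat 302, .negSucc 142⟩, ⟨.ofNat 42, .ofNat 0, .negSucc 77, .negSucc 768, .negSucc 80, .ofNat 70⟩, .ofNat 607, .ofNat 837, .ofNat 0, .ofNat 837, .ofNat 4367, .ofNat 0, .ofNat 269, .negSucc 208, .negSucc 473, .ofNat 0, .ofNat 110, .ofNat 98, .ofNat 0, .ofNat 0, .ofNat 693, .ofNat 777, .ofNat 0, .ofNat 0, .ofNat 7488480854062372969267200,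 .ofNat 0, .ofNat 0, .ofNat 0, .ofNat 4764136157091270591145574400, .ofNat 0, .ofNat 0, .ofNat 0, .ofNat 6685649300506611623657472000, .ofNat 0, .ofNat 0, .ofNat 0, .ofNat 794764303501912489171353600, .ofNat 0⟩)
    (by decide +kernel)
theorem L00160 : Good (Phi V4.P V4.D (-1) (-1)) ⟨4, 11, 3, 1, 1, 0, 2, 2, 3, 0⟩ :=
  leaf_sound (S := T4.ds_mm) T4.ok_mm (w := 168) (c := ⟨⟨.negSucc 592, .negSucc 165, .negSucc 10, .ofNat 54, .ofNat 5, .negSucc 273⟩, ⟨.ofNat 123, .ofNat 53, .ofNat 89, .negSucc 49, .negSucc 7, .ofNat 71⟩, ⟨.ofNat 348, .ofNat 163, .negSucc 6, .negSucc 184, .negSucc 216, .ofNat 321⟩, ⟨.negSucc 1078, .negSucc 208, .negSucc 35, .negSucc 82, .negSucc 13, .negSucc 469⟩, ⟨.ofNat 46, .negSucc 6, .ofNat 31, .negSucc 727, .negSucc 95, .ofNat 70⟩, .ofNat 605, .ofNat 755, .ofNat 0, .ofNat 755, .ofNat 3282, .ofNat 0, .ofNat 257, .negSucc 201,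 .negSucc 440, .ofNat 0, .ofNat 126, .ofNat 112, .ofNat 0, .ofNat 0, .ofNat 666, .ofNat 741, .ofNat 0, .ofNat 0, .ofNat 0, .ofNat 0, .ofNat 0, .ofNat 0, .ofNat 0, .ofNat 0, .ofNat 0, .ofNat 0, .ofNat 0, .ofNat 0, .ofNat 0, .ofNat 0, .ofNat 0, .ofNat 0⟩)
    (by decide +kernel)
theorem L00161 : Good (Phi V4.P V4.D (-1) (-1)) ⟨4, 11, 3, 1, 1, 0, 2, 3, 3, 0⟩ :=
  leaf_sound (S := T4.ds_mm) T4.ok_mm (w := 168) (c := ⟨⟨.negSucc 697, .negSucc 151, .ofNat 51, .negSucc 350, .ofNat 327, .ofNat 175⟩, ⟨.ofNat 151, .ofNat 45, .ofNat 58, .ofNat 47, .negSucc 76, .negSucc 42⟩, ⟨.ofNat 127, .ofNat 150, .negSucc 19, .ofNat 358, .negSucc 463, .negSucc 55⟩, ⟨.negSucc 1268, .negSucc 199, .ofNat 65, .negSucc 820, .ofNat 580, .ofNat 328⟩, ⟨.negSucc 8, .ofNat 8, .negSucc 11, .negSucc 807, .negSucc 8, .ofNat 74⟩, .ofNat 458, .ofNat 349, .ofNat 0, .ofNat 349, .ofNat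 1739, .ofNat 0, .ofNat 311, .negSucc 179, .negSucc 590, .ofNat 0, .ofNat 156, .ofNat 134, .ofNat 0, .ofNat 0, .ofNat 782, .ofNat 630, .ofNat 0, .ofNat 0, .ofNat 0, .ofNat 0, .ofNat 0, .ofNat 0, .ofNat 0, .ofNat 0, .ofNat 0, .ofNat 0, .ofNat 0, .ofNat 0, .ofNat 0, .ofNat 0, .ofNat 0, .ofNat 0⟩)
    (by decide +kernel)
theorem L00162 : Good (Phi V4.P V4.D (-1) (-1)) ⟨3, 5, 3, 1, 1, 0, 2, 2, 3, 1⟩ :=
  leaf_sound (S := T4.ds_mm) T4.ok_mm (w := 160) (c := ⟨⟨.negSucc 799, .negSucc 233, .ofNat 31, .negSucc 84, .ofNat 214, .ofNat 68⟩, ⟨.ofNat 146, .ofNat 101, .ofNat 76, .negSucc 11, .negSucc 55, .negSucc 14⟩, ⟨.ofNat 493, .ofNat 261, .negSucc 41, .ofNat 48, .negSucc 359, .negSucc 22⟩, ⟨.negSucc 1538, .negSucc 220, .ofNat 29, .negSucc 321, .ofNat 367, .ofNat 113⟩, ⟨.ofNat 62, .ofNat 39, .negSucc 11, .negSucc 712, .negSucc 59, .negSucc 15⟩, .ofNat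 457, .ofNat 347, .ofNat 0, .ofNat 347, .ofNat 1697, .ofNat 0, .ofNat 254, .negSucc 148, .negSucc 364, .ofNat 0, .ofNat 130, .ofNat 89, .ofNat 0, .ofNat 0, .ofNat 585, .ofNat 2446, .ofNat 0, .ofNat 0, .ofNat 0, .ofNat 0, .ofNat 0, .ofNat 0, .ofNat 0, .ofNat 0, .ofNat 0, .ofNat 0, .ofNat 0, .ofNat 0, .ofNat 0, .ofNat 0, .ofNat 0, .ofNat 0⟩)
    (by decide +kernel)
theorem L00163 : Good (Phi V4.P V4.D (-1) (-1)) ⟨3, 5, 3, 1, 1, 0, 2, 3, 3, 1⟩ :=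
  leaf_sound (S := T4.ds_mm) T4.ok_mm (w := 160) (c := ⟨⟨.negSucc 713, .negSucc 207, .ofNat 37, .negSucc 66, .ofNat 597, .ofNat 197⟩, ⟨.ofNat 164, .ofNat 48, .ofNat 55, .negSucc 24, .negSucc 143, .negSucc 43⟩, ⟨.ofNat 227, .ofNat 187, .negSucc 24, .ofNat 113, .negSucc 647, .negSucc 101⟩, ⟨.negSucc 1324, .negSucc 266, .ofNat 35, .negSucc 320, .ofNat 1066, .ofNat 364⟩, ⟨.ofNat 59, .negSucc 22, .negSucc 20, .negSucc 798, .ofNat 51, .ofNat 19⟩, .ofNat 604, .ofNat 749, .ofNat 0, .ofNat 749, .ofNat 3230, .ofNat 0, .ofNat 250, .negSucc 196, .negSucc 465, .ofNat 0, .ofNat 123, .ofNat 114, .ofNat 0, .ofNat 0, .ofNat 647, .ofNat 784, .ofNat 0, .ofNat 0, .ofNat 0, .ofNat 0, .ofNat 0, .ofNat 0, .ofNat 0, .ofNat 0, .ofNat 0, .ofNat 4584383899874916001606375833600, .ofNat 0, .ofNat 0, .ofNat 0, .ofNat 0, .ofNat 0, .ofNat 0⟩)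
    (by decide +kernel)
theorem L00164 : Good (Phi V4.P V4.D (-1) (-1)) ⟨3, 5, 3, 1, 1, 0, 1, 0, 2, 1⟩ :=
  leaf_sound (S := T4.ds_mm) T4.ok_mm (w := 152) (c := ⟨⟨.negSucc 1050, .negSucc 247, .ofNat 55, .negSucc 54, .ofNat 288, .ofNat 275⟩, ⟨.ofNat 204, .ofNat 119, .ofNat 65, .negSucc 18, .negSucc 80, .negSucc 64⟩, ⟨.ofNat 1155, .ofNat 195, .negSucc 6, .ofNat 97, .negSucc 657, .negSucc 260⟩, ⟨.negSucc 1975, .negSucc 205, .ofNat 62, .negSucc 254, .ofNat 457, .ofNat 470⟩, ⟨.ofNat 170, .ofNat 99, .negSucc 63, .negSucc 662, .negSucc 203, .negSucc 74⟩, .ofNat 315, .ofNat 112, .ofNat 0, .ofNat 112, .ofNat 718, .ofNat 0, .ofNat 461, .negSucc 162, .negSucc 446, .ofNat 0, .ofNat 276, .ofNat 114, .ofNat 0, .ofNat 0, .ofNat 940, .ofNat 4391, .ofNat 0, .ofNat 0, .ofNat 0, .ofNat 0, .ofNat 0, .ofNat 0, .ofNat 0, .ofNat 0, .ofNat 26592304702613596575172971724800,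 .ofNat 0, .ofNat 0, .ofNat 0, .ofNat 14257926164634490155824263987200, .ofNat 0, .ofNat 0, .ofNat 0⟩)
    (by decide +kernel)
theorem L00165 : Good (Phi V4.P V4.D (-1) (-1)) ⟨3, 5, 3, 1, 1, 0, 2, 2, 2, 1⟩ :=
  leaf_sound (S := T4.ds_mm) T4.ok_mm (w := 160) (c := ⟨⟨.negSucc 987, .negSucc 46, .negSucc 29, .ofNat 135, .ofNat 288, .ofNat 267⟩, ⟨.ofNat 231, .ofNat 9, .ofNat 89, .negSucc 70, .negSucc 75, .negSucc 66⟩, ⟨.ofNat 636, .ofNat 70, .ofNat 19, .negSucc 49, .negSucc 363, .negSucc 203⟩, ⟨.negSucc 1813, .ofNat 35, .negSucc 70, .ofNat 38, .ofNat 506, .ofNat 467⟩, ⟨.ofNat 134, .negSucc 83, .ofNat 19, .negSucc 799, .negSucc 7, .negSucc 29⟩, .ofNat 461, .ofNat 358, .ofNat 0, .ofNat 358, .ofNat 1728, .ofNat 0, .ofNat 417, .negSucc 248, .negSucc 494, .ofNat 0, .ofNat 214, .ofNat 120, .ofNat 0, .ofNat 0, .ofNat 928, .ofNat 3137, .ofNat 0, .ofNat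 0, .ofNat 4656243848886265219891200, .ofNat 0, .ofNat 0, .ofNat 0, .ofNat 0, .ofNat 0, .ofNat 0, .ofNat 0, .ofNat 0, .ofNat 0, .ofNat 0, .ofNat 0, .ofNat 0, .ofNat 0⟩)
    (by decide +kernel)
theorem L00166 : Good (Phi V4.P V4.D (-1) (-1)) ⟨4, 10, 3, 1, 1, 0, 2, 3, 2, 1⟩ :=
  leaf_sound (S := T4.ds_mm) T4.ok_mm (w := 168) (c := ⟨⟨.negSucc 734, .ofNat 0, .negSucc 108, .ofNat 165, .ofNat 609, .ofNat 235⟩, ⟨.ofNat 149, .ofNat 0, .ofNat 29, .negSucc 53, .negSucc 121, .negSucc 46⟩, ⟨.ofNat 294, .ofNat 0, .ofNat 144, .negSucc 66, .negSucc 633, .negSucc 125⟩, ⟨.negSucc 1347, .ofNat 0, .negSucc 206, .ofNat 153, .ofNat 1130, .ofNat 439⟩, ⟨.ofNat 23, .ofNat 0, .negSucc 8, .negSucc 741, .ofNat 45, .ofNat 34⟩, .ofNat 807, .ofNat 1680, .ofNat 0, .ofNat 1680, .ofNat 8354, .ofNat 0, .ofNat 377, .negSucc 344, .negSucc 631, .ofNat 0, .ofNat 153, .ofNat 128,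 .ofNat 0, .ofNat 0, .ofNat 1000, .ofNat 2357, .ofNat 0, .ofNat 0, .ofNat 0, .ofNat 0, .ofNat 0, .ofNat 319904753734295098598388400128000, .ofNat 4766377972898586935741644800, .ofNat 0, .ofNat 0, .ofNat 210149902931279510340225309081600, .ofNat 281770806048716873583820800, .ofNat 0, .ofNat 0, .ofNat 441019695549875265499548981657600, .ofNat 2851041188086615535674982400, .ofNat 0⟩)
    (by decide +kernel)
theorem L00167 : Good (Phi V4.P V4.D (-1) (-1)) ⟨4, 11, 3, 1, 1, 0, 3, 6, 2, 1⟩ :=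
  leaf_sound (S := T4.ds_mm) T4.ok_mm (w := 168) (c := ⟨⟨.negSucc 825, .negSucc 6, .ofNat 29, .ofNat 303, .ofNat 244, .ofNat 278⟩, ⟨.ofNat 190, .ofNat 1, .ofNat 35, .negSucc 108, .negSucc 53, .negSucc 66⟩, ⟨.ofNat 384, .ofNat 14, .negSucc 25, .negSucc 201, .negSucc 258, .negSucc 174⟩, ⟨.negSucc 1474, .ofNat 23, .ofNat 37, .ofNat 355, .ofNat 443, .ofNat 494⟩, ⟨.ofNat 39, .ofNat 3, .ofNat 8, .negSucc 789, .ofNat 38, .ofNat 7⟩, .ofNat 600, .ofNat 743, .ofNat 0, .ofNat 743, .ofNat 3304, .ofNat 0, .ofNat 409, .negSucc 311, .negSucc 641, .ofNat 0, .ofNat 197, .ofNat 151, .ofNat 0, .ofNat 0, .ofNat 1006, .ofNat 1629, .ofNat 0, .ofNat 0, .ofNat 0, .ofNat 0, .ofNat 0, .ofNat 0, .ofNat 0, .ofNat 0, .ofNat 0, .ofNat 0, .ofNat 0, .ofNat 0, .ofNat 0, .ofNat 0, .ofNat 0, .ofNat 0⟩)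
    (by decide +kernel)
theorem L00168 : Good (Phi V4.P V4.D (-1) (-1)) ⟨4, 11, 3, 1, 1, 0, 3, 7, 2, 1⟩ :=
  leaf_sound (S := T4.ds_mm) T4.ok_mm (w := 168) (c := ⟨⟨.negSucc 628, .ofNat 131, .negSucc 113, .ofNat 340, .ofNat 514, .ofNat 231⟩, ⟨.ofNat 150, .negSucc 31, .ofNat 48, .negSucc 114, .negSucc 125, .negSucc 54⟩, ⟨.ofNat 152, .negSucc 109, .ofNat 102, .negSucc 218, .negSucc 516, .negSucc 115⟩, ⟨.negSucc 1113, .ofNat 248, .negSucc 211, .ofNat 436, .ofNat 919, .ofNat 417⟩, ⟨.ofNat 5, .ofNat 50, .negSucc 50, .negSucc 683, .ofNat 43, .ofNat 24⟩, .ofNat 612, .ofNat 774, .ofNat 0, .ofNat 774, .ofNat 3300, .ofNat 0, .ofNat 211, .negSucc 166, .negSucc 419, .ofNat 0, .ofNat 105, .ofNat 102, .ofNat 0, .ofNat 0, .ofNat 574, .ofNat 642, .ofNat 0, .ofNat 0, .ofNat 0, .ofNat 0, .ofNat 0, .ofNat 0, .ofNat 0, .ofNat 0, .ofNat 0, .ofNat 237532337696657693749754304921600,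 .ofNat 0, .ofNat 0, .ofNat 0, .ofNat 0, .ofNat 0, .ofNat 0⟩)
    (by decide +kernel)
theorem L00169 : Good (Phi V4.P V4.D (-1) (-1)) ⟨5, 24, 3, 1, 2, 0, 2, 0, 4, 0⟩ :=
  leaf_sound (S := T4.ds_mm) T4.ok_mm (w := 184) (c := ⟨⟨.negSucc 779, .negSucc 107, .ofNat 7, .ofNat 533, .negSucc 93, .negSucc 384⟩, ⟨.ofNat 200, .ofNat 57, .ofNat 46, .negSucc 170, .ofNat 25, .ofNat 127⟩, ⟨.ofNat 1152, .ofNat 106, .negSucc 9, .negSucc 733, .negSucc 126, .ofNat 370⟩, ⟨.negSucc 1324, .negSucc 121, .ofNat 3, .ofNat 875, .negSucc 176, .negSucc 634⟩, ⟨.ofNat 37, .ofNat 22, .negSucc 17, .negSucc 78, .negSucc 61, .ofNat 42⟩, .ofNat 774, .ofNat 1113, .ofNat 0, .ofNat 1113, .ofNat 3604, .ofNat 0, .ofNat 208, .negSucc 192, .negSucc 458, .ofNat 0, .ofNat 129, .ofNat 147, .ofNat 0, .ofNat 0, .ofNat 633, .ofNat 3415, .ofNat 0, .ofNat 0, .ofNat 0, .ofNat 0, .ofNat 0, .ofNat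 0, .ofNat 9244705449574945337151533875200, .ofNat 0, .ofNat 0, .ofNat 0, .ofNat 6557253049052016889254484377600, .ofNat 0, .ofNat 0, .ofNat 0, .ofNat 0, .ofNat 0⟩)
    (by decide +kernel)
theorem L00170 : Good (Phi V4.P V4.D (-1) (-1)) ⟨5, 24, 3, 1, 2, 0, 2, 0, 4, 1⟩ :=
  leaf_sound (S := T4.ds_mm) T4.ok_mm (w := 184) (c := ⟨⟨.negSucc 1112, .negSucc 141, .ofNat 13, .ofNat 278, .ofNat 70, .negSucc 208⟩, ⟨.ofNat 281, .ofNat 74, .ofNat 74, .negSucc 86, .negSucc 26, .ofNat 68⟩, ⟨.ofNat 1464, .ofNat 144, .negSucc 21, .negSucc 440, .negSucc 309, .ofNat 186⟩, ⟨.negSucc 1901, .negSucc 168, .ofNat 25, .ofNat 470, .ofNat 98, .negSucc 342⟩, ⟨.ofNat 21, .negSucc 0, .ofNat 10, .ofNat 9, .negSucc 55, .ofNat 23⟩, .ofNat 735, .ofNat 1000, .ofNat 0, .ofNat 1000, .ofNat 3213, .ofNat 0, .ofNat 207, .negSucc 192, .negSucc 406, .ofNat 0, .ofNat 131, .ofNat 133,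 .ofNat 0, .ofNat 0, .ofNat 604, .ofNat 4263, .ofNat 0, .ofNat 0, .ofNat 0, .ofNat 0, .ofNat 17363781254358042747051531565006848000, .ofNat 0, .ofNat 6757635239786079821448924364800, .ofNat 0, .ofNat 0, .ofNat 0, .ofNat 9099357593883542568759302553600, .ofNat 0, .ofNat 0, .ofNat 0, .ofNat 0, .ofNat 0⟩)
    (by decide +kernel)
theorem L00171 : Good (Phi V4.P V4.D (-1) (-1)) ⟨5, 25, 3, 1, 2, 0, 2, 0, 4, 0⟩ :=
  leaf_sound (S := T4.ds_mm) T4.ok_mm (w := 184) (c := ⟨⟨.negSucc 966, .negSucc 19, .ofNat 152, .ofNat 656, .negSucc 194, .negSucc 502⟩, ⟨.ofNat 310, .ofNat 39, .negSucc 26, .negSucc 232, .ofNat 64, .ofNat 175⟩, ⟨.ofNat 1374, .ofNat 44, .negSucc 192, .negSucc 868, .negSucc 18, .ofNat 493⟩, ⟨.negSucc 1588, .ofNat 42, .ofNat 257, .ofNat 1050, .negSucc 339, .negSucc 820⟩, ⟨.ofNat 54, .ofNat 139, .negSucc 10, .negSucc 97, .negSucc 51, .ofNat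 32⟩, .ofNat 827, .ofNat 1176, .ofNat 0, .ofNat 1176, .ofNat 3421, .ofNat 0, .ofNat 204, .negSucc 203, .negSucc 486, .ofNat 0, .ofNat 141, .ofNat 173, .ofNat 0, .ofNat 0, .ofNat 656, .ofNat 3718, .ofNat 738256237276412792068983460410163200, .ofNat 0, .ofNat 719255320172350408350498816000, .ofNat 0, .ofNat 0, .ofNat 0, .ofNat 133967408721605312761482235084800, .ofNat 0, .ofNat 0, .ofNat 0, .ofNat 120405349420930870202547044352000, .ofNat 0, .ofNat 0, .ofNat 0, .ofNat 52271521537385265077779483852800, .ofNat 0⟩)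
    (by decide +kernel)
theorem L00172 : Good (Phi V4.P V4.D (-1) (-1)) ⟨5, 25, 3, 1, 2, 0, 2, 0, 4, 1⟩ :=
  leaf_sound (S := T4.ds_mm) T4.ok_mm (w := 184) (c := ⟨⟨.negSucc 962, .negSucc 32, .negSucc 271, .ofNat 314, .ofNat 43, .negSucc 232⟩, ⟨.ofNat 292, .ofNat 24, .ofNat 136, .negSucc 108, .negSucc 18, .ofNat 82⟩, ⟨.ofNat 1276, .ofNat 11, .ofNat 303, .negSucc 487, .negSucc 276, .ofNat 218⟩, ⟨.negSucc 1602, .negSucc 71, .negSucc 422, .ofNat 514, .ofNat 51, .negSucc 376⟩, ⟨.negSucc 2, .negSucc 164, .ofNat 51, .negSucc 12, .negSucc 61, .ofNat 25⟩, .ofNat 812, .ofNat 1141, .ofNat 0, .ofNat 1141, .ofNat 3328, .ofNat 0, .ofNat 203, .negSucc 202, .negSucc 428, .ofNat 0, .ofNat 140, .ofNat 153, .ofNat 0, .ofNat 0, .ofNat 622, .ofNat 6410, .ofNat 0, .ofNat 0, .ofNat 0, .ofNat 0, .ofNat 21778196850516469329018610734071808000, .ofNat 0, .ofNat 107781639458357942857445356339200,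 .ofNat 0, .ofNat 162359173597298101149132967536230400, .ofNat 0, .ofNat 137303348747976574939816368537600, .ofNat 0, .ofNat 7492290859921573568144478259327795200, .ofNat 0, .ofNat 18184425491876357242862803353600, .ofNat 0⟩)
    (by decide +kernel)
theorem L00173 : Good (Phi V4.P V4.D (-1) (-1)) ⟨5, 24, 3, 1, 2, 1, 2, 0, 3, 0⟩ :=
  leaf_sound (S := T4.ds_mm) T4.ok_mm (w := 176) (c := ⟨⟨.ofNat 201, .ofNat 3, .negSucc 30, .ofNat 546, .negSucc 361, .negSucc 1418⟩, ⟨.negSucc 107, .negSucc 5, .ofNat 66, .negSucc 197, .ofNat 102, .ofNat 465⟩, ⟨.negSucc 14, .negSucc 20, .ofNat 38, .negSucc 650, .ofNat 119, .ofNat 1349⟩, ⟨.ofNat 309, .ofNat 20, .negSucc 69, .ofNat 803, .negSucc 653, .negSucc 2304⟩, ⟨.negSucc 96, .negSucc 4, .negSucc 22, .negSucc 370, .negSucc 128, .ofNat 260⟩, .ofNat 478, .ofNat 400, .ofNat 0, .ofNat 400, .ofNat 1470, .ofNat 0, .ofNat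 255, .negSucc 199, .negSucc 532, .ofNat 0, .ofNat 158, .ofNat 182, .ofNat 0, .ofNat 0, .ofNat 665, .ofNat 2418, .ofNat 7411966917298481668809547579392000, .ofNat 0, .ofNat 380699594823134589065625600, .ofNat 0, .ofNat 0, .ofNat 0, .ofNat 0, .ofNat 0, .ofNat 0, .ofNat 0, .ofNat 0, .ofNat 0, .ofNat 0, .ofNat 0, .ofNat 0, .ofNat 0⟩)
    (by decide +kernel)
theorem L00174 : Good (Phi V4.P V4.D (-1) (-1)) ⟨5, 25, 4, 2, 2, 1, 2, 0, 3, 0⟩ :=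
  out_sound (S := T4.ds_mm) T4.ok_mm (w := 64) (j := 3) (by decide +kernel)
theorem L00175 : Good (Phi V4.P V4.D (-1) (-1)) ⟨5, 25, 4, 3, 2, 1, 2, 0, 4, 0⟩ :=
  leaf_sound (S := T4.ds_mm) T4.ok_mm (w := 184) (c := ⟨⟨.ofNat 500, .ofNat 69, .negSucc 301, .ofNat 854, .negSucc 540, .negSucc 792⟩, ⟨.negSucc 191, .negSucc 31, .ofNat 117, .negSucc 327, .ofNat 178, .ofNat 283⟩, ⟨.negSucc 258, .negSucc 5, .ofNat 221, .negSucc 893, .ofNat 279, .ofNat 770⟩, ⟨.ofNat 783, .ofNat 104, .negSucc 488, .ofNat 1252, .negSucc 931, .negSucc 1262⟩, ⟨.negSucc 154, .negSucc 24, .ofNat 59, .negSucc 462, .negSucc 106, .ofNat 139⟩, .ofNat 832, .ofNat 1189, .ofNat 0, .ofNat 1189, .ofNat 3456, .ofNat 0, .ofNat 218, .negSucc 236, .negSucc 560, .ofNat 0, .ofNat 152, .ofNat 208, .ofNat 0, .ofNat 0, .ofNat 684, .ofNat 6267, .ofNat 0, .ofNat 0, .ofNat 0, .ofNat 0, .ofNat 0,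 .ofNat 0, .ofNat 57334714874759945994716263219200, .ofNat 0, .ofNat 148812449695770657280321631092211712000, .ofNat 0, .ofNat 12388592319549240018829993574400, .ofNat 0, .ofNat 0, .ofNat 0, .ofNat 42749414206512316975511764992000, .ofNat 0⟩)
    (by decide +kernel)
theorem L00176 : Good (Phi V4.P V4.D (-1) (-1)) ⟨5, 25, 4, 3, 2, 1, 2, 0, 4, 1⟩ :=
  leaf_sound (S := T4.ds_mm) T4.ok_mm (w := 184) (c := ⟨⟨.negSucc 1011, .ofNat 550, .ofNat 430, .ofNat 355, .negSucc 237, .negSucc 596⟩, ⟨.ofNat 331, .negSucc 182, .negSucc 129, .negSucc 146, .ofNat 72, .ofNat 215⟩, ⟨.ofNat 1107, .negSucc 493, .negSucc 372, .negSucc 521, .ofNat 27, .ofNat 570⟩, ⟨.negSucc 1633, .ofNat 914, .ofNat 674, .ofNat 471, .negSucc 439, .negSucc 943⟩, ⟨.ofNat 112, .negSucc 56, .negSucc 103, .negSucc 333, .negSucc 137, .ofNat 124⟩, .ofNat 828, .ofNat 1179, .ofNat 0, .ofNat 1179,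 .ofNat 3428, .ofNat 0, .ofNat 218, .negSucc 239, .negSucc 515, .ofNat 0, .ofNat 152, .ofNat 195, .ofNat 0, .ofNat 0, .ofNat 658, .ofNat 5705, .ofNat 3479383364616771341808025612792627200, .ofNat 0, .ofNat 59206917746854210060261785600, .ofNat 0, .ofNat 0, .ofNat 0, .ofNat 79942468162948185092816004710400, .ofNat 0, .ofNat 0, .ofNat 0, .ofNat 81298612788076906554208341196800, .ofNat 0, .ofNat 22583680689772072855111420588798771200, .ofNat 0, .ofNat 29869202429611606958557416652800, .ofNat 0⟩)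
    (by decide +kernel)
theorem L00177 : Good (Phi V4.P V4.D (-1) (-1)) ⟨4, 13, 3, 1, 1, 0, 2, 0, 3, 0⟩ :=
  out_sound (S := T4.ds_mm) T4.ok_mm (w := 56) (j := 3) (by decide +kernel)
theorem L00178 : Good (Phi V4.P V4.D (-1) (-1)) ⟨4, 12, 3, 1, 1, 0, 2, 1, 4, 0⟩ :=
  leaf_sound (S := T4.ds_mm) T4.ok_mm (w := 168) (c := ⟨⟨.negSucc 772, .ofNat 275, .negSucc 73, .ofNat 847, .negSucc 164, .negSucc 483⟩, ⟨.ofNat 189, .negSucc 85, .ofNat 98, .negSucc 319, .ofNat 51, .ofNat 165⟩, ⟨.ofNat 898, .negSucc 278, .ofNat 65, .negSucc 1136, .negSucc 94, .ofNat 460⟩, ⟨.negSucc 1293, .ofNat 492, .negSucc 114, .ofNat 1207, .negSucc 296, .negSucc 787⟩, ⟨.ofNat 68, .negSucc 102, .ofNat 49, .negSucc 665, .negSucc 71, .ofNat 63⟩, .ofNat 751, .ofNat 1046, .ofNat 0, .ofNat 1046, .ofNat 3344, .ofNat 0, .ofNat 226, .negSucc 222, .negSucc 470, .ofNat 0, .ofNat 144, .ofNat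 158, .ofNat 0, .ofNat 0, .ofNat 664, .ofNat 1100, .ofNat 0, .ofNat 0, .ofNat 0, .ofNat 0, .ofNat 0, .ofNat 0, .ofNat 39771125426829020626944000000, .ofNat 0, .ofNat 0, .ofNat 0, .ofNat 48837353621161736007371980800, .ofNat 0, .ofNat 0, .ofNat 0, .ofNat 36090173202016132040491008000, .ofNat 0⟩)
    (by decide +kernel)
theorem L00179 : Good (Phi V4.P V4.D (-1) (-1)) ⟨4, 12, 3, 1, 1, 0, 2, 1, 4, 1⟩ :=
  leaf_sound (S := T4.ds_mm) T4.ok_mm (w := 168) (c := ⟨⟨.negSucc 996, .negSucc 241, .ofNat 47, .ofNat 187, .ofNat 15, .negSucc 188⟩, ⟨.ofNat 249, .ofNat 112, .ofNat 70, .negSucc 90, .negSucc 11, .ofNat 61⟩, ⟨.ofNat 1073, .ofNat 239, .negSucc 60, .negSucc 445, .negSucc 239, .ofNat 182⟩, ⟨.negSucc 1667, .negSucc 275, .ofNat 61, .ofNat 166, .negSucc 8, .negSucc 309⟩, ⟨.ofNat 100, .ofNat 34, .negSucc 20, .negSucc 473, .negSucc 113, .ofNat 25⟩, .ofNat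 802, .ofNat 1180, .ofNat 0, .ofNat 1180, .ofNat 3758, .ofNat 0, .ofNat 222, .negSucc 214, .negSucc 428, .ofNat 0, .ofNat 140, .ofNat 144, .ofNat 0, .ofNat 0, .ofNat 637, .ofNat 1849, .ofNat 0, .ofNat 0, .ofNat 0, .ofNat 0, .ofNat 0, .ofNat 0, .ofNat 46142014421261789486383104000, .ofNat 0, .ofNat 0, .ofNat 0, .ofNat 56259242645857687105752268800, .ofNat 0, .ofNat 0, .ofNat 0, .ofNat 20732302342775918006422732800, .ofNat 0⟩)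
    (by decide +kernel)
theorem L00180 : Good (Phi V4.P V4.D (-1) (-1)) ⟨4, 13, 3, 1, 1, 0, 2, 1, 3, 0⟩ :=
  out_sound (S := T4.ds_mm) T4.ok_mm (w := 56) (j := 3) (by decide +kernel)
theorem L00181 : Good (Phi V4.P V4.D (-1) (-1)) ⟨5, 24, 4, 2, 1, 0, 2, 0, 3, 1⟩ :=
  leaf_sound (S := T4.ds_mm) T4.ok_mm (w := 176) (c := ⟨⟨.negSucc 1205, .negSucc 1, .negSucc 30, .ofNat 18, .ofNat 98, .negSucc 113⟩, ⟨.ofNat 315, .ofNat 33, .ofNat 50, .negSucc 27, .negSucc 36, .ofNat 28⟩, ⟨.ofNat 1507, .negSucc 22, .ofNat 27, .negSucc 293, .negSucc 321, .ofNat 111⟩, ⟨.negSucc 2009, .ofNat 88, .negSucc 72, .negSucc 50, .ofNat 136, .negSucc 208⟩, ⟨.ofNat 194, .ofNat 64, .negSucc 63, .negSucc 285, .negSucc 107, .negSucc 52⟩, .ofNat 686, .ofNat 887, .ofNat 0, .ofNat 887, .ofNat 3124, .ofNat 0, .ofNat 219, .negSucc 175, .negSucc 324, .ofNat 0, .ofNat 128, .ofNat 103,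 .ofNat 0, .ofNat 0, .ofNat 550, .ofNat 4033, .ofNat 0, .ofNat 0, .ofNat 0, .ofNat 0, .ofNat 0, .ofNat 0, .ofNat 884619763528413385064448000, .ofNat 0, .ofNat 45433166912993978145057614384332800, .ofNat 0, .ofNat 1122166451707292045279232000, .ofNat 0, .ofNat 0, .ofNat 0, .ofNat 0, .ofNat 0⟩)
    (by decide +kernel)
theorem L00182 : Good (Phi V4.P V4.D (-1) (-1)) ⟨5, 24, 4, 2, 1, 0, 2, 1, 3, 1⟩ :=
  leaf_sound (S := T4.ds_mm) T4.ok_mm (w := 176) (c := ⟨⟨.negSucc 1103, .negSucc 114, .ofNat 19, .negSucc 92, .ofNat 114, .negSucc 30⟩, ⟨.ofNat 284, .ofNat 48, .ofNat 45, .negSucc 14, .negSucc 43, .ofNat 5⟩, ⟨.ofNat 1129, .ofNat 82, .negSucc 44, .negSucc 59, .negSucc 313, .ofNat 33⟩, ⟨.negSucc 1845, .negSucc 127, .ofNat 33, .negSucc 307, .ofNat 154, .negSucc 65⟩, ⟨.ofNat 148, .ofNat 8, .ofNat 18, .negSucc 523, .negSucc 137, .negSucc 48⟩, .ofNat 690,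 .ofNat 898, .ofNat 0, .ofNat 898, .ofNat 3154, .ofNat 0, .ofNat 224, .negSucc 180, .negSucc 345, .ofNat 0, .ofNat 131, .ofNat 108, .ofNat 0, .ofNat 0, .ofNat 572, .ofNat 2776, .ofNat 0, .ofNat 0, .ofNat 0, .ofNat 0, .ofNat 0, .ofNat 0, .ofNat 987194552634487863351705600, .ofNat 0, .ofNat 0, .ofNat 0, .ofNat 1146056973283815471238348800, .ofNat 0, .ofNat 0, .ofNat 0, .ofNat 0, .ofNat 0⟩)
    (by decide +kernel)
theorem L00183 : Good (Phi V4.P V4.D (-1) (-1)) ⟨5, 24, 4, 3, 1, 0, 2, 0, 3, 1⟩ :=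
  leaf_sound (S := T4.ds_mm) T4.ok_mm (w := 176) (c := ⟨⟨.negSucc 1224, .negSucc 72, .negSucc 8, .ofNat 24, .ofNat 124, .negSucc 106⟩, ⟨.ofNat 359, .ofNat 51, .ofNat 48, .negSucc 24, .negSucc 45, .ofNat 31⟩, ⟨.ofNat 1525, .ofNat 62, .ofNat 6, .negSucc 308, .negSucc 343, .ofNat 97⟩, ⟨.negSucc 2045, .negSucc 40, .negSucc 25, .negSucc 49, .ofNat 175, .negSucc 194⟩, ⟨.ofNat 156, .ofNat 28, .negSucc 26, .negSucc 284, .negSucc 109, .negSucc 42⟩, .ofNat 822, .ofNat 1241, .ofNat 0, .ofNat 1241, .ofNat 3931, .ofNat 0, .ofNat 198, .negSucc 204, .negSucc 335, .ofNat 0, .ofNat 126, .ofNat 116, .ofNat 0, .ofNat 0, .ofNat 554, .ofNat 2746, .ofNat 2213445429185179144764255318835200, .ofNat 0, .ofNat 0, .ofNat 0, .ofNat 0, .ofNat 0, .ofNat 0, .ofNat 0, .ofNat 38863748040301976412323639092838400, .ofNat 0, .ofNat 1001046660552722528914636800, .ofNat 0, .ofNat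 0, .ofNat 0, .ofNat 0, .ofNat 0⟩)
    (by decide +kernel)
theorem L00184 : Good (Phi V4.P V4.D (-1) (-1)) ⟨5, 24, 4, 3, 1, 0, 2, 1, 3, 1⟩ :=
  leaf_sound (S := T4.ds_mm) T4.ok_mm (w := 168) (c := ⟨⟨.negSucc 1143, .negSucc 99, .ofNat 17, .negSucc 54, .ofNat 140, .negSucc 3⟩, ⟨.ofNat 334, .ofNat 55, .ofNat 41, .negSucc 12, .negSucc 52, .negSucc 1⟩, ⟨.ofNat 1160, .ofNat 101, .negSucc 31, .negSucc 110, .negSucc 350, .negSucc 0⟩, ⟨.negSucc 1918, .negSucc 89, .ofNat 16, .negSucc 246, .ofNat 197, .negSucc 19⟩, ⟨.ofNat 116, .ofNat 38, .negSucc 20, .negSucc 479, .negSucc 118, .negSucc 42⟩, .ofNat 655, .ofNat 800, .ofNat 0, .ofNat 800, .ofNat 2612, .ofNat 0, .ofNat 210, .negSucc 197, .negSucc 348, .ofNat 0, .ofNat 134, .ofNat 119, .ofNat 0, .ofNat 0, .ofNat 573, .ofNat 1796, .ofNat 0, .ofNat 0, .ofNat 0, .ofNat 0, .ofNat 0, .ofNat 0, .ofNat 0, .ofNat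 0, .ofNat 0, .ofNat 0, .ofNat 0, .ofNat 0, .ofNat 0, .ofNat 0, .ofNat 0, .ofNat 0⟩)
    (by decide +kernel)
theorem L00185 : Good (Phi V4.P V4.D (-1) (-1)) ⟨5, 25, 4, 2, 1, 0, 1, 0, 3, 1⟩ :=
  out_sound (S := T4.ds_mm) T4.ok_mm (w := 64) (j := 3) (by decide +kernel)
theorem L00186 : Good (Phi V4.P V4.D (-1) (-1)) ⟨5, 25, 4, 3, 1, 0, 2, 0, 3, 1⟩ :=
  leaf_sound (S := T4.ds_mm) T4.ok_mm (w := 176) (c := ⟨⟨.negSucc 1316, .negSucc 103, .negSucc 38, .ofNat 43, .ofNat 102, .negSucc 55⟩, ⟨.ofNat 419, .ofNat 21, .ofNat 62, .negSucc 34, .negSucc 46, .ofNat 18⟩, ⟨.ofNat 1425, .negSucc 256, .ofNat 235, .negSucc 330, .negSucc 338, .ofNat 57⟩, ⟨.negSucc 2157, .negSucc 292, .negSucc 20, .negSucc 24, .ofNat 114, .negSucc 97⟩, ⟨.ofNat 76, .negSucc 469, .ofNat 107, .negSucc 279, .negSucc 159, .negSucc 15⟩, .ofNat 832, .ofNat 1190, .ofNat 0, .ofNat 1190, .ofNat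 3456, .ofNat 0, .ofNat 198, .negSucc 203, .negSucc 346, .ofNat 0, .ofNat 137, .ofNat 128, .ofNat 0, .ofNat 0, .ofNat 564, .ofNat 2924, .ofNat 1557714149090308377033967455436800, .ofNat 0, .ofNat 8163626523724277194752000, .ofNat 0, .ofNat 45860138706794404667145083840102400, .ofNat 0, .ofNat 11553181578783896084309606400, .ofNat 0, .ofNat 14040177015188825963742330932428800, .ofNat 0, .ofNat 7948494266934253795776921600, .ofNat 0, .ofNat 0, .ofNat 0, .ofNat 2071597668162432723320832000, .ofNat 0⟩)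
    (by decide +kernel)
theorem L00187 : Good (Phi V4.P V4.D (-1) (-1)) ⟨5, 25, 4, 3, 1, 0, 2, 1, 3, 1⟩ :=
  leaf_sound (S := T4.ds_mm) T4.ok_mm (w := 176) (c := ⟨⟨.negSucc 1199, .negSucc 95, .negSucc 44, .negSucc 43, .ofNat 142, .ofNat 16⟩, ⟨.ofNat 379, .ofNat 53, .ofNat 61, .negSucc 19, .negSucc 58, .negSucc 9⟩, ⟨.ofNat 1213, .ofNat 227, .ofNat 25, .negSucc 110, .negSucc 344, .negSucc 8⟩, ⟨.negSucc 1964, .negSucc 104, .negSucc 45, .negSucc 237, .ofNat 190, .ofNat 8⟩, ⟨.ofNat 63, .ofNat 54, .ofNat 81, .negSucc 479, .negSucc 131, .negSucc 54⟩, .ofNat 812, .ofNat 1140, .ofNat 0, .ofNat 1140, .ofNat 3327, .ofNat 0, .ofNat 202, .negSucc 206, .negSucc 357, .ofNat 0, .ofNat 139, .ofNat 132, .ofNat 0, .ofNat 0, .ofNat 579, .ofNat 2649, .ofNat 0, .ofNat 0, .ofNat 0, .ofNat 0, .ofNat 0, .ofNat 0, .ofNat 10395816514160704040101478400, .ofNat 0, .ofNat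 0, .ofNat 0, .ofNat 6592587512003615079058636800, .ofNat 0, .ofNat 0, .ofNat 0, .ofNat 1191090437976188085652684800, .ofNat 0⟩)
    (by decide +kernel)
theorem L00188 : Good (Phi V4.P V4.D (-1) (-1)) ⟨4, 13, 3, 1, 1, 0, 1, 0, 3, 1⟩ :=
  out_sound (S := T4.ds_mm) T4.ok_mm (w := 56) (j := 3) (by decide +kernel)
theorem L00189 : Good (Phi V4.P V4.D (-1) (-1)) ⟨3, 6, 3, 1, 1, 0, 2, 0, 2, 1⟩ :=
  leaf_sound (S := T4.ds_mm) T4.ok_mm (w := 160) (c := ⟨⟨.negSucc 1308, .negSucc 232, .ofNat 26, .negSucc 71, .ofNat 139, .ofNat 357⟩, ⟨.ofNat 356, .ofNat 124, .ofNat 93, .negSucc 20, .negSucc 57, .negSucc 127⟩, ⟨.ofNat 1463, .ofNat 310, .negSucc 30, .ofNat 31, .negSucc 376, .negSucc 306⟩, ⟨.negSucc 2119, .negSucc 164, .ofNat 28, .negSucc 313, .ofNat 179, .ofNat 534⟩, ⟨.ofNat 305, .negSucc 16, .ofNat 6, .negSucc 605, .negSucc 160, .negSucc 205⟩, .ofNat 315,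 .ofNat 138, .ofNat 0, .ofNat 138, .ofNat 659, .ofNat 0, .ofNat 467, .negSucc 215, .negSucc 487, .ofNat 0, .ofNat 310, .ofNat 168, .ofNat 0, .ofNat 0, .ofNat 988, .ofNat 13521, .ofNat 0, .ofNat 0, .ofNat 0, .ofNat 0, .ofNat 0, .ofNat 0, .ofNat 1451853015868348394530406400, .ofNat 0, .ofNat 162320890529104445223743363481600, .ofNat 0, .ofNat 699989811528812842450944000, .ofNat 0, .ofNat 90309120103172405144664303206400, .ofNat 0, .ofNat 523502636869018970593689600, .ofNat 0⟩)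
    (by decide +kernel)
theorem L00190 : Good (Phi V4.P V4.D (-1) (-1)) ⟨3, 6, 3, 1, 1, 0, 2, 1, 2, 1⟩ :=
  leaf_sound (S := T4.ds_mm) T4.ok_mm (w := 160) (c := ⟨⟨.negSucc 1207, .negSucc 199, .ofNat 20, .ofNat 37, .ofNat 154, .ofNat 322⟩, ⟨.ofNat 324, .ofNat 114, .ofNat 75, .negSucc 58, .negSucc 52, .negSucc 109⟩, ⟨.ofNat 1083, .ofNat 263, .negSucc 22, .ofNat 48, .negSucc 328, .negSucc 323⟩, ⟨.negSucc 1997, .negSucc 105, .ofNat 4, .negSucc 152, .ofNat 243, .ofNat 506⟩, ⟨.ofNat 147, .ofNat 90, .negSucc 36, .negSucc 683, .negSucc 60, .negSucc 91⟩, .ofNat 473, .ofNat 389, .ofNat 0, .ofNat 389, .ofNat 1445, .ofNat 0, .ofNat 384, .negSucc 269, .negSucc 428, .ofNat 0, .ofNat 240, .ofNat 139, .ofNat 0, .ofNat 0, .ofNat 922, .ofNat 2949, .ofNat 0, .ofNat 0, .ofNat 1592349724854472202035200, .ofNat 0, .ofNat 0, .ofNat 0, .ofNat 1387844310442640354574336000,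 .ofNat 0, .ofNat 0, .ofNat 0, .ofNat 949580813287407581606707200, .ofNat 0, .ofNat 0, .ofNat 0, .ofNat 0, .ofNat 0⟩)
    (by decide +kernel)
theorem L00191 : Good (Phi V4.P V4.D (-1) (-1)) ⟨3, 7, 3, 1, 1, 0, 1, 0, 1, 0⟩ :=
  out_sound (S := T4.ds_mm) T4.ok_mm (w := 48) (j := 3) (by decide +kernel)
theorem L00192 : Good (Phi V4.P V4.D (-1) (-1)) ⟨4, 12, 3, 1, 1, 0, 2, 2, 3, 0⟩ :=
  leaf_sound (S := T4.ds_mm) T4.ok_mm (w := 168) (c := ⟨⟨.negSucc 723, .negSucc 96, .negSucc 25, .ofNat 173, .negSucc 14, .negSucc 373⟩, ⟨.ofNat 166, .ofNat 38, .ofNat 92, .negSucc 104, .ofNat 0, .ofNat 128⟩, ⟨.ofNat 452, .ofNat 62, .ofNat 56, .negSucc 315, .negSucc 187, .ofNat 420⟩, ⟨.negSucc 1189, .negSucc 61, .negSucc 85, .ofNat 48, .negSucc 57, .negSucc 595⟩, ⟨.ofNat 68, .ofNat 46, .negSucc 30, .negSucc 748, .negSucc 103, .ofNat 101⟩, .ofNat 821, .ofNat 1216, .ofNat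 0, .ofNat 1216, .ofNat 3772, .ofNat 0, .ofNat 241, .negSucc 243, .negSucc 530, .ofNat 0, .ofNat 156, .ofNat 181, .ofNat 0, .ofNat 0, .ofNat 734, .ofNat 895, .ofNat 0, .ofNat 0, .ofNat 16354502002881041817600000, .ofNat 0, .ofNat 0, .ofNat 0, .ofNat 3758045548150286385256857600, .ofNat 0, .ofNat 0, .ofNat 0, .ofNat 4124587660213175604530380800, .ofNat 0, .ofNat 0, .ofNat 0, .ofNat 2025802943702991753235660800, .ofNat 0⟩)
    (by decide +kernel)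
theorem L00193 : Good (Phi V4.P V4.D (-1) (-1)) ⟨4, 12, 3, 1, 1, 0, 2, 2, 3, 1⟩ :=
  leaf_sound (S := T4.ds_mm) T4.ok_mm (w := 168) (c := ⟨⟨.negSucc 1164, .negSucc 156, .ofNat 75, .negSucc 24, .ofNat 245, .ofNat 129⟩, ⟨.ofNat 301, .ofNat 73, .ofNat 68, .negSucc 39, .negSucc 84, .negSucc 42⟩, ⟨.ofNat 854, .ofNat 146, .negSucc 67, .negSucc 21, .negSucc 375, .negSucc 60⟩, ⟨.negSucc 1932, .negSucc 134, .ofNat 98, .negSucc 268, .ofNat 382, .ofNat 205⟩, ⟨.ofNat 108, .ofNat 119, .negSucc 7, .negSucc 731, .negSucc 101, .negSucc 33⟩, .ofNat 645, .ofNat 776, .ofNat 0, .ofNat 776, .ofNat 2557, .ofNat 0, .ofNat 226, .negSucc 208, .negSucc 419, .ofNat 0, .ofNat 143, .ofNat 140, .ofNat 0, .ofNat 0, .ofNat 622, .ofNat 2617, .ofNat 0, .ofNat 0, .ofNat 0, .ofNat 0, .ofNat 0, .ofNat 0, .ofNat 2599313055148180984194662400, .ofNat 0, .ofNat 0, .ofNat 0, .ofNat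 2148831074051671522384281600, .ofNat 0, .ofNat 0, .ofNat 0, .ofNat 2130222520459353701272780800, .ofNat 0⟩)
    (by decide +kernel)
theorem L00194 : Good (Phi V4.P V4.D (-1) (-1)) ⟨4, 12, 3, 1, 1, 0, 2, 2, 2, 1⟩ :=
  leaf_sound (S := T4.ds_mm) T4.ok_mm (w := 160) (c := ⟨⟨.negSucc 1215, .negSucc 101, .ofNat 89, .ofNat 213, .ofNat 331, .ofNat 359⟩, ⟨.ofNat 335, .ofNat 36, .ofNat 48, .negSucc 131, .negSucc 105, .negSucc 112⟩, ⟨.ofNat 872, .ofNat 106, .negSucc 74, .negSucc 153, .negSucc 404, .negSucc 275⟩, ⟨.negSucc 2000, .negSucc 96, .ofNat 121, .ofNat 67, .ofNat 558, .ofNat 591⟩, ⟨.ofNat 126, .ofNat 55, .negSucc 7, .negSucc 933, .ofNat 12, .negSucc 39⟩, .ofNat 475, .ofNat 392, .ofNat 0, .ofNat 392, .ofNat 1450, .ofNat 0, .ofNat 407, .negSucc 292, .negSucc 538, .ofNat 0, .ofNat 254, .ofNat 170, .ofNat 0, .ofNat 0, .ofNat 952, .ofNat 4340, .ofNat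 0, .ofNat 0, .ofNat 0, .ofNat 0, .ofNat 0, .ofNat 0, .ofNat 367113249769919046746112000, .ofNat 0, .ofNat 0, .ofNat 14833021074637797619997972889600, .ofNat 351263196335170537390080000, .ofNat 0, .ofNat 0, .ofNat 0, .ofNat 0, .ofNat 0⟩)
    (by decide +kernel)
theorem L00195 : Good (Phi V4.P V4.D (-1) (-1)) ⟨4, 13, 3, 1, 1, 0, 2, 2, 1, 0⟩ :=
  out_sound (S := T4.ds_mm) T4.ok_mm (w := 56) (j := 3) (by decide +kernel)
theorem L00196 : Good (Phi V4.P V4.D (-1) (-1)) ⟨4, 12, 3, 1, 1, 0, 3, 6, 2, 0⟩ :=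
  leaf_sound (S := T4.ds_mm) T4.ok_mm (w := 168) (c := ⟨⟨.negSucc 959, .negSucc 111, .negSucc 4, .ofNat 119, .ofNat 153, .ofNat 192⟩, ⟨.ofNat 246, .ofNat 41, .ofNat 80, .negSucc 94, .negSucc 48, .negSucc 58⟩, ⟨.ofNat 388, .ofNat 119, .ofNat 10, .negSucc 116, .negSucc 219, .ofNat 6⟩, ⟨.negSucc 1625, .negSucc 119, .negSucc 13, .negSucc 55, .ofNat 255, .ofNat 339⟩, ⟨.ofNat 3, .negSucc 36, .ofNat 41, .negSucc 824, .negSucc 11, .ofNat 43⟩, .ofNat 637, .ofNat 759, .ofNat 0, .ofNat 759, .ofNat 2540, .ofNat 0, .ofNat 249, .negSucc 221, .negSucc 527, .ofNat 0, .ofNat 155, .ofNat 168, .ofNat 0, .ofNat 0, .ofNat 718, .ofNat 780, .ofNat 0, .ofNat 0, .ofNat 0, .ofNat 0, .ofNat 0, .ofNat 0, .ofNat 1225538880876125751450009600, .ofNat 0, .ofNat 0, .ofNat 0, .ofNat 1544998652463097760867942400, .ofNat 0, .ofNat 0, .ofNat 0, .ofNat 385318816442999542539878400,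 .ofNat 0⟩)
    (by decide +kernel)
theorem L00197 : Good (Phi V4.P V4.D (-1) (-1)) ⟨4, 12, 3, 1, 1, 0, 3, 7, 2, 0⟩ :=
  leaf_sound (S := T4.ds_mm) T4.ok_mm (w := 168) (c := ⟨⟨.negSucc 1036, .negSucc 62, .ofNat 72, .negSucc 134, .ofNat 356, .ofNat 687⟩, ⟨.ofNat 283, .ofNat 13, .ofNat 37, .negSucc 19, .negSucc 106, .negSucc 204⟩, ⟨.ofNat 331, .ofNat 70, .negSucc 70, .ofNat 195, .negSucc 394, .negSucc 392⟩, ⟨.negSucc 1758, .negSucc 72, .ofNat 116, .negSucc 480, .ofNat 604, .ofNat 1195⟩, ⟨.negSucc 48, .negSucc 19, .ofNat 34, .negSucc 809, .ofNat 18, .ofNat 128⟩, .ofNat 723, .ofNat 966, .ofNat 0, .ofNat 966, .ofNat 3115, .ofNat 0, .ofNat 261, .negSucc 240, .negSucc 689, .ofNat 0, .ofNat 164, .ofNat 219, .ofNat 0, .ofNat 0, .ofNat 839, .ofNat 650, .ofNat 0, .ofNat 0, .ofNat 0, .ofNat 0, .ofNat 0, .ofNat 17443484161197431009481798451200, .ofNat 1185208540034765966593228800,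 .ofNat 0, .ofNat 0, .ofNat 0, .ofNat 1770279557671805623625318400, .ofNat 0, .ofNat 0, .ofNat 0, .ofNat 839906779350476141730201600, .ofNat 0⟩)
    (by decide +kernel)
theorem L00198 : Good (Phi V4.P V4.D (-1) (-1)) ⟨4, 12, 3, 1, 1, 0, 2, 3, 3, 2⟩ :=
  leaf_sound (S := T4.ds_mm) T4.ok_mm (w := 168) (c := ⟨⟨.negSucc 984, .ofNat 66, .ofNat 1, .ofNat 373, .ofNat 835, .ofNat 190⟩, ⟨.ofNat 283, .negSucc 53, .ofNat 50, .negSucc 172, .negSucc 248, .negSucc 63⟩, ⟨.ofNat 544, .negSucc 54, .negSucc 9, .negSucc 282, .negSucc 850, .negSucc 116⟩, ⟨.negSucc 1615, .ofNat 127, .negSucc 38, .ofNat 357, .ofNat 1433, .ofNat 319⟩, ⟨.ofNat 104, .ofNat 19, .negSucc 39, .negSucc 878, .ofNat 72, .negSucc 7⟩, .ofNat 633, .ofNat 746, .ofNat 0, .ofNat 746, .ofNat 2511, .ofNat 0, .ofNat 217, .negSucc 193, .negSucc 419, .ofNat 0, .ofNat 134, .ofNat 131, .ofNat 0, .ofNat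 0, .ofNat 581, .ofNat 539, .ofNat 0, .ofNat 0, .ofNat 9739711945297395803750400, .ofNat 0, .ofNat 0, .ofNat 315856035817640551157693467852800, .ofNat 2557522547845227531259084800, .ofNat 0, .ofNat 0, .ofNat 0, .ofNat 2989784913181390972492185600, .ofNat 0, .ofNat 0, .ofNat 633402830877185640512818564300800, .ofNat 814242658600755717577113600, .ofNat 0⟩)
    (by decide +kernel)
theorem L00199 : Good (Phi V4.P V4.D (-1) (-1)) ⟨4, 12, 3, 1, 1, 0, 3, 6, 3, 3⟩ :=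
  leaf_sound (S := T4.ds_mm) T4.ok_mm (w := 168) (c := ⟨⟨.negSucc 853, .negSucc 9, .ofNat 15, .ofNat 603, .ofNat 298, .ofNat 156⟩, ⟨.ofNat 240, .negSucc 1, .ofNat 42, .negSucc 245, .negSucc 92, .negSucc 50⟩, ⟨.ofNat 456, .ofNat 13, .negSucc 13, .negSucc 471, .negSucc 304, .negSucc 108⟩, ⟨.negSucc 1420, .ofNat 9, .ofNat 8, .ofNat 769, .ofNat 517, .ofNat 267⟩, ⟨.ofNat 20, .negSucc 22, .ofNat 11, .negSucc 761, .ofNat 44, .ofNat 24⟩, .ofNat 477, .ofNat 398, .ofNat 0, .ofNat 398, .ofNat 1446, .ofNat 0, .ofNat 407, .negSucc 293, .negSucc 660, .ofNat 0, .ofNat 257, .ofNat 200, .ofNat 0, .ofNat 0, .ofNat 1000, .ofNat 4586, .ofNat 0, .ofNat 0, .ofNat 0, .ofNat 0, .ofNat 0, .ofNat 0, .ofNat 67181783656689058547603865600, .ofNat 0, .ofNat 0, .ofNat 3036776386038670004518399456051200, .ofNat 52206491716511966297063424000, .ofNat 0, .ofNat 0, .ofNat 548923976373091040903854817280000,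 .ofNat 80791112235339720049242931200, .ofNat 0⟩)
    (by decide +kernel)

end Crest.Agent.R097C4.N4mm
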