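import Crest.Agent.R097.T4

/-!
# Row 97, box cover in dimension n = 4 (generated)
-/

set_option autoImplicit false
set_option Elab.async false
set_option maxHeartbeats 0
set_option maxRecDepth 100000

open Crest.Agent.R097 Crest.Agent.R097.KA


namespace Crest.Agent.R097C4.N4mm

theorem L00200 : Good (Phi V4.P V4.D (-1) (-1)) ⟨4, 12, 3, 1, 1, 0, 3, 7, 3, 3⟩ :=
  leaf_sound (S := T4.ds_mm) T4.ok_mm (w := 168) (c := ⟨⟨.negSucc 732, .ofNat 70, .ofNat 35, .ofNat 999, .ofNat 667, .ofNat 130⟩, ⟨.ofNat 230, .negSucc 28, .ofNat 2, .negSucc 360, .negSucc 213, .negSucc 41⟩, ⟨.ofNat 316, .negSucc 62, .negSucc 34, .negSucc 830, .negSucc 660, .negSucc 81⟩, ⟨.negSucc 1223, .ofNat 125, .ofNat 53, .ofNat 1502, .ofNat 1130, .ofNat 222⟩, ⟨.negSucc 10, .ofNat 21, .ofNat 9, .negSucc 543, .ofNat 40, .ofNat 16⟩, .ofNat 645, .ofNat 775, .ofNat 0, .ofNat 775, .ofNat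 2558, .ofNat 0, .ofNat 190, .negSucc 169, .negSucc 424, .ofNat 0, .ofNat 120, .ofNat 133, .ofNat 0, .ofNat 0, .ofNat 564, .ofNat 1224, .ofNat 0, .ofNat 0, .ofNat 0, .ofNat 0, .ofNat 0, .ofNat 1737157288071655032489856991232000, .ofNat 20566861724299232766276403200, .ofNat 0, .ofNat 0, .ofNat 828064250748987942798522895564800, .ofNat 19307950898193086427640627200, .ofNat 0, .ofNat 0, .ofNat 1953275840182938828563206373376000, .ofNat 7535665001881493046086860800, .ofNat 0⟩)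
    (by decide +kernel)
theorem L00201 : Good (Phi V4.P V4.D (-1) (-1)) ⟨4, 13, 3, 1, 1, 0, 2, 3, 1, 0⟩ :=
  out_sound (S := T4.ds_mm) T4.ok_mm (w := 56) (j := 3) (by decide +kernel)
theorem L00202 : Good (Phi V4.P V4.D (-1) (-1)) ⟨3, 7, 3, 1, 1, 0, 1, 1, 1, 0⟩ :=
  out_sound (S := T4.ds_mm) T4.ok_mm (w := 48) (j := 3) (by decide +kernel)
theorem L00203 : Good (Phi V4.P V4.D (-1) (-1)) ⟨3, 4, 3, 0, 2, 2, 2, 0, 3, 0⟩ :=
  leaf_sound (S := T4.ds_mm) T4.ok_mm (w := 168) (c := ⟨⟨.ofNat 373, .ofNat 7, .negSucc 150, .ofNat 57, .negSucc 314, .negSucc 991⟩, ⟨.negSucc 22, .ofNat 4, .ofNat 81, .negSucc 0, .ofNat 8, .ofNat 44⟩, ⟨.negSucc 122, .negSucc 49, .ofNat 104, .negSucc 63, .ofNat 36, .ofNat 787⟩, ⟨.ofNat 761, .ofNat 44, .negSucc 268, .ofNat 123, .negSucc 681, .negSucc 2083⟩, ⟨.negSucc 172, .negSucc 26, .negSucc 6, .negSucc 62, .negSucc 268, .negSucc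 56⟩, .ofNat 448, .ofNat 82, .ofNat 0, .ofNat 82, .ofNat 2364, .ofNat 0, .ofNat 673, .negSucc 110, .negSucc 593, .ofNat 0, .ofNat 193, .ofNat 45, .ofNat 0, .ofNat 0, .ofNat 982, .ofNat 3861, .ofNat 392282092221796110737738406297600, .ofNat 0, .ofNat 33043746081809006396964864000, .ofNat 0, .ofNat 0, .ofNat 0, .ofNat 0, .ofNat 0, .ofNat 0, .ofNat 0, .ofNat 0, .ofNat 0, .ofNat 0, .ofNat 0, .ofNat 0, .ofNat 0⟩)
    (by decide +kernel)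
theorem L00204 : Good (Phi V4.P V4.D (-1) (-1)) ⟨3, 4, 3, 0, 2, 2, 2, 1, 3, 0⟩ :=
  leaf_sound (S := T4.ds_mm) T4.ok_mm (w := 168) (c := ⟨⟨.ofNat 90, .negSucc 133, .ofNat 27, .negSucc 98, .negSucc 254, .negSucc 747⟩, ⟨.negSucc 24, .ofNat 33, .ofNat 78, .ofNat 3, .ofNat 11, .ofNat 30⟩, ⟨.negSucc 138, .ofNat 91, .negSucc 32, .ofNat 36, .ofNat 40, .ofNat 636⟩, ⟨.ofNat 114, .negSucc 156, .negSucc 6, .negSucc 217, .negSucc 542, .negSucc 1577⟩, ⟨.negSucc 439, .ofNat 8, .negSucc 49, .negSucc 150, .negSucc 234, .ofNat 4⟩, .ofNat 517, .ofNat 283, .ofNat 0, .ofNat 283, .ofNat 6589, .ofNat 0, .ofNat 331, .negSucc 83, .negSucc 309, .ofNat 0, .ofNat 64, .ofNat 19, .ofNat 0, .ofNat 0, .ofNat 525, .ofNat 1385, .ofNat 0, .ofNat 0, .ofNat 0, .ofNat 0, .ofNat 0, .ofNat 0, .ofNat 0, .ofNat 0, .ofNat 0, .ofNat 0, .ofNat 1434346333240047237516283084800, .ofNat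 0, .ofNat 0, .ofNat 0, .ofNat 0, .ofNat 0⟩)
    (by decide +kernel)
theorem L00205 : Good (Phi V4.P V4.D (-1) (-1)) ⟨3, 5, 3, 0, 2, 2, 2, 0, 4, 0⟩ :=
  leaf_sound (S := T4.ds_mm) T4.ok_mm (w := 176) (c := ⟨⟨.ofNat 630, .ofNat 289, .ofNat 18, .ofNat 299, .negSucc 589, .negSucc 890⟩, ⟨.negSucc 92, .negSucc 111, .negSucc 0, .negSucc 48, .ofNat 79, .ofNat 150⟩, ⟨.negSucc 392, .negSucc 274, .negSucc 5, .negSucc 129, .ofNat 210, .ofNat 687⟩, ⟨.ofNat 1159, .ofNat 430, .negSucc 1, .ofNat 555, .negSucc 1127, .negSucc 1617⟩, ⟨.negSucc 250, .negSucc 107, .negSucc 23, .ofNat 37, .negSucc 260, .negSucc 9⟩, .ofNat 428, .ofNat 227, .ofNat 0, .ofNat 227, .ofNat 1543, .ofNat 0, .ofNat 340, .negSucc 176, .negSucc 465, .ofNat 0, .ofNat 145, .ofNat 98, .ofNat 0, .ofNat 0, .ofNat 568, .ofNat 2963, .ofNat 0, .ofNat 0, .ofNat 0, .ofNat 0, .ofNat 0, .ofNat 0, .ofNat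 0, .ofNat 0, .ofNat 0, .ofNat 0, .ofNat 29718007959217607685228095078400, .ofNat 0, .ofNat 0, .ofNat 0, .ofNat 0, .ofNat 0⟩)
    (by decide +kernel)
theorem L00206 : Good (Phi V4.P V4.D (-1) (-1)) ⟨3, 5, 3, 0, 2, 2, 2, 1, 4, 0⟩ :=
  leaf_sound (S := T4.ds_mm) T4.ok_mm (w := 176) (c := ⟨⟨.ofNat 171, .ofNat 94, .ofNat 61, .ofNat 101, .negSucc 505, .negSucc 787⟩, ⟨.negSucc 63, .negSucc 83, .ofNat 52, .negSucc 18, .ofNat 71, .ofNat 147⟩, ⟨.negSucc 261, .negSucc 134, .negSucc 40, .negSucc 68, .ofNat 231, .ofNat 664⟩, ⟨.ofNat 247, .ofNat 162, .ofNat 49, .ofNat 167, .negSucc 964, .negSucc 1408⟩, ⟨.negSucc 519, .negSucc 52, .negSucc 39, .negSucc 98, .negSucc 208, .ofNat 94⟩, .ofNat 311, .ofNat 77, .ofNat 0, .ofNat 77, .ofNat 698, .ofNat 0, .ofNat 408, .negSucc 130, .negSucc 764, .ofNat 0, .ofNat 200, .ofNat 174, .ofNat 0, .ofNat 0, .ofNat 802, .ofNat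 1061, .ofNat 0, .ofNat 0, .ofNat 0, .ofNat 0, .ofNat 0, .ofNat 0, .ofNat 0, .ofNat 0, .ofNat 0, .ofNat 0, .ofNat 0, .ofNat 0, .ofNat 0, .ofNat 0, .ofNat 17448706166384003877411854745600, .ofNat 0⟩)
    (by decide +kernel)
theorem L00207 : Good (Phi V4.P V4.D (-1) (-1)) ⟨3, 5, 3, 0, 2, 2, 1, 0, 4, 1⟩ :=
  leaf_sound (S := T4.ds_mm) T4.ok_mm (w := 168) (c := ⟨⟨.ofNat 17, .negSucc 218, .ofNat 68, .negSucc 190, .negSucc 663, .negSucc 592⟩, ⟨.negSucc 75, .ofNat 59, .ofNat 74, .ofNat 26, .ofNat 91, .ofNat 108⟩, ⟨.ofNat 115, .ofNat 143, .negSucc 55, .ofNat 70, .ofNat 202, .ofNat 488⟩, ⟨.negSucc 73, .negSucc 248, .ofNat 94, .negSucc 362, .negSucc 1282, .negSucc 1077⟩, ⟨.negSucc 275, .ofNat 63, .negSucc 23, .negSucc 103, .negSucc 410, .ofNat 51⟩, .ofNat 429, .ofNat 226, .ofNat 0, .ofNat 226, .ofNat 1595, .ofNat 0, .ofNat 341, .negSucc 170, .negSucc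 445, .ofNat 0, .ofNat 143, .ofNat 96, .ofNat 0, .ofNat 0, .ofNat 584, .ofNat 1378, .ofNat 0, .ofNat 0, .ofNat 0, .ofNat 0, .ofNat 0, .ofNat 0, .ofNat 0, .ofNat 0, .ofNat 0, .ofNat 0, .ofNat 0, .ofNat 0, .ofNat 0, .ofNat 0, .ofNat 1466185737008757122594242560000, .ofNat 0⟩)
    (by decide +kernel)
theorem L00208 : Good (Phi V4.P V4.D (-1) (-1)) ⟨2, 3, 3, 0, 2, 2, 1, 0, 3, 0⟩ :=
  out_sound (S := T4.ds_mm) T4.ok_mm (w := 40) (j := 3) (by decide +kernel)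
theorem L00209 : Good (Phi V4.P V4.D (-1) (-1)) ⟨2, 2, 3, 0, 2, 2, 1, 0, 4, 2⟩ :=
  leaf_sound (S := T4.ds_mm) T4.ok_mm (w := 168) (c := ⟨⟨.negSucc 404, .negSucc 593, .ofNat 43, .negSucc 310, .negSucc 154, .negSucc 217⟩, ⟨.negSucc 51, .ofNat 177, .ofNat 105, .ofNat 30, .ofNat 11, .ofNat 29⟩, ⟨.ofNat 481, .ofNat 482, .negSucc 59, .ofNat 118, .negSucc 181, .ofNat 204⟩, ⟨.negSucc 1038, .negSucc 717, .ofNat 68, .negSucc 622, .negSucc 332, .negSucc 419⟩, ⟨.negSucc 214, .ofNat 96, .negSucc 2, .negSucc 205, .negSucc 455, .negSucc 33⟩, .ofNat 322, .ofNat 48, .ofNat 0, .ofNat 48, .ofNat 769, .ofNat 0, .ofNat 357, .negSucc 76, .negSucc 392, .ofNat 0, .ofNat 169, .ofNat 77, .ofNat 0, .ofNat 0, .ofNat 570, .ofNat 1756, .ofNat 5285556649503755501916546662400, .ofNat 0, .ofNat 48516287062242328824722227200, .ofNat 0, .ofNat 0, .ofNat 0, .ofNat 0, .ofNat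 0, .ofNat 785681887026305148697062250905600, .ofNat 0, .ofNat 8574817914096647593637235916800, .ofNat 0, .ofNat 0, .ofNat 0, .ofNat 5308291381339345566113464320000, .ofNat 0⟩)
    (by decide +kernel)
theorem L00210 : Good (Phi V4.P V4.D (-1) (-1)) ⟨2, 2, 3, 0, 2, 2, 1, 0, 4, 3⟩ :=
  leaf_sound (S := T4.ds_mm) T4.ok_mm (w := 168) (c := ⟨⟨.negSucc 721, .negSucc 533, .ofNat 26, .negSucc 298, .ofNat 60, .negSucc 37⟩, ⟨.negSucc 10, .ofNat 161, .ofNat 132, .ofNat 19, .negSucc 17, .ofNat 0⟩, ⟨.ofNat 753, .ofNat 448, .negSucc 46, .ofNat 114, .negSucc 354, .ofNat 66⟩, ⟨.negSucc 1662, .negSucc 574, .ofNat 47, .negSucc 618, .ofNat 80, .negSucc 85⟩, ⟨.negSucc 191, .ofNat 83, .negSucc 12, .negSucc 321, .negSucc 452, .negSucc 110⟩, .ofNat 321, .ofNat 44, .ofNat 0, .ofNat 44, .ofNat 777, .ofNat 0, .ofNat 335, .negSucc 68, .negSucc 309, .ofNat 0, .ofNat 160,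 .ofNat 63, .ofNat 0, .ofNat 0, .ofNat 526, .ofNat 1831, .ofNat 0, .ofNat 0, .ofNat 0, .ofNat 0, .ofNat 0, .ofNat 0, .ofNat 0, .ofNat 0, .ofNat 653273419414397343921740552601600, .ofNat 0, .ofNat 0, .ofNat 0, .ofNat 0, .ofNat 0, .ofNat 0, .ofNat 0⟩)
    (by decide +kernel)
theorem L00211 : Good (Phi V4.P V4.D (-1) (-1)) ⟨2, 3, 3, 0, 2, 2, 1, 0, 3, 1⟩ :=
  out_sound (S := T4.ds_mm) T4.ok_mm (w := 40) (j := 3) (by decide +kernel)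
theorem L00212 : Good (Phi V4.P V4.D (-1) (-1)) ⟨3, 4, 4, 0, 2, 3, 2, 0, 3, 0⟩ :=
  leaf_sound (S := T4.ds_mm) T4.ok_mm (w := 176) (c := ⟨⟨.ofNat 767, .ofNat 131, .negSucc 151, .negSucc 103, .negSucc 450, .negSucc 1633⟩, ⟨.negSucc 41, .ofNat 2, .ofNat 44, .negSucc 0, .ofNat 17, .ofNat 74⟩, ⟨.negSucc 274, .negSucc 84, .ofNat 88, .ofNat 285, .ofNat 6, .ofNat 977⟩, ⟨.ofNat 1594, .ofNat 309, .negSucc 263, .negSucc 230, .negSucc 967, .negSucc 3437⟩, ⟨.negSucc 70, .ofNat 238, .negSucc 113, .ofNat 525, .negSucc 438, .negSucc 476⟩, .ofNat 451, .ofNat 73, .ofNat 0, .ofNat 73, .ofNat 2398, .ofNat 0, .ofNat 838, .negSucc 178, .negSucc 591, .ofNat 0, .ofNat 213, .ofNat 27, .ofNat 0, .ofNat 0, .ofNat 959, .ofNat 5390, .ofNat 0, .ofNat 0, .ofNat 0, .ofNat 0, .ofNat 0, .ofNat 0, .ofNat 924738015706768841781333196800, .ofNat 0, .ofNat 0, .ofNat 0, .ofNat 0,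 .ofNat 0, .ofNat 0, .ofNat 0, .ofNat 0, .ofNat 0⟩)
    (by decide +kernel)
theorem L00213 : Good (Phi V4.P V4.D (-1) (-1)) ⟨3, 5, 4, 0, 2, 3, 2, 0, 4, 0⟩ :=
  leaf_sound (S := T4.ds_mm) T4.ok_mm (w := 176) (c := ⟨⟨.ofNat 1363, .ofNat 115, .ofNat 4, .negSucc 199, .negSucc 804, .negSucc 1306⟩, ⟨.negSucc 187, .negSucc 24, .negSucc 9, .ofNat 94, .ofNat 80, .ofNat 168⟩, ⟨.negSucc 677, .negSucc 74, .ofNat 18, .ofNat 464, .ofNat 171, .ofNat 788⟩, ⟨.ofNat 2527, .ofNat 184, .ofNat 7, .negSucc 229, .negSucc 1563, .negSucc 2468⟩, ⟨.negSucc 103, .ofNat 128, .negSucc 16, .ofNat 980, .negSucc 486, .negSucc 287⟩, .ofNat 423, .ofNat 184, .ofNat 0, .ofNat 184, .ofNat 1573, .ofNat 0, .ofNat 441, .negSucc 247, .negSucc 465, .ofNat 0, .ofNat 162, .ofNat 67, .ofNat 0, .ofNat 0, .ofNat 531, .ofNat 2591, .ofNat 0, .ofNat 0, .ofNat 0, .ofNat 0, .ofNat 0, .ofNat 0,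 .ofNat 0, .ofNat 0, .ofNat 0, .ofNat 0, .ofNat 18746901805052585563612250112000, .ofNat 0, .ofNat 0, .ofNat 0, .ofNat 0, .ofNat 0⟩)
    (by decide +kernel)
theorem L00214 : Good (Phi V4.P V4.D (-1) (-1)) ⟨3, 5, 4, 0, 2, 3, 2, 0, 4, 1⟩ :=
  leaf_sound (S := T4.ds_mm) T4.ok_mm (w := 176) (c := ⟨⟨.ofNat 268, .negSucc 500, .ofNat 2, .negSucc 714, .negSucc 484, .negSucc 988⟩, ⟨.negSucc 119, .ofNat 174, .ofNat 48, .ofNat 136, .ofNat 57, .ofNat 134⟩, ⟨.ofNat 19, .ofNat 264, .ofNat 19, .ofNat 504, .ofNat 113, .ofNat 609⟩, ⟨.ofNat 339, .negSucc 636, .ofNat 10, .negSucc 1246, .negSucc 929, .negSucc 1844⟩, ⟨.negSucc 301, .ofNat 285, .negSucc 20, .ofNat 566, .negSucc 352, .negSucc 53⟩, .ofNat 424, .ofNat 188, .ofNat 0, .ofNat 188, .ofNat 1591, .ofNat 0, .ofNat 431, .negSucc 259, .negSucc 438, .ofNat 0, .ofNat 164, .ofNat 74, .ofNat 0, .ofNat 0, .ofNat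 532, .ofNat 815, .ofNat 0, .ofNat 0, .ofNat 137247801051556554840893030400, .ofNat 0, .ofNat 0, .ofNat 0, .ofNat 0, .ofNat 0, .ofNat 0, .ofNat 0, .ofNat 20705083018185978258994180915200, .ofNat 0, .ofNat 0, .ofNat 0, .ofNat 0, .ofNat 0⟩)
    (by decide +kernel)
theorem L00215 : Good (Phi V4.P V4.D (-1) (-1)) ⟨3, 4, 4, 0, 2, 3, 2, 1, 3, 0⟩ :=
  leaf_sound (S := T4.ds_mm) T4.ok_mm (w := 176) (c := ⟨⟨.ofNat 318, .negSucc 207, .ofNat 104, .negSucc 199, .negSucc 371, .negSucc 1200⟩, ⟨.negSucc 42, .ofNat 59, .ofNat 1, .ofNat 6, .ofNat 20, .ofNat 46⟩, ⟨.negSucc 217, .ofNat 144, .negSucc 70, .ofNat 194, .ofNat 76, .ofNat 774⟩, ⟨.ofNat 575, .negSucc 252, .ofNat 128, .negSucc 424, .negSucc 787, .negSucc 2551⟩, ⟨.negSucc 413, .ofNat 145, .negSucc 85, .ofNat 274, .negSucc 404, .negSucc 324⟩, .ofNat 449, .ofNat 83, .ofNat 0, .ofNat 83, .ofNat 2376, .ofNat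 0, .ofNat 422, .negSucc 77, .negSucc 337, .ofNat 0, .ofNat 110, .ofNat 24, .ofNat 0, .ofNat 0, .ofNat 514, .ofNat 1405, .ofNat 0, .ofNat 0, .ofNat 0, .ofNat 0, .ofNat 0, .ofNat 0, .ofNat 0, .ofNat 0, .ofNat 0, .ofNat 0, .ofNat 0, .ofNat 0, .ofNat 0, .ofNat 0, .ofNat 0, .ofNat 0⟩)
    (by decide +kernel)
theorem L00216 : Good (Phi V4.P V4.D (-1) (-1)) ⟨4, 10, 4, 0, 2, 3, 2, 1, 3, 0⟩ :=
  leaf_sound (S := T4.ds_mm) T4.ok_mm (w := 176) (c := ⟨⟨.ofNat 323, .negSucc 13, .ofNat 94, .negSucc 291, .negSucc 414, .negSucc 1685⟩, ⟨.negSucc 93, .ofNat 27, .ofNat 31, .ofNat 54, .ofNat 39, .ofNat 199⟩, ⟨.negSucc 261, .ofNat 37, .negSucc 41, .ofNat 268, .ofNat 120, .ofNat 1085⟩, ⟨.ofNat 532, .ofNat 69, .ofNat 156, .negSucc 515, .negSucc 835, .negSucc 3235⟩, ⟨.negSucc 429, .ofNat 167, .negSucc 20, .ofNat 419, .negSucc 414, .negSucc 279⟩, .ofNat 507, .ofNat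 403, .ofNat 0, .ofNat 403, .ofNat 3519, .ofNat 0, .ofNat 406, .negSucc 228, .negSucc 438, .ofNat 0, .ofNat 119, .ofNat 62, .ofNat 0, .ofNat 0, .ofNat 554, .ofNat 1563, .ofNat 0, .ofNat 0, .ofNat 0, .ofNat 0, .ofNat 0, .ofNat 0, .ofNat 0, .ofNat 0, .ofNat 0, .ofNat 0, .ofNat 0, .ofNat 0, .ofNat 0, .ofNat 0, .ofNat 0, .ofNat 0⟩)
    (by decide +kernel)
theorem L00217 : Good (Phi V4.P V4.D (-1) (-1)) ⟨4, 11, 4, 0, 2, 3, 2, 1, 3, 0⟩ :=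
  leaf_sound (S := T4.ds_mm) T4.ok_mm (w := 176) (c := ⟨⟨.ofNat 503, .negSucc 356, .ofNat 113, .negSucc 442, .negSucc 462, .negSucc 2061⟩, ⟨.negSucc 159, .ofNat 101, .ofNat 36, .ofNat 113, .ofNat 39, .ofNat 331⟩, ⟨.negSucc 375, .ofNat 209, .negSucc 31, .ofNat 358, .ofNat 158, .ofNat 1316⟩, ⟨.ofNat 818, .negSucc 527, .ofNat 212, .negSucc 712, .negSucc 922, .negSucc 3744⟩, ⟨.negSucc 407, .ofNat 86, .ofNat 40, .ofNat 528, .negSucc 475, .negSucc 182⟩, .ofNat 494, .ofNat 357, .ofNat 0, .ofNat 357, .ofNat 2249, .ofNat 0, .ofNat 420, .negSucc 269, .negSucc 549, .ofNat 0, .ofNat 164, .ofNat 112, .ofNat 0, .ofNat 0, .ofNat 601, .ofNat 1767, .ofNat 0, .ofNat 0, .ofNat 5588977891256329202093260800, .ofNat 0, .ofNat 0, .ofNat 0, .ofNat 219007591795687966773136588800, .ofNat 0, .ofNat 0, .ofNat 0, .ofNat 959139195610259086298107084800, .ofNat 0, .ofNat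 0, .ofNat 0, .ofNat 563670725807125123146606182400, .ofNat 0⟩)
    (by decide +kernel)
theorem L00218 : Good (Phi V4.P V4.D (-1) (-1)) ⟨2, 3, 4, 0, 2, 3, 1, 0, 3, 0⟩ :=
  out_sound (S := T4.ds_mm) T4.ok_mm (w := 48) (j := 3) (by decide +kernel)
theorem L00219 : Good (Phi V4.P V4.D (-1) (-1)) ⟨3, 4, 4, 1, 2, 3, 1, 0, 3, 0⟩ :=
  out_sound (S := T4.ds_mm) T4.ok_mm (w := 48) (j := 3) (by decide +kernel)
theorem L00220 : Good (Phi V4.P V4.D (-1) (-1)) ⟨3, 5, 4, 1, 2, 3, 1, 0, 4, 0⟩ :=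
  leaf_sound (S := T4.ds_mm) T4.ok_mm (w := 176) (c := ⟨⟨.ofNat 1351, .negSucc 84, .negSucc 25, .negSucc 212, .negSucc 1372, .negSucc 1189⟩, ⟨.negSucc 236, .ofNat 34, .ofNat 5, .ofNat 71, .ofNat 195, .ofNat 192⟩, ⟨.negSucc 623, .ofNat 16, .ofNat 48, .ofNat 421, .ofNat 360, .ofNat 738⟩, ⟨.ofNat 2469, .negSucc 82, .negSucc 55, .negSucc 260, .negSucc 2692, .negSucc 2229⟩, ⟨.ofNat 1, .ofNat 194, .negSucc 45, .ofNat 760, .negSucc 936, .negSucc 291⟩, .ofNat 436, .ofNat 255, .ofNat 0, .ofNat 255, .ofNat 1665, .ofNat 0, .ofNat 424, .negSucc 291, .negSucc 519, .ofNat 0, .ofNat 170, .ofNat 97, .ofNat 0, .ofNat 0, .ofNat 569, .ofNat 804, .ofNat 0, .ofNat 0, .ofNat 46833638887815444544094208000, .ofNat 0, .ofNat 0, .ofNat 0, .ofNat 0, .ofNat 0, .ofNat 0, .ofNat 0, .ofNat 0, .ofNat 0, .ofNat 0, .ofNat 0, .ofNat 0, .ofNat 0⟩)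
    (by decide +kernel)
theorem L00221 : Good (Phi V4.P V4.D (-1) (-1)) ⟨4, 10, 4, 1, 2, 3, 1, 0, 4, 1⟩ :=
  leaf_sound (S := T4.ds_mm) T4.ok_mm (w := 176) (c := ⟨⟨.ofNat 4, .negSucc 307, .ofNat 114, .negSucc 496, .negSucc 587, .negSucc 763⟩, ⟨.negSucc 31, .ofNat 85, .ofNat 37, .ofNat 80, .ofNat 65, .ofNat 112⟩, ⟨.ofNat 210, .ofNat 158, .negSucc 39, .ofNat 421, .negSucc 3, .ofNat 466⟩, ⟨.negSucc 81, .negSucc 416, .ofNat 184, .negSucc 898, .negSucc 1243, .negSucc 1471⟩, ⟨.negSucc 167, .ofNat 171, .negSucc 55, .ofNat 351, .negSucc 808, .negSucc 148⟩, .ofNat 548, .ofNat 621, .ofNat 0, .ofNat 621, .ofNat 4376, .ofNat 0, .ofNat 365, .negSucc 308, .negSucc 399, .ofNat 0, .ofNat 118, .ofNat 66, .ofNat 0, .ofNat 0, .ofNat 528, .ofNat 1440, .ofNat 0, .ofNat 0, .ofNat 0, .ofNat 0, .ofNat 0, .ofNat 0, .ofNat 0, .ofNat 0, .ofNat 0, .ofNat 0, .ofNat 0,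 .ofNat 0, .ofNat 0, .ofNat 0, .ofNat 0, .ofNat 0⟩)
    (by decide +kernel)
theorem L00222 : Good (Phi V4.P V4.D (-1) (-1)) ⟨5, 22, 4, 1, 2, 3, 1, 0, 4, 1⟩ :=
  leaf_sound (S := T4.ds_mm) T4.ok_mm (w := 184) (c := ⟨⟨.negSucc 41, .negSucc 146, .ofNat 78, .negSucc 641, .negSucc 757, .negSucc 948⟩, ⟨.negSucc 38, .ofNat 49, .ofNat 38, .ofNat 143, .ofNat 111, .ofNat 190⟩, ⟨.ofNat 224, .ofNat 49, .ofNat 1, .ofNat 489, .ofNat 137, .ofNat 547⟩, ⟨.negSucc 124, .negSucc 195, .ofNat 124, .negSucc 1072, .negSucc 1523, .negSucc 1722⟩, ⟨.negSucc 129, .ofNat 48, .negSucc 19, .ofNat 434, .negSucc 779, .negSucc 24⟩, .ofNat 547, .ofNat 573, .ofNat 0, .ofNat 573, .ofNat 3053, .ofNat 0, .ofNat 366, .negSucc 357, .negSucc 481, .ofNat 0, .ofNat 158, .ofNat 106, .ofNat 0, .ofNat 0, .ofNat 554, .ofNat 1405, .ofNat 0, .ofNat 0, .ofNat 0, .ofNat 0, .ofNat 0, .ofNat 0,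 .ofNat 0, .ofNat 0, .ofNat 0, .ofNat 0, .ofNat 0, .ofNat 0, .ofNat 0, .ofNat 0, .ofNat 0, .ofNat 0⟩)
    (by decide +kernel)
theorem L00223 : Good (Phi V4.P V4.D (-1) (-1)) ⟨5, 23, 4, 1, 2, 3, 1, 0, 4, 1⟩ :=
  leaf_sound (S := T4.ds_mm) T4.ok_mm (w := 184) (c := ⟨⟨.negSucc 82, .negSucc 247, .ofNat 128, .negSucc 837, .negSucc 803, .negSucc 997⟩, ⟨.negSucc 39, .ofNat 94, .ofNat 25, .ofNat 236, .ofNat 107, .ofNat 227⟩, ⟨.ofNat 219, .ofNat 173, .negSucc 43, .ofNat 553, .ofNat 195, .ofNat 581⟩, ⟨.negSucc 198, .negSucc 312, .ofNat 213, .negSucc 1334, .negSucc 1604, .negSucc 1753⟩, ⟨.negSucc 92, .ofNat 168, .negSucc 23, .ofNat 566, .negSucc 887, .negSucc 39⟩, .ofNat 599, .ofNat 681, .ofNat 0, .ofNat 681, .ofNat 3049, .ofNat 0, .ofNat 381, .negSucc 390, .negSucc 564, .ofNat 0, .ofNat 190, .ofNat 144, .ofNat 0, .ofNat 0, .ofNat 583, .ofNat 1305, .ofNat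 0, .ofNat 0, .ofNat 1313489326834855695089664000, .ofNat 0, .ofNat 0, .ofNat 0, .ofNat 0, .ofNat 0, .ofNat 0, .ofNat 0, .ofNat 253865624038865640175435776000, .ofNat 0, .ofNat 0, .ofNat 0, .ofNat 0, .ofNat 0⟩)
    (by decide +kernel)
theorem L00224 : Good (Phi V4.P V4.D (-1) (-1)) ⟨2, 3, 4, 1, 2, 3, 1, 0, 3, 0⟩ :=
  out_sound (S := T4.ds_mm) T4.ok_mm (w := 48) (j := 3) (by decide +kernel)
theorem L00225 : Good (Phi V4.P V4.D (-1) (-1)) ⟨3, 4, 3, 0, 3, 6, 1, 0, 3, 1⟩ :=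
  leaf_sound (S := T4.ds_mm) T4.ok_mm (w := 176) (c := ⟨⟨.negSucc 839, .negSucc 250, .ofNat 216, .negSucc 224, .negSucc 21, .negSucc 179⟩, ⟨.negSucc 6, .ofNat 77, .ofNat 114, .ofNat 11, .negSucc 3, .ofNat 4⟩, ⟨.ofNat 723, .ofNat 175, .negSucc 157, .ofNat 110, .negSucc 276, .ofNat 193⟩, ⟨.negSucc 1905, .negSucc 261, .ofNat 368, .negSucc 472, .negSucc 72, .negSucc 397⟩, ⟨.negSucc 215, .ofNat 25, .negSucc 26, .negSucc 84, .negSucc 619, .negSucc 369⟩, .ofNat 518, .ofNat 264, .ofNat 0, .ofNat 264, .ofNat 6670, .ofNat 0, .ofNat 683, .negSucc 190, .negSucc 419, .ofNat 0, .ofNat 126, .ofNat 26, .ofNat 0, .ofNat 0, .ofNat 938, .ofNat 3976, .ofNat 0, .ofNat 0, .ofNat 0, .ofNat 0, .ofNat 938398053777562205801138338607923200, .ofNat 0, .ofNat 189749317720143581720536625971200, .ofNat 0, .ofNat 1035881880242707971290408003253043200, .ofNat 0, .ofNat 192322232712096806964192450969600,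 .ofNat 0, .ofNat 0, .ofNat 0, .ofNat 0, .ofNat 0⟩)
    (by decide +kernel)
theorem L00226 : Good (Phi V4.P V4.D (-1) (-1)) ⟨4, 10, 3, 0, 3, 6, 1, 0, 3, 1⟩ :=
  leaf_sound (S := T4.ds_mm) T4.ok_mm (w := 184) (c := ⟨⟨.negSucc 1124, .negSucc 244, .ofNat 110, .negSucc 244, .negSucc 42, .negSucc 127⟩, ⟨.ofNat 73, .ofNat 71, .ofNat 130, .ofNat 31, .negSucc 22, .negSucc 3⟩, ⟨.ofNat 896, .ofNat 155, .negSucc 76, .ofNat 115, .negSucc 230, .ofNat 184⟩, ⟨.negSucc 2210, .negSucc 300, .ofNat 137, .negSucc 471, .negSucc 172, .negSucc 306⟩, ⟨.negSucc 97, .ofNat 57, .negSucc 64, .negSucc 11, .negSucc 723, .negSucc 490⟩, .ofNat 516, .ofNat 452, .ofNat 0, .ofNat 452, .ofNat 3832, .ofNat 0, .ofNat 678, .negSucc 417, .negSucc 551, .ofNat 0, .ofNat 210, .ofNat 88, .ofNat 0, .ofNat 0, .ofNat 982, .ofNat 2960, .ofNat 0, .ofNat 0, .ofNat 0, .ofNat 0, .ofNat 0, .ofNat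 0, .ofNat 0, .ofNat 0, .ofNat 0, .ofNat 0, .ofNat 0, .ofNat 0, .ofNat 0, .ofNat 0, .ofNat 0, .ofNat 0⟩)
    (by decide +kernel)
theorem L00227 : Good (Phi V4.P V4.D (-1) (-1)) ⟨4, 11, 3, 0, 3, 6, 1, 0, 4, 2⟩ :=
  leaf_sound (S := T4.ds_mm) T4.ok_mm (w := 184) (c := ⟨⟨.negSucc 1307, .negSucc 341, .ofNat 127, .negSucc 359, .negSucc 147, .negSucc 59⟩, ⟨.ofNat 141, .ofNat 121, .ofNat 131, .ofNat 75, .negSucc 35, .negSucc 11⟩, ⟨.ofNat 992, .ofNat 225, .negSucc 98, .ofNat 160, .negSucc 87, .ofNat 84⟩, ⟨.negSucc 2390, .negSucc 396, .ofNat 184, .negSucc 625, .negSucc 424, .negSucc 175⟩, ⟨.negSucc 3, .ofNat 108, .negSucc 38, .ofNat 68, .negSucc 806, .negSucc 282⟩, .ofNat 428, .ofNat 243, .ofNat 0, .ofNat 243, .ofNat 1426, .ofNat 0, .ofNat 380, .negSucc 261, .negSucc 473, .ofNat 0, .ofNat 177, .ofNat 124, .ofNat 0, .ofNat 0, .ofNat 574, .ofNat 2222,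 .ofNat 0, .ofNat 0, .ofNat 7914767914218251355561551462400, .ofNat 0, .ofNat 0, .ofNat 0, .ofNat 0, .ofNat 0, .ofNat 25291942957630270501412359026769920000, .ofNat 0, .ofNat 737272014913342558439996601139200, .ofNat 0, .ofNat 0, .ofNat 0, .ofNat 705750658339720402386490805452800, .ofNat 0⟩)
    (by decide +kernel)
theorem L00228 : Good (Phi V4.P V4.D (-1) (-1)) ⟨4, 11, 3, 0, 3, 6, 1, 0, 4, 3⟩ :=
  leaf_sound (S := T4.ds_mm) T4.ok_mm (w := 184) (c := ⟨⟨.negSucc 1692, .negSucc 269, .ofNat 154, .negSucc 243, .ofNat 211, .ofNat 196⟩, ⟨.ofNat 208, .ofNat 78, .ofNat 132, .ofNat 41, .negSucc 100, .negSucc 68⟩, ⟨.ofNat 1334, .ofNat 177, .negSucc 125, .ofNat 103, .negSucc 407, .negSucc 51⟩, ⟨.negSucc 3079, .negSucc 296, .ofNat 196, .negSucc 451, .ofNat 221, .ofNat 273⟩, ⟨.negSucc 142, .ofNat 100, .negSucc 91, .negSucc 127, .negSucc 773, .negSucc 374⟩,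 .ofNat 425, .ofNat 231, .ofNat 0, .ofNat 231, .ofNat 1427, .ofNat 0, .ofNat 341, .negSucc 211, .negSucc 327, .ofNat 0, .ofNat 161, .ofNat 88, .ofNat 0, .ofNat 0, .ofNat 519, .ofNat 1883, .ofNat 0, .ofNat 0, .ofNat 0, .ofNat 0, .ofNat 0, .ofNat 0, .ofNat 0, .ofNat 0, .ofNat 0, .ofNat 0, .ofNat 0, .ofNat 0, .ofNat 0, .ofNat 0, .ofNat 0, .ofNat 0⟩)
    (by decide +kernel)
theorem L00229 : Good (Phi V4.P V4.D (-1) (-1)) ⟨2, 3, 3, 0, 3, 6, 1, 0, 3, 1⟩ :=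
  out_sound (S := T4.ds_mm) T4.ok_mm (w := 40) (j := 3) (by decide +kernel)
theorem L00230 : Good (Phi V4.P V4.D (-1) (-1)) ⟨3, 4, 3, 0, 4, 14, 1, 0, 4, 2⟩ :=
  leaf_sound (S := T4.ds_mm) T4.ok_mm (w := 192) (c := ⟨⟨.negSucc 937, .negSucc 391, .ofNat 232, .negSucc 87, .negSucc 69, .negSucc 185⟩, ⟨.negSucc 5, .ofNat 97, .ofNat 113, .ofNat 4, .negSucc 2, .ofNat 3⟩, ⟨.ofNat 798, .ofNat 220, .negSucc 79, .ofNat 68, .negSucc 289, .ofNat 142⟩, ⟨.negSucc 2122, .negSucc 513, .ofNat 424, .negSucc 185, .negSucc 182, .negSucc 408⟩, ⟨.negSucc 186, .ofNat 102, .negSucc 32, .ofNat 2, .negSucc 772, .negSucc 249⟩, .ofNat 518, .ofNat 263, .ofNat 0, .ofNat 263, .ofNat 6737, .ofNat 0, .ofNat 763, .negSucc 234, .negSucc 446, .ofNat 0, .ofNat 135, .ofNat 24, .ofNat 0, .ofNat 0, .ofNat 951, .ofNat 4969, .ofNat 0, .ofNat 0, .ofNat 0, .ofNat 0, .ofNat 0, .ofNat 0,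 .ofNat 0, .ofNat 0, .ofNat 137630775229941200438865605654111846400, .ofNat 0, .ofNat 1892286005077881542112980776884633600, .ofNat 0, .ofNat 0, .ofNat 0, .ofNat 0, .ofNat 0⟩)
    (by decide +kernel)
theorem L00231 : Good (Phi V4.P V4.D (-1) (-1)) ⟨3, 5, 3, 0, 4, 14, 1, 0, 4, 2⟩ :=
  leaf_sound (S := T4.ds_mm) T4.ok_mm (w := 192) (c := ⟨⟨.negSucc 1351, .negSucc 858, .ofNat 204, .negSucc 161, .negSucc 1, .negSucc 70⟩, ⟨.ofNat 97, .ofNat 271, .ofNat 123, .ofNat 34, .negSucc 54, .negSucc 14⟩, ⟨.ofNat 998, .ofNat 475, .negSucc 97, .ofNat 88, .negSucc 241, .ofNat 92⟩, ⟨.negSucc 2626, .negSucc 1115, .ofNat 315, .negSucc 299, .negSucc 173, .negSucc 200⟩, ⟨.ofNat 52, .ofNat 382, .negSucc 127, .ofNat 65, .negSucc 1001, .negSucc 337⟩, .ofNat 313, .ofNat 75, .ofNat 0, .ofNat 75, .ofNat 717, .ofNat 0, .ofNat 475, .negSucc 271, .negSucc 520, .ofNat 0, .ofNat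 228, .ofNat 121, .ofNat 0, .ofNat 0, .ofNat 571, .ofNat 927, .ofNat 0, .ofNat 0, .ofNat 5386397896085037718399766809804800, .ofNat 0, .ofNat 0, .ofNat 0, .ofNat 0, .ofNat 0, .ofNat 444984848300150638922205662645374156800, .ofNat 0, .ofNat 330548768236808042662952608097894400, .ofNat 0, .ofNat 0, .ofNat 0, .ofNat 669753185911244949145930071382425600, .ofNat 0⟩)
    (by decide +kernel)
theorem L00232 : Good (Phi V4.P V4.D (-1) (-1)) ⟨3, 4, 3, 0, 4, 15, 1, 0, 4, 2⟩ :=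
  leaf_sound (S := T4.ds_mm) T4.ok_mm (w := 192) (c := ⟨⟨.negSucc 1055, .negSucc 419, .ofNat 68, .negSucc 78, .negSucc 1, .negSucc 173⟩, ⟨.negSucc 3, .ofNat 99, .ofNat 161, .ofNat 0, .negSucc 6, .ofNat 6⟩, ⟨.ofNat 938, .ofNat 230, .ofNat 25, .ofNat 100, .negSucc 432, .ofNat 124⟩, ⟨.negSucc 2378, .negSucc 560, .ofNat 118, .negSucc 175, .negSucc 40, .negSucc 376⟩, ⟨.negSucc 145, .ofNat 115, .negSucc 64, .negSucc 41, .negSucc 795, .negSucc 296⟩, .ofNat 519, .ofNat 288, .ofNat 0, .ofNat 288, .ofNat 6743, .ofNat 0, .ofNat 790, .negSucc 270, .negSucc 435, .ofNat 0, .ofNat 143, .ofNat 22, .ofNat 0, .ofNat 0, .ofNat 959, .ofNat 5200, .ofNat 0, .ofNat 0, .ofNat 0, .ofNat 0, .ofNat 0, .ofNat 0, .ofNat 0, .ofNat 0, .ofNat 374364082115118224590201192264708915200, .ofNat 0, .ofNat 1176995529012164528722359685113446400, .ofNat 0, .ofNat 0, .ofNat 0, .ofNat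 0, .ofNat 0⟩)
    (by decide +kernel)
theorem L00233 : Good (Phi V4.P V4.D (-1) (-1)) ⟨3, 5, 3, 0, 4, 15, 1, 0, 4, 2⟩ :=
  leaf_sound (S := T4.ds_mm) T4.ok_mm (w := 192) (c := ⟨⟨.negSucc 1640, .negSucc 852, .ofNat 164, .negSucc 75, .ofNat 189, .ofNat 29⟩, ⟨.ofNat 148, .ofNat 294, .ofNat 149, .ofNat 16, .negSucc 111, .negSucc 45⟩, ⟨.ofNat 1201, .ofNat 413, .negSucc 17, .ofNat 72, .negSucc 429, .ofNat 39⟩, ⟨.negSucc 3155, .negSucc 1050, .ofNat 262, .negSucc 135, .ofNat 128, .negSucc 52⟩, ⟨.ofNat 214, .ofNat 428, .negSucc 92, .ofNat 1, .negSucc 1179, .negSucc 472⟩, .ofNat 430, .ofNat 225, .ofNat 0, .ofNat 225, .ofNat 1607, .ofNat 0, .ofNat 415, .negSucc 293, .negSucc 350, .ofNat 0, .ofNat 179, .ofNat 69, .ofNat 0, .ofNat 0, .ofNat 513, .ofNat 890, .ofNat 0, .ofNat 0, .ofNat 6286627452014280275709149577216000, .ofNat 0, .ofNat 0, .ofNat 0, .ofNat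 0, .ofNat 0, .ofNat 0, .ofNat 0, .ofNat 792808086173557760940794701676544000, .ofNat 0, .ofNat 0, .ofNat 0, .ofNat 0, .ofNat 0⟩)
    (by decide +kernel)
theorem L00234 : Good (Phi V4.P V4.D (-1) (-1)) ⟨3, 4, 3, 0, 3, 7, 1, 0, 4, 3⟩ :=
  leaf_sound (S := T4.ds_mm) T4.ok_mm (w := 184) (c := ⟨⟨.negSucc 1295, .negSucc 300, .ofNat 119, .negSucc 134, .ofNat 170, .ofNat 70⟩, ⟨.ofNat 7, .ofNat 91, .ofNat 138, .ofNat 5, .negSucc 13, .negSucc 7⟩, ⟨.ofNat 1069, .ofNat 185, .ofNat 16, .ofNat 105, .negSucc 500, .negSucc 1⟩, ⟨.negSucc 2885, .negSucc 323, .ofNat 107, .negSucc 289, .ofNat 324, .ofNat 127⟩, ⟨.negSucc 370, .ofNat 29, .negSucc 208, .negSucc 167, .negSucc 719, .negSucc 344⟩, .ofNat 449, .ofNat 82, .ofNat 0, .ofNat 82, .ofNat 2374, .ofNat 0, .ofNat 717, .negSucc 164, .negSucc 373, .ofNat 0, .ofNat 209, .ofNat 31, .ofNat 0, .ofNat 0, .ofNat 938,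 .ofNat 3680, .ofNat 0, .ofNat 0, .ofNat 0, .ofNat 0, .ofNat 0, .ofNat 0, .ofNat 0, .ofNat 0, .ofNat 0, .ofNat 0, .ofNat 0, .ofNat 0, .ofNat 0, .ofNat 0, .ofNat 5821633838546970349621998727987200, .ofNat 0⟩)
    (by decide +kernel)
theorem L00235 : Good (Phi V4.P V4.D (-1) (-1)) ⟨3, 5, 3, 0, 3, 7, 1, 0, 4, 3⟩ :=
  leaf_sound (S := T4.ds_mm) T4.ok_mm (w := 184) (c := ⟨⟨.negSucc 1765, .negSucc 446, .ofNat 117, .negSucc 144, .ofNat 325, .ofNat 255⟩, ⟨.ofNat 170, .ofNat 133, .ofNat 156, .ofNat 17, .negSucc 110, .negSucc 76⟩, ⟨.ofNat 1329, .ofNat 224, .ofNat 16, .ofNat 152, .negSucc 588, .negSucc 73⟩, ⟨.negSucc 3407, .negSucc 456, .ofNat 137, .negSucc 290, .ofNat 446, .ofNat 366⟩, ⟨.negSucc 153, .ofNat 169, .negSucc 136, .negSucc 165, .negSucc 940, .negSucc 538⟩, .ofNat 429, .ofNat 222, .ofNat 0, .ofNat 222, .ofNat 1599, .ofNat 0, .ofNat 723, .negSucc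 458, .negSucc 514, .ofNat 0, .ofNat 323, .ofNat 112, .ofNat 0, .ofNat 0, .ofNat 982, .ofNat 2173, .ofNat 0, .ofNat 0, .ofNat 25802911332841154622822914457600, .ofNat 0, .ofNat 0, .ofNat 0, .ofNat 0, .ofNat 0, .ofNat 0, .ofNat 0, .ofNat 5488448805753160422297291875942400, .ofNat 0, .ofNat 0, .ofNat 0, .ofNat 5985148876656805738449794079129600, .ofNat 0⟩)
    (by decide +kernel)
theorem L00236 : Good (Phi V4.P V4.D (-1) (-1)) ⟨2, 3, 3, 0, 3, 7, 1, 0, 3, 1⟩ :=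
  out_sound (S := T4.ds_mm) T4.ok_mm (w := 40) (j := 3) (by decide +kernel)
theorem L00237 : Good (Phi V4.P V4.D (-1) (-1)) ⟨3, 4, 3, 0, 1, 1, 1, 0, 3, 2⟩ :=
  leaf_sound (S := T4.ds_mm) T4.ok_mm (w := 160) (c := ⟨⟨.negSucc 970, .negSucc 180, .ofNat 40, .negSucc 435, .ofNat 227, .ofNat 125⟩, ⟨.ofNat 6, .ofNat 61, .ofNat 121, .ofNat 12, .negSucc 11, .negSucc 8⟩, ⟨.ofNat 982, .ofNat 153, .negSucc 51, .ofNat 244, .negSucc 552, .negSucc 31⟩, ⟨.negSucc 2159, .negSucc 153, .negSucc 33, .negSucc 955, .ofNat 462, .ofNat 250⟩, ⟨.negSucc 210, .negSucc 21, .negSucc 89, .negSucc 959, .negSucc 399, .negSucc 207⟩, .ofNat 449, .ofNat 81, .ofNat 0, .ofNat 81, .ofNat 2372, .ofNat 0, .ofNat 537, .negSucc 84, .negSucc 310, .ofNat 0, .ofNat 170, .ofNat 29, .ofNat 0, .ofNat 0, .ofNat 899, .ofNat 3099, .ofNat 0, .ofNat 0, .ofNat 0, .ofNat 0, .ofNat 0, .ofNat 25870283673334043694659429990400,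 .ofNat 0, .ofNat 0, .ofNat 0, .ofNat 0, .ofNat 0, .ofNat 0, .ofNat 0, .ofNat 10408662760506402385262385561600, .ofNat 1114259084393047921262592000, .ofNat 0⟩)
    (by decide +kernel)
theorem L00238 : Good (Phi V4.P V4.D (-1) (-1)) ⟨4, 10, 3, 0, 2, 2, 1, 0, 3, 2⟩ :=
  leaf_sound (S := T4.ds_mm) T4.ok_mm (w := 176) (c := ⟨⟨.negSucc 1222, .negSucc 91, .ofNat 81, .negSucc 190, .ofNat 267, .ofNat 178⟩, ⟨.ofNat 102, .ofNat 26, .ofNat 116, .ofNat 5, .negSucc 52, .negSucc 34⟩, ⟨.ofNat 1206, .ofNat 91, .negSucc 79, .ofNat 67, .negSucc 568, .negSucc 50⟩, ⟨.negSucc 2363, .negSucc 73, .ofNat 78, .negSucc 437, .ofNat 444, .ofNat 296⟩, ⟨.negSucc 141, .negSucc 6, .negSucc 59, .negSucc 552, .negSucc 440, .negSucc 269⟩, .ofNat 433, .ofNat 213, .ofNat 0, .ofNat 213, .ofNat 1842, .ofNat 0, .ofNat 523, .negSucc 208, .negSucc 385, .ofNat 0, .ofNat 209, .ofNat 79,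 .ofNat 0, .ofNat 0, .ofNat 929, .ofNat 9986, .ofNat 0, .ofNat 0, .ofNat 0, .ofNat 0, .ofNat 0, .ofNat 0, .ofNat 0, .ofNat 0, .ofNat 0, .ofNat 0, .ofNat 0, .ofNat 0, .ofNat 0, .ofNat 0, .ofNat 0, .ofNat 0⟩)
    (by decide +kernel)
theorem L00239 : Good (Phi V4.P V4.D (-1) (-1)) ⟨4, 10, 3, 0, 2, 3, 1, 0, 3, 2⟩ :=
  leaf_sound (S := T4.ds_mm) T4.ok_mm (w := 176) (c := ⟨⟨.negSucc 1476, .negSucc 112, .ofNat 93, .negSucc 210, .ofNat 288, .ofNat 297⟩, ⟨.ofNat 110, .ofNat 18, .ofNat 151, .ofNat 8, .negSucc 58, .negSucc 56⟩, ⟨.ofNat 1283, .ofNat 86, .negSucc 63, .ofNat 185, .negSucc 629, .negSucc 49⟩, ⟨.negSucc 2898, .negSucc 103, .ofNat 64, .negSucc 481, .ofNat 470, .ofNat 502⟩, ⟨.negSucc 454, .negSucc 35, .negSucc 100, .negSucc 609, .negSucc 633, .negSucc 534⟩, .ofNat 316, .ofNat 64, .ofNat 0, .ofNat 64, .ofNat 755, .ofNat 0, .ofNat 653, .negSucc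 245, .negSucc 398, .ofNat 0, .ofNat 342, .ofNat 106, .ofNat 0, .ofNat 0, .ofNat 954, .ofNat 3013, .ofNat 0, .ofNat 0, .ofNat 0, .ofNat 0, .ofNat 0, .ofNat 0, .ofNat 0, .ofNat 0, .ofNat 0, .ofNat 21273843892102441371340813998489600, .ofNat 0, .ofNat 0, .ofNat 0, .ofNat 68449353913974717202941284135731200, .ofNat 0, .ofNat 0⟩)
    (by decide +kernel)
theorem L00240 : Good (Phi V4.P V4.D (-1) (-1)) ⟨4, 11, 3, 0, 2, 2, 1, 0, 3, 2⟩ :=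
  leaf_sound (S := T4.ds_mm) T4.ok_mm (w := 176) (c := ⟨⟨.negSucc 1394, .negSucc 135, .ofNat 86, .negSucc 139, .ofNat 322, .ofNat 224⟩, ⟨.ofNat 181, .ofNat 29, .ofNat 116, .negSucc 15, .negSucc 103, .negSucc 65⟩, ⟨.ofNat 1378, .ofNat 112, .negSucc 100, .ofNat 13, .negSucc 616, .negSucc 82⟩, ⟨.negSucc 2512, .negSucc 129, .ofNat 90, .negSucc 366, .ofNat 470, .ofNat 339⟩, ⟨.negSucc 81, .ofNat 6, .negSucc 28, .negSucc 611, .negSucc 518, .negSucc 292⟩, .ofNat 428, .ofNat 241, .ofNat 0, .ofNat 241, .ofNat 1446, .ofNat 0, .ofNat 520, .negSucc 262, .negSucc 441, .ofNat 0, .ofNat 256, .ofNat 125, .ofNat 0, .ofNat 0, .ofNat 959, .ofNat 6930, .ofNat 0, .ofNat 0, .ofNat 0, .ofNat 0, .ofNat 0, .ofNat 0, .ofNat 0, .ofNat 0, .ofNat 63157926564533999283748767321292800, .ofNat 8859819931855664171292692368588800, .ofNat 330619570971493546952176435200, .ofNat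 0, .ofNat 0, .ofNat 0, .ofNat 0, .ofNat 0⟩)
    (by decide +kernel)
theorem L00241 : Good (Phi V4.P V4.D (-1) (-1)) ⟨4, 11, 3, 0, 2, 3, 2, 0, 3, 2⟩ :=
  leaf_sound (S := T4.ds_mm) T4.ok_mm (w := 176) (c := ⟨⟨.negSucc 1665, .negSucc 124, .ofNat 134, .negSucc 181, .ofNat 135, .ofNat 396⟩, ⟨.ofNat 184, .ofNat 22, .ofNat 136, .negSucc 9, .negSucc 49, .negSucc 123⟩, ⟨.ofNat 1322, .ofNat 100, .negSucc 49, .ofNat 323, .negSucc 346, .negSucc 14⟩, ⟨.negSucc 3040, .negSucc 90, .ofNat 128, .negSucc 477, .ofNat 176, .ofNat 565⟩, ⟨.negSucc 318, .negSucc 2, .negSucc 176, .negSucc 719, .negSucc 333, .negSucc 691⟩, .ofNat 574, .ofNat 631, .ofNat 0, .ofNat 631, .ofNat 3198, .ofNat 0, .ofNat 530, .negSucc 415, .negSucc 326, .ofNat 0, .ofNat 256, .ofNat 88, .ofNat 0, .ofNat 0, .ofNat 935, .ofNat 2524, .ofNat 0, .ofNat 0, .ofNat 0, .ofNat 0, .ofNat 0, .ofNat 0,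 .ofNat 2209589600936138971624872345600, .ofNat 0, .ofNat 0, .ofNat 129607434515239012534112054201548800, .ofNat 2929156737962171931511750656000, .ofNat 0, .ofNat 0, .ofNat 0, .ofNat 0, .ofNat 0⟩)
    (by decide +kernel)
theorem L00242 : Good (Phi V4.P V4.D (-1) (-1)) ⟨4, 11, 3, 0, 2, 3, 2, 1, 3, 2⟩ :=
  leaf_sound (S := T4.ds_mm) T4.ok_mm (w := 176) (c := ⟨⟨.negSucc 1595, .negSucc 87, .ofNat 126, .negSucc 103, .ofNat 258, .ofNat 468⟩, ⟨.ofNat 160, .negSucc 19, .ofNat 147, .negSucc 33, .negSucc 80, .negSucc 141⟩, ⟨.ofNat 1201, .ofNat 53, .negSucc 83, .ofNat 37, .negSucc 376, .negSucc 232⟩, ⟨.negSucc 2963, .negSucc 74, .ofNat 108, .negSucc 330, .ofNat 381, .ofNat 716⟩, ⟨.negSucc 746, .negSucc 62, .negSucc 78, .negSucc 712, .negSucc 362, .negSucc 564⟩, .ofNat 427, .ofNat 240, .ofNat 0, .ofNat 240, .ofNat 1410, .ofNat 0, .ofNat 602, .negSucc 356,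 .negSucc 475, .ofNat 0, .ofNat 304, .ofNat 137, .ofNat 0, .ofNat 0, .ofNat 966, .ofNat 3789, .ofNat 0, .ofNat 0, .ofNat 0, .ofNat 0, .ofNat 0, .ofNat 0, .ofNat 0, .ofNat 0, .ofNat 0, .ofNat 184654609209149544718328048438476800, .ofNat 0, .ofNat 0, .ofNat 0, .ofNat 0, .ofNat 0, .ofNat 0⟩)
    (by decide +kernel)
theorem L00243 : Good (Phi V4.P V4.D (-1) (-1)) ⟨2, 2, 3, 0, 1, 1, 1, 0, 3, 3⟩ :=
  leaf_sound (S := T4.ds_mm) T4.ok_mm (w := 152) (c := ⟨⟨.negSucc 989, .negSucc 266, .ofNat 65, .negSucc 186, .ofNat 332, .ofNat 144⟩, ⟨.ofNat 47, .ofNat 81, .ofNat 88, .negSucc 32, .negSucc 54, .negSucc 22⟩, ⟨.ofNat 1043, .ofNat 360, .negSucc 93, .ofNat 101, .negSucc 686, .negSucc 89⟩, ⟨.negSucc 2109, .negSucc 182, .ofNat 47, .negSucc 554, .ofNat 582, .ofNat 266⟩, ⟨.negSucc 375, .negSucc 98, .negSucc 47, .negSucc 1230, .negSucc 310, .negSucc 106⟩, .ofNat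 319, .ofNat 56, .ofNat 0, .ofNat 56, .ofNat 754, .ofNat 0, .ofNat 474, .negSucc 97, .negSucc 301, .ofNat 0, .ofNat 257, .ofNat 78, .ofNat 0, .ofNat 0, .ofNat 882, .ofNat 3252, .ofNat 0, .ofNat 0, .ofNat 0, .ofNat 0, .ofNat 0, .ofNat 2380020952830246010117265817600, .ofNat 0, .ofNat 0, .ofNat 0, .ofNat 2811703885827621621865434316800, .ofNat 0, .ofNat 0, .ofNat 0, .ofNat 3230638427396612341949792256000, .ofNat 0, .ofNat 0⟩)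
    (by decide +kernel)
theorem L00244 : Good (Phi V4.P V4.D (-1) (-1)) ⟨2, 3, 3, 0, 1, 1, 1, 0, 2, 1⟩ :=
  out_sound (S := T4.ds_mm) T4.ok_mm (w := 40) (j := 3) (by decide +kernel)
theorem L00245 : Good (Phi V4.P V4.D (-1) (-1)) ⟨3, 4, 3, 1, 1, 1, 2, 0, 4, 0⟩ :=
  out_sound (S := T4.ds_mm) T4.ok_mm (w := 48) (j := 3) (by decide +kernel)
theorem L00246 : Good (Phi V4.P V4.D (-1) (-1)) ⟨4, 10, 3, 1, 1, 1, 2, 0, 4, 0⟩ :=
  leaf_sound (S := T4.ds_mm) T4.ok_mm (w := 168) (c := ⟨⟨.ofNat 997, .ofNat 0, .negSucc 272, .ofNat 126, .negSucc 682, .negSucc 1037⟩, ⟨.negSucc 212, .ofNat 0, .ofNat 95, .ofNat 2, .ofNat 127, .ofNat 205⟩, ⟨.negSucc 672, .ofNat 0, .ofNat 1050, .ofNat 463, .ofNat 146, .ofNat 686⟩, ⟨.ofNat 1754, .ofNat 0, .negSucc 205, .ofNat 440, .negSucc 1341, .negSucc 1950⟩, ⟨.negSucc 398, .ofNat 0, .ofNat 1472, .ofNat 1026, .negSucc 419, .negSucc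 199⟩, .ofNat 848, .ofNat 1866, .ofNat 0, .ofNat 1866, .ofNat 9224, .ofNat 0, .ofNat 261, .negSucc 319, .negSucc 419, .ofNat 0, .ofNat 111, .ofNat 89, .ofNat 0, .ofNat 0, .ofNat 531, .ofNat 3804, .ofNat 507591932500584025208558243020800, .ofNat 0, .ofNat 320698474952839005103718400, .ofNat 0, .ofNat 0, .ofNat 0, .ofNat 78825532333660323437975961600, .ofNat 0, .ofNat 0, .ofNat 0, .ofNat 252217816000747779395262873600, .ofNat 0, .ofNat 8507601112256288297186814119116800, .ofNat 0, .ofNat 102687009223614994977914880000, .ofNat 0⟩)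
    (by decide +kernel)
theorem L00247 : Good (Phi V4.P V4.D (-1) (-1)) ⟨4, 11, 3, 1, 2, 2, 2, 0, 4, 0⟩ :=
  leaf_sound (S := T4.ds_mm) T4.ok_mm (w := 176) (c := ⟨⟨.ofNat 829, .ofNat 201, .ofNat 42, .ofNat 274, .negSucc 639, .negSucc 960⟩, ⟨.negSucc 211, .negSucc 93, .negSucc 2, .negSucc 68, .ofNat 153, .ofNat 249⟩, ⟨.negSucc 574, .negSucc 168, .negSucc 2, .negSucc 104, .ofNat 229, .ofNat 758⟩, ⟨.ofNat 1407, .ofNat 297, .ofNat 31, .ofNat 484, .negSucc 1187, .negSucc 1680⟩, ⟨.negSucc 337, .negSucc 58, .ofNat 12, .negSucc 0, .negSucc 261, .ofNat 43⟩, .ofNat 457, .ofNat 346, .ofNat 0, .ofNat 346, .ofNat 1668, .ofNat 0, .ofNat 311, .negSucc 236, .negSucc 513, .ofNat 0, .ofNat 153, .ofNat 139, .ofNat 0, .ofNat 0, .ofNat 596, .ofNat 2883, .ofNat 0, .ofNat 0, .ofNat 0, .ofNat 0, .ofNat 0, .ofNat 0, .ofNat 0, .ofNat 0, .ofNat 0, .ofNat 0, .ofNat 0,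 .ofNat 0, .ofNat 0, .ofNat 0, .ofNat 0, .ofNat 0⟩)
    (by decide +kernel)
theorem L00248 : Good (Phi V4.P V4.D (-1) (-1)) ⟨4, 11, 3, 1, 2, 3, 2, 0, 4, 0⟩ :=
  leaf_sound (S := T4.ds_mm) T4.ok_mm (w := 176) (c := ⟨⟨.ofNat 1583, .ofNat 57, .ofNat 62, .negSucc 280, .negSucc 906, .negSucc 1410⟩, ⟨.negSucc 366, .negSucc 17, .negSucc 42, .ofNat 114, .ofNat 190, .ofNat 312⟩, ⟨.negSucc 747, .negSucc 75, .ofNat 46, .ofNat 610, .ofNat 185, .ofNat 815⟩, ⟨.ofNat 2813, .ofNat 85, .ofNat 75, .negSucc 269, .negSucc 1717, .negSucc 2582⟩, ⟨.negSucc 39, .ofNat 18, .negSucc 96, .ofNat 948, .negSucc 425, .negSucc 325⟩, .ofNat 592, .ofNat 715, .ofNat 0, .ofNat 715, .ofNat 3210, .ofNat 0, .ofNat 337, .negSucc 411, .negSucc 501, .ofNat 0, .ofNat 171, .ofNat 121, .ofNat 0, .ofNat 0, .ofNat 541, .ofNat 1633, .ofNat 0, .ofNat 0, .ofNat 0, .ofNat 0, .ofNat 0, .ofNat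 0, .ofNat 0, .ofNat 0, .ofNat 0, .ofNat 0, .ofNat 0, .ofNat 0, .ofNat 0, .ofNat 0, .ofNat 0, .ofNat 0⟩)
    (by decide +kernel)
theorem L00249 : Good (Phi V4.P V4.D (-1) (-1)) ⟨4, 12, 3, 1, 2, 2, 2, 0, 4, 0⟩ :=
  leaf_sound (S := T4.ds_mm) T4.ok_mm (w := 176) (c := ⟨⟨.ofNat 1227, .ofNat 306, .ofNat 19, .ofNat 351, .negSucc 778, .negSucc 1212⟩, ⟨.negSucc 408, .negSucc 177, .ofNat 3, .negSucc 108, .ofNat 231, .ofNat 391⟩, ⟨.negSucc 946, .negSucc 291, .ofNat 61, .negSucc 36, .ofNat 293, .ofNat 909⟩, ⟨.ofNat 1956, .ofNat 387, .ofNat 10, .ofNat 617, .negSucc 1386, .negSucc 2019⟩, ⟨.negSucc 491, .negSucc 162, .ofNat 66, .ofNat 86, .negSucc 240, .ofNat 43⟩, .ofNat 477, .ofNat 398, .ofNat 0, .ofNat 398, .ofNat 1449, .ofNat 0, .ofNat 299, .negSucc 291, .negSucc 633, .ofNat 0, .ofNat 188, .ofNat 219, .ofNat 0, .ofNat 0, .ofNat 650, .ofNat 3177, .ofNat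 0, .ofNat 0, .ofNat 0, .ofNat 0, .ofNat 0, .ofNat 0, .ofNat 10639121247133774937210644070400, .ofNat 0, .ofNat 0, .ofNat 0, .ofNat 18774559491830039382740434944000, .ofNat 0, .ofNat 0, .ofNat 0, .ofNat 17850496111962978461895622656000, .ofNat 0⟩)
    (by decide +kernel)
theorem L00250 : Good (Phi V4.P V4.D (-1) (-1)) ⟨4, 12, 3, 1, 2, 3, 2, 0, 4, 0⟩ :=
  leaf_sound (S := T4.ds_mm) T4.ok_mm (w := 184) (c := ⟨⟨.ofNat 2010, .ofNat 254, .negSucc 14, .negSucc 410, .negSucc 1129, .negSucc 1620⟩, ⟨.negSucc 609, .negSucc 84, .negSucc 22, .ofNat 208, .ofNat 317, .ofNat 477⟩, ⟨.negSucc 1028, .negSucc 102, .ofNat 86, .ofNat 822, .ofNat 235, .ofNat 918⟩, ⟨.ofNat 3349, .ofNat 417, .negSucc 18, .negSucc 308, .negSucc 2047, .negSucc 2854⟩, ⟨.negSucc 127, .ofNat 102, .negSucc 25, .ofNat 1217, .negSucc 443, .negSucc 370⟩, .ofNat 644, .ofNat 778, .ofNat 0, .ofNat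 778, .ofNat 2602, .ofNat 0, .ofNat 314, .negSucc 485, .negSucc 616, .ofNat 0, .ofNat 228, .ofNat 199, .ofNat 0, .ofNat 0, .ofNat 577, .ofNat 1555, .ofNat 0, .ofNat 0, .ofNat 0, .ofNat 0, .ofNat 0, .ofNat 0, .ofNat 19489419908284035546696646656000, .ofNat 0, .ofNat 0, .ofNat 0, .ofNat 20174973931460729281422399897600, .ofNat 0, .ofNat 0, .ofNat 0, .ofNat 28781123088997161131803095859200, .ofNat 0⟩)
    (by decide +kernel)
theorem L00251 : Good (Phi V4.P V4.D (-1) (-1)) ⟨4, 13, 3, 1, 1, 1, 2, 0, 4, 0⟩ :=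
  out_sound (S := T4.ds_mm) T4.ok_mm (w := 56) (j := 3) (by decide +kernel)
theorem L00252 : Good (Phi V4.P V4.D (-1) (-1)) ⟨3, 7, 3, 1, 1, 1, 2, 0, 4, 0⟩ :=
  out_sound (S := T4.ds_mm) T4.ok_mm (w := 48) (j := 3) (by decide +kernel)
theorem L00253 : Good (Phi V4.P V4.D (-1) (-1)) ⟨2, 2, 3, 1, 1, 1, 2, 1, 4, 0⟩ :=
  leaf_sound (S := T4.ds_mm) T4.ok_mm (w := 160) (c := ⟨⟨.ofNat 766, .negSucc 208, .ofNat 115, .negSucc 272, .negSucc 575, .negSucc 1062⟩, ⟨.negSucc 151, .negSucc 39, .ofNat 40, .ofNat 105, .ofNat 126, .ofNat 247⟩, ⟨.negSucc 625, .ofNat 33, .negSucc 24, .ofNat 477, .ofNat 241, .ofNat 727⟩, ⟨.ofNat 1115, .negSucc 276, .ofNat 170, .negSucc 309, .negSucc 1089, .negSucc 1911⟩, ⟨.negSucc 772, .ofNat 134, .ofNat 28, .ofNat 663, .negSucc 294, .negSucc 139⟩, .ofNat 456, .ofNat 343, .ofNat 0, .ofNat 343, .ofNat 1673, .ofNat 0, .ofNat 349,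 .negSucc 266, .negSucc 579, .ofNat 0, .ofNat 166, .ofNat 153, .ofNat 0, .ofNat 0, .ofNat 646, .ofNat 1206, .ofNat 0, .ofNat 0, .ofNat 2222176900782069289215590400, .ofNat 0, .ofNat 0, .ofNat 0, .ofNat 0, .ofNat 0, .ofNat 0, .ofNat 0, .ofNat 156661874537483203152917299200, .ofNat 0, .ofNat 0, .ofNat 0, .ofNat 153072366171841571495451033600, .ofNat 0⟩)
    (by decide +kernel)
theorem L00254 : Good (Phi V4.P V4.D (-1) (-1)) ⟨4, 12, 3, 1, 2, 2, 2, 1, 4, 0⟩ :=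
  leaf_sound (S := T4.ds_mm) T4.ok_mm (w := 176) (c := ⟨⟨.ofNat 509, .ofNat 155, .ofNat 63, .ofNat 65, .negSucc 602, .negSucc 1031⟩, ⟨.negSucc 228, .negSucc 113, .ofNat 41, .negSucc 27, .ofNat 173, .ofNat 331⟩, ⟨.negSucc 590, .negSucc 164, .negSucc 54, .negSucc 25, .ofNat 307, .ofNat 891⟩, ⟨.ofNat 700, .ofNat 233, .ofNat 31, .ofNat 72, .negSucc 1064, .negSucc 1677⟩, ⟨.negSucc 653, .negSucc 83, .negSucc 53, .negSucc 119, .negSucc 146, .ofNat 203⟩, .ofNat 474, .ofNat 389, .ofNat 0, .ofNat 389, .ofNat 1440, .ofNat 0, .ofNat 310, .negSucc 269, .negSucc 723, .ofNat 0, .ofNat 187, .ofNat 252, .ofNat 0, .ofNat 0, .ofNat 776, .ofNat 2128, .ofNat 0, .ofNat 0, .ofNat 0, .ofNat 0, .ofNat 0, .ofNat 0, .ofNat 6130765330525587794377782067200, .ofNat 0, .ofNat 0, .ofNat 0, .ofNat 24809244499490169584224095436800, .ofNat 0, .ofNat 0, .ofNat 0, .ofNat 17830752563647744081901125632000,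 .ofNat 0⟩)
    (by decide +kernel)
theorem L00255 : Good (Phi V4.P V4.D (-1) (-1)) ⟨4, 12, 3, 1, 2, 3, 2, 1, 4, 0⟩ :=
  leaf_sound (S := T4.ds_mm) T4.ok_mm (w := 184) (c := ⟨⟨.ofNat 875, .ofNat 48, .ofNat 92, .negSucc 511, .negSucc 781, .negSucc 1499⟩, ⟨.negSucc 359, .negSucc 35, .ofNat 39, .ofNat 211, .ofNat 228, .ofNat 468⟩, ⟨.negSucc 706, .negSucc 24, .ofNat 19, .ofNat 637, .ofNat 320, .ofNat 951⟩, ⟨.ofNat 1290, .ofNat 125, .ofNat 152, .negSucc 601, .negSucc 1432, .negSucc 2558⟩, ⟨.negSucc 578, .ofNat 25, .ofNat 49, .ofNat 821, .negSucc 392, .negSucc 95⟩, .ofNat 477, .ofNat 398, .ofNat 0, .ofNat 398, .ofNat 1459, .ofNat 0, .ofNat 368, .negSucc 400, .negSucc 800, .ofNat 0, .ofNat 225, .ofNat 267, .ofNat 0, .ofNat 0, .ofNat 706, .ofNat 1749, .ofNat 0, .ofNat 0, .ofNat 411678182282577931535804006400, .ofNat 0, .ofNat 0, .ofNat 0, .ofNat 6049539614218155932325091737600,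 .ofNat 0, .ofNat 0, .ofNat 0, .ofNat 21467549591928256063783462502400, .ofNat 0, .ofNat 0, .ofNat 0, .ofNat 21911881638936764835162803404800, .ofNat 0⟩)
    (by decide +kernel)
theorem L00256 : Good (Phi V4.P V4.D (-1) (-1)) ⟨4, 13, 3, 1, 1, 1, 2, 1, 4, 0⟩ :=
  out_sound (S := T4.ds_mm) T4.ok_mm (w := 56) (j := 3) (by decide +kernel)
theorem L00257 : Good (Phi V4.P V4.D (-1) (-1)) ⟨3, 7, 3, 1, 1, 1, 2, 1, 4, 0⟩ :=
  out_sound (S := T4.ds_mm) T4.ok_mm (w := 48) (j := 3) (by decide +kernel)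
theorem L00258 : Good (Phi V4.P V4.D (-1) (-1)) ⟨3, 4, 3, 1, 2, 2, 1, 0, 4, 1⟩ :=
  out_sound (S := T4.ds_mm) T4.ok_mm (w := 48) (j := 3) (by decide +kernel)
theorem L00259 : Good (Phi V4.P V4.D (-1) (-1)) ⟨4, 10, 3, 1, 2, 2, 1, 0, 4, 1⟩ :=
  leaf_sound (S := T4.ds_mm) T4.ok_mm (w := 176) (c := ⟨⟨.negSucc 50, .ofNat 0, .ofNat 286, .negSucc 183, .negSucc 595, .negSucc 589⟩, ⟨.ofNat 2, .ofNat 0, .negSucc 45, .ofNat 34, .ofNat 109, .ofNat 121⟩, ⟨.ofNat 155, .ofNat 0, .negSucc 126, .ofNat 66, .ofNat 144, .ofNat 477⟩, ⟨.negSucc 150, .ofNat 0, .ofNat 530, .negSucc 358, .negSucc 1180, .negSucc 1072⟩, ⟨.negSucc 282, .ofNat 0, .ofNat 40, .negSucc 103, .negSucc 418, .ofNat 67⟩, .ofNat 848, .ofNat 1866, .ofNat 0, .ofNat 1866, .ofNat 9227, .ofNat 0, .ofNat 244, .negSucc 274, .negSucc 406, .ofNat 0, .ofNat 101, .ofNat 90, .ofNat 0, .ofNat 0, .ofNat 554,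 .ofNat 2503, .ofNat 3725481161320617021819000245452800, .ofNat 0, .ofNat 433993877250783810743697408000, .ofNat 0, .ofNat 148985938916153249695316283123302400, .ofNat 0, .ofNat 18046721686623988519384016486400, .ofNat 0, .ofNat 0, .ofNat 0, .ofNat 28154059026402256769104478208000, .ofNat 0, .ofNat 0, .ofNat 0, .ofNat 28557165125800814705382732595200, .ofNat 0⟩)
    (by decide +kernel)
theorem L00260 : Good (Phi V4.P V4.D (-1) (-1)) ⟨5, 22, 3, 1, 2, 2, 2, 0, 4, 1⟩ :=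
  leaf_sound (S := T4.ds_mm) T4.ok_mm (w := 184) (c := ⟨⟨.ofNat 12, .negSucc 14, .negSucc 39, .negSucc 107, .negSucc 417, .negSucc 698⟩, ⟨.negSucc 19, .ofNat 5, .ofNat 84, .ofNat 22, .ofNat 84, .ofNat 156⟩, ⟨.ofNat 112, .ofNat 32, .negSucc 17, .ofNat 21, .ofNat 130, .ofNat 545⟩, ⟨.negSucc 55, .ofNat 7, .negSucc 105, .negSucc 209, .negSucc 798, .negSucc 1250⟩, ⟨.negSucc 306, .ofNat 45, .negSucc 38, .negSucc 63, .negSucc 206, .ofNat 51⟩, .ofNat 601, .ofNat 777, .ofNat 0, .ofNat 777, .ofNat 3725, .ofNat 0, .ofNat 271, .negSucc 260, .negSucc 421, .ofNat 0, .ofNat 121, .ofNat 104, .ofNat 0, .ofNat 0, .ofNat 554, .ofNat 2564, .ofNat 0, .ofNat 0, .ofNat 0, .ofNat 0, .ofNat 0, .ofNat 0, .ofNat 0, .ofNat 0, .ofNat 26740158792668798941064492113880678400, .ofNat 0, .ofNat 2180646892324925003707239628800, .ofNat 0, .ofNat 0, .ofNat 0, .ofNat 0, .ofNat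 0⟩)
    (by decide +kernel)
theorem L00261 : Good (Phi V4.P V4.D (-1) (-1)) ⟨5, 22, 3, 1, 2, 2, 2, 1, 4, 1⟩ :=
  leaf_sound (S := T4.ds_mm) T4.ok_mm (w := 184) (c := ⟨⟨.negSucc 417, .negSucc 74, .ofNat 77, .negSucc 295, .negSucc 223, .negSucc 435⟩, ⟨.ofNat 64, .ofNat 20, .ofNat 89, .ofNat 60, .ofNat 42, .ofNat 97⟩, ⟨.ofNat 252, .ofNat 54, .negSucc 44, .ofNat 141, .ofNat 50, .ofNat 383⟩, ⟨.negSucc 873, .negSucc 83, .ofNat 86, .negSucc 564, .negSucc 453, .negSucc 781⟩, ⟨.negSucc 462, .ofNat 31, .negSucc 39, .negSucc 129, .negSucc 219, .ofNat 36⟩, .ofNat 796, .ofNat 1513, .ofNat 0, .ofNat 1513, .ofNat 6841, .ofNat 0, .ofNat 259, .negSucc 278, .negSucc 470, .ofNat 0, .ofNat 117, .ofNat 115, .ofNat 0, .ofNat 0, .ofNat 611, .ofNat 2064, .ofNat 0, .ofNat 0, .ofNat 0, .ofNat 0, .ofNat 0, .ofNat 0, .ofNat 0, .ofNat 0, .ofNat 0, .ofNat 0, .ofNat 1864199505764910306322022400000,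 .ofNat 0, .ofNat 0, .ofNat 0, .ofNat 0, .ofNat 0⟩)
    (by decide +kernel)
theorem L00262 : Good (Phi V4.P V4.D (-1) (-1)) ⟨5, 23, 3, 1, 2, 2, 1, 0, 4, 1⟩ :=
  leaf_sound (S := T4.ds_mm) T4.ok_mm (w := 176) (c := ⟨⟨.negSucc 20, .negSucc 51, .ofNat 79, .negSucc 172, .negSucc 701, .negSucc 681⟩, ⟨.negSucc 44, .ofNat 21, .ofNat 61, .ofNat 46, .ofNat 162, .ofNat 186⟩, ⟨.ofNat 118, .ofNat 33, .negSucc 60, .ofNat 70, .ofNat 231, .ofNat 546⟩, ⟨.negSucc 117, .negSucc 53, .ofNat 94, .negSucc 320, .negSucc 1329, .negSucc 1172⟩, ⟨.negSucc 290, .ofNat 16, .negSucc 45, .negSucc 66, .negSucc 406, .ofNat 79⟩, .ofNat 460, .ofNat 355, .ofNat 0, .ofNat 355, .ofNat 1589, .ofNat 0, .ofNat 311, .negSucc 248, .negSucc 531, .ofNat 0, .ofNat 163, .ofNat 159, .ofNat 0, .ofNat 0, .ofNat 624, .ofNat 1818, .ofNat 0, .ofNat 0, .ofNat 0, .ofNat 0, .ofNat 0, .ofNat 0, .ofNat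 0, .ofNat 0, .ofNat 0, .ofNat 0, .ofNat 0, .ofNat 0, .ofNat 0, .ofNat 0, .ofNat 0, .ofNat 0⟩)
    (by decide +kernel)
theorem L00263 : Good (Phi V4.P V4.D (-1) (-1)) ⟨5, 24, 3, 1, 3, 4, 1, 0, 4, 1⟩ :=
  leaf_sound (S := T4.ds_mm) T4.ok_mm (w := 192) (c := ⟨⟨.negSucc 122, .ofNat 29, .ofNat 99, .negSucc 6, .negSucc 674, .negSucc 777⟩, ⟨.negSucc 50, .negSucc 12, .ofNat 56, .negSucc 3, .ofNat 194, .ofNat 256⟩, ⟨.ofNat 164, .negSucc 16, .negSucc 89, .negSucc 46, .ofNat 244, .ofNat 668⟩, ⟨.negSucc 296, .ofNat 80, .ofNat 123, .negSucc 47, .negSucc 1234, .negSucc 1262⟩, ⟨.negSucc 306, .ofNat 11, .negSucc 48, .negSucc 108, .negSucc 322, .ofNat 152⟩, .ofNat 474, .ofNat 391, .ofNat 0, .ofNat 391, .ofNat 1457, .ofNat 0, .ofNat 288, .negSucc 251, .negSucc 592, .ofNat 0, .ofNat 176, .ofNat 208, .ofNat 0, .ofNat 0, .ofNat 678, .ofNat 1943, .ofNat 0, .ofNat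 0, .ofNat 0, .ofNat 0, .ofNat 0, .ofNat 0, .ofNat 0, .ofNat 0, .ofNat 0, .ofNat 0, .ofNat 0, .ofNat 0, .ofNat 0, .ofNat 0, .ofNat 0, .ofNat 0⟩)
    (by decide +kernel)
theorem L00264 : Good (Phi V4.P V4.D (-1) (-1)) ⟨5, 24, 3, 1, 3, 5, 1, 0, 4, 1⟩ :=
  leaf_sound (S := T4.ds_mm) T4.ok_mm (w := 192) (c := ⟨⟨.ofNat 181, .ofNat 10, .ofNat 22, .negSucc 258, .negSucc 991, .negSucc 940⟩, ⟨.negSucc 175, .negSucc 5, .ofNat 100, .ofNat 95, .ofNat 294, .ofNat 314⟩, ⟨.negSucc 16, .ofNat 23, .negSucc 67, .ofNat 169, .ofNat 425, .ofNat 696⟩, ⟨.ofNat 179, .ofNat 63, .negSucc 14, .negSucc 409, .negSucc 1784, .negSucc 1530⟩, ⟨.negSucc 374, .ofNat 3, .negSucc 49, .ofNat 67, .negSucc 394, .ofNat 138⟩, .ofNat 477, .ofNat 397, .ofNat 0, .ofNat 397, .ofNat 1454, .ofNat 0, .ofNat 314, .negSucc 315, .negSucc 681, .ofNat 0, .ofNat 197, .ofNat 243, .ofNat 0, .ofNat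 0, .ofNat 694, .ofNat 1460, .ofNat 0, .ofNat 0, .ofNat 0, .ofNat 0, .ofNat 0, .ofNat 0, .ofNat 0, .ofNat 0, .ofNat 0, .ofNat 0, .ofNat 0, .ofNat 0, .ofNat 0, .ofNat 0, .ofNat 0, .ofNat 0⟩)
    (by decide +kernel)
theorem L00265 : Good (Phi V4.P V4.D (-1) (-1)) ⟨5, 25, 3, 1, 2, 2, 1, 0, 4, 1⟩ :=
  leaf_sound (S := T4.ds_mm) T4.ok_mm (w := 184) (c := ⟨⟨.ofNat 572, .negSucc 297, .negSucc 359, .negSucc 458, .negSucc 831, .negSucc 890⟩, ⟨.negSucc 291, .ofNat 100, .ofNat 189, .ofNat 160, .ofNat 260, .ofNat 323⟩, ⟨.negSucc 412, .ofNat 216, .ofNat 334, .ofNat 240, .ofNat 351, .ofNat 733⟩, ⟨.ofNat 760, .negSucc 558, .negSucc 551, .negSucc 752, .negSucc 1499, .negSucc 1399⟩, ⟨.negSucc 556, .negSucc 240, .ofNat 147, .ofNat 16, .negSucc 363, .ofNat 213⟩, .ofNat 833, .ofNat 1190, .ofNat 0, .ofNat 1190, .ofNat 3457, .ofNat 0, .ofNat 251, .negSucc 328, .negSucc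 639, .ofNat 0, .ofNat 184, .ofNat 246, .ofNat 0, .ofNat 0, .ofNat 684, .ofNat 1948, .ofNat 0, .ofNat 0, .ofNat 20171911029141263282601984000, .ofNat 0, .ofNat 0, .ofNat 0, .ofNat 2112255996537391060415938560000, .ofNat 0, .ofNat 1761767730319743070995180267189043200, .ofNat 0, .ofNat 889637873132447581798504857600, .ofNat 0, .ofNat 0, .ofNat 0, .ofNat 4120348451701645011440369664000, .ofNat 0⟩)
    (by decide +kernel)
theorem L00266 : Good (Phi V4.P V4.D (-1) (-1)) ⟨4, 13, 3, 1, 2, 2, 1, 0, 4, 1⟩ :=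
  out_sound (S := T4.ds_mm) T4.ok_mm (w := 56) (j := 3) (by decide +kernel)
theorem L00267 : Good (Phi V4.P V4.D (-1) (-1)) ⟨3, 7, 3, 1, 2, 2, 1, 0, 4, 1⟩ :=
  out_sound (S := T4.ds_mm) T4.ok_mm (w := 48) (j := 3) (by decide +kernel)
theorem L00268 : Good (Phi V4.P V4.D (-1) (-1)) ⟨3, 4, 3, 1, 2, 3, 1, 0, 4, 1⟩ :=
  out_sound (S := T4.ds_mm) T4.ok_mm (w := 48) (j := 3) (by decide +kernel)
theorem L00269 : Good (Phi V4.P V4.D (-1) (-1)) ⟨4, 10, 3, 1, 2, 3, 1, 0, 4, 1⟩ :=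
  leaf_sound (S := T4.ds_mm) T4.ok_mm (w := 176) (c := ⟨⟨.negSucc 27, .ofNat 0, .negSucc 23, .negSucc 471, .negSucc 793, .negSucc 871⟩, ⟨.ofNat 2, .ofNat 0, .ofNat 8, .ofNat 106, .ofNat 139, .ofNat 173⟩, ⟨.ofNat 241, .ofNat 0, .negSucc 341, .ofNat 448, .ofNat 112, .ofNat 488⟩, ⟨.negSucc 74, .ofNat 0, .negSucc 125, .negSucc 790, .negSucc 1617, .negSucc 1627⟩, ⟨.negSucc 117, .ofNat 0, .negSucc 385, .ofNat 388, .negSucc 778, .negSucc 109⟩, .ofNat 848, .ofNat 1865, .ofNat 0, .ofNat 1865, .ofNat 9220, .ofNat 0, .ofNat 290, .negSucc 399, .negSucc 446, .ofNat 0, .ofNat 128, .ofNat 96, .ofNat 0, .ofNat 0, .ofNat 540, .ofNat 1742, .ofNat 0, .ofNat 0, .ofNat 482007935645918577883820851200, .ofNat 0, .ofNat 0, .ofNat 0, .ofNat 37953859822190892562643523993600, .ofNat 0, .ofNat 0, .ofNat 0, .ofNat 24919587422472567587123861913600, .ofNat 0, .ofNat 0, .ofNat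 0, .ofNat 28235127289798590338036662272000, .ofNat 0⟩)
    (by decide +kernel)

end Crest.Agent.R097C4.N4mm
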