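import Crest.Agent.R097.T4

/-!
# Row 97, box cover in dimension n = 4 (generated)
-/

set_option autoImplicit false
set_option Elab.async false
set_option maxHeartbeats 0
set_option maxRecDepth 100000

open Crest.Agent.R097 Crest.Agent.R097.KA


namespace Crest.Agent.R097C4.N4mm

theorem L00270 : Good (Phi V4.P V4.D (-1) (-1)) ⟨4, 11, 3, 1, 3, 6, 1, 0, 4, 1⟩ :=
  leaf_sound (S := T4.ds_mm) T4.ok_mm (w := 184) (c := ⟨⟨.ofNat 128, .negSucc 247, .ofNat 70, .negSucc 345, .negSucc 850, .negSucc 972⟩, ⟨.negSucc 66, .ofNat 86, .ofNat 74, .ofNat 89, .ofNat 173, .ofNat 231⟩, ⟨.ofNat 92, .ofNat 160, .negSucc 49, .ofNat 232, .ofNat 264, .ofNat 599⟩, ⟨.ofNat 120, .negSucc 304, .ofNat 77, .negSucc 562, .negSucc 1668, .negSucc 1718⟩, ⟨.negSucc 255, .ofNat 121, .negSucc 44, .ofNat 204, .negSucc 652, .ofNat 28⟩, .ofNat 457, .ofNat 346, .ofNat 0, .ofNat 346, .ofNat 1688,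 .ofNat 0, .ofNat 368, .negSucc 348, .negSucc 556, .ofNat 0, .ofNat 183, .ofNat 150, .ofNat 0, .ofNat 0, .ofNat 584, .ofNat 1092, .ofNat 0, .ofNat 0, .ofNat 0, .ofNat 0, .ofNat 0, .ofNat 0, .ofNat 0, .ofNat 0, .ofNat 0, .ofNat 0, .ofNat 0, .ofNat 0, .ofNat 0, .ofNat 0, .ofNat 0, .ofNat 0⟩)
    (by decide +kernel)
theorem L00271 : Good (Phi V4.P V4.D (-1) (-1)) ⟨4, 11, 3, 1, 3, 7, 1, 0, 4, 1⟩ :=
  leaf_sound (S := T4.ds_mm) T4.ok_mm (w := 184) (c := ⟨⟨.negSucc 48, .negSucc 604, .ofNat 399, .negSucc 384, .negSucc 698, .negSucc 1190⟩, ⟨.negSucc 37, .ofNat 217, .negSucc 1, .ofNat 118, .ofNat 119, .ofNat 288⟩, ⟨.ofNat 394, .ofNat 310, .negSucc 175, .ofNat 329, .ofNat 2, .ofNat 608⟩, ⟨.negSucc 131, .negSucc 841, .ofNat 634, .negSucc 623, .negSucc 1477, .negSucc 2126⟩, ⟨.ofNat 121, .ofNat 281, .negSucc 197, .ofNat 253, .negSucc 990, .negSucc 62⟩, .ofNat 456,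 .ofNat 342, .ofNat 0, .ofNat 342, .ofNat 1677, .ofNat 0, .ofNat 404, .negSucc 427, .negSucc 550, .ofNat 0, .ofNat 210, .ofNat 138, .ofNat 0, .ofNat 0, .ofNat 567, .ofNat 1586, .ofNat 0, .ofNat 0, .ofNat 0, .ofNat 0, .ofNat 0, .ofNat 0, .ofNat 0, .ofNat 0, .ofNat 0, .ofNat 0, .ofNat 0, .ofNat 0, .ofNat 0, .ofNat 0, .ofNat 654601872292059627968533836595200, .ofNat 0⟩)
    (by decide +kernel)
theorem L00272 : Good (Phi V4.P V4.D (-1) (-1)) ⟨5, 24, 3, 1, 2, 3, 2, 0, 4, 1⟩ :=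
  leaf_sound (S := T4.ds_mm) T4.ok_mm (w := 184) (c := ⟨⟨.ofNat 135, .negSucc 498, .ofNat 469, .negSucc 1123, .negSucc 542, .negSucc 1544⟩, ⟨.negSucc 141, .ofNat 220, .negSucc 74, .ofNat 403, .ofNat 148, .ofNat 504⟩, ⟨.ofNat 46, .ofNat 159, .negSucc 92, .ofNat 933, .ofNat 122, .ofNat 796⟩, ⟨.ofNat 115, .negSucc 675, .ofNat 739, .negSucc 1622, .negSucc 1047, .negSucc 2558⟩, ⟨.negSucc 210, .ofNat 206, .negSucc 160, .ofNat 860, .negSucc 428, .ofNat 147⟩, .ofNat 646, .ofNat 780, .ofNat 0, .ofNat 780, .ofNat 2589, .ofNat 0, .ofNat 314, .negSucc 527, .negSucc 642, .ofNat 0, .ofNat 248, .ofNat 219, .ofNat 0, .ofNat 0, .ofNat 588, .ofNat 1459, .ofNat 0, .ofNat 0, .ofNat 41290637796909768926822400000, .ofNat 0, .ofNat 0, .ofNat 0, .ofNat 2911719065557578581375188992000, .ofNat 0, .ofNat 0, .ofNat 0, .ofNat 3484991260894063780288895385600, .ofNat 0, .ofNat 0, .ofNat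 0, .ofNat 0, .ofNat 0⟩)
    (by decide +kernel)
theorem L00273 : Good (Phi V4.P V4.D (-1) (-1)) ⟨5, 24, 3, 1, 2, 3, 2, 1, 4, 1⟩ :=
  leaf_sound (S := T4.ds_mm) T4.ok_mm (w := 184) (c := ⟨⟨.negSucc 967, .negSucc 484, .ofNat 341, .negSucc 748, .negSucc 154, .negSucc 739⟩, ⟨.ofNat 166, .ofNat 189, .ofNat 40, .ofNat 256, .ofNat 8, .ofNat 227⟩, ⟨.ofNat 593, .ofNat 310, .negSucc 196, .ofNat 492, .negSucc 1, .ofNat 481⟩, ⟨.negSucc 1747, .negSucc 647, .ofNat 507, .negSucc 1152, .negSucc 422, .negSucc 1264⟩, ⟨.negSucc 307, .ofNat 209, .negSucc 116, .ofNat 346, .negSucc 496, .negSucc 47⟩, .ofNat 729, .ofNat 992, .ofNat 0, .ofNat 992, .ofNat 3234, .ofNat 0, .ofNat 306, .negSucc 437, .negSucc 705, .ofNat 0, .ofNat 212, .ofNat 244, .ofNat 0, .ofNat 0, .ofNat 662, .ofNat 1532, .ofNat 0, .ofNat 0, .ofNat 59267758672447009555533004800, .ofNat 0, .ofNat 0, .ofNat 0, .ofNat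 2689262009380019832247812096000, .ofNat 0, .ofNat 0, .ofNat 0, .ofNat 4562205266457316923388880486400, .ofNat 0, .ofNat 0, .ofNat 0, .ofNat 0, .ofNat 0⟩)
    (by decide +kernel)
theorem L00274 : Good (Phi V4.P V4.D (-1) (-1)) ⟨5, 25, 4, 2, 2, 3, 1, 0, 4, 1⟩ :=
  out_sound (S := T4.ds_mm) T4.ok_mm (w := 64) (j := 3) (by decide +kernel)
theorem L00275 : Good (Phi V4.P V4.D (-1) (-1)) ⟨6, 50, 4, 3, 2, 3, 2, 0, 4, 1⟩ :=
  leaf_sound (S := T4.ds_mm) T4.ok_mm (w := 192) (c := ⟨⟨.ofNat 800, .negSucc 425, .negSucc 348, .negSucc 1368, .negSucc 725, .negSucc 1744⟩, ⟨.negSucc 266, .ofNat 214, .ofNat 86, .ofNat 541, .ofNat 224, .ofNat 621⟩, ⟨.ofNat 203, .negSucc 79, .negSucc 239, .ofNat 1034, .ofNat 217, .ofNat 932⟩, ⟨.ofNat 1512, .negSucc 442, .negSucc 886, .negSucc 1941, .negSucc 1321, .negSucc 2790⟩, ⟨.ofNat 566, .ofNat 658, .negSucc 914, .ofNat 935, .negSucc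 352, .ofNat 270⟩, .ofNat 833, .ofNat 1191, .ofNat 0, .ofNat 1191, .ofNat 3460, .ofNat 0, .ofNat 293, .negSucc 549, .negSucc 707, .ofNat 0, .ofNat 267, .ofNat 266, .ofNat 0, .ofNat 0, .ofNat 612, .ofNat 2471, .ofNat 0, .ofNat 0, .ofNat 0, .ofNat 0, .ofNat 0, .ofNat 0, .ofNat 15439081633305516448611198566400, .ofNat 0, .ofNat 2127741759437484455039702978603148902400, .ofNat 0, .ofNat 5919476588275934711071427788800, .ofNat 0, .ofNat 0, .ofNat 0, .ofNat 0, .ofNat 0⟩)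
    (by decide +kernel)
theorem L00276 : Good (Phi V4.P V4.D (-1) (-1)) ⟨6, 50, 4, 3, 2, 3, 2, 1, 4, 1⟩ :=
  leaf_sound (S := T4.ds_mm) T4.ok_mm (w := 192) (c := ⟨⟨.negSucc 394, .negSucc 113, .negSucc 526, .negSucc 770, .negSucc 239, .negSucc 878⟩, ⟨.ofNat 76, .ofNat 73, .ofNat 221, .ofNat 294, .ofNat 47, .ofNat 300⟩, ⟨.ofNat 392, .ofNat 31, .ofNat 184, .ofNat 527, .ofNat 54, .ofNat 557⟩, ⟨.negSucc 672, .negSucc 65, .negSucc 952, .negSucc 1140, .negSucc 561, .negSucc 1464⟩, ⟨.negSucc 72, .ofNat 241, .negSucc 218, .ofNat 386, .negSucc 482, .negSucc 34⟩, .ofNat 812, .ofNat 1139, .ofNat 0, .ofNat 1139, .ofNat 3323, .ofNat 0, .ofNat 294, .negSucc 461, .negSucc 790, .ofNat 0, .ofNat 233, .ofNat 299, .ofNat 0, .ofNat 0, .ofNat 699, .ofNat 3021, .ofNat 0, .ofNat 0, .ofNat 0, .ofNat 0, .ofNat 0, .ofNat 0, .ofNat 8082634446315079857865123430400, .ofNat 0, .ofNat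 0, .ofNat 0, .ofNat 9276893364164548186944936345600, .ofNat 0, .ofNat 0, .ofNat 0, .ofNat 7975842024179928651979869388800, .ofNat 0⟩)
    (by decide +kernel)
theorem L00277 : Good (Phi V4.P V4.D (-1) (-1)) ⟨6, 51, 4, 3, 2, 3, 1, 0, 4, 1⟩ :=
  out_sound (S := T4.ds_mm) T4.ok_mm (w := 72) (j := 3) (by decide +kernel)
theorem L00278 : Good (Phi V4.P V4.D (-1) (-1)) ⟨4, 13, 3, 1, 2, 3, 1, 0, 4, 1⟩ :=
  out_sound (S := T4.ds_mm) T4.ok_mm (w := 56) (j := 3) (by decide +kernel)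
theorem L00279 : Good (Phi V4.P V4.D (-1) (-1)) ⟨3, 7, 3, 1, 2, 3, 1, 0, 4, 1⟩ :=
  out_sound (S := T4.ds_mm) T4.ok_mm (w := 48) (j := 3) (by decide +kernel)
theorem L00280 : Good (Phi V4.P V4.D (-1) (-1)) ⟨3, 4, 3, 1, 2, 2, 1, 0, 4, 2⟩ :=
  out_sound (S := T4.ds_mm) T4.ok_mm (w := 48) (j := 3) (by decide +kernel)
theorem L00281 : Good (Phi V4.P V4.D (-1) (-1)) ⟨3, 5, 3, 1, 2, 2, 1, 0, 4, 2⟩ :=
  leaf_sound (S := T4.ds_mm) T4.ok_mm (w := 176) (c := ⟨⟨.negSucc 472, .negSucc 477, .ofNat 99, .negSucc 395, .negSucc 168, .negSucc 200⟩, ⟨.ofNat 37, .ofNat 175, .ofNat 85, .ofNat 95, .ofNat 19, .ofNat 48⟩, ⟨.ofNat 527, .ofNat 345, .negSucc 92, .ofNat 153, .negSucc 124, .ofNat 200⟩, ⟨.negSucc 1082, .negSucc 547, .ofNat 119, .negSucc 739, .negSucc 420, .negSucc 375⟩, ⟨.negSucc 252, .ofNat 189, .negSucc 67, .negSucc 178, .negSucc 487, .negSucc 79⟩, .ofNat 615, .ofNat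 784, .ofNat 0, .ofNat 784, .ofNat 3321, .ofNat 0, .ofNat 262, .negSucc 260, .negSucc 412, .ofNat 0, .ofNat 132, .ofNat 116, .ofNat 0, .ofNat 0, .ofNat 568, .ofNat 2428, .ofNat 294436602641304459115002593280000, .ofNat 0, .ofNat 24729324059602550737443225600, .ofNat 0, .ofNat 0, .ofNat 0, .ofNat 0, .ofNat 0, .ofNat 0, .ofNat 0, .ofNat 0, .ofNat 0, .ofNat 0, .ofNat 0, .ofNat 0, .ofNat 0⟩)
    (by decide +kernel)
theorem L00282 : Good (Phi V4.P V4.D (-1) (-1)) ⟨4, 12, 3, 1, 2, 2, 1, 0, 4, 2⟩ :=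
  leaf_sound (S := T4.ds_mm) T4.ok_mm (w := 176) (c := ⟨⟨.negSucc 902, .negSucc 379, .ofNat 130, .negSucc 528, .negSucc 154, .negSucc 211⟩, ⟨.ofNat 170, .ofNat 148, .ofNat 94, .ofNat 163, .ofNat 10, .ofNat 63⟩, ⟨.ofNat 857, .ofNat 293, .negSucc 133, .ofNat 211, .negSucc 106, .ofNat 206⟩, ⟨.negSucc 1561, .negSucc 449, .ofNat 167, .negSucc 921, .negSucc 427, .negSucc 379⟩, ⟨.negSucc 85, .ofNat 132, .negSucc 58, .negSucc 110, .negSucc 527, .negSucc 73⟩, .ofNat 477, .ofNat 397, .ofNat 0, .ofNat 397, .ofNat 1446, .ofNat 0, .ofNat 290, .negSucc 272, .negSucc 529, .ofNat 0, .ofNat 183, .ofNat 195, .ofNat 0, .ofNat 0, .ofNat 630, .ofNat 2955, .ofNat 0, .ofNat 0, .ofNat 15399672800702740783379251200, .ofNat 0, .ofNat 0, .ofNat 0, .ofNat 826960806535510683340819660800, .ofNat 0, .ofNat 146037368137710386489837988977049600, .ofNat 0, .ofNat 2324903383136547751258069401600,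 .ofNat 0, .ofNat 0, .ofNat 0, .ofNat 1423615946426695567966784716800, .ofNat 0⟩)
    (by decide +kernel)
theorem L00283 : Good (Phi V4.P V4.D (-1) (-1)) ⟨4, 13, 3, 1, 2, 2, 1, 0, 4, 2⟩ :=
  out_sound (S := T4.ds_mm) T4.ok_mm (w := 56) (j := 3) (by decide +kernel)
theorem L00284 : Good (Phi V4.P V4.D (-1) (-1)) ⟨3, 7, 3, 1, 2, 2, 1, 0, 4, 2⟩ :=
  out_sound (S := T4.ds_mm) T4.ok_mm (w := 48) (j := 3) (by decide +kernel)
theorem L00285 : Good (Phi V4.P V4.D (-1) (-1)) ⟨3, 4, 3, 1, 2, 3, 1, 0, 4, 2⟩ :=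
  out_sound (S := T4.ds_mm) T4.ok_mm (w := 48) (j := 3) (by decide +kernel)
theorem L00286 : Good (Phi V4.P V4.D (-1) (-1)) ⟨3, 5, 3, 1, 2, 3, 1, 0, 4, 2⟩ :=
  leaf_sound (S := T4.ds_mm) T4.ok_mm (w := 168) (c := ⟨⟨.negSucc 776, .negSucc 903, .ofNat 345, .negSucc 630, .ofNat 0, .negSucc 117⟩, ⟨.ofNat 73, .ofNat 335, .ofNat 58, .ofNat 161, .negSucc 36, .ofNat 11⟩, ⟨.ofNat 747, .ofNat 403, .negSucc 142, .ofNat 471, .negSucc 269, .ofNat 127⟩, ⟨.negSucc 1701, .negSucc 1104, .ofNat 500, .negSucc 1095, .negSucc 224, .negSucc 291⟩, ⟨.negSucc 204, .ofNat 458, .negSucc 243, .ofNat 139, .negSucc 940, .negSucc 319⟩, .ofNat 459, .ofNat 354, .ofNat 0, .ofNat 354, .ofNat 1712, .ofNat 0, .ofNat 354, .negSucc 340, .negSucc 427, .ofNat 0, .ofNat 184, .ofNat 119, .ofNat 0, .ofNat 0, .ofNat 540, .ofNat 1010, .ofNat 0, .ofNat 0, .ofNat 27116000124095962929954816000, .ofNat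 0, .ofNat 0, .ofNat 0, .ofNat 0, .ofNat 0, .ofNat 0, .ofNat 0, .ofNat 2350928545722934195663562342400, .ofNat 0, .ofNat 0, .ofNat 0, .ofNat 4420346101358664594966655795200, .ofNat 0⟩)
    (by decide +kernel)
theorem L00287 : Good (Phi V4.P V4.D (-1) (-1)) ⟨5, 24, 3, 1, 3, 6, 2, 0, 4, 2⟩ :=
  leaf_sound (S := T4.ds_mm) T4.ok_mm (w := 192) (c := ⟨⟨.negSucc 1403, .negSucc 285, .ofNat 175, .negSucc 499, .negSucc 142, .negSucc 232⟩, ⟨.ofNat 325, .ofNat 133, .ofNat 80, .ofNat 175, .ofNat 12, .ofNat 52⟩, ⟨.ofNat 1007, .ofNat 160, .negSucc 106, .ofNat 252, .ofNat 21, .ofNat 216⟩, ⟨.negSucc 2394, .negSucc 333, .ofNat 245, .negSucc 756, .negSucc 377, .negSucc 475⟩, ⟨.ofNat 37, .ofNat 147, .negSucc 121, .ofNat 271, .negSucc 436, .negSucc 280⟩, .ofNat 629, .ofNat 735, .ofNat 0, .ofNat 735, .ofNat 2472, .ofNat 0, .ofNat 292, .negSucc 423, .negSucc 485, .ofNat 0, .ofNat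 214, .ofNat 175, .ofNat 0, .ofNat 0, .ofNat 548, .ofNat 3776, .ofNat 0, .ofNat 0, .ofNat 0, .ofNat 0, .ofNat 0, .ofNat 0, .ofNat 0, .ofNat 0, .ofNat 4474900188327401295619486258751864832000, .ofNat 0, .ofNat 2728378780439892865818698553753600, .ofNat 0, .ofNat 0, .ofNat 0, .ofNat 0, .ofNat 0⟩)
    (by decide +kernel)
theorem L00288 : Good (Phi V4.P V4.D (-1) (-1)) ⟨5, 24, 3, 1, 3, 7, 2, 0, 4, 2⟩ :=
  leaf_sound (S := T4.ds_mm) T4.ok_mm (w := 192) (c := ⟨⟨.negSucc 2338, .negSucc 399, .ofNat 346, .negSucc 302, .ofNat 97, .ofNat 115⟩, ⟨.ofNat 634, .ofNat 189, .ofNat 48, .ofNat 103, .negSucc 77, .negSucc 77⟩, ⟨.ofNat 1421, .ofNat 212, .negSucc 82, .ofNat 415, .negSucc 183, .ofNat 45⟩, ⟨.negSucc 3791, .negSucc 466, .ofNat 523, .negSucc 479, .negSucc 56, .negSucc 2⟩, ⟨.ofNat 707, .ofNat 220, .negSucc 227, .ofNat 107, .negSucc 699, .negSucc 618⟩, .ofNat 642,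 .ofNat 771, .ofNat 0, .ofNat 771, .ofNat 2571, .ofNat 0, .ofNat 307, .negSucc 508, .negSucc 454, .ofNat 0, .ofNat 250, .ofNat 159, .ofNat 0, .ofNat 0, .ofNat 536, .ofNat 1958, .ofNat 0, .ofNat 0, .ofNat 0, .ofNat 0, .ofNat 0, .ofNat 0, .ofNat 0, .ofNat 0, .ofNat 0, .ofNat 0, .ofNat 1653139904464727684889548370739200, .ofNat 0, .ofNat 0, .ofNat 0, .ofNat 0, .ofNat 0⟩)
    (by decide +kernel)
theorem L00289 : Good (Phi V4.P V4.D (-1) (-1)) ⟨5, 24, 3, 1, 2, 3, 2, 1, 4, 2⟩ :=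
  leaf_sound (S := T4.ds_mm) T4.ok_mm (w := 184) (c := ⟨⟨.negSucc 2084, .negSucc 359, .ofNat 355, .negSucc 514, .ofNat 190, .ofNat 321⟩, ⟨.ofNat 505, .ofNat 149, .ofNat 61, .ofNat 164, .negSucc 99, .negSucc 139⟩, ⟨.ofNat 1341, .ofNat 223, .negSucc 213, .ofNat 314, .negSucc 236, .negSucc 137⟩, ⟨.negSucc 3556, .negSucc 445, .ofNat 506, .negSucc 855, .ofNat 136, .ofNat 370⟩, ⟨.negSucc 70, .ofNat 170, .negSucc 182, .ofNat 29, .negSucc 573, .negSucc 520⟩, .ofNat 629, .ofNat 736, .ofNat 0, .ofNat 736, .ofNat 2483, .ofNat 0, .ofNat 304, .negSucc 403, .negSucc 561, .ofNat 0, .ofNat 209, .ofNat 200, .ofNat 0, .ofNat 0, .ofNat 599, .ofNat 2556, .ofNat 0, .ofNat 0, .ofNat 103018015175780166669434880000, .ofNat 0, .ofNat 0, .ofNat 0, .ofNat 6392313235895272637685615820800, .ofNat 0, .ofNat 0, .ofNat 0, .ofNat 4410598362365104513093730304000, .ofNat 0, .ofNat 0, .ofNat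 0, .ofNat 2673945074368084312498529894400, .ofNat 0⟩)
    (by decide +kernel)
theorem L00290 : Good (Phi V4.P V4.D (-1) (-1)) ⟨6, 50, 4, 2, 2, 3, 1, 0, 4, 2⟩ :=
  out_sound (S := T4.ds_mm) T4.ok_mm (w := 72) (j := 3) (by decide +kernel)
theorem L00291 : Good (Phi V4.P V4.D (-1) (-1)) ⟨6, 50, 4, 3, 2, 3, 2, 0, 4, 2⟩ :=
  leaf_sound (S := T4.ds_mm) T4.ok_mm (w := 192) (c := ⟨⟨.negSucc 1510, .negSucc 864, .negSucc 214, .negSucc 1007, .negSucc 40, .ofNat 78⟩, ⟨.ofNat 450, .ofNat 369, .ofNat 166, .ofNat 387, .negSucc 28, .negSucc 68⟩, ⟨.ofNat 952, .ofNat 323, .ofNat 148, .ofNat 833, .negSucc 113, .ofNat 99⟩, ⟨.negSucc 2564, .negSucc 1172, .negSucc 192, .negSucc 1481, .negSucc 268, .negSucc 68⟩, ⟨.negSucc 167, .ofNat 589, .ofNat 450, .ofNat 536, .negSucc 583, .negSucc 571⟩, .ofNat 834, .ofNat 1193, .ofNat 0, .ofNat 1193, .ofNat 3464, .ofNat 0, .ofNat 281, .negSucc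 509, .negSucc 512, .ofNat 0, .ofNat 257, .ofNat 198, .ofNat 0, .ofNat 0, .ofNat 552, .ofNat 1477, .ofNat 0, .ofNat 0, .ofNat 159463248882901590100200652800, .ofNat 0, .ofNat 0, .ofNat 0, .ofNat 28410137480231641561997456179200, .ofNat 0, .ofNat 0, .ofNat 0, .ofNat 4259786023775214816178942771200, .ofNat 0, .ofNat 0, .ofNat 0, .ofNat 0, .ofNat 0⟩)
    (by decide +kernel)
theorem L00292 : Good (Phi V4.P V4.D (-1) (-1)) ⟨6, 50, 4, 3, 2, 3, 2, 1, 4, 2⟩ :=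
  leaf_sound (S := T4.ds_mm) T4.ok_mm (w := 192) (c := ⟨⟨.negSucc 2817, .negSucc 408, .ofNat 700, .negSucc 487, .ofNat 253, .ofNat 378⟩, ⟨.ofNat 907, .ofNat 184, .negSucc 181, .ofNat 168, .negSucc 132, .negSucc 168⟩, ⟨.ofNat 1737, .ofNat 420, .negSucc 369, .ofNat 312, .negSucc 279, .negSucc 189⟩, ⟨.negSucc 4612, .negSucc 504, .ofNat 1086, .negSucc 807, .ofNat 206, .ofNat 443⟩, ⟨.ofNat 103, .ofNat 373, .negSucc 175, .negSucc 2, .negSucc 616, .negSucc 526⟩, .ofNat 833, .ofNat 1192, .ofNat 0, .ofNat 1192, .ofNat 3461, .ofNat 0, .ofNat 282, .negSucc 431, .negSucc 605, .ofNat 0, .ofNat 225, .ofNat 235, .ofNat 0, .ofNat 0, .ofNat 616, .ofNat 3242, .ofNat 0, .ofNat 0, .ofNat 414347913940735406490255360000, .ofNat 0, .ofNat 0, .ofNat 0, .ofNat 22356514339765314831950177894400, .ofNat 0, .ofNat 0, .ofNat 0, .ofNat 7656383072417631394310022758400, .ofNat 0, .ofNat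 0, .ofNat 0, .ofNat 13102836207891718197619143475200, .ofNat 0⟩)
    (by decide +kernel)
theorem L00293 : Good (Phi V4.P V4.D (-1) (-1)) ⟨6, 51, 3, 1, 2, 3, 1, 0, 4, 2⟩ :=
  out_sound (S := T4.ds_mm) T4.ok_mm (w := 64) (j := 3) (by decide +kernel)
theorem L00294 : Good (Phi V4.P V4.D (-1) (-1)) ⟨4, 13, 3, 1, 2, 3, 1, 0, 4, 2⟩ :=
  out_sound (S := T4.ds_mm) T4.ok_mm (w := 56) (j := 3) (by decide +kernel)
theorem L00295 : Good (Phi V4.P V4.D (-1) (-1)) ⟨3, 7, 3, 1, 2, 3, 1, 0, 4, 2⟩ :=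
  out_sound (S := T4.ds_mm) T4.ok_mm (w := 48) (j := 3) (by decide +kernel)
theorem L00296 : Good (Phi V4.P V4.D (-1) (-1)) ⟨3, 4, 3, 1, 1, 1, 1, 0, 4, 3⟩ :=
  out_sound (S := T4.ds_mm) T4.ok_mm (w := 48) (j := 3) (by decide +kernel)
theorem L00297 : Good (Phi V4.P V4.D (-1) (-1)) ⟨3, 5, 3, 1, 2, 2, 1, 0, 4, 3⟩ :=
  leaf_sound (S := T4.ds_mm) T4.ok_mm (w := 168) (c := ⟨⟨.negSucc 901, .negSucc 452, .ofNat 94, .negSucc 300, .ofNat 161, .ofNat 19⟩, ⟨.ofNat 152, .ofNat 156, .ofNat 107, .ofNat 59, .negSucc 66, .negSucc 11⟩, ⟨.ofNat 896, .ofNat 362, .negSucc 103, .ofNat 67, .negSucc 403, .ofNat 45⟩, ⟨.negSucc 1837, .negSucc 497, .ofNat 103, .negSucc 617, .ofNat 154, .negSucc 6⟩, ⟨.negSucc 184, .ofNat 145, .negSucc 51, .negSucc 350, .negSucc 544, .negSucc 163⟩, .ofNat 608, .ofNat 759, .ofNat 0, .ofNat 759, .ofNat 3237, .ofNat 0, .ofNat 246, .negSucc 233, .negSucc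 313, .ofNat 0, .ofNat 124, .ofNat 90, .ofNat 0, .ofNat 0, .ofNat 517, .ofNat 1715, .ofNat 0, .ofNat 0, .ofNat 22780434813287445492557414400, .ofNat 0, .ofNat 0, .ofNat 0, .ofNat 0, .ofNat 0, .ofNat 0, .ofNat 0, .ofNat 0, .ofNat 0, .ofNat 0, .ofNat 0, .ofNat 0, .ofNat 0⟩)
    (by decide +kernel)
theorem L00298 : Good (Phi V4.P V4.D (-1) (-1)) ⟨3, 5, 3, 1, 2, 3, 2, 0, 4, 3⟩ :=
  leaf_sound (S := T4.ds_mm) T4.ok_mm (w := 176) (c := ⟨⟨.negSucc 1264, .negSucc 550, .ofNat 160, .negSucc 425, .ofNat 85, .ofNat 209⟩, ⟨.ofNat 210, .ofNat 203, .ofNat 129, .ofNat 92, .negSucc 36, .negSucc 76⟩, ⟨.ofNat 1033, .ofNat 304, .negSucc 19, .ofNat 464, .negSucc 276, .negSucc 66⟩, ⟨.negSucc 2580, .negSucc 558, .ofNat 189, .negSucc 811, .ofNat 53, .ofNat 249⟩, ⟨.negSucc 305, .ofNat 220, .negSucc 141, .negSucc 208, .negSucc 408, .negSucc 517⟩, .ofNat 458, .ofNat 348, .ofNat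 0, .ofNat 348, .ofNat 1679, .ofNat 0, .ofNat 639, .negSucc 604, .negSucc 534, .ofNat 0, .ofNat 356, .ofNat 155, .ofNat 0, .ofNat 0, .ofNat 983, .ofNat 5144, .ofNat 0, .ofNat 0, .ofNat 0, .ofNat 0, .ofNat 0, .ofNat 0, .ofNat 0, .ofNat 0, .ofNat 0, .ofNat 0, .ofNat 7049546299673922270939158937600, .ofNat 0, .ofNat 0, .ofNat 0, .ofNat 122216834732839688349534073651200, .ofNat 0⟩)
    (by decide +kernel)
theorem L00299 : Good (Phi V4.P V4.D (-1) (-1)) ⟨3, 5, 3, 1, 2, 3, 2, 1, 4, 3⟩ :=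
  leaf_sound (S := T4.ds_mm) T4.ok_mm (w := 176) (c := ⟨⟨.negSucc 1393, .negSucc 452, .ofNat 161, .negSucc 264, .ofNat 237, .ofNat 292⟩, ⟨.ofNat 276, .ofNat 113, .ofNat 141, .ofNat 49, .negSucc 82, .negSucc 97⟩, ⟨.ofNat 976, .ofNat 288, .negSucc 89, .ofNat 160, .negSucc 322, .negSucc 121⟩, ⟨.negSucc 2804, .negSucc 484, .ofNat 185, .negSucc 562, .ofNat 301, .ofNat 395⟩, ⟨.negSucc 551, .ofNat 109, .negSucc 97, .negSucc 397, .negSucc 469, .negSucc 467⟩, .ofNat 457, .ofNat 347, .ofNat 0, .ofNat 347, .ofNat 1655, .ofNat 0, .ofNat 323, .negSucc 274, .negSucc 338, .ofNat 0, .ofNat 169, .ofNat 102, .ofNat 0, .ofNat 0, .ofNat 515, .ofNat 2223, .ofNat 0, .ofNat 0, .ofNat 0, .ofNat 0, .ofNat 0, .ofNat 0, .ofNat 0, .ofNat 0, .ofNat 0, .ofNat 0, .ofNat 0, .ofNat 0, .ofNat 0, .ofNat 0, .ofNat 44557740764605306821862961971200, .ofNat 0⟩)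
    (by decide +kernel)
theorem L00300 : Good (Phi V4.P V4.D (-1) (-1)) ⟨5, 24, 3, 1, 2, 2, 1, 0, 4, 3⟩ :=
  leaf_sound (S := T4.ds_mm) T4.ok_mm (w := 184) (c := ⟨⟨.negSucc 1409, .negSucc 124, .ofNat 102, .negSucc 298, .ofNat 232, .ofNat 69⟩, ⟨.ofNat 340, .ofNat 46, .ofNat 104, .ofNat 66, .negSucc 113, .negSucc 32⟩, ⟨.ofNat 1310, .ofNat 99, .negSucc 104, .ofNat 52, .negSucc 455, .negSucc 5⟩, ⟨.negSucc 2382, .negSucc 135, .ofNat 119, .negSucc 626, .ofNat 210, .ofNat 65⟩, ⟨.negSucc 9, .ofNat 23, .negSucc 45, .negSucc 394, .negSucc 570, .negSucc 162⟩, .ofNat 640, .ofNat 761, .ofNat 0, .ofNat 761, .ofNat 2519, .ofNat 0, .ofNat 238, .negSucc 258, .negSucc 371, .ofNat 0, .ofNat 155, .ofNat 137, .ofNat 0, .ofNat 0, .ofNat 548, .ofNat 3115, .ofNat 0, .ofNat 0, .ofNat 0, .ofNat 0, .ofNat 30585743231917913346074410273996800, .ofNat 0, .ofNat 606106735250505246453635481600,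 .ofNat 0, .ofNat 0, .ofNat 0, .ofNat 565836682560401092491450777600, .ofNat 0, .ofNat 0, .ofNat 0, .ofNat 0, .ofNat 0⟩)
    (by decide +kernel)
theorem L00301 : Good (Phi V4.P V4.D (-1) (-1)) ⟨5, 24, 3, 1, 3, 6, 2, 0, 4, 3⟩ :=
  leaf_sound (S := T4.ds_mm) T4.ok_mm (w := 192) (c := ⟨⟨.negSucc 1870, .negSucc 142, .ofNat 163, .negSucc 234, .ofNat 91, .ofNat 247⟩, ⟨.ofNat 455, .ofNat 64, .ofNat 105, .ofNat 67, .negSucc 56, .negSucc 109⟩, ⟨.ofNat 1371, .ofNat 97, .negSucc 112, .ofNat 147, .negSucc 176, .negSucc 40⟩, ⟨.negSucc 3184, .negSucc 135, .ofNat 191, .negSucc 422, .ofNat 21, .ofNat 268⟩, ⟨.negSucc 61, .ofNat 53, .negSucc 141, .negSucc 79, .negSucc 419, .negSucc 475⟩, .ofNat 792, .ofNat 1154, .ofNat 0, .ofNat 1154, .ofNat 3688, .ofNat 0, .ofNat 510, .negSucc 707, .negSucc 634, .ofNat 0, .ofNat 369, .ofNat 235, .ofNat 0, .ofNat 0, .ofNat 1000, .ofNat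 14605, .ofNat 0, .ofNat 0, .ofNat 0, .ofNat 0, .ofNat 1552938727961623051962248313345933312000, .ofNat 0, .ofNat 17423420221587737838260291685580800, .ofNat 0, .ofNat 5489063717229429599626074937658179584000, .ofNat 0, .ofNat 17244269577008633024801758878105600, .ofNat 0, .ofNat 0, .ofNat 0, .ofNat 0, .ofNat 0⟩)
    (by decide +kernel)
theorem L00302 : Good (Phi V4.P V4.D (-1) (-1)) ⟨5, 24, 3, 1, 3, 7, 2, 0, 4, 3⟩ :=
  leaf_sound (S := T4.ds_mm) T4.ok_mm (w := 192) (c := ⟨⟨.negSucc 2315, .negSucc 131, .ofNat 188, .negSucc 61, .ofNat 163, .ofNat 496⟩, ⟨.ofNat 600, .ofNat 56, .ofNat 116, .negSucc 12, .negSucc 77, .negSucc 219⟩, ⟨.ofNat 1486, .ofNat 57, .ofNat 118, .ofNat 466, .negSucc 463, .negSucc 83⟩, ⟨.negSucc 3840, .negSucc 104, .ofNat 179, .negSucc 244, .ofNat 170, .ofNat 545⟩, ⟨.ofNat 261, .ofNat 63, .negSucc 309, .negSucc 451, .negSucc 350, .negSucc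 920⟩, .ofNat 783, .ofNat 1130, .ofNat 0, .ofNat 1130, .ofNat 3633, .ofNat 0, .ofNat 542, .negSucc 808, .negSucc 531, .ofNat 0, .ofNat 426, .ofNat 187, .ofNat 0, .ofNat 0, .ofNat 993, .ofNat 4794, .ofNat 0, .ofNat 0, .ofNat 0, .ofNat 0, .ofNat 0, .ofNat 0, .ofNat 15832831529896259506839734766796800, .ofNat 0, .ofNat 0, .ofNat 0, .ofNat 13384980294576764550039155087769600, .ofNat 0, .ofNat 0, .ofNat 0, .ofNat 6429541184976578533901629548134400, .ofNat 0⟩)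
    (by decide +kernel)
theorem L00303 : Good (Phi V4.P V4.D (-1) (-1)) ⟨5, 24, 3, 1, 2, 3, 2, 1, 4, 3⟩ :=
  leaf_sound (S := T4.ds_mm) T4.ok_mm (w := 184) (c := ⟨⟨.negSucc 1996, .negSucc 135, .ofNat 191, .negSucc 165, .ofNat 349, .ofNat 429⟩, ⟨.ofNat 462, .ofNat 34, .ofNat 129, .ofNat 23, .negSucc 143, .negSucc 175⟩, ⟨.ofNat 1373, .ofNat 110, .negSucc 131, .ofNat 136, .negSucc 402, .negSucc 230⟩, ⟨.negSucc 3447, .negSucc 144, .ofNat 203, .negSucc 421, .ofNat 418, .ofNat 540⟩, ⟨.negSucc 335, .ofNat 65, .negSucc 138, .negSucc 463, .negSucc 539, .negSucc 583⟩, .ofNat 475, .ofNat 393, .ofNat 0, .ofNat 393, .ofNat 1464, .ofNat 0, .ofNat 309, .negSucc 320, .negSucc 392, .ofNat 0, .ofNat 203, .ofNat 146, .ofNat 0, .ofNat 0, .ofNat 534, .ofNat 1490, .ofNat 0, .ofNat 0, .ofNat 0, .ofNat 0, .ofNat 0, .ofNat 0, .ofNat 0, .ofNat 0, .ofNat 0, .ofNat 0, .ofNat 0,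 .ofNat 0, .ofNat 0, .ofNat 0, .ofNat 0, .ofNat 0⟩)
    (by decide +kernel)
theorem L00304 : Good (Phi V4.P V4.D (-1) (-1)) ⟨6, 50, 3, 1, 2, 2, 1, 0, 4, 3⟩ :=
  leaf_sound (S := T4.ds_mm) T4.ok_mm (w := 184) (c := ⟨⟨.negSucc 1159, .ofNat 162, .negSucc 327, .negSucc 266, .ofNat 275, .ofNat 104⟩, ⟨.ofNat 314, .negSucc 32, .ofNat 199, .ofNat 61, .negSucc 137, .negSucc 50⟩, ⟨.ofNat 1218, .negSucc 216, .ofNat 127, .ofNat 21, .negSucc 484, .negSucc 24⟩, ⟨.negSucc 2036, .ofNat 320, .negSucc 418, .negSucc 586, .ofNat 252, .ofNat 101⟩, ⟨.negSucc 381, .ofNat 74, .ofNat 392, .negSucc 422, .negSucc 589, .negSucc 204⟩, .ofNat 812, .ofNat 1140, .ofNat 0, .ofNat 1140, .ofNat 3327, .ofNat 0, .ofNat 225, .negSucc 275, .negSucc 393, .ofNat 0, .ofNat 163, .ofNat 156, .ofNat 0, .ofNat 0, .ofNat 559, .ofNat 3778, .ofNat 0, .ofNat 0, .ofNat 17764592413778702644543488000, .ofNat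 0, .ofNat 0, .ofNat 0, .ofNat 3299785043822789530865998233600, .ofNat 0, .ofNat 0, .ofNat 0, .ofNat 993465091386927921740591923200, .ofNat 0, .ofNat 21492501116699778064441335551832883200, .ofNat 0, .ofNat 1324935351607572933042084249600, .ofNat 0⟩)
    (by decide +kernel)
theorem L00305 : Good (Phi V4.P V4.D (-1) (-1)) ⟨6, 50, 4, 2, 2, 3, 1, 0, 4, 3⟩ :=
  out_sound (S := T4.ds_mm) T4.ok_mm (w := 72) (j := 3) (by decide +kernel)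
theorem L00306 : Good (Phi V4.P V4.D (-1) (-1)) ⟨6, 50, 4, 3, 3, 6, 2, 0, 4, 3⟩ :=
  leaf_sound (S := T4.ds_mm) T4.ok_mm (w := 200) (c := ⟨⟨.negSucc 2006, .negSucc 54, .ofNat 72, .negSucc 206, .ofNat 120, .ofNat 334⟩, ⟨.ofNat 629, .ofNat 57, .ofNat 33, .ofNat 63, .negSucc 73, .negSucc 154⟩, ⟨.ofNat 1444, .negSucc 52, .negSucc 37, .ofNat 138, .negSucc 200, .negSucc 89⟩, ⟨.negSucc 3294, .ofNat 54, .ofNat 63, .negSucc 379, .ofNat 44, .ofNat 366⟩, ⟨.ofNat 27, .ofNat 318, .negSucc 116, .negSucc 111, .negSucc 445, .negSucc 540⟩, .ofNat 832, .ofNat 1187, .ofNat 0, .ofNat 1187, .ofNat 3450, .ofNat 0, .ofNat 498, .negSucc 751, .negSucc 697, .ofNat 0, .ofNat 407, .ofNat 282, .ofNat 0, .ofNat 0, .ofNat 1019, .ofNat 28207, .ofNat 0, .ofNat 0, .ofNat 0, .ofNat 0, .ofNat 0, .ofNat 0, .ofNat 60316604413135418198260368329932800, .ofNat 0, .ofNat 0, .ofNat 0, .ofNat 12918359677639253407821229090406400,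 .ofNat 0, .ofNat 0, .ofNat 0, .ofNat 17865992454788436890207885092454400, .ofNat 0⟩)
    (by decide +kernel)
theorem L00307 : Good (Phi V4.P V4.D (-1) (-1)) ⟨6, 50, 4, 3, 3, 7, 2, 0, 4, 3⟩ :=
  leaf_sound (S := T4.ds_mm) T4.ok_mm (w := 200) (c := ⟨⟨.negSucc 2147, .ofNat 138, .negSucc 212, .negSucc 11, .ofNat 194, .ofNat 589⟩, ⟨.ofNat 661, .negSucc 72, .ofNat 167, .negSucc 32, .negSucc 94, .negSucc 279⟩, ⟨.ofNat 1362, .ofNat 291, .ofNat 291, .ofNat 492, .negSucc 485, .negSucc 109⟩, ⟨.negSucc 3578, .ofNat 81, .negSucc 263, .negSucc 193, .ofNat 187, .ofNat 616⟩, ⟨.negSucc 114, .negSucc 523, .ofNat 298, .negSucc 504, .negSucc 388, .negSucc 1038⟩, .ofNat 833, .ofNat 1190, .ofNat 0, .ofNat 1190, .ofNat 3457, .ofNat 0, .ofNat 529, .negSucc 869, .negSucc 568, .ofNat 0, .ofNat 479, .ofNat 219, .ofNat 0, .ofNat 0, .ofNat 1008, .ofNat 5759, .ofNat 0, .ofNat 0, .ofNat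 0, .ofNat 0, .ofNat 0, .ofNat 0, .ofNat 72342857940922805843136566683238400, .ofNat 0, .ofNat 0, .ofNat 0, .ofNat 26355251216818557980775132482764800, .ofNat 0, .ofNat 0, .ofNat 0, .ofNat 17468037552761777040535070126899200, .ofNat 0⟩)
    (by decide +kernel)
theorem L00308 : Good (Phi V4.P V4.D (-1) (-1)) ⟨6, 50, 4, 3, 2, 3, 2, 1, 4, 3⟩ :=
  leaf_sound (S := T4.ds_mm) T4.ok_mm (w := 192) (c := ⟨⟨.negSucc 2176, .ofNat 135, .ofNat 117, .negSucc 59, .ofNat 389, .ofNat 533⟩, ⟨.ofNat 643, .negSucc 64, .ofNat 44, .negSucc 18, .negSucc 174, .negSucc 231⟩, ⟨.ofNat 1028, .negSucc 78, .ofNat 366, .ofNat 155, .negSucc 473, .negSucc 266⟩, ⟨.negSucc 3701, .ofNat 165, .ofNat 178, .negSucc 282, .ofNat 451, .ofNat 654⟩, ⟨.negSucc 388, .negSucc 241, .ofNat 50, .negSucc 532, .negSucc 558, .negSucc 657⟩, .ofNat 834, .ofNat 1193, .ofNat 0, .ofNat 1193, .ofNat 3465, .ofNat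 0, .ofNat 261, .negSucc 373, .negSucc 409, .ofNat 0, .ofNat 205, .ofNat 163, .ofNat 0, .ofNat 0, .ofNat 538, .ofNat 3652, .ofNat 0, .ofNat 0, .ofNat 0, .ofNat 0, .ofNat 0, .ofNat 0, .ofNat 29274687728840893385311204147200, .ofNat 0, .ofNat 0, .ofNat 0, .ofNat 8628801189510222363252857241600, .ofNat 0, .ofNat 0, .ofNat 0, .ofNat 15312872374920920681912519884800, .ofNat 0⟩)
    (by decide +kernel)
theorem L00309 : Good (Phi V4.P V4.D (-1) (-1)) ⟨6, 51, 3, 1, 1, 1, 1, 0, 4, 3⟩ :=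
  out_sound (S := T4.ds_mm) T4.ok_mm (w := 64) (j := 3) (by decide +kernel)
theorem L00310 : Good (Phi V4.P V4.D (-1) (-1)) ⟨4, 13, 3, 1, 1, 1, 1, 0, 4, 3⟩ :=
  out_sound (S := T4.ds_mm) T4.ok_mm (w := 56) (j := 3) (by decide +kernel)
theorem L00311 : Good (Phi V4.P V4.D (-1) (-1)) ⟨3, 7, 3, 1, 1, 1, 1, 0, 4, 3⟩ :=
  out_sound (S := T4.ds_mm) T4.ok_mm (w := 48) (j := 3) (by decide +kernel)
theorem L00312 : Good (Phi V4.P V4.D (-1) (-1)) ⟨2, 2, 3, 1, 2, 2, 1, 0, 3, 2⟩ :=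
  leaf_sound (S := T4.ds_mm) T4.ok_mm (w := 168) (c := ⟨⟨.negSucc 985, .negSucc 449, .ofNat 92, .negSucc 125, .ofNat 329, .ofNat 211⟩, ⟨.ofNat 223, .ofNat 82, .ofNat 110, .ofNat 0, .negSucc 97, .negSucc 60⟩, ⟨.ofNat 967, .ofNat 440, .negSucc 96, .ofNat 11, .negSucc 631, .negSucc 86⟩, ⟨.negSucc 2107, .negSucc 423, .ofNat 88, .negSucc 381, .ofNat 477, .ofNat 318⟩, ⟨.negSucc 116, .negSucc 58, .negSucc 53, .negSucc 645, .negSucc 446, .negSucc 253⟩, .ofNat 456, .ofNat 343, .ofNat 0, .ofNat 343, .ofNat 1676, .ofNat 0, .ofNat 482, .negSucc 318, .negSucc 451, .ofNat 0, .ofNat 245, .ofNat 135, .ofNat 0, .ofNat 0, .ofNat 950, .ofNat 3776, .ofNat 0, .ofNat 0, .ofNat 7221094300138244827565260800, .ofNat 0, .ofNat 0, .ofNat 0, .ofNat 0, .ofNat 0, .ofNat 0, .ofNat 0, .ofNat 0, .ofNat 0, .ofNat 1250794331266144531874891327078400, .ofNat 0, .ofNat 0, .ofNat 0⟩)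
    (by decide +kernel)
theorem L00313 : Good (Phi V4.P V4.D (-1) (-1)) ⟨2, 2, 3, 1, 2, 3, 1, 0, 3, 2⟩ :=
  leaf_sound (S := T4.ds_mm) T4.ok_mm (w := 168) (c := ⟨⟨.negSucc 1368, .negSucc 343, .ofNat 121, .negSucc 110, .ofNat 414, .ofNat 416⟩, ⟨.ofNat 361, .negSucc 26, .ofNat 154, .negSucc 8, .negSucc 125, .negSucc 126⟩, ⟨.ofNat 1298, .ofNat 167, .negSucc 39, .ofNat 189, .negSucc 764, .negSucc 148⟩, ⟨.negSucc 2867, .negSucc 230, .ofNat 93, .negSucc 384, .ofNat 575, .ofNat 590⟩, ⟨.negSucc 375, .negSucc 143, .negSucc 120, .negSucc 746, .negSucc 684, .negSucc 620⟩, .ofNat 457, .ofNat 346, .ofNat 0, .ofNat 346, .ofNat 1719, .ofNat 0, .ofNat 546, .negSucc 423, .negSucc 386, .ofNat 0, .ofNat 288, .ofNat 117, .ofNat 0, .ofNat 0, .ofNat 937, .ofNat 1760, .ofNat 4795767802829667896605959782400, .ofNat 0, .ofNat 7002863624634743376366796800, .ofNat 0, .ofNat 0,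 .ofNat 0, .ofNat 0, .ofNat 0, .ofNat 0, .ofNat 300822297630026620591899515289600, .ofNat 0, .ofNat 0, .ofNat 0, .ofNat 362951144443393160710808036966400, .ofNat 0, .ofNat 0⟩)
    (by decide +kernel)
theorem L00314 : Good (Phi V4.P V4.D (-1) (-1)) ⟨2, 2, 3, 1, 1, 1, 1, 0, 3, 3⟩ :=
  leaf_sound (S := T4.ds_mm) T4.ok_mm (w := 152) (c := ⟨⟨.negSucc 1054, .negSucc 206, .ofNat 62, .negSucc 64, .ofNat 408, .ofNat 191⟩, ⟨.ofNat 268, .negSucc 25, .ofNat 119, .negSucc 43, .negSucc 109, .negSucc 47⟩, ⟨.ofNat 1142, .ofNat 223, .negSucc 69, .negSucc 26, .negSucc 763, .negSucc 121⟩, ⟨.negSucc 2183, .negSucc 120, .ofNat 42, .negSucc 482, .ofNat 645, .ofNat 311⟩, ⟨.negSucc 349, .negSucc 116, .negSucc 28, .negSucc 1472, .negSucc 332, .negSucc 107⟩, .ofNat 314, .ofNat 112, .ofNat 0, .ofNat 112, .ofNat 718, .ofNat 0, .ofNat 476, .negSucc 188, .negSucc 364, .ofNat 0, .ofNat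 281, .ofNat 123, .ofNat 0, .ofNat 0, .ofNat 893, .ofNat 2451, .ofNat 0, .ofNat 0, .ofNat 0, .ofNat 0, .ofNat 0, .ofNat 0, .ofNat 0, .ofNat 0, .ofNat 0, .ofNat 2429997657714939307008983040000, .ofNat 0, .ofNat 0, .ofNat 0, .ofNat 2722195587090705245609656320000, .ofNat 0, .ofNat 0⟩)
    (by decide +kernel)
theorem L00315 : Good (Phi V4.P V4.D (-1) (-1)) ⟨5, 24, 3, 1, 2, 2, 1, 0, 3, 2⟩ :=
  leaf_sound (S := T4.ds_mm) T4.ok_mm (w := 176) (c := ⟨⟨.negSucc 1559, .negSucc 45, .ofNat 91, .negSucc 72, .ofNat 438, .ofNat 302⟩, ⟨.ofNat 383, .negSucc 4, .ofNat 116, .negSucc 26, .negSucc 169, .negSucc 114⟩, ⟨.ofNat 1489, .ofNat 44, .negSucc 93, .negSucc 40, .negSucc 715, .negSucc 141⟩, ⟨.negSucc 2626, .negSucc 43, .ofNat 78, .negSucc 350, .ofNat 579, .ofNat 414⟩, ⟨.negSucc 79, .negSucc 32, .negSucc 31, .negSucc 718, .negSucc 501, .negSucc 307⟩, .ofNat 643, .ofNat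 773, .ofNat 0, .ofNat 773, .ofNat 2561, .ofNat 0, .ofNat 425, .negSucc 442, .negSucc 510, .ofNat 0, .ofNat 275, .ofNat 190, .ofNat 0, .ofNat 0, .ofNat 969, .ofNat 3375, .ofNat 0, .ofNat 0, .ofNat 252179513310064153618022400, .ofNat 0, .ofNat 1154251958564885580868997616972595200, .ofNat 0, .ofNat 136214672280702538864184524800, .ofNat 0, .ofNat 2679280007158668831478389069683097600, .ofNat 0, .ofNat 135115626170634230357714534400, .ofNat 0, .ofNat 0, .ofNat 0, .ofNat 0, .ofNat 0⟩)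
    (by decide +kernel)
theorem L00316 : Good (Phi V4.P V4.D (-1) (-1)) ⟨5, 24, 3, 1, 2, 3, 1, 0, 3, 2⟩ :=
  leaf_sound (S := T4.ds_mm) T4.ok_mm (w := 176) (c := ⟨⟨.negSucc 1846, .negSucc 33, .ofNat 185, .negSucc 38, .ofNat 480, .ofNat 521⟩, ⟨.ofNat 421, .negSucc 17, .ofNat 123, .negSucc 44, .negSucc 196, .negSucc 212⟩, ⟨.ofNat 1500, .ofNat 9, .negSucc 77, .ofNat 307, .negSucc 839, .negSucc 175⟩, ⟨.negSucc 3173, .negSucc 25, .ofNat 159, .negSucc 347, .ofNat 581, .ofNat 636⟩, ⟨.negSucc 348, .negSucc 48, .negSucc 197, .negSucc 871, .negSucc 720, .negSucc 769⟩, .ofNat 477, .ofNat 399, .ofNat 0, .ofNat 399, .ofNat 1469, .ofNat 0, .ofNat 527, .negSucc 526, .negSucc 435, .ofNat 0, .ofNat 363, .ofNat 171, .ofNat 0, .ofNat 0, .ofNat 952, .ofNat 1434, .ofNat 0, .ofNat 0, .ofNat 0, .ofNat 0, .ofNat 0, .ofNat 0, .ofNat 0, .ofNat 0, .ofNat 0, .ofNat 1572162960044369510316051320851660800,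 .ofNat 23268663536477427984236544000, .ofNat 0, .ofNat 0, .ofNat 1067872453387608566363605481344204800, .ofNat 11613845540086270119641088000, .ofNat 0⟩)
    (by decide +kernel)
theorem L00317 : Good (Phi V4.P V4.D (-1) (-1)) ⟨5, 25, 4, 2, 1, 1, 1, 0, 3, 2⟩ :=
  out_sound (S := T4.ds_mm) T4.ok_mm (w := 64) (j := 3) (by decide +kernel)
theorem L00318 : Good (Phi V4.P V4.D (-1) (-1)) ⟨6, 50, 4, 3, 2, 2, 1, 0, 3, 2⟩ :=
  leaf_sound (S := T4.ds_mm) T4.ok_mm (w := 184) (c := ⟨⟨.negSucc 2065, .ofNat 100, .ofNat 461, .negSucc 19, .ofNat 486, .ofNat 365⟩, ⟨.ofNat 678, .negSucc 37, .negSucc 131, .negSucc 45, .negSucc 204, .negSucc 151⟩, ⟨.ofNat 1778, .negSucc 100, .negSucc 257, .negSucc 85, .negSucc 760, .negSucc 191⟩, ⟨.negSucc 3324, .ofNat 149, .ofNat 634, .negSucc 279, .ofNat 625, .ofNat 483⟩, ⟨.ofNat 217, .negSucc 89, .negSucc 325, .negSucc 716, .negSucc 513,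 .negSucc 349⟩, .ofNat 832, .ofNat 1189, .ofNat 0, .ofNat 1189, .ofNat 3454, .ofNat 0, .ofNat 398, .negSucc 461, .negSucc 515, .ofNat 0, .ofNat 285, .ofNat 208, .ofNat 0, .ofNat 0, .ofNat 973, .ofNat 4123, .ofNat 1405414067957779784828000124115353600, .ofNat 0, .ofNat 745266355665619220221132800, .ofNat 0, .ofNat 331386205324063888308888962387568230400, .ofNat 0, .ofNat 149858886613038994117833523200, .ofNat 0, .ofNat 204443769251332756096462983109017600000, .ofNat 0, .ofNat 345166526650043961281662156800, .ofNat 0, .ofNat 306553566491301706765695832092888268800, .ofNat 0, .ofNat 72687061926915960177111859200, .ofNat 0⟩)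
    (by decide +kernel)
theorem L00319 : Good (Phi V4.P V4.D (-1) (-1)) ⟨6, 50, 4, 3, 2, 3, 1, 0, 4, 4⟩ :=
  leaf_sound (S := T4.ds_mm) T4.ok_mm (w := 192) (c := ⟨⟨.negSucc 1984, .ofNat 317, .ofNat 193, .ofNat 72, .ofNat 554, .ofNat 296⟩, ⟨.ofNat 598, .negSucc 175, .negSucc 16, .negSucc 106, .negSucc 234, .negSucc 136⟩, ⟨.ofNat 986, .ofNat 486, .ofNat 556, .ofNat 387, .negSucc 1097, .negSucc 74⟩, ⟨.negSucc 3280, .ofNat 255, .ofNat 137, .negSucc 263, .ofNat 710, .ofNat 329⟩, ⟨.negSucc 131, .negSucc 805, .negSucc 392, .negSucc 1109, .negSucc 600, .negSucc 467⟩, .ofNat 828, .ofNat 1178, .ofNat 0, .ofNat 1178, .ofNat 3425, .ofNat 0, .ofNat 466, .negSucc 626, .negSucc 502, .ofNat 0, .ofNat 368, .ofNat 204, .ofNat 0, .ofNat 0, .ofNat 970, .ofNat 1797, .ofNat 0, .ofNat 0, .ofNat 29651955292582202959095398400, .ofNat 0, .ofNat 0, .ofNat 145709020995649471825262259667048857600,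 .ofNat 14126575064167745940023672832000, .ofNat 0, .ofNat 0, .ofNat 144664520400925475117973724427452416000, .ofNat 2409708854905255095743545344000, .ofNat 0, .ofNat 0, .ofNat 0, .ofNat 2896550054808840984920378572800, .ofNat 0⟩)
    (by decide +kernel)
theorem L00320 : Good (Phi V4.P V4.D (-1) (-1)) ⟨6, 50, 4, 3, 2, 3, 1, 0, 4, 5⟩ :=
  leaf_sound (S := T4.ds_mm) T4.ok_mm (w := 184) (c := ⟨⟨.negSucc 1369, .negSucc 37, .negSucc 85, .negSucc 2, .ofNat 549, .ofNat 185⟩, ⟨.ofNat 329, .ofNat 5, .ofNat 103, .negSucc 72, .negSucc 235, .negSucc 82⟩, ⟨.ofNat 1375, .ofNat 129, .ofNat 11, .ofNat 148, .negSucc 890, .negSucc 69⟩, ⟨.negSucc 2580, .negSucc 55, .negSucc 163, .negSucc 349, .ofNat 690, .ofNat 216⟩, ⟨.negSucc 1024, .ofNat 1, .ofNat 50, .negSucc 1005, .negSucc 633, .negSucc 260⟩, .ofNat 485, .ofNat 412, .ofNat 0, .ofNat 412, .ofNat 1393, .ofNat 0, .ofNat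 469, .negSucc 456, .negSucc 390, .ofNat 0, .ofNat 338, .ofNat 171, .ofNat 0, .ofNat 0, .ofNat 924, .ofNat 2112, .ofNat 0, .ofNat 0, .ofNat 0, .ofNat 0, .ofNat 0, .ofNat 0, .ofNat 0, .ofNat 0, .ofNat 0, .ofNat 737102388790674473994359575679493734400, .ofNat 0, .ofNat 0, .ofNat 0, .ofNat 699787995569683218210460346690096332800, .ofNat 0, .ofNat 0⟩)
    (by decide +kernel)
theorem L00321 : Good (Phi V4.P V4.D (-1) (-1)) ⟨6, 51, 4, 3, 1, 1, 1, 0, 3, 2⟩ :=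
  out_sound (S := T4.ds_mm) T4.ok_mm (w := 72) (j := 3) (by decide +kernel)
theorem L00322 : Good (Phi V4.P V4.D (-1) (-1)) ⟨4, 12, 3, 1, 1, 1, 1, 0, 3, 3⟩ :=
  leaf_sound (S := T4.ds_mm) T4.ok_mm (w := 160) (c := ⟨⟨.negSucc 1373, .negSucc 11, .ofNat 68, .ofNat 142, .ofNat 519, .ofNat 216⟩, ⟨.ofNat 321, .negSucc 47, .ofNat 108, .negSucc 157, .negSucc 190, .negSucc 77⟩, ⟨.ofNat 1458, .ofNat 20, .negSucc 70, .negSucc 200, .negSucc 853, .negSucc 148⟩, ⟨.negSucc 2411, .ofNat 5, .ofNat 44, .negSucc 274, .ofNat 755, .ofNat 326⟩, ⟨.negSucc 428, .negSucc 84, .negSucc 18, .negSucc 1597, .negSucc 365, .negSucc 117⟩, .ofNat 474, .ofNat 390, .ofNat 0, .ofNat 390, .ofNat 1453, .ofNat 0, .ofNat 393, .negSucc 298, .negSucc 352, .ofNat 0, .ofNat 246, .ofNat 133, .ofNat 0, .ofNat 0, .ofNat 871, .ofNat 1856, .ofNat 0, .ofNat 0, .ofNat 0, .ofNat 0, .ofNat 0, .ofNat 0, .ofNat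 0, .ofNat 0, .ofNat 0, .ofNat 590550218215133767156093471948800, .ofNat 952537577684048905450291200, .ofNat 0, .ofNat 0, .ofNat 855919878572339824175212186828800, .ofNat 0, .ofNat 0⟩)
    (by decide +kernel)
theorem L00323 : Good (Phi V4.P V4.D (-1) (-1)) ⟨4, 13, 3, 1, 1, 1, 1, 0, 2, 1⟩ :=
  out_sound (S := T4.ds_mm) T4.ok_mm (w := 56) (j := 3) (by decide +kernel)
theorem L00324 : Good (Phi V4.P V4.D (-1) (-1)) ⟨3, 7, 3, 1, 1, 1, 1, 0, 2, 1⟩ :=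
  out_sound (S := T4.ds_mm) T4.ok_mm (w := 48) (j := 3) (by decide +kernel)
theorem L00325 : Good (Phi V4.P V4.D (-1) (-1)) ⟨3, 4, 3, 0, 2, 2, 2, 2, 3, 0⟩ :=
  leaf_sound (S := T4.ds_mm) T4.ok_mm (w := 168) (c := ⟨⟨.negSucc 275, .negSucc 170, .ofNat 100, .negSucc 189, .negSucc 194, .negSucc 383⟩, ⟨.negSucc 14, .ofNat 39, .ofNat 89, .ofNat 7, .ofNat 9, .ofNat 16⟩, ⟨.negSucc 50, .ofNat 129, .negSucc 71, .ofNat 141, .ofNat 43, .ofNat 380⟩, ⟨.negSucc 676, .negSucc 216, .ofNat 140, .negSucc 407, .negSucc 410, .negSucc 808⟩, ⟨.negSucc 652, .negSucc 6, .ofNat 13, .negSucc 222, .negSucc 148, .ofNat 43⟩, .ofNat 518, .ofNat 266, .ofNat 0, .ofNat 266, .ofNat 6710, .ofNat 0, .ofNat 343, .negSucc 75, .negSucc 353, .ofNat 0, .ofNat 66, .ofNat 19, .ofNat 0, .ofNat 0, .ofNat 577, .ofNat 1599, .ofNat 0, .ofNat 0, .ofNat 0, .ofNat 0, .ofNat 0, .ofNat 0, .ofNat 0, .ofNat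 0, .ofNat 0, .ofNat 0, .ofNat 1414945574563320578845546905600, .ofNat 0, .ofNat 0, .ofNat 0, .ofNat 0, .ofNat 0⟩)
    (by decide +kernel)
theorem L00326 : Good (Phi V4.P V4.D (-1) (-1)) ⟨3, 5, 3, 0, 2, 2, 2, 2, 3, 0⟩ :=
  leaf_sound (S := T4.ds_mm) T4.ok_mm (w := 168) (c := ⟨⟨.negSucc 253, .negSucc 318, .ofNat 96, .negSucc 395, .negSucc 208, .negSucc 576⟩, ⟨.negSucc 54, .ofNat 49, .ofNat 107, .ofNat 56, .ofNat 19, .ofNat 102⟩, ⟨.negSucc 98, .ofNat 243, .negSucc 91, .ofNat 274, .ofNat 78, .ofNat 585⟩, ⟨.negSucc 626, .negSucc 413, .ofNat 111, .negSucc 755, .negSucc 417, .negSucc 1047⟩, ⟨.negSucc 689, .ofNat 47, .negSucc 33, .negSucc 183, .negSucc 176, .ofNat 92⟩, .ofNat 429, .ofNat 218, .ofNat 0, .ofNat 218, .ofNat 1629, .ofNat 0, .ofNat 365, .negSucc 152, .negSucc 552, .ofNat 0, .ofNat 149, .ofNat 109, .ofNat 0, .ofNat 0, .ofNat 699, .ofNat 810, .ofNat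 0, .ofNat 0, .ofNat 9771698666520587845553356800, .ofNat 0, .ofNat 0, .ofNat 0, .ofNat 0, .ofNat 0, .ofNat 0, .ofNat 0, .ofNat 0, .ofNat 0, .ofNat 0, .ofNat 0, .ofNat 1837285575149191179519236505600, .ofNat 0⟩)
    (by decide +kernel)
theorem L00327 : Good (Phi V4.P V4.D (-1) (-1)) ⟨3, 4, 3, 0, 2, 3, 2, 2, 3, 0⟩ :=
  leaf_sound (S := T4.ds_mm) T4.ok_mm (w := 168) (c := ⟨⟨.negSucc 261, .negSucc 238, .ofNat 110, .negSucc 145, .negSucc 266, .negSucc 695⟩, ⟨.negSucc 19, .ofNat 50, .ofNat 112, .ofNat 5, .ofNat 9, .ofNat 31⟩, ⟨.ofNat 18, .ofNat 154, .negSucc 57, .ofNat 81, .ofNat 80, .ofNat 486⟩, ⟨.negSucc 659, .negSucc 327, .ofNat 163, .negSucc 313, .negSucc 571, .negSucc 1469⟩, ⟨.negSucc 700, .ofNat 9, .negSucc 27, .ofNat 20, .negSucc 276, .negSucc 189⟩, .ofNat 448, .ofNat 86, .ofNat 0, .ofNat 86, .ofNat 2352, .ofNat 0, .ofNat 434, .negSucc 57, .negSucc 399,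 .ofNat 0, .ofNat 115, .ofNat 31, .ofNat 0, .ofNat 0, .ofNat 560, .ofNat 1306, .ofNat 0, .ofNat 0, .ofNat 0, .ofNat 0, .ofNat 0, .ofNat 0, .ofNat 1039116343070660462811021312000, .ofNat 0, .ofNat 0, .ofNat 0, .ofNat 0, .ofNat 0, .ofNat 0, .ofNat 0, .ofNat 0, .ofNat 0⟩)
    (by decide +kernel)
theorem L00328 : Good (Phi V4.P V4.D (-1) (-1)) ⟨4, 10, 3, 0, 2, 3, 2, 2, 3, 0⟩ :=
  leaf_sound (S := T4.ds_mm) T4.ok_mm (w := 176) (c := ⟨⟨.negSucc 380, .negSucc 230, .ofNat 96, .negSucc 217, .negSucc 271, .negSucc 954⟩, ⟨.negSucc 37, .ofNat 43, .ofNat 131, .ofNat 33, .ofNat 25, .ofNat 119⟩, ⟨.ofNat 127, .ofNat 119, .negSucc 36, .ofNat 99, .ofNat 79, .ofNat 639⟩, ⟨.negSucc 843, .negSucc 323, .ofNat 114, .negSucc 398, .negSucc 563, .negSucc 1846⟩, ⟨.negSucc 620, .negSucc 20, .ofNat 16, .ofNat 32, .negSucc 358, .negSucc 224⟩, .ofNat 522, .ofNat 482, .ofNat 0, .ofNat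 482, .ofNat 3941, .ofNat 0, .ofNat 408, .negSucc 231, .negSucc 497, .ofNat 0, .ofNat 116, .ofNat 75, .ofNat 0, .ofNat 0, .ofNat 601, .ofNat 1180, .ofNat 0, .ofNat 0, .ofNat 0, .ofNat 0, .ofNat 0, .ofNat 0, .ofNat 0, .ofNat 0, .ofNat 0, .ofNat 0, .ofNat 0, .ofNat 0, .ofNat 0, .ofNat 0, .ofNat 0, .ofNat 0⟩)
    (by decide +kernel)
theorem L00329 : Good (Phi V4.P V4.D (-1) (-1)) ⟨5, 22, 3, 0, 3, 6, 2, 2, 3, 0⟩ :=
  leaf_sound (S := T4.ds_mm) T4.ok_mm (w := 192) (c := ⟨⟨.negSucc 406, .negSucc 175, .ofNat 181, .negSucc 295, .negSucc 396, .negSucc 1083⟩, ⟨.negSucc 45, .ofNat 30, .ofNat 102, .ofNat 47, .ofNat 52, .ofNat 187⟩, ⟨.ofNat 56, .ofNat 110, .negSucc 111, .ofNat 178, .ofNat 217, .ofNat 825⟩, ⟨.negSucc 859, .negSucc 260, .ofNat 258, .negSucc 532, .negSucc 764, .negSucc 1968⟩, ⟨.negSucc 739, .ofNat 15, .negSucc 25, .ofNat 14, .negSucc 269, .negSucc 31⟩,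 .ofNat 510, .ofNat 427, .ofNat 0, .ofNat 427, .ofNat 2573, .ofNat 0, .ofNat 395, .negSucc 240, .negSucc 633, .ofNat 0, .ofNat 151, .ofNat 134, .ofNat 0, .ofNat 0, .ofNat 694, .ofNat 1421, .ofNat 0, .ofNat 0, .ofNat 0, .ofNat 0, .ofNat 0, .ofNat 0, .ofNat 0, .ofNat 0, .ofNat 0, .ofNat 0, .ofNat 0, .ofNat 0, .ofNat 0, .ofNat 0, .ofNat 0, .ofNat 0⟩)
    (by decide +kernel)
theorem L00330 : Good (Phi V4.P V4.D (-1) (-1)) ⟨5, 22, 3, 0, 3, 7, 2, 2, 3, 0⟩ :=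
  leaf_sound (S := T4.ds_mm) T4.ok_mm (w := 192) (c := ⟨⟨.negSucc 692, .negSucc 204, .ofNat 210, .negSucc 1, .negSucc 215, .negSucc 1247⟩, ⟨.ofNat 6, .ofNat 42, .ofNat 111, .ofNat 7, .ofNat 9, .ofNat 197⟩, ⟨.ofNat 313, .ofNat 148, .negSucc 104, .negSucc 2, .ofNat 26, .ofNat 759⟩, ⟨.negSucc 1333, .negSucc 286, .ofNat 310, .ofNat 9, .negSucc 481, .negSucc 2328⟩, ⟨.negSucc 492, .ofNat 84, .negSucc 32, .ofNat 106, .negSucc 493, .negSucc 370⟩, .ofNat 514, .ofNat 440, .ofNat 0, .ofNat 440, .ofNat 2613, .ofNat 0, .ofNat 435, .negSucc 281, .negSucc 588, .ofNat 0, .ofNat 159, .ofNat 123, .ofNat 0, .ofNat 0, .ofNat 625, .ofNat 1566, .ofNat 0, .ofNat 0, .ofNat 407700333943103541286954598400, .ofNat 0, .ofNat 0, .ofNat 0, .ofNat 36822646911808838311844039884800, .ofNat 0, .ofNat 0, .ofNat 0, .ofNat 0, .ofNat 0, .ofNat 0, .ofNat 0, .ofNat 0, .ofNat 0⟩)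
    (by decide +kernel)
theorem L00331 : Good (Phi V4.P V4.D (-1) (-1)) ⟨5, 23, 3, 0, 2, 3, 2, 2, 4, 0⟩ :=
  leaf_sound (S := T4.ds_mm) T4.ok_mm (w := 184) (c := ⟨⟨.negSucc 439, .negSucc 206, .ofNat 258, .negSucc 211, .negSucc 501, .negSucc 950⟩, ⟨.negSucc 79, .ofNat 49, .ofNat 82, .ofNat 65, .ofNat 81, .ofNat 216⟩, ⟨.ofNat 121, .ofNat 117, .negSucc 149, .ofNat 147, .ofNat 250, .ofNat 625⟩, ⟨.negSucc 890, .negSucc 302, .ofNat 386, .negSucc 326, .negSucc 961, .negSucc 1676⟩, ⟨.negSucc 626, .ofNat 18, .negSucc 46, .ofNat 187, .negSucc 379, .negSucc 70⟩, .ofNat 528, .ofNat 480, .ofNat 0, .ofNat 480, .ofNat 2233, .ofNat 0, .ofNat 414, .negSucc 305, .negSucc 715, .ofNat 0, .ofNat 181, .ofNat 185, .ofNat 0, .ofNat 0, .ofNat 707, .ofNat 1424, .ofNat 0, .ofNat 0, .ofNat 27808859602503040148648755200, .ofNat 0, .ofNat 0, .ofNat 0, .ofNat 3589629868591809071338959667200,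 .ofNat 0, .ofNat 0, .ofNat 0, .ofNat 4948443927084714106698281779200, .ofNat 0, .ofNat 0, .ofNat 0, .ofNat 0, .ofNat 0⟩)
    (by decide +kernel)
theorem L00332 : Good (Phi V4.P V4.D (-1) (-1)) ⟨5, 23, 3, 0, 2, 3, 2, 2, 4, 1⟩ :=
  leaf_sound (S := T4.ds_mm) T4.ok_mm (w := 184) (c := ⟨⟨.negSucc 1481, .negSucc 233, .ofNat 108, .negSucc 349, .negSucc 42, .negSucc 207⟩, ⟨.ofNat 136, .ofNat 67, .ofNat 159, .ofNat 67, .negSucc 32, .ofNat 29⟩, ⟨.ofNat 877, .ofNat 139, .negSucc 24, .ofNat 81, .negSucc 75, .ofNat 141⟩, ⟨.negSucc 2697, .negSucc 310, .ofNat 129, .negSucc 631, .negSucc 185, .negSucc 403⟩, ⟨.negSucc 548, .ofNat 34, .ofNat 25, .negSucc 81, .negSucc 484, .negSucc 170⟩, .ofNat 570, .ofNat 593, .ofNat 0, .ofNat 593, .ofNat 2690, .ofNat 0, .ofNat 395, .negSucc 314, .negSucc 696, .ofNat 0, .ofNat 179, .ofNat 184, .ofNat 0, .ofNat 0, .ofNat 696, .ofNat 2023,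 .ofNat 0, .ofNat 0, .ofNat 45502563851469766823981875200, .ofNat 0, .ofNat 0, .ofNat 0, .ofNat 3301915639250295392534160998400, .ofNat 0, .ofNat 0, .ofNat 0, .ofNat 5301805981984849292052293222400, .ofNat 0, .ofNat 0, .ofNat 0, .ofNat 1764217951747470178812061286400, .ofNat 0⟩)
    (by decide +kernel)
theorem L00333 : Good (Phi V4.P V4.D (-1) (-1)) ⟨2, 3, 3, 0, 1, 1, 2, 2, 3, 0⟩ :=
  out_sound (S := T4.ds_mm) T4.ok_mm (w := 40) (j := 3) (by decide +kernel)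
theorem L00334 : Good (Phi V4.P V4.D (-1) (-1)) ⟨3, 4, 3, 0, 2, 2, 2, 2, 3, 1⟩ :=
  leaf_sound (S := T4.ds_mm) T4.ok_mm (w := 168) (c := ⟨⟨.negSucc 729, .negSucc 206, .ofNat 57, .negSucc 292, .ofNat 106, .ofNat 47⟩, ⟨.negSucc 1, .ofNat 55, .ofNat 102, .ofNat 10, .negSucc 4, .negSucc 1⟩, ⟨.ofNat 399, .ofNat 178, .negSucc 52, .ofNat 175, .negSucc 197, .ofNat 10⟩, ⟨.negSucc 1650, .negSucc 246, .ofNat 46, .negSucc 632, .ofNat 215, .ofNat 96⟩, ⟨.negSucc 546, .negSucc 9, .negSucc 44, .negSucc 399, .negSucc 133, .negSucc 102⟩, .ofNat 449, .ofNat 82, .ofNat 0, .ofNat 82, .ofNat 2369, .ofNat 0, .ofNat 322, .negSucc 42, .negSucc 292, .ofNat 0, .ofNat 97, .ofNat 22, .ofNat 0, .ofNat 0, .ofNat 520, .ofNat 3026, .ofNat 0, .ofNat 0, .ofNat 0, .ofNat 0, .ofNat 0, .ofNat 0, .ofNat 0, .ofNat 0, .ofNat 0, .ofNat 0, .ofNat 1814814085717039498483728384000, .ofNat 0, .ofNat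 0, .ofNat 0, .ofNat 0, .ofNat 0⟩)
    (by decide +kernel)
theorem L00335 : Good (Phi V4.P V4.D (-1) (-1)) ⟨3, 5, 3, 0, 2, 2, 2, 2, 3, 1⟩ :=
  leaf_sound (S := T4.ds_mm) T4.ok_mm (w := 168) (c := ⟨⟨.negSucc 950, .negSucc 354, .ofNat 124, .negSucc 366, .ofNat 117, .ofNat 138⟩, ⟨.ofNat 56, .ofNat 71, .ofNat 113, .ofNat 35, .negSucc 29, .negSucc 28⟩, ⟨.ofNat 601, .ofNat 300, .negSucc 112, .ofNat 197, .negSucc 206, .negSucc 53⟩, ⟨.negSucc 1897, .negSucc 441, .ofNat 156, .negSucc 748, .ofNat 189, .ofNat 226⟩, ⟨.negSucc 490, .ofNat 30, .negSucc 40, .negSucc 419, .negSucc 196, .negSucc 192⟩, .ofNat 429, .ofNat 216, .ofNat 0, .ofNat 216, .ofNat 1662, .ofNat 0, .ofNat 330, .negSucc 137, .negSucc 406, .ofNat 0, .ofNat 135, .ofNat 79, .ofNat 0, .ofNat 0, .ofNat 586, .ofNat 889, .ofNat 0, .ofNat 0, .ofNat 0, .ofNat 0, .ofNat 0, .ofNat 0, .ofNat 0, .ofNat 0, .ofNat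 0, .ofNat 0, .ofNat 2319710893794912473804124979200, .ofNat 0, .ofNat 0, .ofNat 0, .ofNat 0, .ofNat 0⟩)
    (by decide +kernel)
theorem L00336 : Good (Phi V4.P V4.D (-1) (-1)) ⟨3, 4, 3, 0, 2, 3, 2, 2, 4, 2⟩ :=
  leaf_sound (S := T4.ds_mm) T4.ok_mm (w := 176) (c := ⟨⟨.negSucc 1031, .negSucc 268, .ofNat 132, .negSucc 235, .ofNat 95, .ofNat 6⟩, ⟨.ofNat 3, .ofNat 67, .ofNat 146, .ofNat 7, .negSucc 7, .negSucc 3⟩, ⟨.ofNat 610, .ofNat 166, .negSucc 75, .ofNat 42, .negSucc 179, .ofNat 4⟩, ⟨.negSucc 2314, .negSucc 320, .ofNat 171, .negSucc 513, .ofNat 184, .ofNat 2⟩, ⟨.negSucc 700, .negSucc 74, .negSucc 60, .negSucc 291, .negSucc 295, .negSucc 223⟩, .ofNat 448, .ofNat 88, .ofNat 0, .ofNat 88, .ofNat 2343, .ofNat 0, .ofNat 408, .negSucc 66, .negSucc 327, .ofNat 0, .ofNat 111, .ofNat 28, .ofNat 0, .ofNat 0, .ofNat 521, .ofNat 3679, .ofNat 0, .ofNat 0, .ofNat 0,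 .ofNat 0, .ofNat 0, .ofNat 0, .ofNat 0, .ofNat 0, .ofNat 0, .ofNat 0, .ofNat 0, .ofNat 0, .ofNat 0, .ofNat 0, .ofNat 0, .ofNat 0⟩)
    (by decide +kernel)
theorem L00337 : Good (Phi V4.P V4.D (-1) (-1)) ⟨3, 5, 3, 0, 2, 3, 2, 2, 4, 2⟩ :=
  leaf_sound (S := T4.ds_mm) T4.ok_mm (w := 176) (c := ⟨⟨.negSucc 1495, .negSucc 525, .ofNat 148, .negSucc 219, .ofNat 213, .ofNat 209⟩, ⟨.ofNat 121, .ofNat 101, .ofNat 159, .ofNat 11, .negSucc 66, .negSucc 51⟩, ⟨.ofNat 943, .ofNat 335, .negSucc 85, .negSucc 20, .negSucc 271, .negSucc 132⟩, ⟨.negSucc 2933, .negSucc 679, .ofNat 181, .negSucc 467, .ofNat 310, .ofNat 332⟩, ⟨.negSucc 594, .ofNat 26, .negSucc 67, .negSucc 336, .negSucc 463, .negSucc 327⟩, .ofNat 427, .ofNat 219, .ofNat 0, .ofNat 219, .ofNat 1543, .ofNat 0, .ofNat 415, .negSucc 208, .negSucc 505, .ofNat 0, .ofNat 165, .ofNat 109, .ofNat 0, .ofNat 0, .ofNat 601,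 .ofNat 1022, .ofNat 0, .ofNat 0, .ofNat 141825447721024521503558860800, .ofNat 0, .ofNat 0, .ofNat 0, .ofNat 0, .ofNat 0, .ofNat 0, .ofNat 0, .ofNat 0, .ofNat 0, .ofNat 0, .ofNat 0, .ofNat 0, .ofNat 0⟩)
    (by decide +kernel)
theorem L00338 : Good (Phi V4.P V4.D (-1) (-1)) ⟨2, 2, 3, 0, 2, 3, 2, 2, 4, 3⟩ :=
  leaf_sound (S := T4.ds_mm) T4.ok_mm (w := 168) (c := ⟨⟨.negSucc 1229, .negSucc 453, .ofNat 176, .negSucc 142, .ofNat 282, .ofNat 224⟩, ⟨.ofNat 71, .ofNat 55, .ofNat 130, .negSucc 9, .negSucc 52, .negSucc 42⟩, ⟨.ofNat 756, .ofNat 291, .negSucc 107, .negSucc 14, .negSucc 336, .negSucc 131⟩, ⟨.negSucc 2622, .negSucc 508, .ofNat 187, .negSucc 365, .ofNat 497, .ofNat 396⟩, ⟨.negSucc 693, .negSucc 241, .negSucc 83, .negSucc 584, .negSucc 340, .negSucc 308⟩, .ofNat 321, .ofNat 51, .ofNat 0, .ofNat 51, .ofNat 762, .ofNat 0, .ofNat 420, .negSucc 100, .negSucc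 395, .ofNat 0, .ofNat 189, .ofNat 77, .ofNat 0, .ofNat 0, .ofNat 547, .ofNat 1489, .ofNat 0, .ofNat 0, .ofNat 0, .ofNat 0, .ofNat 0, .ofNat 0, .ofNat 0, .ofNat 0, .ofNat 0, .ofNat 287270948870934182314721987788800, .ofNat 33428408775072720750579076300800, .ofNat 0, .ofNat 0, .ofNat 79633357821353234206346025369600, .ofNat 50733111650467960191344600678400, .ofNat 0⟩)
    (by decide +kernel)
theorem L00339 : Good (Phi V4.P V4.D (-1) (-1)) ⟨2, 3, 3, 0, 1, 1, 2, 2, 3, 1⟩ :=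
  out_sound (S := T4.ds_mm) T4.ok_mm (w := 40) (j := 3) (by decide +kernel)
theorem L00340 : Good (Phi V4.P V4.D (-1) (-1)) ⟨3, 4, 3, 0, 2, 2, 2, 3, 3, 0⟩ :=
  leaf_sound (S := T4.ds_mm) T4.ok_mm (w := 168) (c := ⟨⟨.negSucc 540, .negSucc 239, .ofNat 205, .negSucc 291, .negSucc 128, .negSucc 59⟩, ⟨.negSucc 9, .ofNat 52, .ofNat 91, .ofNat 10, .ofNat 6, .ofNat 4⟩, ⟨.ofNat 28, .ofNat 191, .negSucc 157, .ofNat 246, .ofNat 45, .ofNat 126⟩, ⟨.negSucc 1258, .negSucc 327, .ofNat 331, .negSucc 624, .negSucc 270, .negSucc 121⟩, ⟨.negSucc 767, .negSucc 31, .negSucc 55, .negSucc 274, .negSucc 44, .ofNat 58⟩, .ofNat 448, .ofNat 83, .ofNat 0, .ofNat 83, .ofNat 2364, .ofNat 0, .ofNat 384, .negSucc 42, .negSucc 444, .ofNat 0, .ofNat 115, .ofNat 26, .ofNat 0, .ofNat 0, .ofNat 636, .ofNat 1835, .ofNat 0, .ofNat 0, .ofNat 0, .ofNat 0, .ofNat 0, .ofNat 0, .ofNat 0, .ofNat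 0, .ofNat 0, .ofNat 0, .ofNat 0, .ofNat 0, .ofNat 0, .ofNat 1872986438974171958243140357324800, .ofNat 310814608420896342677441740800, .ofNat 0⟩)
    (by decide +kernel)
theorem L00341 : Good (Phi V4.P V4.D (-1) (-1)) ⟨3, 4, 3, 0, 2, 3, 2, 3, 3, 0⟩ :=
  leaf_sound (S := T4.ds_mm) T4.ok_mm (w := 168) (c := ⟨⟨.negSucc 759, .negSucc 288, .ofNat 244, .negSucc 63, .negSucc 146, .negSucc 246⟩, ⟨.negSucc 3, .ofNat 62, .ofNat 141, .ofNat 1, .ofNat 3, .ofNat 6⟩, ⟨.ofNat 317, .ofNat 180, .negSucc 133, .negSucc 12, .ofNat 49, .ofNat 115⟩, ⟨.negSucc 1727, .negSucc 387, .ofNat 417, .negSucc 143, .negSucc 320, .negSucc 538⟩, ⟨.negSucc 841, .negSucc 129, .ofNat 17, .negSucc 51, .negSucc 110, .negSucc 266⟩, .ofNat 519, .ofNat 249, .ofNat 0, .ofNat 249, .ofNat 6781, .ofNat 0, .ofNat 453, .negSucc 86, .negSucc 408, .ofNat 0, .ofNat 76, .ofNat 21, .ofNat 0, .ofNat 0, .ofNat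 564, .ofNat 1428, .ofNat 0, .ofNat 20898465480269583836978243174400, .ofNat 5127367625581514100572160000, .ofNat 0, .ofNat 0, .ofNat 0, .ofNat 0, .ofNat 0, .ofNat 0, .ofNat 0, .ofNat 2022805130026086868987360051200, .ofNat 0, .ofNat 0, .ofNat 1185580514326438501102669057228800, .ofNat 299167061823464732521345843200, .ofNat 0⟩)
    (by decide +kernel)
theorem L00342 : Good (Phi V4.P V4.D (-1) (-1)) ⟨3, 4, 3, 0, 1, 1, 2, 3, 3, 1⟩ :=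
  leaf_sound (S := T4.ds_mm) T4.ok_mm (w := 160) (c := ⟨⟨.negSucc 720, .negSucc 185, .ofNat 81, .negSucc 569, .ofNat 205, .ofNat 228⟩, ⟨.negSucc 0, .ofNat 45, .ofNat 110, .ofNat 18, .negSucc 4, .negSucc 9⟩, ⟨.ofNat 297, .ofNat 144, .negSucc 75, .ofNat 276, .negSucc 229, .negSucc 138⟩, ⟨.negSucc 1619, .negSucc 227, .ofNat 68, .negSucc 1242, .ofNat 434, .ofNat 476⟩, ⟨.negSucc 606, .negSucc 127, .ofNat 37, .negSucc 889, .ofNat 24, .negSucc 98⟩, .ofNat 449, .ofNat 85, .ofNat 0, .ofNat 85, .ofNat 2381, .ofNat 0, .ofNat 369, .negSucc 45, .negSucc 354, .ofNat 0, .ofNat 107, .ofNat 22, .ofNat 0, .ofNat 0, .ofNat 543, .ofNat 933, .ofNat 0, .ofNat 0, .ofNat 0, .ofNat 0, .ofNat 0, .ofNat 22317541150546948582673901158400, .ofNat 0, .ofNat 0, .ofNat 0, .ofNat 0, .ofNat 0, .ofNat 0, .ofNat 0, .ofNat 31057646790324255206000925081600, .ofNat 0, .ofNat 0⟩)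
    (by decide +kernel)

end Crest.Agent.R097C4.N4mm
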