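import Crest.Agent.R097.T4

/-!
# Row 97, box cover in dimension n = 4 (generated)
-/

set_option autoImplicit false
set_option Elab.async false
set_option maxHeartbeats 0
set_option maxRecDepth 100000

open Crest.Agent.R097 Crest.Agent.R097.KA


namespace Crest.Agent.R097C4.N4mm

theorem L00343 : Good (Phi V4.P V4.D (-1) (-1)) ⟨3, 5, 3, 0, 2, 2, 2, 3, 3, 0⟩ :=
  leaf_sound (S := T4.ds_mm) T4.ok_mm (w := 168) (c := ⟨⟨.negSucc 693, .negSucc 453, .ofNat 143, .negSucc 406, .negSucc 197, .ofNat 5⟩, ⟨.ofNat 9, .ofNat 69, .ofNat 115, .ofNat 52, .ofNat 23, .negSucc 6⟩, ⟨.ofNat 175, .ofNat 369, .negSucc 122, .ofNat 300, .ofNat 106, .ofNat 57⟩, ⟨.negSucc 1442, .negSucc 639, .ofNat 184, .negSucc 800, .negSucc 392, .negSucc 2⟩, ⟨.negSucc 710, .negSucc 14, .negSucc 18, .negSucc 313, .negSucc 158, .negSucc 13⟩, .ofNat 429, .ofNat 225, .ofNat 0, .ofNat 225, .ofNat 1600,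 .ofNat 0, .ofNat 395, .negSucc 159, .negSucc 653, .ofNat 0, .ofNat 163, .ofNat 120, .ofNat 0, .ofNat 0, .ofNat 761, .ofNat 974, .ofNat 0, .ofNat 0, .ofNat 0, .ofNat 0, .ofNat 0, .ofNat 0, .ofNat 0, .ofNat 0, .ofNat 0, .ofNat 0, .ofNat 0, .ofNat 0, .ofNat 0, .ofNat 0, .ofNat 1554337072439378107218631065600, .ofNat 0⟩)
    (by decide +kernel)
theorem L00344 : Good (Phi V4.P V4.D (-1) (-1)) ⟨4, 10, 3, 0, 2, 3, 2, 3, 3, 0⟩ :=
  leaf_sound (S := T4.ds_mm) T4.ok_mm (w := 176) (c := ⟨⟨.negSucc 1087, .negSucc 231, .ofNat 247, .negSucc 62, .negSucc 121, .negSucc 291⟩, ⟨.ofNat 45, .ofNat 37, .ofNat 124, .ofNat 6, .ofNat 5, .ofNat 31⟩, ⟨.ofNat 553, .ofNat 145, .negSucc 167, .negSucc 50, .ofNat 26, .ofNat 144⟩, ⟨.negSucc 2203, .negSucc 325, .ofNat 374, .negSucc 140, .negSucc 262, .negSucc 596⟩, ⟨.negSucc 800, .negSucc 80, .ofNat 4, .negSucc 148, .negSucc 254, .negSucc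 313⟩, .ofNat 516, .ofNat 451, .ofNat 0, .ofNat 451, .ofNat 3745, .ofNat 0, .ofNat 436, .negSucc 213, .negSucc 556, .ofNat 0, .ofNat 123, .ofNat 81, .ofNat 0, .ofNat 0, .ofNat 640, .ofNat 1221, .ofNat 0, .ofNat 0, .ofNat 0, .ofNat 0, .ofNat 0, .ofNat 0, .ofNat 0, .ofNat 0, .ofNat 0, .ofNat 0, .ofNat 0, .ofNat 0, .ofNat 0, .ofNat 7212410695515755635387067164262400, .ofNat 0, .ofNat 0⟩)
    (by decide +kernel)
theorem L00345 : Good (Phi V4.P V4.D (-1) (-1)) ⟨4, 11, 3, 0, 3, 6, 2, 3, 3, 0⟩ :=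
  leaf_sound (S := T4.ds_mm) T4.ok_mm (w := 184) (c := ⟨⟨.negSucc 1388, .negSucc 287, .ofNat 209, .negSucc 153, .negSucc 132, .negSucc 112⟩, ⟨.ofNat 83, .ofNat 54, .ofNat 143, .ofNat 25, .ofNat 6, .ofNat 10⟩, ⟨.ofNat 745, .ofNat 182, .negSucc 142, .ofNat 45, .ofNat 42, .ofNat 56⟩, ⟨.negSucc 2651, .negSucc 386, .ofNat 288, .negSucc 296, .negSucc 295, .negSucc 240⟩, ⟨.negSucc 846, .negSucc 37, .negSucc 9, .negSucc 120, .negSucc 311, .negSucc 226⟩, .ofNat 430, .ofNat 248, .ofNat 0, .ofNat 248, .ofNat 1452, .ofNat 0, .ofNat 445, .negSucc 212, .negSucc 778, .ofNat 0, .ofNat 186, .ofNat 171, .ofNat 0, .ofNat 0, .ofNat 784, .ofNat 1087, .ofNat 0, .ofNat 0, .ofNat 1593438607428432994538776166400, .ofNat 0, .ofNat 0, .ofNat 0, .ofNat 0, .ofNat 0, .ofNat 0, .ofNat 0, .ofNat 0, .ofNat 0, .ofNat 0, .ofNat 0, .ofNat 65612371545864734043819265228800, .ofNat 0⟩)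
    (by decide +kernel)
theorem L00346 : Good (Phi V4.P V4.D (-1) (-1)) ⟨4, 11, 3, 0, 3, 7, 2, 3, 4, 0⟩ :=
  leaf_sound (S := T4.ds_mm) T4.ok_mm (w := 192) (c := ⟨⟨.negSucc 1222, .negSucc 401, .ofNat 195, .ofNat 199, .negSucc 239, .negSucc 422⟩, ⟨.ofNat 59, .ofNat 69, .ofNat 150, .negSucc 38, .ofNat 14, .ofNat 74⟩, ⟨.ofNat 601, .ofNat 230, .negSucc 84, .negSucc 185, .ofNat 89, .ofNat 216⟩, ⟨.negSucc 2363, .negSucc 598, .ofNat 279, .ofNat 356, .negSucc 506, .negSucc 779⟩, ⟨.negSucc 921, .negSucc 89, .ofNat 88, .ofNat 20, .negSucc 374, .negSucc 166⟩, .ofNat 427, .ofNat 241, .ofNat 0, .ofNat 241, .ofNat 1397, .ofNat 0, .ofNat 514, .negSucc 218, .negSucc 759, .ofNat 0, .ofNat 195, .ofNat 170, .ofNat 0, .ofNat 0, .ofNat 725, .ofNat 1415, .ofNat 0, .ofNat 0, .ofNat 23140620845877564160855769088000, .ofNat 0, .ofNat 0, .ofNat 0, .ofNat 0, .ofNat 0, .ofNat 0, .ofNat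 0, .ofNat 0, .ofNat 0, .ofNat 0, .ofNat 0, .ofNat 0, .ofNat 0⟩)
    (by decide +kernel)
theorem L00347 : Good (Phi V4.P V4.D (-1) (-1)) ⟨4, 11, 3, 0, 3, 7, 2, 3, 4, 1⟩ :=
  leaf_sound (S := T4.ds_mm) T4.ok_mm (w := 192) (c := ⟨⟨.negSucc 1873, .negSucc 313, .ofNat 205, .ofNat 78, .ofNat 230, .ofNat 134⟩, ⟨.ofNat 168, .ofNat 48, .ofNat 163, .negSucc 20, .negSucc 77, .negSucc 47⟩, ⟨.ofNat 1012, .ofNat 173, .negSucc 109, .negSucc 146, .negSucc 253, .negSucc 129⟩, ⟨.negSucc 3535, .negSucc 430, .ofNat 274, .ofNat 121, .ofNat 330, .ofNat 182⟩, ⟨.negSucc 990, .negSucc 52, .ofNat 22, .negSucc 102, .negSucc 407, .negSucc 277⟩, .ofNat 515, .ofNat 441, .ofNat 0, .ofNat 441, .ofNat 2410, .ofNat 0, .ofNat 464, .negSucc 282, .negSucc 688, .ofNat 0, .ofNat 173, .ofNat 152, .ofNat 0, .ofNat 0, .ofNat 681, .ofNat 1005, .ofNat 0, .ofNat 0, .ofNat 20513313328347959085245870899200,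 .ofNat 0, .ofNat 0, .ofNat 0, .ofNat 0, .ofNat 0, .ofNat 0, .ofNat 7561612320167123876364151294210867200, .ofNat 0, .ofNat 0, .ofNat 0, .ofNat 0, .ofNat 0, .ofNat 0⟩)
    (by decide +kernel)
theorem L00348 : Good (Phi V4.P V4.D (-1) (-1)) ⟨3, 5, 3, 0, 2, 2, 2, 3, 3, 1⟩ :=
  leaf_sound (S := T4.ds_mm) T4.ok_mm (w := 168) (c := ⟨⟨.negSucc 1036, .negSucc 189, .ofNat 133, .negSucc 315, .ofNat 379, .ofNat 442⟩, ⟨.ofNat 85, .negSucc 1, .ofNat 98, .ofNat 23, .negSucc 62, .negSucc 78⟩, ⟨.ofNat 558, .ofNat 149, .negSucc 123, .ofNat 180, .negSucc 390, .negSucc 307⟩, ⟨.negSucc 2026, .negSucc 237, .ofNat 164, .negSucc 680, .ofNat 694, .ofNat 787⟩, ⟨.negSucc 572, .negSucc 90, .negSucc 29, .negSucc 598, .negSucc 59, .negSucc 154⟩, .ofNat 429, .ofNat 223, .ofNat 0, .ofNat 223, .ofNat 1604, .ofNat 0, .ofNat 349, .negSucc 144, .negSucc 486, .ofNat 0, .ofNat 146, .ofNat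 86, .ofNat 0, .ofNat 0, .ofNat 623, .ofNat 818, .ofNat 0, .ofNat 0, .ofNat 0, .ofNat 0, .ofNat 0, .ofNat 2540009317895867756167351920230400, .ofNat 0, .ofNat 0, .ofNat 0, .ofNat 391999122757048942727323346534400, .ofNat 0, .ofNat 0, .ofNat 0, .ofNat 1669967076847079046936039889305600, .ofNat 0, .ofNat 0⟩)
    (by decide +kernel)
theorem L00349 : Good (Phi V4.P V4.D (-1) (-1)) ⟨4, 10, 3, 0, 2, 3, 2, 3, 3, 1⟩ :=
  leaf_sound (S := T4.ds_mm) T4.ok_mm (w := 176) (c := ⟨⟨.negSucc 1424, .negSucc 159, .ofNat 192, .negSucc 167, .ofNat 322, .ofNat 558⟩, ⟨.ofNat 92, .ofNat 5, .ofNat 137, .ofNat 7, .negSucc 47, .negSucc 87⟩, ⟨.ofNat 776, .ofNat 87, .negSucc 115, .negSucc 46, .negSucc 313, .negSucc 386⟩, ⟨.negSucc 2847, .negSucc 215, .ofNat 234, .negSucc 379, .ofNat 584, .ofNat 1002⟩, ⟨.negSucc 976, .negSucc 78, .negSucc 24, .negSucc 497, .negSucc 227, .negSucc 469⟩,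 .ofNat 431, .ofNat 199, .ofNat 0, .ofNat 199, .ofNat 1843, .ofNat 0, .ofNat 853, .negSucc 321, .negSucc 940, .ofNat 0, .ofNat 287, .ofNat 146, .ofNat 0, .ofNat 0, .ofNat 1168, .ofNat 1672, .ofNat 0, .ofNat 0, .ofNat 0, .ofNat 0, .ofNat 0, .ofNat 311259975233584632922481128950988800, .ofNat 0, .ofNat 0, .ofNat 0, .ofNat 190107044703054634040833648833331200, .ofNat 0, .ofNat 0, .ofNat 0, .ofNat 273000202376902076411297331255705600, .ofNat 0, .ofNat 0⟩)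
    (by decide +kernel)
theorem L00350 : Good (Phi V4.P V4.D (-1) (-1)) ⟨4, 11, 3, 0, 2, 3, 2, 3, 3, 1⟩ :=
  leaf_sound (S := T4.ds_mm) T4.ok_mm (w := 176) (c := ⟨⟨.negSucc 1775, .negSucc 86, .ofNat 209, .negSucc 100, .ofNat 497, .ofNat 873⟩, ⟨.ofNat 183, .negSucc 32, .ofNat 141, .negSucc 23, .negSucc 127, .negSucc 229⟩, ⟨.ofNat 1013, .ofNat 25, .negSucc 127, .negSucc 102, .negSucc 453, .negSucc 612⟩, ⟨.negSucc 3307, .negSucc 85, .ofNat 258, .negSucc 299, .ofNat 803, .ofNat 1419⟩, ⟨.negSucc 941, .negSucc 63, .negSucc 16, .negSucc 592, .negSucc 364, .negSucc 610⟩, .ofNat 429, .ofNat 244, .ofNat 0, .ofNat 244, .ofNat 1445, .ofNat 0, .ofNat 423, .negSucc 226, .negSucc 578, .ofNat 0, .ofNat 179, .ofNat 133, .ofNat 0, .ofNat 0, .ofNat 635, .ofNat 909, .ofNat 0, .ofNat 0, .ofNat 0, .ofNat 0, .ofNat 0, .ofNat 66503651832340195619802774188851200, .ofNat 0, .ofNat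 0, .ofNat 0, .ofNat 49720560797906548254123938021376000, .ofNat 0, .ofNat 0, .ofNat 0, .ofNat 52168342251477999529561226320281600, .ofNat 311993855860012312244414054400, .ofNat 0⟩)
    (by decide +kernel)
theorem L00351 : Good (Phi V4.P V4.D (-1) (-1)) ⟨2, 3, 3, 0, 1, 1, 2, 3, 2, 0⟩ :=
  out_sound (S := T4.ds_mm) T4.ok_mm (w := 40) (j := 3) (by decide +kernel)
theorem L00352 : Good (Phi V4.P V4.D (-1) (-1)) ⟨3, 4, 3, 1, 1, 1, 1, 1, 3, 0⟩ :=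
  out_sound (S := T4.ds_mm) T4.ok_mm (w := 48) (j := 3) (by decide +kernel)
theorem L00353 : Good (Phi V4.P V4.D (-1) (-1)) ⟨3, 5, 3, 1, 2, 2, 2, 2, 3, 0⟩ :=
  leaf_sound (S := T4.ds_mm) T4.ok_mm (w := 168) (c := ⟨⟨.ofNat 45, .negSucc 513, .ofNat 186, .negSucc 370, .negSucc 212, .negSucc 694⟩, ⟨.negSucc 53, .ofNat 94, .ofNat 77, .ofNat 87, .ofNat 46, .ofNat 175⟩, ⟨.negSucc 320, .ofNat 360, .negSucc 132, .ofNat 262, .ofNat 82, .ofNat 666⟩, ⟨.negSucc 208, .negSucc 742, .ofNat 260, .negSucc 694, .negSucc 419, .negSucc 1206⟩, ⟨.negSucc 717, .ofNat 35, .negSucc 22, .negSucc 187, .negSucc 182, .ofNat 89⟩, .ofNat 612, .ofNat 769, .ofNat 0, .ofNat 769, .ofNat 3264, .ofNat 0, .ofNat 295, .negSucc 273, .negSucc 610, .ofNat 0, .ofNat 144, .ofNat 166, .ofNat 0, .ofNat 0, .ofNat 730, .ofNat 1075, .ofNat 0, .ofNat 0, .ofNat 25786098964250032911836774400, .ofNat 0, .ofNat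 0, .ofNat 0, .ofNat 0, .ofNat 0, .ofNat 0, .ofNat 0, .ofNat 1952629638188968018101613363200, .ofNat 0, .ofNat 0, .ofNat 0, .ofNat 0, .ofNat 0⟩)
    (by decide +kernel)
theorem L00354 : Good (Phi V4.P V4.D (-1) (-1)) ⟨3, 5, 3, 1, 2, 2, 2, 3, 3, 0⟩ :=
  leaf_sound (S := T4.ds_mm) T4.ok_mm (w := 168) (c := ⟨⟨.negSucc 536, .negSucc 516, .ofNat 172, .negSucc 428, .negSucc 126, .ofNat 62⟩, ⟨.ofNat 88, .ofNat 97, .ofNat 99, .ofNat 86, .ofNat 23, .negSucc 15⟩, ⟨.ofNat 42, .ofNat 405, .negSucc 139, .ofNat 323, .ofNat 49, .ofNat 15⟩, ⟨.negSucc 1250, .negSucc 730, .ofNat 214, .negSucc 844, .negSucc 261, .ofNat 106⟩, ⟨.negSucc 706, .negSucc 50, .negSucc 43, .negSucc 330, .negSucc 140, .negSucc 1⟩, .ofNat 607, .ofNat 770, .ofNat 0, .ofNat 770, .ofNat 3423, .ofNat 0, .ofNat 321, .negSucc 276, .negSucc 682, .ofNat 0, .ofNat 147, .ofNat 168, .ofNat 0, .ofNat 0, .ofNat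 785, .ofNat 494, .ofNat 0, .ofNat 0, .ofNat 10786492053042747636134707200, .ofNat 0, .ofNat 0, .ofNat 0, .ofNat 0, .ofNat 0, .ofNat 0, .ofNat 0, .ofNat 0, .ofNat 0, .ofNat 0, .ofNat 0, .ofNat 0, .ofNat 0⟩)
    (by decide +kernel)
theorem L00355 : Good (Phi V4.P V4.D (-1) (-1)) ⟨4, 10, 4, 2, 2, 3, 1, 1, 3, 0⟩ :=
  leaf_sound (S := T4.ds_mm) T4.ok_mm (w := 176) (c := ⟨⟨.negSucc 701, .ofNat 0, .ofNat 902, .negSucc 261, .negSucc 239, .negSucc 600⟩, ⟨.ofNat 126, .ofNat 0, .negSucc 157, .ofNat 53, .ofNat 31, .ofNat 114⟩, ⟨.ofNat 357, .ofNat 0, .negSucc 762, .ofNat 127, .negSucc 10, .ofNat 374⟩, ⟨.negSucc 1406, .ofNat 0, .ofNat 1614, .negSucc 482, .negSucc 573, .negSucc 1164⟩, ⟨.negSucc 571, .ofNat 0, .negSucc 155, .negSucc 7, .negSucc 653, .negSucc 289⟩, .ofNat 848, .ofNat 1863, .ofNat 0, .ofNat 1863, .ofNat 9213, .ofNat 0, .ofNat 312, .negSucc 371, .negSucc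 569, .ofNat 0, .ofNat 126, .ofNat 122, .ofNat 0, .ofNat 0, .ofNat 632, .ofNat 912, .ofNat 0, .ofNat 35389347754775466943802297548800, .ofNat 966114566545834181866291200, .ofNat 0, .ofNat 0, .ofNat 0, .ofNat 0, .ofNat 0, .ofNat 0, .ofNat 0, .ofNat 1978944812620153245769767321600, .ofNat 0, .ofNat 0, .ofNat 0, .ofNat 865269251050044095943671808000, .ofNat 0⟩)
    (by decide +kernel)
theorem L00356 : Good (Phi V4.P V4.D (-1) (-1)) ⟨4, 10, 4, 3, 2, 3, 1, 1, 3, 0⟩ :=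
  out_sound (S := T4.ds_mm) T4.ok_mm (w := 56) (j := 3) (by decide +kernel)
theorem L00357 : Good (Phi V4.P V4.D (-1) (-1)) ⟨5, 22, 3, 1, 2, 3, 1, 1, 4, 0⟩ :=
  leaf_sound (S := T4.ds_mm) T4.ok_mm (w := 184) (c := ⟨⟨.negSucc 349, .negSucc 135, .ofNat 114, .negSucc 159, .negSucc 757, .negSucc 577⟩, ⟨.ofNat 41, .ofNat 30, .ofNat 108, .ofNat 37, .ofNat 147, .ofNat 123⟩, ⟨.ofNat 39, .ofNat 111, .negSucc 48, .ofNat 112, .ofNat 401, .ofNat 390⟩, ⟨.negSucc 808, .negSucc 184, .ofNat 127, .negSucc 266, .negSucc 1494, .negSucc 1065⟩, ⟨.negSucc 742, .ofNat 24, .ofNat 28, .ofNat 121, .negSucc 556, .negSucc 68⟩, .ofNat 778, .ofNat 1440, .ofNat 0, .ofNat 1440, .ofNat 6536, .ofNat 0, .ofNat 328, .negSucc 364, .negSucc 637, .ofNat 0, .ofNat 141, .ofNat 150, .ofNat 0, .ofNat 0, .ofNat 677, .ofNat 894, .ofNat 0, .ofNat 63966066806072296511765898854400, .ofNat 1543124959676953420470681600,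 .ofNat 0, .ofNat 0, .ofNat 0, .ofNat 0, .ofNat 0, .ofNat 0, .ofNat 0, .ofNat 548965168589394265833367142400, .ofNat 0, .ofNat 0, .ofNat 85188875603912885337310122894950400, .ofNat 444284079261747369370818969600, .ofNat 0⟩)
    (by decide +kernel)
theorem L00358 : Good (Phi V4.P V4.D (-1) (-1)) ⟨5, 22, 3, 1, 2, 3, 1, 1, 4, 1⟩ :=
  leaf_sound (S := T4.ds_mm) T4.ok_mm (w := 184) (c := ⟨⟨.negSucc 1263, .negSucc 150, .ofNat 165, .negSucc 354, .ofNat 69, .negSucc 119⟩, ⟨.ofNat 240, .ofNat 35, .ofNat 145, .ofNat 72, .negSucc 42, .ofNat 19⟩, ⟨.ofNat 753, .ofNat 81, .negSucc 89, .ofNat 139, .negSucc 226, .ofNat 67⟩, ⟨.negSucc 2444, .negSucc 205, .ofNat 219, .negSucc 670, .negSucc 30, .negSucc 256⟩, ⟨.negSucc 595, .negSucc 16, .negSucc 4, .negSucc 135, .negSucc 700, .negSucc 184⟩, .ofNat 710, .ofNat 1174, .ofNat 0, .ofNat 1174, .ofNat 5390, .ofNat 0, .ofNat 325,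 .negSucc 360, .negSucc 608, .ofNat 0, .ofNat 142, .ofNat 145, .ofNat 0, .ofNat 0, .ofNat 653, .ofNat 817, .ofNat 0, .ofNat 0, .ofNat 0, .ofNat 0, .ofNat 0, .ofNat 0, .ofNat 0, .ofNat 0, .ofNat 0, .ofNat 0, .ofNat 384551529649803895980530073600, .ofNat 0, .ofNat 0, .ofNat 0, .ofNat 0, .ofNat 0⟩)
    (by decide +kernel)
theorem L00359 : Good (Phi V4.P V4.D (-1) (-1)) ⟨5, 23, 3, 1, 2, 3, 2, 2, 4, 0⟩ :=
  leaf_sound (S := T4.ds_mm) T4.ok_mm (w := 184) (c := ⟨⟨.negSucc 270, .negSucc 157, .ofNat 237, .negSucc 197, .negSucc 468, .negSucc 914⟩, ⟨.negSucc 14, .ofNat 36, .ofNat 70, .ofNat 72, .ofNat 102, .ofNat 238⟩, ⟨.negSucc 6, .ofNat 77, .negSucc 134, .ofNat 224, .ofNat 201, .ofNat 609⟩, ⟨.negSucc 661, .negSucc 230, .ofNat 347, .negSucc 264, .negSucc 928, .negSucc 1616⟩, ⟨.negSucc 695, .negSucc 18, .negSucc 21, .ofNat 295, .negSucc 420, .negSucc 81⟩, .ofNat 459,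 .ofNat 354, .ofNat 0, .ofNat 354, .ofNat 1592, .ofNat 0, .ofNat 410, .negSucc 324, .negSucc 754, .ofNat 0, .ofNat 192, .ofNat 211, .ofNat 0, .ofNat 0, .ofNat 719, .ofNat 1727, .ofNat 0, .ofNat 0, .ofNat 0, .ofNat 0, .ofNat 0, .ofNat 0, .ofNat 0, .ofNat 0, .ofNat 0, .ofNat 0, .ofNat 0, .ofNat 0, .ofNat 0, .ofNat 0, .ofNat 0, .ofNat 0⟩)
    (by decide +kernel)
theorem L00360 : Good (Phi V4.P V4.D (-1) (-1)) ⟨5, 23, 3, 1, 2, 3, 2, 2, 4, 1⟩ :=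
  leaf_sound (S := T4.ds_mm) T4.ok_mm (w := 184) (c := ⟨⟨.negSucc 1370, .negSucc 303, .ofNat 344, .negSucc 369, .ofNat 56, .negSucc 249⟩, ⟨.ofNat 263, .ofNat 90, .ofNat 86, .ofNat 95, .negSucc 40, .ofNat 58⟩, ⟨.ofNat 806, .ofNat 197, .negSucc 210, .ofNat 150, .negSucc 138, .ofNat 173⟩, ⟨.negSucc 2561, .negSucc 427, .ofNat 510, .negSucc 658, .negSucc 23, .negSucc 480⟩, ⟨.negSucc 574, .ofNat 69, .negSucc 93, .negSucc 52, .negSucc 465, .negSucc 164⟩, .ofNat 458, .ofNat 351, .ofNat 0, .ofNat 351, .ofNat 1578, .ofNat 0, .ofNat 394, .negSucc 325, .negSucc 730, .ofNat 0, .ofNat 193, .ofNat 210, .ofNat 0, .ofNat 0, .ofNat 707, .ofNat 2150, .ofNat 0, .ofNat 0, .ofNat 0, .ofNat 0, .ofNat 0, .ofNat 0, .ofNat 0, .ofNat 0, .ofNat 0, .ofNat 0, .ofNat 0, .ofNat 0, .ofNat 0, .ofNat 0, .ofNat 0, .ofNat 0⟩)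
    (by decide +kernel)
theorem L00361 : Good (Phi V4.P V4.D (-1) (-1)) ⟨5, 23, 4, 2, 2, 3, 2, 3, 4, 0⟩ :=
  leaf_sound (S := T4.ds_mm) T4.ok_mm (w := 184) (c := ⟨⟨.negSucc 1189, .negSucc 179, .ofNat 135, .ofNat 34, .negSucc 291, .negSucc 323⟩, ⟨.ofNat 205, .ofNat 40, .ofNat 55, .negSucc 9, .ofNat 54, .ofNat 78⟩, ⟨.ofNat 612, .ofNat 125, .negSucc 93, .negSucc 107, .ofNat 142, .ofNat 185⟩, ⟨.negSucc 2323, .negSucc 245, .ofNat 195, .ofNat 50, .negSucc 594, .negSucc 591⟩, ⟨.negSucc 918, .ofNat 2, .ofNat 3, .negSucc 29, .negSucc 332, .negSucc 102⟩, .ofNat 586, .ofNat 667, .ofNat 0, .ofNat 667, .ofNat 2766, .ofNat 0, .ofNat 387, .negSucc 336, .negSucc 756, .ofNat 0, .ofNat 178, .ofNat 205, .ofNat 0, .ofNat 0, .ofNat 748, .ofNat 1219, .ofNat 0, .ofNat 0, .ofNat 0, .ofNat 0, .ofNat 0, .ofNat 0, .ofNat 0, .ofNat 0, .ofNat 0, .ofNat 0, .ofNat 0, .ofNat 0, .ofNat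 0, .ofNat 0, .ofNat 0, .ofNat 0⟩)
    (by decide +kernel)
theorem L00362 : Good (Phi V4.P V4.D (-1) (-1)) ⟨5, 23, 4, 2, 2, 3, 2, 3, 4, 1⟩ :=
  leaf_sound (S := T4.ds_mm) T4.ok_mm (w := 184) (c := ⟨⟨.negSucc 1760, .negSucc 127, .ofNat 93, .negSucc 156, .ofNat 274, .ofNat 269⟩, ⟨.ofNat 353, .ofNat 22, .ofNat 76, .ofNat 23, .negSucc 92, .negSucc 85⟩, ⟨.ofNat 1023, .ofNat 71, .negSucc 50, .negSucc 58, .negSucc 284, .negSucc 218⟩, ⟨.negSucc 3308, .negSucc 160, .ofNat 116, .negSucc 339, .ofNat 385, .ofNat 406⟩, ⟨.negSucc 880, .negSucc 16, .ofNat 0, .negSucc 263, .negSucc 365, .negSucc 248⟩, .ofNat 581, .ofNat 650, .ofNat 0, .ofNat 650, .ofNat 2701, .ofNat 0, .ofNat 388, .negSucc 350, .negSucc 752, .ofNat 0, .ofNat 181, .ofNat 204, .ofNat 0, .ofNat 0, .ofNat 725, .ofNat 1036, .ofNat 0, .ofNat 0, .ofNat 0, .ofNat 0, .ofNat 0, .ofNat 0, .ofNat 0, .ofNat 0, .ofNat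 0, .ofNat 0, .ofNat 0, .ofNat 0, .ofNat 0, .ofNat 0, .ofNat 0, .ofNat 0⟩)
    (by decide +kernel)
theorem L00363 : Good (Phi V4.P V4.D (-1) (-1)) ⟨5, 23, 4, 3, 2, 3, 2, 3, 4, 0⟩ :=
  leaf_sound (S := T4.ds_mm) T4.ok_mm (w := 184) (c := ⟨⟨.negSucc 1015, .negSucc 177, .ofNat 86, .ofNat 22, .negSucc 319, .negSucc 368⟩, ⟨.ofNat 241, .ofNat 38, .ofNat 66, .negSucc 5, .ofNat 77, .ofNat 96⟩, ⟨.ofNat 494, .ofNat 99, .ofNat 1, .negSucc 49, .ofNat 153, .ofNat 192⟩, ⟨.negSucc 2050, .negSucc 260, .ofNat 134, .ofNat 51, .negSucc 645, .negSucc 690⟩, ⟨.negSucc 907, .negSucc 47, .ofNat 96, .ofNat 45, .negSucc 317, .negSucc 170⟩, .ofNat 813, .ofNat 1359, .ofNat 0, .ofNat 1359, .ofNat 4939, .ofNat 0, .ofNat 318, .negSucc 415, .negSucc 732, .ofNat 0, .ofNat 174, .ofNat 214, .ofNat 0, .ofNat 0, .ofNat 713, .ofNat 1097, .ofNat 0, .ofNat 0, .ofNat 0, .ofNat 0, .ofNat 0, .ofNat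 0, .ofNat 0, .ofNat 0, .ofNat 0, .ofNat 0, .ofNat 0, .ofNat 0, .ofNat 0, .ofNat 0, .ofNat 0, .ofNat 0⟩)
    (by decide +kernel)
theorem L00364 : Good (Phi V4.P V4.D (-1) (-1)) ⟨5, 23, 4, 3, 2, 3, 2, 3, 4, 1⟩ :=
  leaf_sound (S := T4.ds_mm) T4.ok_mm (w := 184) (c := ⟨⟨.negSucc 1512, .negSucc 244, .ofNat 170, .negSucc 182, .ofNat 281, .ofNat 177⟩, ⟨.ofNat 379, .ofNat 56, .ofNat 49, .ofNat 43, .negSucc 94, .negSucc 61⟩, ⟨.ofNat 839, .ofNat 155, .negSucc 111, .ofNat 1, .negSucc 288, .negSucc 147⟩, ⟨.negSucc 2912, .negSucc 371, .ofNat 242, .negSucc 381, .ofNat 398, .ofNat 232⟩, ⟨.negSucc 898, .negSucc 37, .negSucc 16, .negSucc 226, .negSucc 311, .negSucc 257⟩, .ofNat 892, .ofNat 1582, .ofNat 0, .ofNat 1582, .ofNat 5559, .ofNat 0, .ofNat 306, .negSucc 423, .negSucc 744, .ofNat 0, .ofNat 178, .ofNat 223, .ofNat 0, .ofNat 0, .ofNat 712, .ofNat 1492, .ofNat 0, .ofNat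 0, .ofNat 0, .ofNat 0, .ofNat 0, .ofNat 0, .ofNat 0, .ofNat 0, .ofNat 0, .ofNat 0, .ofNat 0, .ofNat 0, .ofNat 0, .ofNat 0, .ofNat 0, .ofNat 0⟩)
    (by decide +kernel)
theorem L00365 : Good (Phi V4.P V4.D (-1) (-1)) ⟨4, 12, 3, 1, 2, 2, 1, 1, 4, 0⟩ :=
  leaf_sound (S := T4.ds_mm) T4.ok_mm (w := 176) (c := ⟨⟨.negSucc 340, .negSucc 109, .ofNat 201, .negSucc 337, .negSucc 905, .negSucc 239⟩, ⟨.negSucc 29, .negSucc 0, .ofNat 75, .ofNat 79, .ofNat 263, .ofNat 80⟩, ⟨.negSucc 97, .ofNat 80, .negSucc 167, .ofNat 286, .ofNat 618, .ofNat 254⟩, ⟨.negSucc 771, .negSucc 116, .ofNat 275, .negSucc 648, .negSucc 1608, .negSucc 381⟩, ⟨.negSucc 723, .negSucc 8, .negSucc 0, .negSucc 248, .negSucc 265, .ofNat 78⟩, .ofNat 635, .ofNat 753, .ofNat 0, .ofNat 753, .ofNat 2523, .ofNat 0, .ofNat 306, .negSucc 302, .negSucc 838, .ofNat 0, .ofNat 186, .ofNat 280, .ofNat 0, .ofNat 0,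 .ofNat 905, .ofNat 747, .ofNat 0, .ofNat 0, .ofNat 16246841100319745755840512000, .ofNat 0, .ofNat 0, .ofNat 7137944131370668149724244921548800, .ofNat 2095460001589776812786633932800, .ofNat 0, .ofNat 0, .ofNat 0, .ofNat 3421546354610228406986263756800, .ofNat 0, .ofNat 0, .ofNat 0, .ofNat 2771738262701559095862126182400, .ofNat 0⟩)
    (by decide +kernel)
theorem L00366 : Good (Phi V4.P V4.D (-1) (-1)) ⟨5, 24, 3, 1, 2, 3, 2, 2, 4, 0⟩ :=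
  leaf_sound (S := T4.ds_mm) T4.ok_mm (w := 184) (c := ⟨⟨.negSucc 250, .negSucc 201, .ofNat 214, .negSucc 206, .negSucc 550, .negSucc 1135⟩, ⟨.negSucc 70, .ofNat 68, .ofNat 64, .ofNat 82, .ofNat 150, .ofNat 357⟩, ⟨.negSucc 76, .ofNat 129, .negSucc 89, .ofNat 254, .ofNat 267, .ofNat 749⟩, ⟨.negSucc 652, .negSucc 270, .ofNat 314, .negSucc 247, .negSucc 1049, .negSucc 1927⟩, ⟨.negSucc 762, .ofNat 61, .negSucc 10, .ofNat 321, .negSucc 375, .negSucc 53⟩, .ofNat 479, .ofNat 403, .ofNat 0, .ofNat 403, .ofNat 1483, .ofNat 0, .ofNat 384, .negSucc 372, .negSucc 877, .ofNat 0, .ofNat 218, .ofNat 292, .ofNat 0, .ofNat 0, .ofNat 781, .ofNat 1780, .ofNat 0, .ofNat 0, .ofNat 60377605644972835283455180800, .ofNat 0, .ofNat 0, .ofNat 0, .ofNat 1249498344747887637048380620800, .ofNat 0, .ofNat 0, .ofNat 0, .ofNat 4000985880002253410577835622400, .ofNat 0, .ofNat 0, .ofNat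 0, .ofNat 2712666700228983476092246425600, .ofNat 0⟩)
    (by decide +kernel)
theorem L00367 : Good (Phi V4.P V4.D (-1) (-1)) ⟨5, 24, 3, 1, 2, 3, 2, 3, 4, 0⟩ :=
  leaf_sound (S := T4.ds_mm) T4.ok_mm (w := 184) (c := ⟨⟨.negSucc 1263, .negSucc 218, .ofNat 181, .negSucc 30, .negSucc 283, .negSucc 407⟩, ⟨.ofNat 202, .ofNat 59, .ofNat 137, .ofNat 1, .ofNat 65, .ofNat 117⟩, ⟨.ofNat 626, .ofNat 137, .negSucc 67, .negSucc 65, .ofNat 139, .ofNat 238⟩, ⟨.negSucc 2398, .negSucc 301, .ofNat 244, .negSucc 63, .negSucc 591, .negSucc 723⟩, ⟨.negSucc 957, .negSucc 3, .ofNat 74, .negSucc 40, .negSucc 350, .negSucc 118⟩, .ofNat 652, .ofNat 796, .ofNat 0, .ofNat 796, .ofNat 2625, .ofNat 0, .ofNat 351, .negSucc 390, .negSucc 879, .ofNat 0, .ofNat 205, .ofNat 292, .ofNat 0, .ofNat 0, .ofNat 811, .ofNat 675, .ofNat 0, .ofNat 0, .ofNat 17288088609872009263841280000, .ofNat 0,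 .ofNat 0, .ofNat 335499084649505994988912860620390400, .ofNat 5033748854542808264171795251200, .ofNat 0, .ofNat 0, .ofNat 0, .ofNat 0, .ofNat 0, .ofNat 0, .ofNat 0, .ofNat 0, .ofNat 0⟩)
    (by decide +kernel)
theorem L00368 : Good (Phi V4.P V4.D (-1) (-1)) ⟨5, 25, 3, 1, 2, 3, 1, 1, 4, 0⟩ :=
  leaf_sound (S := T4.ds_mm) T4.ok_mm (w := 184) (c := ⟨⟨.ofNat 62, .negSucc 528, .negSucc 491, .negSucc 90, .negSucc 917, .negSucc 857⟩, ⟨.negSucc 99, .ofNat 227, .ofNat 209, .ofNat 46, .ofNat 254, .ofNat 284⟩, ⟨.ofNat 76, .ofNat 528, .ofNat 103, .ofNat 95, .ofNat 422, .ofNat 501⟩, ⟨.ofNat 137, .negSucc 693, .negSucc 1034, .negSucc 82, .negSucc 1808, .negSucc 1471⟩, ⟨.ofNat 27, .ofNat 445, .negSucc 570, .ofNat 196, .negSucc 847, .negSucc 155⟩, .ofNat 812, .ofNat 1140, .ofNat 0, .ofNat 1140, .ofNat 3326, .ofNat 0, .ofNat 326, .negSucc 423, .negSucc 892, .ofNat 0, .ofNat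 220, .ofNat 325, .ofNat 0, .ofNat 0, .ofNat 798, .ofNat 914, .ofNat 0, .ofNat 0, .ofNat 27576494028748181692691251200, .ofNat 0, .ofNat 0, .ofNat 0, .ofNat 11386965148157481460057925222400, .ofNat 0, .ofNat 0, .ofNat 0, .ofNat 10488861288422300600227174809600, .ofNat 0, .ofNat 0, .ofNat 0, .ofNat 3072634636219025623061889024000, .ofNat 0⟩)
    (by decide +kernel)
theorem L00369 : Good (Phi V4.P V4.D (-1) (-1)) ⟨4, 13, 3, 1, 1, 1, 1, 1, 4, 0⟩ :=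
  out_sound (S := T4.ds_mm) T4.ok_mm (w := 56) (j := 3) (by decide +kernel)
theorem L00370 : Good (Phi V4.P V4.D (-1) (-1)) ⟨3, 7, 3, 1, 1, 1, 1, 1, 4, 0⟩ :=
  out_sound (S := T4.ds_mm) T4.ok_mm (w := 48) (j := 3) (by decide +kernel)
theorem L00371 : Good (Phi V4.P V4.D (-1) (-1)) ⟨4, 12, 3, 1, 2, 2, 1, 1, 4, 1⟩ :=
  leaf_sound (S := T4.ds_mm) T4.ok_mm (w := 176) (c := ⟨⟨.negSucc 1126, .negSucc 325, .ofNat 304, .negSucc 596, .ofNat 179, .ofNat 25⟩, ⟨.ofNat 219, .ofNat 81, .ofNat 44, .ofNat 171, .negSucc 83, .negSucc 10⟩, ⟨.ofNat 672, .ofNat 249, .negSucc 250, .ofNat 407, .negSucc 324, .ofNat 17⟩, ⟨.negSucc 2043, .negSucc 437, .ofNat 443, .negSucc 1097, .ofNat 175, .ofNat 37⟩, ⟨.negSucc 534, .ofNat 60, .negSucc 26, .negSucc 303, .negSucc 393, .negSucc 14⟩, .ofNat 642, .ofNat 770, .ofNat 0, .ofNat 770, .ofNat 2569, .ofNat 0, .ofNat 288, .negSucc 297, .negSucc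 741, .ofNat 0, .ofNat 178, .ofNat 250, .ofNat 0, .ofNat 0, .ofNat 813, .ofNat 946, .ofNat 0, .ofNat 0, .ofNat 23454205501465720201936896000, .ofNat 0, .ofNat 0, .ofNat 0, .ofNat 2297881382948225697942444441600, .ofNat 0, .ofNat 0, .ofNat 0, .ofNat 2933036295835632627288637440000, .ofNat 0, .ofNat 0, .ofNat 0, .ofNat 2405842553211439872305686118400, .ofNat 0⟩)
    (by decide +kernel)
theorem L00372 : Good (Phi V4.P V4.D (-1) (-1)) ⟨5, 24, 3, 1, 2, 3, 2, 2, 4, 1⟩ :=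
  leaf_sound (S := T4.ds_mm) T4.ok_mm (w := 184) (c := ⟨⟨.negSucc 1593, .negSucc 416, .ofNat 270, .negSucc 325, .ofNat 38, .negSucc 220⟩, ⟨.ofNat 326, .ofNat 145, .ofNat 99, .ofNat 101, .negSucc 46, .ofNat 54⟩, ⟨.ofNat 976, .ofNat 278, .negSucc 181, .ofNat 111, .negSucc 133, .ofNat 133⟩, ⟨.negSucc 2824, .negSucc 581, .ofNat 368, .negSucc 569, .negSucc 101, .negSucc 441⟩, ⟨.negSucc 446, .ofNat 101, .negSucc 109, .negSucc 59, .negSucc 513, .negSucc 222⟩, .ofNat 758, .ofNat 1066, .ofNat 0, .ofNat 1066, .ofNat 3405, .ofNat 0, .ofNat 310, .negSucc 416, .negSucc 802, .ofNat 0, .ofNat 204, .ofNat 278, .ofNat 0, .ofNat 0, .ofNat 740, .ofNat 1261, .ofNat 0, .ofNat 0, .ofNat 35929354805799326533759795200, .ofNat 0, .ofNat 0, .ofNat 0, .ofNat 5470244597135268918381772800000, .ofNat 0, .ofNat 0, .ofNat 0, .ofNat 6722600943276843441671739801600, .ofNat 0, .ofNat 0,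 .ofNat 0, .ofNat 0, .ofNat 0⟩)
    (by decide +kernel)
theorem L00373 : Good (Phi V4.P V4.D (-1) (-1)) ⟨5, 24, 4, 2, 2, 3, 2, 3, 4, 1⟩ :=
  leaf_sound (S := T4.ds_mm) T4.ok_mm (w := 184) (c := ⟨⟨.negSucc 1900, .negSucc 97, .ofNat 131, .negSucc 246, .ofNat 257, .ofNat 232⟩, ⟨.ofNat 388, .ofNat 18, .ofNat 66, .ofNat 52, .negSucc 106, .negSucc 85⟩, ⟨.ofNat 1109, .ofNat 51, .negSucc 82, .negSucc 4, .negSucc 272, .negSucc 191⟩, ⟨.negSucc 3467, .negSucc 94, .ofNat 180, .negSucc 488, .ofNat 317, .ofNat 323⟩, ⟨.negSucc 895, .ofNat 5, .ofNat 8, .negSucc 244, .negSucc 422, .negSucc 252⟩, .ofNat 688, .ofNat 895, .ofNat 0, .ofNat 895, .ofNat 3163, .ofNat 0, .ofNat 372, .negSucc 367, .negSucc 836, .ofNat 0, .ofNat 198, .ofNat 257, .ofNat 0, .ofNat 0, .ofNat 776, .ofNat 1350, .ofNat 0, .ofNat 0, .ofNat 60395337267754694937359155200, .ofNat 0, .ofNat 0, .ofNat 3232697131509562291133032909347225600,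 .ofNat 5762533094323251407912278425600, .ofNat 0, .ofNat 0, .ofNat 2324686238095598596657934814412800000, .ofNat 10538379435571075136316506112000, .ofNat 0, .ofNat 0, .ofNat 3459360285993381597155088840366489600, .ofNat 5304367785536210733177294028800, .ofNat 0⟩)
    (by decide +kernel)
theorem L00374 : Good (Phi V4.P V4.D (-1) (-1)) ⟨5, 24, 4, 3, 2, 3, 2, 3, 4, 1⟩ :=
  leaf_sound (S := T4.ds_mm) T4.ok_mm (w := 184) (c := ⟨⟨.negSucc 1811, .negSucc 181, .ofNat 124, .negSucc 243, .ofNat 306, .ofNat 362⟩, ⟨.ofNat 470, .ofNat 40, .ofNat 62, .ofNat 64, .negSucc 125, .negSucc 132⟩, ⟨.ofNat 1047, .ofNat 107, .negSucc 73, .ofNat 13, .negSucc 306, .negSucc 282⟩, ⟨.negSucc 3341, .negSucc 244, .ofNat 163, .negSucc 476, .ofNat 382, .ofNat 527⟩, ⟨.negSucc 895, .negSucc 15, .ofNat 3, .negSucc 214, .negSucc 414, .negSucc 259⟩, .ofNat 800, .ofNat 1169, .ofNat 0, .ofNat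 1169, .ofNat 3699, .ofNat 0, .ofNat 335, .negSucc 410, .negSucc 870, .ofNat 0, .ofNat 206, .ofNat 291, .ofNat 0, .ofNat 0, .ofNat 787, .ofNat 1272, .ofNat 0, .ofNat 0, .ofNat 0, .ofNat 0, .ofNat 0, .ofNat 0, .ofNat 0, .ofNat 0, .ofNat 0, .ofNat 0, .ofNat 0, .ofNat 0, .ofNat 0, .ofNat 0, .ofNat 0, .ofNat 0⟩)
    (by decide +kernel)
theorem L00375 : Good (Phi V4.P V4.D (-1) (-1)) ⟨5, 25, 4, 2, 2, 3, 1, 1, 4, 1⟩ :=
  out_sound (S := T4.ds_mm) T4.ok_mm (w := 64) (j := 3) (by decide +kernel)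
theorem L00376 : Good (Phi V4.P V4.D (-1) (-1)) ⟨5, 25, 4, 3, 2, 3, 2, 2, 4, 1⟩ :=
  leaf_sound (S := T4.ds_mm) T4.ok_mm (w := 184) (c := ⟨⟨.negSucc 2479, .negSucc 351, .ofNat 694, .negSucc 327, .ofNat 121, .negSucc 131⟩, ⟨.ofNat 745, .ofNat 129, .negSucc 160, .ofNat 110, .negSucc 81, .ofNat 28⟩, ⟨.ofNat 1517, .ofNat 112, .negSucc 411, .ofNat 114, .negSucc 189, .ofNat 72⟩, ⟨.negSucc 4227, .negSucc 572, .ofNat 1121, .negSucc 554, .ofNat 13, .negSucc 301⟩, ⟨.negSucc 402, .negSucc 93, .negSucc 40, .negSucc 37, .negSucc 544, .negSucc 239⟩, .ofNat 833, .ofNat 1191, .ofNat 0, .ofNat 1191, .ofNat 3460, .ofNat 0, .ofNat 308, .negSucc 431, .negSucc 903, .ofNat 0, .ofNat 222, .ofNat 338, .ofNat 0, .ofNat 0, .ofNat 792, .ofNat 1256, .ofNat 0, .ofNat 0, .ofNat 331578617066839847430468403200, .ofNat 0, .ofNat 0, .ofNat 0, .ofNat 99749234516628931038640550707200, .ofNat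 0, .ofNat 0, .ofNat 0, .ofNat 101033309235625264245528487526400, .ofNat 0, .ofNat 0, .ofNat 0, .ofNat 42614429933371837018097162649600, .ofNat 0⟩)
    (by decide +kernel)
theorem L00377 : Good (Phi V4.P V4.D (-1) (-1)) ⟨5, 25, 4, 3, 2, 3, 2, 3, 4, 1⟩ :=
  leaf_sound (S := T4.ds_mm) T4.ok_mm (w := 184) (c := ⟨⟨.negSucc 2166, .negSucc 1027, .ofNat 253, .negSucc 357, .ofNat 465, .ofNat 399⟩, ⟨.ofNat 597, .ofNat 316, .negSucc 1, .ofNat 104, .negSucc 190, .negSucc 156⟩, ⟨.ofNat 1229, .ofNat 713, .negSucc 116, .ofNat 86, .negSucc 423, .negSucc 308⟩, ⟨.negSucc 3966, .negSucc 1842, .ofNat 499, .negSucc 683, .ofNat 628, .ofNat 569⟩, ⟨.negSucc 1179, .negSucc 525, .ofNat 294, .negSucc 266, .negSucc 408, .negSucc 261⟩, .ofNat 812, .ofNat 1140, .ofNat 0, .ofNat 1140, .ofNat 3325, .ofNat 0, .ofNat 323, .negSucc 418, .negSucc 958, .ofNat 0, .ofNat 220, .ofNat 349, .ofNat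 0, .ofNat 0, .ofNat 843, .ofNat 1237, .ofNat 0, .ofNat 0, .ofNat 545482155400761353545816473600, .ofNat 0, .ofNat 0, .ofNat 5524804842620542451542254141466214400, .ofNat 65942933146968802276605217996800, .ofNat 0, .ofNat 0, .ofNat 6562056309018775142775958928778854400, .ofNat 72710304373167511196782087372800, .ofNat 0, .ofNat 0, .ofNat 6061918071527895179979737180563046400, .ofNat 10268150776400602969951489228800, .ofNat 0⟩)
    (by decide +kernel)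
theorem L00378 : Good (Phi V4.P V4.D (-1) (-1)) ⟨4, 13, 3, 1, 1, 1, 1, 1, 4, 1⟩ :=
  out_sound (S := T4.ds_mm) T4.ok_mm (w := 56) (j := 3) (by decide +kernel)
theorem L00379 : Good (Phi V4.P V4.D (-1) (-1)) ⟨3, 7, 3, 1, 1, 1, 1, 1, 4, 1⟩ :=
  out_sound (S := T4.ds_mm) T4.ok_mm (w := 48) (j := 3) (by decide +kernel)
theorem L00380 : Good (Phi V4.P V4.D (-1) (-1)) ⟨3, 4, 3, 1, 2, 2, 1, 1, 3, 1⟩ :=
  out_sound (S := T4.ds_mm) T4.ok_mm (w := 48) (j := 3) (by decide +kernel)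
theorem L00381 : Good (Phi V4.P V4.D (-1) (-1)) ⟨3, 5, 3, 1, 2, 2, 2, 2, 3, 1⟩ :=
  leaf_sound (S := T4.ds_mm) T4.ok_mm (w := 168) (c := ⟨⟨.negSucc 939, .negSucc 362, .ofNat 147, .negSucc 307, .ofNat 243, .ofNat 239⟩, ⟨.ofNat 187, .ofNat 76, .ofNat 90, .ofNat 55, .negSucc 65, .negSucc 69⟩, ⟨.ofNat 597, .ofNat 273, .negSucc 122, .ofNat 153, .negSucc 311, .negSucc 131⟩, ⟨.negSucc 1915, .negSucc 435, .ofNat 159, .negSucc 662, .ofNat 379, .ofNat 370⟩, ⟨.negSucc 462, .ofNat 32, .negSucc 64, .negSucc 481, .negSucc 234, .negSucc 230⟩, .ofNat 458, .ofNat 350, .ofNat 0, .ofNat 350, .ofNat 1715, .ofNat 0, .ofNat 302, .negSucc 205, .negSucc 454, .ofNat 0, .ofNat 146, .ofNat 121, .ofNat 0, .ofNat 0, .ofNat 608, .ofNat 1452, .ofNat 0, .ofNat 0, .ofNat 0, .ofNat 0, .ofNat 0, .ofNat 0, .ofNat 0, .ofNat 0, .ofNat 0, .ofNat 0, .ofNat 0, .ofNat 0, .ofNat 0, .ofNat 0, .ofNat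 0, .ofNat 0⟩)
    (by decide +kernel)
theorem L00382 : Good (Phi V4.P V4.D (-1) (-1)) ⟨3, 5, 3, 1, 2, 2, 2, 3, 3, 1⟩ :=
  leaf_sound (S := T4.ds_mm) T4.ok_mm (w := 168) (c := ⟨⟨.negSucc 1009, .negSucc 155, .ofNat 176, .negSucc 243, .ofNat 516, .ofNat 491⟩, ⟨.ofNat 232, .negSucc 19, .ofNat 73, .ofNat 35, .negSucc 129, .negSucc 126⟩, ⟨.ofNat 524, .ofNat 115, .negSucc 151, .ofNat 128, .negSucc 495, .negSucc 345⟩, ⟨.negSucc 1988, .negSucc 200, .ofNat 228, .negSucc 583, .ofNat 905, .ofNat 826⟩, ⟨.negSucc 591, .negSucc 77, .negSucc 23, .negSucc 622, .negSucc 40, .negSucc 176⟩, .ofNat 315, .ofNat 113, .ofNat 0, .ofNat 113, .ofNat 723, .ofNat 0, .ofNat 384, .negSucc 152, .negSucc 713, .ofNat 0, .ofNat 201, .ofNat 160, .ofNat 0, .ofNat 0, .ofNat 758, .ofNat 360, .ofNat 0, .ofNat 0, .ofNat 7511299089411053291411865600, .ofNat 0, .ofNat 0, .ofNat 3284539381723077471918365658316800,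 .ofNat 0, .ofNat 0, .ofNat 0, .ofNat 0, .ofNat 0, .ofNat 0, .ofNat 0, .ofNat 0, .ofNat 0, .ofNat 0⟩)
    (by decide +kernel)
theorem L00383 : Good (Phi V4.P V4.D (-1) (-1)) ⟨5, 24, 3, 1, 2, 2, 2, 2, 3, 1⟩ :=
  leaf_sound (S := T4.ds_mm) T4.ok_mm (w := 184) (c := ⟨⟨.negSucc 1461, .negSucc 107, .ofNat 116, .negSucc 241, .ofNat 409, .ofNat 427⟩, ⟨.ofNat 334, .ofNat 23, .ofNat 110, .ofNat 44, .negSucc 153, .negSucc 160⟩, ⟨.ofNat 1017, .ofNat 84, .negSucc 109, .ofNat 75, .negSucc 450, .negSucc 271⟩, ⟨.negSucc 2552, .negSucc 125, .ofNat 126, .negSucc 566, .ofNat 592, .ofNat 606⟩, ⟨.negSucc 369, .ofNat 33, .negSucc 15, .negSucc 523, .negSucc 304, .negSucc 352⟩, .ofNat 739, .ofNat 1009, .ofNat 0, .ofNat 1009, .ofNat 3229, .ofNat 0, .ofNat 248, .negSucc 275, .negSucc 506, .ofNat 0, .ofNat 159, .ofNat 177, .ofNat 0, .ofNat 0, .ofNat 637, .ofNat 1457, .ofNat 0, .ofNat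 0, .ofNat 0, .ofNat 0, .ofNat 0, .ofNat 0, .ofNat 321254847296736260011956633600, .ofNat 0, .ofNat 0, .ofNat 0, .ofNat 325772002479022745084913254400, .ofNat 0, .ofNat 0, .ofNat 0, .ofNat 193030463255632927289612697600, .ofNat 0⟩)
    (by decide +kernel)
theorem L00384 : Good (Phi V4.P V4.D (-1) (-1)) ⟨5, 24, 3, 1, 2, 2, 2, 3, 3, 1⟩ :=
  leaf_sound (S := T4.ds_mm) T4.ok_mm (w := 176) (c := ⟨⟨.negSucc 1377, .ofNat 30, .ofNat 194, .negSucc 138, .ofNat 718, .ofNat 686⟩, ⟨.ofNat 324, .negSucc 42, .ofNat 61, .negSucc 3, .negSucc 239, .negSucc 238⟩, ⟨.ofNat 805, .negSucc 31, .negSucc 156, .ofNat 40, .negSucc 660, .negSucc 496⟩, ⟨.negSucc 2457, .ofNat 58, .ofNat 239, .negSucc 445, .ofNat 1169, .ofNat 1071⟩, ⟨.negSucc 608, .negSucc 21, .negSucc 29, .negSucc 679, .negSucc 102, .negSucc 236⟩, .ofNat 741, .ofNat 1015, .ofNat 0, .ofNat 1015, .ofNat 3251, .ofNat 0,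 .ofNat 265, .negSucc 292, .negSucc 589, .ofNat 0, .ofNat 168, .ofNat 197, .ofNat 0, .ofNat 0, .ofNat 681, .ofNat 458, .ofNat 0, .ofNat 0, .ofNat 0, .ofNat 0, .ofNat 0, .ofNat 356543079675618598996018492499558400, .ofNat 283910823401811530386872729600, .ofNat 0, .ofNat 0, .ofNat 0, .ofNat 0, .ofNat 0, .ofNat 0, .ofNat 0, .ofNat 0, .ofNat 0⟩)
    (by decide +kernel)
theorem L00385 : Good (Phi V4.P V4.D (-1) (-1)) ⟨5, 25, 3, 1, 2, 2, 2, 2, 3, 1⟩ :=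
  leaf_sound (S := T4.ds_mm) T4.ok_mm (w := 184) (c := ⟨⟨.negSucc 1316, .negSucc 685, .negSucc 107, .negSucc 243, .ofNat 376, .ofNat 439⟩, ⟨.ofNat 371, .ofNat 268, .ofNat 91, .ofNat 43, .negSucc 150, .negSucc 175⟩, ⟨.ofNat 778, .ofNat 557, .ofNat 197, .ofNat 81, .negSucc 421, .negSucc 298⟩, ⟨.negSucc 2224, .negSucc 1075, .negSucc 258, .negSucc 595, .ofNat 520, .ofNat 609⟩, ⟨.negSucc 197, .ofNat 142, .negSucc 176, .negSucc 561, .negSucc 291, .negSucc 338⟩, .ofNat 810, .ofNat 1136, .ofNat 0, .ofNat 1136, .ofNat 3316, .ofNat 0, .ofNat 245, .negSucc 292, .negSucc 564, .ofNat 0, .ofNat 173, .ofNat 214, .ofNat 0, .ofNat 0, .ofNat 674, .ofNat 2180, .ofNat 0, .ofNat 0, .ofNat 104409979969211048250467942400, .ofNat 0, .ofNat 0, .ofNat 0, .ofNat 6090759633992254622448117350400, .ofNat 0, .ofNat 0, .ofNat 0, .ofNat 2521836079732723822923821875200, .ofNat 0, .ofNat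 0, .ofNat 0, .ofNat 2478218250058084357632530841600, .ofNat 0⟩)
    (by decide +kernel)
theorem L00386 : Good (Phi V4.P V4.D (-1) (-1)) ⟨5, 25, 3, 1, 2, 2, 2, 3, 3, 1⟩ :=
  leaf_sound (S := T4.ds_mm) T4.ok_mm (w := 184) (c := ⟨⟨.negSucc 1196, .ofNat 261, .negSucc 9, .negSucc 137, .ofNat 741, .ofNat 733⟩, ⟨.ofNat 281, .negSucc 102, .ofNat 86, .negSucc 3, .negSucc 258, .negSucc 268⟩, ⟨.ofNat 604, .negSucc 203, .ofNat 47, .ofNat 54, .negSucc 682, .negSucc 537⟩, ⟨.negSucc 2262, .ofNat 360, .ofNat 39, .negSucc 466, .ofNat 1205, .ofNat 1136⟩, ⟨.negSucc 935, .negSucc 182, .ofNat 275, .negSucc 696, .negSucc 58, .negSucc 218⟩, .ofNat 811, .ofNat 1137, .ofNat 0, .ofNat 1137, .ofNat 3318, .ofNat 0, .ofNat 260, .negSucc 301, .negSucc 629, .ofNat 0, .ofNat 179, .ofNat 227, .ofNat 0, .ofNat 0, .ofNat 706, .ofNat 894, .ofNat 0, .ofNat 0, .ofNat 88636133496700426617933004800,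 .ofNat 0, .ofNat 0, .ofNat 0, .ofNat 595923812089943758368826982400, .ofNat 0, .ofNat 0, .ofNat 226087800530886943504220286458265600, .ofNat 4053263186193554535406475673600, .ofNat 0, .ofNat 0, .ofNat 0, .ofNat 4047110723426228861468147712000, .ofNat 0⟩)
    (by decide +kernel)
theorem L00387 : Good (Phi V4.P V4.D (-1) (-1)) ⟨4, 13, 3, 1, 2, 2, 1, 1, 3, 1⟩ :=
  out_sound (S := T4.ds_mm) T4.ok_mm (w := 56) (j := 3) (by decide +kernel)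
theorem L00388 : Good (Phi V4.P V4.D (-1) (-1)) ⟨3, 7, 3, 1, 2, 2, 1, 1, 3, 1⟩ :=
  out_sound (S := T4.ds_mm) T4.ok_mm (w := 48) (j := 3) (by decide +kernel)
theorem L00389 : Good (Phi V4.P V4.D (-1) (-1)) ⟨3, 4, 3, 1, 2, 3, 1, 1, 3, 1⟩ :=
  out_sound (S := T4.ds_mm) T4.ok_mm (w := 48) (j := 3) (by decide +kernel)
theorem L00390 : Good (Phi V4.P V4.D (-1) (-1)) ⟨4, 10, 5, 4, 2, 3, 2, 2, 3, 1⟩ :=
  leaf_sound (S := T4.ds_mm) T4.ok_mm (w := 184) (c := ⟨⟨.negSucc 1582, .ofNat 0, .ofNat 182, .negSucc 172, .ofNat 242, .ofNat 433⟩, ⟨.ofNat 301, .ofNat 0, .ofNat 6, .ofNat 21, .negSucc 57, .negSucc 105⟩, ⟨.ofNat 975, .ofNat 0, .negSucc 160, .ofNat 20, .negSucc 306, .negSucc 254⟩, ⟨.negSucc 3045, .ofNat 0, .ofNat 387, .negSucc 419, .ofNat 376, .ofNat 664⟩, ⟨.negSucc 657, .ofNat 0, .ofNat 359, .negSucc 506, .negSucc 345, .negSucc 654⟩, .ofNat 847, .ofNat 1860, .ofNat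 0, .ofNat 1860, .ofNat 9202, .ofNat 0, .ofNat 275, .negSucc 322, .negSucc 392, .ofNat 0, .ofNat 114, .ofNat 87, .ofNat 0, .ofNat 0, .ofNat 541, .ofNat 2071, .ofNat 0, .ofNat 0, .ofNat 0, .ofNat 0, .ofNat 0, .ofNat 629892943986323730010532956707225600, .ofNat 8916302423108367876586733568000, .ofNat 0, .ofNat 0, .ofNat 0, .ofNat 12346811469592093079442240307200, .ofNat 0, .ofNat 0, .ofNat 0, .ofNat 7256705119450913109674085580800, .ofNat 0⟩)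
    (by decide +kernel)
theorem L00391 : Good (Phi V4.P V4.D (-1) (-1)) ⟨4, 10, 5, 4, 2, 3, 2, 3, 3, 1⟩ :=
  leaf_sound (S := T4.ds_mm) T4.ok_mm (w := 184) (c := ⟨⟨.negSucc 1421, .ofNat 0, .negSucc 118, .negSucc 175, .ofNat 384, .ofNat 645⟩, ⟨.ofNat 258, .ofNat 0, .ofNat 64, .ofNat 21, .negSucc 83, .negSucc 143⟩, ⟨.ofNat 761, .ofNat 0, .ofNat 50, .negSucc 10, .negSucc 373, .negSucc 448⟩, ⟨.negSucc 2830, .ofNat 0, .negSucc 177, .negSucc 432, .ofNat 659, .ofNat 1087⟩, ⟨.negSucc 1063, .ofNat 0, .ofNat 301, .negSucc 540, .negSucc 236, .negSucc 495⟩, .ofNat 847, .ofNat 1862, .ofNat 0, .ofNat 1862, .ofNat 9208, .ofNat 0, .ofNat 593, .negSucc 692, .negSucc 982, .ofNat 0, .ofNat 240, .ofNat 211, .ofNat 0, .ofNat 0, .ofNat 1178, .ofNat 1710, .ofNat 0, .ofNat 0, .ofNat 0, .ofNat 0, .ofNat 0, .ofNat 4339089814870611535568435561889792000, .ofNat 0, .ofNat 0, .ofNat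 0, .ofNat 2824519708291272865735724957800857600, .ofNat 0, .ofNat 0, .ofNat 0, .ofNat 1157790605376601953228616668020736000, .ofNat 0, .ofNat 0⟩)
    (by decide +kernel)
theorem L00392 : Good (Phi V4.P V4.D (-1) (-1)) ⟨4, 10, 5, 5, 2, 3, 1, 1, 3, 1⟩ :=
  out_sound (S := T4.ds_mm) T4.ok_mm (w := 56) (j := 3) (by decide +kernel)
theorem L00393 : Good (Phi V4.P V4.D (-1) (-1)) ⟨4, 10, 4, 3, 2, 3, 1, 1, 3, 1⟩ :=
  out_sound (S := T4.ds_mm) T4.ok_mm (w := 56) (j := 3) (by decide +kernel)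
theorem L00394 : Good (Phi V4.P V4.D (-1) (-1)) ⟨4, 11, 3, 1, 2, 3, 2, 2, 3, 1⟩ :=
  leaf_sound (S := T4.ds_mm) T4.ok_mm (w := 176) (c := ⟨⟨.negSucc 1815, .negSucc 175, .ofNat 190, .negSucc 157, .ofNat 373, .ofNat 768⟩, ⟨.ofNat 393, .ofNat 12, .ofNat 149, .ofNat 18, .negSucc 115, .negSucc 238⟩, ⟨.ofNat 1144, .ofNat 96, .negSucc 81, .ofNat 0, .negSucc 406, .negSucc 480⟩, ⟨.negSucc 3376, .negSucc 202, .ofNat 224, .negSucc 388, .ofNat 545, .ofNat 1128⟩, ⟨.negSucc 517, .negSucc 19, .negSucc 55, .negSucc 454, .negSucc 467, .negSucc 895⟩, .ofNat 456, .ofNat 342, .ofNat 0, .ofNat 342, .ofNat 1647, .ofNat 0, .ofNat 367, .negSucc 285, .negSucc 494, .ofNat 0, .ofNat 176, .ofNat 139, .ofNat 0, .ofNat 0, .ofNat 586, .ofNat 1497, .ofNat 0, .ofNat 0, .ofNat 0, .ofNat 0, .ofNat 0, .ofNat 0, .ofNat 0, .ofNat 0, .ofNat 0, .ofNat 0, .ofNat 0, .ofNat 0, .ofNat 0, .ofNat 0,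 .ofNat 0, .ofNat 0⟩)
    (by decide +kernel)
theorem L00395 : Good (Phi V4.P V4.D (-1) (-1)) ⟨4, 11, 3, 1, 2, 3, 2, 3, 3, 1⟩ :=
  leaf_sound (S := T4.ds_mm) T4.ok_mm (w := 176) (c := ⟨⟨.negSucc 1530, .negSucc 26, .ofNat 190, .negSucc 145, .ofNat 483, .ofNat 783⟩, ⟨.ofNat 306, .negSucc 50, .ofNat 139, .ofNat 15, .negSucc 125, .negSucc 213⟩, ⟨.ofNat 839, .negSucc 7, .negSucc 107, .negSucc 35, .negSucc 446, .negSucc 547⟩, ⟨.negSucc 2980, .negSucc 6, .ofNat 232, .negSucc 379, .ofNat 800, .ofNat 1255⟩, ⟨.negSucc 1015, .negSucc 117, .ofNat 23, .negSucc 505, .negSucc 273, .negSucc 585⟩, .ofNat 459, .ofNat 352, .ofNat 0, .ofNat 352, .ofNat 1734, .ofNat 0, .ofNat 387, .negSucc 287, .negSucc 584, .ofNat 0, .ofNat 173, .ofNat 149, .ofNat 0, .ofNat 0, .ofNat 631, .ofNat 571, .ofNat 0, .ofNat 0, .ofNat 0, .ofNat 0, .ofNat 0, .ofNat 80538238643895055125772843666636800,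 .ofNat 0, .ofNat 0, .ofNat 0, .ofNat 42106321820993791105348848215654400, .ofNat 0, .ofNat 0, .ofNat 0, .ofNat 43735268726535327314741919586713600, .ofNat 0, .ofNat 0⟩)
    (by decide +kernel)
theorem L00396 : Good (Phi V4.P V4.D (-1) (-1)) ⟨4, 12, 3, 1, 2, 3, 2, 2, 4, 2⟩ :=
  leaf_sound (S := T4.ds_mm) T4.ok_mm (w := 184) (c := ⟨⟨.negSucc 2281, .negSucc 263, .ofNat 298, .negSucc 152, .ofNat 483, .ofNat 591⟩, ⟨.ofNat 546, .ofNat 61, .ofNat 102, .ofNat 21, .negSucc 192, .negSucc 222⟩, ⟨.ofNat 1413, .ofNat 173, .negSucc 171, .ofNat 6, .negSucc 472, .negSucc 369⟩, ⟨.negSucc 3947, .negSucc 308, .ofNat 386, .negSucc 374, .ofNat 630, .ofNat 833⟩, ⟨.negSucc 431, .negSucc 12, .negSucc 89, .negSucc 361, .negSucc 594, .negSucc 516⟩, .ofNat 630, .ofNat 737, .ofNat 0, .ofNat 737, .ofNat 2467, .ofNat 0, .ofNat 319, .negSucc 386, .negSucc 640, .ofNat 0, .ofNat 204, .ofNat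 225, .ofNat 0, .ofNat 0, .ofNat 648, .ofNat 1515, .ofNat 0, .ofNat 0, .ofNat 208376537518968494203758182400, .ofNat 0, .ofNat 0, .ofNat 0, .ofNat 24221463890975359986622581964800, .ofNat 0, .ofNat 0, .ofNat 0, .ofNat 35199488044842840725344852377600, .ofNat 0, .ofNat 0, .ofNat 0, .ofNat 9478287115913518995224081203200, .ofNat 0⟩)
    (by decide +kernel)
theorem L00397 : Good (Phi V4.P V4.D (-1) (-1)) ⟨4, 12, 3, 1, 2, 3, 2, 2, 4, 3⟩ :=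
  leaf_sound (S := T4.ds_mm) T4.ok_mm (w := 184) (c := ⟨⟨.negSucc 1837, .ofNat 108, .ofNat 142, .ofNat 41, .ofNat 611, .ofNat 483⟩, ⟨.ofNat 406, .negSucc 139, .ofNat 148, .negSucc 64, .negSucc 225, .negSucc 187⟩, ⟨.ofNat 1140, .negSucc 68, .negSucc 85, .negSucc 67, .negSucc 597, .negSucc 301⟩, ⟨.negSucc 3274, .ofNat 169, .ofNat 114, .negSucc 164, .ofNat 880, .ofNat 659⟩, ⟨.negSucc 801, .negSucc 176, .negSucc 53, .negSucc 727, .negSucc 469, .negSucc 468⟩, .ofNat 475, .ofNat 392, .ofNat 0, .ofNat 392, .ofNat 1447, .ofNat 0, .ofNat 326, .negSucc 315, .negSucc 486, .ofNat 0, .ofNat 202, .ofNat 175, .ofNat 0, .ofNat 0, .ofNat 577, .ofNat 1790, .ofNat 0, .ofNat 0, .ofNat 0, .ofNat 0, .ofNat 0, .ofNat 0, .ofNat 20095778772027099868261515264000, .ofNat 0, .ofNat 0, .ofNat 27212359050451045288304002990080000, .ofNat 28469506068526037574137728204800, .ofNat 0, .ofNat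 0, .ofNat 0, .ofNat 21278109352059062429091574579200, .ofNat 0⟩)
    (by decide +kernel)
theorem L00398 : Good (Phi V4.P V4.D (-1) (-1)) ⟨4, 12, 3, 1, 2, 3, 2, 3, 3, 1⟩ :=
  leaf_sound (S := T4.ds_mm) T4.ok_mm (w := 176) (c := ⟨⟨.negSucc 1946, .ofNat 2, .ofNat 248, .negSucc 0, .ofNat 867, .ofNat 1314⟩, ⟨.ofNat 423, .negSucc 96, .ofNat 112, .negSucc 38, .negSucc 292, .negSucc 466⟩, ⟨.ofNat 1067, .negSucc 41, .negSucc 135, .negSucc 105, .negSucc 702, .negSucc 894⟩, ⟨.negSucc 3509, .ofNat 34, .ofNat 280, .negSucc 188, .ofNat 1361, .ofNat 1963⟩, ⟨.negSucc 951, .negSucc 34, .negSucc 103, .negSucc 594, .negSucc 326, .negSucc 767⟩, .ofNat 476, .ofNat 395, .ofNat 0, .ofNat 395, .ofNat 1455, .ofNat 0, .ofNat 377, .negSucc 353, .negSucc 737, .ofNat 0, .ofNat 216, .ofNat 245, .ofNat 0, .ofNat 0, .ofNat 699, .ofNat 743, .ofNat 0, .ofNat 0, .ofNat 0, .ofNat 0, .ofNat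 0, .ofNat 50857472029143017918145188855808000, .ofNat 0, .ofNat 0, .ofNat 0, .ofNat 62889592236760185777537179398963200, .ofNat 940250325962507436452059545600, .ofNat 0, .ofNat 0, .ofNat 32817087383305797068209185934540800, .ofNat 1093214757731183478488589926400, .ofNat 0⟩)
    (by decide +kernel)
theorem L00399 : Good (Phi V4.P V4.D (-1) (-1)) ⟨4, 13, 3, 1, 2, 3, 1, 1, 3, 1⟩ :=
  out_sound (S := T4.ds_mm) T4.ok_mm (w := 56) (j := 3) (by decide +kernel)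
theorem L00400 : Good (Phi V4.P V4.D (-1) (-1)) ⟨3, 7, 3, 1, 2, 3, 1, 1, 3, 1⟩ :=
  out_sound (S := T4.ds_mm) T4.ok_mm (w := 48) (j := 3) (by decide +kernel)
theorem L00401 : Good (Phi V4.P V4.D (-1) (-1)) ⟨2, 2, 2, 0, 2, 2, 2, 2, 3, 2⟩ :=
  leaf_sound (S := T4.ds_mm) T4.ok_mm (w := 168) (c := ⟨⟨.negSucc 883, .negSucc 250, .ofNat 223, .negSucc 130, .ofNat 285, .ofNat 230⟩, ⟨.ofNat 51, .ofNat 40, .ofNat 157, .negSucc 11, .negSucc 42, .negSucc 44⟩, ⟨.ofNat 573, .ofNat 247, .negSucc 222, .ofNat 39, .negSucc 353, .negSucc 145⟩, ⟨.negSucc 1881, .negSucc 229, .ofNat 209, .negSucc 354, .ofNat 533, .ofNat 424⟩, ⟨.negSucc 507, .negSucc 185, .negSucc 43, .negSucc 658, .negSucc 115, .negSucc 130⟩, .ofNat 319, .ofNat 63, .ofNat 0, .ofNat 63, .ofNat 753, .ofNat 0, .ofNat 611, .negSucc 135, .negSucc 606, .ofNat 0, .ofNat 310, .ofNat 114, .ofNat 0, .ofNat 0, .ofNat 1011,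 .ofNat 3152, .ofNat 0, .ofNat 0, .ofNat 0, .ofNat 0, .ofNat 0, .ofNat 0, .ofNat 0, .ofNat 0, .ofNat 0, .ofNat 44848598111799073954678702080000, .ofNat 0, .ofNat 0, .ofNat 0, .ofNat 0, .ofNat 0, .ofNat 0⟩)
    (by decide +kernel)
theorem L00402 : Good (Phi V4.P V4.D (-1) (-1)) ⟨2, 2, 2, 0, 2, 3, 2, 2, 3, 2⟩ :=
  leaf_sound (S := T4.ds_mm) T4.ok_mm (w := 168) (c := ⟨⟨.negSucc 1066, .negSucc 354, .ofNat 375, .negSucc 142, .ofNat 294, .ofNat 368⟩, ⟨.ofNat 42, .ofNat 45, .ofNat 192, .negSucc 8, .negSucc 39, .negSucc 53⟩, ⟨.ofNat 658, .ofNat 257, .negSucc 272, .negSucc 10, .negSucc 350, .negSucc 217⟩, ⟨.negSucc 2323, .negSucc 356, .ofNat 388, .negSucc 375, .ofNat 538, .ofNat 653⟩, ⟨.negSucc 954, .negSucc 275, .negSucc 150, .negSucc 688, .negSucc 272, .negSucc 448⟩, .ofNat 321, .ofNat 49, .ofNat 0, .ofNat 49, .ofNat 773, .ofNat 0, .ofNat 736, .negSucc 168, .negSucc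 623, .ofNat 0, .ofNat 343, .ofNat 122, .ofNat 0, .ofNat 0, .ofNat 1020, .ofNat 3005, .ofNat 0, .ofNat 0, .ofNat 0, .ofNat 0, .ofNat 0, .ofNat 326858522440037375603036808806400, .ofNat 0, .ofNat 0, .ofNat 0, .ofNat 252847845952047039296242188288000, .ofNat 0, .ofNat 0, .ofNat 0, .ofNat 288245764470925627889957417779200, .ofNat 0, .ofNat 0⟩)
    (by decide +kernel)
theorem L00403 : Good (Phi V4.P V4.D (-1) (-1)) ⟨2, 2, 2, 0, 1, 1, 2, 3, 3, 2⟩ :=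
  leaf_sound (S := T4.ds_mm) T4.ok_mm (w := 152) (c := ⟨⟨.negSucc 678, .negSucc 143, .ofNat 292, .negSucc 237, .ofNat 481, .ofNat 250⟩, ⟨.ofNat 53, .negSucc 10, .ofNat 105, .negSucc 36, .negSucc 82, .negSucc 46⟩, ⟨.ofNat 297, .ofNat 135, .negSucc 263, .ofNat 85, .negSucc 490, .negSucc 170⟩, ⟨.negSucc 1446, .negSucc 125, .ofNat 341, .negSucc 659, .ofNat 919, .ofNat 472⟩, ⟨.negSucc 631, .negSucc 199, .negSucc 30, .negSucc 1336, .ofNat 35, .negSucc 43⟩, .ofNat 319, .ofNat 62, .ofNat 0, .ofNat 62, .ofNat 757, .ofNat 0, .ofNat 325, .negSucc 64, .negSucc 393, .ofNat 0, .ofNat 163, .ofNat 53, .ofNat 0, .ofNat 0, .ofNat 549, .ofNat 774, .ofNat 0, .ofNat 0, .ofNat 0, .ofNat 0, .ofNat 0, .ofNat 1064042634491442699811002777600, .ofNat 0, .ofNat 0, .ofNat 0, .ofNat 636764397387850181265850368000, .ofNat 0, .ofNat 0, .ofNat 0, .ofNat 844463675912281272697120358400,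 .ofNat 0, .ofNat 0⟩)
    (by decide +kernel)
theorem L00404 : Good (Phi V4.P V4.D (-1) (-1)) ⟨2, 2, 2, 0, 1, 1, 1, 1, 3, 3⟩ :=
  leaf_sound (S := T4.ds_mm) T4.ok_mm (w := 152) (c := ⟨⟨.negSucc 731, .negSucc 144, .ofNat 153, .negSucc 141, .ofNat 577, .ofNat 162⟩, ⟨.ofNat 33, .ofNat 22, .ofNat 132, .negSucc 18, .negSucc 83, .negSucc 26⟩, ⟨.ofNat 466, .ofNat 186, .negSucc 162, .ofNat 78, .negSucc 727, .negSucc 114⟩, ⟨.negSucc 1590, .negSucc 86, .ofNat 122, .negSucc 417, .ofNat 1107, .ofNat 308⟩, ⟨.negSucc 670, .negSucc 143, .negSucc 44, .negSucc 1273, .negSucc 94, .negSucc 46⟩, .ofNat 320, .ofNat 55, .ofNat 0, .ofNat 55, .ofNat 766, .ofNat 0, .ofNat 501, .negSucc 89, .negSucc 422, .ofNat 0, .ofNat 263, .ofNat 69, .ofNat 0, .ofNat 0, .ofNat 880, .ofNat 1124, .ofNat 0, .ofNat 0, .ofNat 0, .ofNat 0, .ofNat 0, .ofNat 1849594306141325848016741990400, .ofNat 0,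 .ofNat 0, .ofNat 0, .ofNat 923880926097911601186000076800, .ofNat 0, .ofNat 0, .ofNat 0, .ofNat 1298047405518202044290590310400, .ofNat 0, .ofNat 0⟩)
    (by decide +kernel)
theorem L00405 : Good (Phi V4.P V4.D (-1) (-1)) ⟨3, 6, 2, 0, 1, 1, 2, 2, 2, 1⟩ :=
  leaf_sound (S := T4.ds_mm) T4.ok_mm (w := 160) (c := ⟨⟨.negSucc 1382, .ofNat 36, .ofNat 245, .ofNat 40, .ofNat 529, .ofNat 630⟩, ⟨.ofNat 158, .negSucc 168, .ofNat 220, .negSucc 127, .negSucc 185, .negSucc 226⟩, ⟨.ofNat 965, .negSucc 51, .negSucc 167, .negSucc 166, .negSucc 564, .negSucc 441⟩, ⟨.negSucc 2338, .ofNat 72, .ofNat 204, .negSucc 447, .ofNat 822, .ofNat 958⟩, ⟨.negSucc 547, .negSucc 168, .negSucc 76, .negSucc 1595, .negSucc 193, .negSucc 304⟩, .ofNat 476, .ofNat 396, .ofNat 0, .ofNat 396, .ofNat 1457, .ofNat 0, .ofNat 499, .negSucc 409, .negSucc 647, .ofNat 0, .ofNat 308, .ofNat 225, .ofNat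 0, .ofNat 0, .ofNat 1018, .ofNat 958, .ofNat 0, .ofNat 0, .ofNat 2097285511320530227814400, .ofNat 0, .ofNat 0, .ofNat 1244492601947312028267420057600, .ofNat 863935466431249802959257600, .ofNat 0, .ofNat 0, .ofNat 5068881012481277895190668902400, .ofNat 975688903092316307403571200, .ofNat 0, .ofNat 0, .ofNat 1295887937256304165307547648000, .ofNat 944291151574825168325836800, .ofNat 0⟩)
    (by decide +kernel)
theorem L00406 : Good (Phi V4.P V4.D (-1) (-1)) ⟨3, 6, 2, 0, 1, 1, 2, 3, 2, 1⟩ :=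
  leaf_sound (S := T4.ds_mm) T4.ok_mm (w := 160) (c := ⟨⟨.negSucc 945, .ofNat 84, .ofNat 317, .ofNat 139, .ofNat 764, .ofNat 704⟩, ⟨.ofNat 69, .negSucc 165, .ofNat 118, .negSucc 154, .negSucc 237, .negSucc 234⟩, ⟨.ofNat 520, .negSucc 91, .negSucc 271, .negSucc 228, .negSucc 718, .negSucc 503⟩, ⟨.negSucc 1704, .ofNat 102, .ofNat 363, .negSucc 260, .ofNat 1302, .ofNat 1149⟩, ⟨.negSucc 781, .negSucc 112, .negSucc 42, .negSucc 1602, .ofNat 29, .negSucc 139⟩, .ofNat 315, .ofNat 138, .ofNat 0, .ofNat 138, .ofNat 662, .ofNat 0, .ofNat 1307, .negSucc 665, .negSucc 2224, .ofNat 0, .ofNat 794, .ofNat 638, .ofNat 0, .ofNat 0, .ofNat 2579, .ofNat 2634, .ofNat 0, .ofNat 235656266604887808313550438400, .ofNat 0, .ofNat 0, .ofNat 0, .ofNat 63593338025649043315398751027200, .ofNat 0, .ofNat 0, .ofNat 0, .ofNat 70173134369393218559708391014400, .ofNat 4796090669492391598306099200,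 .ofNat 0, .ofNat 0, .ofNat 71357663068969352367745636761600, .ofNat 3037044969811004279803084800, .ofNat 0⟩)
    (by decide +kernel)
theorem L00407 : Good (Phi V4.P V4.D (-1) (-1)) ⟨3, 7, 2, 0, 1, 1, 1, 1, 2, 1⟩ :=
  out_sound (S := T4.ds_mm) T4.ok_mm (w := 48) (j := 3) (by decide +kernel)
theorem L00408 : Good (Phi V4.P V4.D (-1) (-1)) ⟨2, 2, 2, 1, 2, 0, 2, 0, 3, 0⟩ :=
  out_sound (S := T4.ds_mm) T4.ok_mm (w := 40) (j := 3) (by decide +kernel)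
theorem L00409 : Good (Phi V4.P V4.D (-1) (-1)) ⟨4, 12, 3, 2, 2, 0, 2, 0, 4, 0⟩ :=
  leaf_sound (S := T4.ds_mm) T4.ok_mm (w := 176) (c := ⟨⟨.negSucc 760, .negSucc 145, .negSucc 20, .ofNat 727, .negSucc 151, .negSucc 557⟩, ⟨.ofNat 248, .ofNat 79, .ofNat 72, .negSucc 278, .ofNat 57, .ofNat 217⟩, ⟨.ofNat 1131, .ofNat 145, .ofNat 12, .negSucc 943, .negSucc 61, .ofNat 548⟩, ⟨.negSucc 1285, .negSucc 164, .negSucc 12, .ofNat 1153, .negSucc 267, .negSucc 889⟩, ⟨.ofNat 42, .negSucc 9, .ofNat 25, .negSucc 111, .negSucc 52, .ofNat 66⟩, .ofNat 527, .ofNat 512, .ofNat 0, .ofNat 512, .ofNat 1587, .ofNat 0, .ofNat 216, .negSucc 195, .negSucc 531, .ofNat 0, .ofNat 152, .ofNat 194, .ofNat 0, .ofNat 0, .ofNat 687, .ofNat 2544, .ofNat 0, .ofNat 0, .ofNat 0, .ofNat 0, .ofNat 0, .ofNat 0, .ofNat 0, .ofNat 0, .ofNat 0, .ofNat 0, .ofNat 0, .ofNat 0, .ofNat 0, .ofNat 0, .ofNat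 0, .ofNat 0⟩)
    (by decide +kernel)
theorem L00410 : Good (Phi V4.P V4.D (-1) (-1)) ⟨5, 24, 3, 3, 2, 0, 2, 0, 4, 0⟩ :=
  out_sound (S := T4.ds_mm) T4.ok_mm (w := 64) (j := 3) (by decide +kernel)
theorem L00411 : Good (Phi V4.P V4.D (-1) (-1)) ⟨5, 25, 3, 3, 2, 0, 2, 0, 4, 0⟩ :=
  leaf_sound (S := T4.ds_mm) T4.ok_mm (w := 184) (c := ⟨⟨.negSucc 883, .negSucc 26, .negSucc 217, .ofNat 806, .negSucc 183, .negSucc 598⟩, ⟨.ofNat 365, .ofNat 34, .ofNat 151, .negSucc 354, .ofNat 78, .ofNat 263⟩, ⟨.ofNat 1257, .ofNat 17, .ofNat 213, .negSucc 1030, .negSucc 30, .ofNat 590⟩, ⟨.negSucc 1424, .negSucc 8, .negSucc 289, .ofNat 1239, .negSucc 315, .negSucc 936⟩, ⟨.ofNat 89, .negSucc 42, .ofNat 137, .negSucc 120, .negSucc 48, .ofNat 54⟩, .ofNat 1414, .ofNat 2355, .ofNat 0, .ofNat 2355, .ofNat 5489, .ofNat 0, .ofNat 142, .negSucc 255, .negSucc 536, .ofNat 0, .ofNat 146,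 .ofNat 236, .ofNat 0, .ofNat 0, .ofNat 694, .ofNat 2860, .ofNat 261176166745524583530671127291494400, .ofNat 0, .ofNat 214049345313829333155132211200, .ofNat 0, .ofNat 0, .ofNat 0, .ofNat 0, .ofNat 0, .ofNat 0, .ofNat 0, .ofNat 34475173179132744329026181529600, .ofNat 0, .ofNat 0, .ofNat 0, .ofNat 18181862931054864915039780864000, .ofNat 0⟩)
    (by decide +kernel)
theorem L00412 : Good (Phi V4.P V4.D (-1) (-1)) ⟨4, 12, 2, 1, 2, 0, 2, 0, 4, 1⟩ :=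
  leaf_sound (S := T4.ds_mm) T4.ok_mm (w := 176) (c := ⟨⟨.negSucc 1077, .negSucc 301, .ofNat 70, .ofNat 271, .ofNat 48, .negSucc 229⟩, ⟨.ofNat 349, .ofNat 165, .ofNat 145, .negSucc 104, .negSucc 22, .ofNat 87⟩, ⟨.ofNat 1419, .ofNat 308, .negSucc 96, .negSucc 440, .negSucc 280, .ofNat 215⟩, ⟨.negSucc 1826, .negSucc 354, .ofNat 127, .ofNat 432, .ofNat 46, .negSucc 371⟩, ⟨.ofNat 61, .ofNat 19, .negSucc 4, .negSucc 31, .negSucc 85, .ofNat 21⟩, .ofNat 527, .ofNat 513, .ofNat 0, .ofNat 513, .ofNat 1591, .ofNat 0, .ofNat 217, .negSucc 196, .negSucc 454, .ofNat 0, .ofNat 152, .ofNat 167, .ofNat 0, .ofNat 0, .ofNat 640, .ofNat 3422, .ofNat 0, .ofNat 0, .ofNat 0, .ofNat 0, .ofNat 0, .ofNat 0, .ofNat 0, .ofNat 0, .ofNat 0, .ofNat 0, .ofNat 0, .ofNat 0, .ofNat 0, .ofNat 0, .ofNat 0, .ofNat 0⟩)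
    (by decide +kernel)

end Crest.Agent.R097C4.N4mm
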