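import Crest.Agent.R097.T4

/-!
# Row 97, box cover in dimension n = 4 (generated)
-/

set_option autoImplicit false
set_option Elab.async false
set_option maxHeartbeats 0
set_option maxRecDepth 100000

open Crest.Agent.R097 Crest.Agent.R097.KA


namespace Crest.Agent.R097C4.N4mm

theorem L00413 : Good (Phi V4.P V4.D (-1) (-1)) ⟨5, 26, 3, 2, 2, 0, 2, 0, 4, 0⟩ :=
  leaf_sound (S := T4.ds_mm) T4.ok_mm (w := 184) (c := ⟨⟨.negSucc 1002, .negSucc 78, .ofNat 16, .ofNat 749, .negSucc 98, .negSucc 555⟩, ⟨.ofNat 377, .ofNat 65, .ofNat 55, .negSucc 329, .ofNat 41, .ofNat 245⟩, ⟨.ofNat 1401, .ofNat 88, .negSucc 49, .negSucc 971, .negSucc 117, .ofNat 546⟩, ⟨.negSucc 1618, .ofNat 5, .ofNat 60, .ofNat 1152, .negSucc 178, .negSucc 861⟩, ⟨.negSucc 33, .ofNat 185, .ofNat 71, .negSucc 93, .negSucc 49, .ofNat 56⟩, .ofNat 1386, .ofNat 2248, .ofNat 0, .ofNat 2248, .ofNat 5169,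 .ofNat 0, .ofNat 158, .negSucc 247, .negSucc 536, .ofNat 0, .ofNat 151, .ofNat 237, .ofNat 0, .ofNat 0, .ofNat 697, .ofNat 3226, .ofNat 0, .ofNat 0, .ofNat 0, .ofNat 0, .ofNat 0, .ofNat 0, .ofNat 170942042218224676204209556684800, .ofNat 0, .ofNat 0, .ofNat 0, .ofNat 114384028893215951103099037286400, .ofNat 0, .ofNat 0, .ofNat 0, .ofNat 24374402645748275623724738150400, .ofNat 0⟩)
    (by decide +kernel)
theorem L00414 : Good (Phi V4.P V4.D (-1) (-1)) ⟨5, 26, 3, 2, 2, 0, 2, 0, 4, 1⟩ :=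
  leaf_sound (S := T4.ds_mm) T4.ok_mm (w := 184) (c := ⟨⟨.negSucc 1484, .negSucc 178, .ofNat 49, .ofNat 312, .ofNat 118, .negSucc 235⟩, ⟨.ofNat 576, .ofNat 104, .ofNat 53, .negSucc 134, .negSucc 54, .ofNat 104⟩, ⟨.ofNat 1827, .ofNat 185, .negSucc 46, .negSucc 495, .negSucc 351, .ofNat 223⟩, ⟨.negSucc 2364, .negSucc 296, .ofNat 108, .ofNat 504, .ofNat 156, .negSucc 367⟩, ⟨.ofNat 17, .negSucc 182, .ofNat 55, .ofNat 17, .negSucc 71, .ofNat 19⟩, .ofNat 1377, .ofNat 2230, .ofNat 0, .ofNat 2230, .ofNat 5127, .ofNat 0, .ofNat 157, .negSucc 245, .negSucc 476, .ofNat 0, .ofNat 151, .ofNat 212, .ofNat 0, .ofNat 0, .ofNat 658, .ofNat 4235, .ofNat 0, .ofNat 0, .ofNat 0, .ofNat 0, .ofNat 31271765062663316235175472311094476800, .ofNat 0, .ofNat 111590570288207885077277835264000, .ofNat 0, .ofNat 0, .ofNat 0, .ofNat 124244145479593324446920736768000, .ofNat 0, .ofNat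 33763172641815303022860870427135180800, .ofNat 0, .ofNat 16894063211563229719450720665600, .ofNat 0⟩)
    (by decide +kernel)
theorem L00415 : Good (Phi V4.P V4.D (-1) (-1)) ⟨5, 26, 3, 3, 2, 0, 3, 0, 4, 0⟩ :=
  leaf_sound (S := T4.ds_mm) T4.ok_mm (w := 184) (c := ⟨⟨.negSucc 1033, .negSucc 171, .ofNat 41, .ofNat 976, .negSucc 40, .negSucc 693⟩, ⟨.ofNat 456, .ofNat 94, .ofNat 55, .negSucc 470, .ofNat 17, .ofNat 336⟩, ⟨.ofNat 1404, .ofNat 173, .negSucc 50, .negSucc 1216, .negSucc 57, .ofNat 686⟩, ⟨.negSucc 1627, .negSucc 237, .ofNat 92, .ofNat 1489, .negSucc 85, .negSucc 1050⟩, ⟨.ofNat 44, .negSucc 22, .ofNat 25, .negSucc 84, .negSucc 39, .ofNat 76⟩, .ofNat 1153, .ofNat 1694, .ofNat 0, .ofNat 1694, .ofNat 3732, .ofNat 0, .ofNat 143, .negSucc 255, .negSucc 598, .ofNat 0, .ofNat 157, .ofNat 284, .ofNat 0, .ofNat 0, .ofNat 739, .ofNat 3234, .ofNat 0, .ofNat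 0, .ofNat 0, .ofNat 0, .ofNat 0, .ofNat 0, .ofNat 0, .ofNat 0, .ofNat 0, .ofNat 0, .ofNat 0, .ofNat 0, .ofNat 0, .ofNat 0, .ofNat 0, .ofNat 0⟩)
    (by decide +kernel)
theorem L00416 : Good (Phi V4.P V4.D (-1) (-1)) ⟨5, 26, 3, 3, 2, 0, 3, 1, 4, 0⟩ :=
  leaf_sound (S := T4.ds_mm) T4.ok_mm (w := 184) (c := ⟨⟨.negSucc 1082, .negSucc 239, .ofNat 149, .ofNat 728, .negSucc 42, .negSucc 471⟩, ⟨.ofNat 478, .ofNat 155, .negSucc 26, .negSucc 355, .ofNat 22, .ofNat 228⟩, ⟨.ofNat 1352, .ofNat 247, .negSucc 162, .negSucc 958, .negSucc 70, .ofNat 452⟩, ⟨.negSucc 1704, .negSucc 275, .ofNat 185, .ofNat 1083, .negSucc 79, .negSucc 717⟩, ⟨.ofNat 41, .ofNat 71, .negSucc 74, .negSucc 113, .negSucc 31, .ofNat 43⟩, .ofNat 637, .ofNat 700, .ofNat 0, .ofNat 700, .ofNat 1688, .ofNat 0, .ofNat 190, .negSucc 237, .negSucc 582, .ofNat 0, .ofNat 174, .ofNat 267, .ofNat 0, .ofNat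 0, .ofNat 739, .ofNat 3605, .ofNat 0, .ofNat 0, .ofNat 0, .ofNat 0, .ofNat 0, .ofNat 0, .ofNat 0, .ofNat 0, .ofNat 0, .ofNat 0, .ofNat 0, .ofNat 0, .ofNat 0, .ofNat 0, .ofNat 22535157682484783159791583232000, .ofNat 0⟩)
    (by decide +kernel)
theorem L00417 : Good (Phi V4.P V4.D (-1) (-1)) ⟨5, 26, 3, 3, 2, 0, 3, 0, 4, 1⟩ :=
  leaf_sound (S := T4.ds_mm) T4.ok_mm (w := 184) (c := ⟨⟨.negSucc 1456, .negSucc 241, .ofNat 35, .ofNat 378, .ofNat 94, .negSucc 258⟩, ⟨.ofNat 634, .ofNat 151, .ofNat 79, .negSucc 177, .negSucc 44, .ofNat 125⟩, ⟨.ofNat 1810, .ofNat 246, .negSucc 48, .negSucc 586, .negSucc 203, .ofNat 247⟩, ⟨.negSucc 2314, .negSucc 282, .ofNat 64, .ofNat 629, .ofNat 126, .negSucc 393⟩, ⟨.ofNat 27, .ofNat 29, .ofNat 0, .ofNat 76, .negSucc 44, .ofNat 26⟩, .ofNat 1152, .ofNat 1687, .ofNat 0, .ofNat 1687, .ofNat 3705, .ofNat 0, .ofNat 142, .negSucc 253,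 .negSucc 509, .ofNat 0, .ofNat 157, .ofNat 242, .ofNat 0, .ofNat 0, .ofNat 676, .ofNat 4247, .ofNat 0, .ofNat 0, .ofNat 0, .ofNat 0, .ofNat 0, .ofNat 0, .ofNat 0, .ofNat 0, .ofNat 0, .ofNat 0, .ofNat 0, .ofNat 0, .ofNat 0, .ofNat 0, .ofNat 0, .ofNat 0⟩)
    (by decide +kernel)
theorem L00418 : Good (Phi V4.P V4.D (-1) (-1)) ⟨5, 26, 3, 3, 2, 0, 3, 1, 4, 1⟩ :=
  leaf_sound (S := T4.ds_mm) T4.ok_mm (w := 184) (c := ⟨⟨.negSucc 1333, .negSucc 166, .negSucc 36, .ofNat 270, .ofNat 48, .negSucc 210⟩, ⟨.ofNat 581, .ofNat 106, .ofNat 114, .negSucc 127, .negSucc 24, .ofNat 101⟩, ⟨.ofNat 1556, .ofNat 171, .ofNat 30, .negSucc 447, .negSucc 164, .ofNat 195⟩, ⟨.negSucc 2118, .negSucc 176, .negSucc 43, .ofNat 426, .ofNat 57, .negSucc 324⟩, ⟨.ofNat 21, .ofNat 26, .ofNat 8, .ofNat 2, .negSucc 37, .ofNat 11⟩, .ofNat 1186, .ofNat 1747, .ofNat 0, .ofNat 1747, .ofNat 3799,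 .ofNat 0, .ofNat 143, .negSucc 261, .negSucc 487, .ofNat 0, .ofNat 161, .ofNat 234, .ofNat 0, .ofNat 0, .ofNat 671, .ofNat 4986, .ofNat 0, .ofNat 0, .ofNat 0, .ofNat 0, .ofNat 0, .ofNat 0, .ofNat 0, .ofNat 0, .ofNat 0, .ofNat 0, .ofNat 0, .ofNat 0, .ofNat 0, .ofNat 0, .ofNat 0, .ofNat 0⟩)
    (by decide +kernel)
theorem L00419 : Good (Phi V4.P V4.D (-1) (-1)) ⟨5, 27, 3, 2, 2, 0, 2, 0, 3, 0⟩ :=
  out_sound (S := T4.ds_mm) T4.ok_mm (w := 64) (j := 3) (by decide +kernel)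
theorem L00420 : Good (Phi V4.P V4.D (-1) (-1)) ⟨5, 27, 4, 6, 2, 0, 2, 0, 4, 0⟩ :=
  out_sound (S := T4.ds_mm) T4.ok_mm (w := 64) (j := 3) (by decide +kernel)
theorem L00421 : Good (Phi V4.P V4.D (-1) (-1)) ⟨5, 27, 4, 7, 3, 0, 2, 0, 4, 0⟩ :=
  leaf_sound (S := T4.ds_mm) T4.ok_mm (w := 200) (c := ⟨⟨.negSucc 1299, .negSucc 518, .ofNat 38, .ofNat 308, .ofNat 68, .negSucc 445⟩, ⟨.ofNat 639, .ofNat 299, .ofNat 22, .negSucc 159, .negSucc 35, .ofNat 233⟩, ⟨.ofNat 1674, .ofNat 549, .negSucc 42, .negSucc 421, .negSucc 288, .ofNat 427⟩, ⟨.negSucc 1976, .negSucc 682, .ofNat 42, .ofNat 494, .ofNat 84, .negSucc 670⟩, ⟨.ofNat 56, .ofNat 105, .negSucc 43, .ofNat 40, .negSucc 37, .ofNat 26⟩, .ofNat 3695, .ofNat 6336, .ofNat 0, .ofNat 6336, .ofNat 12157, .ofNat 0, .ofNat 94, .negSucc 280, .negSucc 561, .ofNat 0, .ofNat 163, .ofNat 294, .ofNat 0, .ofNat 0, .ofNat 722,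 .ofNat 2202, .ofNat 119735340835869485326583753584567910400, .ofNat 0, .ofNat 154269530583643748944727506944000, .ofNat 0, .ofNat 0, .ofNat 0, .ofNat 59185023433773387243487899313766400, .ofNat 0, .ofNat 0, .ofNat 0, .ofNat 53030117195278373887112370349670400, .ofNat 0, .ofNat 0, .ofNat 0, .ofNat 25026449451342662110027972608000000, .ofNat 0⟩)
    (by decide +kernel)
theorem L00422 : Good (Phi V4.P V4.D (-1) (-1)) ⟨5, 27, 4, 7, 3, 1, 2, 0, 4, 0⟩ :=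
  leaf_sound (S := T4.ds_mm) T4.ok_mm (w := 200) (c := ⟨⟨.negSucc 377, .ofNat 843, .negSucc 266, .ofNat 678, .negSucc 323, .negSucc 892⟩, ⟨.ofNat 173, .negSucc 429, .ofNat 165, .negSucc 356, .ofNat 168, .ofNat 469⟩, ⟨.ofNat 619, .negSucc 846, .ofNat 261, .negSucc 795, .ofNat 118, .ofNat 886⟩, ⟨.negSucc 585, .ofNat 1257, .negSucc 379, .ofNat 958, .negSucc 529, .negSucc 1300⟩, ⟨.negSucc 5, .negSucc 141, .ofNat 55, .negSucc 158, .negSucc 63, .ofNat 135⟩, .ofNat 2476, .ofNat 4063, .ofNat 0, .ofNat 4063, .ofNat 7904, .ofNat 0, .ofNat 102, .negSucc 286, .negSucc 675, .ofNat 0, .ofNat 168, .ofNat 355, .ofNat 0, .ofNat 0, .ofNat 805, .ofNat 3249, .ofNat 315553283747833456234364528940495667200, .ofNat 0, .ofNat 54258800096995055086797324288000, .ofNat 0, .ofNat 0, .ofNat 0, .ofNat 53743841933841668427809095994572800, .ofNat 0, .ofNat 8352811903944017315808278662605491404800,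 .ofNat 0, .ofNat 21118171023447779581574572199116800, .ofNat 0, .ofNat 9844828041883084285709080212668625715200, .ofNat 0, .ofNat 24590793306397488466459192668979200, .ofNat 0⟩)
    (by decide +kernel)
theorem L00423 : Good (Phi V4.P V4.D (-1) (-1)) ⟨5, 27, 4, 6, 2, 0, 2, 0, 4, 1⟩ :=
  out_sound (S := T4.ds_mm) T4.ok_mm (w := 64) (j := 3) (by decide +kernel)
theorem L00424 : Good (Phi V4.P V4.D (-1) (-1)) ⟨5, 27, 4, 7, 2, 0, 2, 0, 4, 1⟩ :=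
  leaf_sound (S := T4.ds_mm) T4.ok_mm (w := 192) (c := ⟨⟨.negSucc 1853, .negSucc 774, .ofNat 272, .ofNat 352, .ofNat 155, .negSucc 294⟩, ⟨.ofNat 925, .ofNat 437, .negSucc 95, .negSucc 182, .negSucc 82, .ofNat 155⟩, ⟨.ofNat 2217, .ofNat 885, .negSucc 303, .negSucc 552, .negSucc 381, .ofNat 287⟩, ⟨.negSucc 2836, .negSucc 1158, .ofNat 441, .ofNat 558, .ofNat 194, .negSucc 441⟩, ⟨.ofNat 39, .negSucc 75, .ofNat 36, .ofNat 35, .negSucc 82, .ofNat 21⟩, .ofNat 3704, .ofNat 6354, .ofNat 0, .ofNat 6354, .ofNat 12196, .ofNat 0, .ofNat 94, .negSucc 283, .negSucc 538, .ofNat 0, .ofNat 164, .ofNat 283, .ofNat 0, .ofNat 0, .ofNat 704, .ofNat 2558, .ofNat 0, .ofNat 0, .ofNat 93124841395085925929503948800, .ofNat 0, .ofNat 15318182472348331790684250870015590400, .ofNat 0, .ofNat 99508820133966413149941792768000, .ofNat 0, .ofNat 0, .ofNat 0, .ofNat 88254826847745750909080882380800,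 .ofNat 0, .ofNat 45220122172064070479390873498733772800, .ofNat 0, .ofNat 27583518445092416810353950720000, .ofNat 0⟩)
    (by decide +kernel)
theorem L00425 : Good (Phi V4.P V4.D (-1) (-1)) ⟨3, 7, 2, 1, 2, 0, 2, 0, 3, 0⟩ :=
  out_sound (S := T4.ds_mm) T4.ok_mm (w := 48) (j := 3) (by decide +kernel)
theorem L00426 : Good (Phi V4.P V4.D (-1) (-1)) ⟨2, 2, 2, 1, 2, 0, 2, 1, 3, 0⟩ :=
  out_sound (S := T4.ds_mm) T4.ok_mm (w := 40) (j := 3) (by decide +kernel)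
theorem L00427 : Good (Phi V4.P V4.D (-1) (-1)) ⟨3, 6, 2, 1, 2, 0, 2, 1, 4, 0⟩ :=
  leaf_sound (S := T4.ds_mm) T4.ok_mm (w := 176) (c := ⟨⟨.negSucc 865, .negSucc 220, .negSucc 140, .ofNat 398, .negSucc 25, .negSucc 294⟩, ⟨.ofNat 283, .ofNat 151, .ofNat 216, .negSucc 175, .negSucc 0, .ofNat 126⟩, ⟨.ofNat 1003, .ofNat 184, .ofNat 155, .negSucc 574, .negSucc 235, .ofNat 279⟩, ⟨.negSucc 1461, .negSucc 145, .negSucc 225, .ofNat 566, .negSucc 80, .negSucc 459⟩, ⟨.ofNat 37, .ofNat 73, .negSucc 43, .negSucc 182, .negSucc 72, .ofNat 24⟩, .ofNat 550, .ofNat 556, .ofNat 0, .ofNat 556, .ofNat 1617, .ofNat 0, .ofNat 224, .negSucc 218, .negSucc 500, .ofNat 0, .ofNat 167, .ofNat 194, .ofNat 0, .ofNat 0, .ofNat 697, .ofNat 659, .ofNat 0, .ofNat 0, .ofNat 148483004086792123943642726400, .ofNat 0, .ofNat 0, .ofNat 0, .ofNat 0, .ofNat 0, .ofNat 0, .ofNat 0, .ofNat 22412161606194144900295321190400,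 .ofNat 0, .ofNat 0, .ofNat 0, .ofNat 15875035983464241575018417356800, .ofNat 0⟩)
    (by decide +kernel)
theorem L00428 : Good (Phi V4.P V4.D (-1) (-1)) ⟨3, 6, 2, 1, 2, 0, 2, 1, 4, 1⟩ :=
  leaf_sound (S := T4.ds_mm) T4.ok_mm (w := 176) (c := ⟨⟨.negSucc 1063, .negSucc 417, .negSucc 31, .ofNat 146, .ofNat 91, .negSucc 120⟩, ⟨.ofNat 346, .ofNat 223, .ofNat 216, .negSucc 69, .negSucc 39, .ofNat 51⟩, ⟨.ofNat 1138, .ofNat 456, .negSucc 1, .negSucc 250, .negSucc 351, .ofNat 104⟩, ⟨.negSucc 1790, .negSucc 487, .ofNat 11, .ofNat 167, .ofNat 116, .negSucc 191⟩, ⟨.ofNat 61, .negSucc 78, .ofNat 83, .negSucc 155, .negSucc 84, .ofNat 9⟩, .ofNat 564, .ofNat 581, .ofNat 0, .ofNat 581, .ofNat 1622, .ofNat 0, .ofNat 214, .negSucc 219, .negSucc 453, .ofNat 0, .ofNat 166, .ofNat 182, .ofNat 0, .ofNat 0, .ofNat 663, .ofNat 1823, .ofNat 0, .ofNat 0, .ofNat 0, .ofNat 0, .ofNat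 0, .ofNat 0, .ofNat 0, .ofNat 0, .ofNat 0, .ofNat 0, .ofNat 31931289574757627605122495283200, .ofNat 0, .ofNat 0, .ofNat 0, .ofNat 12045049059109647644457172992000, .ofNat 0⟩)
    (by decide +kernel)
theorem L00429 : Good (Phi V4.P V4.D (-1) (-1)) ⟨3, 7, 2, 1, 2, 0, 2, 1, 3, 0⟩ :=
  out_sound (S := T4.ds_mm) T4.ok_mm (w := 48) (j := 3) (by decide +kernel)
theorem L00430 : Good (Phi V4.P V4.D (-1) (-1)) ⟨2, 2, 2, 1, 2, 0, 1, 0, 3, 1⟩ :=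
  out_sound (S := T4.ds_mm) T4.ok_mm (w := 40) (j := 3) (by decide +kernel)
theorem L00431 : Good (Phi V4.P V4.D (-1) (-1)) ⟨4, 12, 3, 2, 2, 0, 2, 0, 4, 2⟩ :=
  leaf_sound (S := T4.ds_mm) T4.ok_mm (w := 176) (c := ⟨⟨.negSucc 1299, .negSucc 240, .negSucc 13, .ofNat 89, .ofNat 156, .negSucc 37⟩, ⟨.ofNat 421, .ofNat 150, .ofNat 100, .negSucc 31, .negSucc 63, .ofNat 16⟩, ⟨.ofNat 1616, .ofNat 248, .ofNat 1, .negSucc 208, .negSucc 409, .ofNat 13⟩, ⟨.negSucc 2209, .negSucc 233, .negSucc 15, .ofNat 149, .ofNat 226, .negSucc 59⟩, ⟨.ofNat 46, .ofNat 32, .negSucc 1, .ofNat 6, .negSucc 80, .ofNat 0⟩, .ofNat 1030, .ofNat 1656, .ofNat 0, .ofNat 1656, .ofNat 4455, .ofNat 0, .ofNat 166, .negSucc 224, .negSucc 366, .ofNat 0, .ofNat 131, .ofNat 141, .ofNat 0, .ofNat 0, .ofNat 581, .ofNat 4889, .ofNat 0, .ofNat 0, .ofNat 0, .ofNat 0, .ofNat 0, .ofNat 0, .ofNat 34647445798873066498130391859200,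 .ofNat 0, .ofNat 1107024474766713292995582467506176000, .ofNat 0, .ofNat 24542862523648926828607202918400, .ofNat 0, .ofNat 0, .ofNat 0, .ofNat 0, .ofNat 0⟩)
    (by decide +kernel)
theorem L00432 : Good (Phi V4.P V4.D (-1) (-1)) ⟨4, 12, 3, 3, 2, 0, 2, 0, 4, 2⟩ :=
  leaf_sound (S := T4.ds_mm) T4.ok_mm (w := 184) (c := ⟨⟨.negSucc 1302, .negSucc 266, .ofNat 71, .ofNat 89, .ofNat 171, .negSucc 43⟩, ⟨.ofNat 504, .ofNat 183, .ofNat 60, .negSucc 37, .negSucc 77, .ofNat 19⟩, ⟨.ofNat 1631, .ofNat 248, .negSucc 92, .negSucc 221, .negSucc 415, .ofNat 31⟩, ⟨.negSucc 2239, .negSucc 232, .ofNat 138, .ofNat 156, .ofNat 225, .negSucc 69⟩, ⟨.negSucc 21, .ofNat 98, .ofNat 47, .ofNat 33, .negSucc 108, .ofNat 1⟩, .ofNat 1388, .ofNat 2289, .ofNat 0, .ofNat 2289, .ofNat 5321, .ofNat 0, .ofNat 140, .negSucc 247, .negSucc 397, .ofNat 0, .ofNat 142, .ofNat 176, .ofNat 0, .ofNat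 0, .ofNat 603, .ofNat 8518, .ofNat 0, .ofNat 0, .ofNat 0, .ofNat 0, .ofNat 0, .ofNat 0, .ofNat 0, .ofNat 0, .ofNat 0, .ofNat 0, .ofNat 157337261197466424663384627609600, .ofNat 0, .ofNat 1458741014440965030295595255228006400, .ofNat 0, .ofNat 0, .ofNat 0⟩)
    (by decide +kernel)
theorem L00433 : Good (Phi V4.P V4.D (-1) (-1)) ⟨4, 12, 2, 1, 2, 0, 2, 0, 4, 3⟩ :=
  leaf_sound (S := T4.ds_mm) T4.ok_mm (w := 176) (c := ⟨⟨.negSucc 1305, .negSucc 221, .ofNat 2, .ofNat 0, .ofNat 153, .ofNat 46⟩, ⟨.ofNat 426, .ofNat 138, .ofNat 190, .negSucc 0, .negSucc 60, .negSucc 17⟩, ⟨.ofNat 1572, .ofNat 238, .negSucc 32, .negSucc 61, .negSucc 411, .negSucc 76⟩, ⟨.negSucc 2210, .negSucc 220, .ofNat 31, .negSucc 8, .ofNat 226, .ofNat 69⟩, ⟨.ofNat 65, .negSucc 0, .ofNat 34, .negSucc 30, .negSucc 71, .negSucc 22⟩, .ofNat 325, .ofNat 170, .ofNat 0, .ofNat 170, .ofNat 680, .ofNat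 0, .ofNat 251, .negSucc 136, .negSucc 373, .ofNat 0, .ofNat 176, .ofNat 124, .ofNat 0, .ofNat 0, .ofNat 591, .ofNat 15383, .ofNat 0, .ofNat 0, .ofNat 0, .ofNat 0, .ofNat 0, .ofNat 0, .ofNat 0, .ofNat 0, .ofNat 0, .ofNat 0, .ofNat 0, .ofNat 0, .ofNat 825572497556059961119088126931763200, .ofNat 0, .ofNat 675859166034967738865575526400, .ofNat 0⟩)
    (by decide +kernel)
theorem L00434 : Good (Phi V4.P V4.D (-1) (-1)) ⟨4, 12, 2, 1, 2, 0, 2, 1, 3, 1⟩ :=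
  leaf_sound (S := T4.ds_mm) T4.ok_mm (w := 176) (c := ⟨⟨.negSucc 1179, .negSucc 178, .negSucc 37, .ofNat 21, .ofNat 153, .ofNat 29⟩, ⟨.ofNat 382, .ofNat 119, .ofNat 185, .negSucc 14, .negSucc 60, .negSucc 8⟩, ⟨.ofNat 1195, .ofNat 186, .ofNat 31, .negSucc 64, .negSucc 388, .negSucc 70⟩, ⟨.negSucc 2002, .negSucc 149, .negSucc 66, .negSucc 20, .ofNat 224, .ofNat 48⟩, ⟨.ofNat 43, .ofNat 17, .ofNat 6, .negSucc 147, .negSucc 74, .negSucc 4⟩, .ofNat 798, .ofNat 1110, .ofNat 0, .ofNat 1110, .ofNat 3115, .ofNat 0, .ofNat 179, .negSucc 214, .negSucc 340, .ofNat 0, .ofNat 134, .ofNat 129, .ofNat 0, .ofNat 0, .ofNat 573, .ofNat 2987, .ofNat 0, .ofNat 0, .ofNat 0, .ofNat 0, .ofNat 0, .ofNat 0, .ofNat 0, .ofNat 0, .ofNat 0, .ofNat 0, .ofNat 422930976903916363970091417600, .ofNat 0, .ofNat 0, .ofNat 0, .ofNat 367277361014611986947348889600, .ofNat 0⟩)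
    (by decide +kernel)
theorem L00435 : Good (Phi V4.P V4.D (-1) (-1)) ⟨4, 13, 3, 2, 2, 0, 1, 0, 3, 1⟩ :=
  leaf_sound (S := T4.ds_mm) T4.ok_mm (w := 176) (c := ⟨⟨.negSucc 1569, .negSucc 151, .negSucc 8, .ofNat 46, .ofNat 333, .ofNat 50⟩, ⟨.ofNat 603, .ofNat 111, .ofNat 91, .negSucc 22, .negSucc 152, .negSucc 22⟩, ⟨.ofNat 1859, .ofNat 94, .negSucc 5, .negSucc 120, .negSucc 812, .negSucc 71⟩, ⟨.negSucc 2470, .negSucc 171, .ofNat 5, .ofNat 45, .ofNat 460, .ofNat 64⟩, ⟨.ofNat 106, .negSucc 80, .ofNat 11, .negSucc 64, .negSucc 162, .negSucc 35⟩, .ofNat 1359, .ofNat 2193, .ofNat 0, .ofNat 2193, .ofNat 5052, .ofNat 0, .ofNat 152, .negSucc 238, .negSucc 368, .ofNat 0, .ofNat 146, .ofNat 164, .ofNat 0, .ofNat 0, .ofNat 589, .ofNat 2406, .ofNat 0, .ofNat 0, .ofNat 4453971719757751892783923200, .ofNat 0, .ofNat 3821380723839092768634562412544000, .ofNat 0, .ofNat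 4556580421567074218269684531200, .ofNat 0, .ofNat 25492621579931299654695625791897600, .ofNat 0, .ofNat 2992757724634754090924192563200, .ofNat 0, .ofNat 40105328136472004339112973487308800, .ofNat 0, .ofNat 811689040611977653550422425600, .ofNat 0⟩)
    (by decide +kernel)
theorem L00436 : Good (Phi V4.P V4.D (-1) (-1)) ⟨4, 13, 3, 3, 2, 0, 2, 0, 3, 1⟩ :=
  leaf_sound (S := T4.ds_mm) T4.ok_mm (w := 176) (c := ⟨⟨.negSucc 1562, .negSucc 153, .negSucc 75, .ofNat 33, .ofNat 164, .ofNat 66⟩, ⟨.ofNat 690, .ofNat 146, .ofNat 130, .negSucc 15, .negSucc 82, .negSucc 33⟩, ⟨.ofNat 1841, .ofNat 94, .ofNat 110, .negSucc 130, .negSucc 399, .negSucc 99⟩, ⟨.negSucc 2441, .negSucc 77, .negSucc 100, .ofNat 58, .ofNat 206, .ofNat 78⟩, ⟨.ofNat 105, .ofNat 1, .ofNat 25, .ofNat 14, .negSucc 106, .negSucc 51⟩, .ofNat 1176, .ofNat 1724, .ofNat 0, .ofNat 1724, .ofNat 3748, .ofNat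 0, .ofNat 136, .negSucc 246, .negSucc 375, .ofNat 0, .ofNat 152, .ofNat 181, .ofNat 0, .ofNat 0, .ofNat 589, .ofNat 3434, .ofNat 0, .ofNat 0, .ofNat 4659134915994017792104857600, .ofNat 0, .ofNat 0, .ofNat 0, .ofNat 2922925277796931324826615808000, .ofNat 0, .ofNat 350697466860994481541529872000614400, .ofNat 0, .ofNat 1300679844775308616146930892800, .ofNat 0, .ofNat 177916332921201429224501138581094400, .ofNat 0, .ofNat 831441897931897904240472883200, .ofNat 0⟩)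
    (by decide +kernel)
theorem L00437 : Good (Phi V4.P V4.D (-1) (-1)) ⟨4, 13, 3, 3, 2, 0, 2, 1, 3, 1⟩ :=
  leaf_sound (S := T4.ds_mm) T4.ok_mm (w := 176) (c := ⟨⟨.negSucc 1429, .negSucc 224, .negSucc 11, .ofNat 24, .ofNat 180, .ofNat 97⟩, ⟨.ofNat 629, .ofNat 162, .ofNat 100, .negSucc 14, .negSucc 89, .negSucc 47⟩, ⟨.ofNat 1440, .ofNat 268, .negSucc 22, .negSucc 66, .negSucc 401, .negSucc 121⟩, ⟨.negSucc 2248, .negSucc 215, .negSucc 5, .negSucc 19, .ofNat 242, .ofNat 137⟩, ⟨.ofNat 58, .negSucc 21, .ofNat 27, .negSucc 121, .negSucc 78, .negSucc 31⟩, .ofNat 1192, .ofNat 1756, .ofNat 0, .ofNat 1756, .ofNat 3810, .ofNat 0, .ofNat 137, .negSucc 252, .negSucc 381, .ofNat 0, .ofNat 155, .ofNat 184, .ofNat 0, .ofNat 0, .ofNat 601, .ofNat 2810, .ofNat 0, .ofNat 0, .ofNat 8913483103480538557788979200, .ofNat 0, .ofNat 0, .ofNat 0, .ofNat 2623031567295868188547979673600,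 .ofNat 0, .ofNat 0, .ofNat 0, .ofNat 1853548252751439934126659993600, .ofNat 0, .ofNat 0, .ofNat 0, .ofNat 0, .ofNat 0⟩)
    (by decide +kernel)
theorem L00438 : Good (Phi V4.P V4.D (-1) (-1)) ⟨3, 7, 2, 1, 2, 0, 1, 0, 3, 1⟩ :=
  out_sound (S := T4.ds_mm) T4.ok_mm (w := 48) (j := 3) (by decide +kernel)
theorem L00439 : Good (Phi V4.P V4.D (-1) (-1)) ⟨2, 2, 2, 1, 2, 0, 1, 0, 2, 1⟩ :=
  out_sound (S := T4.ds_mm) T4.ok_mm (w := 40) (j := 3) (by decide +kernel)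
theorem L00440 : Good (Phi V4.P V4.D (-1) (-1)) ⟨4, 12, 2, 1, 2, 0, 1, 0, 2, 1⟩ :=
  leaf_sound (S := T4.ds_mm) T4.ok_mm (w := 168) (c := ⟨⟨.negSucc 1312, .negSucc 117, .negSucc 8, .ofNat 41, .ofNat 282, .ofNat 292⟩, ⟨.ofNat 450, .ofNat 81, .ofNat 149, .negSucc 25, .negSucc 112, .negSucc 109⟩, ⟨.ofNat 1413, .ofNat 65, .ofNat 105, .ofNat 48, .negSucc 651, .negSucc 367⟩, ⟨.negSucc 2176, .negSucc 92, .negSucc 12, .negSucc 17, .ofNat 430, .ofNat 462⟩, ⟨.ofNat 115, .negSucc 20, .ofNat 35, .negSucc 225, .negSucc 90, .negSucc 57⟩, .ofNat 325, .ofNat 171, .ofNat 0, .ofNat 171, .ofNat 681, .ofNat 0, .ofNat 424, .negSucc 232, .negSucc 496, .ofNat 0, .ofNat 298, .ofNat 162, .ofNat 0, .ofNat 0, .ofNat 964, .ofNat 4105, .ofNat 0, .ofNat 0, .ofNat 33248168309464650016358400, .ofNat 0, .ofNat 0, .ofNat 0, .ofNat 0, .ofNat 0, .ofNat 0, .ofNat 0, .ofNat 0, .ofNat 0, .ofNat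 3265703065503801402385966615756800, .ofNat 0, .ofNat 4548634052657401433161728000, .ofNat 0⟩)
    (by decide +kernel)
theorem L00441 : Good (Phi V4.P V4.D (-1) (-1)) ⟨4, 13, 2, 1, 2, 0, 2, 0, 2, 1⟩ :=
  leaf_sound (S := T4.ds_mm) T4.ok_mm (w := 168) (c := ⟨⟨.negSucc 1486, .negSucc 184, .ofNat 24, .negSucc 6, .ofNat 147, .ofNat 427⟩, ⟨.ofNat 587, .ofNat 152, .ofNat 139, .ofNat 0, .negSucc 69, .negSucc 211⟩, ⟨.ofNat 1640, .ofNat 167, .negSucc 15, .ofNat 67, .negSucc 387, .negSucc 506⟩, ⟨.negSucc 2297, .negSucc 132, .ofNat 23, .negSucc 77, .ofNat 195, .ofNat 611⟩, ⟨.ofNat 130, .ofNat 56, .negSucc 19, .negSucc 140, .negSucc 82, .negSucc 116⟩, .ofNat 645, .ofNat 715, .ofNat 0, .ofNat 715, .ofNat 1709, .ofNat 0, .ofNat 303, .negSucc 384, .negSucc 480, .ofNat 0, .ofNat 281, .ofNat 225, .ofNat 0, .ofNat 0, .ofNat 984, .ofNat 15850, .ofNat 0, .ofNat 0, .ofNat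 0, .ofNat 0, .ofNat 43202258616331175542417295356723200, .ofNat 0, .ofNat 196477739139296060833687142400, .ofNat 0, .ofNat 125803008181493415717071947510579200, .ofNat 0, .ofNat 160806724108988607212027904000, .ofNat 0, .ofNat 66182929675994642939078007324672000, .ofNat 0, .ofNat 0, .ofNat 0⟩)
    (by decide +kernel)
theorem L00442 : Good (Phi V4.P V4.D (-1) (-1)) ⟨4, 13, 2, 1, 2, 0, 2, 1, 2, 1⟩ :=
  leaf_sound (S := T4.ds_mm) T4.ok_mm (w := 168) (c := ⟨⟨.negSucc 1315, .negSucc 65, .negSucc 70, .ofNat 56, .ofNat 153, .ofNat 379⟩, ⟨.ofNat 508, .ofNat 70, .ofNat 193, .negSucc 32, .negSucc 76, .negSucc 185⟩, ⟨.ofNat 1166, .ofNat 24, .ofNat 120, .ofNat 29, .negSucc 314, .negSucc 414⟩, ⟨.negSucc 2070, .negSucc 15, .negSucc 84, .negSucc 17, .ofNat 218, .ofNat 561⟩, ⟨.ofNat 48, .negSucc 17, .ofNat 22, .negSucc 217, .negSucc 36, .negSucc 63⟩, .ofNat 346, .ofNat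 223, .ofNat 0, .ofNat 223, .ofNat 678, .ofNat 0, .ofNat 404, .negSucc 295, .negSucc 550, .ofNat 0, .ofNat 326, .ofNat 228, .ofNat 0, .ofNat 0, .ofNat 1002, .ofNat 8938, .ofNat 0, .ofNat 0, .ofNat 0, .ofNat 0, .ofNat 0, .ofNat 0, .ofNat 0, .ofNat 0, .ofNat 0, .ofNat 0, .ofNat 150484695998098515603908198400, .ofNat 0, .ofNat 0, .ofNat 0, .ofNat 55033368862266670651224883200, .ofNat 0⟩)
    (by decide +kernel)
theorem L00443 : Good (Phi V4.P V4.D (-1) (-1)) ⟨3, 7, 2, 1, 2, 0, 1, 0, 2, 1⟩ :=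
  out_sound (S := T4.ds_mm) T4.ok_mm (w := 48) (j := 3) (by decide +kernel)
theorem L00444 : Good (Phi V4.P V4.D (-1) (-1)) ⟨2, 2, 2, 1, 2, 1, 1, 0, 2, 0⟩ :=
  out_sound (S := T4.ds_mm) T4.ok_mm (w := 40) (j := 3) (by decide +kernel)
theorem L00445 : Good (Phi V4.P V4.D (-1) (-1)) ⟨4, 12, 2, 1, 3, 2, 2, 0, 4, 0⟩ :=
  leaf_sound (S := T4.ds_mm) T4.ok_mm (w := 184) (c := ⟨⟨.ofNat 149, .negSucc 115, .ofNat 278, .ofNat 453, .negSucc 446, .negSucc 792⟩, ⟨.negSucc 68, .ofNat 53, .negSucc 75, .negSucc 188, .ofNat 164, .ofNat 304⟩, ⟨.ofNat 17, .ofNat 93, .negSucc 271, .negSucc 523, .ofNat 225, .ofNat 774⟩, ⟨.ofNat 200, .negSucc 145, .ofNat 372, .ofNat 656, .negSucc 769, .negSucc 1258⟩, ⟨.negSucc 106, .ofNat 17, .negSucc 72, .negSucc 221, .negSucc 84, .ofNat 127⟩, .ofNat 530, .ofNat 520, .ofNat 0, .ofNat 520, .ofNat 1609, .ofNat 0, .ofNat 225, .negSucc 214, .negSucc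 586, .ofNat 0, .ofNat 158, .ofNat 223, .ofNat 0, .ofNat 0, .ofNat 716, .ofNat 2365, .ofNat 1331875957123719445239249844882636800, .ofNat 0, .ofNat 0, .ofNat 0, .ofNat 0, .ofNat 0, .ofNat 0, .ofNat 0, .ofNat 0, .ofNat 0, .ofNat 3528904926116902415560925301964800, .ofNat 0, .ofNat 0, .ofNat 0, .ofNat 0, .ofNat 0⟩)
    (by decide +kernel)
theorem L00446 : Good (Phi V4.P V4.D (-1) (-1)) ⟨5, 26, 2, 1, 3, 2, 2, 0, 4, 0⟩ :=
  leaf_sound (S := T4.ds_mm) T4.ok_mm (w := 192) (c := ⟨⟨.ofNat 119, .negSucc 184, .ofNat 560, .ofNat 718, .negSucc 663, .negSucc 1180⟩, ⟨.negSucc 118, .ofNat 87, .negSucc 201, .negSucc 355, .ofNat 320, .ofNat 582⟩, ⟨.ofNat 23, .ofNat 156, .negSucc 519, .negSucc 768, .ofNat 427, .ofNat 1135⟩, ⟨.ofNat 139, .negSucc 269, .ofNat 806, .ofNat 978, .negSucc 1056, .negSucc 1739⟩, ⟨.negSucc 121, .ofNat 9, .negSucc 79, .negSucc 297, .negSucc 41, .ofNat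 214⟩, .ofNat 637, .ofNat 700, .ofNat 0, .ofNat 700, .ofNat 1684, .ofNat 0, .ofNat 195, .negSucc 257, .negSucc 741, .ofNat 0, .ofNat 182, .ofNat 351, .ofNat 0, .ofNat 0, .ofNat 835, .ofNat 2281, .ofNat 23028329443451156182648595410845696000, .ofNat 0, .ofNat 7336499985830238228970890854400, .ofNat 0, .ofNat 0, .ofNat 0, .ofNat 1835931062200470408304120981094400, .ofNat 0, .ofNat 0, .ofNat 0, .ofNat 1538750383802005216803155450265600, .ofNat 0, .ofNat 0, .ofNat 0, .ofNat 0, .ofNat 0⟩)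
    (by decide +kernel)
theorem L00447 : Good (Phi V4.P V4.D (-1) (-1)) ⟨5, 27, 3, 2, 3, 2, 2, 0, 4, 0⟩ :=
  out_sound (S := T4.ds_mm) T4.ok_mm (w := 64) (j := 3) (by decide +kernel)
theorem L00448 : Good (Phi V4.P V4.D (-1) (-1)) ⟨5, 27, 4, 6, 3, 2, 2, 0, 4, 0⟩ :=
  out_sound (S := T4.ds_mm) T4.ok_mm (w := 64) (j := 3) (by decide +kernel)
theorem L00449 : Good (Phi V4.P V4.D (-1) (-1)) ⟨5, 27, 4, 7, 3, 2, 2, 0, 4, 0⟩ :=
  leaf_sound (S := T4.ds_mm) T4.ok_mm (w := 200) (c := ⟨⟨.ofNat 238, .negSucc 696, .ofNat 418, .ofNat 947, .negSucc 789, .negSucc 1448⟩, ⟨.negSucc 140, .ofNat 342, .negSucc 203, .negSucc 500, .ofNat 412, .ofNat 762⟩, ⟨.negSucc 119, .ofNat 555, .negSucc 371, .negSucc 958, .ofNat 545, .ofNat 1375⟩, ⟨.ofNat 286, .negSucc 1086, .ofNat 611, .ofNat 1269, .negSucc 1221, .negSucc 2084⟩, ⟨.negSucc 159, .ofNat 1, .negSucc 53, .negSucc 356, .negSucc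 13, .ofNat 272⟩, .ofNat 2445, .ofNat 4004, .ofNat 0, .ofNat 4004, .ofNat 7791, .ofNat 0, .ofNat 104, .negSucc 303, .negSucc 773, .ofNat 0, .ofNat 176, .ofNat 407, .ofNat 0, .ofNat 0, .ofNat 856, .ofNat 2831, .ofNat 291115458778814838844485864884954726400, .ofNat 0, .ofNat 48626737807098181759310757888000, .ofNat 0, .ofNat 3164218281435762639475227931569448550400, .ofNat 0, .ofNat 49618228880391928851285924013670400, .ofNat 0, .ofNat 0, .ofNat 0, .ofNat 25938228724975265199887753832038400, .ofNat 0, .ofNat 0, .ofNat 0, .ofNat 31766789165690327787786001711104000, .ofNat 0⟩)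
    (by decide +kernel)
theorem L00450 : Good (Phi V4.P V4.D (-1) (-1)) ⟨4, 12, 2, 1, 3, 3, 2, 0, 4, 0⟩ :=
  leaf_sound (S := T4.ds_mm) T4.ok_mm (w := 184) (c := ⟨⟨.ofNat 687, .ofNat 131, .ofNat 328, .ofNat 402, .negSucc 653, .negSucc 973⟩, ⟨.negSucc 251, .negSucc 107, .negSucc 77, .negSucc 166, .ofNat 241, .ofNat 377⟩, ⟨.negSucc 516, .negSucc 137, .negSucc 278, .negSucc 386, .ofNat 348, .ofNat 888⟩, ⟨.ofNat 1066, .ofNat 148, .ofNat 444, .ofNat 567, .negSucc 1124, .negSucc 1544⟩, ⟨.negSucc 277, .negSucc 74, .negSucc 63, .negSucc 241, .negSucc 122, .ofNat 159⟩, .ofNat 326, .ofNat 173, .ofNat 0, .ofNat 173, .ofNat 684, .ofNat 0, .ofNat 307, .negSucc 199, .negSucc 882, .ofNat 0, .ofNat 206, .ofNat 329, .ofNat 0, .ofNat 0, .ofNat 900, .ofNat 2416, .ofNat 0, .ofNat 0, .ofNat 0, .ofNat 0, .ofNat 0, .ofNat 0, .ofNat 0, .ofNat 0, .ofNat 0, .ofNat 0, .ofNat 0,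 .ofNat 0, .ofNat 0, .ofNat 0, .ofNat 4090596343166495327447343012249600, .ofNat 0⟩)
    (by decide +kernel)
theorem L00451 : Good (Phi V4.P V4.D (-1) (-1)) ⟨5, 26, 2, 1, 3, 3, 2, 0, 4, 0⟩ :=
  leaf_sound (S := T4.ds_mm) T4.ok_mm (w := 192) (c := ⟨⟨.ofNat 1121, .ofNat 174, .ofNat 343, .ofNat 597, .negSucc 893, .negSucc 1471⟩, ⟨.negSucc 576, .negSucc 126, .negSucc 119, .negSucc 297, .ofNat 436, .ofNat 723⟩, ⟨.negSucc 1017, .negSucc 221, .negSucc 141, .negSucc 511, .ofNat 549, .ofNat 1304⟩, ⟨.ofNat 1562, .ofNat 162, .ofNat 521, .ofNat 780, .negSucc 1419, .negSucc 2159⟩, ⟨.negSucc 517, .negSucc 139, .ofNat 78, .negSucc 314, .negSucc 53, .ofNat 294⟩, .ofNat 645, .ofNat 715, .ofNat 0, .ofNat 715, .ofNat 1710, .ofNat 0, .ofNat 203, .negSucc 296, .negSucc 822, .ofNat 0, .ofNat 198, .ofNat 396, .ofNat 0, .ofNat 0, .ofNat 845, .ofNat 2522, .ofNat 0, .ofNat 0, .ofNat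 0, .ofNat 0, .ofNat 0, .ofNat 0, .ofNat 1528942227286419702064446072422400, .ofNat 0, .ofNat 0, .ofNat 0, .ofNat 1221407473639507977983871261081600, .ofNat 0, .ofNat 0, .ofNat 0, .ofNat 0, .ofNat 0⟩)
    (by decide +kernel)
theorem L00452 : Good (Phi V4.P V4.D (-1) (-1)) ⟨5, 27, 2, 1, 3, 3, 2, 0, 4, 0⟩ :=
  leaf_sound (S := T4.ds_mm) T4.ok_mm (w := 192) (c := ⟨⟨.ofNat 1871, .ofNat 712, .negSucc 102, .ofNat 733, .negSucc 1038, .negSucc 1699⟩, ⟨.negSucc 985, .negSucc 425, .ofNat 54, .negSucc 389, .ofNat 541, .ofNat 893⟩, ⟨.negSucc 1708, .negSucc 622, .ofNat 188, .negSucc 571, .ofNat 658, .ofNat 1488⟩, ⟨.ofNat 2599, .ofNat 921, .negSucc 203, .ofNat 949, .negSucc 1607, .negSucc 2435⟩, ⟨.negSucc 627, .negSucc 205, .ofNat 7, .negSucc 339, .negSucc 23, .ofNat 338⟩, .ofNat 705, .ofNat 806, .ofNat 0, .ofNat 806, .ofNat 1782, .ofNat 0, .ofNat 188, .negSucc 310,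 .negSucc 927, .ofNat 0, .ofNat 208, .ofNat 476, .ofNat 0, .ofNat 0, .ofNat 917, .ofNat 2839, .ofNat 0, .ofNat 0, .ofNat 73614821850331160918214102220800, .ofNat 0, .ofNat 0, .ofNat 0, .ofNat 6943636596459261326445445644288000, .ofNat 0, .ofNat 0, .ofNat 0, .ofNat 4164882580687379458834541681049600, .ofNat 0, .ofNat 0, .ofNat 0, .ofNat 9732342909482505783822881547878400, .ofNat 0⟩)
    (by decide +kernel)
theorem L00453 : Good (Phi V4.P V4.D (-1) (-1)) ⟨4, 12, 2, 1, 2, 1, 3, 0, 4, 1⟩ :=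
  leaf_sound (S := T4.ds_mm) T4.ok_mm (w := 176) (c := ⟨⟨.negSucc 498, .negSucc 204, .ofNat 182, .ofNat 492, .negSucc 172, .negSucc 659⟩, ⟨.ofNat 142, .ofNat 113, .ofNat 36, .negSucc 203, .ofNat 68, .ofNat 257⟩, ⟨.ofNat 669, .ofNat 186, .negSucc 198, .negSucc 647, .ofNat 56, .ofNat 621⟩, ⟨.negSucc 880, .negSucc 228, .ofNat 255, .ofNat 679, .negSucc 296, .negSucc 1034⟩, ⟨.negSucc 27, .ofNat 46, .negSucc 40, .negSucc 342, .negSucc 50, .ofNat 131⟩, .ofNat 528, .ofNat 516, .ofNat 0, .ofNat 516, .ofNat 1604, .ofNat 0, .ofNat 229, .negSucc 227, .negSucc 543, .ofNat 0, .ofNat 162, .ofNat 211, .ofNat 0, .ofNat 0, .ofNat 669, .ofNat 2810, .ofNat 21703503556484476690429524521779200, .ofNat 0, .ofNat 165850396533844672665511526400, .ofNat 0, .ofNat 0, .ofNat 0, .ofNat 0, .ofNat 0, .ofNat 0, .ofNat 0, .ofNat 0, .ofNat 0, .ofNat 0, .ofNat 0, .ofNat 0, .ofNat 0⟩)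
    (by decide +kernel)
theorem L00454 : Good (Phi V4.P V4.D (-1) (-1)) ⟨4, 12, 2, 1, 2, 1, 3, 1, 4, 1⟩ :=
  leaf_sound (S := T4.ds_mm) T4.ok_mm (w := 176) (c := ⟨⟨.negSucc 651, .negSucc 120, .negSucc 94, .ofNat 352, .negSucc 98, .negSucc 521⟩, ⟨.ofNat 202, .ofNat 68, .ofNat 183, .negSucc 141, .ofNat 31, .ofNat 196⟩, ⟨.ofNat 705, .ofNat 115, .ofNat 40, .negSucc 520, .negSucc 7, .ofNat 503⟩, ⟨.negSucc 1140, .negSucc 94, .negSucc 183, .ofNat 456, .negSucc 189, .negSucc 828⟩, ⟨.negSucc 65, .ofNat 38, .negSucc 6, .negSucc 349, .negSucc 65, .ofNat 101⟩, .ofNat 528, .ofNat 518, .ofNat 0, .ofNat 518, .ofNat 1624, .ofNat 0, .ofNat 232, .negSucc 228, .negSucc 536, .ofNat 0, .ofNat 162, .ofNat 207, .ofNat 0, .ofNat 0, .ofNat 681, .ofNat 1911, .ofNat 0, .ofNat 0, .ofNat 888393409501564744986997555200, .ofNat 0, .ofNat 0, .ofNat 0, .ofNat 0, .ofNat 0, .ofNat 0, .ofNat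 0, .ofNat 0, .ofNat 0, .ofNat 0, .ofNat 0, .ofNat 0, .ofNat 0⟩)
    (by decide +kernel)
theorem L00455 : Good (Phi V4.P V4.D (-1) (-1)) ⟨5, 26, 3, 2, 2, 1, 2, 0, 4, 1⟩ :=
  leaf_sound (S := T4.ds_mm) T4.ok_mm (w := 184) (c := ⟨⟨.negSucc 685, .negSucc 920, .ofNat 156, .ofNat 494, .negSucc 294, .negSucc 750⟩, ⟨.ofNat 240, .ofNat 425, .negSucc 8, .negSucc 232, .ofNat 122, .ofNat 335⟩, ⟨.ofNat 944, .ofNat 859, .negSucc 268, .negSucc 658, .ofNat 80, .ofNat 707⟩, ⟨.negSucc 1091, .negSucc 1345, .ofNat 244, .ofNat 619, .negSucc 522, .negSucc 1122⟩, ⟨.negSucc 6, .ofNat 201, .ofNat 3, .negSucc 385, .negSucc 121, .ofNat 167⟩, .ofNat 1377, .ofNat 2232, .ofNat 0, .ofNat 2232, .ofNat 5135, .ofNat 0, .ofNat 166, .negSucc 286, .negSucc 596, .ofNat 0, .ofNat 168, .ofNat 272, .ofNat 0, .ofNat 0, .ofNat 710, .ofNat 3259, .ofNat 121648905818797330910875133096755200, .ofNat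 0, .ofNat 133983825711162163249073356800, .ofNat 0, .ofNat 401651861534398340575842709536768000, .ofNat 0, .ofNat 132090639118786927652857970688000, .ofNat 0, .ofNat 0, .ofNat 0, .ofNat 67861387128228772666326751641600, .ofNat 0, .ofNat 7760354365611178271991131883857510400, .ofNat 0, .ofNat 73454874913028191565245317120000, .ofNat 0⟩)
    (by decide +kernel)
theorem L00456 : Good (Phi V4.P V4.D (-1) (-1)) ⟨5, 26, 3, 3, 2, 1, 3, 0, 4, 1⟩ :=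
  leaf_sound (S := T4.ds_mm) T4.ok_mm (w := 184) (c := ⟨⟨.negSucc 645, .negSucc 27, .negSucc 42, .ofNat 828, .negSucc 183, .negSucc 907⟩, ⟨.ofNat 275, .ofNat 26, .ofNat 86, .negSucc 414, .ofNat 88, .ofNat 439⟩, ⟨.ofNat 780, .ofNat 38, .ofNat 16, .negSucc 958, .ofNat 77, .ofNat 846⟩, ⟨.negSucc 1025, .negSucc 4, .negSucc 64, .ofNat 1076, .negSucc 311, .negSucc 1317⟩, ⟨.ofNat 7, .ofNat 2, .ofNat 8, .negSucc 456, .negSucc 49, .ofNat 219⟩, .ofNat 637, .ofNat 701, .ofNat 0, .ofNat 701, .ofNat 1692, .ofNat 0, .ofNat 197, .negSucc 270, .negSucc 686, .ofNat 0, .ofNat 186, .ofNat 329, .ofNat 0, .ofNat 0, .ofNat 771, .ofNat 5898, .ofNat 0, .ofNat 0, .ofNat 0, .ofNat 0, .ofNat 0, .ofNat 0, .ofNat 0, .ofNat 0, .ofNat 0, .ofNat 0, .ofNat 0, .ofNat 0, .ofNat 0, .ofNat 0, .ofNat 0, .ofNat 0⟩)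
    (by decide +kernel)
theorem L00457 : Good (Phi V4.P V4.D (-1) (-1)) ⟨5, 26, 3, 3, 2, 1, 3, 1, 4, 1⟩ :=
  leaf_sound (S := T4.ds_mm) T4.ok_mm (w := 184) (c := ⟨⟨.negSucc 788, .negSucc 306, .ofNat 246, .ofNat 562, .negSucc 103, .negSucc 725⟩, ⟨.ofNat 333, .ofNat 180, .negSucc 61, .negSucc 285, .ofNat 48, .ofNat 358⟩, ⟨.ofNat 825, .ofNat 277, .negSucc 233, .negSucc 738, .ofNat 2, .ofNat 693⟩, ⟨.negSucc 1275, .negSucc 383, .ofNat 329, .ofNat 674, .negSucc 194, .negSucc 1050⟩, ⟨.negSucc 40, .ofNat 80, .negSucc 77, .negSucc 413, .negSucc 65, .ofNat 171⟩, .ofNat 1211, .ofNat 1789, .ofNat 0, .ofNat 1789, .ofNat 3863, .ofNat 0, .ofNat 147, .negSucc 299, .negSucc 643, .ofNat 0, .ofNat 178, .ofNat 318, .ofNat 0, .ofNat 0, .ofNat 754, .ofNat 3700, .ofNat 0, .ofNat 0, .ofNat 0, .ofNat 0, .ofNat 0, .ofNat 0, .ofNat 84552518473143203727170076672000, .ofNat 0, .ofNat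 0, .ofNat 0, .ofNat 44458535504656000627268124672000, .ofNat 0, .ofNat 0, .ofNat 0, .ofNat 0, .ofNat 0⟩)
    (by decide +kernel)
theorem L00458 : Good (Phi V4.P V4.D (-1) (-1)) ⟨5, 27, 3, 2, 2, 1, 2, 0, 4, 1⟩ :=
  out_sound (S := T4.ds_mm) T4.ok_mm (w := 64) (j := 3) (by decide +kernel)
theorem L00459 : Good (Phi V4.P V4.D (-1) (-1)) ⟨5, 27, 4, 6, 2, 1, 2, 0, 4, 1⟩ :=
  out_sound (S := T4.ds_mm) T4.ok_mm (w := 64) (j := 3) (by decide +kernel)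
theorem L00460 : Good (Phi V4.P V4.D (-1) (-1)) ⟨6, 54, 4, 7, 2, 1, 3, 0, 4, 1⟩ :=
  leaf_sound (S := T4.ds_mm) T4.ok_mm (w := 192) (c := ⟨⟨.negSucc 307, .ofNat 563, .negSucc 535, .ofNat 927, .negSucc 148, .negSucc 1004⟩, ⟨.ofNat 130, .negSucc 283, .ofNat 312, .negSucc 492, .ofNat 77, .ofNat 529⟩, ⟨.ofNat 492, .negSucc 541, .ofNat 476, .negSucc 1079, .ofNat 33, .ofNat 942⟩, ⟨.negSucc 506, .ofNat 855, .negSucc 781, .ofNat 1183, .negSucc 249, .negSucc 1420⟩, ⟨.negSucc 63, .negSucc 70, .ofNat 84, .negSucc 462, .negSucc 40, .ofNat 237⟩, .ofNat 1471, .ofNat 2196, .ofNat 0, .ofNat 2196, .ofNat 4403, .ofNat 0, .ofNat 126, .negSucc 304, .negSucc 699, .ofNat 0, .ofNat 183, .ofNat 367, .ofNat 0, .ofNat 0, .ofNat 784, .ofNat 6795, .ofNat 212306511158788169659288957237592064000, .ofNat 0, .ofNat 571063422637853011986717081600, .ofNat 0, .ofNat 0, .ofNat 0, .ofNat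 179391519843288129883921711104000, .ofNat 0, .ofNat 10702041732568849918246632112886120448000, .ofNat 0, .ofNat 36595019250192808687382927769600, .ofNat 0, .ofNat 0, .ofNat 0, .ofNat 126273674636972097651658771660800, .ofNat 0⟩)
    (by decide +kernel)
theorem L00461 : Good (Phi V4.P V4.D (-1) (-1)) ⟨6, 55, 4, 7, 2, 1, 3, 0, 4, 1⟩ :=
  out_sound (S := T4.ds_mm) T4.ok_mm (w := 72) (j := 3) (by decide +kernel)
theorem L00462 : Good (Phi V4.P V4.D (-1) (-1)) ⟨5, 27, 4, 7, 2, 1, 3, 1, 4, 1⟩ :=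
  leaf_sound (S := T4.ds_mm) T4.ok_mm (w := 192) (c := ⟨⟨.negSucc 605, .negSucc 264, .negSucc 257, .ofNat 576, .negSucc 92, .negSucc 791⟩, ⟨.ofNat 274, .ofNat 150, .ofNat 178, .negSucc 308, .ofNat 47, .ofNat 417⟩, ⟨.ofNat 659, .ofNat 238, .ofNat 218, .negSucc 753, .ofNat 5, .ofNat 746⟩, ⟨.negSucc 984, .negSucc 306, .negSucc 356, .ofNat 656, .negSucc 184, .negSucc 1111⟩, ⟨.negSucc 101, .ofNat 107, .ofNat 78, .negSucc 437, .negSucc 79, .ofNat 202⟩, .ofNat 3346, .ofNat 5685, .ofNat 0, .ofNat 5685, .ofNat 10940, .ofNat 0, .ofNat 99, .negSucc 326, .negSucc 699, .ofNat 0, .ofNat 187, .ofNat 371, .ofNat 0, .ofNat 0, .ofNat 791, .ofNat 3886, .ofNat 0, .ofNat 0, .ofNat 0, .ofNat 0, .ofNat 0, .ofNat 0, .ofNat 718350307053713219009998592409600, .ofNat 0, .ofNat 0, .ofNat 0, .ofNat 368226209261402350514024428339200, .ofNat 0, .ofNat 0, .ofNat 0, .ofNat 423631928290469231927825635737600,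 .ofNat 0⟩)
    (by decide +kernel)
theorem L00463 : Good (Phi V4.P V4.D (-1) (-1)) ⟨3, 7, 2, 1, 2, 1, 2, 0, 3, 0⟩ :=
  out_sound (S := T4.ds_mm) T4.ok_mm (w := 48) (j := 3) (by decide +kernel)
theorem L00464 : Good (Phi V4.P V4.D (-1) (-1)) ⟨4, 12, 3, 2, 2, 1, 2, 1, 3, 0⟩ :=
  leaf_sound (S := T4.ds_mm) T4.ok_mm (w := 176) (c := ⟨⟨.negSucc 116, .negSucc 379, .ofNat 282, .ofNat 323, .negSucc 270, .negSucc 1009⟩, ⟨.negSucc 10, .ofNat 135, .negSucc 28, .negSucc 134, .ofNat 107, .ofNat 404⟩, ⟨.ofNat 51, .ofNat 319, .negSucc 246, .negSucc 442, .ofNat 59, .ofNat 1011⟩, ⟨.negSucc 315, .negSucc 526, .ofNat 404, .ofNat 376, .negSucc 485, .negSucc 1572⟩, ⟨.negSucc 234, .ofNat 95, .negSucc 79, .negSucc 427, .negSucc 123, .ofNat 219⟩, .ofNat 534, .ofNat 525, .ofNat 0, .ofNat 525, .ofNat 1595, .ofNat 0, .ofNat 243, .negSucc 243, .negSucc 598, .ofNat 0, .ofNat 174,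 .ofNat 237, .ofNat 0, .ofNat 0, .ofNat 747, .ofNat 1106, .ofNat 0, .ofNat 0, .ofNat 1167465609789856583830732800, .ofNat 0, .ofNat 0, .ofNat 0, .ofNat 0, .ofNat 0, .ofNat 0, .ofNat 0, .ofNat 0, .ofNat 0, .ofNat 0, .ofNat 0, .ofNat 0, .ofNat 0⟩)
    (by decide +kernel)
theorem L00465 : Good (Phi V4.P V4.D (-1) (-1)) ⟨4, 12, 3, 3, 2, 1, 2, 1, 3, 0⟩ :=
  leaf_sound (S := T4.ds_mm) T4.ok_mm (w := 176) (c := ⟨⟨.negSucc 421, .ofNat 97, .ofNat 357, .ofNat 403, .negSucc 121, .negSucc 1114⟩, ⟨.ofNat 169, .negSucc 37, .negSucc 87, .negSucc 191, .ofNat 49, .ofNat 495⟩, ⟨.ofNat 348, .negSucc 119, .negSucc 264, .negSucc 538, .negSucc 75, .ofNat 1102⟩, ⟨.negSucc 843, .ofNat 246, .ofNat 485, .ofNat 447, .negSucc 262, .negSucc 1673⟩, ⟨.negSucc 241, .ofNat 55, .negSucc 149, .negSucc 456, .negSucc 158, .ofNat 257⟩, .ofNat 1658, .ofNat 2880, .ofNat 0, .ofNat 2880, .ofNat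 6635, .ofNat 0, .ofNat 153, .negSucc 303, .negSucc 613, .ofNat 0, .ofNat 166, .ofNat 276, .ofNat 0, .ofNat 0, .ofNat 758, .ofNat 1973, .ofNat 0, .ofNat 0, .ofNat 62485535333556750196408320000, .ofNat 0, .ofNat 0, .ofNat 0, .ofNat 0, .ofNat 0, .ofNat 0, .ofNat 0, .ofNat 1425249576872732616305305190400, .ofNat 0, .ofNat 0, .ofNat 0, .ofNat 3429220970718458628269093683200, .ofNat 0⟩)
    (by decide +kernel)
theorem L00466 : Good (Phi V4.P V4.D (-1) (-1)) ⟨5, 26, 3, 2, 2, 1, 2, 1, 3, 0⟩ :=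
  leaf_sound (S := T4.ds_mm) T4.ok_mm (w := 184) (c := ⟨⟨.negSucc 384, .ofNat 98, .ofNat 145, .ofNat 427, .negSucc 219, .negSucc 1239⟩, ⟨.ofNat 92, .negSucc 45, .ofNat 3, .negSucc 207, .ofNat 88, .ofNat 554⟩, ⟨.ofNat 320, .negSucc 48, .negSucc 166, .negSucc 562, .ofNat 16, .ofNat 1220⟩, ⟨.negSucc 714, .ofNat 128, .ofNat 239, .ofNat 481, .negSucc 409, .negSucc 1848⟩, ⟨.negSucc 263, .negSucc 119, .ofNat 48, .negSucc 456, .negSucc 138, .ofNat 290⟩, .ofNat 1387, .ofNat 2252, .ofNat 0, .ofNat 2252, .ofNat 5180, .ofNat 0, .ofNat 174, .negSucc 294, .negSucc 640, .ofNat 0, .ofNat 173, .ofNat 291, .ofNat 0, .ofNat 0, .ofNat 779, .ofNat 1439, .ofNat 0, .ofNat 0, .ofNat 22637050437428488145417011200, .ofNat 0, .ofNat 0, .ofNat 0, .ofNat 8418659900373523785075130368000, .ofNat 0, .ofNat 0, .ofNat 0, .ofNat 4650519476814619106532025958400, .ofNat 0, .ofNat 0, .ofNat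 0, .ofNat 3734774668439690671639284940800, .ofNat 0⟩)
    (by decide +kernel)
theorem L00467 : Good (Phi V4.P V4.D (-1) (-1)) ⟨5, 26, 3, 3, 2, 1, 2, 1, 4, 0⟩ :=
  leaf_sound (S := T4.ds_mm) T4.ok_mm (w := 184) (c := ⟨⟨.negSucc 237, .negSucc 82, .ofNat 141, .ofNat 862, .negSucc 350, .negSucc 828⟩, ⟨.ofNat 82, .ofNat 43, .negSucc 18, .negSucc 429, .ofNat 163, .ofNat 402⟩, ⟨.ofNat 147, .ofNat 41, .negSucc 102, .negSucc 947, .ofNat 125, .ofNat 812⟩, ⟨.negSucc 462, .negSucc 60, .ofNat 119, .ofNat 1059, .negSucc 603, .negSucc 1203⟩, ⟨.negSucc 199, .ofNat 71, .negSucc 102, .negSucc 615, .negSucc 108, .ofNat 202⟩, .ofNat 1155, .ofNat 1693, .ofNat 0, .ofNat 1693, .ofNat 3713, .ofNat 0, .ofNat 162, .negSucc 309, .negSucc 718, .ofNat 0, .ofNat 185, .ofNat 349, .ofNat 0, .ofNat 0, .ofNat 842, .ofNat 1218, .ofNat 0, .ofNat 0, .ofNat 0, .ofNat 0, .ofNat 0, .ofNat 0,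 .ofNat 0, .ofNat 0, .ofNat 0, .ofNat 0, .ofNat 5387126446689120467842970419200, .ofNat 0, .ofNat 0, .ofNat 0, .ofNat 0, .ofNat 0⟩)
    (by decide +kernel)
theorem L00468 : Good (Phi V4.P V4.D (-1) (-1)) ⟨5, 26, 3, 3, 2, 1, 2, 1, 4, 1⟩ :=
  leaf_sound (S := T4.ds_mm) T4.ok_mm (w := 184) (c := ⟨⟨.negSucc 925, .negSucc 40, .ofNat 14, .ofNat 298, .negSucc 62, .negSucc 488⟩, ⟨.ofNat 391, .ofNat 16, .ofNat 101, .negSucc 160, .ofNat 26, .ofNat 243⟩, ⟨.ofNat 828, .ofNat 43, .negSucc 25, .negSucc 460, .negSucc 114, .ofNat 489⟩, ⟨.negSucc 1502, .negSucc 28, .ofNat 22, .ofNat 266, .negSucc 178, .negSucc 704⟩, ⟨.negSucc 70, .negSucc 3, .ofNat 5, .negSucc 409, .negSucc 167, .ofNat 115⟩, .ofNat 1185, .ofNat 1744, .ofNat 0, .ofNat 1744, .ofNat 3790, .ofNat 0, .ofNat 154, .negSucc 305, .negSucc 653, .ofNat 0, .ofNat 182, .ofNat 321, .ofNat 0, .ofNat 0, .ofNat 785, .ofNat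 2749, .ofNat 0, .ofNat 0, .ofNat 0, .ofNat 0, .ofNat 0, .ofNat 0, .ofNat 11058031932569217576818284953600, .ofNat 0, .ofNat 0, .ofNat 0, .ofNat 0, .ofNat 0, .ofNat 0, .ofNat 0, .ofNat 0, .ofNat 0⟩)
    (by decide +kernel)
theorem L00469 : Good (Phi V4.P V4.D (-1) (-1)) ⟨5, 27, 3, 2, 2, 1, 2, 1, 3, 0⟩ :=
  out_sound (S := T4.ds_mm) T4.ok_mm (w := 64) (j := 3) (by decide +kernel)
theorem L00470 : Good (Phi V4.P V4.D (-1) (-1)) ⟨5, 27, 4, 6, 2, 1, 2, 1, 3, 0⟩ :=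
  out_sound (S := T4.ds_mm) T4.ok_mm (w := 64) (j := 3) (by decide +kernel)
theorem L00471 : Good (Phi V4.P V4.D (-1) (-1)) ⟨5, 27, 4, 7, 2, 1, 2, 1, 4, 0⟩ :=
  leaf_sound (S := T4.ds_mm) T4.ok_mm (w := 192) (c := ⟨⟨.negSucc 368, .ofNat 804, .ofNat 181, .ofNat 1168, .negSucc 441, .negSucc 960⟩, ⟨.ofNat 162, .negSucc 437, .negSucc 65, .negSucc 623, .ofNat 230, .ofNat 506⟩, ⟨.ofNat 216, .negSucc 656, .negSucc 118, .negSucc 1222, .ofNat 204, .ofNat 928⟩, ⟨.negSucc 631, .ofNat 1128, .ofNat 228, .ofNat 1423, .negSucc 722, .negSucc 1355⟩, ⟨.negSucc 153, .negSucc 222, .negSucc 62, .negSucc 711, .negSucc 83, .ofNat 230⟩, .ofNat 3641, .ofNat 6239, .ofNat 0, .ofNat 6239, .ofNat 11983, .ofNat 0, .ofNat 105, .negSucc 334, .negSucc 766, .ofNat 0, .ofNat 192, .ofNat 405, .ofNat 0, .ofNat 0, .ofNat 882, .ofNat 960, .ofNat 0, .ofNat 0, .ofNat 475570845375617005031050444800,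 .ofNat 0, .ofNat 0, .ofNat 0, .ofNat 104595624344976747533753647104000, .ofNat 0, .ofNat 0, .ofNat 0, .ofNat 66642944725951577744954779238400, .ofNat 0, .ofNat 0, .ofNat 0, .ofNat 62313027758950316219460432691200, .ofNat 0⟩)
    (by decide +kernel)
theorem L00472 : Good (Phi V4.P V4.D (-1) (-1)) ⟨5, 27, 4, 7, 2, 1, 2, 1, 4, 1⟩ :=
  leaf_sound (S := T4.ds_mm) T4.ok_mm (w := 192) (c := ⟨⟨.negSucc 1092, .negSucc 20, .ofNat 79, .ofNat 402, .negSucc 59, .negSucc 512⟩, ⟨.ofNat 526, .ofNat 22, .ofNat 4, .negSucc 218, .ofNat 28, .ofNat 270⟩, ⟨.ofNat 951, .negSucc 19, .negSucc 34, .negSucc 566, .negSucc 123, .ofNat 505⟩, ⟨.negSucc 1687, .ofNat 33, .ofNat 92, .ofNat 392, .negSucc 175, .negSucc 722⟩, ⟨.negSucc 20, .ofNat 35, .negSucc 45, .negSucc 433, .negSucc 161, .ofNat 125⟩, .ofNat 3724, .ofNat 6387, .ofNat 0, .ofNat 6387, .ofNat 12247, .ofNat 0, .ofNat 101,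 .negSucc 329, .negSucc 700, .ofNat 0, .ofNat 189, .ofNat 371, .ofNat 0, .ofNat 0, .ofNat 820, .ofNat 828, .ofNat 0, .ofNat 0, .ofNat 272609139100000087559267942400, .ofNat 0, .ofNat 0, .ofNat 0, .ofNat 110041147198603474165688382259200, .ofNat 0, .ofNat 0, .ofNat 0, .ofNat 77650478264538768605184000000000, .ofNat 0, .ofNat 0, .ofNat 0, .ofNat 64298706557239450586690931916800, .ofNat 0⟩)
    (by decide +kernel)
theorem L00473 : Good (Phi V4.P V4.D (-1) (-1)) ⟨3, 7, 2, 1, 2, 1, 2, 1, 3, 0⟩ :=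
  out_sound (S := T4.ds_mm) T4.ok_mm (w := 48) (j := 3) (by decide +kernel)
theorem L00474 : Good (Phi V4.P V4.D (-1) (-1)) ⟨5, 24, 3, 2, 2, 1, 2, 0, 3, 1⟩ :=
  leaf_sound (S := T4.ds_mm) T4.ok_mm (w := 176) (c := ⟨⟨.negSucc 1085, .negSucc 105, .ofNat 112, .ofNat 24, .ofNat 49, .negSucc 206⟩, ⟨.ofNat 357, .ofNat 59, .ofNat 52, .negSucc 23, .negSucc 26, .ofNat 67⟩, ⟨.ofNat 1208, .ofNat 106, .negSucc 128, .negSucc 206, .negSucc 235, .ofNat 243⟩, ⟨.negSucc 1819, .negSucc 101, .ofNat 176, .negSucc 55, .ofNat 16, .negSucc 368⟩, ⟨.ofNat 127, .ofNat 16, .negSucc 2, .negSucc 284, .negSucc 196, .negSucc 60⟩, .ofNat 917, .ofNat 1473, .ofNat 0, .ofNat 1473, .ofNat 4392, .ofNat 0, .ofNat 182, .negSucc 233, .negSucc 353, .ofNat 0, .ofNat 128, .ofNat 130, .ofNat 0, .ofNat 0, .ofNat 558, .ofNat 5813, .ofNat 0, .ofNat 0, .ofNat 0, .ofNat 0, .ofNat 0, .ofNat 0, .ofNat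 0, .ofNat 0, .ofNat 2606379038038809054231057854889984000, .ofNat 0, .ofNat 0, .ofNat 0, .ofNat 0, .ofNat 0, .ofNat 0, .ofNat 0⟩)
    (by decide +kernel)
theorem L00475 : Good (Phi V4.P V4.D (-1) (-1)) ⟨5, 24, 3, 2, 2, 1, 2, 1, 3, 1⟩ :=
  leaf_sound (S := T4.ds_mm) T4.ok_mm (w := 176) (c := ⟨⟨.negSucc 1087, .negSucc 106, .ofNat 120, .negSucc 75, .ofNat 120, .negSucc 50⟩, ⟨.ofNat 352, .ofNat 52, .ofNat 59, .ofNat 11, .negSucc 48, .ofNat 14⟩, ⟨.ofNat 995, .ofNat 110, .negSucc 121, .negSucc 58, .negSucc 290, .ofNat 93⟩, ⟨.negSucc 1876, .negSucc 110, .ofNat 168, .negSucc 239, .ofNat 144, .negSucc 108⟩, ⟨.negSucc 47, .ofNat 16, .negSucc 1, .negSucc 330, .negSucc 170, .negSucc 67⟩, .ofNat 1088, .ofNat 1930, .ofNat 0, .ofNat 1930, .ofNat 5664, .ofNat 0, .ofNat 180, .negSucc 239, .negSucc 376, .ofNat 0, .ofNat 128, .ofNat 137, .ofNat 0, .ofNat 0, .ofNat 584,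 .ofNat 2885, .ofNat 0, .ofNat 0, .ofNat 0, .ofNat 0, .ofNat 0, .ofNat 0, .ofNat 0, .ofNat 0, .ofNat 0, .ofNat 0, .ofNat 360686803207568315294888755200, .ofNat 0, .ofNat 0, .ofNat 0, .ofNat 0, .ofNat 0⟩)
    (by decide +kernel)
theorem L00476 : Good (Phi V4.P V4.D (-1) (-1)) ⟨5, 25, 4, 4, 2, 1, 2, 0, 3, 1⟩ :=
  leaf_sound (S := T4.ds_mm) T4.ok_mm (w := 184) (c := ⟨⟨.negSucc 1214, .negSucc 255, .ofNat 67, .negSucc 5, .ofNat 52, .negSucc 182⟩, ⟨.ofNat 425, .ofNat 125, .ofNat 23, .negSucc 12, .negSucc 31, .ofNat 64⟩, ⟨.ofNat 1340, .ofNat 250, .negSucc 76, .negSucc 203, .negSucc 229, .ofNat 232⟩, ⟨.negSucc 1950, .negSucc 317, .ofNat 100, .negSucc 107, .ofNat 5, .negSucc 327⟩, ⟨.ofNat 147, .ofNat 76, .negSucc 13, .negSucc 261, .negSucc 210, .negSucc 72⟩, .ofNat 914, .ofNat 1349, .ofNat 0, .ofNat 1349, .ofNat 3625, .ofNat 0, .ofNat 186, .negSucc 243, .negSucc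 400, .ofNat 0, .ofNat 147, .ofNat 164, .ofNat 0, .ofNat 0, .ofNat 589, .ofNat 3990, .ofNat 0, .ofNat 0, .ofNat 0, .ofNat 0, .ofNat 4120604519100966333981250068204748800, .ofNat 0, .ofNat 988672614486966542428589260800, .ofNat 0, .ofNat 4339704910884115846306067388982886400, .ofNat 0, .ofNat 918693832420378863605278310400, .ofNat 0, .ofNat 0, .ofNat 0, .ofNat 0, .ofNat 0⟩)
    (by decide +kernel)
theorem L00477 : Good (Phi V4.P V4.D (-1) (-1)) ⟨5, 25, 4, 4, 2, 1, 2, 1, 3, 1⟩ :=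
  leaf_sound (S := T4.ds_mm) T4.ok_mm (w := 184) (c := ⟨⟨.negSucc 1274, .negSucc 117, .ofNat 63, .negSucc 53, .ofNat 158, .negSucc 6⟩, ⟨.ofNat 438, .ofNat 57, .ofNat 30, .negSucc 0, .negSucc 71, .negSucc 1⟩, ⟨.ofNat 1175, .ofNat 119, .negSucc 66, .negSucc 76, .negSucc 321, .ofNat 53⟩, ⟨.negSucc 2092, .negSucc 123, .ofNat 88, .negSucc 222, .ofNat 184, .negSucc 42⟩, ⟨.ofNat 13, .ofNat 11, .negSucc 16, .negSucc 355, .negSucc 196, .negSucc 80⟩, .ofNat 1033, .ofNat 1627, .ofNat 0, .ofNat 1627, .ofNat 4310, .ofNat 0, .ofNat 185, .negSucc 242, .negSucc 405, .ofNat 0, .ofNat 146, .ofNat 164, .ofNat 0, .ofNat 0, .ofNat 603, .ofNat 3718, .ofNat 0, .ofNat 0, .ofNat 0, .ofNat 0, .ofNat 0, .ofNat 0, .ofNat 1184620352697616742126243020800, .ofNat 0, .ofNat 0, .ofNat 0, .ofNat 1081735040618206488787156992000, .ofNat 0, .ofNat 0, .ofNat 0, .ofNat 0, .ofNat 0⟩)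
    (by decide +kernel)
theorem L00478 : Good (Phi V4.P V4.D (-1) (-1)) ⟨6, 50, 4, 5, 2, 1, 2, 0, 3, 1⟩ :=
  leaf_sound (S := T4.ds_mm) T4.ok_mm (w := 184) (c := ⟨⟨.negSucc 1159, .negSucc 42, .ofNat 17, .ofNat 50, .negSucc 11, .negSucc 225⟩, ⟨.ofNat 445, .ofNat 29, .ofNat 40, .negSucc 30, .negSucc 2, .ofNat 86⟩, ⟨.ofNat 1276, .ofNat 41, .negSucc 23, .negSucc 250, .negSucc 171, .ofNat 272⟩, ⟨.negSucc 1859, .negSucc 25, .ofNat 13, .negSucc 35, .negSucc 93, .negSucc 394⟩, ⟨.ofNat 148, .ofNat 22, .negSucc 22, .negSucc 297, .negSucc 192, .negSucc 62⟩, .ofNat 1350, .ofNat 2387, .ofNat 0, .ofNat 2387, .ofNat 6120, .ofNat 0, .ofNat 158, .negSucc 262, .negSucc 396, .ofNat 0, .ofNat 141, .ofNat 164, .ofNat 0, .ofNat 0, .ofNat 580, .ofNat 6496, .ofNat 0, .ofNat 0, .ofNat 0, .ofNat 0, .ofNat 0, .ofNat 0, .ofNat 0, .ofNat 0, .ofNat 0, .ofNat 0, .ofNat 0, .ofNat 0,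 .ofNat 0, .ofNat 0, .ofNat 0, .ofNat 0⟩)
    (by decide +kernel)
theorem L00479 : Good (Phi V4.P V4.D (-1) (-1)) ⟨6, 50, 4, 5, 2, 1, 2, 1, 3, 1⟩ :=
  leaf_sound (S := T4.ds_mm) T4.ok_mm (w := 184) (c := ⟨⟨.negSucc 1204, .negSucc 47, .negSucc 0, .negSucc 34, .ofNat 154, .negSucc 34⟩, ⟨.ofNat 459, .ofNat 24, .ofNat 56, .negSucc 0, .negSucc 67, .ofNat 10⟩, ⟨.ofNat 1104, .ofNat 53, .negSucc 20, .negSucc 115, .negSucc 311, .ofNat 93⟩, ⟨.negSucc 1991, .negSucc 45, .negSucc 16, .negSucc 193, .ofNat 177, .negSucc 88⟩, ⟨.negSucc 6, .ofNat 2, .ofNat 0, .negSucc 347, .negSucc 194, .negSucc 80⟩, .ofNat 1380, .ofNat 2463, .ofNat 0, .ofNat 2463, .ofNat 6318, .ofNat 0, .ofNat 161, .negSucc 264, .negSucc 420, .ofNat 0, .ofNat 142, .ofNat 172, .ofNat 0, .ofNat 0, .ofNat 611, .ofNat 5415, .ofNat 0, .ofNat 0, .ofNat 0, .ofNat 0, .ofNat 0, .ofNat 0, .ofNat 0, .ofNat 0, .ofNat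 0, .ofNat 0, .ofNat 0, .ofNat 0, .ofNat 0, .ofNat 0, .ofNat 63468631195769115765846835200, .ofNat 0⟩)
    (by decide +kernel)
theorem L00480 : Good (Phi V4.P V4.D (-1) (-1)) ⟨6, 51, 4, 5, 2, 1, 2, 0, 3, 1⟩ :=
  leaf_sound (S := T4.ds_mm) T4.ok_mm (w := 184) (c := ⟨⟨.negSucc 1247, .negSucc 60, .ofNat 25, .ofNat 23, .ofNat 27, .negSucc 202⟩, ⟨.ofNat 492, .ofNat 37, .ofNat 40, .negSucc 22, .negSucc 19, .ofNat 80⟩, ⟨.ofNat 1361, .ofNat 55, .negSucc 34, .negSucc 240, .negSucc 198, .ofNat 251⟩, ⟨.negSucc 1952, .negSucc 56, .ofNat 33, .negSucc 80, .negSucc 39, .negSucc 357⟩, ⟨.ofNat 172, .ofNat 10, .negSucc 5, .negSucc 284, .negSucc 199, .negSucc 74⟩, .ofNat 1339, .ofNat 2227, .ofNat 0, .ofNat 2227, .ofNat 5349, .ofNat 0, .ofNat 161, .negSucc 267, .negSucc 419, .ofNat 0, .ofNat 153, .ofNat 185, .ofNat 0, .ofNat 0, .ofNat 595, .ofNat 6041, .ofNat 0, .ofNat 0,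 .ofNat 0, .ofNat 0, .ofNat 43710484614061762843095899878037913600, .ofNat 0, .ofNat 374752448883495880353644544000, .ofNat 0, .ofNat 0, .ofNat 0, .ofNat 0, .ofNat 0, .ofNat 0, .ofNat 0, .ofNat 0, .ofNat 0⟩)
    (by decide +kernel)
theorem L00481 : Good (Phi V4.P V4.D (-1) (-1)) ⟨6, 51, 4, 5, 2, 1, 2, 1, 3, 1⟩ :=
  leaf_sound (S := T4.ds_mm) T4.ok_mm (w := 184) (c := ⟨⟨.negSucc 1287, .negSucc 95, .ofNat 43, .negSucc 19, .ofNat 165, .negSucc 9⟩, ⟨.ofNat 503, .ofNat 47, .ofNat 36, .negSucc 9, .negSucc 78, .ofNat 0⟩, ⟨.ofNat 1185, .ofNat 92, .negSucc 50, .negSucc 116, .negSucc 326, .ofNat 58⟩, ⟨.negSucc 2076, .negSucc 114, .ofNat 59, .negSucc 186, .ofNat 178, .negSucc 46⟩, ⟨.ofNat 19, .ofNat 16, .ofNat 1, .negSucc 372, .negSucc 210, .negSucc 78⟩, .ofNat 1316, .ofNat 2170, .ofNat 0, .ofNat 2170, .ofNat 5205, .ofNat 0, .ofNat 164, .negSucc 265, .negSucc 447,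 .ofNat 0, .ofNat 154, .ofNat 196, .ofNat 0, .ofNat 0, .ofNat 632, .ofNat 3685, .ofNat 0, .ofNat 0, .ofNat 0, .ofNat 0, .ofNat 0, .ofNat 0, .ofNat 479030512022816958177922252800, .ofNat 0, .ofNat 0, .ofNat 0, .ofNat 0, .ofNat 0, .ofNat 0, .ofNat 0, .ofNat 0, .ofNat 0⟩)
    (by decide +kernel)

end Crest.Agent.R097C4.N4mm
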