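import Crest.Agent.R097.T4

/-!
# Row 97, box cover in dimension n = 4 (generated)
-/

set_option autoImplicit false
set_option Elab.async false
set_option maxHeartbeats 0
set_option maxRecDepth 100000

open Crest.Agent.R097 Crest.Agent.R097.KA


namespace Crest.Agent.R097C4.N4mm

theorem L00482 : Good (Phi V4.P V4.D (-1) (-1)) ⟨4, 12, 3, 3, 2, 1, 2, 0, 3, 1⟩ :=
  leaf_sound (S := T4.ds_mm) T4.ok_mm (w := 176) (c := ⟨⟨.negSucc 1157, .negSucc 153, .negSucc 117, .ofNat 74, .ofNat 32, .negSucc 195⟩, ⟨.ofNat 452, .ofNat 124, .ofNat 146, .negSucc 41, .negSucc 19, .ofNat 83⟩, ⟨.ofNat 1356, .ofNat 61, .ofNat 146, .negSucc 299, .negSucc 212, .ofNat 246⟩, ⟨.negSucc 1988, .negSucc 27, .negSucc 217, .negSucc 7, .negSucc 28, .negSucc 342⟩, ⟨.negSucc 30, .ofNat 206, .negSucc 66, .negSucc 287, .negSucc 181, .negSucc 65⟩, .ofNat 1650, .ofNat 2862, .ofNat 0, .ofNat 2862,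 .ofNat 6594, .ofNat 0, .ofNat 139, .negSucc 275, .negSucc 423, .ofNat 0, .ofNat 151, .ofNat 193, .ofNat 0, .ofNat 0, .ofNat 600, .ofNat 5626, .ofNat 9153087377276648918924458249420800, .ofNat 0, .ofNat 33855940883187374749227417600, .ofNat 0, .ofNat 0, .ofNat 0, .ofNat 0, .ofNat 0, .ofNat 0, .ofNat 0, .ofNat 3979839886923165939679415500800, .ofNat 0, .ofNat 0, .ofNat 0, .ofNat 949003750372391010086525337600, .ofNat 0⟩)
    (by decide +kernel)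
theorem L00483 : Good (Phi V4.P V4.D (-1) (-1)) ⟨4, 12, 3, 3, 2, 1, 2, 1, 3, 1⟩ :=
  leaf_sound (S := T4.ds_mm) T4.ok_mm (w := 176) (c := ⟨⟨.negSucc 1095, .negSucc 225, .ofNat 84, .negSucc 4, .ofNat 147, .negSucc 19⟩, ⟨.ofNat 448, .ofNat 126, .ofNat 68, .negSucc 9, .negSucc 70, .ofNat 6⟩, ⟨.ofNat 1002, .ofNat 216, .negSucc 101, .negSucc 142, .negSucc 306, .ofNat 69⟩, ⟨.negSucc 1871, .negSucc 235, .ofNat 128, .negSucc 159, .ofNat 148, .negSucc 66⟩, ⟨.negSucc 8, .ofNat 15, .ofNat 20, .negSucc 347, .negSucc 198, .negSucc 81⟩, .ofNat 1772, .ofNat 3120, .ofNat 0, .ofNat 3120, .ofNat 7146, .ofNat 0, .ofNat 141, .negSucc 276, .negSucc 447, .ofNat 0, .ofNat 153, .ofNat 202, .ofNat 0, .ofNat 0, .ofNat 632, .ofNat 4604, .ofNat 0, .ofNat 0, .ofNat 0, .ofNat 0, .ofNat 0, .ofNat 0, .ofNat 0, .ofNat 0, .ofNat 0, .ofNat 0, .ofNat 2006433191727002074101055488000, .ofNat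 0, .ofNat 0, .ofNat 0, .ofNat 1350615618829487939742439833600, .ofNat 0⟩)
    (by decide +kernel)
theorem L00484 : Good (Phi V4.P V4.D (-1) (-1)) ⟨5, 26, 3, 2, 2, 1, 2, 0, 3, 1⟩ :=
  leaf_sound (S := T4.ds_mm) T4.ok_mm (w := 184) (c := ⟨⟨.negSucc 1513, .negSucc 118, .ofNat 190, .ofNat 10, .ofNat 34, .negSucc 144⟩, ⟨.ofNat 583, .ofNat 91, .ofNat 1, .negSucc 16, .negSucc 23, .ofNat 59⟩, ⟨.ofNat 1667, .ofNat 100, .negSucc 235, .negSucc 231, .negSucc 214, .ofNat 191⟩, ⟨.negSucc 2291, .negSucc 43, .ofNat 249, .negSucc 93, .negSucc 28, .negSucc 263⟩, ⟨.ofNat 285, .ofNat 180, .negSucc 130, .negSucc 254, .negSucc 189, .negSucc 76⟩, .ofNat 1314, .ofNat 2098, .ofNat 0, .ofNat 2098, .ofNat 4848, .ofNat 0, .ofNat 157, .negSucc 264, .negSucc 423, .ofNat 0, .ofNat 156, .ofNat 195, .ofNat 0, .ofNat 0, .ofNat 602, .ofNat 4228, .ofNat 0, .ofNat 0, .ofNat 0, .ofNat 0,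 .ofNat 3885178801011044637039253165965312000, .ofNat 0, .ofNat 6502343445553648487904785203200, .ofNat 0, .ofNat 3415131905785886603256510310200115200, .ofNat 0, .ofNat 3838847086826307451760305766400, .ofNat 0, .ofNat 2787436085345759887594669308955852800, .ofNat 0, .ofNat 1846577724281699001610272768000, .ofNat 0⟩)
    (by decide +kernel)
theorem L00485 : Good (Phi V4.P V4.D (-1) (-1)) ⟨5, 26, 3, 2, 2, 1, 2, 1, 3, 1⟩ :=
  leaf_sound (S := T4.ds_mm) T4.ok_mm (w := 184) (c := ⟨⟨.negSucc 1574, .negSucc 277, .ofNat 245, .negSucc 8, .ofNat 175, .negSucc 4⟩, ⟨.ofNat 601, .ofNat 150, .negSucc 21, .negSucc 12, .negSucc 85, .negSucc 1⟩, ⟨.ofNat 1420, .ofNat 200, .negSucc 187, .negSucc 146, .negSucc 336, .ofNat 54⟩, ⟨.negSucc 2459, .negSucc 291, .ofNat 337, .negSucc 162, .ofNat 194, .negSucc 42⟩, ⟨.ofNat 89, .ofNat 221, .negSucc 94, .negSucc 339, .negSucc 194,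 .negSucc 80⟩, .ofNat 1381, .ofNat 2238, .ofNat 0, .ofNat 2238, .ofNat 5144, .ofNat 0, .ofNat 160, .negSucc 266, .negSucc 453, .ofNat 0, .ofNat 158, .ofNat 207, .ofNat 0, .ofNat 0, .ofNat 638, .ofNat 4532, .ofNat 0, .ofNat 0, .ofNat 0, .ofNat 0, .ofNat 0, .ofNat 0, .ofNat 8138032503229587132078096384000, .ofNat 0, .ofNat 0, .ofNat 0, .ofNat 3248626406087035138655807078400, .ofNat 0, .ofNat 0, .ofNat 0, .ofNat 963402636258693484311792844800, .ofNat 0⟩)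
    (by decide +kernel)
theorem L00486 : Good (Phi V4.P V4.D (-1) (-1)) ⟨5, 26, 4, 6, 2, 1, 2, 0, 3, 1⟩ :=
  leaf_sound (S := T4.ds_mm) T4.ok_mm (w := 184) (c := ⟨⟨.negSucc 1381, .negSucc 174, .ofNat 43, .ofNat 74, .ofNat 82, .negSucc 171⟩, ⟨.ofNat 608, .ofNat 106, .ofNat 32, .negSucc 44, .negSucc 45, .ofNat 77⟩, ⟨.ofNat 1484, .ofNat 159, .negSucc 42, .negSucc 301, .negSucc 254, .ofNat 221⟩, ⟨.negSucc 2111, .negSucc 166, .ofNat 50, .negSucc 18, .ofNat 34, .negSucc 308⟩, ⟨.ofNat 194, .ofNat 81, .negSucc 35, .negSucc 292, .negSucc 205, .negSucc 80⟩, .ofNat 1737, .ofNat 2906, .ofNat 0, .ofNat 2906, .ofNat 6324, .ofNat 0, .ofNat 136, .negSucc 284, .negSucc 448, .ofNat 0, .ofNat 162, .ofNat 216, .ofNat 0, .ofNat 0, .ofNat 612, .ofNat 4250, .ofNat 0, .ofNat 0, .ofNat 0, .ofNat 0, .ofNat 10158044490749606184255862504370995200, .ofNat 0, .ofNat 2076549348571481417907909427200,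 .ofNat 0, .ofNat 12722988026406034317264090814218240000, .ofNat 0, .ofNat 1147609273977968858655149260800, .ofNat 0, .ofNat 12865897015000417861677861633943142400, .ofNat 0, .ofNat 471385664192754331557455462400, .ofNat 0⟩)
    (by decide +kernel)
theorem L00487 : Good (Phi V4.P V4.D (-1) (-1)) ⟨5, 26, 4, 6, 2, 1, 2, 1, 3, 1⟩ :=
  leaf_sound (S := T4.ds_mm) T4.ok_mm (w := 184) (c := ⟨⟨.negSucc 1361, .negSucc 188, .ofNat 45, .ofNat 11, .ofNat 181, .ofNat 17⟩, ⟨.ofNat 593, .ofNat 105, .ofNat 31, .negSucc 16, .negSucc 89, .negSucc 9⟩, ⟨.ofNat 1265, .ofNat 180, .negSucc 51, .negSucc 168, .negSucc 351, .ofNat 31⟩, ⟨.negSucc 2155, .negSucc 207, .ofNat 50, .negSucc 144, .ofNat 198, .negSucc 10⟩, ⟨.ofNat 19, .ofNat 46, .negSucc 28, .negSucc 347, .negSucc 190, .negSucc 80⟩, .ofNat 1506, .ofNat 2433, .ofNat 0, .ofNat 2433, .ofNat 5344, .ofNat 0, .ofNat 139, .negSucc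 278, .negSucc 457, .ofNat 0, .ofNat 160, .ofNat 219, .ofNat 0, .ofNat 0, .ofNat 639, .ofNat 2887, .ofNat 0, .ofNat 0, .ofNat 0, .ofNat 0, .ofNat 0, .ofNat 0, .ofNat 2146396612980455976900073881600, .ofNat 0, .ofNat 0, .ofNat 0, .ofNat 1136719568637268924304248012800, .ofNat 0, .ofNat 0, .ofNat 0, .ofNat 0, .ofNat 0⟩)
    (by decide +kernel)
theorem L00488 : Good (Phi V4.P V4.D (-1) (-1)) ⟨6, 52, 4, 7, 2, 1, 2, 0, 3, 1⟩ :=
  leaf_sound (S := T4.ds_mm) T4.ok_mm (w := 192) (c := ⟨⟨.negSucc 1586, .ofNat 130, .ofNat 113, .ofNat 70, .ofNat 101, .negSucc 112⟩, ⟨.ofNat 753, .negSucc 46, .negSucc 12, .negSucc 41, .negSucc 53, .ofNat 52⟩, ⟨.ofNat 1668, .negSucc 132, .negSucc 111, .negSucc 289, .negSucc 265, .ofNat 171⟩, ⟨.negSucc 2422, .ofNat 258, .ofNat 101, .negSucc 38, .ofNat 48, .negSucc 227⟩, ⟨.ofNat 208, .ofNat 39, .negSucc 155, .negSucc 311, .negSucc 229,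 .negSucc 103⟩, .ofNat 2589, .ofNat 4557, .ofNat 0, .ofNat 4557, .ofNat 9492, .ofNat 0, .ofNat 113, .negSucc 292, .negSucc 442, .ofNat 0, .ofNat 162, .ofNat 219, .ofNat 0, .ofNat 0, .ofNat 609, .ofNat 4116, .ofNat 5945406324048169056477129446365593600, .ofNat 0, .ofNat 3823402089940661606075596800, .ofNat 0, .ofNat 0, .ofNat 0, .ofNat 0, .ofNat 0, .ofNat 19141812660981397236294028317268377600, .ofNat 0, .ofNat 2809019757117235266465457766400, .ofNat 0, .ofNat 498656575984369254329315643693937459200, .ofNat 0, .ofNat 850616574520656654831609446400, .ofNat 0⟩)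
    (by decide +kernel)
theorem L00489 : Good (Phi V4.P V4.D (-1) (-1)) ⟨6, 52, 4, 7, 2, 1, 2, 1, 3, 1⟩ :=
  leaf_sound (S := T4.ds_mm) T4.ok_mm (w := 192) (c := ⟨⟨.negSucc 1248, .negSucc 187, .ofNat 11, .ofNat 1, .ofNat 212, .ofNat 37⟩, ⟨.ofNat 591, .ofNat 99, .ofNat 45, .negSucc 9, .negSucc 107, .negSucc 19⟩, ⟨.ofNat 1151, .ofNat 172, .ofNat 38, .negSucc 166, .negSucc 359, .ofNat 12⟩, ⟨.negSucc 1975, .negSucc 259, .ofNat 20, .negSucc 167, .ofNat 228, .ofNat 11⟩, ⟨.ofNat 25, .ofNat 8, .ofNat 21, .negSucc 353, .negSucc 216, .negSucc 98⟩, .ofNat 2326, .ofNat 4028, .ofNat 0, .ofNat 4028, .ofNat 8423, .ofNat 0, .ofNat 117, .negSucc 293, .negSucc 473, .ofNat 0, .ofNat 164, .ofNat 233, .ofNat 0, .ofNat 0, .ofNat 644, .ofNat 3401, .ofNat 0, .ofNat 0, .ofNat 0, .ofNat 0, .ofNat 0, .ofNat 0, .ofNat 0, .ofNat 0, .ofNat 0, .ofNat 0, .ofNat 3583015880997069216001975910400,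 .ofNat 0, .ofNat 0, .ofNat 0, .ofNat 984317173875551384539811020800, .ofNat 0⟩)
    (by decide +kernel)
theorem L00490 : Good (Phi V4.P V4.D (-1) (-1)) ⟨6, 53, 4, 7, 2, 1, 1, 0, 4, 2⟩ :=
  leaf_sound (S := T4.ds_mm) T4.ok_mm (w := 184) (c := ⟨⟨.negSucc 1390, .negSucc 201, .ofNat 90, .ofNat 127, .ofNat 194, .negSucc 178⟩, ⟨.ofNat 673, .ofNat 111, .ofNat 7, .negSucc 70, .negSucc 107, .ofNat 89⟩, ⟨.ofNat 1476, .ofNat 185, .negSucc 86, .negSucc 353, .negSucc 503, .ofNat 194⟩, ⟨.negSucc 2079, .negSucc 250, .ofNat 119, .ofNat 43, .ofNat 90, .negSucc 279⟩, ⟨.ofNat 193, .ofNat 52, .negSucc 26, .negSucc 307, .negSucc 421, .negSucc 5⟩, .ofNat 1312, .ofNat 1950, .ofNat 0, .ofNat 1950, .ofNat 4079, .ofNat 0, .ofNat 137, .negSucc 298, .negSucc 550, .ofNat 0, .ofNat 178, .ofNat 280, .ofNat 0, .ofNat 0, .ofNat 690, .ofNat 3033, .ofNat 683932218638715296595724255572787200,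 .ofNat 0, .ofNat 531611610961620447107481600, .ofNat 0, .ofNat 0, .ofNat 0, .ofNat 0, .ofNat 0, .ofNat 0, .ofNat 0, .ofNat 0, .ofNat 0, .ofNat 104045268653241621853891707060564787200, .ofNat 0, .ofNat 169009737926897268034633728000, .ofNat 0⟩)
    (by decide +kernel)
theorem L00491 : Good (Phi V4.P V4.D (-1) (-1)) ⟨6, 53, 4, 7, 2, 1, 1, 0, 4, 3⟩ :=
  leaf_sound (S := T4.ds_mm) T4.ok_mm (w := 184) (c := ⟨⟨.negSucc 1669, .negSucc 124, .ofNat 89, .ofNat 53, .ofNat 423, .ofNat 90⟩, ⟨.ofNat 812, .ofNat 71, .ofNat 11, .negSucc 36, .negSucc 220, .negSucc 46⟩, ⟨.ofNat 1747, .ofNat 101, .negSucc 68, .negSucc 222, .negSucc 731, .negSucc 62⟩, ⟨.negSucc 2491, .negSucc 155, .ofNat 130, .negSucc 106, .ofNat 441, .ofNat 104⟩, ⟨.ofNat 233, .ofNat 11, .negSucc 5, .negSucc 380, .negSucc 434, .negSucc 73⟩, .ofNat 1287, .ofNat 1909, .ofNat 0, .ofNat 1909, .ofNat 4017, .ofNat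 0, .ofNat 132, .negSucc 278, .negSucc 434, .ofNat 0, .ofNat 167, .ofNat 220, .ofNat 0, .ofNat 0, .ofNat 612, .ofNat 4449, .ofNat 0, .ofNat 0, .ofNat 0, .ofNat 0, .ofNat 0, .ofNat 0, .ofNat 0, .ofNat 0, .ofNat 0, .ofNat 0, .ofNat 0, .ofNat 0, .ofNat 0, .ofNat 0, .ofNat 0, .ofNat 0⟩)
    (by decide +kernel)
theorem L00492 : Good (Phi V4.P V4.D (-1) (-1)) ⟨5, 27, 3, 2, 2, 1, 1, 0, 3, 1⟩ :=
  out_sound (S := T4.ds_mm) T4.ok_mm (w := 64) (j := 3) (by decide +kernel)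
theorem L00493 : Good (Phi V4.P V4.D (-1) (-1)) ⟨5, 27, 4, 6, 2, 1, 1, 0, 3, 1⟩ :=
  out_sound (S := T4.ds_mm) T4.ok_mm (w := 64) (j := 3) (by decide +kernel)
theorem L00494 : Good (Phi V4.P V4.D (-1) (-1)) ⟨6, 54, 4, 7, 2, 1, 2, 0, 3, 1⟩ :=
  leaf_sound (S := T4.ds_mm) T4.ok_mm (w := 192) (c := ⟨⟨.negSucc 1201, .ofNat 53, .negSucc 369, .ofNat 103, .ofNat 94, .negSucc 132⟩, ⟨.ofNat 584, .negSucc 14, .ofNat 244, .negSucc 59, .negSucc 53, .ofNat 67⟩, ⟨.ofNat 1316, .negSucc 15, .ofNat 330, .negSucc 354, .negSucc 258, .ofNat 189⟩, ⟨.negSucc 1750, .ofNat 91, .negSucc 535, .ofNat 0, .ofNat 34, .negSucc 259⟩, ⟨.ofNat 187, .negSucc 55, .ofNat 67, .negSucc 299, .negSucc 211, .negSucc 105⟩, .ofNat 3696, .ofNat 6333, .ofNat 0, .ofNat 6333, .ofNat 12141, .ofNat 0, .ofNat 93, .negSucc 303, .negSucc 478, .ofNat 0, .ofNat 174, .ofNat 255, .ofNat 0, .ofNat 0, .ofNat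 630, .ofNat 4938, .ofNat 0, .ofNat 0, .ofNat 4419648542516801008199270400, .ofNat 0, .ofNat 0, .ofNat 0, .ofNat 1492057501133365150424550604800, .ofNat 0, .ofNat 0, .ofNat 0, .ofNat 934560035609077999671548313600, .ofNat 0, .ofNat 147158820250063493908992500655194112000, .ofNat 0, .ofNat 245854529940145298776208179200, .ofNat 0⟩)
    (by decide +kernel)
theorem L00495 : Good (Phi V4.P V4.D (-1) (-1)) ⟨6, 54, 4, 7, 2, 1, 2, 1, 3, 1⟩ :=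
  leaf_sound (S := T4.ds_mm) T4.ok_mm (w := 192) (c := ⟨⟨.negSucc 1734, .negSucc 190, .ofNat 243, .ofNat 67, .ofNat 220, .ofNat 51⟩, ⟨.ofNat 858, .ofNat 111, .negSucc 74, .negSucc 41, .negSucc 118, .negSucc 28⟩, ⟨.ofNat 1553, .ofNat 125, .negSucc 179, .negSucc 239, .negSucc 359, .ofNat 15⟩, ⟨.negSucc 2547, .negSucc 174, .ofNat 278, .negSucc 95, .ofNat 218, .ofNat 13⟩, ⟨.ofNat 215, .ofNat 164, .negSucc 163, .negSucc 380, .negSucc 229, .negSucc 124⟩, .ofNat 2479, .ofNat 4066, .ofNat 0, .ofNat 4066, .ofNat 7905, .ofNat 0, .ofNat 103, .negSucc 306, .negSucc 521, .ofNat 0, .ofNat 178, .ofNat 277, .ofNat 0, .ofNat 0, .ofNat 677, .ofNat 3790, .ofNat 0, .ofNat 0, .ofNat 11971277545690277273508249600, .ofNat 0, .ofNat 0, .ofNat 0, .ofNat 1487581626897096286432709836800, .ofNat 0, .ofNat 0, .ofNat 0, .ofNat 1240657300128353570561772748800, .ofNat 0, .ofNat 0,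 .ofNat 0, .ofNat 264761614241699741079227596800, .ofNat 0⟩)
    (by decide +kernel)
theorem L00496 : Good (Phi V4.P V4.D (-1) (-1)) ⟨6, 55, 4, 7, 2, 1, 1, 0, 3, 1⟩ :=
  out_sound (S := T4.ds_mm) T4.ok_mm (w := 72) (j := 3) (by decide +kernel)
theorem L00497 : Good (Phi V4.P V4.D (-1) (-1)) ⟨3, 7, 2, 1, 2, 1, 1, 0, 3, 1⟩ :=
  out_sound (S := T4.ds_mm) T4.ok_mm (w := 48) (j := 3) (by decide +kernel)
theorem L00498 : Good (Phi V4.P V4.D (-1) (-1)) ⟨2, 2, 2, 1, 2, 1, 1, 0, 2, 1⟩ :=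
  out_sound (S := T4.ds_mm) T4.ok_mm (w := 40) (j := 3) (by decide +kernel)
theorem L00499 : Good (Phi V4.P V4.D (-1) (-1)) ⟨4, 12, 2, 1, 2, 1, 1, 0, 2, 1⟩ :=
  leaf_sound (S := T4.ds_mm) T4.ok_mm (w := 168) (c := ⟨⟨.negSucc 1438, .negSucc 111, .ofNat 112, .ofNat 36, .ofNat 398, .ofNat 409⟩, ⟨.ofNat 507, .ofNat 39, .ofNat 172, .negSucc 37, .negSucc 165, .negSucc 166⟩, ⟨.ofNat 1503, .ofNat 115, .negSucc 137, .negSucc 78, .negSucc 725, .negSucc 307⟩, ⟨.negSucc 2356, .negSucc 100, .ofNat 133, .negSucc 122, .ofNat 537, .ofNat 586⟩, ⟨.ofNat 131, .negSucc 2, .ofNat 22, .negSucc 500, .negSucc 314, .negSucc 227⟩, .ofNat 524, .ofNat 507, .ofNat 0, .ofNat 507, .ofNat 1591, .ofNat 0, .ofNat 368, .negSucc 341, .negSucc 467, .ofNat 0, .ofNat 257, .ofNat 184, .ofNat 0, .ofNat 0, .ofNat 941, .ofNat 3453, .ofNat 0, .ofNat 0, .ofNat 20589236680453590387916800, .ofNat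 0, .ofNat 0, .ofNat 0, .ofNat 0, .ofNat 0, .ofNat 0, .ofNat 0, .ofNat 0, .ofNat 0, .ofNat 0, .ofNat 0, .ofNat 0, .ofNat 0⟩)
    (by decide +kernel)
theorem L00500 : Good (Phi V4.P V4.D (-1) (-1)) ⟨4, 13, 2, 1, 2, 1, 1, 0, 3, 2⟩ :=
  leaf_sound (S := T4.ds_mm) T4.ok_mm (w := 168) (c := ⟨⟨.negSucc 1626, .negSucc 62, .negSucc 4, .ofNat 112, .ofNat 474, .ofNat 258⟩, ⟨.ofNat 620, .ofNat 37, .ofNat 227, .negSucc 69, .negSucc 241, .negSucc 130⟩, ⟨.ofNat 1718, .ofNat 50, .negSucc 6, .negSucc 197, .negSucc 804, .negSucc 201⟩, ⟨.negSucc 2465, .ofNat 6, .negSucc 34, .negSucc 69, .ofNat 558, .ofNat 332⟩, ⟨.ofNat 236, .ofNat 125, .negSucc 131, .negSucc 500, .negSucc 370, .negSucc 143⟩, .ofNat 642, .ofNat 707, .ofNat 0, .ofNat 707, .ofNat 1689, .ofNat 0, .ofNat 169, .negSucc 224, .negSucc 325, .ofNat 0, .ofNat 159, .ofNat 159, .ofNat 0, .ofNat 0, .ofNat 532, .ofNat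 3041, .ofNat 0, .ofNat 0, .ofNat 492566832114705535441305600, .ofNat 0, .ofNat 8752873900011949214172747871027200, .ofNat 0, .ofNat 43772005895180666758653542400, .ofNat 0, .ofNat 0, .ofNat 0, .ofNat 96114596898696251813815910400, .ofNat 0, .ofNat 0, .ofNat 0, .ofNat 81715897048866185206038528000, .ofNat 0⟩)
    (by decide +kernel)
theorem L00501 : Good (Phi V4.P V4.D (-1) (-1)) ⟨4, 13, 2, 1, 2, 1, 1, 0, 3, 3⟩ :=
  leaf_sound (S := T4.ds_mm) T4.ok_mm (w := 168) (c := ⟨⟨.negSucc 1517, .negSucc 132, .ofNat 154, .ofNat 171, .ofNat 510, .ofNat 212⟩, ⟨.ofNat 583, .ofNat 60, .ofNat 116, .negSucc 100, .negSucc 246, .negSucc 101⟩, ⟨.ofNat 1595, .ofNat 120, .negSucc 148, .negSucc 173, .negSucc 821, .negSucc 172⟩, ⟨.negSucc 2343, .negSucc 113, .ofNat 128, .negSucc 11, .ofNat 701, .ofNat 301⟩, ⟨.ofNat 27, .ofNat 81, .negSucc 119, .negSucc 590, .negSucc 211, .negSucc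 66⟩, .ofNat 635, .ofNat 698, .ofNat 0, .ofNat 698, .ofNat 1687, .ofNat 0, .ofNat 294, .negSucc 377, .negSucc 438, .ofNat 0, .ofNat 271, .ofNat 212, .ofNat 0, .ofNat 0, .ofNat 895, .ofNat 2982, .ofNat 0, .ofNat 0, .ofNat 0, .ofNat 0, .ofNat 83020307150778029513757244470067200, .ofNat 0, .ofNat 265969000359054707243404492800, .ofNat 0, .ofNat 25095173878038360269540803844505600, .ofNat 0, .ofNat 367755752062806466084680499200, .ofNat 0, .ofNat 0, .ofNat 0, .ofNat 0, .ofNat 0⟩)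
    (by decide +kernel)
theorem L00502 : Good (Phi V4.P V4.D (-1) (-1)) ⟨3, 7, 2, 1, 2, 1, 1, 0, 2, 1⟩ :=
  out_sound (S := T4.ds_mm) T4.ok_mm (w := 48) (j := 3) (by decide +kernel)
theorem L00503 : Good (Phi V4.P V4.D (-1) (-1)) ⟨2, 2, 3, 2, 1, 0, 2, 2, 2, 0⟩ :=
  out_sound (S := T4.ds_mm) T4.ok_mm (w := 40) (j := 3) (by decide +kernel)
theorem L00504 : Good (Phi V4.P V4.D (-1) (-1)) ⟨4, 12, 3, 2, 1, 0, 2, 2, 3, 0⟩ :=
  leaf_sound (S := T4.ds_mm) T4.ok_mm (w := 168) (c := ⟨⟨.negSucc 844, .negSucc 162, .ofNat 64, .ofNat 246, .ofNat 77, .negSucc 303⟩, ⟨.ofNat 278, .ofNat 79, .ofNat 58, .negSucc 132, .negSucc 34, .ofNat 121⟩, ⟨.ofNat 603, .ofNat 155, .negSucc 67, .negSucc 399, .negSucc 294, .ofNat 350⟩, ⟨.negSucc 1413, .negSucc 166, .ofNat 72, .ofNat 115, .ofNat 86, .negSucc 455⟩, ⟨.ofNat 63, .ofNat 24, .negSucc 32, .negSucc 764, .negSucc 107, .ofNat 97⟩,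 .ofNat 523, .ofNat 506, .ofNat 0, .ofNat 506, .ofNat 1601, .ofNat 0, .ofNat 254, .negSucc 230, .negSucc 554, .ofNat 0, .ofNat 175, .ofNat 202, .ofNat 0, .ofNat 0, .ofNat 750, .ofNat 601, .ofNat 0, .ofNat 0, .ofNat 0, .ofNat 0, .ofNat 0, .ofNat 0, .ofNat 0, .ofNat 0, .ofNat 0, .ofNat 0, .ofNat 0, .ofNat 0, .ofNat 0, .ofNat 0, .ofNat 870597100441443925544140800, .ofNat 0⟩)
    (by decide +kernel)
theorem L00505 : Good (Phi V4.P V4.D (-1) (-1)) ⟨4, 12, 3, 2, 1, 0, 2, 2, 3, 1⟩ :=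
  leaf_sound (S := T4.ds_mm) T4.ok_mm (w := 168) (c := ⟨⟨.negSucc 1155, .negSucc 144, .ofNat 3, .ofNat 101, .ofNat 274, .ofNat 108⟩, ⟨.ofNat 395, .ofNat 71, .ofNat 90, .negSucc 74, .negSucc 109, .negSucc 38⟩, ⟨.ofNat 864, .ofNat 137, .negSucc 1, .negSucc 143, .negSucc 410, .negSucc 55⟩, ⟨.negSucc 1904, .negSucc 156, .ofNat 4, .negSucc 107, .ofNat 410, .ofNat 176⟩, ⟨.ofNat 118, .negSucc 19, .ofNat 27, .negSucc 720, .negSucc 108, .negSucc 10⟩, .ofNat 529, .ofNat 514, .ofNat 0, .ofNat 514, .ofNat 1576, .ofNat 0, .ofNat 226, .negSucc 211, .negSucc 445, .ofNat 0, .ofNat 160, .ofNat 168, .ofNat 0, .ofNat 0, .ofNat 638, .ofNat 1323, .ofNat 0, .ofNat 0, .ofNat 0, .ofNat 0, .ofNat 0, .ofNat 0, .ofNat 0, .ofNat 0, .ofNat 0, .ofNat 0, .ofNat 0, .ofNat 0, .ofNat 0, .ofNat 0, .ofNat 0, .ofNat 0⟩)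
    (by decide +kernel)
theorem L00506 : Good (Phi V4.P V4.D (-1) (-1)) ⟨5, 26, 3, 2, 1, 0, 2, 2, 3, 0⟩ :=
  leaf_sound (S := T4.ds_mm) T4.ok_mm (w := 176) (c := ⟨⟨.negSucc 627, .negSucc 276, .negSucc 356, .ofNat 465, .ofNat 24, .negSucc 419⟩, ⟨.ofNat 211, .ofNat 151, .ofNat 220, .negSucc 239, .negSucc 14, .ofNat 189⟩, ⟨.ofNat 328, .ofNat 259, .ofNat 426, .negSucc 637, .negSucc 235, .ofNat 460⟩, ⟨.negSucc 898, .negSucc 266, .negSucc 661, .ofNat 405, .negSucc 2, .negSucc 618⟩, ⟨.ofNat 197, .ofNat 305, .negSucc 172, .negSucc 772, .negSucc 91, .ofNat 116⟩, .ofNat 1311, .ofNat 2092, .ofNat 0, .ofNat 2092, .ofNat 4833, .ofNat 0, .ofNat 183, .negSucc 293, .negSucc 589, .ofNat 0, .ofNat 177, .ofNat 263, .ofNat 0, .ofNat 0, .ofNat 780, .ofNat 760, .ofNat 0, .ofNat 0, .ofNat 38159235734009490712166400, .ofNat 0, .ofNat 0, .ofNat 0, .ofNat 15724087421910387456894566400,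 .ofNat 0, .ofNat 0, .ofNat 0, .ofNat 9593976912772572667654963200, .ofNat 0, .ofNat 0, .ofNat 0, .ofNat 3400424765812394628533452800, .ofNat 0⟩)
    (by decide +kernel)
theorem L00507 : Good (Phi V4.P V4.D (-1) (-1)) ⟨5, 26, 3, 2, 1, 0, 2, 2, 3, 1⟩ :=
  leaf_sound (S := T4.ds_mm) T4.ok_mm (w := 168) (c := ⟨⟨.negSucc 1438, .negSucc 41, .ofNat 47, .ofNat 161, .ofNat 328, .ofNat 183⟩, ⟨.ofNat 549, .ofNat 38, .ofNat 65, .negSucc 105, .negSucc 148, .negSucc 80⟩, ⟨.ofNat 1087, .ofNat 89, .negSucc 3, .negSucc 230, .negSucc 449, .negSucc 106⟩, ⟨.negSucc 2272, .ofNat 5, .ofNat 114, .negSucc 52, .ofNat 468, .ofNat 274⟩, ⟨.ofNat 18, .ofNat 59, .ofNat 120, .negSucc 710, .negSucc 124, .negSucc 39⟩, .ofNat 1312, .ofNat 2092, .ofNat 0, .ofNat 2092, .ofNat 4829, .ofNat 0, .ofNat 165, .negSucc 266, .negSucc 468, .ofNat 0, .ofNat 160, .ofNat 210, .ofNat 0, .ofNat 0, .ofNat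 658, .ofNat 1853, .ofNat 0, .ofNat 0, .ofNat 0, .ofNat 0, .ofNat 0, .ofNat 0, .ofNat 14435909343266175572351385600, .ofNat 0, .ofNat 0, .ofNat 0, .ofNat 8588771295595071707440742400, .ofNat 0, .ofNat 0, .ofNat 0, .ofNat 7485753742535554901213184000, .ofNat 0⟩)
    (by decide +kernel)
theorem L00508 : Good (Phi V4.P V4.D (-1) (-1)) ⟨5, 27, 3, 2, 1, 0, 2, 2, 2, 0⟩ :=
  out_sound (S := T4.ds_mm) T4.ok_mm (w := 64) (j := 3) (by decide +kernel)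
theorem L00509 : Good (Phi V4.P V4.D (-1) (-1)) ⟨3, 7, 3, 2, 1, 0, 2, 2, 2, 0⟩ :=
  out_sound (S := T4.ds_mm) T4.ok_mm (w := 48) (j := 3) (by decide +kernel)
theorem L00510 : Good (Phi V4.P V4.D (-1) (-1)) ⟨2, 2, 3, 2, 1, 0, 2, 3, 2, 0⟩ :=
  out_sound (S := T4.ds_mm) T4.ok_mm (w := 40) (j := 3) (by decide +kernel)
theorem L00511 : Good (Phi V4.P V4.D (-1) (-1)) ⟨4, 12, 3, 2, 1, 0, 3, 6, 3, 0⟩ :=
  leaf_sound (S := T4.ds_mm) T4.ok_mm (w := 168) (c := ⟨⟨.negSucc 896, .negSucc 113, .ofNat 15, .ofNat 127, .ofNat 105, .negSucc 11⟩, ⟨.ofNat 296, .ofNat 63, .ofNat 70, .negSucc 88, .negSucc 39, .ofNat 6⟩, ⟨.ofNat 347, .ofNat 131, .negSucc 26, .negSucc 159, .negSucc 193, .ofNat 120⟩, ⟨.negSucc 1519, .negSucc 58, .negSucc 29, .negSucc 103, .ofNat 165, .ofNat 0⟩, ⟨.negSucc 10, .ofNat 77, .negSucc 55, .negSucc 836, .negSucc 21, .ofNat 61⟩, .ofNat 530, .ofNat 519,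 .ofNat 0, .ofNat 519, .ofNat 1613, .ofNat 0, .ofNat 267, .negSucc 246, .negSucc 658, .ofNat 0, .ofNat 186, .ofNat 237, .ofNat 0, .ofNat 0, .ofNat 840, .ofNat 878, .ofNat 0, .ofNat 0, .ofNat 0, .ofNat 0, .ofNat 0, .ofNat 0, .ofNat 0, .ofNat 0, .ofNat 0, .ofNat 0, .ofNat 0, .ofNat 0, .ofNat 0, .ofNat 0, .ofNat 6320676162496858201836748800, .ofNat 0⟩)
    (by decide +kernel)
theorem L00512 : Good (Phi V4.P V4.D (-1) (-1)) ⟨4, 12, 3, 2, 1, 0, 3, 7, 3, 0⟩ :=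
  leaf_sound (S := T4.ds_mm) T4.ok_mm (w := 168) (c := ⟨⟨.negSucc 817, .negSucc 240, .ofNat 139, .negSucc 140, .ofNat 282, .ofNat 310⟩, ⟨.ofNat 281, .ofNat 85, .ofNat 21, .ofNat 7, .negSucc 105, .negSucc 107⟩, ⟨.ofNat 136, .ofNat 220, .negSucc 125, .ofNat 173, .negSucc 335, .negSucc 138⟩, ⟨.negSucc 1366, .negSucc 348, .ofNat 211, .negSucc 557, .ofNat 463, .ofNat 548⟩, ⟨.ofNat 8, .negSucc 37, .ofNat 25, .negSucc 866, .negSucc 0, .ofNat 97⟩, .ofNat 793, .ofNat 1104, .ofNat 0, .ofNat 1104, .ofNat 3125, .ofNat 0, .ofNat 244, .negSucc 296, .negSucc 809, .ofNat 0, .ofNat 181, .ofNat 298, .ofNat 0, .ofNat 0, .ofNat 960, .ofNat 324, .ofNat 0, .ofNat 0, .ofNat 31544534518791255569203200, .ofNat 0, .ofNat 0, .ofNat 0, .ofNat 0, .ofNat 0, .ofNat 0, .ofNat 0, .ofNat 0, .ofNat 0, .ofNat 0, .ofNat 0, .ofNat 0, .ofNat 0⟩)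
    (by decide +kernel)
theorem L00513 : Good (Phi V4.P V4.D (-1) (-1)) ⟨5, 24, 3, 2, 1, 0, 2, 3, 3, 1⟩ :=
  leaf_sound (S := T4.ds_mm) T4.ok_mm (w := 168) (c := ⟨⟨.negSucc 1053, .negSucc 76, .ofNat 193, .ofNat 135, .ofNat 759, .ofNat 291⟩, ⟨.ofNat 356, .ofNat 28, .negSucc 9, .negSucc 83, .negSucc 257, .negSucc 98⟩, ⟨.ofNat 532, .ofNat 91, .negSucc 179, .negSucc 81, .negSucc 799, .negSucc 186⟩, ⟨.negSucc 1776, .negSucc 91, .ofNat 295, .negSucc 46, .ofNat 1291, .ofNat 493⟩, ⟨.ofNat 17, .ofNat 22, .ofNat 54, .negSucc 801, .ofNat 49, .ofNat 7⟩, .ofNat 923, .ofNat 1492, .ofNat 0, .ofNat 1492, .ofNat 4455, .ofNat 0, .ofNat 208, .negSucc 257, .negSucc 553, .ofNat 0, .ofNat 144, .ofNat 190, .ofNat 0, .ofNat 0, .ofNat 714, .ofNat 915, .ofNat 0, .ofNat 0, .ofNat 0, .ofNat 0, .ofNat 0, .ofNat 0, .ofNat 0, .ofNat 0, .ofNat 0, .ofNat 3036985395429054976030379763302400,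 .ofNat 621367210235437641105408000, .ofNat 0, .ofNat 0, .ofNat 0, .ofNat 576343177857648106772889600, .ofNat 0⟩)
    (by decide +kernel)
theorem L00514 : Good (Phi V4.P V4.D (-1) (-1)) ⟨5, 25, 3, 2, 1, 0, 2, 3, 3, 1⟩ :=
  leaf_sound (S := T4.ds_mm) T4.ok_mm (w := 168) (c := ⟨⟨.negSucc 1336, .negSucc 0, .ofNat 79, .ofNat 375, .ofNat 888, .ofNat 329⟩, ⟨.ofNat 502, .negSucc 0, .ofNat 24, .negSucc 197, .negSucc 345, .negSucc 126⟩, ⟨.ofNat 821, .ofNat 21, .negSucc 87, .negSucc 311, .negSucc 925, .negSucc 234⟩, ⟨.negSucc 2134, .ofNat 40, .ofNat 75, .ofNat 279, .ofNat 1465, .ofNat 524⟩, ⟨.ofNat 64, .ofNat 24, .negSucc 48, .negSucc 819, .ofNat 58, .negSucc 14⟩, .ofNat 1020, .ofNat 1574, .ofNat 0, .ofNat 1574, .ofNat 4063, .ofNat 0, .ofNat 193, .negSucc 266, .negSucc 585, .ofNat 0, .ofNat 160, .ofNat 232, .ofNat 0, .ofNat 0, .ofNat 736, .ofNat 638, .ofNat 0,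 .ofNat 0, .ofNat 0, .ofNat 0, .ofNat 0, .ofNat 3753222730594607467139974771507200, .ofNat 734420555262964889498419200, .ofNat 0, .ofNat 0, .ofNat 349196759575229005716743258112000, .ofNat 206065403291110907628748800, .ofNat 0, .ofNat 0, .ofNat 0, .ofNat 0, .ofNat 0⟩)
    (by decide +kernel)
theorem L00515 : Good (Phi V4.P V4.D (-1) (-1)) ⟨5, 26, 4, 4, 1, 0, 2, 3, 2, 0⟩ :=
  out_sound (S := T4.ds_mm) T4.ok_mm (w := 64) (j := 3) (by decide +kernel)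
theorem L00516 : Good (Phi V4.P V4.D (-1) (-1)) ⟨5, 26, 4, 5, 1, 0, 2, 3, 2, 0⟩ :=
  leaf_sound (S := T4.ds_mm) T4.ok_mm (w := 168) (c := ⟨⟨.negSucc 1755, .ofNat 4, .ofNat 355, .ofNat 424, .ofNat 664, .ofNat 515⟩, ⟨.ofNat 734, .negSucc 0, .negSucc 120, .negSucc 227, .negSucc 288, .negSucc 219⟩, ⟨.ofNat 1145, .ofNat 2, .negSucc 361, .negSucc 393, .negSucc 758, .negSucc 256⟩, ⟨.negSucc 2787, .ofNat 57, .ofNat 567, .ofNat 295, .ofNat 1057, .ofNat 857⟩, ⟨.ofNat 4, .ofNat 63, .ofNat 23, .negSucc 875, .negSucc 1, .ofNat 83⟩, .ofNat 1309, .ofNat 2087, .ofNat 0, .ofNat 2087, .ofNat 4825, .ofNat 0, .ofNat 189, .negSucc 301, .negSucc 717, .ofNat 0, .ofNat 182, .ofNat 315, .ofNat 0, .ofNat 0, .ofNat 861, .ofNat 635, .ofNat 0, .ofNat 0, .ofNat 0, .ofNat 0, .ofNat 0, .ofNat 0, .ofNat 753844796431989393221222400, .ofNat 0, .ofNat 0, .ofNat 1706641012545160750551674545766400,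 .ofNat 504750710753566955274240000, .ofNat 0, .ofNat 0, .ofNat 0, .ofNat 43194497754382402859827200, .ofNat 0⟩)
    (by decide +kernel)
theorem L00517 : Good (Phi V4.P V4.D (-1) (-1)) ⟨5, 27, 3, 2, 1, 0, 2, 3, 2, 0⟩ :=
  out_sound (S := T4.ds_mm) T4.ok_mm (w := 64) (j := 3) (by decide +kernel)
theorem L00518 : Good (Phi V4.P V4.D (-1) (-1)) ⟨3, 7, 3, 2, 1, 0, 2, 3, 2, 0⟩ :=
  out_sound (S := T4.ds_mm) T4.ok_mm (w := 48) (j := 3) (by decide +kernel)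
theorem L00519 : Good (Phi V4.P V4.D (-1) (-1)) ⟨2, 2, 3, 3, 1, 0, 1, 1, 2, 0⟩ :=
  out_sound (S := T4.ds_mm) T4.ok_mm (w := 40) (j := 3) (by decide +kernel)
theorem L00520 : Good (Phi V4.P V4.D (-1) (-1)) ⟨4, 12, 3, 3, 1, 0, 2, 2, 3, 0⟩ :=
  leaf_sound (S := T4.ds_mm) T4.ok_mm (w := 168) (c := ⟨⟨.negSucc 1222, .ofNat 280, .ofNat 167, .ofNat 527, .negSucc 8, .negSucc 457⟩, ⟨.ofNat 523, .negSucc 113, .ofNat 6, .negSucc 258, .ofNat 1, .ofNat 205⟩, ⟨.ofNat 1073, .negSucc 370, .negSucc 209, .negSucc 697, .negSucc 206, .ofNat 502⟩, ⟨.negSucc 1967, .ofNat 482, .ofNat 235, .ofNat 498, .negSucc 52, .negSucc 678⟩, ⟨.ofNat 166, .negSucc 120, .negSucc 5, .negSucc 797, .negSucc 86, .ofNat 123⟩, .ofNat 1747, .ofNat 3074, .ofNat 0, .ofNat 3074, .ofNat 7069, .ofNat 0, .ofNat 163, .negSucc 306, .negSucc 591, .ofNat 0, .ofNat 171, .ofNat 263, .ofNat 0, .ofNat 0, .ofNat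 779, .ofNat 1138, .ofNat 0, .ofNat 0, .ofNat 81277884744513039787622400, .ofNat 0, .ofNat 0, .ofNat 0, .ofNat 0, .ofNat 0, .ofNat 0, .ofNat 0, .ofNat 7227183994690745967575040000, .ofNat 0, .ofNat 0, .ofNat 0, .ofNat 3665226657465546094883635200, .ofNat 0⟩)
    (by decide +kernel)
theorem L00521 : Good (Phi V4.P V4.D (-1) (-1)) ⟨4, 13, 3, 3, 2, 0, 2, 2, 3, 0⟩ :=
  leaf_sound (S := T4.ds_mm) T4.ok_mm (w := 176) (c := ⟨⟨.negSucc 1096, .ofNat 14, .negSucc 150, .ofNat 196, .ofNat 94, .negSucc 201⟩, ⟨.ofNat 475, .ofNat 24, .ofNat 162, .negSucc 102, .negSucc 45, .ofNat 99⟩, ⟨.ofNat 867, .negSucc 57, .ofNat 184, .negSucc 266, .negSucc 337, .ofNat 226⟩, ⟨.negSucc 1735, .ofNat 109, .negSucc 211, .ofNat 173, .ofNat 115, .negSucc 301⟩, ⟨.ofNat 23, .negSucc 16, .ofNat 29, .negSucc 273, .negSucc 67, .ofNat 31⟩, .ofNat 1207, .ofNat 1780, .ofNat 0, .ofNat 1780, .ofNat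 3842, .ofNat 0, .ofNat 159, .negSucc 296, .negSucc 555, .ofNat 0, .ofNat 182, .ofNat 268, .ofNat 0, .ofNat 0, .ofNat 762, .ofNat 1325, .ofNat 0, .ofNat 0, .ofNat 0, .ofNat 0, .ofNat 0, .ofNat 0, .ofNat 2471470122953877542876794060800, .ofNat 0, .ofNat 0, .ofNat 0, .ofNat 1930459835416339010831568076800, .ofNat 0, .ofNat 0, .ofNat 0, .ofNat 427127122925025068219734425600, .ofNat 0⟩)
    (by decide +kernel)
theorem L00522 : Good (Phi V4.P V4.D (-1) (-1)) ⟨5, 26, 3, 3, 2, 1, 2, 2, 4, 0⟩ :=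
  leaf_sound (S := T4.ds_mm) T4.ok_mm (w := 184) (c := ⟨⟨.negSucc 565, .ofNat 88, .negSucc 49, .ofNat 516, .negSucc 169, .negSucc 555⟩, ⟨.ofNat 225, .negSucc 62, .ofNat 119, .negSucc 263, .ofNat 76, .ofNat 270⟩, ⟨.ofNat 208, .negSucc 92, .ofNat 49, .negSucc 581, .negSucc 15, .ofNat 588⟩, ⟨.negSucc 1030, .ofNat 124, .negSucc 85, .ofNat 542, .negSucc 322, .negSucc 797⟩, ⟨.negSucc 308, .negSucc 53, .ofNat 32, .negSucc 560, .negSucc 109, .ofNat 154⟩, .ofNat 1168, .ofNat 1722, .ofNat 0, .ofNat 1722, .ofNat 3782, .ofNat 0, .ofNat 173, .negSucc 330, .negSucc 792, .ofNat 0, .ofNat 197, .ofNat 383, .ofNat 0, .ofNat 0, .ofNat 931, .ofNat 916, .ofNat 0, .ofNat 0, .ofNat 0, .ofNat 0, .ofNat 0, .ofNat 0, .ofNat 13890096653507518279280335257600, .ofNat 0, .ofNat 0, .ofNat 0, .ofNat 0, .ofNat 0, .ofNat 0, .ofNat 0, .ofNat 0, .ofNat 0⟩)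
    (by decide +kernel)
theorem L00523 : Good (Phi V4.P V4.D (-1) (-1)) ⟨5, 26, 3, 3, 2, 1, 2, 2, 4, 1⟩ :=
  leaf_sound (S := T4.ds_mm) T4.ok_mm (w := 184) (c := ⟨⟨.negSucc 1044, .negSucc 219, .ofNat 190, .ofNat 117, .ofNat 169, .negSucc 188⟩, ⟨.ofNat 445, .ofNat 101, .ofNat 17, .negSucc 70, .negSucc 85, .ofNat 92⟩, ⟨.ofNat 713, .ofNat 202, .negSucc 184, .negSucc 211, .negSucc 308, .ofNat 220⟩, ⟨.negSucc 1735, .negSucc 298, .ofNat 269, .negSucc 30, .ofNat 181, .negSucc 272⟩, ⟨.negSucc 183, .ofNat 29, .negSucc 30, .negSucc 448, .negSucc 176, .ofNat 46⟩, .ofNat 1142, .ofNat 1673, .ofNat 0, .ofNat 1673, .ofNat 3690, .ofNat 0, .ofNat 168, .negSucc 317, .negSucc 716, .ofNat 0, .ofNat 190, .ofNat 345, .ofNat 0, .ofNat 0, .ofNat 851, .ofNat 1872, .ofNat 0, .ofNat 0, .ofNat 0, .ofNat 0, .ofNat 0, .ofNat 0, .ofNat 14766628989174724385621567078400, .ofNat 0, .ofNat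 0, .ofNat 0, .ofNat 0, .ofNat 0, .ofNat 0, .ofNat 0, .ofNat 0, .ofNat 0⟩)
    (by decide +kernel)
theorem L00524 : Good (Phi V4.P V4.D (-1) (-1)) ⟨5, 27, 4, 6, 2, 1, 2, 2, 3, 0⟩ :=
  out_sound (S := T4.ds_mm) T4.ok_mm (w := 64) (j := 3) (by decide +kernel)
theorem L00525 : Good (Phi V4.P V4.D (-1) (-1)) ⟨5, 27, 4, 7, 2, 1, 2, 2, 3, 0⟩ :=
  leaf_sound (S := T4.ds_mm) T4.ok_mm (w := 184) (c := ⟨⟨.negSucc 487, .ofNat 1109, .negSucc 198, .ofNat 413, .ofNat 48, .negSucc 836⟩, ⟨.ofNat 204, .negSucc 592, .ofNat 152, .negSucc 225, .negSucc 27, .ofNat 441⟩, ⟨.ofNat 140, .negSucc 1019, .ofNat 181, .negSucc 493, .negSucc 208, .ofNat 890⟩, ⟨.negSucc 926, .ofNat 1539, .negSucc 282, .ofNat 352, .negSucc 1, .negSucc 1163⟩, ⟨.negSucc 363, .negSucc 356, .ofNat 72, .negSucc 539, .negSucc 145, .ofNat 233⟩, .ofNat 3629, .ofNat 6215, .ofNat 0, .ofNat 6215, .ofNat 11933,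 .ofNat 0, .ofNat 111, .negSucc 353, .negSucc 835, .ofNat 0, .ofNat 203, .ofNat 441, .ofNat 0, .ofNat 0, .ofNat 952, .ofNat 874, .ofNat 0, .ofNat 0, .ofNat 42436368393977161176632524800, .ofNat 0, .ofNat 0, .ofNat 0, .ofNat 6196420308378147750996973977600, .ofNat 0, .ofNat 0, .ofNat 0, .ofNat 4976966084261417868888480153600, .ofNat 0, .ofNat 0, .ofNat 0, .ofNat 2199610185009012573313853030400, .ofNat 0⟩)
    (by decide +kernel)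
theorem L00526 : Good (Phi V4.P V4.D (-1) (-1)) ⟨4, 12, 3, 3, 1, 0, 2, 2, 3, 1⟩ :=
  leaf_sound (S := T4.ds_mm) T4.ok_mm (w := 168) (c := ⟨⟨.negSucc 1303, .negSucc 43, .ofNat 36, .ofNat 191, .ofNat 297, .ofNat 130⟩, ⟨.ofNat 552, .ofNat 38, .ofNat 69, .negSucc 109, .negSucc 132, .negSucc 57⟩, ⟨.ofNat 1006, .ofNat 49, .ofNat 22, .negSucc 243, .negSucc 435, .negSucc 82⟩, ⟨.negSucc 2137, .ofNat 44, .ofNat 45, .negSucc 20, .ofNat 437, .ofNat 192⟩, ⟨.ofNat 76, .ofNat 63, .negSucc 12, .negSucc 751, .negSucc 90, .negSucc 37⟩, .ofNat 592, .ofNat 634, .ofNat 0, .ofNat 634, .ofNat 1687, .ofNat 0, .ofNat 208, .negSucc 238, .negSucc 488, .ofNat 0, .ofNat 171, .ofNat 207, .ofNat 0, .ofNat 0, .ofNat 673, .ofNat 1636, .ofNat 0, .ofNat 0, .ofNat 0, .ofNat 0, .ofNat 0, .ofNat 0, .ofNat 0, .ofNat 0, .ofNat 0, .ofNat 0, .ofNat 6916412768915656757005516800, .ofNat 0, .ofNat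 0, .ofNat 0, .ofNat 0, .ofNat 0⟩)
    (by decide +kernel)
theorem L00527 : Good (Phi V4.P V4.D (-1) (-1)) ⟨4, 13, 3, 3, 1, 0, 2, 2, 3, 1⟩ :=
  leaf_sound (S := T4.ds_mm) T4.ok_mm (w := 168) (c := ⟨⟨.negSucc 1361, .negSucc 4, .negSucc 117, .ofNat 216, .ofNat 285, .ofNat 153⟩, ⟨.ofNat 604, .ofNat 0, .ofNat 166, .negSucc 124, .negSucc 139, .negSucc 74⟩, ⟨.ofNat 1089, .ofNat 154, .ofNat 15, .negSucc 304, .negSucc 414, .negSucc 107⟩, ⟨.negSucc 2114, .ofNat 6, .negSucc 131, .negSucc 4, .ofNat 418, .ofNat 225⟩, ⟨.ofNat 86, .negSucc 174, .ofNat 131, .negSucc 718, .negSucc 71, .negSucc 32⟩, .ofNat 640, .ofNat 706, .ofNat 0, .ofNat 706, .ofNat 1698, .ofNat 0, .ofNat 194, .negSucc 250, .negSucc 500, .ofNat 0, .ofNat 180, .ofNat 232, .ofNat 0, .ofNat 0, .ofNat 681, .ofNat 954, .ofNat 0, .ofNat 0, .ofNat 9602777134430776133222400, .ofNat 0, .ofNat 0, .ofNat 0, .ofNat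 3309976806331097292786892800, .ofNat 0, .ofNat 0, .ofNat 0, .ofNat 1364464995446531852284723200, .ofNat 0, .ofNat 0, .ofNat 0, .ofNat 768187447184977183899648000, .ofNat 0⟩)
    (by decide +kernel)
theorem L00528 : Good (Phi V4.P V4.D (-1) (-1)) ⟨4, 12, 3, 3, 1, 0, 3, 6, 3, 0⟩ :=
  leaf_sound (S := T4.ds_mm) T4.ok_mm (w := 176) (c := ⟨⟨.negSucc 1228, .ofNat 207, .negSucc 99, .ofNat 278, .ofNat 107, .negSucc 52⟩, ⟨.ofNat 528, .negSucc 84, .ofNat 126, .negSucc 151, .negSucc 47, .ofNat 26⟩, ⟨.ofNat 621, .negSucc 155, .ofNat 96, .negSucc 309, .negSucc 179, .ofNat 171⟩, ⟨.negSucc 2084, .ofNat 476, .negSucc 215, .ofNat 62, .ofNat 157, .negSucc 54⟩, ⟨.negSucc 135, .ofNat 184, .negSucc 91, .negSucc 878, .negSucc 32, .ofNat 71⟩, .ofNat 1816, .ofNat 3217, .ofNat 0, .ofNat 3217, .ofNat 7357, .ofNat 0, .ofNat 339, .negSucc 652, .negSucc 1408, .ofNat 0, .ofNat 362,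 .ofNat 623, .ofNat 0, .ofNat 0, .ofNat 1747, .ofNat 1523, .ofNat 0, .ofNat 0, .ofNat 2922625157686458013502668800, .ofNat 0, .ofNat 0, .ofNat 0, .ofNat 0, .ofNat 0, .ofNat 0, .ofNat 0, .ofNat 421983548782766072549867520000, .ofNat 0, .ofNat 0, .ofNat 0, .ofNat 218589864491552557193861529600, .ofNat 0⟩)
    (by decide +kernel)
theorem L00529 : Good (Phi V4.P V4.D (-1) (-1)) ⟨5, 26, 3, 3, 1, 0, 3, 6, 3, 0⟩ :=
  leaf_sound (S := T4.ds_mm) T4.ok_mm (w := 176) (c := ⟨⟨.negSucc 1198, .ofNat 7, .ofNat 35, .ofNat 486, .ofNat 150, .negSucc 46⟩, ⟨.ofNat 533, .negSucc 7, .ofNat 73, .negSucc 261, .negSucc 72, .ofNat 28⟩, ⟨.ofNat 640, .negSucc 53, .ofNat 13, .negSucc 528, .negSucc 225, .ofNat 178⟩, ⟨.negSucc 1866, .ofNat 74, .negSucc 14, .ofNat 328, .ofNat 217, .negSucc 26⟩, ⟨.ofNat 42, .ofNat 63, .negSucc 93, .negSucc 905, .negSucc 34, .ofNat 89⟩, .ofNat 1164, .ofNat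 1707, .ofNat 0, .ofNat 1707, .ofNat 3730, .ofNat 0, .ofNat 179, .negSucc 332, .negSucc 799, .ofNat 0, .ofNat 202, .ofNat 382, .ofNat 0, .ofNat 0, .ofNat 946, .ofNat 495, .ofNat 0, .ofNat 0, .ofNat 0, .ofNat 0, .ofNat 0, .ofNat 0, .ofNat 12805217235044947990256025600, .ofNat 0, .ofNat 0, .ofNat 0, .ofNat 0, .ofNat 0, .ofNat 0, .ofNat 0, .ofNat 6730765629972670880258457600, .ofNat 0⟩)
    (by decide +kernel)
theorem L00530 : Good (Phi V4.P V4.D (-1) (-1)) ⟨5, 27, 3, 3, 1, 0, 3, 6, 3, 0⟩ :=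
  leaf_sound (S := T4.ds_mm) T4.ok_mm (w := 176) (c := ⟨⟨.negSucc 1931, .negSucc 305, .ofNat 670, .ofNat 761, .ofNat 146, .negSucc 101⟩, ⟨.ofNat 937, .ofNat 174, .negSucc 274, .negSucc 415, .negSucc 76, .ofNat 54⟩, ⟨.ofNat 1363, .ofNat 329, .negSucc 651, .negSucc 806, .negSucc 220, .ofNat 219⟩, ⟨.negSucc 2818, .negSucc 321, .ofNat 891, .ofNat 675, .ofNat 212, .negSucc 116⟩, ⟨.ofNat 265, .ofNat 223, .negSucc 239, .negSucc 948, .negSucc 21, .ofNat 77⟩, .ofNat 2436, .ofNat 3990, .ofNat 0, .ofNat 3990, .ofNat 7772, .ofNat 0, .ofNat 126, .negSucc 354, .negSucc 812, .ofNat 0, .ofNat 207, .ofNat 424, .ofNat 0, .ofNat 0, .ofNat 959, .ofNat 443, .ofNat 0, .ofNat 0, .ofNat 104585583136190987973427200, .ofNat 0, .ofNat 0, .ofNat 0, .ofNat 22419025588259254027734220800, .ofNat 0, .ofNat 0, .ofNat 0, .ofNat 31516580422748218191563980800, .ofNat 0, .ofNat 0, .ofNat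 0, .ofNat 10563471918201089883635712000, .ofNat 0⟩)
    (by decide +kernel)
theorem L00531 : Good (Phi V4.P V4.D (-1) (-1)) ⟨4, 12, 3, 3, 1, 0, 3, 7, 3, 0⟩ :=
  leaf_sound (S := T4.ds_mm) T4.ok_mm (w := 176) (c := ⟨⟨.negSucc 744, .negSucc 389, .ofNat 96, .ofNat 192, .ofNat 341, .ofNat 354⟩, ⟨.ofNat 331, .ofNat 159, .ofNat 34, .negSucc 115, .negSucc 147, .negSucc 149⟩, ⟨.ofNat 95, .ofNat 338, .negSucc 71, .negSucc 158, .negSucc 382, .negSucc 176⟩, ⟨.negSucc 1189, .negSucc 634, .ofNat 162, .negSucc 74, .ofNat 552, .ofNat 612⟩, ⟨.ofNat 117, .negSucc 139, .ofNat 71, .negSucc 880, .ofNat 11, .ofNat 103⟩, .ofNat 1636, .ofNat 2834, .ofNat 0, .ofNat 2834, .ofNat 6542, .ofNat 0, .ofNat 183, .negSucc 342, .negSucc 887, .ofNat 0, .ofNat 191, .ofNat 388, .ofNat 0, .ofNat 0, .ofNat 1019, .ofNat 1472, .ofNat 0, .ofNat 0, .ofNat 0, .ofNat 0, .ofNat 0, .ofNat 0, .ofNat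 0, .ofNat 0, .ofNat 0, .ofNat 0, .ofNat 76844474159398042403340288000, .ofNat 0, .ofNat 0, .ofNat 0, .ofNat 26860134496257387373422182400, .ofNat 0⟩)
    (by decide +kernel)
theorem L00532 : Good (Phi V4.P V4.D (-1) (-1)) ⟨5, 26, 4, 6, 1, 0, 3, 7, 3, 0⟩ :=
  leaf_sound (S := T4.ds_mm) T4.ok_mm (w := 176) (c := ⟨⟨.negSucc 1283, .ofNat 25, .ofNat 22, .ofNat 371, .ofNat 391, .ofNat 436⟩, ⟨.ofNat 573, .negSucc 13, .ofNat 27, .negSucc 205, .negSucc 180, .negSucc 200⟩, ⟨.ofNat 576, .ofNat 17, .negSucc 35, .negSucc 338, .negSucc 438, .negSucc 250⟩, ⟨.negSucc 2034, .ofNat 106, .ofNat 8, .ofNat 173, .ofNat 624, .ofNat 724⟩, ⟨.negSucc 19, .ofNat 93, .negSucc 29, .negSucc 892, .ofNat 19, .ofNat 77⟩, .ofNat 1070, .ofNat 1548, .ofNat 0, .ofNat 1548, .ofNat 3498, .ofNat 0, .ofNat 201, .negSucc 341, .negSucc 1021, .ofNat 0, .ofNat 209, .ofNat 469, .ofNat 0, .ofNat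 0, .ofNat 1132, .ofNat 1194, .ofNat 0, .ofNat 0, .ofNat 0, .ofNat 0, .ofNat 0, .ofNat 0, .ofNat 25702492867176149788970188800, .ofNat 0, .ofNat 0, .ofNat 0, .ofNat 19958240998695377123986636800, .ofNat 0, .ofNat 0, .ofNat 0, .ofNat 8315768098398018154895769600, .ofNat 0⟩)
    (by decide +kernel)
theorem L00533 : Good (Phi V4.P V4.D (-1) (-1)) ⟨5, 26, 4, 7, 1, 0, 3, 7, 3, 0⟩ :=
  leaf_sound (S := T4.ds_mm) T4.ok_mm (w := 176) (c := ⟨⟨.negSucc 1420, .negSucc 95, .ofNat 124, .ofNat 650, .ofNat 408, .ofNat 506⟩, ⟨.ofNat 699, .ofNat 38, .negSucc 20, .negSucc 348, .negSucc 202, .negSucc 249⟩, ⟨.ofNat 733, .ofNat 54, .negSucc 96, .negSucc 612, .negSucc 445, .negSucc 317⟩, ⟨.negSucc 2236, .negSucc 103, .ofNat 169, .ofNat 551, .ofNat 648, .ofNat 842⟩, ⟨.negSucc 17, .ofNat 19, .negSucc 13, .negSucc 924, .ofNat 27, .ofNat 113⟩, .ofNat 1985, .ofNat 3252, .ofNat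 0, .ofNat 3252, .ofNat 6637, .ofNat 0, .ofNat 152, .negSucc 366, .negSucc 1025, .ofNat 0, .ofNat 213, .ofNat 510, .ofNat 0, .ofNat 0, .ofNat 1135, .ofNat 755, .ofNat 0, .ofNat 0, .ofNat 0, .ofNat 0, .ofNat 0, .ofNat 0, .ofNat 29417400222518256830565580800, .ofNat 0, .ofNat 0, .ofNat 0, .ofNat 0, .ofNat 0, .ofNat 0, .ofNat 0, .ofNat 11107546191271138293920563200, .ofNat 0⟩)
    (by decide +kernel)
theorem L00534 : Good (Phi V4.P V4.D (-1) (-1)) ⟨5, 27, 4, 6, 1, 0, 3, 7, 3, 0⟩ :=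
  out_sound (S := T4.ds_mm) T4.ok_mm (w := 64) (j := 3) (by decide +kernel)
theorem L00535 : Good (Phi V4.P V4.D (-1) (-1)) ⟨5, 27, 4, 7, 1, 0, 3, 7, 3, 0⟩ :=
  leaf_sound (S := T4.ds_mm) T4.ok_mm (w := 176) (c := ⟨⟨.negSucc 1812, .negSucc 66, .ofNat 302, .ofNat 963, .ofNat 453, .ofNat 392⟩, ⟨.ofNat 917, .ofNat 44, .negSucc 125, .negSucc 520, .negSucc 236, .negSucc 202⟩, ⟨.ofNat 1092, .ofNat 105, .negSucc 279, .negSucc 919, .negSucc 500, .negSucc 221⟩, ⟨.negSucc 2691, .ofNat 37, .ofNat 362, .ofNat 1006, .ofNat 697, .ofNat 637⟩, ⟨.ofNat 167, .ofNat 205, .negSucc 174, .negSucc 907, .ofNat 4, .ofNat 65⟩, .ofNat 1488, .ofNat 2228, .ofNat 0, .ofNat 2228, .ofNat 4465, .ofNat 0, .ofNat 158, .negSucc 358, .negSucc 1059, .ofNat 0, .ofNat 219, .ofNat 545, .ofNat 0, .ofNat 0, .ofNat 1180, .ofNat 1090, .ofNat 0, .ofNat 0, .ofNat 0, .ofNat 0, .ofNat 0, .ofNat 0,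 .ofNat 78816444077496085500867379200, .ofNat 0, .ofNat 0, .ofNat 39827971296472527851799694226227200, .ofNat 17827118071525242556121088000, .ofNat 0, .ofNat 0, .ofNat 0, .ofNat 9622221331150860665330073600, .ofNat 0⟩)
    (by decide +kernel)
theorem L00536 : Good (Phi V4.P V4.D (-1) (-1)) ⟨4, 12, 3, 3, 1, 0, 2, 3, 3, 1⟩ :=
  leaf_sound (S := T4.ds_mm) T4.ok_mm (w := 168) (c := ⟨⟨.negSucc 622, .negSucc 774, .ofNat 133, .ofNat 460, .ofNat 999, .ofNat 316⟩, ⟨.ofNat 275, .ofNat 334, .negSucc 16, .negSucc 229, .negSucc 433, .negSucc 135⟩, ⟨.ofNat 121, .ofNat 761, .negSucc 120, .negSucc 385, .negSucc 1054, .negSucc 206⟩, ⟨.negSucc 1053, .negSucc 1172, .ofNat 147, .ofNat 385, .ofNat 1618, .ofNat 531⟩, ⟨.negSucc 89, .ofNat 113, .negSucc 115, .negSucc 805, .ofNat 42, .ofNat 55⟩, .ofNat 1396, .ofNat 2311, .ofNat 0, .ofNat 2311, .ofNat 5379, .ofNat 0, .ofNat 160,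 .negSucc 290, .negSucc 647, .ofNat 0, .ofNat 165, .ofNat 283, .ofNat 0, .ofNat 0, .ofNat 787, .ofNat 811, .ofNat 0, .ofNat 0, .ofNat 147691760159386464878592000, .ofNat 0, .ofNat 0, .ofNat 356771874068673136077407728435200, .ofNat 0, .ofNat 0, .ofNat 0, .ofNat 0, .ofNat 2757278721374441602390425600, .ofNat 0, .ofNat 0, .ofNat 0, .ofNat 9288480228787929352450867200, .ofNat 0⟩)
    (by decide +kernel)
theorem L00537 : Good (Phi V4.P V4.D (-1) (-1)) ⟨5, 26, 3, 3, 1, 0, 3, 6, 3, 1⟩ :=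
  leaf_sound (S := T4.ds_mm) T4.ok_mm (w := 176) (c := ⟨⟨.negSucc 1320, .negSucc 191, .ofNat 162, .ofNat 613, .ofNat 315, .ofNat 257⟩, ⟨.ofNat 595, .ofNat 85, .ofNat 6, .negSucc 318, .negSucc 147, .negSucc 118⟩, ⟨.ofNat 838, .ofNat 165, .negSucc 141, .negSucc 588, .negSucc 354, .negSucc 162⟩, ⟨.negSucc 2049, .negSucc 279, .ofNat 241, .ofNat 561, .ofNat 490, .ofNat 416⟩, ⟨.ofNat 69, .ofNat 22, .negSucc 39, .negSucc 835, .negSucc 14, .ofNat 22⟩, .ofNat 631, .ofNat 689, .ofNat 0, .ofNat 689, .ofNat 1677, .ofNat 0, .ofNat 208, .negSucc 260, .negSucc 640, .ofNat 0, .ofNat 189, .ofNat 289, .ofNat 0, .ofNat 0, .ofNat 789, .ofNat 1167, .ofNat 0, .ofNat 0, .ofNat 0, .ofNat 0, .ofNat 0, .ofNat 0, .ofNat 0, .ofNat 0, .ofNat 0, .ofNat 0, .ofNat 0, .ofNat 0, .ofNat 0, .ofNat 0, .ofNat 0, .ofNat 0⟩)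
    (by decide +kernel)
theorem L00538 : Good (Phi V4.P V4.D (-1) (-1)) ⟨5, 26, 3, 3, 1, 0, 3, 7, 3, 1⟩ :=
  leaf_sound (S := T4.ds_mm) T4.ok_mm (w := 176) (c := ⟨⟨.negSucc 1458, .ofNat 61, .ofNat 229, .ofNat 981, .ofNat 810, .ofNat 493⟩, ⟨.ofNat 694, .negSucc 50, .negSucc 60, .negSucc 503, .negSucc 392, .negSucc 238⟩, ⟨.ofNat 872, .negSucc 39, .negSucc 223, .negSucc 861, .negSucc 817, .negSucc 373⟩, ⟨.negSucc 2237, .ofNat 78, .ofNat 336, .ofNat 1116, .ofNat 1289, .ofNat 770⟩, ⟨.ofNat 52, .negSucc 41, .ofNat 15, .negSucc 860, .ofNat 61, .ofNat 11⟩, .ofNat 636, .ofNat 700, .ofNat 0, .ofNat 700, .ofNat 1696, .ofNat 0, .ofNat 216, .negSucc 276, .negSucc 836, .ofNat 0, .ofNat 197, .ofNat 373, .ofNat 0, .ofNat 0, .ofNat 930, .ofNat 645, .ofNat 0, .ofNat 0, .ofNat 0, .ofNat 0, .ofNat 0, .ofNat 0, .ofNat 0, .ofNat 0, .ofNat 0, .ofNat 0, .ofNat 0, .ofNat 0,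 .ofNat 0, .ofNat 0, .ofNat 4696638726616477028528947200, .ofNat 0⟩)
    (by decide +kernel)
theorem L00539 : Good (Phi V4.P V4.D (-1) (-1)) ⟨5, 27, 4, 6, 1, 0, 2, 3, 3, 1⟩ :=
  out_sound (S := T4.ds_mm) T4.ok_mm (w := 64) (j := 3) (by decide +kernel)
theorem L00540 : Good (Phi V4.P V4.D (-1) (-1)) ⟨6, 54, 4, 7, 1, 0, 3, 6, 3, 1⟩ :=
  leaf_sound (S := T4.ds_mm) T4.ok_mm (w := 184) (c := ⟨⟨.negSucc 1447, .negSucc 89, .negSucc 117, .ofNat 965, .ofNat 373, .ofNat 310⟩, ⟨.ofNat 719, .ofNat 42, .ofNat 104, .negSucc 521, .negSucc 194, .negSucc 161⟩, ⟨.ofNat 927, .ofNat 51, .ofNat 152, .negSucc 923, .negSucc 406, .negSucc 217⟩, ⟨.negSucc 2270, .negSucc 206, .negSucc 53, .ofNat 990, .ofNat 559, .ofNat 471⟩, ⟨.negSucc 102, .negSucc 157, .ofNat 263, .negSucc 943, .negSucc 26, .negSucc 9⟩, .ofNat 3349, .ofNat 5690, .ofNat 0, .ofNat 5690, .ofNat 10947, .ofNat 0,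 .ofNat 103, .negSucc 314, .negSucc 636, .ofNat 0, .ofNat 182, .ofNat 334, .ofNat 0, .ofNat 0, .ofNat 784, .ofNat 1636, .ofNat 0, .ofNat 0, .ofNat 0, .ofNat 0, .ofNat 0, .ofNat 0, .ofNat 22144363389641089839896985600, .ofNat 0, .ofNat 0, .ofNat 0, .ofNat 13393072814851225302545203200, .ofNat 0, .ofNat 0, .ofNat 0, .ofNat 9592834959214358921478144000, .ofNat 0⟩)
    (by decide +kernel)
theorem L00541 : Good (Phi V4.P V4.D (-1) (-1)) ⟨6, 54, 4, 7, 1, 0, 3, 7, 3, 1⟩ :=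
  leaf_sound (S := T4.ds_mm) T4.ok_mm (w := 184) (c := ⟨⟨.negSucc 1542, .negSucc 265, .ofNat 111, .ofNat 1325, .ofNat 936, .ofNat 530⟩, ⟨.ofNat 789, .ofNat 124, .negSucc 36, .negSucc 709, .negSucc 486, .negSucc 275⟩, ⟨.ofNat 916, .ofNat 244, .negSucc 77, .negSucc 1178, .negSucc 923, .negSucc 391⟩, ⟨.negSucc 2333, .negSucc 456, .ofNat 149, .ofNat 1568, .ofNat 1489, .ofNat 839⟩, ⟨.ofNat 47, .negSucc 81, .negSucc 15, .negSucc 890, .ofNat 96, .ofNat 49⟩, .ofNat 2465, .ofNat 4036, .ofNat 0, .ofNat 4036, .ofNat 7842, .ofNat 0, .ofNat 117, .negSucc 337, .negSucc 827, .ofNat 0, .ofNat 197, .ofNat 431, .ofNat 0, .ofNat 0, .ofNat 914, .ofNat 862, .ofNat 0, .ofNat 0, .ofNat 0, .ofNat 0, .ofNat 0, .ofNat 0, .ofNat 17354809542954679894278144000, .ofNat 0, .ofNat 0, .ofNat 329170584592346856361919625402777600, .ofNat 14612239638657042209361100800, .ofNat 0, .ofNat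 0, .ofNat 1198712604941113657207683581529292800, .ofNat 10318325237655457346931916800, .ofNat 0⟩)
    (by decide +kernel)
theorem L00542 : Good (Phi V4.P V4.D (-1) (-1)) ⟨6, 55, 4, 7, 1, 0, 2, 3, 3, 1⟩ :=
  out_sound (S := T4.ds_mm) T4.ok_mm (w := 72) (j := 3) (by decide +kernel)
theorem L00543 : Good (Phi V4.P V4.D (-1) (-1)) ⟨3, 7, 3, 3, 1, 0, 1, 1, 2, 0⟩ :=
  out_sound (S := T4.ds_mm) T4.ok_mm (w := 48) (j := 3) (by decide +kernel)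
theorem L00544 : Good (Phi V4.P V4.D (-1) (-1)) ⟨2, 2, 2, 1, 1, 0, 2, 2, 2, 1⟩ :=
  out_sound (S := T4.ds_mm) T4.ok_mm (w := 40) (j := 3) (by decide +kernel)
theorem L00545 : Good (Phi V4.P V4.D (-1) (-1)) ⟨4, 12, 2, 1, 1, 0, 2, 2, 2, 1⟩ :=
  leaf_sound (S := T4.ds_mm) T4.ok_mm (w := 160) (c := ⟨⟨.negSucc 1205, .negSucc 90, .ofNat 94, .ofNat 349, .ofNat 323, .ofNat 350⟩, ⟨.ofNat 434, .ofNat 36, .ofNat 112, .negSucc 180, .negSucc 123, .negSucc 138⟩, ⟨.ofNat 868, .ofNat 115, .negSucc 114, .negSucc 269, .negSucc 399, .negSucc 287⟩, ⟨.negSucc 1957, .negSucc 90, .ofNat 124, .ofNat 231, .ofNat 526, .ofNat 547⟩, ⟨.ofNat 145, .negSucc 51, .ofNat 43, .negSucc 894, .negSucc 2, .negSucc 62⟩, .ofNat 325, .ofNat 170, .ofNat 0, .ofNat 170, .ofNat 675, .ofNat 0, .ofNat 455, .negSucc 253, .negSucc 639, .ofNat 0, .ofNat 318, .ofNat 209, .ofNat 0, .ofNat 0, .ofNat 1020,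 .ofNat 2699, .ofNat 0, .ofNat 0, .ofNat 523454798477221490995200, .ofNat 0, .ofNat 0, .ofNat 0, .ofNat 0, .ofNat 0, .ofNat 0, .ofNat 0, .ofNat 0, .ofNat 0, .ofNat 0, .ofNat 0, .ofNat 0, .ofNat 0⟩)
    (by decide +kernel)
theorem L00546 : Good (Phi V4.P V4.D (-1) (-1)) ⟨4, 13, 3, 2, 1, 0, 2, 2, 2, 1⟩ :=
  leaf_sound (S := T4.ds_mm) T4.ok_mm (w := 168) (c := ⟨⟨.negSucc 1326, .negSucc 424, .negSucc 8, .ofNat 453, .ofNat 343, .ofNat 388⟩, ⟨.ofNat 509, .ofNat 226, .ofNat 80, .negSucc 241, .negSucc 148, .negSucc 172⟩, ⟨.ofNat 1072, .ofNat 610, .negSucc 61, .negSucc 385, .negSucc 429, .negSucc 320⟩, ⟨.negSucc 2058, .negSucc 283, .negSucc 14, .ofNat 321, .ofNat 538, .ofNat 584⟩, ⟨.ofNat 121, .ofNat 802, .ofNat 8, .negSucc 924, .negSucc 17, .negSucc 78⟩, .ofNat 569, .ofNat 579, .ofNat 0, .ofNat 579, .ofNat 1544, .ofNat 0, .ofNat 352, .negSucc 375, .negSucc 601,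 .ofNat 0, .ofNat 286, .ofNat 254, .ofNat 0, .ofNat 0, .ofNat 999, .ofNat 3516, .ofNat 0, .ofNat 0, .ofNat 22012474990434642350899200, .ofNat 0, .ofNat 0, .ofNat 0, .ofNat 7531074601647938406973440000, .ofNat 0, .ofNat 0, .ofNat 0, .ofNat 4876016563405268221899571200, .ofNat 0, .ofNat 0, .ofNat 56381850629438974349613937459200, .ofNat 1883123923366327046425804800, .ofNat 0⟩)
    (by decide +kernel)
theorem L00547 : Good (Phi V4.P V4.D (-1) (-1)) ⟨4, 13, 3, 3, 1, 0, 2, 2, 3, 2⟩ :=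
  leaf_sound (S := T4.ds_mm) T4.ok_mm (w := 168) (c := ⟨⟨.negSucc 1397, .negSucc 53, .ofNat 1, .ofNat 535, .ofNat 402, .ofNat 220⟩, ⟨.ofNat 636, .ofNat 30, .ofNat 82, .negSucc 284, .negSucc 198, .negSucc 110⟩, ⟨.ofNat 1089, .ofNat 70, .negSucc 4, .negSucc 479, .negSucc 503, .negSucc 184⟩, ⟨.negSucc 2135, .ofNat 16, .negSucc 25, .ofNat 424, .ofNat 586, .ofNat 322⟩, ⟨.ofNat 124, .ofNat 52, .negSucc 12, .negSucc 863, .negSucc 85, .negSucc 35⟩, .ofNat 640, .ofNat 705, .ofNat 0, .ofNat 705, .ofNat 1694, .ofNat 0, .ofNat 172, .negSucc 220, .negSucc 370, .ofNat 0, .ofNat 159, .ofNat 171, .ofNat 0, .ofNat 0, .ofNat 560, .ofNat 1381, .ofNat 0, .ofNat 0, .ofNat 1185289331009861641420800, .ofNat 0, .ofNat 0, .ofNat 0, .ofNat 3261984391161619864879104000, .ofNat 0, .ofNat 0, .ofNat 0, .ofNat 1914100187641491920781312000, .ofNat 0, .ofNat 0, .ofNat 0, .ofNat 0, .ofNat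 0⟩)
    (by decide +kernel)
theorem L00548 : Good (Phi V4.P V4.D (-1) (-1)) ⟨5, 26, 3, 3, 1, 0, 2, 2, 3, 3⟩ :=
  leaf_sound (S := T4.ds_mm) T4.ok_mm (w := 176) (c := ⟨⟨.negSucc 1241, .ofNat 40, .negSucc 73, .ofNat 654, .ofNat 375, .ofNat 186⟩, ⟨.ofNat 563, .negSucc 27, .ofNat 113, .negSucc 341, .negSucc 175, .negSucc 87⟩, ⟨.ofNat 934, .negSucc 68, .ofNat 101, .negSucc 547, .negSucc 441, .negSucc 160⟩, ⟨.negSucc 1893, .ofNat 43, .negSucc 100, .ofNat 562, .ofNat 589, .ofNat 281⟩, ⟨.ofNat 134, .negSucc 95, .ofNat 75, .negSucc 979, .negSucc 8, .negSucc 27⟩, .ofNat 1130, .ofNat 1652, .ofNat 0, .ofNat 1652, .ofNat 3657, .ofNat 0, .ofNat 239, .negSucc 423, .negSucc 546, .ofNat 0, .ofNat 260, .ofNat 258, .ofNat 0, .ofNat 0, .ofNat 938, .ofNat 3444, .ofNat 0, .ofNat 0, .ofNat 7181408027089676559974400, .ofNat 0, .ofNat 0, .ofNat 0, .ofNat 6678263717645558100472627200,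 .ofNat 0, .ofNat 0, .ofNat 9826991345660146654106305010073600, .ofNat 2232931411171173550207795200, .ofNat 0, .ofNat 0, .ofNat 0, .ofNat 2942935966901740615866777600, .ofNat 0⟩)
    (by decide +kernel)
theorem L00549 : Good (Phi V4.P V4.D (-1) (-1)) ⟨5, 27, 4, 6, 1, 0, 2, 2, 3, 3⟩ :=
  out_sound (S := T4.ds_mm) T4.ok_mm (w := 64) (j := 3) (by decide +kernel)
theorem L00550 : Good (Phi V4.P V4.D (-1) (-1)) ⟨5, 27, 4, 7, 2, 0, 2, 2, 3, 3⟩ :=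
  leaf_sound (S := T4.ds_mm) T4.ok_mm (w := 184) (c := ⟨⟨.negSucc 1313, .negSucc 129, .ofNat 123, .ofNat 312, .ofNat 266, .ofNat 162⟩, ⟨.ofNat 656, .ofNat 76, .negSucc 31, .negSucc 168, .negSucc 138, .negSucc 84⟩, ⟨.ofNat 998, .ofNat 127, .negSucc 124, .negSucc 221, .negSucc 338, .negSucc 144⟩, ⟨.negSucc 1985, .negSucc 169, .ofNat 170, .ofNat 320, .ofNat 403, .ofNat 244⟩, ⟨.ofNat 65, .negSucc 2, .negSucc 35, .negSucc 304, .negSucc 10, .negSucc 7⟩, .ofNat 2455, .ofNat 4021, .ofNat 0, .ofNat 4021, .ofNat 7822, .ofNat 0, .ofNat 161, .negSucc 442, .negSucc 550, .ofNat 0, .ofNat 260, .ofNat 287, .ofNat 0, .ofNat 0, .ofNat 948, .ofNat 6199, .ofNat 0, .ofNat 0, .ofNat 0, .ofNat 0, .ofNat 0, .ofNat 0, .ofNat 22788576035454884604666288537600, .ofNat 0, .ofNat 0, .ofNat 0, .ofNat 17311372768800825155159851008000, .ofNat 0, .ofNat 0, .ofNat 0, .ofNat 9662061005767533702551489740800,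 .ofNat 0⟩)
    (by decide +kernel)
theorem L00551 : Good (Phi V4.P V4.D (-1) (-1)) ⟨5, 27, 4, 7, 2, 1, 2, 2, 3, 3⟩ :=
  leaf_sound (S := T4.ds_mm) T4.ok_mm (w := 184) (c := ⟨⟨.negSucc 987, .negSucc 215, .negSucc 17, .ofNat 420, .ofNat 539, .ofNat 175⟩, ⟨.ofNat 473, .ofNat 89, .ofNat 52, .negSucc 232, .negSucc 281, .negSucc 91⟩, ⟨.ofNat 748, .ofNat 174, .ofNat 15, .negSucc 393, .negSucc 606, .negSucc 136⟩, ⟨.negSucc 1681, .negSucc 389, .ofNat 18, .ofNat 284, .ofNat 811, .ofNat 251⟩, ⟨.negSucc 342, .negSucc 129, .ofNat 122, .negSucc 693, .negSucc 31, .negSucc 34⟩, .ofNat 2450, .ofNat 4014, .ofNat 0, .ofNat 4014, .ofNat 7812, .ofNat 0, .ofNat 166, .negSucc 473, .negSucc 557, .ofNat 0, .ofNat 277, .ofNat 293, .ofNat 0, .ofNat 0, .ofNat 934, .ofNat 4433, .ofNat 0, .ofNat 0, .ofNat 0, .ofNat 0, .ofNat 0, .ofNat 0, .ofNat 22020010691478907630947139584000, .ofNat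 0, .ofNat 0, .ofNat 15805287329181217782858382355044761600, .ofNat 8022041686162296508362050764800, .ofNat 0, .ofNat 0, .ofNat 7463682630507565077205550593631846400, .ofNat 10591525068458445286069292236800, .ofNat 0⟩)
    (by decide +kernel)
theorem L00552 : Good (Phi V4.P V4.D (-1) (-1)) ⟨3, 7, 2, 1, 1, 0, 2, 2, 2, 1⟩ :=
  out_sound (S := T4.ds_mm) T4.ok_mm (w := 48) (j := 3) (by decide +kernel)
theorem L00553 : Good (Phi V4.P V4.D (-1) (-1)) ⟨2, 2, 2, 1, 2, 0, 2, 3, 2, 1⟩ :=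
  out_sound (S := T4.ds_mm) T4.ok_mm (w := 40) (j := 3) (by decide +kernel)
theorem L00554 : Good (Phi V4.P V4.D (-1) (-1)) ⟨3, 6, 2, 1, 2, 0, 3, 6, 2, 1⟩ :=
  leaf_sound (S := T4.ds_mm) T4.ok_mm (w := 168) (c := ⟨⟨.negSucc 1019, .negSucc 115, .negSucc 25, .ofNat 420, .ofNat 279, .ofNat 313⟩, ⟨.ofNat 378, .ofNat 51, .ofNat 117, .negSucc 186, .negSucc 110, .negSucc 129⟩, ⟨.ofNat 575, .ofNat 120, .ofNat 27, .negSucc 348, .negSucc 291, .negSucc 220⟩, ⟨.negSucc 1683, .negSucc 109, .negSucc 37, .ofNat 560, .ofNat 464, .ofNat 511⟩, ⟨.ofNat 3, .ofNat 16, .negSucc 19, .negSucc 289, .ofNat 17, .ofNat 9⟩, .ofNat 551, .ofNat 557, .ofNat 0, .ofNat 557, .ofNat 1609, .ofNat 0, .ofNat 184, .negSucc 179, .negSucc 382, .ofNat 0, .ofNat 138, .ofNat 144, .ofNat 0, .ofNat 0, .ofNat 549, .ofNat 611, .ofNat 0, .ofNat 0, .ofNat 0, .ofNat 0, .ofNat 0, .ofNat 0, .ofNat 0, .ofNat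 0, .ofNat 0, .ofNat 0, .ofNat 763398344895275810423203430400, .ofNat 0, .ofNat 0, .ofNat 0, .ofNat 434948741558774819488530432000, .ofNat 0⟩)
    (by decide +kernel)
theorem L00555 : Good (Phi V4.P V4.D (-1) (-1)) ⟨3, 7, 2, 1, 2, 0, 3, 6, 2, 1⟩ :=
  out_sound (S := T4.ds_mm) T4.ok_mm (w := 48) (j := 3) (by decide +kernel)
theorem L00556 : Good (Phi V4.P V4.D (-1) (-1)) ⟨4, 12, 3, 2, 2, 0, 3, 7, 2, 1⟩ :=
  leaf_sound (S := T4.ds_mm) T4.ok_mm (w := 176) (c := ⟨⟨.negSucc 865, .negSucc 56, .ofNat 63, .ofNat 569, .ofNat 730, .ofNat 309⟩, ⟨.ofNat 315, .ofNat 41, .negSucc 17, .negSucc 229, .negSucc 276, .negSucc 115⟩, ⟨.ofNat 390, .ofNat 58, .negSucc 62, .negSucc 483, .negSucc 729, .negSucc 191⟩, ⟨.negSucc 1441, .negSucc 44, .ofNat 76, .ofNat 842, .ofNat 1209, .ofNat 516⟩, ⟨.negSucc 20, .ofNat 27, .negSucc 19, .negSucc 239, .ofNat 33, .ofNat 28⟩, .ofNat 800,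 .ofNat 1113, .ofNat 0, .ofNat 1113, .ofNat 3107, .ofNat 0, .ofNat 172, .negSucc 206, .negSucc 475, .ofNat 0, .ofNat 129, .ofNat 176, .ofNat 0, .ofNat 0, .ofNat 618, .ofNat 526, .ofNat 0, .ofNat 279320389652649473118849466368000, .ofNat 0, .ofNat 0, .ofNat 0, .ofNat 0, .ofNat 0, .ofNat 0, .ofNat 0, .ofNat 0, .ofNat 0, .ofNat 0, .ofNat 0, .ofNat 0, .ofNat 0, .ofNat 0⟩)
    (by decide +kernel)

end Crest.Agent.R097C4.N4mm
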