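import Crest.Agent.R097.T4

/-!
# Row 97, box cover in dimension n = 4 (generated)
-/

set_option autoImplicit false
set_option Elab.async false
set_option maxHeartbeats 0
set_option maxRecDepth 100000

open Crest.Agent.R097 Crest.Agent.R097.KA


namespace Crest.Agent.R097C4.N4mm

theorem L00557 : Good (Phi V4.P V4.D (-1) (-1)) ⟨4, 12, 3, 3, 2, 0, 3, 7, 2, 1⟩ :=
  leaf_sound (S := T4.ds_mm) T4.ok_mm (w := 176) (c := ⟨⟨.negSucc 820, .negSucc 170, .ofNat 52, .ofNat 695, .ofNat 798, .ofNat 349⟩, ⟨.ofNat 366, .ofNat 65, .negSucc 9, .negSucc 311, .negSucc 346, .negSucc 150⟩, ⟨.ofNat 346, .ofNat 168, .negSucc 26, .negSucc 606, .negSucc 794, .negSucc 230⟩, ⟨.negSucc 1307, .negSucc 288, .ofNat 76, .ofNat 1011, .ofNat 1294, .ofNat 570⟩, ⟨.ofNat 14, .negSucc 29, .negSucc 9, .negSucc 231, .ofNat 36, .ofNat 23⟩, .ofNat 1768, .ofNat 3115, .ofNat 0, .ofNat 3115, .ofNat 7141,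 .ofNat 0, .ofNat 256, .negSucc 472, .negSucc 1020, .ofNat 0, .ofNat 267, .ofNat 445, .ofNat 0, .ofNat 0, .ofNat 1282, .ofNat 1474, .ofNat 0, .ofNat 1022299649706025700672619832934400, .ofNat 0, .ofNat 0, .ofNat 0, .ofNat 0, .ofNat 0, .ofNat 0, .ofNat 0, .ofNat 62209372248565518052111798606233600, .ofNat 14713287412261154554960360243200, .ofNat 0, .ofNat 0, .ofNat 96596280482749834308843644072755200, .ofNat 6277079065608304255963024588800, .ofNat 0⟩)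
    (by decide +kernel)
theorem L00558 : Good (Phi V4.P V4.D (-1) (-1)) ⟨4, 13, 3, 2, 2, 0, 3, 7, 2, 1⟩ :=
  leaf_sound (S := T4.ds_mm) T4.ok_mm (w := 176) (c := ⟨⟨.negSucc 943, .ofNat 23, .negSucc 75, .ofNat 691, .ofNat 873, .ofNat 384⟩, ⟨.ofNat 400, .negSucc 8, .ofNat 43, .negSucc 312, .negSucc 376, .negSucc 165⟩, ⟨.ofNat 486, .negSucc 0, .ofNat 54, .negSucc 602, .negSucc 865, .negSucc 266⟩, ⟨.negSucc 1465, .ofNat 49, .negSucc 166, .ofNat 992, .ofNat 1420, .ofNat 624⟩, ⟨.ofNat 80, .ofNat 24, .negSucc 98, .negSucc 250, .ofNat 65, .ofNat 30⟩, .ofNat 1389, .ofNat 2258, .ofNat 0, .ofNat 2258, .ofNat 5196, .ofNat 0, .ofNat 147, .negSucc 230, .negSucc 510, .ofNat 0, .ofNat 141, .ofNat 222, .ofNat 0, .ofNat 0, .ofNat 644, .ofNat 841, .ofNat 0, .ofNat 636908720561026210480410486374400, .ofNat 0, .ofNat 0, .ofNat 0, .ofNat 0, .ofNat 24507227571685012845071695872000,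 .ofNat 0, .ofNat 0, .ofNat 0, .ofNat 13381514644078697578792117862400, .ofNat 0, .ofNat 0, .ofNat 64261992149220454914550359549542400, .ofNat 3471453521901269520048193536000, .ofNat 0⟩)
    (by decide +kernel)
theorem L00559 : Good (Phi V4.P V4.D (-1) (-1)) ⟨5, 26, 3, 3, 2, 0, 3, 7, 3, 2⟩ :=
  leaf_sound (S := T4.ds_mm) T4.ok_mm (w := 184) (c := ⟨⟨.negSucc 1100, .negSucc 271, .ofNat 280, .ofNat 744, .ofNat 952, .ofNat 282⟩, ⟨.ofNat 522, .ofNat 154, .negSucc 135, .negSucc 368, .negSucc 460, .negSucc 136⟩, ⟨.ofNat 624, .ofNat 262, .negSucc 269, .negSucc 663, .negSucc 954, .negSucc 209⟩, ⟨.negSucc 1724, .negSucc 408, .ofNat 419, .ofNat 1040, .ofNat 1509, .ofNat 449⟩, ⟨.negSucc 4, .negSucc 24, .ofNat 14, .negSucc 248, .ofNat 42, .ofNat 19⟩, .ofNat 1217, .ofNat 1796, .ofNat 0, .ofNat 1796, .ofNat 3866, .ofNat 0, .ofNat 139, .negSucc 258, .negSucc 622, .ofNat 0,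 .ofNat 159, .ofNat 298, .ofNat 0, .ofNat 0, .ofNat 751, .ofNat 571, .ofNat 0, .ofNat 0, .ofNat 0, .ofNat 0, .ofNat 0, .ofNat 547857745338038549275465935224832000, .ofNat 5514811935673199801426509824000, .ofNat 0, .ofNat 0, .ofNat 0, .ofNat 0, .ofNat 0, .ofNat 0, .ofNat 0, .ofNat 0, .ofNat 0⟩)
    (by decide +kernel)
theorem L00560 : Good (Phi V4.P V4.D (-1) (-1)) ⟨5, 27, 4, 6, 2, 0, 3, 7, 3, 2⟩ :=
  out_sound (S := T4.ds_mm) T4.ok_mm (w := 64) (j := 3) (by decide +kernel)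
theorem L00561 : Good (Phi V4.P V4.D (-1) (-1)) ⟨5, 27, 4, 7, 2, 0, 3, 7, 3, 2⟩ :=
  leaf_sound (S := T4.ds_mm) T4.ok_mm (w := 192) (c := ⟨⟨.negSucc 1001, .ofNat 334, .negSucc 200, .ofNat 899, .ofNat 1096, .ofNat 169⟩, ⟨.ofNat 510, .negSucc 182, .ofNat 119, .negSucc 473, .negSucc 570, .negSucc 87⟩, ⟨.ofNat 516, .negSucc 326, .ofNat 208, .negSucc 813, .negSucc 1091, .negSucc 99⟩, ⟨.negSucc 1543, .ofNat 534, .negSucc 315, .ofNat 1248, .ofNat 1721, .ofNat 270⟩, ⟨.negSucc 8, .ofNat 46, .negSucc 12, .negSucc 254, .ofNat 70, .ofNat 17⟩, .ofNat 3349, .ofNat 5689, .ofNat 0, .ofNat 5689, .ofNat 10945, .ofNat 0, .ofNat 94, .negSucc 280, .negSucc 672, .ofNat 0, .ofNat 163, .ofNat 351, .ofNat 0, .ofNat 0, .ofNat 790, .ofNat 380, .ofNat 0, .ofNat 33609317072863159291066655440896000, .ofNat 105988803194875792586283417600, .ofNat 0, .ofNat 0, .ofNat 0, .ofNat 46099638335162039777879497113600,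 .ofNat 0, .ofNat 0, .ofNat 0, .ofNat 48518342014014232156503539712000, .ofNat 0, .ofNat 0, .ofNat 0, .ofNat 13760577072405391899941771673600, .ofNat 0⟩)
    (by decide +kernel)
theorem L00562 : Good (Phi V4.P V4.D (-1) (-1)) ⟨5, 26, 4, 6, 2, 0, 3, 7, 3, 3⟩ :=
  leaf_sound (S := T4.ds_mm) T4.ok_mm (w := 184) (c := ⟨⟨.negSucc 895, .negSucc 90, .ofNat 62, .ofNat 830, .ofNat 884, .ofNat 152⟩, ⟨.ofNat 410, .ofNat 34, .negSucc 19, .negSucc 389, .negSucc 404, .negSucc 69⟩, ⟨.ofNat 479, .ofNat 87, .negSucc 59, .negSucc 736, .negSucc 876, .negSucc 102⟩, ⟨.negSucc 1419, .negSucc 171, .ofNat 109, .ofNat 1205, .ofNat 1423, .ofNat 245⟩, ⟨.negSucc 12, .negSucc 50, .ofNat 22, .negSucc 231, .ofNat 55, .ofNat 13⟩, .ofNat 1074, .ofNat 1561, .ofNat 0, .ofNat 1561, .ofNat 3540, .ofNat 0, .ofNat 135, .negSucc 223, .negSucc 499, .ofNat 0, .ofNat 139, .ofNat 227, .ofNat 0, .ofNat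 0, .ofNat 624, .ofNat 891, .ofNat 0, .ofNat 0, .ofNat 0, .ofNat 0, .ofNat 0, .ofNat 3322463930694663980103715749101568000, .ofNat 0, .ofNat 0, .ofNat 0, .ofNat 8991892345919978196347451140682547200, .ofNat 0, .ofNat 0, .ofNat 0, .ofNat 18610429543808509239306612172967116800, .ofNat 3256630797691652853566590156800, .ofNat 0⟩)
    (by decide +kernel)
theorem L00563 : Good (Phi V4.P V4.D (-1) (-1)) ⟨5, 26, 4, 7, 2, 0, 3, 7, 3, 3⟩ :=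
  leaf_sound (S := T4.ds_mm) T4.ok_mm (w := 184) (c := ⟨⟨.negSucc 1182, .ofNat 266, .negSucc 69, .ofNat 992, .ofNat 1014, .ofNat 160⟩, ⟨.ofNat 596, .negSucc 143, .ofNat 46, .negSucc 500, .negSucc 506, .negSucc 79⟩, ⟨.ofNat 758, .negSucc 254, .ofNat 65, .negSucc 895, .negSucc 1004, .negSucc 110⟩, ⟨.negSucc 1863, .ofNat 465, .negSucc 143, .ofNat 1425, .ofNat 1600, .ofNat 249⟩, ⟨.negSucc 60, .ofNat 113, .negSucc 70, .negSucc 231, .ofNat 53, .ofNat 1⟩, .ofNat 1303, .ofNat 1938, .ofNat 0, .ofNat 1938, .ofNat 4070, .ofNat 0, .ofNat 119, .negSucc 235, .negSucc 529, .ofNat 0, .ofNat 145, .ofNat 259, .ofNat 0, .ofNat 0, .ofNat 650, .ofNat 601, .ofNat 0, .ofNat 81177441780705704188141794597273600, .ofNat 49984190786382876921928089600, .ofNat 0, .ofNat 0, .ofNat 0, .ofNat 0, .ofNat 0, .ofNat 0, .ofNat 0, .ofNat 0, .ofNat 0, .ofNat 0, .ofNat 0, .ofNat 0, .ofNat 0⟩)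
    (by decide +kernel)
theorem L00564 : Good (Phi V4.P V4.D (-1) (-1)) ⟨5, 27, 4, 6, 2, 0, 3, 7, 3, 3⟩ :=
  out_sound (S := T4.ds_mm) T4.ok_mm (w := 64) (j := 3) (by decide +kernel)
theorem L00565 : Good (Phi V4.P V4.D (-1) (-1)) ⟨5, 27, 4, 7, 2, 0, 3, 7, 3, 3⟩ :=
  leaf_sound (S := T4.ds_mm) T4.ok_mm (w := 192) (c := ⟨⟨.negSucc 922, .negSucc 29, .negSucc 27, .ofNat 966, .ofNat 999, .ofNat 161⟩, ⟨.ofNat 475, .ofNat 7, .ofNat 24, .negSucc 509, .negSucc 520, .negSucc 84⟩, ⟨.ofNat 501, .ofNat 46, .ofNat 34, .negSucc 870, .negSucc 991, .negSucc 113⟩, ⟨.negSucc 1427, .negSucc 69, .negSucc 33, .ofNat 1358, .ofNat 1556, .ofNat 255⟩, ⟨.negSucc 22, .negSucc 39, .ofNat 21, .negSucc 239, .ofNat 43, .ofNat 14⟩, .ofNat 3267, .ofNat 5537, .ofNat 0, .ofNat 5537, .ofNat 10662, .ofNat 0, .ofNat 169, .negSucc 497, .negSucc 1038, .ofNat 0, .ofNat 289, .ofNat 541, .ofNat 0,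 .ofNat 0, .ofNat 1283, .ofNat 1432, .ofNat 0, .ofNat 428498877701527327098068116753612800, .ofNat 0, .ofNat 0, .ofNat 0, .ofNat 24240665427682606826989392148561920000, .ofNat 187264818528813198210205797580800, .ofNat 0, .ofNat 0, .ofNat 20528764635409156830237575063430758400, .ofNat 157450007212240583923679939788800, .ofNat 0, .ofNat 0, .ofNat 80037086032408076248282880971427020800, .ofNat 22194732433542351816664232755200, .ofNat 0⟩)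
    (by decide +kernel)
theorem L00566 : Good (Phi V4.P V4.D (-1) (-1)) ⟨3, 7, 2, 1, 2, 0, 3, 7, 2, 1⟩ :=
  out_sound (S := T4.ds_mm) T4.ok_mm (w := 48) (j := 3) (by decide +kernel)
theorem L00567 : Good (Phi V4.P V4.D (-1) (-1)) ⟨2, 2, 2, 1, 2, 1, 2, 3, 2, 1⟩ :=
  out_sound (S := T4.ds_mm) T4.ok_mm (w := 40) (j := 3) (by decide +kernel)
theorem L00568 : Good (Phi V4.P V4.D (-1) (-1)) ⟨4, 12, 3, 2, 2, 1, 3, 6, 2, 1⟩ :=
  leaf_sound (S := T4.ds_mm) T4.ok_mm (w := 176) (c := ⟨⟨.negSucc 866, .ofNat 22, .ofNat 90, .ofNat 330, .ofNat 412, .ofNat 472⟩, ⟨.ofNat 308, .negSucc 45, .ofNat 25, .negSucc 154, .negSucc 152, .negSucc 174⟩, ⟨.ofNat 469, .negSucc 17, .negSucc 85, .negSucc 286, .negSucc 411, .negSucc 345⟩, ⟨.negSucc 1518, .ofNat 47, .ofNat 97, .ofNat 317, .ofNat 690, .ofNat 777⟩, ⟨.negSucc 266, .negSucc 4, .negSucc 26, .negSucc 593, .ofNat 33, .negSucc 3⟩,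 .ofNat 524, .ofNat 507, .ofNat 0, .ofNat 507, .ofNat 1597, .ofNat 0, .ofNat 410, .negSucc 378, .negSucc 746, .ofNat 0, .ofNat 282, .ofNat 263, .ofNat 0, .ofNat 0, .ofNat 1068, .ofNat 4058, .ofNat 0, .ofNat 0, .ofNat 0, .ofNat 0, .ofNat 0, .ofNat 0, .ofNat 0, .ofNat 0, .ofNat 0, .ofNat 88131494493449891559905643882086400, .ofNat 0, .ofNat 0, .ofNat 0, .ofNat 0, .ofNat 0, .ofNat 0⟩)
    (by decide +kernel)
theorem L00569 : Good (Phi V4.P V4.D (-1) (-1)) ⟨4, 12, 3, 2, 2, 1, 3, 7, 2, 1⟩ :=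
  leaf_sound (S := T4.ds_mm) T4.ok_mm (w := 176) (c := ⟨⟨.negSucc 505, .ofNat 84, .ofNat 96, .ofNat 336, .ofNat 643, .ofNat 507⟩, ⟨.ofNat 195, .negSucc 72, .negSucc 4, .negSucc 163, .negSucc 246, .negSucc 196⟩, ⟨.ofNat 93, .negSucc 75, .negSucc 93, .negSucc 271, .negSucc 625, .negSucc 364⟩, ⟨.negSucc 901, .ofNat 102, .ofNat 132, .ofNat 347, .ofNat 1085, .ofNat 842⟩, ⟨.negSucc 257, .negSucc 43, .ofNat 19, .negSucc 538, .ofNat 90, .ofNat 30⟩, .ofNat 527, .ofNat 511, .ofNat 0, .ofNat 511, .ofNat 1574, .ofNat 0, .ofNat 440, .negSucc 413, .negSucc 991, .ofNat 0, .ofNat 310, .ofNat 349, .ofNat 0, .ofNat 0, .ofNat 1248, .ofNat 1756, .ofNat 0, .ofNat 1939527659562771801907031703552000, .ofNat 0, .ofNat 0, .ofNat 0, .ofNat 268222633751547638454998981305958400, .ofNat 0, .ofNat 0, .ofNat 0, .ofNat 238273096165184005036312658706432000, .ofNat 0, .ofNat 0, .ofNat 0, .ofNat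 246381767039553302895960924566323200, .ofNat 0, .ofNat 0⟩)
    (by decide +kernel)
theorem L00570 : Good (Phi V4.P V4.D (-1) (-1)) ⟨4, 12, 3, 3, 2, 1, 2, 3, 2, 1⟩ :=
  leaf_sound (S := T4.ds_mm) T4.ok_mm (w := 176) (c := ⟨⟨.negSucc 781, .negSucc 89, .ofNat 132, .ofNat 455, .ofNat 1066, .ofNat 489⟩, ⟨.ofNat 371, .negSucc 6, .negSucc 9, .negSucc 219, .negSucc 459, .negSucc 212⟩, ⟨.ofNat 373, .ofNat 96, .negSucc 122, .negSucc 397, .negSucc 1044, .negSucc 361⟩, ⟨.negSucc 1341, .negSucc 187, .ofNat 177, .ofNat 470, .ofNat 1760, .ofNat 784⟩, ⟨.negSucc 239, .negSucc 67, .negSucc 19, .negSucc 593, .ofNat 118, .ofNat 2⟩, .ofNat 1719, .ofNat 3008, .ofNat 0, .ofNat 3008, .ofNat 6911, .ofNat 0, .ofNat 263, .negSucc 502, .negSucc 807, .ofNat 0, .ofNat 279, .ofNat 354, .ofNat 0, .ofNat 0, .ofNat 1108, .ofNat 1408, .ofNat 0, .ofNat 388990748564112697009642458316800, .ofNat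 5325060678115226261284454400, .ofNat 0, .ofNat 0, .ofNat 0, .ofNat 0, .ofNat 0, .ofNat 0, .ofNat 50237743354824074139963422775705600, .ofNat 765741178428956231063725670400, .ofNat 0, .ofNat 0, .ofNat 60758654524470516945994155609292800, .ofNat 223912495382981297116387737600, .ofNat 0⟩)
    (by decide +kernel)
theorem L00571 : Good (Phi V4.P V4.D (-1) (-1)) ⟨4, 13, 3, 2, 2, 1, 2, 3, 2, 1⟩ :=
  leaf_sound (S := T4.ds_mm) T4.ok_mm (w := 176) (c := ⟨⟨.negSucc 1125, .negSucc 136, .ofNat 289, .ofNat 421, .ofNat 1096, .ofNat 480⟩, ⟨.ofNat 442, .ofNat 40, .negSucc 89, .negSucc 213, .negSucc 472, .negSucc 209⟩, ⟨.ofNat 708, .ofNat 125, .negSucc 273, .negSucc 363, .negSucc 1079, .negSucc 346⟩, ⟨.negSucc 1875, .negSucc 143, .ofNat 415, .ofNat 404, .ofNat 1784, .ofNat 762⟩, ⟨.negSucc 250, .ofNat 195, .negSucc 42, .negSucc 611, .ofNat 88, .negSucc 7⟩, .ofNat 1388, .ofNat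 2252, .ofNat 0, .ofNat 2252, .ofNat 5173, .ofNat 0, .ofNat 297, .negSucc 485, .negSucc 820, .ofNat 0, .ofNat 291, .ofNat 360, .ofNat 0, .ofNat 0, .ofNat 1122, .ofNat 1191, .ofNat 0, .ofNat 252891170005356074893159327334400, .ofNat 10776656256352133177357107200, .ofNat 0, .ofNat 0, .ofNat 51469994722247693947407319223500800, .ofNat 4740818532774328195979673600000, .ofNat 0, .ofNat 0, .ofNat 60295804447020564730804977637785600, .ofNat 3796702571853270965819120025600, .ofNat 0, .ofNat 0, .ofNat 88296355367139578161606797400473600, .ofNat 1107761204579359436248920883200, .ofNat 0⟩)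
    (by decide +kernel)
theorem L00572 : Good (Phi V4.P V4.D (-1) (-1)) ⟨4, 13, 3, 3, 2, 1, 3, 6, 3, 2⟩ :=
  leaf_sound (S := T4.ds_mm) T4.ok_mm (w := 176) (c := ⟨⟨.negSucc 972, .negSucc 98, .ofNat 217, .ofNat 533, .ofNat 514, .ofNat 340⟩, ⟨.ofNat 444, .ofNat 26, .negSucc 55, .negSucc 278, .negSucc 247, .negSucc 170⟩, ⟨.ofNat 563, .ofNat 94, .negSucc 201, .negSucc 487, .negSucc 507, .negSucc 253⟩, ⟨.negSucc 1630, .negSucc 117, .ofNat 265, .ofNat 528, .ofNat 826, .ofNat 516⟩, ⟨.negSucc 276, .negSucc 20, .negSucc 12, .negSucc 630, .ofNat 41, .negSucc 9⟩, .ofNat 639, .ofNat 704, .ofNat 0, .ofNat 704, .ofNat 1689, .ofNat 0, .ofNat 188, .negSucc 248, .negSucc 508, .ofNat 0, .ofNat 175, .ofNat 233, .ofNat 0, .ofNat 0, .ofNat 641, .ofNat 1190, .ofNat 0, .ofNat 0, .ofNat 0, .ofNat 0, .ofNat 0, .ofNat 0, .ofNat 0, .ofNat 0, .ofNat 0, .ofNat 113693873783845444481943700557004800,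 .ofNat 11116426517435387183468485017600, .ofNat 0, .ofNat 0, .ofNat 0, .ofNat 10391572642402513176755385139200, .ofNat 0⟩)
    (by decide +kernel)
theorem L00573 : Good (Phi V4.P V4.D (-1) (-1)) ⟨5, 26, 3, 3, 2, 1, 3, 7, 3, 2⟩ :=
  leaf_sound (S := T4.ds_mm) T4.ok_mm (w := 184) (c := ⟨⟨.negSucc 556, .ofNat 146, .ofNat 93, .ofNat 659, .ofNat 925, .ofNat 375⟩, ⟨.ofNat 257, .negSucc 107, .negSucc 5, .negSucc 333, .negSucc 438, .negSucc 176⟩, ⟨.ofNat 124, .negSucc 128, .negSucc 93, .negSucc 556, .negSucc 881, .negSucc 277⟩, ⟨.negSucc 985, .ofNat 196, .ofNat 115, .ofNat 767, .ofNat 1502, .ofNat 603⟩, ⟨.negSucc 293, .negSucc 6, .negSucc 10, .negSucc 549, .ofNat 111, .ofNat 35⟩, .ofNat 635, .ofNat 699, .ofNat 0, .ofNat 699, .ofNat 1694, .ofNat 0, .ofNat 393, .negSucc 511, .negSucc 1245, .ofNat 0, .ofNat 360, .ofNat 554, .ofNat 0, .ofNat 0, .ofNat 1450, .ofNat 1237,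 .ofNat 0, .ofNat 131672862027448590166435838715494400, .ofNat 0, .ofNat 0, .ofNat 0, .ofNat 0, .ofNat 0, .ofNat 0, .ofNat 0, .ofNat 0, .ofNat 0, .ofNat 0, .ofNat 0, .ofNat 17391524539309098515248256489462169600, .ofNat 0, .ofNat 0⟩)
    (by decide +kernel)
theorem L00574 : Good (Phi V4.P V4.D (-1) (-1)) ⟨5, 27, 4, 6, 2, 1, 3, 7, 3, 2⟩ :=
  out_sound (S := T4.ds_mm) T4.ok_mm (w := 64) (j := 3) (by decide +kernel)
theorem L00575 : Good (Phi V4.P V4.D (-1) (-1)) ⟨5, 27, 4, 7, 2, 1, 3, 7, 3, 2⟩ :=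
  leaf_sound (S := T4.ds_mm) T4.ok_mm (w := 192) (c := ⟨⟨.negSucc 449, .ofNat 166, .ofNat 43, .ofNat 834, .ofNat 1054, .ofNat 348⟩, ⟨.ofNat 225, .negSucc 107, .negSucc 16, .negSucc 446, .negSucc 546, .negSucc 180⟩, ⟨.ofNat 35, .negSucc 127, .negSucc 53, .negSucc 714, .negSucc 1005, .negSucc 256⟩, ⟨.negSucc 795, .ofNat 259, .ofNat 9, .ofNat 984, .ofNat 1689, .ofNat 551⟩, ⟨.negSucc 238, .ofNat 46, .negSucc 69, .negSucc 569, .ofNat 133, .ofNat 32⟩, .ofNat 2453, .ofNat 4020, .ofNat 0, .ofNat 4020, .ofNat 7825, .ofNat 0, .ofNat 418, .negSucc 1205, .negSucc 2425, .ofNat 0, .ofNat 701, .ofNat 1260, .ofNat 0, .ofNat 0, .ofNat 2848, .ofNat 6888, .ofNat 0, .ofNat 3416580496722136717361336197054464000, .ofNat 0, .ofNat 0, .ofNat 0, .ofNat 280385567524784697296539788490309632000, .ofNat 527088682234508398158904138137600, .ofNat 0, .ofNat 0, .ofNat 400102987898933371743824191722356736000,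 .ofNat 318276814177266356935875310387200, .ofNat 0, .ofNat 0, .ofNat 438274638843143235193259652690424627200, .ofNat 133237940430649679265705807052800, .ofNat 0⟩)
    (by decide +kernel)
theorem L00576 : Good (Phi V4.P V4.D (-1) (-1)) ⟨4, 13, 3, 3, 2, 1, 3, 6, 3, 3⟩ :=
  leaf_sound (S := T4.ds_mm) T4.ok_mm (w := 176) (c := ⟨⟨.negSucc 661, .negSucc 91, .ofNat 171, .ofNat 598, .ofNat 533, .ofNat 196⟩, ⟨.ofNat 301, .ofNat 22, .negSucc 55, .negSucc 308, .negSucc 254, .negSucc 91⟩, ⟨.ofNat 324, .ofNat 80, .negSucc 157, .negSucc 526, .negSucc 521, .negSucc 145⟩, ⟨.negSucc 1164, .negSucc 99, .ofNat 197, .ofNat 646, .ofNat 862, .ofNat 317⟩, ⟨.negSucc 312, .ofNat 40, .negSucc 34, .negSucc 594, .ofNat 62, .ofNat 17⟩, .ofNat 641, .ofNat 707, .ofNat 0, .ofNat 707, .ofNat 1695, .ofNat 0, .ofNat 329, .negSucc 427, .negSucc 769, .ofNat 0, .ofNat 305, .ofNat 348, .ofNat 0,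 .ofNat 0, .ofNat 1063, .ofNat 3653, .ofNat 0, .ofNat 0, .ofNat 0, .ofNat 0, .ofNat 0, .ofNat 0, .ofNat 53845098697677390868732339814400, .ofNat 0, .ofNat 0, .ofNat 763812216732817397690724460894617600, .ofNat 48993041812975471584989518233600, .ofNat 0, .ofNat 0, .ofNat 514604100810971299401911335963852800, .ofNat 0, .ofNat 0⟩)
    (by decide +kernel)
theorem L00577 : Good (Phi V4.P V4.D (-1) (-1)) ⟨4, 13, 3, 3, 2, 1, 3, 7, 3, 3⟩ :=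
  leaf_sound (S := T4.ds_mm) T4.ok_mm (w := 184) (c := ⟨⟨.negSucc 162, .ofNat 139, .ofNat 75, .ofNat 726, .ofNat 867, .ofNat 220⟩, ⟨.ofNat 72, .negSucc 107, .negSucc 25, .negSucc 362, .negSucc 405, .negSucc 102⟩, ⟨.negSucc 173, .negSucc 126, .negSucc 74, .negSucc 614, .negSucc 827, .negSucc 161⟩, ⟨.negSucc 369, .ofNat 183, .ofNat 90, .ofNat 913, .ofNat 1408, .ofNat 354⟩, ⟨.negSucc 281, .negSucc 1, .negSucc 2, .negSucc 461, .ofNat 108, .ofNat 18⟩, .ofNat 640, .ofNat 705, .ofNat 0, .ofNat 705, .ofNat 1691, .ofNat 0, .ofNat 677, .negSucc 873, .negSucc 1874, .ofNat 0, .ofNat 627, .ofNat 837, .ofNat 0, .ofNat 0, .ofNat 2367, .ofNat 3162, .ofNat 0, .ofNat 39150772311246262646290585642598400, .ofNat 0, .ofNat 0, .ofNat 0, .ofNat 3782937151196797187317006529357414400, .ofNat 0, .ofNat 0, .ofNat 0, .ofNat 4084443531875824449040457164180684800, .ofNat 0, .ofNat 0, .ofNat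 0, .ofNat 8152792549580397903829419130512998400, .ofNat 82491353136799763644797891379200, .ofNat 0⟩)
    (by decide +kernel)
theorem L00578 : Good (Phi V4.P V4.D (-1) (-1)) ⟨3, 7, 2, 1, 2, 1, 2, 3, 2, 1⟩ :=
  out_sound (S := T4.ds_mm) T4.ok_mm (w := 48) (j := 3) (by decide +kernel)
theorem L00579 : Good (Phi V4.P V4.D (-1) (-1)) ⟨2, 2, 3, 2, 1, 1, 1, 0, 2, 0⟩ :=
  out_sound (S := T4.ds_mm) T4.ok_mm (w := 40) (j := 3) (by decide +kernel)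
theorem L00580 : Good (Phi V4.P V4.D (-1) (-1)) ⟨5, 24, 4, 4, 2, 2, 1, 0, 4, 0⟩ :=
  leaf_sound (S := T4.ds_mm) T4.ok_mm (w := 184) (c := ⟨⟨.ofNat 1276, .ofNat 81, .ofNat 73, .ofNat 168, .negSucc 1328, .negSucc 1145⟩, ⟨.negSucc 446, .negSucc 65, .negSucc 10, .negSucc 60, .ofNat 441, .ofNat 403⟩, ⟨.negSucc 937, .negSucc 129, .ofNat 5, .ofNat 29, .ofNat 572, .ofNat 901⟩, ⟨.ofNat 1992, .ofNat 89, .ofNat 104, .ofNat 290, .negSucc 2373, .negSucc 1878⟩, ⟨.negSucc 481, .negSucc 78, .ofNat 33, .ofNat 23, .negSucc 421, .ofNat 115⟩, .ofNat 755, .ofNat 1054, .ofNat 0, .ofNat 1054, .ofNat 3206, .ofNat 0, .ofNat 234, .negSucc 337, .negSucc 633, .ofNat 0, .ofNat 173, .ofNat 232, .ofNat 0, .ofNat 0, .ofNat 672, .ofNat 1255, .ofNat 0, .ofNat 0, .ofNat 0, .ofNat 0, .ofNat 0, .ofNat 0, .ofNat 0, .ofNat 0, .ofNat 0, .ofNat 0, .ofNat 0, .ofNat 0, .ofNat 0, .ofNat 0, .ofNat 0,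 .ofNat 0⟩)
    (by decide +kernel)
theorem L00581 : Good (Phi V4.P V4.D (-1) (-1)) ⟨5, 24, 4, 5, 2, 2, 1, 0, 4, 0⟩ :=
  out_sound (S := T4.ds_mm) T4.ok_mm (w := 64) (j := 3) (by decide +kernel)
theorem L00582 : Good (Phi V4.P V4.D (-1) (-1)) ⟨5, 25, 3, 2, 3, 4, 1, 0, 4, 0⟩ :=
  leaf_sound (S := T4.ds_mm) T4.ok_mm (w := 192) (c := ⟨⟨.ofNat 1326, .ofNat 197, .ofNat 112, .ofNat 211, .negSucc 1332, .negSucc 1211⟩, ⟨.negSucc 556, .negSucc 116, .negSucc 23, .negSucc 99, .ofNat 528, .ofNat 498⟩, ⟨.negSucc 1084, .negSucc 164, .negSucc 38, .negSucc 99, .ofNat 634, .ofNat 1020⟩, ⟨.ofNat 1971, .ofNat 271, .ofNat 118, .ofNat 295, .negSucc 2284, .negSucc 1883⟩, ⟨.negSucc 580, .negSucc 51, .negSucc 3, .negSucc 105, .negSucc 320, .ofNat 202⟩, .ofNat 543, .ofNat 538, .ofNat 0, .ofNat 538, .ofNat 1559, .ofNat 0, .ofNat 256, .negSucc 305, .negSucc 761, .ofNat 0, .ofNat 198,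 .ofNat 318, .ofNat 0, .ofNat 0, .ofNat 776, .ofNat 1647, .ofNat 0, .ofNat 0, .ofNat 0, .ofNat 0, .ofNat 0, .ofNat 0, .ofNat 0, .ofNat 0, .ofNat 0, .ofNat 0, .ofNat 0, .ofNat 0, .ofNat 0, .ofNat 0, .ofNat 0, .ofNat 0⟩)
    (by decide +kernel)
theorem L00583 : Good (Phi V4.P V4.D (-1) (-1)) ⟨5, 25, 3, 2, 3, 5, 1, 0, 4, 0⟩ :=
  leaf_sound (S := T4.ds_mm) T4.ok_mm (w := 192) (c := ⟨⟨.ofNat 1811, .ofNat 343, .negSucc 105, .ofNat 7, .negSucc 1588, .negSucc 1348⟩, ⟨.negSucc 757, .negSucc 178, .ofNat 72, .ofNat 7, .ofNat 617, .ofNat 550⟩, ⟨.negSucc 1253, .negSucc 240, .ofNat 115, .ofNat 176, .ofNat 631, .ofNat 1014⟩, ⟨.ofNat 2749, .ofNat 463, .negSucc 180, .ofNat 64, .negSucc 2768, .negSucc 2140⟩, ⟨.negSucc 600, .negSucc 125, .ofNat 77, .ofNat 136, .negSucc 463, .ofNat 126⟩, .ofNat 545, .ofNat 544, .ofNat 0, .ofNat 544, .ofNat 1580, .ofNat 0, .ofNat 277, .negSucc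 378, .negSucc 818, .ofNat 0, .ofNat 223, .ofNat 338, .ofNat 0, .ofNat 0, .ofNat 748, .ofNat 1492, .ofNat 0, .ofNat 0, .ofNat 0, .ofNat 0, .ofNat 0, .ofNat 0, .ofNat 0, .ofNat 0, .ofNat 0, .ofNat 0, .ofNat 0, .ofNat 0, .ofNat 0, .ofNat 0, .ofNat 417295328103913229433388715212800, .ofNat 0⟩)
    (by decide +kernel)
theorem L00584 : Good (Phi V4.P V4.D (-1) (-1)) ⟨5, 26, 3, 2, 2, 2, 2, 0, 4, 0⟩ :=
  leaf_sound (S := T4.ds_mm) T4.ok_mm (w := 184) (c := ⟨⟨.ofNat 2103, .ofNat 498, .negSucc 135, .ofNat 208, .negSucc 929, .negSucc 1458⟩, ⟨.negSucc 935, .negSucc 278, .ofNat 48, .negSucc 84, .ofNat 397, .ofNat 639⟩, ⟨.negSucc 1318, .negSucc 411, .negSucc 138, .ofNat 127, .ofNat 396, .ofNat 1071⟩, ⟨.ofNat 3201, .ofNat 591, .negSucc 365, .ofNat 377, .negSucc 1547, .negSucc 2286⟩, ⟨.negSucc 430, .negSucc 332, .negSucc 253, .ofNat 105, .negSucc 154, .ofNat 86⟩, .ofNat 1166,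 .ofNat 1786, .ofNat 0, .ofNat 1786, .ofNat 4167, .ofNat 0, .ofNat 189, .negSucc 391, .negSucc 749, .ofNat 0, .ofNat 213, .ofNat 342, .ofNat 0, .ofNat 0, .ofNat 704, .ofNat 2120, .ofNat 0, .ofNat 0, .ofNat 0, .ofNat 0, .ofNat 0, .ofNat 0, .ofNat 109127568061808541577509234278400, .ofNat 0, .ofNat 0, .ofNat 0, .ofNat 35338836198633510689659315814400, .ofNat 0, .ofNat 0, .ofNat 0, .ofNat 79671372218819770612533166080000, .ofNat 0⟩)
    (by decide +kernel)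
theorem L00585 : Good (Phi V4.P V4.D (-1) (-1)) ⟨5, 26, 3, 2, 2, 2, 2, 1, 4, 0⟩ :=
  leaf_sound (S := T4.ds_mm) T4.ok_mm (w := 184) (c := ⟨⟨.ofNat 293, .negSucc 464, .ofNat 914, .ofNat 50, .negSucc 664, .negSucc 1460⟩, ⟨.negSucc 204, .ofNat 156, .negSucc 362, .negSucc 23, .ofNat 282, .ofNat 650⟩, ⟨.negSucc 529, .ofNat 130, .negSucc 643, .ofNat 75, .ofNat 341, .ofNat 1186⟩, ⟨.ofNat 272, .negSucc 804, .ofNat 1245, .ofNat 53, .negSucc 1120, .negSucc 2197⟩, ⟨.negSucc 564, .negSucc 81, .negSucc 369, .negSucc 61, .negSucc 139, .ofNat 298⟩, .ofNat 912, .ofNat 1258, .ofNat 0, .ofNat 1258, .ofNat 3028, .ofNat 0, .ofNat 210, .negSucc 374, .negSucc 892, .ofNat 0, .ofNat 213, .ofNat 407, .ofNat 0, .ofNat 0, .ofNat 865, .ofNat 2222, .ofNat 0, .ofNat 0, .ofNat 0, .ofNat 0, .ofNat 0, .ofNat 0, .ofNat 89253594911846567503754742988800, .ofNat 0, .ofNat 0, .ofNat 0, .ofNat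 50579080736722365233772468633600, .ofNat 0, .ofNat 0, .ofNat 0, .ofNat 40752715590771480122314928947200, .ofNat 0⟩)
    (by decide +kernel)
theorem L00586 : Good (Phi V4.P V4.D (-1) (-1)) ⟨5, 27, 3, 2, 2, 2, 1, 0, 4, 0⟩ :=
  out_sound (S := T4.ds_mm) T4.ok_mm (w := 64) (j := 3) (by decide +kernel)
theorem L00587 : Good (Phi V4.P V4.D (-1) (-1)) ⟨5, 24, 4, 4, 3, 4, 1, 0, 4, 1⟩ :=
  leaf_sound (S := T4.ds_mm) T4.ok_mm (w := 192) (c := ⟨⟨.ofNat 28, .negSucc 142, .ofNat 50, .negSucc 13, .negSucc 652, .negSucc 738⟩, ⟨.negSucc 32, .ofNat 44, .ofNat 26, .ofNat 2, .ofNat 208, .ofNat 262⟩, ⟨.ofNat 48, .ofNat 98, .negSucc 54, .negSucc 30, .ofNat 223, .ofNat 627⟩, ⟨.negSucc 85, .negSucc 194, .ofNat 55, .negSucc 58, .negSucc 1213, .negSucc 1194⟩, ⟨.negSucc 340, .ofNat 26, .negSucc 28, .negSucc 114, .negSucc 335, .ofNat 133⟩, .ofNat 1099, .ofNat 1950, .ofNat 0, .ofNat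 1950, .ofNat 5684, .ofNat 0, .ofNat 205, .negSucc 315, .negSucc 561, .ofNat 0, .ofNat 156, .ofNat 207, .ofNat 0, .ofNat 0, .ofNat 654, .ofNat 946, .ofNat 6111017290090893536952788201766912000, .ofNat 0, .ofNat 434587319676927032105631744000, .ofNat 0, .ofNat 0, .ofNat 0, .ofNat 0, .ofNat 0, .ofNat 0, .ofNat 0, .ofNat 0, .ofNat 0, .ofNat 0, .ofNat 0, .ofNat 0, .ofNat 0⟩)
    (by decide +kernel)
theorem L00588 : Good (Phi V4.P V4.D (-1) (-1)) ⟨5, 24, 4, 4, 3, 5, 2, 0, 4, 1⟩ :=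
  leaf_sound (S := T4.ds_mm) T4.ok_mm (w := 192) (c := ⟨⟨.ofNat 254, .negSucc 42, .ofNat 21, .negSucc 191, .negSucc 540, .negSucc 1070⟩, ⟨.negSucc 115, .ofNat 14, .ofNat 29, .ofNat 72, .ofNat 176, .ofNat 376⟩, ⟨.negSucc 86, .ofNat 22, .negSucc 24, .ofNat 143, .ofNat 200, .ofNat 779⟩, ⟨.ofNat 260, .negSucc 42, .ofNat 20, .negSucc 288, .negSucc 979, .negSucc 1740⟩, ⟨.negSucc 447, .ofNat 10, .negSucc 18, .ofNat 94, .negSucc 205, .ofNat 165⟩, .ofNat 942, .ofNat 1540, .ofNat 0, .ofNat 1540, .ofNat 4575, .ofNat 0, .ofNat 222, .negSucc 387, .negSucc 586, .ofNat 0, .ofNat 181, .ofNat 215, .ofNat 0, .ofNat 0, .ofNat 609, .ofNat 2738, .ofNat 0, .ofNat 0, .ofNat 0, .ofNat 0, .ofNat 0, .ofNat 0, .ofNat 0, .ofNat 0, .ofNat 0, .ofNat 0, .ofNat 0, .ofNat 0, .ofNat 0, .ofNat 0, .ofNat 0, .ofNat 0⟩)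
    (by decide +kernel)
theorem L00589 : Good (Phi V4.P V4.D (-1) (-1)) ⟨5, 24, 4, 4, 3, 5, 2, 1, 4, 1⟩ :=
  leaf_sound (S := T4.ds_mm) T4.ok_mm (w := 192) (c := ⟨⟨.negSucc 376, .negSucc 212, .ofNat 116, .negSucc 333, .negSucc 298, .negSucc 662⟩, ⟨.ofNat 88, .ofNat 75, .ofNat 23, .ofNat 116, .ofNat 91, .ofNat 232⟩, ⟨.ofNat 165, .ofNat 146, .negSucc 86, .ofNat 201, .ofNat 121, .ofNat 549⟩, ⟨.negSucc 866, .negSucc 280, .ofNat 156, .negSucc 546, .negSucc 582, .negSucc 1078⟩, ⟨.negSucc 608, .ofNat 70, .negSucc 49, .ofNat 35, .negSucc 230, .ofNat 97⟩, .ofNat 761, .ofNat 1075, .ofNat 0, .ofNat 1075, .ofNat 3286, .ofNat 0, .ofNat 240, .negSucc 357, .negSucc 674, .ofNat 0, .ofNat 178, .ofNat 249, .ofNat 0, .ofNat 0, .ofNat 709, .ofNat 3518, .ofNat 0, .ofNat 0, .ofNat 0, .ofNat 0, .ofNat 0, .ofNat 0, .ofNat 0, .ofNat 0, .ofNat 0, .ofNat 0, .ofNat 0, .ofNat 0, .ofNat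 0, .ofNat 0, .ofNat 0, .ofNat 0⟩)
    (by decide +kernel)
theorem L00590 : Good (Phi V4.P V4.D (-1) (-1)) ⟨5, 24, 4, 5, 2, 2, 1, 0, 4, 1⟩ :=
  out_sound (S := T4.ds_mm) T4.ok_mm (w := 64) (j := 3) (by decide +kernel)
theorem L00591 : Good (Phi V4.P V4.D (-1) (-1)) ⟨5, 25, 3, 2, 2, 2, 2, 0, 4, 1⟩ :=
  leaf_sound (S := T4.ds_mm) T4.ok_mm (w := 184) (c := ⟨⟨.ofNat 363, .negSucc 67, .ofNat 138, .negSucc 239, .negSucc 558, .negSucc 1254⟩, ⟨.negSucc 220, .ofNat 19, .ofNat 29, .ofNat 96, .ofNat 217, .ofNat 520⟩, ⟨.negSucc 153, .ofNat 42, .negSucc 94, .ofNat 136, .ofNat 231, .ofNat 920⟩, ⟨.ofNat 401, .negSucc 83, .ofNat 192, .negSucc 376, .negSucc 972, .negSucc 1929⟩, ⟨.negSucc 455, .ofNat 19, .negSucc 49, .ofNat 34, .negSucc 165, .ofNat 257⟩, .ofNat 544, .ofNat 541, .ofNat 0, .ofNat 541, .ofNat 1567, .ofNat 0, .ofNat 262, .negSucc 353, .negSucc 695, .ofNat 0, .ofNat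 214, .ofNat 295, .ofNat 0, .ofNat 0, .ofNat 681, .ofNat 1946, .ofNat 0, .ofNat 0, .ofNat 0, .ofNat 0, .ofNat 0, .ofNat 0, .ofNat 0, .ofNat 0, .ofNat 0, .ofNat 0, .ofNat 0, .ofNat 0, .ofNat 0, .ofNat 0, .ofNat 0, .ofNat 0⟩)
    (by decide +kernel)
theorem L00592 : Good (Phi V4.P V4.D (-1) (-1)) ⟨5, 25, 3, 2, 2, 2, 2, 1, 4, 1⟩ :=
  leaf_sound (S := T4.ds_mm) T4.ok_mm (w := 184) (c := ⟨⟨.negSucc 298, .negSucc 139, .ofNat 93, .negSucc 416, .negSucc 280, .negSucc 816⟩, ⟨.ofNat 24, .ofNat 50, .ofNat 80, .ofNat 164, .ofNat 100, .ofNat 332⟩, ⟨.ofNat 159, .ofNat 94, .negSucc 75, .ofNat 206, .ofNat 100, .ofNat 664⟩, ⟨.negSucc 682, .negSucc 158, .ofNat 83, .negSucc 710, .negSucc 543, .negSucc 1264⟩, ⟨.negSucc 500, .ofNat 51, .negSucc 76, .negSucc 80, .negSucc 210, .ofNat 153⟩, .ofNat 836, .ofNat 1154, .ofNat 0, .ofNat 1154, .ofNat 3028, .ofNat 0, .ofNat 220, .negSucc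 361, .negSucc 749, .ofNat 0, .ofNat 198, .ofNat 319, .ofNat 0, .ofNat 0, .ofNat 764, .ofNat 2383, .ofNat 0, .ofNat 0, .ofNat 0, .ofNat 0, .ofNat 0, .ofNat 0, .ofNat 5910198039580681165738711449600, .ofNat 0, .ofNat 0, .ofNat 0, .ofNat 943677386749435534539698995200, .ofNat 0, .ofNat 0, .ofNat 0, .ofNat 5668512603824948657151541248000, .ofNat 0⟩)
    (by decide +kernel)
theorem L00593 : Good (Phi V4.P V4.D (-1) (-1)) ⟨6, 52, 4, 4, 2, 2, 1, 0, 4, 1⟩ :=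
  out_sound (S := T4.ds_mm) T4.ok_mm (w := 72) (j := 3) (by decide +kernel)
theorem L00594 : Good (Phi V4.P V4.D (-1) (-1)) ⟨7, 104, 5, 10, 2, 2, 1, 0, 4, 1⟩ :=
  out_sound (S := T4.ds_mm) T4.ok_mm (w := 80) (j := 3) (by decide +kernel)
theorem L00595 : Good (Phi V4.P V4.D (-1) (-1)) ⟨7, 104, 5, 11, 3, 4, 1, 0, 4, 1⟩ :=
  leaf_sound (S := T4.ds_mm) T4.ok_mm (w := 200) (c := ⟨⟨.ofNat 303, .ofNat 91, .negSucc 217, .ofNat 50, .negSucc 815, .negSucc 992⟩, ⟨.negSucc 172, .negSucc 41, .ofNat 119, .negSucc 27, .ofNat 341, .ofNat 443⟩, ⟨.negSucc 145, .negSucc 48, .ofNat 112, .negSucc 87, .ofNat 348, .ofNat 833⟩, ⟨.ofNat 297, .ofNat 150, .negSucc 339, .ofNat 19, .negSucc 1422, .negSucc 1479⟩, ⟨.negSucc 443, .negSucc 8, .ofNat 39, .negSucc 137, .negSucc 283, .ofNat 233⟩, .ofNat 1386, .ofNat 2249, .ofNat 0, .ofNat 2249, .ofNat 5170, .ofNat 0, .ofNat 180, .negSucc 348,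 .negSucc 716, .ofNat 0, .ofNat 194, .ofNat 330, .ofNat 0, .ofNat 0, .ofNat 751, .ofNat 2552, .ofNat 52422851403460371024147118063462907904000, .ofNat 0, .ofNat 0, .ofNat 0, .ofNat 0, .ofNat 0, .ofNat 385038425530008053862767788032000, .ofNat 0, .ofNat 0, .ofNat 0, .ofNat 46504915839206891479062754099200, .ofNat 0, .ofNat 0, .ofNat 0, .ofNat 0, .ofNat 0⟩)
    (by decide +kernel)
theorem L00596 : Good (Phi V4.P V4.D (-1) (-1)) ⟨7, 104, 5, 11, 3, 5, 1, 0, 4, 1⟩ :=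
  leaf_sound (S := T4.ds_mm) T4.ok_mm (w := 208) (c := ⟨⟨.ofNat 75, .negSucc 253, .ofNat 441, .negSucc 354, .negSucc 1135, .negSucc 1196⟩, ⟨.negSucc 77, .ofNat 114, .negSucc 170, .ofNat 160, .ofNat 478, .ofNat 534⟩, ⟨.ofNat 41, .ofNat 174, .negSucc 320, .ofNat 249, .ofNat 511, .ofNat 857⟩, ⟨.negSucc 51, .negSucc 346, .ofNat 627, .negSucc 517, .negSucc 1959, .negSucc 1797⟩, ⟨.negSucc 403, .ofNat 108, .negSucc 158, .ofNat 107, .negSucc 344, .ofNat 247⟩, .ofNat 1382, .ofNat 2239, .ofNat 0, .ofNat 2239, .ofNat 5145, .ofNat 0, .ofNat 193, .negSucc 423, .negSucc 825, .ofNat 0, .ofNat 227, .ofNat 381, .ofNat 0, .ofNat 0, .ofNat 756, .ofNat 1296, .ofNat 0, .ofNat 0, .ofNat 0, .ofNat 0, .ofNat 0, .ofNat 0, .ofNat 442809268217059396599541451980800, .ofNat 0, .ofNat 0, .ofNat 0, .ofNat 0, .ofNat 0, .ofNat 0, .ofNat 0, .ofNat 278621943216224936461085756620800, .ofNat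 0⟩)
    (by decide +kernel)
theorem L00597 : Good (Phi V4.P V4.D (-1) (-1)) ⟨7, 105, 4, 5, 2, 2, 1, 0, 4, 1⟩ :=
  out_sound (S := T4.ds_mm) T4.ok_mm (w := 72) (j := 3) (by decide +kernel)
theorem L00598 : Good (Phi V4.P V4.D (-1) (-1)) ⟨6, 53, 3, 2, 2, 2, 1, 0, 4, 1⟩ :=
  out_sound (S := T4.ds_mm) T4.ok_mm (w := 64) (j := 3) (by decide +kernel)
theorem L00599 : Good (Phi V4.P V4.D (-1) (-1)) ⟨5, 27, 3, 2, 2, 2, 1, 0, 4, 1⟩ :=
  out_sound (S := T4.ds_mm) T4.ok_mm (w := 64) (j := 3) (by decide +kernel)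
theorem L00600 : Good (Phi V4.P V4.D (-1) (-1)) ⟨4, 12, 3, 2, 2, 3, 2, 0, 4, 0⟩ :=
  leaf_sound (S := T4.ds_mm) T4.ok_mm (w := 184) (c := ⟨⟨.ofNat 1929, .ofNat 498, .negSucc 107, .negSucc 378, .negSucc 1192, .negSucc 1600⟩, ⟨.negSucc 699, .negSucc 238, .ofNat 17, .ofNat 187, .ofNat 435, .ofNat 591⟩, ⟨.negSucc 960, .negSucc 163, .ofNat 100, .ofNat 960, .ofNat 205, .ofNat 882⟩, ⟨.ofNat 3187, .ofNat 681, .negSucc 123, .negSucc 198, .negSucc 2095, .negSucc 2808⟩, ⟨.negSucc 79, .negSucc 186, .ofNat 141, .ofNat 1146, .negSucc 354, .negSucc 443⟩, .ofNat 528, .ofNat 517, .ofNat 0, .ofNat 517, .ofNat 1611, .ofNat 0, .ofNat 318, .negSucc 527, .negSucc 734, .ofNat 0, .ofNat 272, .ofNat 270, .ofNat 0, .ofNat 0, .ofNat 615, .ofNat 1860, .ofNat 0, .ofNat 0, .ofNat 0, .ofNat 0, .ofNat 0, .ofNat 0, .ofNat 0, .ofNat 0, .ofNat 0, .ofNat 0, .ofNat 10884444861376675760162262220800,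 .ofNat 0, .ofNat 0, .ofNat 0, .ofNat 0, .ofNat 0⟩)
    (by decide +kernel)
theorem L00601 : Good (Phi V4.P V4.D (-1) (-1)) ⟨5, 24, 3, 2, 3, 6, 2, 0, 4, 1⟩ :=
  leaf_sound (S := T4.ds_mm) T4.ok_mm (w := 192) (c := ⟨⟨.ofNat 416, .negSucc 267, .ofNat 308, .negSucc 414, .negSucc 690, .negSucc 1507⟩, ⟨.negSucc 181, .ofNat 109, .negSucc 10, .ofNat 163, .ofNat 224, .ofNat 529⟩, ⟨.negSucc 27, .ofNat 134, .negSucc 133, .ofNat 329, .ofNat 216, .ofNat 837⟩, ⟨.ofNat 537, .negSucc 350, .ofNat 473, .negSucc 562, .negSucc 1266, .negSucc 2472⟩, ⟨.negSucc 369, .ofNat 135, .negSucc 119, .ofNat 370, .negSucc 306, .ofNat 159⟩, .ofNat 511, .ofNat 485, .ofNat 0, .ofNat 485, .ofNat 1643, .ofNat 0, .ofNat 320, .negSucc 488, .negSucc 693, .ofNat 0, .ofNat 248, .ofNat 253, .ofNat 0, .ofNat 0, .ofNat 607, .ofNat 3211, .ofNat 0, .ofNat 0, .ofNat 0, .ofNat 0, .ofNat 0, .ofNat 0, .ofNat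 0, .ofNat 0, .ofNat 0, .ofNat 0, .ofNat 0, .ofNat 0, .ofNat 0, .ofNat 0, .ofNat 0, .ofNat 0⟩)
    (by decide +kernel)
theorem L00602 : Good (Phi V4.P V4.D (-1) (-1)) ⟨5, 24, 3, 2, 3, 7, 2, 0, 4, 1⟩ :=
  leaf_sound (S := T4.ds_mm) T4.ok_mm (w := 192) (c := ⟨⟨.ofNat 102, .negSucc 502, .ofNat 797, .negSucc 469, .negSucc 566, .negSucc 1738⟩, ⟨.negSucc 80, .ofNat 239, .negSucc 203, .ofNat 175, .ofNat 178, .ofNat 614⟩, ⟨.ofNat 374, .ofNat 190, .negSucc 212, .ofNat 632, .ofNat 7, .ofNat 815⟩, ⟨.ofNat 119, .negSucc 621, .ofNat 1193, .negSucc 706, .negSucc 1096, .negSucc 2848⟩, ⟨.ofNat 41, .ofNat 338, .negSucc 434, .ofNat 246, .negSucc 426, .ofNat 171⟩, .ofNat 755, .ofNat 1054, .ofNat 0, .ofNat 1054, .ofNat 3206, .ofNat 0, .ofNat 284, .negSucc 615, .negSucc 665, .ofNat 0, .ofNat 277, .ofNat 238, .ofNat 0, .ofNat 0, .ofNat 592, .ofNat 2996, .ofNat 0, .ofNat 0, .ofNat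 0, .ofNat 0, .ofNat 0, .ofNat 0, .ofNat 0, .ofNat 0, .ofNat 0, .ofNat 0, .ofNat 0, .ofNat 0, .ofNat 0, .ofNat 0, .ofNat 3560428465034894394066438665011200, .ofNat 0⟩)
    (by decide +kernel)
theorem L00603 : Good (Phi V4.P V4.D (-1) (-1)) ⟨5, 25, 3, 2, 3, 6, 2, 0, 4, 1⟩ :=
  leaf_sound (S := T4.ds_mm) T4.ok_mm (w := 192) (c := ⟨⟨.ofNat 478, .negSucc 376, .ofNat 408, .negSucc 630, .negSucc 803, .negSucc 1806⟩, ⟨.negSucc 265, .ofNat 183, .negSucc 87, .ofNat 274, .ofNat 305, .ofNat 731⟩, ⟨.negSucc 47, .ofNat 202, .negSucc 188, .ofNat 432, .ofNat 274, .ofNat 977⟩, ⟨.ofNat 603, .negSucc 449, .ofNat 566, .negSucc 845, .negSucc 1413, .negSucc 2811⟩, ⟨.negSucc 379, .ofNat 237, .negSucc 219, .ofNat 458, .negSucc 264, .ofNat 323⟩, .ofNat 813, .ofNat 1105, .ofNat 0, .ofNat 1105, .ofNat 2939, .ofNat 0, .ofNat 248, .negSucc 552, .negSucc 770, .ofNat 0, .ofNat 274, .ofNat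 323, .ofNat 0, .ofNat 0, .ofNat 631, .ofNat 1354, .ofNat 0, .ofNat 0, .ofNat 0, .ofNat 0, .ofNat 0, .ofNat 0, .ofNat 0, .ofNat 0, .ofNat 5192114826029465421590079719261129932800, .ofNat 0, .ofNat 2804639030942914226638853819596800, .ofNat 0, .ofNat 0, .ofNat 0, .ofNat 0, .ofNat 0⟩)
    (by decide +kernel)
theorem L00604 : Good (Phi V4.P V4.D (-1) (-1)) ⟨5, 25, 3, 2, 3, 7, 2, 0, 4, 1⟩ :=
  leaf_sound (S := T4.ds_mm) T4.ok_mm (w := 192) (c := ⟨⟨.negSucc 15, .negSucc 470, .ofNat 565, .negSucc 568, .negSucc 708, .negSucc 2254⟩, ⟨.negSucc 71, .ofNat 266, .negSucc 169, .ofNat 243, .ofNat 268, .ofNat 931⟩, ⟨.ofNat 347, .ofNat 220, .negSucc 74, .ofNat 797, .ofNat 55, .ofNat 1027⟩, ⟨.negSucc 15, .negSucc 502, .ofNat 741, .negSucc 817, .negSucc 1288, .negSucc 3484⟩, ⟨.ofNat 221, .ofNat 364, .negSucc 454, .ofNat 259, .negSucc 364, .ofNat 404⟩, .ofNat 831, .ofNat 1139,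 .ofNat 0, .ofNat 1139, .ofNat 2984, .ofNat 0, .ofNat 265, .negSucc 698, .negSucc 822, .ofNat 0, .ofNat 345, .ofNat 342, .ofNat 0, .ofNat 0, .ofNat 634, .ofNat 1359, .ofNat 0, .ofNat 0, .ofNat 20596972781478235407281396121600, .ofNat 0, .ofNat 0, .ofNat 0, .ofNat 0, .ofNat 0, .ofNat 3542724993183464672205438915363785932800, .ofNat 0, .ofNat 3421310045754207515030017435238400, .ofNat 0, .ofNat 0, .ofNat 0, .ofNat 0, .ofNat 0⟩)
    (by decide +kernel)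
theorem L00605 : Good (Phi V4.P V4.D (-1) (-1)) ⟨6, 52, 4, 4, 2, 3, 2, 0, 3, 0⟩ :=
  out_sound (S := T4.ds_mm) T4.ok_mm (w := 72) (j := 3) (by decide +kernel)
theorem L00606 : Good (Phi V4.P V4.D (-1) (-1)) ⟨6, 52, 4, 5, 2, 3, 2, 0, 4, 0⟩ :=
  leaf_sound (S := T4.ds_mm) T4.ok_mm (w := 192) (c := ⟨⟨.ofNat 3373, .ofNat 536, .negSucc 895, .negSucc 422, .negSucc 1417, .negSucc 1651⟩, ⟨.negSucc 1433, .negSucc 249, .ofNat 345, .ofNat 242, .ofNat 607, .ofNat 696⟩, ⟨.negSucc 1527, .ofNat 11, .ofNat 351, .ofNat 1111, .ofNat 246, .ofNat 951⟩, ⟨.ofNat 5378, .ofNat 779, .negSucc 1515, .negSucc 164, .negSucc 2350, .negSucc 2840⟩, ⟨.ofNat 4, .negSucc 111, .negSucc 199, .ofNat 1165, .negSucc 210, .negSucc 482⟩, .ofNat 1396, .ofNat 2270, .ofNat 0, .ofNat 2270, .ofNat 5211, .ofNat 0, .ofNat 213, .negSucc 600, .negSucc 786, .ofNat 0, .ofNat 305, .ofNat 351, .ofNat 0, .ofNat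 0, .ofNat 629, .ofNat 3044, .ofNat 0, .ofNat 0, .ofNat 0, .ofNat 0, .ofNat 0, .ofNat 0, .ofNat 27058459491493295797505831731200, .ofNat 0, .ofNat 0, .ofNat 0, .ofNat 7678261519942011973528662835200, .ofNat 0, .ofNat 0, .ofNat 0, .ofNat 13088018880031258511775734169600, .ofNat 0⟩)
    (by decide +kernel)
theorem L00607 : Good (Phi V4.P V4.D (-1) (-1)) ⟨6, 52, 4, 5, 2, 3, 2, 0, 4, 1⟩ :=
  leaf_sound (S := T4.ds_mm) T4.ok_mm (w := 192) (c := ⟨⟨.ofNat 211, .negSucc 290, .ofNat 521, .negSucc 1321, .negSucc 854, .negSucc 2153⟩, ⟨.negSucc 131, .ofNat 174, .negSucc 209, .ofNat 619, .ofNat 357, .ofNat 962⟩, ⟨.ofNat 20, .negSucc 4, .negSucc 143, .ofNat 1187, .ofNat 218, .ofNat 1092⟩, ⟨.ofNat 337, .negSucc 172, .ofNat 619, .negSucc 1718, .negSucc 1494, .negSucc 3219⟩, ⟨.ofNat 26, .ofNat 572, .negSucc 501, .ofNat 889, .negSucc 304, .ofNat 487⟩, .ofNat 1321, .ofNat 2111,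 .ofNat 0, .ofNat 2111, .ofNat 4873, .ofNat 0, .ofNat 217, .negSucc 642, .negSucc 907, .ofNat 0, .ofNat 328, .ofNat 414, .ofNat 0, .ofNat 0, .ofNat 675, .ofNat 2204, .ofNat 0, .ofNat 0, .ofNat 0, .ofNat 0, .ofNat 0, .ofNat 0, .ofNat 23215572508539388095042158592000, .ofNat 0, .ofNat 1582384660728487198867132132125730406400, .ofNat 0, .ofNat 6048409837211584132718945894400, .ofNat 0, .ofNat 0, .ofNat 0, .ofNat 8675547252307498500423155712000, .ofNat 0⟩)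
    (by decide +kernel)
theorem L00608 : Good (Phi V4.P V4.D (-1) (-1)) ⟨6, 53, 3, 2, 2, 3, 2, 0, 3, 0⟩ :=
  out_sound (S := T4.ds_mm) T4.ok_mm (w := 64) (j := 3) (by decide +kernel)
theorem L00609 : Good (Phi V4.P V4.D (-1) (-1)) ⟨5, 27, 3, 2, 2, 3, 2, 0, 3, 0⟩ :=
  out_sound (S := T4.ds_mm) T4.ok_mm (w := 64) (j := 3) (by decide +kernel)
theorem L00610 : Good (Phi V4.P V4.D (-1) (-1)) ⟨4, 12, 3, 2, 2, 3, 2, 1, 4, 0⟩ :=
  leaf_sound (S := T4.ds_mm) T4.ok_mm (w := 184) (c := ⟨⟨.ofNat 1129, .negSucc 235, .ofNat 285, .negSucc 530, .negSucc 799, .negSucc 1608⟩, ⟨.negSucc 473, .ofNat 84, .negSucc 65, .ofNat 256, .ofNat 280, .ofNat 599⟩, ⟨.negSucc 792, .ofNat 112, .negSucc 126, .ofNat 736, .ofNat 293, .ofNat 1015⟩, ⟨.ofNat 1619, .negSucc 296, .ofNat 376, .negSucc 526, .negSucc 1473, .negSucc 2668⟩, ⟨.negSucc 565, .ofNat 125, .negSucc 127, .ofNat 887, .negSucc 430,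 .negSucc 89⟩, .ofNat 526, .ofNat 509, .ofNat 0, .ofNat 509, .ofNat 1580, .ofNat 0, .ofNat 327, .negSucc 455, .negSucc 862, .ofNat 0, .ofNat 246, .ofNat 328, .ofNat 0, .ofNat 0, .ofNat 725, .ofNat 1666, .ofNat 0, .ofNat 0, .ofNat 0, .ofNat 0, .ofNat 0, .ofNat 0, .ofNat 11177673225091242119166689280000, .ofNat 0, .ofNat 0, .ofNat 0, .ofNat 0, .ofNat 0, .ofNat 0, .ofNat 0, .ofNat 19577208459326324023766915481600, .ofNat 0⟩)
    (by decide +kernel)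
theorem L00611 : Good (Phi V4.P V4.D (-1) (-1)) ⟨4, 12, 3, 2, 2, 3, 2, 1, 4, 1⟩ :=
  leaf_sound (S := T4.ds_mm) T4.ok_mm (w := 176) (c := ⟨⟨.negSucc 544, .negSucc 878, .ofNat 414, .negSucc 756, .negSucc 198, .negSucc 864⟩, ⟨.ofNat 102, .ofNat 391, .negSucc 15, .ofNat 308, .ofNat 47, .ofNat 326⟩, ⟨.ofNat 353, .ofNat 479, .negSucc 186, .ofNat 578, .ofNat 0, .ofNat 535⟩, ⟨.negSucc 1142, .negSucc 1159, .ofNat 620, .negSucc 1085, .negSucc 528, .negSucc 1437⟩, ⟨.negSucc 431, .ofNat 300, .negSucc 117, .ofNat 411, .negSucc 509, .negSucc 43⟩, .ofNat 527, .ofNat 511, .ofNat 0, .ofNat 511, .ofNat 1588, .ofNat 0, .ofNat 321, .negSucc 469, .negSucc 860, .ofNat 0, .ofNat 254, .ofNat 338, .ofNat 0, .ofNat 0, .ofNat 720, .ofNat 1379, .ofNat 0, .ofNat 0, .ofNat 195629345378934573659848704000, .ofNat 0, .ofNat 0, .ofNat 0, .ofNat 0, .ofNat 0, .ofNat 0, .ofNat 0, .ofNat 14563696401835574257416300134400,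 .ofNat 0, .ofNat 0, .ofNat 0, .ofNat 20490524076299376865679769600000, .ofNat 0⟩)
    (by decide +kernel)
theorem L00612 : Good (Phi V4.P V4.D (-1) (-1)) ⟨6, 52, 4, 4, 2, 3, 2, 1, 3, 0⟩ :=
  out_sound (S := T4.ds_mm) T4.ok_mm (w := 72) (j := 3) (by decide +kernel)
theorem L00613 : Good (Phi V4.P V4.D (-1) (-1)) ⟨6, 52, 4, 5, 2, 3, 2, 1, 4, 0⟩ :=
  leaf_sound (S := T4.ds_mm) T4.ok_mm (w := 192) (c := ⟨⟨.ofNat 1082, .ofNat 86, .ofNat 251, .negSucc 598, .negSucc 889, .negSucc 1755⟩, ⟨.negSucc 517, .negSucc 3, .negSucc 91, .ofNat 304, .ofNat 368, .ofNat 760⟩, ⟨.negSucc 818, .ofNat 326, .negSucc 108, .ofNat 801, .ofNat 343, .ofNat 1094⟩, ⟨.ofNat 1481, .ofNat 478, .ofNat 354, .negSucc 566, .negSucc 1578, .negSucc 2825⟩, ⟨.negSucc 591, .ofNat 764, .negSucc 67, .ofNat 892, .negSucc 369, .negSucc 64⟩, .ofNat 1169, .ofNat 1792, .ofNat 0, .ofNat 1792, .ofNat 4184, .ofNat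 0, .ofNat 222, .negSucc 527, .negSucc 914, .ofNat 0, .ofNat 272, .ofNat 411, .ofNat 0, .ofNat 0, .ofNat 741, .ofNat 1129, .ofNat 0, .ofNat 0, .ofNat 174950072270792160029599334400, .ofNat 0, .ofNat 0, .ofNat 0, .ofNat 24352978531045871529647249817600, .ofNat 0, .ofNat 0, .ofNat 0, .ofNat 18048426089081322124727864524800, .ofNat 0, .ofNat 0, .ofNat 0, .ofNat 0, .ofNat 0⟩)
    (by decide +kernel)
theorem L00614 : Good (Phi V4.P V4.D (-1) (-1)) ⟨6, 52, 4, 5, 2, 3, 2, 1, 4, 1⟩ :=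
  leaf_sound (S := T4.ds_mm) T4.ok_mm (w := 192) (c := ⟨⟨.negSucc 1686, .negSucc 869, .ofNat 873, .negSucc 881, .negSucc 239, .negSucc 986⟩, ⟨.ofNat 668, .ofNat 407, .negSucc 328, .ofNat 409, .ofNat 78, .ofNat 430⟩, ⟨.ofNat 1001, .ofNat 378, .negSucc 481, .ofNat 720, .ofNat 6, .ofNat 605⟩, ⟨.negSucc 2641, .negSucc 1221, .ofNat 1197, .negSucc 1183, .negSucc 617, .negSucc 1568⟩, ⟨.ofNat 104, .ofNat 256, .negSucc 434, .ofNat 509, .negSucc 540, .ofNat 7⟩, .ofNat 1318, .ofNat 2105, .ofNat 0, .ofNat 2105, .ofNat 4859, .ofNat 0, .ofNat 217, .negSucc 547, .negSucc 980, .ofNat 0, .ofNat 282, .ofNat 448, .ofNat 0, .ofNat 0, .ofNat 767, .ofNat 2222, .ofNat 0, .ofNat 0, .ofNat 265959057769010709287613235200, .ofNat 0, .ofNat 0, .ofNat 0, .ofNat 23164442828707151411222151168000, .ofNat 0, .ofNat 0, .ofNat 0, .ofNat 10718744586275366316070561382400, .ofNat 0, .ofNat 0,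 .ofNat 0, .ofNat 8726761320799703234145524121600, .ofNat 0⟩)
    (by decide +kernel)
theorem L00615 : Good (Phi V4.P V4.D (-1) (-1)) ⟨6, 53, 3, 2, 2, 3, 2, 1, 3, 0⟩ :=
  out_sound (S := T4.ds_mm) T4.ok_mm (w := 64) (j := 3) (by decide +kernel)
theorem L00616 : Good (Phi V4.P V4.D (-1) (-1)) ⟨5, 27, 3, 2, 2, 3, 2, 1, 3, 0⟩ :=
  out_sound (S := T4.ds_mm) T4.ok_mm (w := 64) (j := 3) (by decide +kernel)
theorem L00617 : Good (Phi V4.P V4.D (-1) (-1)) ⟨5, 24, 3, 2, 2, 2, 2, 0, 3, 1⟩ :=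
  leaf_sound (S := T4.ds_mm) T4.ok_mm (w := 176) (c := ⟨⟨.negSucc 901, .negSucc 285, .ofNat 344, .negSucc 281, .negSucc 102, .negSucc 242⟩, ⟨.ofNat 286, .ofNat 115, .negSucc 1, .ofNat 84, .ofNat 24, .ofNat 71⟩, ⟨.ofNat 835, .ofNat 211, .negSucc 273, .ofNat 22, .negSucc 51, .ofNat 310⟩, ⟨.negSucc 1570, .negSucc 375, .ofNat 491, .negSucc 565, .negSucc 258, .negSucc 504⟩, ⟨.negSucc 60, .ofNat 100, .negSucc 164, .negSucc 270, .negSucc 249, .negSucc 278⟩, .ofNat 753, .ofNat 1054, .ofNat 0, .ofNat 1054, .ofNat 3232, .ofNat 0, .ofNat 214, .negSucc 304, .negSucc 390, .ofNat 0, .ofNat 158, .ofNat 148, .ofNat 0, .ofNat 0, .ofNat 541, .ofNat 3757, .ofNat 92453784091579627743997034967859200, .ofNat 0, .ofNat 3523672351761006769628774400, .ofNat 0, .ofNat 0, .ofNat 0, .ofNat 0, .ofNat 0, .ofNat 542248609400647086830336091566899200, .ofNat 0, .ofNat 71851941260333490784488652800,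 .ofNat 0, .ofNat 4255269873180209046010339848408268800, .ofNat 0, .ofNat 0, .ofNat 0⟩)
    (by decide +kernel)
theorem L00618 : Good (Phi V4.P V4.D (-1) (-1)) ⟨5, 24, 3, 2, 2, 2, 2, 1, 3, 1⟩ :=
  leaf_sound (S := T4.ds_mm) T4.ok_mm (w := 184) (c := ⟨⟨.negSucc 1228, .negSucc 155, .ofNat 195, .negSucc 328, .ofNat 144, .ofNat 98⟩, ⟨.ofNat 393, .ofNat 61, .ofNat 62, .ofNat 99, .negSucc 63, .negSucc 47⟩, ⟨.ofNat 947, .ofNat 120, .negSucc 176, .ofNat 97, .negSucc 234, .ofNat 23⟩, ⟨.negSucc 2162, .negSucc 177, .ofNat 241, .negSucc 666, .ofNat 130, .ofNat 43⟩, ⟨.negSucc 201, .ofNat 49, .negSucc 106, .negSucc 331, .negSucc 324, .negSucc 344⟩, .ofNat 1044, .ofNat 1803, .ofNat 0, .ofNat 1803, .ofNat 5281, .ofNat 0, .ofNat 201, .negSucc 306, .negSucc 450, .ofNat 0, .ofNat 152, .ofNat 168, .ofNat 0, .ofNat 0, .ofNat 594, .ofNat 1553, .ofNat 0, .ofNat 0, .ofNat 2663364807762656309438054400,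 .ofNat 0, .ofNat 0, .ofNat 0, .ofNat 0, .ofNat 0, .ofNat 0, .ofNat 0, .ofNat 227519255684958961541736038400, .ofNat 0, .ofNat 0, .ofNat 0, .ofNat 0, .ofNat 0⟩)
    (by decide +kernel)
theorem L00619 : Good (Phi V4.P V4.D (-1) (-1)) ⟨5, 25, 3, 2, 2, 2, 2, 0, 4, 2⟩ :=
  leaf_sound (S := T4.ds_mm) T4.ok_mm (w := 184) (c := ⟨⟨.negSucc 907, .negSucc 323, .ofNat 222, .negSucc 459, .negSucc 152, .negSucc 339⟩, ⟨.ofNat 275, .ofNat 156, .ofNat 23, .ofNat 182, .ofNat 46, .ofNat 133⟩, ⟨.ofNat 849, .ofNat 221, .negSucc 179, .ofNat 114, .ofNat 12, .ofNat 304⟩, ⟨.negSucc 1545, .negSucc 390, .ofNat 293, .negSucc 768, .negSucc 354, .negSucc 578⟩, ⟨.negSucc 108, .ofNat 144, .negSucc 122, .negSucc 58, .negSucc 263, .negSucc 68⟩, .ofNat 538, .ofNat 527, .ofNat 0, .ofNat 527, .ofNat 1535, .ofNat 0, .ofNat 256, .negSucc 332, .negSucc 562, .ofNat 0, .ofNat 207, .ofNat 244, .ofNat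 0, .ofNat 0, .ofNat 621, .ofNat 7643, .ofNat 0, .ofNat 0, .ofNat 0, .ofNat 0, .ofNat 0, .ofNat 0, .ofNat 0, .ofNat 0, .ofNat 11145739997930745483650066661192499200, .ofNat 0, .ofNat 4306274406025610851676218982400, .ofNat 0, .ofNat 0, .ofNat 0, .ofNat 3819496256184675585892338892800, .ofNat 0⟩)
    (by decide +kernel)
theorem L00620 : Good (Phi V4.P V4.D (-1) (-1)) ⟨5, 25, 3, 2, 2, 2, 2, 1, 4, 2⟩ :=
  leaf_sound (S := T4.ds_mm) T4.ok_mm (w := 184) (c := ⟨⟨.negSucc 1201, .negSucc 181, .ofNat 106, .negSucc 453, .ofNat 70, .negSucc 36⟩, ⟨.ofNat 377, .ofNat 83, .ofNat 95, .ofNat 170, .negSucc 43, .ofNat 7⟩, ⟨.ofNat 931, .ofNat 146, .negSucc 104, .ofNat 170, .negSucc 161, .ofNat 76⟩, ⟨.negSucc 2065, .negSucc 211, .ofNat 119, .negSucc 832, .negSucc 6, .negSucc 109⟩, ⟨.negSucc 256, .ofNat 51, .negSucc 48, .negSucc 241, .negSucc 301, .negSucc 131⟩, .ofNat 838, .ofNat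 1157, .ofNat 0, .ofNat 1157, .ofNat 3032, .ofNat 0, .ofNat 208, .negSucc 330, .negSucc 585, .ofNat 0, .ofNat 185, .ofNat 252, .ofNat 0, .ofNat 0, .ofNat 672, .ofNat 1841, .ofNat 0, .ofNat 0, .ofNat 0, .ofNat 0, .ofNat 0, .ofNat 0, .ofNat 8136796378728394924611128524800, .ofNat 0, .ofNat 0, .ofNat 0, .ofNat 5383939728912841408087955865600, .ofNat 0, .ofNat 0, .ofNat 0, .ofNat 0, .ofNat 0⟩)
    (by decide +kernel)
theorem L00621 : Good (Phi V4.P V4.D (-1) (-1)) ⟨5, 25, 3, 2, 2, 2, 2, 0, 4, 3⟩ :=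
  leaf_sound (S := T4.ds_mm) T4.ok_mm (w := 184) (c := ⟨⟨.negSucc 1469, .negSucc 183, .ofNat 180, .negSucc 266, .ofNat 65, .ofNat 85⟩, ⟨.ofNat 496, .ofNat 87, .ofNat 60, .ofNat 87, .negSucc 38, .negSucc 42⟩, ⟨.ofNat 1308, .ofNat 129, .negSucc 139, .negSucc 9, .negSucc 169, .ofNat 18⟩, ⟨.negSucc 2383, .negSucc 180, .ofNat 192, .negSucc 585, .negSucc 14, .ofNat 40⟩, ⟨.ofNat 55, .ofNat 107, .negSucc 181, .negSucc 369, .negSucc 296, .negSucc 245⟩, .ofNat 1039, .ofNat 1606, .ofNat 0, .ofNat 1606, .ofNat 4095, .ofNat 0, .ofNat 185, .negSucc 323, .negSucc 379, .ofNat 0, .ofNat 175, .ofNat 166, .ofNat 0, .ofNat 0, .ofNat 534, .ofNat 5395, .ofNat 0, .ofNat 0, .ofNat 0, .ofNat 0, .ofNat 9770962483592077104274213980182937600, .ofNat 0, .ofNat 7042769880321750917390637465600, .ofNat 0, .ofNat 8192997290936463786485096196656332800, .ofNat 0, .ofNat 5722727792292187305098084352000,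 .ofNat 0, .ofNat 0, .ofNat 0, .ofNat 0, .ofNat 0⟩)
    (by decide +kernel)
theorem L00622 : Good (Phi V4.P V4.D (-1) (-1)) ⟨5, 25, 3, 2, 2, 2, 2, 1, 4, 3⟩ :=
  leaf_sound (S := T4.ds_mm) T4.ok_mm (w := 184) (c := ⟨⟨.negSucc 1515, .negSucc 95, .ofNat 130, .negSucc 200, .ofNat 265, .ofNat 209⟩, ⟨.ofNat 503, .ofNat 30, .ofNat 100, .ofNat 53, .negSucc 121, .negSucc 94⟩, ⟨.ofNat 1223, .ofNat 76, .negSucc 114, .negSucc 2, .negSucc 340, .negSucc 122⟩, ⟨.negSucc 2543, .negSucc 92, .ofNat 134, .negSucc 533, .ofNat 297, .ofNat 252⟩, ⟨.negSucc 207, .ofNat 24, .negSucc 89, .negSucc 511, .negSucc 328, .negSucc 213⟩, .ofNat 833, .ofNat 1147, .ofNat 0, .ofNat 1147, .ofNat 3011, .ofNat 0, .ofNat 197, .negSucc 304, .negSucc 443, .ofNat 0, .ofNat 173, .ofNat 192, .ofNat 0, .ofNat 0, .ofNat 584, .ofNat 3803, .ofNat 0, .ofNat 0, .ofNat 0, .ofNat 0, .ofNat 0, .ofNat 0, .ofNat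 9282298287372670740932119756800, .ofNat 0, .ofNat 0, .ofNat 0, .ofNat 1570044548982502591123842662400, .ofNat 0, .ofNat 0, .ofNat 0, .ofNat 0, .ofNat 0⟩)
    (by decide +kernel)
theorem L00623 : Good (Phi V4.P V4.D (-1) (-1)) ⟨6, 52, 4, 4, 2, 2, 1, 0, 3, 1⟩ :=
  out_sound (S := T4.ds_mm) T4.ok_mm (w := 72) (j := 3) (by decide +kernel)
theorem L00624 : Good (Phi V4.P V4.D (-1) (-1)) ⟨6, 52, 4, 5, 2, 2, 2, 0, 3, 1⟩ :=
  leaf_sound (S := T4.ds_mm) T4.ok_mm (w := 184) (c := ⟨⟨.negSucc 917, .ofNat 354, .negSucc 385, .negSucc 273, .negSucc 25, .negSucc 166⟩, ⟨.ofNat 329, .negSucc 163, .ofNat 247, .ofNat 106, .negSucc 4, .ofNat 55⟩, ⟨.ofNat 894, .negSucc 233, .ofNat 207, .negSucc 14, .negSucc 86, .ofNat 259⟩, ⟨.negSucc 1566, .ofNat 436, .negSucc 458, .negSucc 547, .negSucc 177, .negSucc 416⟩, ⟨.negSucc 259, .negSucc 374, .ofNat 385, .negSucc 255, .negSucc 313, .negSucc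 347⟩, .ofNat 1383, .ofNat 2240, .ofNat 0, .ofNat 2240, .ofNat 5148, .ofNat 0, .ofNat 175, .negSucc 355, .negSucc 493, .ofNat 0, .ofNat 196, .ofNat 231, .ofNat 0, .ofNat 0, .ofNat 588, .ofNat 3234, .ofNat 1833790541743292636680344922226688000, .ofNat 0, .ofNat 3787628946710049629562470400, .ofNat 0, .ofNat 0, .ofNat 0, .ofNat 1575280023176203127813151129600, .ofNat 0, .ofNat 119205689351432886657774868402431590400, .ofNat 0, .ofNat 388614762749025843459548774400, .ofNat 0, .ofNat 316198427780695514310671371981553664000, .ofNat 0, .ofNat 454652101160021042024310374400, .ofNat 0⟩)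
    (by decide +kernel)
theorem L00625 : Good (Phi V4.P V4.D (-1) (-1)) ⟨6, 52, 4, 5, 2, 2, 2, 1, 3, 1⟩ :=
  leaf_sound (S := T4.ds_mm) T4.ok_mm (w := 184) (c := ⟨⟨.negSucc 1586, .negSucc 46, .ofNat 162, .negSucc 417, .ofNat 194, .ofNat 245⟩, ⟨.ofNat 620, .ofNat 18, .negSucc 4, .ofNat 166, .negSucc 99, .negSucc 124⟩, ⟨.ofNat 1153, .ofNat 30, .negSucc 60, .ofNat 142, .negSucc 265, .negSucc 96⟩, ⟨.negSucc 2527, .negSucc 46, .ofNat 171, .negSucc 802, .ofNat 167, .ofNat 225⟩, ⟨.negSucc 32, .negSucc 9, .negSucc 155, .negSucc 314, .negSucc 323, .negSucc 379⟩, .ofNat 1320, .ofNat 2109, .ofNat 0, .ofNat 2109, .ofNat 4870, .ofNat 0, .ofNat 176, .negSucc 340, .negSucc 557, .ofNat 0, .ofNat 190, .ofNat 259, .ofNat 0, .ofNat 0, .ofNat 652, .ofNat 3223, .ofNat 0, .ofNat 0, .ofNat 0, .ofNat 0, .ofNat 0, .ofNat 0, .ofNat 1691235713239409783428507238400, .ofNat 0, .ofNat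 0, .ofNat 0, .ofNat 329748077580869964884292403200, .ofNat 0, .ofNat 0, .ofNat 0, .ofNat 480479126809304954088456192000, .ofNat 0⟩)
    (by decide +kernel)
theorem L00626 : Good (Phi V4.P V4.D (-1) (-1)) ⟨6, 53, 3, 2, 2, 2, 1, 0, 3, 1⟩ :=
  out_sound (S := T4.ds_mm) T4.ok_mm (w := 64) (j := 3) (by decide +kernel)
theorem L00627 : Good (Phi V4.P V4.D (-1) (-1)) ⟨5, 27, 3, 2, 2, 2, 1, 0, 3, 1⟩ :=
  out_sound (S := T4.ds_mm) T4.ok_mm (w := 64) (j := 3) (by decide +kernel)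
theorem L00628 : Good (Phi V4.P V4.D (-1) (-1)) ⟨4, 12, 3, 2, 3, 6, 2, 0, 5, 4⟩ :=
  leaf_sound (S := T4.ds_mm) T4.ok_mm (w := 192) (c := ⟨⟨.negSucc 1066, .negSucc 790, .ofNat 315, .negSucc 574, .negSucc 211, .negSucc 198⟩, ⟨.ofNat 311, .ofNat 368, .ofNat 27, .ofNat 227, .ofNat 58, .ofNat 66⟩, ⟨.ofNat 802, .ofNat 445, .negSucc 187, .ofNat 312, .ofNat 62, .ofNat 147⟩, ⟨.negSucc 1915, .negSucc 969, .ofNat 467, .negSucc 831, .negSucc 509, .negSucc 364⟩, ⟨.negSucc 169, .ofNat 410, .negSucc 177, .ofNat 322, .negSucc 427, .negSucc 87⟩, .ofNat 523, .ofNat 504, .ofNat 0, .ofNat 504, .ofNat 1592, .ofNat 0, .ofNat 300, .negSucc 465, .negSucc 621, .ofNat 0, .ofNat 251, .ofNat 250, .ofNat 0, .ofNat 0, .ofNat 591, .ofNat 2536, .ofNat 0, .ofNat 0, .ofNat 0, .ofNat 0, .ofNat 0, .ofNat 0, .ofNat 0, .ofNat 0, .ofNat 568157912076294804759939512661757132800, .ofNat 0, .ofNat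 219509806948825369001434138489651200, .ofNat 0, .ofNat 0, .ofNat 0, .ofNat 0, .ofNat 0⟩)
    (by decide +kernel)

end Crest.Agent.R097C4.N4mm
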