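import Crest.Agent.R097.T4

/-!
# Row 97, box cover in dimension n = 4 (generated)
-/

set_option autoImplicit false
set_option Elab.async false
set_option maxHeartbeats 0
set_option maxRecDepth 100000

open Crest.Agent.R097 Crest.Agent.R097.KA


namespace Crest.Agent.R097C4.N4mm

theorem L00629 : Good (Phi V4.P V4.D (-1) (-1)) ⟨4, 12, 3, 2, 3, 7, 2, 0, 5, 4⟩ :=
  leaf_sound (S := T4.ds_mm) T4.ok_mm (w := 192) (c := ⟨⟨.negSucc 1754, .negSucc 1114, .ofNat 470, .negSucc 414, .ofNat 65, .negSucc 55⟩, ⟨.ofNat 555, .ofNat 579, .negSucc 43, .ofNat 161, .negSucc 58, .ofNat 0⟩, ⟨.ofNat 1206, .ofNat 369, .ofNat 68, .ofNat 642, .negSucc 299, .ofNat 139⟩, ⟨.negSucc 2919, .negSucc 1250, .ofNat 623, .negSucc 634, .negSucc 130, .negSucc 215⟩, ⟨.ofNat 336, .ofNat 825, .negSucc 471, .ofNat 114, .negSucc 617, .negSucc 308⟩, .ofNat 525, .ofNat 507, .ofNat 0, .ofNat 507, .ofNat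 1580, .ofNat 0, .ofNat 321, .negSucc 596, .negSucc 613, .ofNat 0, .ofNat 318, .ofNat 243, .ofNat 0, .ofNat 0, .ofNat 578, .ofNat 1998, .ofNat 0, .ofNat 0, .ofNat 0, .ofNat 0, .ofNat 0, .ofNat 0, .ofNat 0, .ofNat 0, .ofNat 1571227208132535810736692529628971008000, .ofNat 0, .ofNat 76337892836166552960702409290547200, .ofNat 0, .ofNat 0, .ofNat 0, .ofNat 181184333194231408350307031187456000, .ofNat 0⟩)
    (by decide +kernel)
theorem L00630 : Good (Phi V4.P V4.D (-1) (-1)) ⟨5, 26, 3, 2, 2, 3, 2, 0, 5, 4⟩ :=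
  leaf_sound (S := T4.ds_mm) T4.ok_mm (w := 192) (c := ⟨⟨.negSucc 2236, .negSucc 402, .ofNat 430, .negSucc 1106, .negSucc 10, .ofNat 46⟩, ⟨.ofNat 859, .ofNat 234, .negSucc 55, .ofNat 515, .negSucc 27, .negSucc 33⟩, ⟨.ofNat 1521, .ofNat 827, .negSucc 417, .ofNat 1039, .negSucc 104, .negSucc 21⟩, ⟨.negSucc 3434, .negSucc 599, .ofNat 700, .negSucc 1468, .negSucc 310, .negSucc 53⟩, ⟨.ofNat 368, .negSucc 197, .negSucc 24, .ofNat 677, .negSucc 674, .negSucc 289⟩, .ofNat 1170, .ofNat 1795, .ofNat 0, .ofNat 1795, .ofNat 4191, .ofNat 0, .ofNat 217, .negSucc 606, .negSucc 720, .ofNat 0, .ofNat 316, .ofNat 333, .ofNat 0, .ofNat 0, .ofNat 615, .ofNat 1414, .ofNat 0, .ofNat 0, .ofNat 6225604501014129297855401164800, .ofNat 0, .ofNat 0, .ofNat 0, .ofNat 2036098376564748835496664445747200, .ofNat 0, .ofNat 171573240853816730313599971657934438400, .ofNat 0, .ofNat 336073670720239506189895021363200,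 .ofNat 0, .ofNat 0, .ofNat 0, .ofNat 1649694911396105713470453212774400, .ofNat 0⟩)
    (by decide +kernel)
theorem L00631 : Good (Phi V4.P V4.D (-1) (-1)) ⟨5, 27, 3, 2, 2, 3, 2, 0, 5, 4⟩ :=
  out_sound (S := T4.ds_mm) T4.ok_mm (w := 64) (j := 3) (by decide +kernel)
theorem L00632 : Good (Phi V4.P V4.D (-1) (-1)) ⟨4, 12, 3, 2, 3, 6, 2, 0, 5, 5⟩ :=
  leaf_sound (S := T4.ds_mm) T4.ok_mm (w := 192) (c := ⟨⟨.negSucc 1486, .negSucc 626, .ofNat 252, .negSucc 426, .negSucc 19, .ofNat 44⟩, ⟨.ofNat 467, .ofNat 299, .ofNat 60, .ofNat 166, .negSucc 16, .negSucc 30⟩, ⟨.ofNat 1073, .ofNat 344, .negSucc 144, .ofNat 234, .negSucc 49, .ofNat 23⟩, ⟨.negSucc 2596, .negSucc 730, .ofNat 368, .negSucc 633, .negSucc 211, .negSucc 20⟩, ⟨.negSucc 129, .ofNat 327, .negSucc 149, .ofNat 193, .negSucc 486, .negSucc 236⟩, .ofNat 522, .ofNat 503, .ofNat 0, .ofNat 503, .ofNat 1592, .ofNat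 0, .ofNat 290, .negSucc 439, .negSucc 491, .ofNat 0, .ofNat 243, .ofNat 201, .ofNat 0, .ofNat 0, .ofNat 545, .ofNat 5545, .ofNat 0, .ofNat 0, .ofNat 0, .ofNat 0, .ofNat 0, .ofNat 0, .ofNat 0, .ofNat 0, .ofNat 649083685669356528982887571447087104000, .ofNat 0, .ofNat 191614078921737644134892100491673600, .ofNat 0, .ofNat 0, .ofNat 0, .ofNat 0, .ofNat 0⟩)
    (by decide +kernel)
theorem L00633 : Good (Phi V4.P V4.D (-1) (-1)) ⟨4, 13, 3, 2, 3, 6, 2, 0, 5, 5⟩ :=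
  leaf_sound (S := T4.ds_mm) T4.ok_mm (w := 200) (c := ⟨⟨.negSucc 2087, .negSucc 846, .ofNat 158, .negSucc 474, .ofNat 54, .ofNat 151⟩, ⟨.ofNat 772, .ofNat 463, .ofNat 75, .ofNat 220, .negSucc 51, .negSucc 82⟩, ⟨.ofNat 1380, .ofNat 338, .negSucc 76, .ofNat 266, .negSucc 74, .negSucc 37⟩, ⟨.negSucc 3308, .negSucc 976, .ofNat 277, .negSucc 638, .negSucc 160, .ofNat 92⟩, ⟨.ofNat 75, .ofNat 496, .ofNat 31, .ofNat 271, .negSucc 569, .negSucc 339⟩, .ofNat 1383, .ofNat 2243, .ofNat 0, .ofNat 2243, .ofNat 5159, .ofNat 0, .ofNat 199, .negSucc 517, .negSucc 574, .ofNat 0, .ofNat 272, .ofNat 269, .ofNat 0, .ofNat 0, .ofNat 570, .ofNat 9881, .ofNat 0, .ofNat 0, .ofNat 224163547647098234151827632501555200, .ofNat 0, .ofNat 332820641115021516493931081862060441600, .ofNat 0, .ofNat 3264508041406673976659556266567270400, .ofNat 0, .ofNat 635177976405750949114614645994291200000,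 .ofNat 0, .ofNat 2998618972806351548120764984904908800, .ofNat 0, .ofNat 0, .ofNat 0, .ofNat 3477300509513870443483954496195788800, .ofNat 0⟩)
    (by decide +kernel)
theorem L00634 : Good (Phi V4.P V4.D (-1) (-1)) ⟨4, 12, 3, 2, 3, 7, 2, 0, 5, 5⟩ :=
  leaf_sound (S := T4.ds_mm) T4.ok_mm (w := 192) (c := ⟨⟨.negSucc 2130, .negSucc 760, .ofNat 432, .negSucc 204, .ofNat 163, .ofNat 252⟩, ⟨.ofNat 702, .ofNat 383, .ofNat 1, .ofNat 70, .negSucc 91, .negSucc 113⟩, ⟨.ofNat 1493, .ofNat 349, .negSucc 99, .ofNat 495, .negSucc 330, .negSucc 105⟩, ⟨.negSucc 3538, .negSucc 839, .ofNat 614, .negSucc 363, .ofNat 25, .ofNat 253⟩, ⟨.ofNat 269, .ofNat 469, .negSucc 273, .negSucc 68, .negSucc 648, .negSucc 429⟩, .ofNat 524, .ofNat 508, .ofNat 0, .ofNat 508, .ofNat 1616, .ofNat 0, .ofNat 307, .negSucc 516, .negSucc 449, .ofNat 0, .ofNat 285, .ofNat 177, .ofNat 0, .ofNat 0, .ofNat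 537, .ofNat 877, .ofNat 0, .ofNat 0, .ofNat 1054798724969828103818760840806400, .ofNat 0, .ofNat 0, .ofNat 0, .ofNat 0, .ofNat 0, .ofNat 0, .ofNat 0, .ofNat 0, .ofNat 0, .ofNat 0, .ofNat 0, .ofNat 0, .ofNat 0⟩)
    (by decide +kernel)
theorem L00635 : Good (Phi V4.P V4.D (-1) (-1)) ⟨4, 13, 3, 2, 3, 7, 2, 0, 5, 5⟩ :=
  leaf_sound (S := T4.ds_mm) T4.ok_mm (w := 192) (c := ⟨⟨.negSucc 2850, .negSucc 464, .ofNat 223, .negSucc 82, .ofNat 226, .ofNat 399⟩, ⟨.ofNat 1169, .ofNat 299, .ofNat 6, .ofNat 21, .negSucc 127, .negSucc 203⟩, ⟨.ofNat 971, .ofNat 148, .ofNat 786, .ofNat 680, .negSucc 455, .negSucc 110⟩, ⟨.negSucc 3877, .negSucc 525, .negSucc 45, .negSucc 264, .ofNat 96, .ofNat 370⟩, ⟨.ofNat 1597, .ofNat 97, .negSucc 988, .negSucc 303, .negSucc 607, .negSucc 611⟩, .ofNat 1305, .ofNat 2078, .ofNat 0, .ofNat 2078, .ofNat 4801, .ofNat 0, .ofNat 219, .negSucc 622,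 .negSucc 515, .ofNat 0, .ofNat 332, .ofNat 239, .ofNat 0, .ofNat 0, .ofNat 556, .ofNat 2578, .ofNat 0, .ofNat 0, .ofNat 62124258521588412438183428908646400, .ofNat 0, .ofNat 0, .ofNat 0, .ofNat 5198545696505915714677344916262092800, .ofNat 0, .ofNat 581196070246207383075376559248795238400, .ofNat 0, .ofNat 1922517992961647931125874689468006400, .ofNat 0, .ofNat 0, .ofNat 0, .ofNat 3779808240855502718057521396423065600, .ofNat 0⟩)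
    (by decide +kernel)
theorem L00636 : Good (Phi V4.P V4.D (-1) (-1)) ⟨4, 12, 3, 2, 2, 3, 2, 1, 4, 2⟩ :=
  leaf_sound (S := T4.ds_mm) T4.ok_mm (w := 184) (c := ⟨⟨.negSucc 1918, .negSucc 604, .ofNat 441, .negSucc 353, .ofNat 250, .ofNat 324⟩, ⟨.ofNat 625, .ofNat 263, .ofNat 9, .ofNat 129, .negSucc 122, .negSucc 145⟩, ⟨.ofNat 1223, .ofNat 324, .negSucc 200, .ofNat 343, .negSucc 327, .negSucc 128⟩, ⟨.negSucc 3307, .negSucc 690, .ofNat 574, .negSucc 612, .ofNat 190, .ofNat 343⟩, ⟨.negSucc 167, .ofNat 275, .negSucc 255, .negSucc 63, .negSucc 582, .negSucc 509⟩, .ofNat 524, .ofNat 505, .ofNat 0, .ofNat 505, .ofNat 1568, .ofNat 0, .ofNat 303, .negSucc 420, .negSucc 628, .ofNat 0, .ofNat 240, .ofNat 256, .ofNat 0, .ofNat 0, .ofNat 624, .ofNat 1347, .ofNat 0, .ofNat 0, .ofNat 169204832036714977504631193600, .ofNat 0, .ofNat 0, .ofNat 0, .ofNat 0, .ofNat 0, .ofNat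 0, .ofNat 0, .ofNat 12101123438984515486659851059200, .ofNat 0, .ofNat 0, .ofNat 0, .ofNat 17298066656470552763701395456000, .ofNat 0⟩)
    (by decide +kernel)
theorem L00637 : Good (Phi V4.P V4.D (-1) (-1)) ⟨4, 13, 3, 2, 2, 3, 2, 1, 4, 2⟩ :=
  leaf_sound (S := T4.ds_mm) T4.ok_mm (w := 184) (c := ⟨⟨.negSucc 2585, .negSucc 950, .ofNat 184, .negSucc 329, .ofNat 426, .ofNat 585⟩, ⟨.ofNat 962, .ofNat 488, .ofNat 90, .ofNat 142, .negSucc 220, .negSucc 287⟩, ⟨.ofNat 1615, .ofNat 395, .negSucc 99, .ofNat 336, .negSucc 401, .negSucc 309⟩, ⟨.negSucc 4051, .negSucc 1092, .ofNat 239, .negSucc 534, .ofNat 365, .ofNat 636⟩, ⟨.ofNat 138, .ofNat 657, .negSucc 97, .negSucc 24, .negSucc 718, .negSucc 675⟩, .ofNat 1377, .ofNat 2230, .ofNat 0, .ofNat 2230, .ofNat 5130, .ofNat 0, .ofNat 208, .negSucc 499, .negSucc 701, .ofNat 0, .ofNat 263, .ofNat 325, .ofNat 0, .ofNat 0, .ofNat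 646, .ofNat 1700, .ofNat 0, .ofNat 0, .ofNat 3288848778565258773007643443200, .ofNat 0, .ofNat 0, .ofNat 0, .ofNat 516324188072546268903631119974400, .ofNat 0, .ofNat 0, .ofNat 0, .ofNat 215274106701753997520848866508800, .ofNat 0, .ofNat 0, .ofNat 0, .ofNat 304614200217791567904652866355200, .ofNat 0⟩)
    (by decide +kernel)
theorem L00638 : Good (Phi V4.P V4.D (-1) (-1)) ⟨5, 24, 4, 4, 3, 6, 2, 0, 4, 3⟩ :=
  leaf_sound (S := T4.ds_mm) T4.ok_mm (w := 200) (c := ⟨⟨.negSucc 1721, .negSucc 170, .ofNat 115, .negSucc 210, .ofNat 105, .ofNat 259⟩, ⟨.ofNat 555, .ofNat 76, .ofNat 40, .ofNat 68, .negSucc 55, .negSucc 110⟩, ⟨.ofNat 1269, .ofNat 88, .negSucc 65, .ofNat 152, .negSucc 186, .negSucc 44⟩, ⟨.negSucc 2992, .negSucc 172, .ofNat 144, .negSucc 386, .ofNat 19, .ofNat 256⟩, ⟨.negSucc 165, .ofNat 73, .negSucc 74, .negSucc 86, .negSucc 452, .negSucc 519⟩, .ofNat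 767, .ofNat 1098, .ofNat 0, .ofNat 1098, .ofNat 3376, .ofNat 0, .ofNat 457, .negSucc 768, .negSucc 647, .ofNat 0, .ofNat 375, .ofNat 246, .ofNat 0, .ofNat 0, .ofNat 995, .ofNat 12721, .ofNat 0, .ofNat 0, .ofNat 0, .ofNat 0, .ofNat 0, .ofNat 0, .ofNat 0, .ofNat 0, .ofNat 0, .ofNat 0, .ofNat 0, .ofNat 0, .ofNat 0, .ofNat 0, .ofNat 0, .ofNat 0⟩)
    (by decide +kernel)
theorem L00639 : Good (Phi V4.P V4.D (-1) (-1)) ⟨5, 24, 4, 4, 3, 7, 2, 0, 4, 3⟩ :=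
  leaf_sound (S := T4.ds_mm) T4.ok_mm (w := 200) (c := ⟨⟨.negSucc 2126, .negSucc 132, .ofNat 117, .negSucc 48, .ofNat 183, .ofNat 473⟩, ⟨.ofNat 703, .ofNat 58, .ofNat 48, .negSucc 0, .negSucc 82, .negSucc 203⟩, ⟨.ofNat 1596, .ofNat 71, .ofNat 30, .ofNat 424, .negSucc 464, .negSucc 108⟩, ⟨.negSucc 3628, .negSucc 107, .ofNat 108, .negSucc 213, .ofNat 169, .ofNat 486⟩, ⟨.negSucc 28, .ofNat 59, .negSucc 157, .negSucc 384, .negSucc 402, .negSucc 896⟩, .ofNat 1063, .ofNat 1840, .ofNat 0, .ofNat 1840, .ofNat 5335, .ofNat 0, .ofNat 461, .negSucc 863, .negSucc 561, .ofNat 0, .ofNat 422, .ofNat 210, .ofNat 0, .ofNat 0, .ofNat 1000, .ofNat 1584, .ofNat 0, .ofNat 0, .ofNat 0, .ofNat 0, .ofNat 0, .ofNat 0, .ofNat 0, .ofNat 0, .ofNat 0, .ofNat 0, .ofNat 0, .ofNat 0, .ofNat 0, .ofNat 0, .ofNat 0, .ofNat 0⟩)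
    (by decide +kernel)
theorem L00640 : Good (Phi V4.P V4.D (-1) (-1)) ⟨5, 24, 4, 5, 2, 3, 2, 0, 4, 3⟩ :=
  out_sound (S := T4.ds_mm) T4.ok_mm (w := 64) (j := 3) (by decide +kernel)
theorem L00641 : Good (Phi V4.P V4.D (-1) (-1)) ⟨5, 24, 3, 2, 2, 3, 2, 1, 4, 3⟩ :=
  leaf_sound (S := T4.ds_mm) T4.ok_mm (w := 184) (c := ⟨⟨.negSucc 1841, .negSucc 27, .ofNat 103, .negSucc 119, .ofNat 311, .ofNat 387⟩, ⟨.ofNat 601, .negSucc 13, .ofNat 161, .ofNat 16, .negSucc 127, .negSucc 154⟩, ⟨.ofNat 1240, .negSucc 2, .negSucc 23, .ofNat 200, .negSucc 385, .negSucc 176⟩, ⟨.negSucc 3273, .negSucc 0, .ofNat 49, .negSucc 381, .ofNat 359, .ofNat 478⟩, ⟨.negSucc 453, .negSucc 37, .negSucc 131, .negSucc 517, .negSucc 474, .negSucc 505⟩, .ofNat 1095, .ofNat 1943, .ofNat 0, .ofNat 1943, .ofNat 5671, .ofNat 0, .ofNat 217, .negSucc 379, .negSucc 386, .ofNat 0, .ofNat 180, .ofNat 145,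 .ofNat 0, .ofNat 0, .ofNat 527, .ofNat 1050, .ofNat 0, .ofNat 0, .ofNat 59781912134390576271536947200, .ofNat 0, .ofNat 0, .ofNat 0, .ofNat 0, .ofNat 0, .ofNat 0, .ofNat 0, .ofNat 0, .ofNat 0, .ofNat 0, .ofNat 0, .ofNat 0, .ofNat 0⟩)
    (by decide +kernel)
theorem L00642 : Good (Phi V4.P V4.D (-1) (-1)) ⟨6, 50, 4, 4, 3, 6, 2, 0, 4, 3⟩ :=
  leaf_sound (S := T4.ds_mm) T4.ok_mm (w := 200) (c := ⟨⟨.negSucc 1942, .negSucc 73, .ofNat 107, .negSucc 225, .ofNat 116, .ofNat 349⟩, ⟨.ofNat 663, .ofNat 32, .ofNat 42, .ofNat 80, .negSucc 69, .negSucc 164⟩, ⟨.ofNat 1387, .ofNat 46, .negSucc 59, .ofNat 163, .negSucc 192, .negSucc 92⟩, ⟨.negSucc 3210, .negSucc 66, .ofNat 120, .negSucc 404, .ofNat 22, .ofNat 356⟩, ⟨.negSucc 43, .ofNat 23, .negSucc 102, .negSucc 87, .negSucc 443, .negSucc 574⟩, .ofNat 761, .ofNat 1006, .ofNat 0, .ofNat 1006, .ofNat 2797, .ofNat 0, .ofNat 465,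 .negSucc 799, .negSucc 722, .ofNat 0, .ofNat 430, .ofNat 308, .ofNat 0, .ofNat 0, .ofNat 1018, .ofNat 21226, .ofNat 0, .ofNat 0, .ofNat 0, .ofNat 0, .ofNat 0, .ofNat 0, .ofNat 0, .ofNat 0, .ofNat 1132699091930466805100205024913301019033600, .ofNat 0, .ofNat 3133130586654330422645921257881600, .ofNat 0, .ofNat 0, .ofNat 0, .ofNat 0, .ofNat 0⟩)
    (by decide +kernel)
theorem L00643 : Good (Phi V4.P V4.D (-1) (-1)) ⟨6, 50, 4, 4, 3, 7, 2, 0, 4, 3⟩ :=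
  leaf_sound (S := T4.ds_mm) T4.ok_mm (w := 200) (c := ⟨⟨.negSucc 2330, .negSucc 77, .ofNat 127, .negSucc 10, .ofNat 203, .ofNat 564⟩, ⟨.ofNat 808, .ofNat 32, .ofNat 49, .negSucc 24, .negSucc 98, .negSucc 268⟩, ⟨.ofNat 1748, .ofNat 35, .negSucc 92, .ofNat 512, .negSucc 499, .negSucc 177⟩, ⟨.negSucc 3812, .negSucc 61, .ofNat 168, .negSucc 201, .ofNat 180, .ofNat 565⟩, ⟨.ofNat 19, .ofNat 56, .negSucc 36, .negSucc 486, .negSucc 404, .negSucc 941⟩, .ofNat 1043, .ofNat 1654, .ofNat 0, .ofNat 1654, .ofNat 4384, .ofNat 0, .ofNat 466, .negSucc 904, .negSucc 592, .ofNat 0, .ofNat 483, .ofNat 245, .ofNat 0, .ofNat 0, .ofNat 1009, .ofNat 3462, .ofNat 0, .ofNat 0, .ofNat 0, .ofNat 0, .ofNat 0, .ofNat 0, .ofNat 0, .ofNat 0, .ofNat 0, .ofNat 0, .ofNat 6783939034105667497061815576166400, .ofNat 0, .ofNat 0, .ofNat 0, .ofNat 0, .ofNat 0⟩)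
    (by decide +kernel)
theorem L00644 : Good (Phi V4.P V4.D (-1) (-1)) ⟨6, 51, 4, 4, 3, 6, 2, 0, 4, 3⟩ :=
  leaf_sound (S := T4.ds_mm) T4.ok_mm (w := 200) (c := ⟨⟨.negSucc 2091, .negSucc 27, .ofNat 120, .negSucc 197, .ofNat 132, .ofNat 397⟩, ⟨.ofNat 749, .ofNat 20, .ofNat 18, .ofNat 70, .negSucc 80, .negSucc 191⟩, ⟨.ofNat 1516, .ofNat 75, .negSucc 116, .ofNat 153, .negSucc 198, .negSucc 127⟩, ⟨.negSucc 3333, .negSucc 4, .ofNat 102, .negSucc 363, .ofNat 31, .ofNat 413⟩, ⟨.ofNat 125, .negSucc 2, .negSucc 198, .negSucc 109, .negSucc 467, .negSucc 591⟩, .ofNat 921, .ofNat 1332, .ofNat 0, .ofNat 1332, .ofNat 3465, .ofNat 0, .ofNat 223, .negSucc 411, .negSucc 381, .ofNat 0, .ofNat 222, .ofNat 168, .ofNat 0, .ofNat 0, .ofNat 516, .ofNat 9298, .ofNat 0, .ofNat 0, .ofNat 0, .ofNat 0, .ofNat 0, .ofNat 0, .ofNat 11185055705610743695889586035097600, .ofNat 0, .ofNat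 254480205204072823634129538500871271219200, .ofNat 0, .ofNat 3277339465531754288535569222860800, .ofNat 0, .ofNat 0, .ofNat 0, .ofNat 0, .ofNat 0⟩)
    (by decide +kernel)
theorem L00645 : Good (Phi V4.P V4.D (-1) (-1)) ⟨6, 51, 4, 4, 3, 7, 2, 0, 4, 3⟩ :=
  leaf_sound (S := T4.ds_mm) T4.ok_mm (w := 200) (c := ⟨⟨.negSucc 2381, .ofNat 35, .ofNat 45, .negSucc 5, .ofNat 213, .ofNat 644⟩, ⟨.ofNat 822, .negSucc 32, .ofNat 104, .negSucc 27, .negSucc 110, .negSucc 320⟩, ⟨.ofNat 1858, .ofNat 226, .negSucc 228, .ofNat 522, .negSucc 460, .negSucc 123⟩, ⟨.negSucc 3959, .negSucc 51, .ofNat 234, .negSucc 193, .ofNat 169, .ofNat 607⟩, ⟨.negSucc 301, .negSucc 392, .ofNat 482, .negSucc 472, .negSucc 451, .negSucc 1123⟩, .ofNat 1001, .ofNat 1513, .ofNat 0, .ofNat 1513, .ofNat 3894, .ofNat 0, .ofNat 473, .negSucc 948, .negSucc 658, .ofNat 0, .ofNat 518, .ofNat 283, .ofNat 0,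 .ofNat 0, .ofNat 1020, .ofNat 6621, .ofNat 0, .ofNat 0, .ofNat 0, .ofNat 0, .ofNat 0, .ofNat 0, .ofNat 54243848738451292530685044483686400, .ofNat 0, .ofNat 0, .ofNat 0, .ofNat 6091259985301765367490931379404800, .ofNat 0, .ofNat 0, .ofNat 0, .ofNat 1172039205803246659368007394918400, .ofNat 0⟩)
    (by decide +kernel)
theorem L00646 : Good (Phi V4.P V4.D (-1) (-1)) ⟨6, 50, 4, 5, 3, 6, 2, 0, 4, 3⟩ :=
  leaf_sound (S := T4.ds_mm) T4.ok_mm (w := 200) (c := ⟨⟨.negSucc 1786, .negSucc 109, .ofNat 63, .negSucc 235, .ofNat 125, .ofNat 315⟩, ⟨.ofNat 675, .ofNat 51, .ofNat 58, .ofNat 92, .negSucc 67, .negSucc 147⟩, ⟨.ofNat 1286, .ofNat 72, .negSucc 37, .ofNat 189, .negSucc 213, .negSucc 68⟩, ⟨.negSucc 3020, .negSucc 105, .ofNat 59, .negSucc 401, .ofNat 24, .ofNat 289⟩, ⟨.negSucc 181, .ofNat 74, .negSucc 64, .negSucc 44, .negSucc 463, .negSucc 576⟩, .ofNat 1345, .ofNat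 2366, .ofNat 0, .ofNat 2366, .ofNat 6045, .ofNat 0, .ofNat 384, .negSucc 865, .negSucc 694, .ofNat 0, .ofNat 427, .ofNat 296, .ofNat 0, .ofNat 0, .ofNat 1000, .ofNat 10053, .ofNat 0, .ofNat 0, .ofNat 0, .ofNat 0, .ofNat 0, .ofNat 0, .ofNat 0, .ofNat 0, .ofNat 0, .ofNat 0, .ofNat 0, .ofNat 0, .ofNat 0, .ofNat 0, .ofNat 0, .ofNat 0⟩)
    (by decide +kernel)
theorem L00647 : Good (Phi V4.P V4.D (-1) (-1)) ⟨6, 50, 4, 5, 3, 7, 2, 0, 4, 3⟩ :=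
  leaf_sound (S := T4.ds_mm) T4.ok_mm (w := 200) (c := ⟨⟨.negSucc 2166, .negSucc 56, .ofNat 130, .negSucc 29, .ofNat 173, .ofNat 522⟩, ⟨.ofNat 830, .ofNat 24, .ofNat 38, .negSucc 8, .negSucc 84, .negSucc 241⟩, ⟨.ofNat 1605, .ofNat 18, .ofNat 20, .ofNat 543, .negSucc 465, .negSucc 107⟩, ⟨.negSucc 3569, .negSucc 33, .ofNat 113, .negSucc 244, .ofNat 130, .ofNat 470⟩, ⟨.negSucc 0, .ofNat 40, .negSucc 167, .negSucc 495, .negSucc 394, .negSucc 993⟩, .ofNat 1270, .ofNat 2199, .ofNat 0, .ofNat 2199, .ofNat 5667, .ofNat 0, .ofNat 409, .negSucc 936, .negSucc 576, .ofNat 0, .ofNat 472, .ofNat 240, .ofNat 0, .ofNat 0, .ofNat 1002, .ofNat 2733, .ofNat 0, .ofNat 0, .ofNat 0, .ofNat 0, .ofNat 0, .ofNat 0, .ofNat 0, .ofNat 0, .ofNat 0, .ofNat 0, .ofNat 0, .ofNat 0, .ofNat 0, .ofNat 0, .ofNat 0, .ofNat 0⟩)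
    (by decide +kernel)
theorem L00648 : Good (Phi V4.P V4.D (-1) (-1)) ⟨6, 51, 4, 5, 3, 6, 2, 0, 4, 3⟩ :=
  leaf_sound (S := T4.ds_mm) T4.ok_mm (w := 200) (c := ⟨⟨.negSucc 1949, .negSucc 116, .ofNat 112, .negSucc 198, .ofNat 140, .ofNat 390⟩, ⟨.ofNat 756, .ofNat 57, .ofNat 33, .ofNat 80, .negSucc 81, .negSucc 192⟩, ⟨.ofNat 1380, .ofNat 45, .negSucc 57, .ofNat 170, .negSucc 204, .negSucc 100⟩, ⟨.negSucc 3178, .negSucc 103, .ofNat 114, .negSucc 355, .ofNat 25, .ofNat 366⟩, ⟨.negSucc 70, .ofNat 102, .negSucc 111, .negSucc 90, .negSucc 477, .negSucc 628⟩, .ofNat 1265, .ofNat 2060, .ofNat 0, .ofNat 2060, .ofNat 4961, .ofNat 0, .ofNat 384, .negSucc 868, .negSucc 759, .ofNat 0, .ofNat 456, .ofNat 346, .ofNat 0, .ofNat 0, .ofNat 1021, .ofNat 11700, .ofNat 0, .ofNat 0, .ofNat 0, .ofNat 0, .ofNat 61519498004997173472422471363045464473600, .ofNat 0, .ofNat 15545343031429630279211779778150400,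 .ofNat 0, .ofNat 1132901402920840990269357124709790410342400, .ofNat 0, .ofNat 5971473547606964502690249100492800, .ofNat 0, .ofNat 0, .ofNat 0, .ofNat 0, .ofNat 0⟩)
    (by decide +kernel)
theorem L00649 : Good (Phi V4.P V4.D (-1) (-1)) ⟨6, 51, 4, 5, 3, 7, 2, 0, 4, 3⟩ :=
  leaf_sound (S := T4.ds_mm) T4.ok_mm (w := 200) (c := ⟨⟨.negSucc 2334, .negSucc 59, .ofNat 137, .ofNat 56, .ofNat 204, .ofNat 613⟩, ⟨.ofNat 920, .ofNat 20, .ofNat 40, .negSucc 52, .negSucc 100, .negSucc 309⟩, ⟨.ofNat 1737, .ofNat 33, .negSucc 91, .ofNat 508, .negSucc 542, .negSucc 112⟩, ⟨.negSucc 3729, .negSucc 38, .ofNat 156, .negSucc 153, .ofNat 189, .ofNat 525⟩, ⟨.ofNat 78, .ofNat 52, .negSucc 73, .negSucc 592, .negSucc 333, .negSucc 1123⟩, .ofNat 885, .ofNat 1238, .ofNat 0, .ofNat 1238, .ofNat 3117, .ofNat 0, .ofNat 441, .negSucc 926, .negSucc 639, .ofNat 0, .ofNat 514, .ofNat 288, .ofNat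 0, .ofNat 0, .ofNat 1014, .ofNat 4776, .ofNat 0, .ofNat 0, .ofNat 0, .ofNat 0, .ofNat 0, .ofNat 0, .ofNat 0, .ofNat 0, .ofNat 0, .ofNat 0, .ofNat 2051378463068880386630542059110400, .ofNat 0, .ofNat 0, .ofNat 0, .ofNat 0, .ofNat 0⟩)
    (by decide +kernel)
theorem L00650 : Good (Phi V4.P V4.D (-1) (-1)) ⟨5, 25, 3, 2, 2, 3, 2, 1, 4, 3⟩ :=
  leaf_sound (S := T4.ds_mm) T4.ok_mm (w := 184) (c := ⟨⟨.negSucc 2179, .negSucc 27, .ofNat 238, .ofNat 47, .ofNat 429, .ofNat 572⟩, ⟨.ofNat 745, .negSucc 20, .ofNat 104, .negSucc 54, .negSucc 196, .negSucc 261⟩, ⟨.ofNat 1375, .ofNat 63, .negSucc 145, .ofNat 192, .negSucc 503, .negSucc 244⟩, ⟨.negSucc 3596, .negSucc 7, .ofNat 230, .negSucc 198, .ofNat 474, .ofNat 641⟩, ⟨.negSucc 211, .negSucc 57, .negSucc 151, .negSucc 671, .negSucc 563, .negSucc 729⟩, .ofNat 826, .ofNat 1136, .ofNat 0, .ofNat 1136, .ofNat 3014, .ofNat 0,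 .ofNat 228, .negSucc 405, .negSucc 415, .ofNat 0, .ofNat 220, .ofNat 180, .ofNat 0, .ofNat 0, .ofNat 534, .ofNat 2011, .ofNat 0, .ofNat 0, .ofNat 0, .ofNat 0, .ofNat 0, .ofNat 0, .ofNat 10203289451849398508495201894400, .ofNat 0, .ofNat 0, .ofNat 0, .ofNat 6056543678449457567394850406400, .ofNat 0, .ofNat 0, .ofNat 0, .ofNat 3862272368447951892689977344000, .ofNat 0⟩)
    (by decide +kernel)
theorem L00651 : Good (Phi V4.P V4.D (-1) (-1)) ⟨4, 13, 3, 2, 3, 6, 1, 0, 4, 3⟩ :=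
  leaf_sound (S := T4.ds_mm) T4.ok_mm (w := 184) (c := ⟨⟨.negSucc 2608, .ofNat 278, .ofNat 499, .negSucc 121, .ofNat 605, .ofNat 489⟩, ⟨.ofNat 1008, .negSucc 123, .negSucc 87, .ofNat 44, .negSucc 312, .negSucc 242⟩, ⟨.ofNat 1832, .negSucc 227, .negSucc 312, .ofNat 95, .negSucc 669, .negSucc 217⟩, ⟨.negSucc 3937, .ofNat 433, .ofNat 557, .negSucc 275, .ofNat 523, .ofNat 506⟩, ⟨.ofNat 407, .negSucc 258, .negSucc 443, .negSucc 185, .negSucc 1008, .negSucc 624⟩, .ofNat 1170, .ofNat 1793, .ofNat 0, .ofNat 1793, .ofNat 4186, .ofNat 0, .ofNat 191, .negSucc 426, .negSucc 424, .ofNat 0, .ofNat 232, .ofNat 201, .ofNat 0, .ofNat 0, .ofNat 530, .ofNat 1765, .ofNat 0, .ofNat 0, .ofNat 234120886745370190052701136486400, .ofNat 0, .ofNat 0, .ofNat 0, .ofNat 34926460811188976948859692384256000, .ofNat 0, .ofNat 31193685810182714135321737400470732800, .ofNat 0, .ofNat 12937355337629055824048884285440000,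 .ofNat 0, .ofNat 0, .ofNat 0, .ofNat 15391731687465706952311380639744000, .ofNat 0⟩)
    (by decide +kernel)
theorem L00652 : Good (Phi V4.P V4.D (-1) (-1)) ⟨5, 26, 4, 4, 3, 7, 1, 0, 4, 3⟩ :=
  out_sound (S := T4.ds_mm) T4.ok_mm (w := 64) (j := 3) (by decide +kernel)
theorem L00653 : Good (Phi V4.P V4.D (-1) (-1)) ⟨6, 52, 5, 10, 3, 7, 1, 0, 4, 3⟩ :=
  out_sound (S := T4.ds_mm) T4.ok_mm (w := 72) (j := 3) (by decide +kernel)
theorem L00654 : Good (Phi V4.P V4.D (-1) (-1)) ⟨6, 52, 5, 11, 3, 7, 1, 0, 4, 3⟩ :=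
  leaf_sound (S := T4.ds_mm) T4.ok_mm (w := 200) (c := ⟨⟨.negSucc 2352, .ofNat 189, .negSucc 66, .ofNat 134, .ofNat 760, .ofNat 662⟩, ⟨.ofNat 984, .negSucc 70, .ofNat 76, .negSucc 91, .negSucc 379, .negSucc 343⟩, ⟨.ofNat 1726, .negSucc 609, .ofNat 235, .ofNat 424, .negSucc 1230, .negSucc 154⟩, ⟨.negSucc 3682, .ofNat 571, .negSucc 195, .negSucc 72, .ofNat 788, .ofNat 568⟩, ⟨.ofNat 115, .ofNat 553, .negSucc 160, .negSucc 656, .negSucc 966, .negSucc 1113⟩, .ofNat 1308, .ofNat 2082, .ofNat 0, .ofNat 2082, .ofNat 4807, .ofNat 0, .ofNat 205, .negSucc 483, .negSucc 378, .ofNat 0, .ofNat 267, .ofNat 178, .ofNat 0, .ofNat 0, .ofNat 524, .ofNat 957, .ofNat 0, .ofNat 0, .ofNat 10164359238906008138227384320000, .ofNat 0, .ofNat 0, .ofNat 0, .ofNat 2229211414961798681984279091609600, .ofNat 0, .ofNat 0, .ofNat 0, .ofNat 428095813688175921287960671027200, .ofNat 0, .ofNat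 0, .ofNat 0, .ofNat 542080839797628925479263561318400, .ofNat 0⟩)
    (by decide +kernel)
theorem L00655 : Good (Phi V4.P V4.D (-1) (-1)) ⟨6, 53, 4, 5, 3, 7, 1, 0, 4, 3⟩ :=
  out_sound (S := T4.ds_mm) T4.ok_mm (w := 72) (j := 3) (by decide +kernel)
theorem L00656 : Good (Phi V4.P V4.D (-1) (-1)) ⟨5, 27, 3, 2, 3, 7, 1, 0, 4, 3⟩ :=
  out_sound (S := T4.ds_mm) T4.ok_mm (w := 64) (j := 3) (by decide +kernel)
theorem L00657 : Good (Phi V4.P V4.D (-1) (-1)) ⟨3, 7, 3, 2, 1, 1, 1, 0, 2, 0⟩ :=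
  out_sound (S := T4.ds_mm) T4.ok_mm (w := 48) (j := 3) (by decide +kernel)
theorem L00658 : Good (Phi V4.P V4.D (-1) (-1)) ⟨2, 2, 3, 3, 1, 1, 1, 0, 2, 0⟩ :=
  out_sound (S := T4.ds_mm) T4.ok_mm (w := 40) (j := 3) (by decide +kernel)
theorem L00659 : Good (Phi V4.P V4.D (-1) (-1)) ⟨4, 12, 3, 3, 3, 4, 2, 0, 3, 0⟩ :=
  leaf_sound (S := T4.ds_mm) T4.ok_mm (w := 184) (c := ⟨⟨.ofNat 1056, .ofNat 638, .negSucc 262, .ofNat 137, .negSucc 630, .negSucc 2590⟩, ⟨.negSucc 413, .negSucc 352, .ofNat 158, .negSucc 63, .ofNat 267, .ofNat 1147⟩, ⟨.negSucc 749, .negSucc 547, .ofNat 166, .negSucc 89, .ofNat 264, .ofNat 2092⟩, ⟨.ofNat 1548, .ofNat 862, .negSucc 412, .ofNat 174, .negSucc 1083, .negSucc 3934⟩, ⟨.negSucc 458, .negSucc 237, .ofNat 86, .negSucc 98, .negSucc 162, .ofNat 492⟩, .ofNat 1011, .ofNat 1491, .ofNat 0, .ofNat 1491, .ofNat 3587, .ofNat 0, .ofNat 179, .negSucc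 355, .negSucc 690, .ofNat 0, .ofNat 193, .ofNat 311, .ofNat 0, .ofNat 0, .ofNat 700, .ofNat 2644, .ofNat 445996953490938735688547011500441600, .ofNat 0, .ofNat 6307050205063123835990468198400, .ofNat 0, .ofNat 0, .ofNat 0, .ofNat 0, .ofNat 0, .ofNat 0, .ofNat 0, .ofNat 1242868740535975395328713031680000, .ofNat 0, .ofNat 0, .ofNat 0, .ofNat 3197714272547937072767785186099200, .ofNat 0⟩)
    (by decide +kernel)
theorem L00660 : Good (Phi V4.P V4.D (-1) (-1)) ⟨4, 13, 3, 3, 3, 4, 2, 0, 4, 0⟩ :=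
  leaf_sound (S := T4.ds_mm) T4.ok_mm (w := 192) (c := ⟨⟨.ofNat 1827, .ofNat 979, .ofNat 21, .ofNat 339, .negSucc 909, .negSucc 1496⟩, ⟨.negSucc 863, .negSucc 615, .negSucc 5, .negSucc 174, .ofNat 434, .ofNat 722⟩, ⟨.negSucc 1461, .negSucc 813, .ofNat 39, .negSucc 109, .ofNat 430, .ofNat 1215⟩, ⟨.ofNat 2595, .ofNat 1150, .ofNat 22, .ofNat 468, .negSucc 1493, .negSucc 2238⟩, ⟨.negSucc 688, .negSucc 460, .ofNat 67, .negSucc 121, .negSucc 147, .ofNat 230⟩, .ofNat 634, .ofNat 696, .ofNat 0, .ofNat 696, .ofNat 1690, .ofNat 0, .ofNat 217, .negSucc 344, .negSucc 853, .ofNat 0, .ofNat 218, .ofNat 408, .ofNat 0, .ofNat 0, .ofNat 797, .ofNat 1468, .ofNat 0, .ofNat 0, .ofNat 132376172437766205580113661132800, .ofNat 0, .ofNat 0, .ofNat 0, .ofNat 0, .ofNat 0, .ofNat 0, .ofNat 0, .ofNat 9006328365523589732219471108505600, .ofNat 0, .ofNat 0, .ofNat 0, .ofNat 15382486052227052793020592370483200,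 .ofNat 0⟩)
    (by decide +kernel)
theorem L00661 : Good (Phi V4.P V4.D (-1) (-1)) ⟨5, 26, 3, 3, 3, 4, 2, 0, 4, 1⟩ :=
  leaf_sound (S := T4.ds_mm) T4.ok_mm (w := 192) (c := ⟨⟨.ofNat 292, .negSucc 103, .ofNat 233, .ofNat 162, .negSucc 584, .negSucc 1323⟩, ⟨.negSucc 184, .ofNat 35, .negSucc 41, .negSucc 83, .ofNat 279, .ofNat 646⟩, ⟨.negSucc 170, .ofNat 41, .negSucc 139, .negSucc 148, .ofNat 269, .ofNat 1063⟩, ⟨.ofNat 235, .negSucc 142, .ofNat 304, .ofNat 179, .negSucc 967, .negSucc 1910⟩, ⟨.negSucc 471, .ofNat 10, .negSucc 67, .negSucc 147, .negSucc 111, .ofNat 339⟩, .ofNat 634, .ofNat 697, .ofNat 0, .ofNat 697, .ofNat 1693, .ofNat 0, .ofNat 218, .negSucc 348, .negSucc 805, .ofNat 0, .ofNat 220, .ofNat 390, .ofNat 0, .ofNat 0, .ofNat 775, .ofNat 2634, .ofNat 0, .ofNat 0, .ofNat 0, .ofNat 0, .ofNat 0, .ofNat 0, .ofNat 0, .ofNat 0, .ofNat 0, .ofNat 0, .ofNat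 0, .ofNat 0, .ofNat 0, .ofNat 0, .ofNat 0, .ofNat 0⟩)
    (by decide +kernel)
theorem L00662 : Good (Phi V4.P V4.D (-1) (-1)) ⟨5, 27, 3, 3, 3, 4, 2, 0, 4, 1⟩ :=
  leaf_sound (S := T4.ds_mm) T4.ok_mm (w := 192) (c := ⟨⟨.ofNat 570, .negSucc 147, .ofNat 85, .ofNat 141, .negSucc 711, .negSucc 1652⟩, ⟨.negSucc 360, .ofNat 74, .ofNat 10, .negSucc 76, .ofNat 370, .ofNat 871⟩, ⟨.negSucc 402, .ofNat 165, .negSucc 46, .negSucc 126, .ofNat 363, .ofNat 1298⟩, ⟨.ofNat 609, .negSucc 176, .ofNat 80, .ofNat 139, .negSucc 1130, .negSucc 2302⟩, ⟨.negSucc 562, .ofNat 66, .negSucc 43, .negSucc 146, .negSucc 71, .ofNat 452⟩, .ofNat 1478, .ofNat 2208, .ofNat 0, .ofNat 2208, .ofNat 4426, .ofNat 0, .ofNat 137, .negSucc 391, .negSucc 861, .ofNat 0, .ofNat 227, .ofNat 456, .ofNat 0, .ofNat 0, .ofNat 803, .ofNat 1830, .ofNat 0, .ofNat 0, .ofNat 0, .ofNat 0, .ofNat 0, .ofNat 0, .ofNat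 19255338209455514627465021069721600, .ofNat 0, .ofNat 4142843943125302678753299842061041664000, .ofNat 0, .ofNat 8047068916089759062714824104345600, .ofNat 0, .ofNat 0, .ofNat 0, .ofNat 20793417982730940117458571440947200, .ofNat 0⟩)
    (by decide +kernel)
theorem L00663 : Good (Phi V4.P V4.D (-1) (-1)) ⟨4, 12, 3, 3, 3, 5, 2, 0, 3, 0⟩ :=
  leaf_sound (S := T4.ds_mm) T4.ok_mm (w := 184) (c := ⟨⟨.ofNat 2159, .negSucc 58, .ofNat 1054, .negSucc 111, .negSucc 789, .negSucc 3129⟩, ⟨.negSucc 934, .negSucc 12, .negSucc 416, .ofNat 54, .ofNat 338, .ofNat 1385⟩, ⟨.negSucc 1068, .negSucc 275, .negSucc 278, .ofNat 186, .ofNat 253, .ofNat 2100⟩, ⟨.ofNat 3170, .negSucc 117, .ofNat 1650, .negSucc 106, .negSucc 1366, .negSucc 4834⟩, ⟨.negSucc 706, .ofNat 2, .negSucc 31, .ofNat 168, .negSucc 232, .ofNat 398⟩, .ofNat 1019, .ofNat 1508, .ofNat 0, .ofNat 1508, .ofNat 3618, .ofNat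 0, .ofNat 190, .negSucc 441, .negSucc 743, .ofNat 0, .ofNat 230, .ofNat 336, .ofNat 0, .ofNat 0, .ofNat 669, .ofNat 1829, .ofNat 0, .ofNat 0, .ofNat 16724767265606631013317240422400, .ofNat 0, .ofNat 0, .ofNat 0, .ofNat 0, .ofNat 0, .ofNat 0, .ofNat 0, .ofNat 1485689619047987467120573572710400, .ofNat 0, .ofNat 0, .ofNat 0, .ofNat 3530128438186041475638123665817600, .ofNat 0⟩)
    (by decide +kernel)
theorem L00664 : Good (Phi V4.P V4.D (-1) (-1)) ⟨5, 26, 3, 3, 3, 5, 2, 0, 4, 0⟩ :=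
  leaf_sound (S := T4.ds_mm) T4.ok_mm (w := 192) (c := ⟨⟨.ofNat 2080, .ofNat 859, .negSucc 372, .ofNat 20, .negSucc 935, .negSucc 1415⟩, ⟨.negSucc 963, .negSucc 479, .ofNat 147, .negSucc 11, .ofNat 438, .ofNat 674⟩, ⟨.negSucc 1389, .negSucc 533, .ofNat 291, .ofNat 262, .ofNat 268, .ofNat 988⟩, ⟨.ofNat 3050, .ofNat 1101, .negSucc 550, .ofNat 121, .negSucc 1596, .negSucc 2243⟩, ⟨.negSucc 582, .negSucc 358, .ofNat 207, .ofNat 199, .negSucc 267, .negSucc 48⟩, .ofNat 639, .ofNat 703, .ofNat 0, .ofNat 703, .ofNat 1694, .ofNat 0, .ofNat 234, .negSucc 446, .negSucc 881, .ofNat 0, .ofNat 263, .ofNat 423, .ofNat 0, .ofNat 0, .ofNat 718, .ofNat 4240, .ofNat 0, .ofNat 0, .ofNat 0, .ofNat 0, .ofNat 0, .ofNat 0, .ofNat 0, .ofNat 0, .ofNat 0, .ofNat 0, .ofNat 0, .ofNat 0, .ofNat 0, .ofNat 0, .ofNat 2617471461493361879273921996390400, .ofNat 0⟩)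
    (by decide +kernel)
theorem L00665 : Good (Phi V4.P V4.D (-1) (-1)) ⟨6, 52, 3, 3, 3, 5, 2, 0, 4, 1⟩ :=
  leaf_sound (S := T4.ds_mm) T4.ok_mm (w := 200) (c := ⟨⟨.ofNat 705, .negSucc 116, .ofNat 205, .negSucc 342, .negSucc 712, .negSucc 1626⟩, ⟨.negSucc 374, .ofNat 56, .negSucc 14, .ofNat 169, .ofNat 322, .ofNat 762⟩, ⟨.negSucc 328, .ofNat 49, .negSucc 130, .ofNat 230, .ofNat 298, .ofNat 1065⟩, ⟨.ofNat 827, .negSucc 142, .ofNat 239, .negSucc 461, .negSucc 1199, .negSucc 2408⟩, ⟨.negSucc 611, .ofNat 48, .negSucc 114, .ofNat 167, .negSucc 161, .ofNat 351⟩, .ofNat 606, .ofNat 650, .ofNat 0, .ofNat 650, .ofNat 1647, .ofNat 0, .ofNat 247, .negSucc 442, .negSucc 861, .ofNat 0, .ofNat 259, .ofNat 406, .ofNat 0, .ofNat 0, .ofNat 726, .ofNat 2841, .ofNat 0, .ofNat 0, .ofNat 0, .ofNat 0, .ofNat 0, .ofNat 0, .ofNat 0, .ofNat 0, .ofNat 115640581224310117549182001744285217587200,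 .ofNat 0, .ofNat 141437675960906758894616208998400, .ofNat 0, .ofNat 0, .ofNat 0, .ofNat 0, .ofNat 0⟩)
    (by decide +kernel)
theorem L00666 : Good (Phi V4.P V4.D (-1) (-1)) ⟨6, 53, 3, 3, 3, 5, 2, 0, 4, 1⟩ :=
  leaf_sound (S := T4.ds_mm) T4.ok_mm (w := 200) (c := ⟨⟨.ofNat 729, .ofNat 53, .ofNat 74, .negSucc 310, .negSucc 803, .negSucc 1759⟩, ⟨.negSucc 452, .negSucc 39, .ofNat 67, .ofNat 159, .ofNat 402, .ofNat 896⟩, ⟨.negSucc 401, .negSucc 32, .negSucc 30, .ofNat 246, .ofNat 339, .ofNat 1171⟩, ⟨.ofNat 784, .ofNat 64, .ofNat 123, .negSucc 400, .negSucc 1304, .negSucc 2514⟩, ⟨.negSucc 690, .negSucc 46, .ofNat 34, .ofNat 164, .negSucc 119, .ofNat 422⟩, .ofNat 1310, .ofNat 1943, .ofNat 0, .ofNat 1943, .ofNat 4055, .ofNat 0, .ofNat 160, .negSucc 483, .negSucc 920, .ofNat 0, .ofNat 269, .ofNat 472, .ofNat 0, .ofNat 0, .ofNat 750, .ofNat 2253, .ofNat 0, .ofNat 0,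 .ofNat 0, .ofNat 0, .ofNat 58053648251161609128147024997400759500800, .ofNat 0, .ofNat 1146321035021072378756188864512000, .ofNat 0, .ofNat 0, .ofNat 0, .ofNat 0, .ofNat 0, .ofNat 0, .ofNat 0, .ofNat 0, .ofNat 0⟩)
    (by decide +kernel)
theorem L00667 : Good (Phi V4.P V4.D (-1) (-1)) ⟨6, 54, 4, 6, 3, 5, 2, 0, 3, 0⟩ :=
  out_sound (S := T4.ds_mm) T4.ok_mm (w := 72) (j := 3) (by decide +kernel)
theorem L00668 : Good (Phi V4.P V4.D (-1) (-1)) ⟨6, 54, 4, 7, 3, 5, 2, 0, 4, 0⟩ :=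
  leaf_sound (S := T4.ds_mm) T4.ok_mm (w := 200) (c := ⟨⟨.ofNat 2422, .ofNat 379, .ofNat 310, .negSucc 181, .negSucc 978, .negSucc 1503⟩, ⟨.negSucc 1258, .negSucc 236, .negSucc 178, .ofNat 100, .ofNat 505, .ofNat 783⟩, ⟨.negSucc 1661, .negSucc 260, .negSucc 58, .ofNat 426, .ofNat 243, .ofNat 1010⟩, ⟨.ofNat 3397, .ofNat 451, .ofNat 401, .negSucc 117, .negSucc 1659, .negSucc 2337⟩, ⟨.negSucc 681, .negSucc 163, .negSucc 89, .ofNat 311, .negSucc 298, .negSucc 50⟩, .ofNat 1485, .ofNat 2223, .ofNat 0, .ofNat 2223, .ofNat 4453, .ofNat 0, .ofNat 145, .negSucc 482, .negSucc 919, .ofNat 0, .ofNat 273, .ofNat 484, .ofNat 0, .ofNat 0, .ofNat 741, .ofNat 3911, .ofNat 0, .ofNat 0, .ofNat 0, .ofNat 0, .ofNat 0, .ofNat 0, .ofNat 11296066602701508380314358199091200, .ofNat 0, .ofNat 175842682958455841949653399550387919257600, .ofNat 0, .ofNat 3804034332057301827814208569344000,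 .ofNat 0, .ofNat 0, .ofNat 0, .ofNat 6406992848757877445924027891712000, .ofNat 0⟩)
    (by decide +kernel)
theorem L00669 : Good (Phi V4.P V4.D (-1) (-1)) ⟨6, 54, 4, 7, 3, 5, 2, 0, 4, 1⟩ :=
  leaf_sound (S := T4.ds_mm) T4.ok_mm (w := 208) (c := ⟨⟨.ofNat 661, .negSucc 89, .ofNat 360, .negSucc 420, .negSucc 811, .negSucc 1964⟩, ⟨.negSucc 392, .ofNat 41, .negSucc 152, .ofNat 223, .ofNat 422, .ofNat 1037⟩, ⟨.negSucc 358, .ofNat 55, .negSucc 202, .ofNat 286, .ofNat 362, .ofNat 1292⟩, ⟨.ofNat 677, .negSucc 107, .ofNat 487, .negSucc 545, .negSucc 1303, .negSucc 2750⟩, ⟨.negSucc 670, .ofNat 43, .negSucc 101, .ofNat 192, .negSucc 108, .ofNat 510⟩, .ofNat 3323, .ofNat 5636, .ofNat 0, .ofNat 5636, .ofNat 10837, .ofNat 0, .ofNat 112, .negSucc 498, .negSucc 953, .ofNat 0, .ofNat 276, .ofNat 508, .ofNat 0, .ofNat 0, .ofNat 766, .ofNat 1742, .ofNat 0, .ofNat 0, .ofNat 87837732535244797876596690124800,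 .ofNat 0, .ofNat 0, .ofNat 0, .ofNat 9913317497937846678698325127987200, .ofNat 0, .ofNat 399902714047516908658541276987185220812800, .ofNat 0, .ofNat 5151478817270837891676954112819200, .ofNat 0, .ofNat 0, .ofNat 0, .ofNat 9790848697534671290978496046694400, .ofNat 0⟩)
    (by decide +kernel)
theorem L00670 : Good (Phi V4.P V4.D (-1) (-1)) ⟨6, 55, 3, 3, 3, 5, 2, 0, 3, 0⟩ :=
  out_sound (S := T4.ds_mm) T4.ok_mm (w := 64) (j := 3) (by decide +kernel)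
theorem L00671 : Good (Phi V4.P V4.D (-1) (-1)) ⟨4, 12, 3, 3, 2, 2, 2, 0, 3, 1⟩ :=
  leaf_sound (S := T4.ds_mm) T4.ok_mm (w := 176) (c := ⟨⟨.negSucc 799, .negSucc 415, .ofNat 200, .negSucc 325, .negSucc 33, .negSucc 203⟩, ⟨.ofNat 320, .ofNat 208, .ofNat 22, .ofNat 133, .ofNat 5, .ofNat 78⟩, ⟨.ofNat 766, .ofNat 275, .negSucc 178, .ofNat 23, .negSucc 84, .ofNat 289⟩, ⟨.negSucc 1421, .negSucc 503, .ofNat 182, .negSucc 627, .negSucc 181, .negSucc 459⟩, ⟨.negSucc 38, .ofNat 73, .negSucc 267, .negSucc 242, .negSucc 291, .negSucc 304⟩, .ofNat 1402, .ofNat 2328, .ofNat 0, .ofNat 2328, .ofNat 5432, .ofNat 0, .ofNat 157, .negSucc 358, .negSucc 472, .ofNat 0, .ofNat 188, .ofNat 217, .ofNat 0, .ofNat 0, .ofNat 576, .ofNat 3693, .ofNat 4053796111669704852453338382336000, .ofNat 0, .ofNat 22405010320665455296197427200, .ofNat 0, .ofNat 0, .ofNat 0, .ofNat 0, .ofNat 0, .ofNat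 0, .ofNat 0, .ofNat 420379898540587244208311500800, .ofNat 0, .ofNat 0, .ofNat 0, .ofNat 5566456771255324272572655206400, .ofNat 0⟩)
    (by decide +kernel)
theorem L00672 : Good (Phi V4.P V4.D (-1) (-1)) ⟨5, 26, 3, 3, 2, 2, 2, 0, 4, 2⟩ :=
  leaf_sound (S := T4.ds_mm) T4.ok_mm (w := 184) (c := ⟨⟨.negSucc 930, .negSucc 362, .ofNat 246, .negSucc 511, .negSucc 186, .negSucc 322⟩, ⟨.ofNat 378, .ofNat 206, .negSucc 11, .ofNat 243, .ofNat 78, .ofNat 153⟩, ⟨.ofNat 849, .ofNat 232, .negSucc 171, .ofNat 121, .ofNat 47, .ofNat 288⟩, ⟨.negSucc 1555, .negSucc 386, .ofNat 275, .negSucc 826, .negSucc 406, .negSucc 530⟩, ⟨.negSucc 142, .ofNat 216, .negSucc 189, .negSucc 49, .negSucc 232, .negSucc 55⟩, .ofNat 1169, .ofNat 1717, .ofNat 0, .ofNat 1717, .ofNat 3751, .ofNat 0, .ofNat 163, .negSucc 392, .negSucc 616, .ofNat 0, .ofNat 221, .ofNat 307, .ofNat 0, .ofNat 0, .ofNat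 641, .ofNat 3143, .ofNat 336547735030231315965837434054246400, .ofNat 0, .ofNat 33494614086086318473032499200, .ofNat 0, .ofNat 0, .ofNat 0, .ofNat 10698267563270840093261797785600, .ofNat 0, .ofNat 18714715607808181812315300969421209600, .ofNat 0, .ofNat 2609755457858151826622880153600, .ofNat 0, .ofNat 0, .ofNat 0, .ofNat 0, .ofNat 0⟩)
    (by decide +kernel)
theorem L00673 : Good (Phi V4.P V4.D (-1) (-1)) ⟨5, 26, 3, 3, 2, 2, 2, 0, 4, 3⟩ :=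
  leaf_sound (S := T4.ds_mm) T4.ok_mm (w := 184) (c := ⟨⟨.negSucc 1566, .negSucc 66, .ofNat 19, .negSucc 167, .ofNat 115, .ofNat 135⟩, ⟨.ofNat 683, .ofNat 35, .ofNat 136, .ofNat 64, .negSucc 66, .negSucc 73⟩, ⟨.ofNat 1364, .ofNat 74, .negSucc 74, .negSucc 88, .negSucc 192, .negSucc 20⟩, ⟨.negSucc 2463, .negSucc 46, .ofNat 14, .negSucc 477, .ofNat 26, .ofNat 91⟩, ⟨.ofNat 32, .negSucc 21, .ofNat 18, .negSucc 452, .negSucc 320, .negSucc 248⟩, .ofNat 1166, .ofNat 1711, .ofNat 0, .ofNat 1711, .ofNat 3737, .ofNat 0, .ofNat 153, .negSucc 347, .negSucc 437, .ofNat 0, .ofNat 199, .ofNat 220, .ofNat 0, .ofNat 0, .ofNat 558, .ofNat 4518, .ofNat 0, .ofNat 0, .ofNat 0, .ofNat 0, .ofNat 0, .ofNat 0, .ofNat 13272698650343361759798519398400, .ofNat 0, .ofNat 10580456189955669893568622614911385600, .ofNat 0, .ofNat 4045613500198509261416615116800, .ofNat 0, .ofNat 0, .ofNat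 0, .ofNat 0, .ofNat 0⟩)
    (by decide +kernel)
theorem L00674 : Good (Phi V4.P V4.D (-1) (-1)) ⟨6, 54, 4, 6, 2, 2, 2, 0, 3, 1⟩ :=
  out_sound (S := T4.ds_mm) T4.ok_mm (w := 72) (j := 3) (by decide +kernel)
theorem L00675 : Good (Phi V4.P V4.D (-1) (-1)) ⟨6, 54, 5, 14, 2, 2, 2, 0, 3, 1⟩ :=
  out_sound (S := T4.ds_mm) T4.ok_mm (w := 72) (j := 3) (by decide +kernel)
theorem L00676 : Good (Phi V4.P V4.D (-1) (-1)) ⟨6, 54, 5, 15, 2, 2, 2, 0, 4, 2⟩ :=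
  leaf_sound (S := T4.ds_mm) T4.ok_mm (w := 192) (c := ⟨⟨.negSucc 960, .negSucc 253, .negSucc 24, .negSucc 517, .negSucc 199, .negSucc 400⟩, ⟨.ofNat 474, .ofNat 148, .ofNat 42, .ofNat 269, .ofNat 99, .ofNat 208⟩, ⟨.ofNat 848, .ofNat 102, .ofNat 34, .ofNat 105, .ofNat 54, .ofNat 343⟩, ⟨.negSucc 1547, .negSucc 271, .negSucc 35, .negSucc 813, .negSucc 439, .negSucc 633⟩, ⟨.negSucc 137, .ofNat 150, .ofNat 15, .negSucc 36, .negSucc 251, .negSucc 34⟩, .ofNat 2473, .ofNat 4056, .ofNat 0, .ofNat 4056, .ofNat 7888, .ofNat 0, .ofNat 113, .negSucc 424, .negSucc 679, .ofNat 0, .ofNat 239, .ofNat 363, .ofNat 0, .ofNat 0, .ofNat 664, .ofNat 7232, .ofNat 0, .ofNat 0, .ofNat 0, .ofNat 0, .ofNat 1947836964967600365160134096602529792000, .ofNat 0, .ofNat 53805067590069341561736187084800, .ofNat 0, .ofNat 106126579152423918171306048277079654400, .ofNat 0, .ofNat 5045566926345718865057965670400,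 .ofNat 0, .ofNat 0, .ofNat 0, .ofNat 17014110593318033376634365542400, .ofNat 0⟩)
    (by decide +kernel)
theorem L00677 : Good (Phi V4.P V4.D (-1) (-1)) ⟨6, 54, 5, 15, 2, 2, 2, 0, 4, 3⟩ :=
  leaf_sound (S := T4.ds_mm) T4.ok_mm (w := 192) (c := ⟨⟨.negSucc 1660, .ofNat 1, .negSucc 20, .negSucc 158, .ofNat 154, .ofNat 191⟩, ⟨.ofNat 836, .ofNat 2, .ofNat 47, .ofNat 75, .negSucc 86, .negSucc 104⟩, ⟨.ofNat 1393, .negSucc 118, .ofNat 64, .negSucc 109, .negSucc 223, .negSucc 76⟩, ⟨.negSucc 2512, .ofNat 100, .negSucc 69, .negSucc 476, .ofNat 65, .ofNat 155⟩, ⟨.ofNat 69, .ofNat 120, .negSucc 58, .negSucc 444, .negSucc 330, .negSucc 265⟩, .ofNat 3291, .ofNat 5578, .ofNat 0, .ofNat 5578, .ofNat 10730, .ofNat 0, .ofNat 100, .negSucc 372, .negSucc 465, .ofNat 0, .ofNat 210, .ofNat 250, .ofNat 0, .ofNat 0, .ofNat 568, .ofNat 10021, .ofNat 0, .ofNat 0, .ofNat 0, .ofNat 0,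 .ofNat 4926037349769619740349060988710944768000, .ofNat 0, .ofNat 40383431388922648157459841024000, .ofNat 0, .ofNat 0, .ofNat 0, .ofNat 9735624132164403629340701491200, .ofNat 0, .ofNat 0, .ofNat 0, .ofNat 33218114753849401816646890291200, .ofNat 0⟩)
    (by decide +kernel)
theorem L00678 : Good (Phi V4.P V4.D (-1) (-1)) ⟨6, 55, 3, 3, 2, 2, 2, 0, 3, 1⟩ :=
  out_sound (S := T4.ds_mm) T4.ok_mm (w := 64) (j := 3) (by decide +kernel)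
theorem L00679 : Good (Phi V4.P V4.D (-1) (-1)) ⟨5, 24, 3, 3, 2, 3, 2, 0, 3, 0⟩ :=
  out_sound (S := T4.ds_mm) T4.ok_mm (w := 64) (j := 3) (by decide +kernel)
theorem L00680 : Good (Phi V4.P V4.D (-1) (-1)) ⟨6, 50, 4, 6, 2, 3, 2, 0, 3, 0⟩ :=
  out_sound (S := T4.ds_mm) T4.ok_mm (w := 72) (j := 3) (by decide +kernel)
theorem L00681 : Good (Phi V4.P V4.D (-1) (-1)) ⟨6, 51, 4, 6, 2, 3, 2, 0, 4, 0⟩ :=
  leaf_sound (S := T4.ds_mm) T4.ok_mm (w := 192) (c := ⟨⟨.ofNat 2058, .ofNat 468, .negSucc 410, .negSucc 288, .negSucc 1345, .negSucc 1568⟩, ⟨.negSucc 885, .negSucc 226, .ofNat 174, .ofNat 167, .ofNat 578, .ofNat 669⟩, ⟨.negSucc 960, .negSucc 187, .ofNat 355, .ofNat 1068, .ofNat 214, .ofNat 840⟩, ⟨.ofNat 3337, .ofNat 571, .negSucc 359, .ofNat 74, .negSucc 2280, .negSucc 2737⟩, ⟨.ofNat 48, .negSucc 354, .ofNat 683, .ofNat 1228, .negSucc 288, .negSucc 509⟩, .ofNat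 1768, .ofNat 3113, .ofNat 0, .ofNat 3113, .ofNat 7131, .ofNat 0, .ofNat 185, .negSucc 603, .negSucc 749, .ofNat 0, .ofNat 296, .ofNat 333, .ofNat 0, .ofNat 0, .ofNat 615, .ofNat 2724, .ofNat 0, .ofNat 0, .ofNat 0, .ofNat 0, .ofNat 0, .ofNat 0, .ofNat 0, .ofNat 0, .ofNat 0, .ofNat 0, .ofNat 5293354568928363585911704780800, .ofNat 0, .ofNat 0, .ofNat 0, .ofNat 0, .ofNat 0⟩)
    (by decide +kernel)
theorem L00682 : Good (Phi V4.P V4.D (-1) (-1)) ⟨6, 51, 4, 6, 3, 6, 2, 0, 4, 1⟩ :=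
  leaf_sound (S := T4.ds_mm) T4.ok_mm (w := 200) (c := ⟨⟨.ofNat 795, .negSucc 242, .negSucc 71, .negSucc 437, .negSucc 917, .negSucc 1986⟩, ⟨.negSucc 372, .ofNat 118, .ofNat 59, .ofNat 207, .ofNat 391, .ofNat 877⟩, ⟨.negSucc 163, .ofNat 98, .negSucc 40, .ofNat 408, .ofNat 276, .ofNat 1030⟩, ⟨.ofNat 1043, .negSucc 322, .negSucc 144, .negSucc 519, .negSucc 1574, .negSucc 3024⟩, ⟨.negSucc 484, .ofNat 91, .negSucc 48, .ofNat 412, .negSucc 236, .ofNat 365⟩, .ofNat 1400, .ofNat 2323, .ofNat 0, .ofNat 2323, .ofNat 5417, .ofNat 0, .ofNat 188, .negSucc 608, .negSucc 825, .ofNat 0, .ofNat 300, .ofNat 374, .ofNat 0, .ofNat 0, .ofNat 638, .ofNat 2287, .ofNat 0, .ofNat 0, .ofNat 0, .ofNat 0, .ofNat 0, .ofNat 0, .ofNat 0, .ofNat 0, .ofNat 0, .ofNat 0, .ofNat 0, .ofNat 0, .ofNat 0, .ofNat 0, .ofNat 0, .ofNat 0⟩)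
    (by decide +kernel)
theorem L00683 : Good (Phi V4.P V4.D (-1) (-1)) ⟨6, 51, 4, 6, 3, 7, 2, 0, 4, 1⟩ :=
  leaf_sound (S := T4.ds_mm) T4.ok_mm (w := 200) (c := ⟨⟨.ofNat 222, .negSucc 290, .ofNat 1073, .negSucc 481, .negSucc 797, .negSucc 2194⟩, ⟨.negSucc 119, .ofNat 157, .negSucc 453, .ofNat 218, .ofNat 340, .ofNat 974⟩, ⟨.ofNat 314, .ofNat 229, .negSucc 449, .ofNat 857, .ofNat 17, .ofNat 967⟩, ⟨.ofNat 332, .negSucc 355, .ofNat 1508, .negSucc 690, .negSucc 1386, .negSucc 3336⟩, ⟨.ofNat 37, .ofNat 138, .negSucc 474, .ofNat 184, .negSucc 251, .ofNat 411⟩, .ofNat 1768, .ofNat 3116, .ofNat 0, .ofNat 3116, .ofNat 7151, .ofNat 0, .ofNat 199, .negSucc 743, .negSucc 899, .ofNat 0, .ofNat 364, .ofNat 403, .ofNat 0, .ofNat 0, .ofNat 657, .ofNat 2436, .ofNat 0, .ofNat 0, .ofNat 0, .ofNat 0, .ofNat 0, .ofNat 0, .ofNat 0, .ofNat 0, .ofNat 0, .ofNat 0, .ofNat 0, .ofNat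 0, .ofNat 0, .ofNat 0, .ofNat 2777196070680069461498361859276800, .ofNat 0⟩)
    (by decide +kernel)
theorem L00684 : Good (Phi V4.P V4.D (-1) (-1)) ⟨5, 25, 4, 7, 2, 3, 2, 0, 3, 0⟩ :=
  out_sound (S := T4.ds_mm) T4.ok_mm (w := 64) (j := 3) (by decide +kernel)
theorem L00685 : Good (Phi V4.P V4.D (-1) (-1)) ⟨5, 26, 3, 3, 3, 6, 2, 0, 4, 0⟩ :=
  leaf_sound (S := T4.ds_mm) T4.ok_mm (w := 192) (c := ⟨⟨.ofNat 2250, .ofNat 308, .negSucc 20, .negSucc 84, .negSucc 1279, .negSucc 1354⟩, ⟨.negSucc 1033, .negSucc 204, .negSucc 32, .ofNat 59, .ofNat 602, .ofNat 634⟩, ⟨.negSucc 1082, .negSucc 156, .ofNat 89, .ofNat 470, .ofNat 243, .ofNat 811⟩, ⟨.ofNat 3452, .ofNat 394, .negSucc 56, .ofNat 148, .negSucc 2152, .negSucc 2303⟩, ⟨.negSucc 245, .negSucc 14, .negSucc 32, .ofNat 584, .negSucc 299, .negSucc 375⟩, .ofNat 630, .ofNat 688, .ofNat 0, .ofNat 688, .ofNat 1674, .ofNat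 0, .ofNat 257, .negSucc 565, .negSucc 891, .ofNat 0, .ofNat 318, .ofNat 418, .ofNat 0, .ofNat 0, .ofNat 662, .ofNat 1197, .ofNat 0, .ofNat 0, .ofNat 0, .ofNat 0, .ofNat 0, .ofNat 0, .ofNat 0, .ofNat 0, .ofNat 4456199944314685064762493520371410534400, .ofNat 0, .ofNat 722304381130680416745331202457600, .ofNat 0, .ofNat 0, .ofNat 0, .ofNat 0, .ofNat 0⟩)
    (by decide +kernel)
theorem L00686 : Good (Phi V4.P V4.D (-1) (-1)) ⟨5, 26, 3, 3, 3, 7, 2, 0, 4, 0⟩ :=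
  leaf_sound (S := T4.ds_mm) T4.ok_mm (w := 192) (c := ⟨⟨.ofNat 2538, .ofNat 252, .ofNat 286, .negSucc 77, .negSucc 1786, .negSucc 1753⟩, ⟨.negSucc 1158, .negSucc 142, .negSucc 197, .ofNat 68, .ofNat 843, .ofNat 807⟩, ⟨.negSucc 671, .negSucc 90, .negSucc 14, .ofNat 643, .ofNat 242, .ofNat 934⟩, ⟨.ofNat 4184, .ofNat 288, .ofNat 459, .ofNat 175, .negSucc 2835, .negSucc 3081⟩, ⟨.ofNat 403, .negSucc 83, .negSucc 63, .ofNat 608, .negSucc 72, .negSucc 672⟩, .ofNat 637, .ofNat 700, .ofNat 0, .ofNat 700, .ofNat 1692, .ofNat 0, .ofNat 276, .negSucc 693, .negSucc 979, .ofNat 0, .ofNat 384, .ofNat 449, .ofNat 0, .ofNat 0, .ofNat 687, .ofNat 1204, .ofNat 0, .ofNat 0, .ofNat 0, .ofNat 0, .ofNat 0, .ofNat 0, .ofNat 0, .ofNat 0, .ofNat 4184678003760127874730914736208714137600, .ofNat 0, .ofNat 1269358375178577901016846853734400, .ofNat 0, .ofNat 0, .ofNat 0, .ofNat 0, .ofNat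 0⟩)
    (by decide +kernel)
theorem L00687 : Good (Phi V4.P V4.D (-1) (-1)) ⟨6, 52, 3, 3, 3, 6, 2, 0, 4, 1⟩ :=
  leaf_sound (S := T4.ds_mm) T4.ok_mm (w := 200) (c := ⟨⟨.ofNat 663, .negSucc 224, .ofNat 487, .negSucc 488, .negSucc 931, .negSucc 2072⟩, ⟨.negSucc 346, .ofNat 110, .negSucc 143, .ofNat 243, .ofNat 419, .ofNat 965⟩, ⟨.negSucc 110, .ofNat 111, .negSucc 250, .ofNat 429, .ofNat 312, .ofNat 1075⟩, ⟨.ofNat 830, .negSucc 283, .ofNat 656, .negSucc 572, .negSucc 1577, .negSucc 3074⟩, ⟨.negSucc 445, .ofNat 97, .negSucc 230, .ofNat 435, .negSucc 230, .ofNat 440⟩, .ofNat 1443, .ofNat 2322, .ofNat 0, .ofNat 2322, .ofNat 5159, .ofNat 0, .ofNat 184, .negSucc 603, .negSucc 905, .ofNat 0, .ofNat 311, .ofNat 430, .ofNat 0, .ofNat 0, .ofNat 679, .ofNat 1585, .ofNat 0, .ofNat 0, .ofNat 0, .ofNat 0, .ofNat 0, .ofNat 0, .ofNat 0, .ofNat 0, .ofNat 86346534347666259042535113235646486937600,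 .ofNat 0, .ofNat 395766668382275115621352577433600, .ofNat 0, .ofNat 0, .ofNat 0, .ofNat 0, .ofNat 0⟩)
    (by decide +kernel)
theorem L00688 : Good (Phi V4.P V4.D (-1) (-1)) ⟨6, 53, 4, 6, 3, 6, 2, 0, 5, 2⟩ :=
  leaf_sound (S := T4.ds_mm) T4.ok_mm (w := 208) (c := ⟨⟨.ofNat 339, .negSucc 100, .ofNat 728, .negSucc 488, .negSucc 1313, .negSucc 1327⟩, ⟨.negSucc 208, .ofNat 43, .negSucc 319, .ofNat 249, .ofNat 628, .ofNat 647⟩, ⟨.negSucc 109, .ofNat 23, .negSucc 195, .ofNat 469, .ofNat 450, .ofNat 702⟩, ⟨.ofNat 370, .negSucc 133, .ofNat 1008, .negSucc 550, .negSucc 2083, .negSucc 1937⟩, ⟨.negSucc 338, .ofNat 38, .negSucc 262, .ofNat 447, .negSucc 60, .ofNat 290⟩, .ofNat 2063, .ofNat 3471, .ofNat 0, .ofNat 3471, .ofNat 7245, .ofNat 0, .ofNat 166, .negSucc 612, .negSucc 1014, .ofNat 0, .ofNat 323, .ofNat 503, .ofNat 0, .ofNat 0, .ofNat 722, .ofNat 2402, .ofNat 0,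 .ofNat 0, .ofNat 0, .ofNat 0, .ofNat 195812041714332933023896443097920307200000, .ofNat 0, .ofNat 149242341812693004155943113667379200, .ofNat 0, .ofNat 1375398927687355815375264542058894222950400, .ofNat 0, .ofNat 73535385444802122373823357308108800, .ofNat 0, .ofNat 0, .ofNat 0, .ofNat 197767523357717173924137393350246400, .ofNat 0⟩)
    (by decide +kernel)
theorem L00689 : Good (Phi V4.P V4.D (-1) (-1)) ⟨6, 53, 4, 6, 3, 6, 2, 0, 5, 3⟩ :=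
  leaf_sound (S := T4.ds_mm) T4.ok_mm (w := 208) (c := ⟨⟨.negSucc 848, .negSucc 96, .ofNat 353, .negSucc 788, .negSucc 725, .negSucc 841⟩, ⟨.ofNat 355, .ofNat 65, .negSucc 122, .ofNat 397, .ofNat 337, .ofNat 411⟩, ⟨.ofNat 664, .ofNat 47, .negSucc 177, .ofNat 505, .ofNat 279, .ofNat 455⟩, ⟨.negSucc 1312, .negSucc 92, .ofNat 431, .negSucc 973, .negSucc 1280, .negSucc 1217⟩, ⟨.ofNat 45, .ofNat 32, .negSucc 256, .ofNat 542, .negSucc 303, .ofNat 205⟩, .ofNat 2070, .ofNat 3484, .ofNat 0, .ofNat 3484, .ofNat 7273, .ofNat 0, .ofNat 166, .negSucc 619, .negSucc 964, .ofNat 0, .ofNat 328, .ofNat 480, .ofNat 0, .ofNat 0, .ofNat 700, .ofNat 3625, .ofNat 0, .ofNat 0, .ofNat 0, .ofNat 0, .ofNat 0, .ofNat 0, .ofNat 184150188686249789509675205944934400, .ofNat 0, .ofNat 1921216085400123898910431939272117112012800, .ofNat 0, .ofNat 61895415244296640870924821725184000, .ofNat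 0, .ofNat 0, .ofNat 0, .ofNat 196467437443577196382865688467865600, .ofNat 0⟩)
    (by decide +kernel)
theorem L00690 : Good (Phi V4.P V4.D (-1) (-1)) ⟨6, 53, 4, 7, 3, 6, 2, 0, 5, 2⟩ :=
  leaf_sound (S := T4.ds_mm) T4.ok_mm (w := 200) (c := ⟨⟨.ofNat 1124, .ofNat 62, .ofNat 125, .negSucc 475, .negSucc 1448, .negSucc 1453⟩, ⟨.negSucc 589, .negSucc 41, .negSucc 27, .ofNat 248, .ofNat 725, .ofNat 737⟩, ⟨.negSucc 324, .ofNat 11, .negSucc 71, .ofNat 474, .ofNat 472, .ofNat 744⟩, ⟨.ofNat 1435, .ofNat 89, .ofNat 167, .negSucc 520, .negSucc 2255, .negSucc 2094⟩, ⟨.negSucc 615, .negSucc 23, .negSucc 46, .ofNat 439, .negSucc 16, .ofNat 324⟩, .ofNat 1308, .ofNat 1949, .ofNat 0, .ofNat 1949, .ofNat 4090, .ofNat 0, .ofNat 87, .negSucc 320, .negSucc 538, .ofNat 0, .ofNat 173, .ofNat 273, .ofNat 0, .ofNat 0, .ofNat 368, .ofNat 481, .ofNat 0, .ofNat 0, .ofNat 147748532748914960160222766694400,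 .ofNat 0, .ofNat 0, .ofNat 0, .ofNat 0, .ofNat 0, .ofNat 0, .ofNat 0, .ofNat 0, .ofNat 0, .ofNat 0, .ofNat 0, .ofNat 0, .ofNat 0⟩)
    (by decide +kernel)

end Crest.Agent.R097C4.N4mm
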