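import Crest.Agent.R097.T4

/-!
# Row 97, box cover in dimension n = 4 (generated)
-/

set_option autoImplicit false
set_option Elab.async false
set_option maxHeartbeats 0
set_option maxRecDepth 100000

open Crest.Agent.R097 Crest.Agent.R097.KA


namespace Crest.Agent.R097C4.N4mm

theorem L00691 : Good (Phi V4.P V4.D (-1) (-1)) ⟨6, 53, 4, 7, 3, 6, 2, 0, 5, 3⟩ :=
  leaf_sound (S := T4.ds_mm) T4.ok_mm (w := 208) (c := ⟨⟨.negSucc 499, .negSucc 244, .ofNat 240, .negSucc 696, .negSucc 694, .negSucc 926⟩, ⟨.ofNat 210, .ofNat 141, .negSucc 61, .ofNat 361, .ofNat 339, .ofNat 472⟩, ⟨.ofNat 502, .ofNat 139, .negSucc 124, .ofNat 458, .ofNat 266, .ofNat 466⟩, ⟨.negSucc 905, .negSucc 246, .ofNat 292, .negSucc 833, .negSucc 1230, .negSucc 1320⟩, ⟨.negSucc 205, .ofNat 179, .negSucc 174, .ofNat 494, .negSucc 302, .ofNat 229⟩, .ofNat 2022, .ofNat 3312, .ofNat 0, .ofNat 3312,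 .ofNat 6728, .ofNat 0, .ofNat 147, .negSucc 632, .negSucc 992, .ofNat 0, .ofNat 340, .ofNat 510, .ofNat 0, .ofNat 0, .ofNat 708, .ofNat 950, .ofNat 0, .ofNat 0, .ofNat 0, .ofNat 0, .ofNat 0, .ofNat 0, .ofNat 0, .ofNat 0, .ofNat 1762439890274420348628632271743425393459200, .ofNat 0, .ofNat 15052459312080039183456610654617600, .ofNat 0, .ofNat 0, .ofNat 0, .ofNat 0, .ofNat 0⟩)
    (by decide +kernel)
theorem L00692 : Good (Phi V4.P V4.D (-1) (-1)) ⟨6, 52, 3, 3, 3, 7, 2, 0, 5, 2⟩ :=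
  leaf_sound (S := T4.ds_mm) T4.ok_mm (w := 200) (c := ⟨⟨.ofNat 622, .negSucc 108, .ofNat 636, .negSucc 573, .negSucc 1471, .negSucc 1576⟩, ⟨.negSucc 318, .ofNat 77, .negSucc 266, .ofNat 276, .ofNat 684, .ofNat 738⟩, ⟨.ofNat 209, .ofNat 116, .negSucc 119, .ofNat 883, .ofNat 209, .ofNat 738⟩, ⟨.ofNat 932, .negSucc 118, .ofNat 797, .negSucc 800, .negSucc 2267, .negSucc 2360⟩, ⟨.negSucc 54, .ofNat 31, .negSucc 461, .ofNat 231, .ofNat 113, .ofNat 286⟩, .ofNat 1482, .ofNat 2396, .ofNat 0, .ofNat 2396, .ofNat 5298, .ofNat 0, .ofNat 99, .negSucc 378, .negSucc 523, .ofNat 0, .ofNat 193, .ofNat 247, .ofNat 0, .ofNat 0, .ofNat 352, .ofNat 1122, .ofNat 0, .ofNat 0, .ofNat 0, .ofNat 0, .ofNat 0, .ofNat 0, .ofNat 0, .ofNat 0, .ofNat 97301603022444595324579536056240780083200, .ofNat 0, .ofNat 2154595202990925257663516875161600, .ofNat 0, .ofNat 0, .ofNat 0, .ofNat 0, .ofNat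 0⟩)
    (by decide +kernel)
theorem L00693 : Good (Phi V4.P V4.D (-1) (-1)) ⟨6, 52, 3, 3, 3, 7, 2, 0, 5, 3⟩ :=
  leaf_sound (S := T4.ds_mm) T4.ok_mm (w := 200) (c := ⟨⟨.negSucc 1433, .negSucc 451, .ofNat 1108, .negSucc 638, .negSucc 489, .negSucc 780⟩, ⟨.ofNat 624, .ofNat 256, .negSucc 426, .ofNat 304, .ofNat 211, .ofNat 370⟩, ⟨.ofNat 1078, .ofNat 315, .negSucc 488, .ofNat 914, .negSucc 45, .ofNat 343⟩, ⟨.negSucc 2071, .negSucc 576, .ofNat 1553, .negSucc 905, .negSucc 986, .negSucc 1139⟩, ⟨.ofNat 529, .ofNat 143, .negSucc 483, .ofNat 223, .negSucc 466, .ofNat 198⟩, .ofNat 1069, .ofNat 1552, .ofNat 0, .ofNat 1552, .ofNat 3525, .ofNat 0, .ofNat 219, .negSucc 750, .negSucc 983, .ofNat 0, .ofNat 395, .ofNat 468, .ofNat 0, .ofNat 0, .ofNat 684, .ofNat 1197, .ofNat 0, .ofNat 0, .ofNat 0, .ofNat 0, .ofNat 0, .ofNat 0, .ofNat 0, .ofNat 0, .ofNat 0, .ofNat 0, .ofNat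 0, .ofNat 0, .ofNat 0, .ofNat 0, .ofNat 0, .ofNat 0⟩)
    (by decide +kernel)
theorem L00694 : Good (Phi V4.P V4.D (-1) (-1)) ⟨6, 53, 4, 6, 3, 7, 2, 0, 5, 2⟩ :=
  leaf_sound (S := T4.ds_mm) T4.ok_mm (w := 208) (c := ⟨⟨.ofNat 1290, .ofNat 168, .negSucc 397, .negSucc 682, .negSucc 1639, .negSucc 1659⟩, ⟨.negSucc 635, .negSucc 58, .ofNat 199, .ofNat 341, .ofNat 789, .ofNat 808⟩, ⟨.negSucc 67, .negSucc 128, .ofNat 284, .ofNat 889, .ofNat 328, .ofNat 746⟩, ⟨.ofNat 1930, .ofNat 344, .negSucc 662, .negSucc 870, .negSucc 2520, .negSucc 2436⟩, ⟨.negSucc 191, .ofNat 98, .negSucc 63, .ofNat 413, .ofNat 93, .ofNat 331⟩, .ofNat 1593, .ofNat 2541, .ofNat 0, .ofNat 2541, .ofNat 5385, .ofNat 0, .ofNat 94, .negSucc 390, .negSucc 570, .ofNat 0, .ofNat 206, .ofNat 280, .ofNat 0, .ofNat 0, .ofNat 365, .ofNat 1437, .ofNat 0, .ofNat 0, .ofNat 0, .ofNat 0, .ofNat 0, .ofNat 0, .ofNat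 49418554543393290863897816019763200, .ofNat 0, .ofNat 155141872878355910987178525132546323251200, .ofNat 0, .ofNat 32848814566292763129883773213081600, .ofNat 0, .ofNat 0, .ofNat 0, .ofNat 21396714781264179434231588034969600, .ofNat 0⟩)
    (by decide +kernel)
theorem L00695 : Good (Phi V4.P V4.D (-1) (-1)) ⟨6, 53, 4, 7, 3, 7, 2, 0, 5, 2⟩ :=
  leaf_sound (S := T4.ds_mm) T4.ok_mm (w := 208) (c := ⟨⟨.ofNat 1120, .negSucc 388, .ofNat 617, .negSucc 717, .negSucc 1802, .negSucc 1778⟩, ⟨.negSucc 579, .ofNat 208, .negSucc 291, .ofNat 363, .ofNat 905, .ofNat 898⟩, ⟨.ofNat 78, .ofNat 166, .negSucc 148, .ofNat 1005, .ofNat 310, .ofNat 859⟩, ⟨.ofNat 1579, .negSucc 468, .ofNat 752, .negSucc 969, .negSucc 2654, .negSucc 2603⟩, ⟨.negSucc 295, .ofNat 218, .negSucc 412, .ofNat 299, .ofNat 290, .ofNat 316⟩, .ofNat 2008, .ofNat 3284, .ofNat 0, .ofNat 3284, .ofNat 6670, .ofNat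 0, .ofNat 81, .negSucc 392, .negSucc 607, .ofNat 0, .ofNat 210, .ofNat 309, .ofNat 0, .ofNat 0, .ofNat 383, .ofNat 695, .ofNat 0, .ofNat 0, .ofNat 0, .ofNat 0, .ofNat 0, .ofNat 0, .ofNat 0, .ofNat 0, .ofNat 560636094095750393670945029379366636748800, .ofNat 0, .ofNat 5973459656245746070423120065331200, .ofNat 0, .ofNat 0, .ofNat 0, .ofNat 0, .ofNat 0⟩)
    (by decide +kernel)
theorem L00696 : Good (Phi V4.P V4.D (-1) (-1)) ⟨6, 53, 4, 6, 3, 7, 2, 0, 5, 3⟩ :=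
  leaf_sound (S := T4.ds_mm) T4.ok_mm (w := 208) (c := ⟨⟨.negSucc 1682, .negSucc 748, .ofNat 364, .negSucc 704, .negSucc 513, .negSucc 828⟩, ⟨.ofNat 777, .ofNat 417, .negSucc 129, .ofNat 347, .ofNat 230, .ofNat 404⟩, ⟨.ofNat 1222, .ofNat 259, .negSucc 103, .ofNat 970, .negSucc 49, .ofNat 366⟩, ⟨.negSucc 2310, .negSucc 851, .ofNat 442, .negSucc 970, .negSucc 1018, .negSucc 1193⟩, ⟨.ofNat 723, .ofNat 518, .negSucc 303, .ofNat 275, .negSucc 448, .ofNat 215⟩, .ofNat 2054, .ofNat 3452, .ofNat 0, .ofNat 3452, .ofNat 7205, .ofNat 0, .ofNat 92, .negSucc 394, .negSucc 525, .ofNat 0, .ofNat 209, .ofNat 261, .ofNat 0, .ofNat 0, .ofNat 350, .ofNat 1399, .ofNat 0, .ofNat 0, .ofNat 0, .ofNat 0, .ofNat 0, .ofNat 0, .ofNat 49563809951364448787850605258342400, .ofNat 0, .ofNat 261529050836175374101054950049244302540800, .ofNat 0, .ofNat 20778375985958138013645462621388800,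 .ofNat 0, .ofNat 0, .ofNat 0, .ofNat 30068160171759128081709470947737600, .ofNat 0⟩)
    (by decide +kernel)
theorem L00697 : Good (Phi V4.P V4.D (-1) (-1)) ⟨6, 53, 4, 7, 3, 7, 2, 0, 5, 3⟩ :=
  leaf_sound (S := T4.ds_mm) T4.ok_mm (w := 200) (c := ⟨⟨.negSucc 1141, .negSucc 749, .ofNat 618, .negSucc 880, .negSucc 546, .negSucc 834⟩, ⟨.ofNat 537, .ofNat 426, .negSucc 263, .ofNat 449, .ofNat 261, .ofNat 422⟩, ⟨.ofNat 984, .ofNat 180, .ofNat 67, .ofNat 1141, .negSucc 79, .ofNat 369⟩, ⟨.negSucc 1614, .negSucc 826, .ofNat 672, .negSucc 1237, .negSucc 1041, .negSucc 1182⟩, ⟨.ofNat 402, .ofNat 540, .negSucc 614, .ofNat 259, .negSucc 382, .ofNat 228⟩, .ofNat 1316, .ofNat 1961, .ofNat 0, .ofNat 1961, .ofNat 4107, .ofNat 0, .ofNat 94, .negSucc 390, .negSucc 553, .ofNat 0, .ofNat 214, .ofNat 283, .ofNat 0, .ofNat 0, .ofNat 364, .ofNat 820, .ofNat 0, .ofNat 0, .ofNat 0,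 .ofNat 0, .ofNat 0, .ofNat 0, .ofNat 0, .ofNat 0, .ofNat 0, .ofNat 0, .ofNat 7187542525011097709302389512601600, .ofNat 0, .ofNat 0, .ofNat 0, .ofNat 0, .ofNat 0⟩)
    (by decide +kernel)
theorem L00698 : Good (Phi V4.P V4.D (-1) (-1)) ⟨5, 27, 4, 6, 2, 3, 2, 0, 3, 0⟩ :=
  out_sound (S := T4.ds_mm) T4.ok_mm (w := 64) (j := 3) (by decide +kernel)
theorem L00699 : Good (Phi V4.P V4.D (-1) (-1)) ⟨6, 54, 5, 14, 2, 3, 2, 0, 4, 0⟩ :=
  out_sound (S := T4.ds_mm) T4.ok_mm (w := 72) (j := 3) (by decide +kernel)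
theorem L00700 : Good (Phi V4.P V4.D (-1) (-1)) ⟨6, 54, 5, 15, 3, 6, 2, 0, 4, 0⟩ :=
  leaf_sound (S := T4.ds_mm) T4.ok_mm (w := 208) (c := ⟨⟨.ofNat 2500, .ofNat 194, .ofNat 284, .negSucc 240, .negSucc 1375, .negSucc 1394⟩, ⟨.negSucc 1302, .negSucc 132, .negSucc 154, .ofNat 137, .ofNat 713, .ofNat 719⟩, ⟨.negSucc 1145, .negSucc 105, .negSucc 91, .ofNat 569, .ofNat 238, .ofNat 806⟩, ⟨.ofNat 3738, .ofNat 246, .ofNat 359, .negSucc 49, .negSucc 2255, .negSucc 2348⟩, ⟨.negSucc 210, .negSucc 23, .negSucc 143, .ofNat 614, .negSucc 273, .negSucc 392⟩, .ofNat 3783, .ofNat 6495, .ofNat 0, .ofNat 6495, .ofNat 12446, .ofNat 0, .ofNat 119, .negSucc 614, .negSucc 897, .ofNat 0, .ofNat 336, .ofNat 475, .ofNat 0, .ofNat 0, .ofNat 663, .ofNat 801, .ofNat 0, .ofNat 0, .ofNat 139622126094702679297050751795200, .ofNat 0, .ofNat 0, .ofNat 0, .ofNat 36832027520559274525004510999347200,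 .ofNat 0, .ofNat 1459875675367616451590541058276038436454400, .ofNat 0, .ofNat 7699027134660120821030578657689600, .ofNat 0, .ofNat 0, .ofNat 0, .ofNat 24518457995131121364751525871616000, .ofNat 0⟩)
    (by decide +kernel)
theorem L00701 : Good (Phi V4.P V4.D (-1) (-1)) ⟨6, 54, 5, 15, 3, 7, 2, 0, 4, 0⟩ :=
  leaf_sound (S := T4.ds_mm) T4.ok_mm (w := 208) (c := ⟨⟨.ofNat 2479, .ofNat 1029, .ofNat 367, .ofNat 0, .negSucc 1881, .negSucc 1470⟩, ⟨.negSucc 1260, .negSucc 545, .negSucc 218, .ofNat 11, .ofNat 984, .ofNat 747⟩, ⟨.negSucc 552, .negSucc 331, .negSucc 94, .ofNat 692, .ofNat 162, .ofNat 822⟩, ⟨.ofNat 4071, .ofNat 1324, .ofNat 519, .ofNat 323, .negSucc 2870, .negSucc 2758⟩, ⟨.ofNat 498, .negSucc 448, .negSucc 82, .ofNat 617, .ofNat 38, .negSucc 954⟩, .ofNat 2459, .ofNat 4029, .ofNat 0, .ofNat 4029, .ofNat 7837, .ofNat 0, .ofNat 140, .negSucc 733, .negSucc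 950, .ofNat 0, .ofNat 402, .ofNat 497, .ofNat 0, .ofNat 0, .ofNat 679, .ofNat 2693, .ofNat 0, .ofNat 0, .ofNat 0, .ofNat 0, .ofNat 0, .ofNat 0, .ofNat 31829563126485684610316292744806400, .ofNat 0, .ofNat 270446226795793513612382852446833711513600, .ofNat 0, .ofNat 5313083304489636011595643905638400, .ofNat 0, .ofNat 0, .ofNat 0, .ofNat 5809069434524525795611915164057600, .ofNat 0⟩)
    (by decide +kernel)
theorem L00702 : Good (Phi V4.P V4.D (-1) (-1)) ⟨7, 108, 5, 14, 2, 3, 2, 0, 4, 1⟩ :=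
  out_sound (S := T4.ds_mm) T4.ok_mm (w := 80) (j := 3) (by decide +kernel)
theorem L00703 : Good (Phi V4.P V4.D (-1) (-1)) ⟨8, 216, 6, 30, 3, 6, 2, 0, 4, 1⟩ :=
  out_sound (S := T4.ds_mm) T4.ok_mm (w := 88) (j := 3) (by decide +kernel)
theorem L00704 : Good (Phi V4.P V4.D (-1) (-1)) ⟨8, 216, 6, 31, 3, 6, 2, 0, 4, 1⟩ :=
  leaf_sound (S := T4.ds_mm) T4.ok_mm (w := 216) (c := ⟨⟨.ofNat 1320, .ofNat 277, .negSucc 316, .negSucc 396, .negSucc 1187, .negSucc 2712⟩, ⟨.negSucc 711, .negSucc 145, .ofNat 178, .ofNat 215, .ofNat 618, .ofNat 1432⟩, ⟨.negSucc 350, .negSucc 45, .ofNat 59, .ofNat 461, .ofNat 388, .ofNat 1339⟩, ⟨.ofNat 1642, .ofNat 385, .negSucc 428, .negSucc 404, .negSucc 1876, .negSucc 3787⟩, ⟨.negSucc 735, .negSucc 87, .ofNat 113, .ofNat 396, .negSucc 99, .ofNat 724⟩, .ofNat 3337, .ofNat 5665, .ofNat 0, .ofNat 5665, .ofNat 10895, .ofNat 0, .ofNat 61, .negSucc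 342, .negSucc 553, .ofNat 0, .ofNat 188, .ofNat 295, .ofNat 0, .ofNat 0, .ofNat 365, .ofNat 1014, .ofNat 0, .ofNat 0, .ofNat 0, .ofNat 0, .ofNat 0, .ofNat 0, .ofNat 0, .ofNat 0, .ofNat 245423424306194819876854064605012371387187200, .ofNat 0, .ofNat 65013450811039484266986602496000, .ofNat 0, .ofNat 0, .ofNat 0, .ofNat 0, .ofNat 0⟩)
    (by decide +kernel)
theorem L00705 : Good (Phi V4.P V4.D (-1) (-1)) ⟨8, 217, 5, 15, 3, 6, 2, 0, 4, 1⟩ :=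
  out_sound (S := T4.ds_mm) T4.ok_mm (w := 80) (j := 3) (by decide +kernel)
theorem L00706 : Good (Phi V4.P V4.D (-1) (-1)) ⟨8, 216, 5, 15, 3, 7, 2, 0, 4, 1⟩ :=
  leaf_sound (S := T4.ds_mm) T4.ok_mm (w := 216) (c := ⟨⟨.negSucc 87, .negSucc 160, .ofNat 1064, .negSucc 743, .negSucc 1232, .negSucc 2734⟩, ⟨.ofNat 27, .ofNat 93, .negSucc 542, .ofNat 394, .ofNat 645, .ofNat 1442⟩, ⟨.ofNat 568, .ofNat 26, .negSucc 390, .ofNat 1076, .ofNat 137, .ofNat 1297⟩, ⟨.negSucc 31, .negSucc 156, .ofNat 1381, .negSucc 1014, .negSucc 1901, .negSucc 3900⟩, ⟨.ofNat 217, .ofNat 152, .negSucc 495, .ofNat 243, .negSucc 17, .ofNat 574⟩, .ofNat 3340, .ofNat 5668, .ofNat 0, .ofNat 5668, .ofNat 10897, .ofNat 0, .ofNat 67, .negSucc 403, .negSucc 623, .ofNat 0, .ofNat 221, .ofNat 331, .ofNat 0, .ofNat 0, .ofNat 387, .ofNat 666, .ofNat 0, .ofNat 0, .ofNat 2413934857112238662572258099200,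 .ofNat 0, .ofNat 0, .ofNat 0, .ofNat 459189941599003226651644605235200, .ofNat 0, .ofNat 122554416359764934747209315977691984507699200, .ofNat 0, .ofNat 117426918633942749027323871232000, .ofNat 0, .ofNat 0, .ofNat 0, .ofNat 0, .ofNat 0⟩)
    (by decide +kernel)
theorem L00707 : Good (Phi V4.P V4.D (-1) (-1)) ⟨8, 217, 5, 15, 3, 7, 2, 0, 4, 1⟩ :=
  out_sound (S := T4.ds_mm) T4.ok_mm (w := 80) (j := 3) (by decide +kernel)
theorem L00708 : Good (Phi V4.P V4.D (-1) (-1)) ⟨7, 109, 4, 7, 2, 3, 2, 0, 4, 1⟩ :=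
  out_sound (S := T4.ds_mm) T4.ok_mm (w := 72) (j := 3) (by decide +kernel)
theorem L00709 : Good (Phi V4.P V4.D (-1) (-1)) ⟨6, 55, 4, 7, 2, 3, 2, 0, 3, 0⟩ :=
  out_sound (S := T4.ds_mm) T4.ok_mm (w := 72) (j := 3) (by decide +kernel)
theorem L00710 : Good (Phi V4.P V4.D (-1) (-1)) ⟨4, 12, 3, 3, 3, 6, 3, 0, 3, 1⟩ :=
  leaf_sound (S := T4.ds_mm) T4.ok_mm (w := 192) (c := ⟨⟨.negSucc 1114, .negSucc 786, .ofNat 872, .negSucc 311, .negSucc 56, .ofNat 291⟩, ⟨.ofNat 436, .ofNat 403, .negSucc 256, .ofNat 139, .ofNat 16, .negSucc 163⟩, ⟨.ofNat 809, .ofNat 400, .negSucc 417, .ofNat 244, .negSucc 18, .ofNat 74⟩, ⟨.negSucc 1929, .negSucc 952, .ofNat 1105, .negSucc 461, .negSucc 199, .negSucc 4⟩, ⟨.ofNat 62, .ofNat 291, .negSucc 583, .ofNat 90, .negSucc 248, .negSucc 1083⟩, .ofNat 1769, .ofNat 3119, .ofNat 0, .ofNat 3119, .ofNat 7156, .ofNat 0, .ofNat 170, .negSucc 501,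 .negSucc 431, .ofNat 0, .ofNat 254, .ofNat 200, .ofNat 0, .ofNat 0, .ofNat 516, .ofNat 4851, .ofNat 21694002903910086033895250497162444800, .ofNat 0, .ofNat 485627364474854532020111514009600, .ofNat 0, .ofNat 0, .ofNat 0, .ofNat 0, .ofNat 0, .ofNat 45360019848770506984005193650772377600, .ofNat 0, .ofNat 7672936579182126449595346688409600, .ofNat 0, .ofNat 271545668516816365205379495711316377600, .ofNat 0, .ofNat 12517706735504161671624244435353600, .ofNat 0⟩)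
    (by decide +kernel)
theorem L00711 : Good (Phi V4.P V4.D (-1) (-1)) ⟨4, 12, 3, 3, 3, 7, 3, 0, 3, 1⟩ :=
  leaf_sound (S := T4.ds_mm) T4.ok_mm (w := 192) (c := ⟨⟨.negSucc 2147, .negSucc 419, .ofNat 222, .negSucc 159, .ofNat 8, .ofNat 1004⟩, ⟨.ofNat 919, .ofNat 228, .ofNat 77, .ofNat 57, .negSucc 9, .negSucc 511⟩, ⟨.ofNat 1361, .ofNat 255, .negSucc 3, .ofNat 787, .negSucc 184, .negSucc 150⟩, ⟨.negSucc 3364, .negSucc 309, .ofNat 230, .negSucc 440, .negSucc 77, .ofNat 689⟩, ⟨.ofNat 610, .ofNat 368, .negSucc 298, .negSucc 423, .negSucc 205, .negSucc 2106⟩, .ofNat 1023, .ofNat 1517, .ofNat 0, .ofNat 1517, .ofNat 3645, .ofNat 0, .ofNat 208, .negSucc 560, .negSucc 362, .ofNat 0, .ofNat 300, .ofNat 165, .ofNat 0, .ofNat 0, .ofNat 518, .ofNat 3214, .ofNat 0, .ofNat 0, .ofNat 0, .ofNat 0, .ofNat 0, .ofNat 0, .ofNat 0, .ofNat 0, .ofNat 119420964891844775172094020249924403200,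 .ofNat 0, .ofNat 3811434934322150901335001032294400, .ofNat 0, .ofNat 0, .ofNat 0, .ofNat 10589133735538131674660319579340800, .ofNat 0⟩)
    (by decide +kernel)
theorem L00712 : Good (Phi V4.P V4.D (-1) (-1)) ⟨5, 26, 3, 3, 3, 6, 3, 0, 4, 2⟩ :=
  leaf_sound (S := T4.ds_mm) T4.ok_mm (w := 200) (c := ⟨⟨.negSucc 1682, .negSucc 570, .ofNat 468, .negSucc 599, .negSucc 66, .negSucc 28⟩, ⟨.ofNat 724, .ofNat 326, .negSucc 90, .ofNat 298, .ofNat 24, .negSucc 2⟩, ⟨.ofNat 1099, .ofNat 293, .negSucc 252, .ofNat 365, .ofNat 20, .ofNat 114⟩, ⟨.negSucc 2620, .negSucc 631, .ofNat 612, .negSucc 745, .negSucc 228, .negSucc 256⟩, ⟨.ofNat 155, .ofNat 326, .negSucc 285, .ofNat 411, .negSucc 261, .negSucc 439⟩, .ofNat 1155, .ofNat 1691, .ofNat 0, .ofNat 1691, .ofNat 3707, .ofNat 0, .ofNat 185, .negSucc 592, .negSucc 662, .ofNat 0, .ofNat 321, .ofNat 331, .ofNat 0, .ofNat 0, .ofNat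 579, .ofNat 1538, .ofNat 0, .ofNat 0, .ofNat 0, .ofNat 0, .ofNat 0, .ofNat 0, .ofNat 0, .ofNat 0, .ofNat 12059744036850722086649754617887535923200, .ofNat 0, .ofNat 10768662184306781941307257179340800, .ofNat 0, .ofNat 0, .ofNat 0, .ofNat 0, .ofNat 0⟩)
    (by decide +kernel)
theorem L00713 : Good (Phi V4.P V4.D (-1) (-1)) ⟨5, 26, 4, 6, 3, 7, 3, 0, 4, 2⟩ :=
  leaf_sound (S := T4.ds_mm) T4.ok_mm (w := 200) (c := ⟨⟨.negSucc 2628, .negSucc 936, .ofNat 500, .negSucc 245, .negSucc 22, .ofNat 541⟩, ⟨.ofNat 1192, .ofNat 533, .negSucc 174, .ofNat 103, .ofNat 2, .negSucc 293⟩, ⟨.ofNat 1510, .ofNat 297, .negSucc 46, .ofNat 954, .negSucc 181, .negSucc 56⟩, ⟨.negSucc 3685, .negSucc 921, .ofNat 567, .negSucc 521, .negSucc 146, .ofNat 314⟩, ⟨.ofNat 1113, .ofNat 892, .negSucc 502, .negSucc 300, .negSucc 232, .negSucc 1164⟩, .ofNat 1758, .ofNat 2941, .ofNat 0, .ofNat 2941,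 .ofNat 6380, .ofNat 0, .ofNat 190, .negSucc 717, .negSucc 584, .ofNat 0, .ofNat 382, .ofNat 283, .ofNat 0, .ofNat 0, .ofNat 571, .ofNat 1381, .ofNat 0, .ofNat 0, .ofNat 0, .ofNat 0, .ofNat 0, .ofNat 0, .ofNat 130158063829566940608463911675494400, .ofNat 0, .ofNat 60003026593992854866508569021011669811200, .ofNat 0, .ofNat 102907016956482876872894110393958400, .ofNat 0, .ofNat 0, .ofNat 0, .ofNat 85023787818199647767729855791104000, .ofNat 0⟩)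
    (by decide +kernel)
theorem L00714 : Good (Phi V4.P V4.D (-1) (-1)) ⟨5, 26, 4, 7, 3, 7, 3, 0, 4, 2⟩ :=
  leaf_sound (S := T4.ds_mm) T4.ok_mm (w := 200) (c := ⟨⟨.negSucc 2013, .negSucc 1232, .ofNat 775, .negSucc 253, .negSucc 74, .ofNat 698⟩, ⟨.ofNat 947, .ofNat 692, .negSucc 324, .ofNat 115, .ofNat 36, .negSucc 379⟩, ⟨.ofNat 1445, .ofNat 381, .negSucc 194, .ofNat 1086, .negSucc 209, .negSucc 157⟩, ⟨.negSucc 2960, .negSucc 1287, .ofNat 893, .negSucc 609, .negSucc 165, .ofNat 458⟩, ⟨.ofNat 525, .ofNat 1005, .negSucc 633, .negSucc 422, .negSucc 101, .negSucc 1256⟩, .ofNat 1980, .ofNat 3240, .ofNat 0, .ofNat 3240, .ofNat 6610, .ofNat 0, .ofNat 165, .negSucc 744, .negSucc 643, .ofNat 0, .ofNat 409, .ofNat 330, .ofNat 0, .ofNat 0, .ofNat 589, .ofNat 3739, .ofNat 0, .ofNat 0, .ofNat 0, .ofNat 0, .ofNat 0, .ofNat 0, .ofNat 146306913208531841756097190821888000,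 .ofNat 0, .ofNat 72247589105379996913517962726092885196800, .ofNat 0, .ofNat 65741684083179828126585913029427200, .ofNat 0, .ofNat 0, .ofNat 0, .ofNat 55068030850124155928163594220339200, .ofNat 0⟩)
    (by decide +kernel)
theorem L00715 : Good (Phi V4.P V4.D (-1) (-1)) ⟨5, 26, 3, 3, 2, 3, 3, 0, 4, 3⟩ :=
  leaf_sound (S := T4.ds_mm) T4.ok_mm (w := 192) (c := ⟨⟨.negSucc 2194, .negSucc 170, .ofNat 326, .ofNat 61, .ofNat 38, .ofNat 604⟩, ⟨.ofNat 976, .ofNat 75, .ofNat 27, .negSucc 68, .negSucc 15, .negSucc 328⟩, ⟨.ofNat 1290, .ofNat 177, .negSucc 206, .ofNat 1012, .negSucc 298, .negSucc 59⟩, ⟨.negSucc 3268, .negSucc 198, .ofNat 346, .negSucc 456, .ofNat 71, .ofNat 358⟩, ⟨.ofNat 346, .negSucc 94, .negSucc 120, .negSucc 1141, .ofNat 23, .negSucc 1187⟩, .ofNat 1167, .ofNat 1709, .ofNat 0, .ofNat 1709, .ofNat 3721, .ofNat 0, .ofNat 360, .negSucc 1010, .negSucc 702,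 .ofNat 0, .ofNat 575, .ofNat 357, .ofNat 0, .ofNat 0, .ofNat 1015, .ofNat 4878, .ofNat 0, .ofNat 0, .ofNat 0, .ofNat 0, .ofNat 0, .ofNat 0, .ofNat 392108987922345331228633831833600, .ofNat 0, .ofNat 0, .ofNat 0, .ofNat 99586173550560266754499962470400, .ofNat 0, .ofNat 0, .ofNat 0, .ofNat 128545693720653679341424607232000, .ofNat 0⟩)
    (by decide +kernel)
theorem L00716 : Good (Phi V4.P V4.D (-1) (-1)) ⟨5, 27, 4, 6, 2, 3, 3, 0, 3, 1⟩ :=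
  out_sound (S := T4.ds_mm) T4.ok_mm (w := 64) (j := 3) (by decide +kernel)
theorem L00717 : Good (Phi V4.P V4.D (-1) (-1)) ⟨6, 54, 4, 7, 3, 6, 3, 0, 4, 2⟩ :=
  leaf_sound (S := T4.ds_mm) T4.ok_mm (w := 208) (c := ⟨⟨.negSucc 2276, .negSucc 752, .ofNat 502, .negSucc 561, .negSucc 78, .ofNat 56⟩, ⟨.ofNat 1138, .ofNat 429, .negSucc 204, .ofNat 302, .ofNat 36, .negSucc 39⟩, ⟨.ofNat 1352, .ofNat 320, .negSucc 210, .ofNat 359, .ofNat 22, .ofNat 78⟩, ⟨.negSucc 3232, .negSucc 849, .ofNat 604, .negSucc 641, .negSucc 263, .negSucc 179⟩, ⟨.ofNat 525, .ofNat 476, .negSucc 325, .ofNat 424, .negSucc 273, .negSucc 510⟩, .ofNat 3825, .ofNat 6577, .ofNat 0, .ofNat 6577, .ofNat 12607, .ofNat 0, .ofNat 118, .negSucc 631, .negSucc 748, .ofNat 0, .ofNat 348, .ofNat 400, .ofNat 0, .ofNat 0, .ofNat 603, .ofNat 5814, .ofNat 0, .ofNat 0, .ofNat 0, .ofNat 0, .ofNat 50964913987712653968154062714098103091200,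 .ofNat 0, .ofNat 97775580718799502013039911528038400, .ofNat 0, .ofNat 986992371086197777233489738249979664793600, .ofNat 0, .ofNat 39843927462506972022467948917555200, .ofNat 0, .ofNat 0, .ofNat 0, .ofNat 85923345960469569426782142490214400, .ofNat 0⟩)
    (by decide +kernel)
theorem L00718 : Good (Phi V4.P V4.D (-1) (-1)) ⟨6, 54, 4, 7, 3, 7, 3, 0, 4, 2⟩ :=
  leaf_sound (S := T4.ds_mm) T4.ok_mm (w := 208) (c := ⟨⟨.negSucc 3327, .negSucc 819, .ofNat 791, .negSucc 145, .negSucc 72, .ofNat 738⟩, ⟨.ofNat 1698, .ofNat 465, .negSucc 350, .ofNat 63, .ofNat 35, .negSucc 410⟩, ⟨.ofNat 2006, .ofNat 467, .negSucc 435, .ofNat 1154, .negSucc 213, .negSucc 158⟩, ⟨.negSucc 4320, .negSucc 954, .ofNat 984, .negSucc 554, .negSucc 189, .ofNat 435⟩, ⟨.ofNat 1541, .ofNat 458, .negSucc 455, .negSucc 630, .negSucc 150, .negSucc 1339⟩, .ofNat 3305, .ofNat 5606, .ofNat 0, .ofNat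 5606, .ofNat 10785, .ofNat 0, .ofNat 135, .negSucc 767, .negSucc 693, .ofNat 0, .ofNat 428, .ofNat 371, .ofNat 0, .ofNat 0, .ofNat 598, .ofNat 3606, .ofNat 0, .ofNat 0, .ofNat 0, .ofNat 0, .ofNat 0, .ofNat 0, .ofNat 73617742887723623530720692220723200, .ofNat 0, .ofNat 1205231944021410726989562743128796744908800, .ofNat 0, .ofNat 38555029143674256424740708365107200, .ofNat 0, .ofNat 0, .ofNat 0, .ofNat 34204056414393339695638717975756800, .ofNat 0⟩)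
    (by decide +kernel)
theorem L00719 : Good (Phi V4.P V4.D (-1) (-1)) ⟨6, 55, 4, 7, 2, 3, 3, 0, 4, 2⟩ :=
  out_sound (S := T4.ds_mm) T4.ok_mm (w := 72) (j := 3) (by decide +kernel)
theorem L00720 : Good (Phi V4.P V4.D (-1) (-1)) ⟨5, 27, 4, 7, 2, 3, 3, 0, 4, 3⟩ :=
  leaf_sound (S := T4.ds_mm) T4.ok_mm (w := 192) (c := ⟨⟨.negSucc 2224, .negSucc 107, .ofNat 108, .ofNat 230, .ofNat 68, .ofNat 583⟩, ⟨.ofNat 1070, .ofNat 27, .ofNat 50, .negSucc 148, .negSucc 36, .negSucc 327⟩, ⟨.ofNat 1864, .ofNat 631, .negSucc 687, .ofNat 1053, .negSucc 294, .negSucc 50⟩, ⟨.negSucc 3528, .negSucc 522, .ofNat 483, .negSucc 394, .ofNat 74, .ofNat 271⟩, ⟨.negSucc 254, .negSucc 797, .ofNat 657, .negSucc 1432, .negSucc 56, .negSucc 1194⟩, .ofNat 2474, .ofNat 4058, .ofNat 0, .ofNat 4058, .ofNat 7889, .ofNat 0, .ofNat 128, .negSucc 532, .negSucc 349, .ofNat 0, .ofNat 303, .ofNat 188,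 .ofNat 0, .ofNat 0, .ofNat 508, .ofNat 2838, .ofNat 10163639512457235320566823615515852800, .ofNat 0, .ofNat 4540849360227166292750735769600, .ofNat 0, .ofNat 0, .ofNat 0, .ofNat 536420399337385784486800234905600, .ofNat 0, .ofNat 0, .ofNat 0, .ofNat 288438364763912773446641123328000, .ofNat 0, .ofNat 23890332819076579484859375453575577600, .ofNat 0, .ofNat 176200747537397086906289750016000, .ofNat 0⟩)
    (by decide +kernel)
theorem L00721 : Good (Phi V4.P V4.D (-1) (-1)) ⟨4, 12, 3, 3, 2, 3, 3, 1, 3, 1⟩ :=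
  leaf_sound (S := T4.ds_mm) T4.ok_mm (w := 184) (c := ⟨⟨.negSucc 1757, .negSucc 525, .negSucc 124, .negSucc 413, .ofNat 99, .ofNat 945⟩, ⟨.ofNat 728, .ofNat 280, .ofNat 235, .ofNat 176, .negSucc 53, .negSucc 472⟩, ⟨.ofNat 1520, .negSucc 197, .ofNat 114, .ofNat 745, .negSucc 181, .negSucc 352⟩, ⟨.negSucc 3026, .negSucc 443, .negSucc 79, .negSucc 708, .ofNat 55, .ofNat 796⟩, ⟨.negSucc 98, .ofNat 499, .ofNat 359, .negSucc 108, .negSucc 236, .negSucc 1633⟩, .ofNat 1384, .ofNat 2280, .ofNat 0, .ofNat 2280, .ofNat 5301, .ofNat 0, .ofNat 184, .negSucc 504, .negSucc 457, .ofNat 0, .ofNat 262, .ofNat 212, .ofNat 0, .ofNat 0, .ofNat 540, .ofNat 1495, .ofNat 0, .ofNat 0, .ofNat 384089519729270784893386752000, .ofNat 0, .ofNat 0, .ofNat 0, .ofNat 0, .ofNat 0, .ofNat 0, .ofNat 0, .ofNat 24528288827005649728762281984000, .ofNat 0, .ofNat 0, .ofNat 0, .ofNat 41043782596101668113239716659200,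 .ofNat 0⟩)
    (by decide +kernel)
theorem L00722 : Good (Phi V4.P V4.D (-1) (-1)) ⟨4, 13, 3, 3, 3, 6, 3, 1, 4, 2⟩ :=
  leaf_sound (S := T4.ds_mm) T4.ok_mm (w := 192) (c := ⟨⟨.negSucc 1890, .negSucc 686, .ofNat 243, .negSucc 428, .negSucc 9, .ofNat 126⟩, ⟨.ofNat 814, .ofNat 396, .ofNat 43, .ofNat 210, .negSucc 4, .negSucc 74⟩, ⟨.ofNat 1205, .ofNat 355, .negSucc 131, .ofNat 258, .negSucc 16, .ofNat 15⟩, ⟨.negSucc 3019, .negSucc 731, .ofNat 330, .negSucc 578, .negSucc 139, .negSucc 17⟩, ⟨.negSucc 10, .ofNat 298, .negSucc 110, .ofNat 194, .negSucc 260, .negSucc 457⟩, .ofNat 633, .ofNat 693, .ofNat 0, .ofNat 693, .ofNat 1684, .ofNat 0, .ofNat 246, .negSucc 515, .negSucc 743, .ofNat 0, .ofNat 301, .ofNat 370, .ofNat 0, .ofNat 0, .ofNat 637, .ofNat 1608, .ofNat 0, .ofNat 0, .ofNat 1424931516066146795546187556454400, .ofNat 0, .ofNat 0, .ofNat 0, .ofNat 0, .ofNat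 0, .ofNat 0, .ofNat 0, .ofNat 77727131630566428133808328513945600, .ofNat 0, .ofNat 0, .ofNat 0, .ofNat 108299372887467042610055121941299200, .ofNat 0⟩)
    (by decide +kernel)
theorem L00723 : Good (Phi V4.P V4.D (-1) (-1)) ⟨4, 13, 3, 3, 3, 7, 3, 1, 4, 2⟩ :=
  leaf_sound (S := T4.ds_mm) T4.ok_mm (w := 192) (c := ⟨⟨.negSucc 2867, .negSucc 1195, .ofNat 757, .negSucc 119, .ofNat 149, .ofNat 743⟩, ⟨.ofNat 1294, .ofNat 698, .negSucc 215, .ofNat 55, .negSucc 85, .negSucc 392⟩, ⟨.ofNat 1683, .ofNat 655, .negSucc 312, .ofNat 641, .negSucc 216, .negSucc 274⟩, ⟨.negSucc 4203, .negSucc 1282, .ofNat 965, .negSucc 231, .ofNat 36, .ofNat 639⟩, ⟨.ofNat 711, .ofNat 730, .negSucc 479, .negSucc 83, .negSucc 392, .negSucc 1054⟩, .ofNat 641, .ofNat 707, .ofNat 0, .ofNat 707, .ofNat 1696, .ofNat 0, .ofNat 262, .negSucc 625, .negSucc 730, .ofNat 0, .ofNat 370, .ofNat 365, .ofNat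 0, .ofNat 0, .ofNat 619, .ofNat 814, .ofNat 0, .ofNat 0, .ofNat 591604122808255510786689780940800, .ofNat 0, .ofNat 0, .ofNat 0, .ofNat 0, .ofNat 0, .ofNat 0, .ofNat 0, .ofNat 86194207708627646224062559656345600, .ofNat 0, .ofNat 0, .ofNat 0, .ofNat 88542757302291434662246507924684800, .ofNat 0⟩)
    (by decide +kernel)
theorem L00724 : Good (Phi V4.P V4.D (-1) (-1)) ⟨5, 26, 3, 3, 2, 3, 3, 1, 4, 3⟩ :=
  leaf_sound (S := T4.ds_mm) T4.ok_mm (w := 184) (c := ⟨⟨.negSucc 2151, .negSucc 163, .ofNat 330, .ofNat 111, .ofNat 144, .ofNat 544⟩, ⟨.ofNat 943, .ofNat 59, .ofNat 34, .negSucc 75, .negSucc 76, .negSucc 288⟩, ⟨.ofNat 1265, .ofNat 15, .ofNat 7, .ofNat 651, .negSucc 204, .negSucc 270⟩, ⟨.negSucc 3393, .negSucc 146, .ofNat 323, .negSucc 221, .ofNat 97, .ofNat 465⟩, ⟨.negSucc 47, .ofNat 65, .negSucc 220, .negSucc 835, .negSucc 269, .negSucc 798⟩, .ofNat 1187, .ofNat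 1749, .ofNat 0, .ofNat 1749, .ofNat 3799, .ofNat 0, .ofNat 175, .negSucc 473, .negSucc 400, .ofNat 0, .ofNat 269, .ofNat 204, .ofNat 0, .ofNat 0, .ofNat 521, .ofNat 1953, .ofNat 0, .ofNat 0, .ofNat 0, .ofNat 0, .ofNat 0, .ofNat 0, .ofNat 106563410405615669462784855244800, .ofNat 0, .ofNat 0, .ofNat 0, .ofNat 34726807230025601261618646220800, .ofNat 0, .ofNat 0, .ofNat 0, .ofNat 52575570424562768134247389593600, .ofNat 0⟩)
    (by decide +kernel)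
theorem L00725 : Good (Phi V4.P V4.D (-1) (-1)) ⟨5, 27, 4, 6, 2, 3, 3, 1, 4, 3⟩ :=
  out_sound (S := T4.ds_mm) T4.ok_mm (w := 64) (j := 3) (by decide +kernel)
theorem L00726 : Good (Phi V4.P V4.D (-1) (-1)) ⟨6, 54, 4, 7, 2, 3, 3, 1, 4, 3⟩ :=
  leaf_sound (S := T4.ds_mm) T4.ok_mm (w := 200) (c := ⟨⟨.negSucc 2192, .ofNat 38, .ofNat 126, .ofNat 200, .ofNat 142, .ofNat 611⟩, ⟨.ofNat 1057, .negSucc 35, .ofNat 27, .negSucc 121, .negSucc 77, .negSucc 336⟩, ⟨.ofNat 1155, .ofNat 155, .ofNat 101, .ofNat 596, .negSucc 207, .negSucc 227⟩, ⟨.negSucc 3269, .ofNat 72, .ofNat 19, .negSucc 170, .ofNat 105, .ofNat 446⟩, ⟨.ofNat 153, .negSucc 23, .negSucc 293, .negSucc 913, .negSucc 215, .negSucc 941⟩, .ofNat 3354, .ofNat 5697, .ofNat 0, .ofNat 5697, .ofNat 10953, .ofNat 0, .ofNat 115, .negSucc 501, .negSucc 428, .ofNat 0, .ofNat 282, .ofNat 231, .ofNat 0, .ofNat 0, .ofNat 525,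 .ofNat 2296, .ofNat 0, .ofNat 0, .ofNat 0, .ofNat 0, .ofNat 0, .ofNat 0, .ofNat 136249149139448190680797544448000, .ofNat 0, .ofNat 0, .ofNat 0, .ofNat 80407007410843736401181147136000, .ofNat 0, .ofNat 0, .ofNat 0, .ofNat 70901488765695062476266563174400, .ofNat 0⟩)
    (by decide +kernel)
theorem L00727 : Good (Phi V4.P V4.D (-1) (-1)) ⟨6, 55, 4, 7, 2, 3, 3, 1, 4, 3⟩ :=
  out_sound (S := T4.ds_mm) T4.ok_mm (w := 72) (j := 3) (by decide +kernel)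
theorem L00728 : Good (Phi V4.P V4.D (-1) (-1)) ⟨5, 24, 3, 3, 2, 2, 2, 1, 3, 0⟩ :=
  out_sound (S := T4.ds_mm) T4.ok_mm (w := 64) (j := 3) (by decide +kernel)
theorem L00729 : Good (Phi V4.P V4.D (-1) (-1)) ⟨5, 25, 3, 3, 2, 2, 2, 1, 4, 0⟩ :=
  leaf_sound (S := T4.ds_mm) T4.ok_mm (w := 184) (c := ⟨⟨.ofNat 861, .ofNat 211, .ofNat 304, .ofNat 49, .negSucc 645, .negSucc 1333⟩, ⟨.negSucc 364, .negSucc 139, .negSucc 71, .negSucc 23, .ofNat 276, .ofNat 589⟩, ⟨.negSucc 850, .negSucc 214, .negSucc 236, .ofNat 73, .ofNat 317, .ofNat 1082⟩, ⟨.ofNat 1091, .ofNat 237, .ofNat 396, .ofNat 51, .negSucc 1104, .negSucc 2028⟩, ⟨.negSucc 719, .negSucc 173, .negSucc 92, .negSucc 64, .negSucc 158, .ofNat 257⟩, .ofNat 1416, .ofNat 2363, .ofNat 0, .ofNat 2363, .ofNat 5516, .ofNat 0, .ofNat 173, .negSucc 394, .negSucc 850, .ofNat 0, .ofNat 205, .ofNat 383, .ofNat 0, .ofNat 0, .ofNat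 831, .ofNat 2067, .ofNat 0, .ofNat 0, .ofNat 0, .ofNat 0, .ofNat 0, .ofNat 0, .ofNat 0, .ofNat 0, .ofNat 0, .ofNat 0, .ofNat 6264903166909443971768490393600, .ofNat 0, .ofNat 0, .ofNat 0, .ofNat 0, .ofNat 0⟩)
    (by decide +kernel)
theorem L00730 : Good (Phi V4.P V4.D (-1) (-1)) ⟨5, 25, 3, 3, 2, 2, 2, 1, 4, 1⟩ :=
  leaf_sound (S := T4.ds_mm) T4.ok_mm (w := 184) (c := ⟨⟨.negSucc 54, .negSucc 305, .ofNat 209, .negSucc 491, .negSucc 278, .negSucc 722⟩, ⟨.negSucc 1, .ofNat 136, .ofNat 6, .ofNat 212, .ofNat 115, .ofNat 320⟩, ⟨.negSucc 105, .ofNat 269, .negSucc 169, .ofNat 287, .ofNat 106, .ofNat 621⟩, ⟨.negSucc 446, .negSucc 350, .ofNat 210, .negSucc 819, .negSucc 528, .negSucc 1093⟩, ⟨.negSucc 728, .ofNat 208, .negSucc 176, .negSucc 69, .negSucc 188, .ofNat 147⟩, .ofNat 1785, .ofNat 3157, .ofNat 0, .ofNat 3157, .ofNat 7247, .ofNat 0, .ofNat 165, .negSucc 386,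 .negSucc 803, .ofNat 0, .ofNat 200, .ofNat 365, .ofNat 0, .ofNat 0, .ofNat 805, .ofNat 1790, .ofNat 0, .ofNat 0, .ofNat 0, .ofNat 0, .ofNat 0, .ofNat 0, .ofNat 0, .ofNat 0, .ofNat 0, .ofNat 0, .ofNat 4584321814168219275084850790400, .ofNat 0, .ofNat 0, .ofNat 0, .ofNat 37092143729642963720033481523200, .ofNat 0⟩)
    (by decide +kernel)
theorem L00731 : Good (Phi V4.P V4.D (-1) (-1)) ⟨5, 26, 3, 3, 2, 2, 2, 1, 4, 0⟩ :=
  leaf_sound (S := T4.ds_mm) T4.ok_mm (w := 184) (c := ⟨⟨.ofNat 1194, .ofNat 321, .ofNat 68, .ofNat 67, .negSucc 730, .negSucc 1519⟩, ⟨.negSucc 606, .negSucc 152, .negSucc 35, .negSucc 32, .ofNat 344, .ofNat 741⟩, ⟨.negSucc 1135, .negSucc 357, .ofNat 52, .ofNat 98, .ofNat 358, .ofNat 1202⟩, ⟨.ofNat 1491, .ofNat 387, .ofNat 47, .ofNat 78, .negSucc 1206, .negSucc 2252⟩, ⟨.negSucc 873, .negSucc 299, .ofNat 140, .negSucc 64, .negSucc 122, .ofNat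 263⟩, .ofNat 634, .ofNat 697, .ofNat 0, .ofNat 697, .ofNat 1691, .ofNat 0, .ofNat 235, .negSucc 376, .negSucc 1006, .ofNat 0, .ofNat 235, .ofNat 484, .ofNat 0, .ofNat 0, .ofNat 923, .ofNat 1074, .ofNat 0, .ofNat 0, .ofNat 0, .ofNat 0, .ofNat 0, .ofNat 0, .ofNat 0, .ofNat 0, .ofNat 0, .ofNat 0, .ofNat 0, .ofNat 0, .ofNat 0, .ofNat 0, .ofNat 7104674241356181043595024793600, .ofNat 0⟩)
    (by decide +kernel)
theorem L00732 : Good (Phi V4.P V4.D (-1) (-1)) ⟨5, 26, 3, 3, 2, 2, 2, 1, 5, 2⟩ :=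
  leaf_sound (S := T4.ds_mm) T4.ok_mm (w := 184) (c := ⟨⟨.negSucc 170, .negSucc 68, .ofNat 149, .negSucc 418, .negSucc 451, .negSucc 576⟩, ⟨.ofNat 20, .ofNat 20, .ofNat 37, .ofNat 197, .ofNat 208, .ofNat 279⟩, ⟨.ofNat 9, .ofNat 52, .negSucc 125, .ofNat 260, .ofNat 228, .ofNat 464⟩, ⟨.negSucc 553, .negSucc 76, .ofNat 171, .negSucc 678, .negSucc 778, .negSucc 838⟩, ⟨.negSucc 607, .negSucc 16, .negSucc 30, .negSucc 42, .negSucc 141, .ofNat 136⟩, .ofNat 631, .ofNat 690, .ofNat 0, .ofNat 690, .ofNat 1681, .ofNat 0, .ofNat 233, .negSucc 373, .negSucc 991, .ofNat 0, .ofNat 233, .ofNat 479, .ofNat 0, .ofNat 0, .ofNat 917, .ofNat 970, .ofNat 0, .ofNat 0, .ofNat 0, .ofNat 0, .ofNat 0, .ofNat 0, .ofNat 0, .ofNat 0, .ofNat 0, .ofNat 0, .ofNat 0, .ofNat 0, .ofNat 0, .ofNat 0, .ofNat 121465267345754367572799022694400, .ofNat 0⟩)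
    (by decide +kernel)
theorem L00733 : Good (Phi V4.P V4.D (-1) (-1)) ⟨5, 26, 3, 3, 2, 2, 2, 1, 5, 3⟩ :=
  leaf_sound (S := T4.ds_mm) T4.ok_mm (w := 184) (c := ⟨⟨.negSucc 769, .negSucc 541, .ofNat 496, .negSucc 596, .negSucc 154, .negSucc 305⟩, ⟨.ofNat 293, .ofNat 278, .negSucc 126, .ofNat 286, .ofNat 63, .ofNat 149⟩, ⟨.ofNat 538, .ofNat 435, .negSucc 425, .ofNat 298, .ofNat 19, .ofNat 265⟩, ⟨.negSucc 1421, .negSucc 692, .ofNat 649, .negSucc 961, .negSucc 362, .negSucc 461⟩, ⟨.negSucc 421, .ofNat 206, .negSucc 194, .negSucc 60, .negSucc 248, .ofNat 35⟩, .ofNat 636, .ofNat 699, .ofNat 0, .ofNat 699, .ofNat 1687, .ofNat 0, .ofNat 228, .negSucc 365, .negSucc 913, .ofNat 0, .ofNat 230, .ofNat 446, .ofNat 0, .ofNat 0, .ofNat 870, .ofNat 1509, .ofNat 0, .ofNat 0, .ofNat 0, .ofNat 0, .ofNat 0, .ofNat 0, .ofNat 0, .ofNat 0, .ofNat 0, .ofNat 0, .ofNat 0, .ofNat 0,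 .ofNat 0, .ofNat 0, .ofNat 117024900627096403731400989081600, .ofNat 0⟩)
    (by decide +kernel)
theorem L00734 : Good (Phi V4.P V4.D (-1) (-1)) ⟨6, 54, 4, 6, 2, 2, 2, 1, 3, 0⟩ :=
  out_sound (S := T4.ds_mm) T4.ok_mm (w := 72) (j := 3) (by decide +kernel)
theorem L00735 : Good (Phi V4.P V4.D (-1) (-1)) ⟨6, 54, 5, 14, 2, 2, 2, 1, 3, 0⟩ :=
  out_sound (S := T4.ds_mm) T4.ok_mm (w := 72) (j := 3) (by decide +kernel)
theorem L00736 : Good (Phi V4.P V4.D (-1) (-1)) ⟨8, 216, 5, 15, 2, 2, 2, 1, 4, 0⟩ :=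
  leaf_sound (S := T4.ds_mm) T4.ok_mm (w := 200) (c := ⟨⟨.ofNat 1919, .ofNat 214, .negSucc 328, .ofNat 43, .negSucc 773, .negSucc 1709⟩, ⟨.negSucc 1039, .negSucc 122, .ofNat 194, .negSucc 22, .ofNat 403, .ofNat 901⟩, ⟨.negSucc 1809, .negSucc 174, .ofNat 348, .ofNat 178, .ofNat 388, .ofNat 1358⟩, ⟨.ofNat 2286, .ofNat 265, .negSucc 374, .ofNat 49, .negSucc 1239, .negSucc 2446⟩, ⟨.negSucc 1295, .negSucc 111, .ofNat 278, .negSucc 32, .negSucc 97, .ofNat 345⟩, .ofNat 2453, .ofNat 4017, .ofNat 0, .ofNat 4017, .ofNat 7811, .ofNat 0, .ofNat 60, .negSucc 212, .negSucc 519, .ofNat 0, .ofNat 120, .ofNat 276, .ofNat 0, .ofNat 0, .ofNat 473, .ofNat 1006, .ofNat 0, .ofNat 0, .ofNat 0, .ofNat 0, .ofNat 0, .ofNat 0, .ofNat 775232802080453402831093760000, .ofNat 0, .ofNat 0, .ofNat 0, .ofNat 181907862584457138793139404800, .ofNat 0, .ofNat 0, .ofNat 0, .ofNat 477829134065028515128934400000,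 .ofNat 0⟩)
    (by decide +kernel)
theorem L00737 : Good (Phi V4.P V4.D (-1) (-1)) ⟨8, 216, 5, 15, 2, 2, 2, 1, 4, 1⟩ :=
  leaf_sound (S := T4.ds_mm) T4.ok_mm (w := 200) (c := ⟨⟨.negSucc 123, .ofNat 39, .negSucc 54, .negSucc 502, .negSucc 279, .negSucc 1038⟩, ⟨.ofNat 26, .negSucc 22, .ofNat 60, .ofNat 263, .ofNat 142, .ofNat 548⟩, ⟨.negSucc 21, .negSucc 60, .ofNat 54, .ofNat 311, .ofNat 100, .ofNat 818⟩, ⟨.negSucc 541, .ofNat 25, .negSucc 28, .negSucc 783, .negSucc 552, .negSucc 1486⟩, ⟨.negSucc 683, .negSucc 77, .ofNat 128, .negSucc 21, .negSucc 234, .ofNat 208⟩, .ofNat 3903, .ofNat 6715, .ofNat 0, .ofNat 6715, .ofNat 12846, .ofNat 0, .ofNat 55, .negSucc 217, .negSucc 517, .ofNat 0, .ofNat 122, .ofNat 276, .ofNat 0, .ofNat 0, .ofNat 463, .ofNat 1277, .ofNat 0, .ofNat 0, .ofNat 0, .ofNat 0, .ofNat 0, .ofNat 0, .ofNat 957269805123104045248020480000, .ofNat 0,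 .ofNat 0, .ofNat 0, .ofNat 159917327355571039904779468800, .ofNat 0, .ofNat 0, .ofNat 0, .ofNat 313282493551728421593572966400, .ofNat 0⟩)
    (by decide +kernel)
theorem L00738 : Good (Phi V4.P V4.D (-1) (-1)) ⟨8, 217, 5, 15, 2, 2, 2, 1, 3, 0⟩ :=
  out_sound (S := T4.ds_mm) T4.ok_mm (w := 80) (j := 3) (by decide +kernel)
theorem L00739 : Good (Phi V4.P V4.D (-1) (-1)) ⟨7, 109, 5, 15, 2, 2, 2, 1, 3, 0⟩ :=
  out_sound (S := T4.ds_mm) T4.ok_mm (w := 80) (j := 3) (by decide +kernel)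
theorem L00740 : Good (Phi V4.P V4.D (-1) (-1)) ⟨6, 55, 3, 3, 2, 2, 2, 1, 3, 0⟩ :=
  out_sound (S := T4.ds_mm) T4.ok_mm (w := 64) (j := 3) (by decide +kernel)
theorem L00741 : Good (Phi V4.P V4.D (-1) (-1)) ⟨5, 24, 3, 3, 2, 3, 2, 1, 3, 0⟩ :=
  out_sound (S := T4.ds_mm) T4.ok_mm (w := 64) (j := 3) (by decide +kernel)
theorem L00742 : Good (Phi V4.P V4.D (-1) (-1)) ⟨6, 50, 4, 6, 2, 3, 2, 1, 3, 0⟩ :=
  out_sound (S := T4.ds_mm) T4.ok_mm (w := 72) (j := 3) (by decide +kernel)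
theorem L00743 : Good (Phi V4.P V4.D (-1) (-1)) ⟨6, 51, 4, 6, 2, 3, 2, 1, 4, 0⟩ :=
  leaf_sound (S := T4.ds_mm) T4.ok_mm (w := 192) (c := ⟨⟨.ofNat 1279, .negSucc 39, .ofNat 178, .negSucc 490, .negSucc 869, .negSucc 1741⟩, ⟨.negSucc 579, .ofNat 20, .negSucc 60, .ofNat 252, .ofNat 361, .ofNat 750⟩, ⟨.negSucc 910, .ofNat 73, .ofNat 24, .ofNat 868, .ofNat 263, .ofNat 1023⟩, ⟨.ofNat 1786, .negSucc 41, .ofNat 304, .negSucc 321, .negSucc 1602, .negSucc 2883⟩, ⟨.negSucc 596, .ofNat 35, .ofNat 61, .ofNat 1065, .negSucc 476, .negSucc 211⟩, .ofNat 1012, .ofNat 1493, .ofNat 0, .ofNat 1493, .ofNat 3596, .ofNat 0, .ofNat 220, .negSucc 543, .negSucc 881, .ofNat 0, .ofNat 273, .ofNat 389, .ofNat 0, .ofNat 0, .ofNat 714, .ofNat 2765, .ofNat 0, .ofNat 0, .ofNat 0, .ofNat 0, .ofNat 0, .ofNat 0, .ofNat 0, .ofNat 0, .ofNat 0, .ofNat 0, .ofNat 910356648762562425744732979200, .ofNat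 0, .ofNat 0, .ofNat 0, .ofNat 0, .ofNat 0⟩)
    (by decide +kernel)
theorem L00744 : Good (Phi V4.P V4.D (-1) (-1)) ⟨6, 51, 4, 6, 2, 3, 2, 1, 4, 1⟩ :=
  leaf_sound (S := T4.ds_mm) T4.ok_mm (w := 192) (c := ⟨⟨.negSucc 834, .ofNat 11, .ofNat 12, .negSucc 849, .negSucc 243, .negSucc 976⟩, ⟨.ofNat 331, .ofNat 14, .ofNat 65, .ofNat 388, .ofNat 90, .ofNat 425⟩, ⟨.ofNat 516, .ofNat 15, .negSucc 120, .ofNat 714, .ofNat 22, .ofNat 582⟩, ⟨.negSucc 1560, .ofNat 119, .negSucc 60, .negSucc 1147, .negSucc 600, .negSucc 1566⟩, ⟨.negSucc 417, .ofNat 111, .negSucc 148, .ofNat 491, .negSucc 484, .negSucc 4⟩, .ofNat 1765, .ofNat 3109, .ofNat 0, .ofNat 3109, .ofNat 7131, .ofNat 0, .ofNat 187, .negSucc 543, .negSucc 911, .ofNat 0, .ofNat 270, .ofNat 413, .ofNat 0, .ofNat 0, .ofNat 738, .ofNat 1193, .ofNat 0, .ofNat 0, .ofNat 82607071357348284278086041600, .ofNat 0, .ofNat 0, .ofNat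 0, .ofNat 0, .ofNat 0, .ofNat 0, .ofNat 0, .ofNat 6233609252219041041796929945600, .ofNat 0, .ofNat 0, .ofNat 0, .ofNat 0, .ofNat 0⟩)
    (by decide +kernel)
theorem L00745 : Good (Phi V4.P V4.D (-1) (-1)) ⟨5, 25, 4, 7, 2, 3, 2, 1, 3, 0⟩ :=
  out_sound (S := T4.ds_mm) T4.ok_mm (w := 64) (j := 3) (by decide +kernel)
theorem L00746 : Good (Phi V4.P V4.D (-1) (-1)) ⟨6, 52, 3, 3, 2, 3, 2, 1, 4, 0⟩ :=
  leaf_sound (S := T4.ds_mm) T4.ok_mm (w := 192) (c := ⟨⟨.ofNat 1367, .ofNat 3, .ofNat 155, .negSucc 544, .negSucc 854, .negSucc 1894⟩, ⟨.negSucc 661, .negSucc 9, .negSucc 17, .ofNat 294, .ofNat 376, .ofNat 864⟩, ⟨.negSucc 906, .ofNat 0, .negSucc 34, .ofNat 920, .ofNat 232, .ofNat 1076⟩, ⟨.ofNat 1915, .ofNat 0, .ofNat 212, .negSucc 363, .negSucc 1587, .negSucc 3094⟩, ⟨.negSucc 530, .negSucc 29, .negSucc 12, .ofNat 1072, .negSucc 510, .negSucc 220⟩, .ofNat 1071, .ofNat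 1560, .ofNat 0, .ofNat 1560, .ofNat 3555, .ofNat 0, .ofNat 211, .negSucc 560, .negSucc 953, .ofNat 0, .ofNat 292, .ofNat 444, .ofNat 0, .ofNat 0, .ofNat 741, .ofNat 1878, .ofNat 0, .ofNat 0, .ofNat 0, .ofNat 0, .ofNat 0, .ofNat 0, .ofNat 1798960440561075850799008972800, .ofNat 0, .ofNat 0, .ofNat 0, .ofNat 1213967985781103204844227788800, .ofNat 0, .ofNat 0, .ofNat 0, .ofNat 0, .ofNat 0⟩)
    (by decide +kernel)
theorem L00747 : Good (Phi V4.P V4.D (-1) (-1)) ⟨6, 53, 3, 3, 2, 3, 2, 1, 4, 0⟩ :=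
  leaf_sound (S := T4.ds_mm) T4.ok_mm (w := 192) (c := ⟨⟨.ofNat 1632, .ofNat 212, .negSucc 127, .negSucc 568, .negSucc 909, .negSucc 2024⟩, ⟨.negSucc 839, .negSucc 99, .ofNat 72, .ofNat 313, .ofNat 444, .ofNat 1005⟩, ⟨.negSucc 981, .ofNat 24, .negSucc 130, .ofNat 976, .ofNat 285, .ofNat 1178⟩, ⟨.ofNat 2380, .ofNat 488, .negSucc 559, .negSucc 330, .negSucc 1614, .negSucc 3213⟩, ⟨.negSucc 365, .ofNat 287, .negSucc 625, .ofNat 1110, .negSucc 404, .negSucc 142⟩, .ofNat 1282, .ofNat 1898, .ofNat 0, .ofNat 1898, .ofNat 3994, .ofNat 0, .ofNat 91, .negSucc 286, .negSucc 522, .ofNat 0, .ofNat 156, .ofNat 262, .ofNat 0, .ofNat 0, .ofNat 393, .ofNat 544, .ofNat 0, .ofNat 0, .ofNat 10866906297596502250566451200, .ofNat 0, .ofNat 0, .ofNat 0, .ofNat 560141768995544489914898841600, .ofNat 0, .ofNat 0, .ofNat 0, .ofNat 657709472656717155345943756800, .ofNat 0, .ofNat 0,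 .ofNat 0, .ofNat 0, .ofNat 0⟩)
    (by decide +kernel)
theorem L00748 : Good (Phi V4.P V4.D (-1) (-1)) ⟨6, 52, 3, 3, 2, 3, 2, 1, 4, 1⟩ :=
  leaf_sound (S := T4.ds_mm) T4.ok_mm (w := 192) (c := ⟨⟨.negSucc 840, .negSucc 441, .ofNat 798, .negSucc 891, .negSucc 216, .negSucc 1103⟩, ⟨.ofNat 326, .ofNat 230, .negSucc 238, .ofNat 429, .ofNat 81, .ofNat 509⟩, ⟨.ofNat 485, .ofNat 328, .negSucc 482, .ofNat 798, .negSucc 11, .ofNat 636⟩, ⟨.negSucc 1502, .negSucc 559, .ofNat 1124, .negSucc 1167, .negSucc 589, .negSucc 1739⟩, ⟨.negSucc 327, .ofNat 178, .negSucc 248, .ofNat 519, .negSucc 533, .ofNat 13⟩, .ofNat 1793, .ofNat 3030, .ofNat 0, .ofNat 3030, .ofNat 6602, .ofNat 0, .ofNat 179, .negSucc 572, .negSucc 1011, .ofNat 0, .ofNat 295, .ofNat 482, .ofNat 0, .ofNat 0, .ofNat 773, .ofNat 1044, .ofNat 0, .ofNat 0, .ofNat 10020878933964514137420595200, .ofNat 0, .ofNat 0,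 .ofNat 0, .ofNat 4315842007613598229266117427200, .ofNat 0, .ofNat 0, .ofNat 0, .ofNat 1661174282154760702627361587200, .ofNat 0, .ofNat 0, .ofNat 0, .ofNat 0, .ofNat 0⟩)
    (by decide +kernel)
theorem L00749 : Good (Phi V4.P V4.D (-1) (-1)) ⟨6, 53, 4, 6, 2, 3, 2, 1, 4, 1⟩ :=
  leaf_sound (S := T4.ds_mm) T4.ok_mm (w := 192) (c := ⟨⟨.negSucc 1396, .negSucc 1061, .ofNat 829, .negSucc 967, .negSucc 304, .negSucc 1310⟩, ⟨.ofNat 593, .ofNat 532, .negSucc 332, .ofNat 485, .ofNat 127, .ofNat 633⟩, ⟨.ofNat 907, .ofNat 649, .negSucc 565, .ofNat 836, .ofNat 19, .ofNat 798⟩, ⟨.negSucc 2205, .negSucc 1468, .ofNat 1111, .negSucc 1235, .negSucc 729, .negSucc 1994⟩, ⟨.negSucc 34, .ofNat 306, .negSucc 383, .ofNat 577, .negSucc 528, .ofNat 115⟩, .ofNat 1886, .ofNat 3119, .ofNat 0, .ofNat 3119, .ofNat 6540, .ofNat 0, .ofNat 87, .negSucc 289, .negSucc 552, .ofNat 0, .ofNat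 154, .ofNat 273, .ofNat 0, .ofNat 0, .ofNat 409, .ofNat 769, .ofNat 0, .ofNat 0, .ofNat 89398116826530834732495667200, .ofNat 0, .ofNat 0, .ofNat 0, .ofNat 4370482288130097330955852185600, .ofNat 0, .ofNat 0, .ofNat 0, .ofNat 4070915529560690468811964416000, .ofNat 0, .ofNat 0, .ofNat 0, .ofNat 2738256030207625584222771609600, .ofNat 0⟩)
    (by decide +kernel)
theorem L00750 : Good (Phi V4.P V4.D (-1) (-1)) ⟨6, 53, 4, 7, 2, 3, 2, 1, 4, 1⟩ :=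
  leaf_sound (S := T4.ds_mm) T4.ok_mm (w := 192) (c := ⟨⟨.negSucc 803, .negSucc 201, .ofNat 150, .negSucc 827, .negSucc 209, .negSucc 1260⟩, ⟨.ofNat 348, .ofNat 115, .ofNat 5, .ofNat 431, .ofNat 91, .ofNat 635⟩, ⟨.ofNat 506, .negSucc 48, .ofNat 69, .ofNat 795, .negSucc 24, .ofNat 730⟩, ⟨.negSucc 1437, .negSucc 230, .ofNat 200, .negSucc 1024, .negSucc 600, .negSucc 1913⟩, ⟨.negSucc 315, .ofNat 46, .negSucc 39, .ofNat 515, .negSucc 553, .ofNat 77⟩, .ofNat 1319, .ofNat 1965, .ofNat 0, .ofNat 1965, .ofNat 4113, .ofNat 0, .ofNat 90, .negSucc 300, .negSucc 581, .ofNat 0, .ofNat 164, .ofNat 295, .ofNat 0, .ofNat 0, .ofNat 416, .ofNat 654, .ofNat 0, .ofNat 0, .ofNat 0, .ofNat 0, .ofNat 0, .ofNat 0, .ofNat 0, .ofNat 0, .ofNat 0, .ofNat 0, .ofNat 0, .ofNat 0, .ofNat 0, .ofNat 0, .ofNat 551481875663166591001952256000, .ofNat 0⟩)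
    (by decide +kernel)
theorem L00751 : Good (Phi V4.P V4.D (-1) (-1)) ⟨6, 54, 4, 6, 2, 3, 2, 1, 3, 0⟩ :=
  out_sound (S := T4.ds_mm) T4.ok_mm (w := 72) (j := 3) (by decide +kernel)
theorem L00752 : Good (Phi V4.P V4.D (-1) (-1)) ⟨6, 54, 5, 14, 2, 3, 2, 1, 3, 0⟩ :=
  out_sound (S := T4.ds_mm) T4.ok_mm (w := 72) (j := 3) (by decide +kernel)
theorem L00753 : Good (Phi V4.P V4.D (-1) (-1)) ⟨6, 54, 5, 15, 2, 3, 2, 1, 4, 0⟩ :=
  leaf_sound (S := T4.ds_mm) T4.ok_mm (w := 192) (c := ⟨⟨.ofNat 1753, .negSucc 74, .ofNat 93, .negSucc 552, .negSucc 1024, .negSucc 2032⟩, ⟨.negSucc 926, .ofNat 48, .negSucc 48, .ofNat 312, .ofNat 526, .ofNat 1055⟩, ⟨.negSucc 1044, .ofNat 188, .negSucc 103, .ofNat 1008, .ofNat 298, .ofNat 1144⟩, ⟨.ofNat 2436, .ofNat 143, .ofNat 35, .negSucc 239, .negSucc 1797, .negSucc 3257⟩, ⟨.negSucc 499, .ofNat 510, .negSucc 200, .ofNat 1168, .negSucc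 428, .negSucc 257⟩, .ofNat 3268, .ofNat 5540, .ofNat 0, .ofNat 5540, .ofNat 10670, .ofNat 0, .ofNat 63, .negSucc 303, .negSucc 540, .ofNat 0, .ofNat 166, .ofNat 285, .ofNat 0, .ofNat 0, .ofNat 394, .ofNat 672, .ofNat 0, .ofNat 0, .ofNat 0, .ofNat 0, .ofNat 0, .ofNat 0, .ofNat 14780027449869006445727868518400, .ofNat 0, .ofNat 0, .ofNat 0, .ofNat 9031481136482243788737714585600, .ofNat 0, .ofNat 0, .ofNat 0, .ofNat 2680736060125015518126853324800, .ofNat 0⟩)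
    (by decide +kernel)
theorem L00754 : Good (Phi V4.P V4.D (-1) (-1)) ⟨6, 54, 5, 15, 2, 3, 2, 1, 4, 1⟩ :=
  leaf_sound (S := T4.ds_mm) T4.ok_mm (w := 200) (c := ⟨⟨.negSucc 1287, .negSucc 684, .ofNat 637, .negSucc 925, .negSucc 241, .negSucc 1252⟩, ⟨.ofNat 636, .ofNat 375, .negSucc 299, .ofNat 494, .ofNat 116, .ofNat 655⟩, ⟨.ofNat 884, .ofNat 462, .negSucc 505, .ofNat 843, .negSucc 10, .ofNat 723⟩, ⟨.negSucc 2058, .negSucc 950, .ofNat 852, .negSucc 1139, .negSucc 650, .negSucc 1880⟩, ⟨.negSucc 148, .ofNat 100, .negSucc 234, .ofNat 542, .negSucc 537, .ofNat 87⟩, .ofNat 3656, .ofNat 6266, .ofNat 0, .ofNat 6266, .ofNat 12032, .ofNat 0, .ofNat 62, .negSucc 302, .negSucc 608, .ofNat 0, .ofNat 166, .ofNat 323, .ofNat 0, .ofNat 0, .ofNat 431, .ofNat 509, .ofNat 0, .ofNat 0, .ofNat 19249482927014435818045440000, .ofNat 0, .ofNat 0, .ofNat 0, .ofNat 13761234414308632355682228633600,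 .ofNat 0, .ofNat 0, .ofNat 0, .ofNat 4874198097205783905190281216000, .ofNat 0, .ofNat 0, .ofNat 0, .ofNat 6368192844075082171813566873600, .ofNat 0⟩)
    (by decide +kernel)
theorem L00755 : Good (Phi V4.P V4.D (-1) (-1)) ⟨6, 55, 3, 3, 2, 3, 2, 1, 3, 0⟩ :=
  out_sound (S := T4.ds_mm) T4.ok_mm (w := 64) (j := 3) (by decide +kernel)
theorem L00756 : Good (Phi V4.P V4.D (-1) (-1)) ⟨4, 12, 3, 3, 2, 2, 2, 1, 3, 1⟩ :=
  leaf_sound (S := T4.ds_mm) T4.ok_mm (w := 176) (c := ⟨⟨.negSucc 1302, .negSucc 165, .ofNat 135, .negSucc 305, .ofNat 214, .ofNat 225⟩, ⟨.ofNat 564, .ofNat 65, .ofNat 84, .ofNat 120, .negSucc 104, .negSucc 111⟩, ⟨.ofNat 945, .ofNat 181, .negSucc 153, .ofNat 66, .negSucc 286, .negSucc 83⟩, ⟨.negSucc 2217, .negSucc 198, .ofNat 216, .negSucc 658, .ofNat 198, .ofNat 197⟩, ⟨.negSucc 50, .negSucc 114, .ofNat 85, .negSucc 386, .negSucc 330, .negSucc 375⟩,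 .ofNat 1021, .ofNat 1509, .ofNat 0, .ofNat 1509, .ofNat 3618, .ofNat 0, .ofNat 173, .negSucc 336, .negSucc 519, .ofNat 0, .ofNat 185, .ofNat 238, .ofNat 0, .ofNat 0, .ofNat 625, .ofNat 3007, .ofNat 0, .ofNat 0, .ofNat 0, .ofNat 0, .ofNat 0, .ofNat 0, .ofNat 0, .ofNat 0, .ofNat 0, .ofNat 0, .ofNat 787649539887424234825187328000, .ofNat 0, .ofNat 0, .ofNat 0, .ofNat 2208992476864347854101020672000, .ofNat 0⟩)
    (by decide +kernel)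
theorem L00757 : Good (Phi V4.P V4.D (-1) (-1)) ⟨5, 26, 3, 3, 2, 2, 2, 1, 4, 2⟩ :=
  leaf_sound (S := T4.ds_mm) T4.ok_mm (w := 184) (c := ⟨⟨.negSucc 1338, .negSucc 161, .ofNat 129, .negSucc 451, .ofNat 186, .ofNat 7⟩, ⟨.ofNat 565, .ofNat 72, .ofNat 87, .ofNat 207, .negSucc 98, .negSucc 7⟩, ⟨.ofNat 1019, .ofNat 126, .negSucc 117, .ofNat 147, .negSucc 244, .ofNat 47⟩, ⟨.negSucc 2217, .negSucc 177, .ofNat 147, .negSucc 827, .ofNat 121, .negSucc 60⟩, ⟨.negSucc 219, .ofNat 32, .negSucc 48, .negSucc 240, .negSucc 357, .negSucc 149⟩, .ofNat 1162, .ofNat 1708, .ofNat 0, .ofNat 1708, .ofNat 3746, .ofNat 0, .ofNat 164, .negSucc 367, .negSucc 679, .ofNat 0, .ofNat 209, .ofNat 336, .ofNat 0, .ofNat 0, .ofNat 721, .ofNat 1096, .ofNat 0, .ofNat 0, .ofNat 26027756738959351743302860800, .ofNat 0, .ofNat 0, .ofNat 0, .ofNat 12645398980009559269093618483200, .ofNat 0, .ofNat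 0, .ofNat 0, .ofNat 3560927571514819969172058931200, .ofNat 0, .ofNat 0, .ofNat 0, .ofNat 0, .ofNat 0⟩)
    (by decide +kernel)
theorem L00758 : Good (Phi V4.P V4.D (-1) (-1)) ⟨5, 26, 3, 3, 2, 2, 2, 1, 4, 3⟩ :=
  leaf_sound (S := T4.ds_mm) T4.ok_mm (w := 184) (c := ⟨⟨.negSucc 1587, .negSucc 148, .ofNat 186, .negSucc 110, .ofNat 357, .ofNat 244⟩, ⟨.ofNat 684, .ofNat 55, .ofNat 69, .ofNat 35, .negSucc 182, .negSucc 122⟩, ⟨.ofNat 1262, .ofNat 132, .negSucc 178, .negSucc 76, .negSucc 404, .negSucc 146⟩, ⟨.negSucc 2598, .negSucc 165, .ofNat 208, .negSucc 445, .ofNat 383, .ofNat 274⟩, ⟨.negSucc 220, .negSucc 0, .negSucc 47, .negSucc 563, .negSucc 368, .negSucc 227⟩, .ofNat 634, .ofNat 696, .ofNat 0, .ofNat 696, .ofNat 1687, .ofNat 0, .ofNat 207, .negSucc 318, .negSucc 518, .ofNat 0, .ofNat 206, .ofNat 257, .ofNat 0, .ofNat 0, .ofNat 618, .ofNat 2666, .ofNat 0, .ofNat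 0, .ofNat 0, .ofNat 0, .ofNat 0, .ofNat 0, .ofNat 0, .ofNat 0, .ofNat 0, .ofNat 0, .ofNat 0, .ofNat 0, .ofNat 0, .ofNat 0, .ofNat 0, .ofNat 0⟩)
    (by decide +kernel)
theorem L00759 : Good (Phi V4.P V4.D (-1) (-1)) ⟨6, 54, 4, 6, 2, 2, 2, 1, 3, 1⟩ :=
  out_sound (S := T4.ds_mm) T4.ok_mm (w := 72) (j := 3) (by decide +kernel)
theorem L00760 : Good (Phi V4.P V4.D (-1) (-1)) ⟨6, 54, 4, 7, 2, 2, 2, 1, 3, 1⟩ :=
  leaf_sound (S := T4.ds_mm) T4.ok_mm (w := 192) (c := ⟨⟨.negSucc 2110, .negSucc 359, .ofNat 458, .negSucc 175, .ofNat 322, .ofNat 458⟩, ⟨.ofNat 1039, .ofNat 189, .negSucc 172, .ofNat 81, .negSucc 174, .negSucc 248⟩, ⟨.ofNat 1546, .ofNat 260, .negSucc 306, .negSucc 24, .negSucc 362, .negSucc 256⟩, ⟨.negSucc 3101, .negSucc 438, .ofNat 515, .negSucc 538, .ofNat 304, .ofNat 449⟩, ⟨.ofNat 245, .ofNat 168, .negSucc 330, .negSucc 513, .negSucc 362, .negSucc 487⟩,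 .ofNat 3652, .ofNat 6252, .ofNat 0, .ofNat 6252, .ofNat 11992, .ofNat 0, .ofNat 103, .negSucc 379, .negSucc 615, .ofNat 0, .ofNat 214, .ofNat 329, .ofNat 0, .ofNat 0, .ofNat 673, .ofNat 1408, .ofNat 0, .ofNat 0, .ofNat 5659950244498581108031488000, .ofNat 0, .ofNat 0, .ofNat 0, .ofNat 1440156063935724474450994790400, .ofNat 0, .ofNat 0, .ofNat 0, .ofNat 554146253916182555240536473600, .ofNat 0, .ofNat 0, .ofNat 0, .ofNat 409620607716252772284235776000, .ofNat 0⟩)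
    (by decide +kernel)
theorem L00761 : Good (Phi V4.P V4.D (-1) (-1)) ⟨6, 55, 3, 3, 2, 2, 2, 1, 3, 1⟩ :=
  out_sound (S := T4.ds_mm) T4.ok_mm (w := 64) (j := 3) (by decide +kernel)

end Crest.Agent.R097C4.N4mm
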