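import Crest.Agent.R097.T4

/-!
# Row 97, box cover in dimension n = 4 (generated)
-/

set_option autoImplicit false
set_option Elab.async false
set_option maxHeartbeats 0
set_option maxRecDepth 100000

open Crest.Agent.R097 Crest.Agent.R097.KA


namespace Crest.Agent.R097C4.N4mm

theorem L00831 : Good (Phi V4.P V4.D (-1) (-1)) ⟨4, 13, 3, 2, 2, 2, 2, 3, 3, 0⟩ :=
  leaf_sound (S := T4.ds_mm) T4.ok_mm (w := 176) (c := ⟨⟨.negSucc 1529, .negSucc 14, .ofNat 727, .negSucc 490, .negSucc 1, .ofNat 245⟩, ⟨.ofNat 504, .negSucc 28, .negSucc 189, .ofNat 195, .negSucc 5, .negSucc 106⟩, ⟨.ofNat 911, .ofNat 7, .negSucc 712, .ofNat 401, .negSucc 63, .negSucc 133⟩, ⟨.negSucc 2754, .negSucc 35, .ofNat 1133, .negSucc 943, .negSucc 62, .ofNat 377⟩, ⟨.negSucc 844, .negSucc 109, .ofNat 61, .negSucc 371, .negSucc 136, .negSucc 30⟩, .ofNat 1315, .ofNat 2101, .ofNat 0, .ofNat 2101,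 .ofNat 4853, .ofNat 0, .ofNat 109, .negSucc 196, .negSucc 566, .ofNat 0, .ofNat 111, .ofNat 252, .ofNat 0, .ofNat 0, .ofNat 552, .ofNat 564, .ofNat 0, .ofNat 0, .ofNat 132453589311942695389967155200, .ofNat 0, .ofNat 0, .ofNat 0, .ofNat 7540698808356952432957194240000, .ofNat 0, .ofNat 0, .ofNat 0, .ofNat 4058270462420825721104498688000, .ofNat 0, .ofNat 0, .ofNat 0, .ofNat 2682359511097292427636611481600, .ofNat 0⟩)
    (by decide +kernel)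
theorem L00832 : Good (Phi V4.P V4.D (-1) (-1)) ⟨3, 7, 3, 2, 2, 2, 2, 3, 3, 0⟩ :=
  out_sound (S := T4.ds_mm) T4.ok_mm (w := 48) (j := 3) (by decide +kernel)
theorem L00833 : Good (Phi V4.P V4.D (-1) (-1)) ⟨5, 24, 4, 4, 2, 3, 2, 3, 4, 0⟩ :=
  leaf_sound (S := T4.ds_mm) T4.ok_mm (w := 184) (c := ⟨⟨.negSucc 1091, .negSucc 216, .ofNat 232, .ofNat 47, .negSucc 355, .negSucc 394⟩, ⟨.ofNat 318, .ofNat 59, .ofNat 13, .negSucc 11, .ofNat 107, .ofNat 129⟩, ⟨.ofNat 552, .ofNat 150, .negSucc 166, .negSucc 75, .ofNat 175, .ofNat 200⟩, ⟨.negSucc 2173, .negSucc 299, .ofNat 342, .ofNat 99, .negSucc 717, .negSucc 723⟩, ⟨.negSucc 914, .ofNat 2, .negSucc 15, .ofNat 62, .negSucc 351, .negSucc 175⟩, .ofNat 754, .ofNat 1055, .ofNat 0, .ofNat 1055, .ofNat 3230, .ofNat 0, .ofNat 309, .negSucc 440, .negSucc 856, .ofNat 0, .ofNat 209, .ofNat 301, .ofNat 0, .ofNat 0, .ofNat 775,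 .ofNat 920, .ofNat 0, .ofNat 0, .ofNat 0, .ofNat 0, .ofNat 0, .ofNat 0, .ofNat 0, .ofNat 0, .ofNat 0, .ofNat 0, .ofNat 0, .ofNat 0, .ofNat 0, .ofNat 0, .ofNat 0, .ofNat 0⟩)
    (by decide +kernel)
theorem L00834 : Good (Phi V4.P V4.D (-1) (-1)) ⟨5, 24, 4, 4, 2, 3, 2, 3, 4, 1⟩ :=
  leaf_sound (S := T4.ds_mm) T4.ok_mm (w := 184) (c := ⟨⟨.negSucc 1740, .negSucc 139, .ofNat 178, .negSucc 188, .ofNat 349, .ofNat 326⟩, ⟨.ofNat 547, .ofNat 28, .ofNat 39, .ofNat 54, .negSucc 138, .negSucc 127⟩, ⟨.ofNat 992, .ofNat 77, .negSucc 104, .ofNat 4, .negSucc 337, .negSucc 248⟩, ⟨.negSucc 3253, .negSucc 175, .ofNat 248, .negSucc 391, .ofNat 451, .ofNat 441⟩, ⟨.negSucc 893, .negSucc 10, .negSucc 12, .negSucc 213, .negSucc 387, .negSucc 301⟩, .ofNat 1073, .ofNat 1878, .ofNat 0, .ofNat 1878, .ofNat 5481, .ofNat 0, .ofNat 277, .negSucc 462, .negSucc 860, .ofNat 0, .ofNat 209,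 .ofNat 306, .ofNat 0, .ofNat 0, .ofNat 765, .ofNat 1177, .ofNat 0, .ofNat 0, .ofNat 0, .ofNat 0, .ofNat 0, .ofNat 0, .ofNat 0, .ofNat 0, .ofNat 0, .ofNat 8759913962962358627419157869835059200, .ofNat 0, .ofNat 0, .ofNat 0, .ofNat 0, .ofNat 0, .ofNat 0⟩)
    (by decide +kernel)
theorem L00835 : Good (Phi V4.P V4.D (-1) (-1)) ⟨5, 24, 4, 5, 2, 3, 2, 3, 3, 0⟩ :=
  out_sound (S := T4.ds_mm) T4.ok_mm (w := 64) (j := 3) (by decide +kernel)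
theorem L00836 : Good (Phi V4.P V4.D (-1) (-1)) ⟨5, 25, 4, 4, 3, 6, 2, 3, 3, 0⟩ :=
  leaf_sound (S := T4.ds_mm) T4.ok_mm (w := 192) (c := ⟨⟨.negSucc 1476, .negSucc 397, .ofNat 266, .negSucc 246, .negSucc 60, .ofNat 76⟩, ⟨.ofNat 438, .ofNat 127, .negSucc 0, .ofNat 87, .ofNat 3, .negSucc 43⟩, ⟨.ofNat 787, .ofNat 279, .negSucc 192, .ofNat 132, .negSucc 4, .negSucc 100⟩, ⟨.negSucc 2741, .negSucc 589, .ofNat 398, .negSucc 444, .negSucc 224, .ofNat 16⟩, ⟨.negSucc 892, .ofNat 8, .ofNat 10, .negSucc 106, .negSucc 331, .negSucc 290⟩, .ofNat 1038, .ofNat 1636, .ofNat 0, .ofNat 1636, .ofNat 4320, .ofNat 0, .ofNat 138, .negSucc 212, .negSucc 515, .ofNat 0, .ofNat 111, .ofNat 202, .ofNat 0, .ofNat 0, .ofNat 463, .ofNat 480, .ofNat 0, .ofNat 0, .ofNat 818408817313855524074579558400, .ofNat 0, .ofNat 0, .ofNat 0, .ofNat 118597915485563963968434733056000, .ofNat 0, .ofNat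 0, .ofNat 0, .ofNat 154985754775004081631613314662400, .ofNat 0, .ofNat 0, .ofNat 0, .ofNat 85132727311582030415983017984000, .ofNat 0⟩)
    (by decide +kernel)
theorem L00837 : Good (Phi V4.P V4.D (-1) (-1)) ⟨5, 25, 4, 5, 3, 6, 2, 3, 3, 0⟩ :=
  leaf_sound (S := T4.ds_mm) T4.ok_mm (w := 192) (c := ⟨⟨.negSucc 1133, .negSucc 507, .ofNat 236, .negSucc 255, .negSucc 76, .negSucc 9⟩, ⟨.ofNat 392, .ofNat 184, .ofNat 0, .ofNat 103, .ofNat 16, .negSucc 10⟩, ⟨.ofNat 545, .ofNat 353, .negSucc 169, .ofNat 148, .negSucc 5, .negSucc 30⟩, ⟨.negSucc 2217, .negSucc 738, .ofNat 325, .negSucc 446, .negSucc 253, .negSucc 150⟩, ⟨.negSucc 896, .ofNat 54, .negSucc 36, .negSucc 80, .negSucc 314, .negSucc 329⟩, .ofNat 879, .ofNat 1250, .ofNat 0, .ofNat 1250, .ofNat 3231, .ofNat 0, .ofNat 128, .negSucc 220, .negSucc 531, .ofNat 0, .ofNat 114, .ofNat 220, .ofNat 0, .ofNat 0, .ofNat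 468, .ofNat 356, .ofNat 0, .ofNat 0, .ofNat 342479646801875591447445504000, .ofNat 0, .ofNat 0, .ofNat 0, .ofNat 0, .ofNat 0, .ofNat 0, .ofNat 0, .ofNat 0, .ofNat 0, .ofNat 0, .ofNat 34117450619205082425694371659435212800, .ofNat 0, .ofNat 0⟩)
    (by decide +kernel)
theorem L00838 : Good (Phi V4.P V4.D (-1) (-1)) ⟨5, 25, 3, 2, 3, 7, 2, 3, 4, 0⟩ :=
  leaf_sound (S := T4.ds_mm) T4.ok_mm (w := 192) (c := ⟨⟨.negSucc 1346, .negSucc 348, .ofNat 337, .ofNat 88, .negSucc 224, .negSucc 465⟩, ⟨.ofNat 374, .ofNat 119, .ofNat 74, .negSucc 31, .ofNat 70, .ofNat 178⟩, ⟨.ofNat 730, .ofNat 201, .negSucc 180, .negSucc 85, .ofNat 37, .ofNat 216⟩, ⟨.negSucc 2518, .negSucc 507, .ofNat 488, .ofNat 173, .negSucc 532, .negSucc 846⟩, ⟨.negSucc 869, .negSucc 22, .ofNat 50, .ofNat 79, .negSucc 418, .negSucc 226⟩, .ofNat 839, .ofNat 1159, .ofNat 0, .ofNat 1159, .ofNat 3031, .ofNat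 0, .ofNat 290, .negSucc 509, .negSucc 979, .ofNat 0, .ofNat 250, .ofNat 398, .ofNat 0, .ofNat 0, .ofNat 793, .ofNat 829, .ofNat 0, .ofNat 0, .ofNat 0, .ofNat 0, .ofNat 0, .ofNat 5881521668395859184468704088607948800, .ofNat 4619842289812998435369069733478400, .ofNat 0, .ofNat 0, .ofNat 0, .ofNat 0, .ofNat 0, .ofNat 0, .ofNat 0, .ofNat 0, .ofNat 0⟩)
    (by decide +kernel)
theorem L00839 : Good (Phi V4.P V4.D (-1) (-1)) ⟨5, 25, 3, 2, 3, 7, 2, 3, 4, 1⟩ :=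
  leaf_sound (S := T4.ds_mm) T4.ok_mm (w := 192) (c := ⟨⟨.negSucc 2347, .negSucc 299, .ofNat 430, .ofNat 216, .ofNat 511, .ofNat 562⟩, ⟨.ofNat 771, .ofNat 87, .ofNat 47, .negSucc 92, .negSucc 225, .negSucc 247⟩, ⟨.ofNat 1284, .ofNat 167, .negSucc 220, .negSucc 176, .negSucc 450, .negSucc 393⟩, ⟨.negSucc 4171, .negSucc 438, .ofNat 612, .ofNat 324, .ofNat 646, .ofNat 747⟩, ⟨.negSucc 963, .negSucc 37, .ofNat 24, .negSucc 60, .negSucc 465, .negSucc 411⟩, .ofNat 838, .ofNat 1164, .ofNat 0, .ofNat 1164, .ofNat 3072, .ofNat 0, .ofNat 287, .negSucc 532, .negSucc 1016, .ofNat 0, .ofNat 259, .ofNat 412, .ofNat 0, .ofNat 0, .ofNat 791, .ofNat 908, .ofNat 0, .ofNat 0, .ofNat 0, .ofNat 0, .ofNat 0, .ofNat 153642729508069016712710279407022899200, .ofNat 2969642200866897908013001290547200, .ofNat 0, .ofNat 0, .ofNat 0, .ofNat 0, .ofNat 0, .ofNat 0, .ofNat 152733388842129756603099283989096038400,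 .ofNat 0, .ofNat 0⟩)
    (by decide +kernel)
theorem L00840 : Good (Phi V4.P V4.D (-1) (-1)) ⟨5, 26, 4, 4, 2, 3, 2, 3, 3, 0⟩ :=
  out_sound (S := T4.ds_mm) T4.ok_mm (w := 64) (j := 3) (by decide +kernel)
theorem L00841 : Good (Phi V4.P V4.D (-1) (-1)) ⟨6, 52, 5, 10, 2, 3, 2, 3, 3, 0⟩ :=
  out_sound (S := T4.ds_mm) T4.ok_mm (w := 72) (j := 3) (by decide +kernel)
theorem L00842 : Good (Phi V4.P V4.D (-1) (-1)) ⟨6, 52, 5, 11, 3, 6, 2, 3, 3, 0⟩ :=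
  leaf_sound (S := T4.ds_mm) T4.ok_mm (w := 200) (c := ⟨⟨.negSucc 1709, .negSucc 946, .ofNat 361, .negSucc 369, .ofNat 174, .ofNat 362⟩, ⟨.ofNat 667, .ofNat 413, .negSucc 117, .ofNat 154, .negSucc 92, .negSucc 175⟩, ⟨.ofNat 946, .ofNat 691, .negSucc 258, .ofNat 232, .negSucc 181, .negSucc 313⟩, ⟨.negSucc 3028, .negSucc 1346, .ofNat 490, .negSucc 645, .ofNat 119, .ofNat 418⟩, ⟨.negSucc 741, .ofNat 317, .negSucc 145, .negSucc 131, .negSucc 361, .negSucc 364⟩, .ofNat 1305, .ofNat 2077, .ofNat 0, .ofNat 2077, .ofNat 4797, .ofNat 0, .ofNat 116, .negSucc 232, .negSucc 592, .ofNat 0, .ofNat 123, .ofNat 264, .ofNat 0, .ofNat 0, .ofNat 501, .ofNat 358, .ofNat 0, .ofNat 0, .ofNat 0, .ofNat 0, .ofNat 0, .ofNat 0, .ofNat 240697777314894918664767248793600, .ofNat 0, .ofNat 0, .ofNat 0, .ofNat 0, .ofNat 0, .ofNat 0, .ofNat 358685513710310258149347598285563494400, .ofNat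 87717359631718285305651501465600, .ofNat 0⟩)
    (by decide +kernel)
theorem L00843 : Good (Phi V4.P V4.D (-1) (-1)) ⟨6, 52, 5, 11, 3, 7, 2, 3, 4, 0⟩ :=
  leaf_sound (S := T4.ds_mm) T4.ok_mm (w := 200) (c := ⟨⟨.negSucc 980, .negSucc 385, .negSucc 171, .ofNat 124, .negSucc 434, .negSucc 656⟩, ⟨.ofNat 337, .ofNat 155, .ofNat 129, .negSucc 48, .ofNat 169, .ofNat 275⟩, ⟨.ofNat 455, .ofNat 217, .ofNat 159, .negSucc 88, .ofNat 177, .ofNat 330⟩, ⟨.negSucc 1951, .negSucc 609, .negSucc 256, .ofNat 244, .negSucc 875, .negSucc 1150⟩, ⟨.negSucc 926, .negSucc 64, .ofNat 80, .ofNat 107, .negSucc 419, .negSucc 238⟩, .ofNat 1316, .ofNat 2098, .ofNat 0, .ofNat 2098, .ofNat 4839, .ofNat 0, .ofNat 122, .negSucc 266, .negSucc 523, .ofNat 0, .ofNat 134, .ofNat 233, .ofNat 0, .ofNat 0, .ofNat 413, .ofNat 709, .ofNat 0, .ofNat 0, .ofNat 0, .ofNat 0, .ofNat 0, .ofNat 0, .ofNat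 4458795268627266166112620275302400, .ofNat 0, .ofNat 0, .ofNat 0, .ofNat 0, .ofNat 0, .ofNat 0, .ofNat 3540409176166702852049251085231692185600, .ofNat 1438670291704563484413392427417600, .ofNat 0⟩)
    (by decide +kernel)
theorem L00844 : Good (Phi V4.P V4.D (-1) (-1)) ⟨6, 52, 5, 11, 3, 7, 2, 3, 4, 1⟩ :=
  leaf_sound (S := T4.ds_mm) T4.ok_mm (w := 200) (c := ⟨⟨.negSucc 2555, .negSucc 118, .ofNat 186, .ofNat 234, .ofNat 694, .ofNat 736⟩, ⟨.ofNat 1017, .ofNat 35, .negSucc 25, .negSucc 103, .negSucc 325, .negSucc 340⟩, ⟨.ofNat 1409, .ofNat 89, .negSucc 93, .negSucc 190, .negSucc 560, .negSucc 504⟩, ⟨.negSucc 4479, .negSucc 154, .ofNat 280, .ofNat 356, .ofNat 893, .ofNat 989⟩, ⟨.negSucc 978, .ofNat 16, .ofNat 10, .negSucc 34, .negSucc 488, .negSucc 422⟩, .ofNat 1379, .ofNat 2234, .ofNat 0, .ofNat 2234, .ofNat 5138, .ofNat 0, .ofNat 121, .negSucc 277, .negSucc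 577, .ofNat 0, .ofNat 140, .ofNat 257, .ofNat 0, .ofNat 0, .ofNat 432, .ofNat 657, .ofNat 0, .ofNat 0, .ofNat 0, .ofNat 0, .ofNat 0, .ofNat 0, .ofNat 2945668726139438434643069003366400, .ofNat 0, .ofNat 0, .ofNat 13885166234683730927012458215476979302400, .ofNat 0, .ofNat 0, .ofNat 0, .ofNat 17790114432661848843301055279217298636800, .ofNat 706047645402497289486665672294400, .ofNat 0⟩)
    (by decide +kernel)
theorem L00845 : Good (Phi V4.P V4.D (-1) (-1)) ⟨6, 53, 4, 5, 2, 3, 2, 3, 3, 0⟩ :=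
  out_sound (S := T4.ds_mm) T4.ok_mm (w := 72) (j := 3) (by decide +kernel)
theorem L00846 : Good (Phi V4.P V4.D (-1) (-1)) ⟨5, 27, 3, 2, 2, 3, 2, 3, 3, 0⟩ :=
  out_sound (S := T4.ds_mm) T4.ok_mm (w := 64) (j := 3) (by decide +kernel)
theorem L00847 : Good (Phi V4.P V4.D (-1) (-1)) ⟨3, 7, 3, 2, 2, 3, 2, 3, 3, 0⟩ :=
  out_sound (S := T4.ds_mm) T4.ok_mm (w := 48) (j := 3) (by decide +kernel)
theorem L00848 : Good (Phi V4.P V4.D (-1) (-1)) ⟨4, 12, 3, 2, 2, 2, 2, 2, 4, 2⟩ :=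
  leaf_sound (S := T4.ds_mm) T4.ok_mm (w := 176) (c := ⟨⟨.negSucc 1197, .negSucc 277, .ofNat 239, .negSucc 354, .ofNat 372, .ofNat 141⟩, ⟨.ofNat 382, .ofNat 83, .ofNat 46, .ofNat 110, .negSucc 154, .negSucc 56⟩, ⟨.ofNat 788, .ofNat 227, .negSucc 212, .ofNat 173, .negSucc 415, .negSucc 82⟩, ⟨.negSucc 2186, .negSucc 349, .ofNat 302, .negSucc 751, .ofNat 505, .ofNat 192⟩, ⟨.negSucc 475, .ofNat 24, .negSucc 53, .negSucc 448, .negSucc 291, .negSucc 132⟩, .ofNat 523, .ofNat 505, .ofNat 0, .ofNat 505, .ofNat 1594, .ofNat 0, .ofNat 272, .negSucc 289, .negSucc 654, .ofNat 0, .ofNat 188, .ofNat 252, .ofNat 0, .ofNat 0, .ofNat 733, .ofNat 567, .ofNat 0, .ofNat 0, .ofNat 0, .ofNat 0, .ofNat 0, .ofNat 0, .ofNat 0, .ofNat 0, .ofNat 0, .ofNat 0, .ofNat 0, .ofNat 0, .ofNat 0, .ofNat 0, .ofNat 0, .ofNat 0⟩)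
    (by decide +kernel)
theorem L00849 : Good (Phi V4.P V4.D (-1) (-1)) ⟨4, 12, 3, 2, 2, 3, 2, 2, 4, 2⟩ :=
  leaf_sound (S := T4.ds_mm) T4.ok_mm (w := 184) (c := ⟨⟨.negSucc 1954, .negSucc 449, .ofNat 447, .negSucc 135, .ofNat 534, .ofNat 549⟩, ⟨.ofNat 649, .ofNat 136, .ofNat 20, .ofNat 34, .negSucc 225, .negSucc 228⟩, ⟨.ofNat 1191, .ofNat 297, .negSucc 287, .ofNat 58, .negSucc 495, .negSucc 343⟩, ⟨.negSucc 3465, .negSucc 592, .ofNat 599, .negSucc 352, .ofNat 666, .ofNat 726⟩, ⟨.negSucc 569, .ofNat 39, .negSucc 125, .negSucc 326, .negSucc 559, .negSucc 472⟩, .ofNat 529, .ofNat 517, .ofNat 0, .ofNat 517, .ofNat 1601, .ofNat 0, .ofNat 314, .negSucc 405, .negSucc 745, .ofNat 0, .ofNat 231, .ofNat 294, .ofNat 0, .ofNat 0, .ofNat 696, .ofNat 1104, .ofNat 0, .ofNat 0, .ofNat 154479443866465179960292147200, .ofNat 0, .ofNat 0, .ofNat 0, .ofNat 0, .ofNat 0, .ofNat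 0, .ofNat 0, .ofNat 0, .ofNat 0, .ofNat 0, .ofNat 0, .ofNat 17902525232538111700853430681600, .ofNat 0⟩)
    (by decide +kernel)
theorem L00850 : Good (Phi V4.P V4.D (-1) (-1)) ⟨4, 13, 3, 2, 2, 2, 2, 2, 4, 2⟩ :=
  leaf_sound (S := T4.ds_mm) T4.ok_mm (w := 184) (c := ⟨⟨.negSucc 1643, .ofNat 167, .ofNat 248, .negSucc 325, .ofNat 533, .ofNat 245⟩, ⟨.ofNat 577, .negSucc 98, .ofNat 12, .ofNat 119, .negSucc 249, .negSucc 115⟩, ⟨.ofNat 1124, .negSucc 45, .negSucc 196, .ofNat 140, .negSucc 537, .negSucc 161⟩, ⟨.negSucc 2694, .ofNat 228, .ofNat 275, .negSucc 714, .ofNat 687, .ofNat 312⟩, ⟨.negSucc 271, .negSucc 222, .negSucc 173, .negSucc 449, .negSucc 372, .negSucc 180⟩, .ofNat 1167, .ofNat 1789, .ofNat 0, .ofNat 1789, .ofNat 4181, .ofNat 0, .ofNat 192, .negSucc 357, .negSucc 734, .ofNat 0, .ofNat 200, .ofNat 335, .ofNat 0, .ofNat 0, .ofNat 780, .ofNat 2694, .ofNat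 0, .ofNat 0, .ofNat 9784003508306207455718670336000, .ofNat 0, .ofNat 0, .ofNat 0, .ofNat 483158019990644570532920426496000, .ofNat 0, .ofNat 0, .ofNat 0, .ofNat 193524135568796169463090957516800, .ofNat 0, .ofNat 0, .ofNat 0, .ofNat 175533637137796117849251092889600, .ofNat 0⟩)
    (by decide +kernel)
theorem L00851 : Good (Phi V4.P V4.D (-1) (-1)) ⟨4, 13, 3, 2, 2, 3, 2, 2, 4, 2⟩ :=
  leaf_sound (S := T4.ds_mm) T4.ok_mm (w := 184) (c := ⟨⟨.negSucc 2111, .ofNat 75, .negSucc 285, .ofNat 39, .ofNat 816, .ofNat 966⟩, ⟨.ofNat 722, .negSucc 60, .ofNat 303, .negSucc 35, .negSucc 385, .negSucc 452⟩, ⟨.ofNat 1356, .ofNat 24, .ofNat 81, .ofNat 9, .negSucc 699, .negSucc 574⟩, ⟨.negSucc 3567, .ofNat 168, .negSucc 466, .negSucc 114, .ofNat 1024, .ofNat 1250⟩, ⟨.negSucc 582, .negSucc 28, .ofNat 95, .negSucc 404, .negSucc 635, .negSucc 660⟩, .ofNat 1377, .ofNat 2230,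 .ofNat 0, .ofNat 2230, .ofNat 5129, .ofNat 0, .ofNat 216, .negSucc 485, .negSucc 831, .ofNat 0, .ofNat 254, .ofNat 380, .ofNat 0, .ofNat 0, .ofNat 727, .ofNat 1726, .ofNat 0, .ofNat 0, .ofNat 4358288502029198533424106700800, .ofNat 0, .ofNat 0, .ofNat 0, .ofNat 486978950415581453869921389772800, .ofNat 0, .ofNat 0, .ofNat 0, .ofNat 354081061811350065705404438937600, .ofNat 0, .ofNat 0, .ofNat 0, .ofNat 171152233606928239445535621120000, .ofNat 0⟩)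
    (by decide +kernel)
theorem L00852 : Good (Phi V4.P V4.D (-1) (-1)) ⟨3, 7, 3, 2, 1, 1, 2, 2, 4, 2⟩ :=
  out_sound (S := T4.ds_mm) T4.ok_mm (w := 48) (j := 3) (by decide +kernel)
theorem L00853 : Good (Phi V4.P V4.D (-1) (-1)) ⟨4, 12, 3, 2, 2, 2, 2, 3, 4, 2⟩ :=
  leaf_sound (S := T4.ds_mm) T4.ok_mm (w := 176) (c := ⟨⟨.negSucc 1208, .ofNat 26, .ofNat 257, .negSucc 232, .ofNat 803, .ofNat 450⟩, ⟨.ofNat 406, .negSucc 66, .ofNat 21, .ofNat 59, .negSucc 309, .negSucc 183⟩, ⟨.ofNat 652, .negSucc 31, .negSucc 216, .ofNat 140, .negSucc 737, .negSucc 331⟩, ⟨.negSucc 2237, .ofNat 78, .ofNat 312, .negSucc 615, .ofNat 1294, .ofNat 696⟩, ⟨.negSucc 688, .negSucc 35, .negSucc 46, .negSucc 613, .negSucc 65, .negSucc 100⟩, .ofNat 531, .ofNat 521, .ofNat 0, .ofNat 521, .ofNat 1603, .ofNat 0, .ofNat 288, .negSucc 309, .negSucc 789, .ofNat 0, .ofNat 201, .ofNat 294, .ofNat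 0, .ofNat 0, .ofNat 815, .ofNat 602, .ofNat 0, .ofNat 0, .ofNat 0, .ofNat 0, .ofNat 0, .ofNat 0, .ofNat 0, .ofNat 0, .ofNat 0, .ofNat 0, .ofNat 0, .ofNat 0, .ofNat 0, .ofNat 0, .ofNat 0, .ofNat 0⟩)
    (by decide +kernel)
theorem L00854 : Good (Phi V4.P V4.D (-1) (-1)) ⟨5, 24, 3, 2, 2, 3, 2, 3, 4, 2⟩ :=
  leaf_sound (S := T4.ds_mm) T4.ok_mm (w := 184) (c := ⟨⟨.negSucc 1598, .ofNat 20, .ofNat 316, .negSucc 108, .ofNat 715, .ofNat 666⟩, ⟨.ofNat 501, .negSucc 49, .ofNat 75, .ofNat 12, .negSucc 258, .negSucc 245⟩, ⟨.ofNat 852, .negSucc 25, .negSucc 197, .negSucc 8, .negSucc 610, .negSucc 451⟩, ⟨.negSucc 3057, .ofNat 45, .ofNat 411, .negSucc 355, .ofNat 1094, .ofNat 982⟩, ⟨.negSucc 1072, .negSucc 54, .negSucc 47, .negSucc 502, .negSucc 301, .negSucc 397⟩, .ofNat 510, .ofNat 484, .ofNat 0, .ofNat 484, .ofNat 1651, .ofNat 0, .ofNat 351, .negSucc 390, .negSucc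 803, .ofNat 0, .ofNat 217, .ofNat 278, .ofNat 0, .ofNat 0, .ofNat 732, .ofNat 816, .ofNat 0, .ofNat 0, .ofNat 0, .ofNat 0, .ofNat 0, .ofNat 5151395249446173783819402144330547200, .ofNat 0, .ofNat 0, .ofNat 0, .ofNat 4321733167033339147507512511561728000, .ofNat 2643632683580393476054843392000, .ofNat 0, .ofNat 0, .ofNat 0, .ofNat 0, .ofNat 0⟩)
    (by decide +kernel)
theorem L00855 : Good (Phi V4.P V4.D (-1) (-1)) ⟨5, 25, 3, 2, 2, 3, 2, 3, 4, 2⟩ :=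
  leaf_sound (S := T4.ds_mm) T4.ok_mm (w := 184) (c := ⟨⟨.negSucc 1949, .ofNat 126, .ofNat 335, .ofNat 103, .ofNat 1076, .ofNat 930⟩, ⟨.ofNat 630, .negSucc 134, .ofNat 79, .negSucc 66, .negSucc 446, .negSucc 397⟩, ⟨.ofNat 1005, .negSucc 118, .negSucc 147, .negSucc 58, .negSucc 868, .negSucc 610⟩, ⟨.negSucc 3516, .ofNat 175, .ofNat 426, .negSucc 61, .ofNat 1621, .ofNat 1308⟩, ⟨.negSucc 1030, .negSucc 59, .negSucc 36, .negSucc 572, .negSucc 336, .negSucc 508⟩, .ofNat 543, .ofNat 540, .ofNat 0, .ofNat 540, .ofNat 1574, .ofNat 0, .ofNat 330, .negSucc 440, .negSucc 903, .ofNat 0, .ofNat 249, .ofNat 361, .ofNat 0, .ofNat 0, .ofNat 766, .ofNat 559, .ofNat 0, .ofNat 0, .ofNat 0, .ofNat 0, .ofNat 0, .ofNat 3444061824857664831059099532656640000, .ofNat 0, .ofNat 0, .ofNat 0, .ofNat 3764152865649806093721100863563366400, .ofNat 0, .ofNat 0, .ofNat 0, .ofNat 0, .ofNat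 0, .ofNat 0⟩)
    (by decide +kernel)
theorem L00856 : Good (Phi V4.P V4.D (-1) (-1)) ⟨5, 26, 4, 4, 1, 1, 2, 3, 4, 2⟩ :=
  out_sound (S := T4.ds_mm) T4.ok_mm (w := 64) (j := 3) (by decide +kernel)
theorem L00857 : Good (Phi V4.P V4.D (-1) (-1)) ⟨5, 26, 4, 5, 2, 2, 2, 3, 4, 2⟩ :=
  leaf_sound (S := T4.ds_mm) T4.ok_mm (w := 192) (c := ⟨⟨.negSucc 1053, .negSucc 46, .negSucc 87, .ofNat 8, .ofNat 1089, .ofNat 481⟩, ⟨.ofNat 373, .negSucc 10, .ofNat 92, .negSucc 36, .negSucc 475, .negSucc 215⟩, ⟨.ofNat 525, .negSucc 76, .ofNat 35, .negSucc 20, .negSucc 964, .negSucc 351⟩, ⟨.negSucc 1939, .negSucc 47, .negSucc 197, .negSucc 287, .ofNat 1714, .ofNat 702⟩, ⟨.negSucc 682, .ofNat 64, .negSucc 42, .negSucc 692, .negSucc 49, .negSucc 145⟩, .ofNat 1366, .ofNat 2206, .ofNat 0, .ofNat 2206, .ofNat 5076, .ofNat 0, .ofNat 401, .negSucc 743, .negSucc 1674, .ofNat 0, .ofNat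 415, .ofNat 745, .ofNat 0, .ofNat 0, .ofNat 1698, .ofNat 2059, .ofNat 0, .ofNat 0, .ofNat 0, .ofNat 0, .ofNat 0, .ofNat 0, .ofNat 269818461208530711077934071808000, .ofNat 0, .ofNat 0, .ofNat 45652805385138211398499743455143526400, .ofNat 150941771058078133424225884569600, .ofNat 0, .ofNat 0, .ofNat 0, .ofNat 303193029465369636207709283942400, .ofNat 0⟩)
    (by decide +kernel)
theorem L00858 : Good (Phi V4.P V4.D (-1) (-1)) ⟨5, 26, 4, 5, 2, 3, 2, 3, 4, 2⟩ :=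
  leaf_sound (S := T4.ds_mm) T4.ok_mm (w := 192) (c := ⟨⟨.negSucc 1603, .negSucc 406, .ofNat 68, .ofNat 137, .ofNat 1162, .ofNat 1002⟩, ⟨.ofNat 557, .ofNat 117, .ofNat 62, .negSucc 83, .negSucc 520, .negSucc 462⟩, ⟨.ofNat 766, .ofNat 111, .negSucc 8, .negSucc 40, .negSucc 924, .negSucc 658⟩, ⟨.negSucc 3002, .negSucc 571, .ofNat 45, .negSucc 1, .ofNat 1712, .ofNat 1355⟩, ⟨.negSucc 1157, .ofNat 168, .negSucc 11, .negSucc 505, .negSucc 315, .negSucc 549⟩, .ofNat 1385, .ofNat 2248, .ofNat 0, .ofNat 2248, .ofNat 5169, .ofNat 0, .ofNat 227, .negSucc 506, .negSucc 910, .ofNat 0, .ofNat 262, .ofNat 410, .ofNat 0, .ofNat 0, .ofNat 761, .ofNat 603, .ofNat 0, .ofNat 0, .ofNat 0, .ofNat 0, .ofNat 0, .ofNat 0, .ofNat 22637520383001901964462968012800, .ofNat 0, .ofNat 0, .ofNat 17128151221253943754158788539160985600, .ofNat 51045800929954561861980939878400, .ofNat 0,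 .ofNat 0, .ofNat 1254172154296300268223830086700236800, .ofNat 73958505167876215026472294809600, .ofNat 0⟩)
    (by decide +kernel)
theorem L00859 : Good (Phi V4.P V4.D (-1) (-1)) ⟨5, 27, 3, 2, 1, 1, 2, 3, 4, 2⟩ :=
  out_sound (S := T4.ds_mm) T4.ok_mm (w := 64) (j := 3) (by decide +kernel)
theorem L00860 : Good (Phi V4.P V4.D (-1) (-1)) ⟨3, 7, 3, 2, 1, 1, 2, 3, 4, 2⟩ :=
  out_sound (S := T4.ds_mm) T4.ok_mm (w := 48) (j := 3) (by decide +kernel)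
theorem L00861 : Good (Phi V4.P V4.D (-1) (-1)) ⟨4, 12, 3, 2, 2, 2, 2, 2, 4, 3⟩ :=
  leaf_sound (S := T4.ds_mm) T4.ok_mm (w := 184) (c := ⟨⟨.negSucc 1369, .negSucc 166, .ofNat 266, .negSucc 48, .ofNat 544, .ofNat 316⟩, ⟨.ofNat 464, .ofNat 8, .ofNat 40, .negSucc 16, .negSucc 216, .negSucc 130⟩, ⟨.ofNat 950, .ofNat 108, .negSucc 205, .negSucc 47, .negSucc 558, .negSucc 218⟩, ⟨.negSucc 2437, .negSucc 196, .ofNat 316, .negSucc 345, .ofNat 792, .ofNat 447⟩, ⟨.negSucc 474, .ofNat 26, .negSucc 106, .negSucc 697, .negSucc 271, .negSucc 183⟩, .ofNat 526, .ofNat 513, .ofNat 0, .ofNat 513, .ofNat 1613, .ofNat 0, .ofNat 257, .negSucc 274, .negSucc 520, .ofNat 0, .ofNat 179, .ofNat 201, .ofNat 0, .ofNat 0, .ofNat 633, .ofNat 2086, .ofNat 0, .ofNat 0, .ofNat 0, .ofNat 0, .ofNat 0, .ofNat 0, .ofNat 0, .ofNat 0, .ofNat 0, .ofNat 0, .ofNat 0, .ofNat 0, .ofNat 0, .ofNat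 0, .ofNat 0, .ofNat 0⟩)
    (by decide +kernel)
theorem L00862 : Good (Phi V4.P V4.D (-1) (-1)) ⟨4, 12, 3, 2, 2, 2, 2, 3, 4, 3⟩ :=
  leaf_sound (S := T4.ds_mm) T4.ok_mm (w := 184) (c := ⟨⟨.negSucc 1039, .ofNat 149, .ofNat 206, .ofNat 113, .ofNat 961, .ofNat 315⟩, ⟨.ofNat 358, .negSucc 151, .ofNat 41, .negSucc 81, .negSucc 365, .negSucc 124⟩, ⟨.ofNat 538, .negSucc 143, .negSucc 162, .negSucc 118, .negSucc 856, .negSucc 231⟩, ⟨.negSucc 1948, .ofNat 213, .ofNat 246, .negSucc 116, .ofNat 1577, .ofNat 485⟩, ⟨.negSucc 706, .negSucc 94, .negSucc 7, .negSucc 804, .negSucc 10, .negSucc 97⟩, .ofNat 525, .ofNat 509, .ofNat 0, .ofNat 509, .ofNat 1595, .ofNat 0, .ofNat 548, .negSucc 576, .negSucc 1238, .ofNat 0, .ofNat 377, .ofNat 453, .ofNat 0, .ofNat 0, .ofNat 1376, .ofNat 2100, .ofNat 0, .ofNat 0, .ofNat 0, .ofNat 0, .ofNat 0, .ofNat 1170945913340817184352200137533030400,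 .ofNat 0, .ofNat 0, .ofNat 0, .ofNat 1196489534154993252328355367852441600, .ofNat 0, .ofNat 0, .ofNat 0, .ofNat 1100073767386508271733391435287756800, .ofNat 0, .ofNat 0⟩)
    (by decide +kernel)
theorem L00863 : Good (Phi V4.P V4.D (-1) (-1)) ⟨5, 24, 3, 2, 2, 3, 1, 1, 4, 3⟩ :=
  leaf_sound (S := T4.ds_mm) T4.ok_mm (w := 184) (c := ⟨⟨.negSucc 1659, .ofNat 27, .ofNat 179, .ofNat 46, .ofNat 1337, .ofNat 450⟩, ⟨.ofNat 533, .negSucc 58, .ofNat 137, .negSucc 48, .negSucc 503, .negSucc 176⟩, ⟨.ofNat 1014, .negSucc 17, .negSucc 84, .negSucc 30, .negSucc 1249, .negSucc 284⟩, ⟨.negSucc 3090, .ofNat 56, .ofNat 155, .negSucc 172, .ofNat 1926, .ofNat 585⟩, ⟨.negSucc 875, .negSucc 59, .negSucc 69, .negSucc 726, .negSucc 904, .negSucc 488⟩, .ofNat 511, .ofNat 486, .ofNat 0, .ofNat 486, .ofNat 1651, .ofNat 0, .ofNat 304, .negSucc 348, .negSucc 484, .ofNat 0, .ofNat 203,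 .ofNat 180, .ofNat 0, .ofNat 0, .ofNat 569, .ofNat 406, .ofNat 0, .ofNat 0, .ofNat 0, .ofNat 0, .ofNat 0, .ofNat 2416690045940993866339868659521945600, .ofNat 0, .ofNat 0, .ofNat 0, .ofNat 1693724684588306271697953647650406400, .ofNat 0, .ofNat 0, .ofNat 0, .ofNat 1386349102091358420852888223875072000, .ofNat 0, .ofNat 0⟩)
    (by decide +kernel)
theorem L00864 : Good (Phi V4.P V4.D (-1) (-1)) ⟨5, 25, 3, 2, 2, 3, 2, 2, 4, 3⟩ :=
  leaf_sound (S := T4.ds_mm) T4.ok_mm (w := 184) (c := ⟨⟨.negSucc 1885, .ofNat 72, .ofNat 255, .ofNat 177, .ofNat 826, .ofNat 575⟩, ⟨.ofNat 623, .negSucc 94, .ofNat 89, .negSucc 114, .negSucc 355, .negSucc 256⟩, ⟨.ofNat 1110, .negSucc 37, .negSucc 137, .negSucc 60, .negSucc 731, .negSucc 350⟩, ⟨.negSucc 3305, .ofNat 123, .ofNat 216, .negSucc 46, .ofNat 1141, .ofNat 709⟩, ⟨.negSucc 811, .negSucc 15, .negSucc 173, .negSucc 827, .negSucc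 489, .negSucc 551⟩, .ofNat 539, .ofNat 529, .ofNat 0, .ofNat 529, .ofNat 1547, .ofNat 0, .ofNat 289, .negSucc 381, .negSucc 534, .ofNat 0, .ofNat 231, .ofNat 228, .ofNat 0, .ofNat 0, .ofNat 586, .ofNat 2285, .ofNat 0, .ofNat 0, .ofNat 0, .ofNat 0, .ofNat 0, .ofNat 0, .ofNat 0, .ofNat 0, .ofNat 0, .ofNat 0, .ofNat 0, .ofNat 0, .ofNat 0, .ofNat 0, .ofNat 0, .ofNat 0⟩)
    (by decide +kernel)
theorem L00865 : Good (Phi V4.P V4.D (-1) (-1)) ⟨5, 25, 3, 2, 2, 3, 2, 3, 4, 3⟩ :=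
  leaf_sound (S := T4.ds_mm) T4.ok_mm (w := 184) (c := ⟨⟨.negSucc 1089, .ofNat 180, .ofNat 257, .ofNat 211, .ofNat 1188, .ofNat 565⟩, ⟨.ofNat 292, .negSucc 159, .ofNat 71, .negSucc 119, .negSucc 479, .negSucc 238⟩, ⟨.ofNat 450, .negSucc 144, .negSucc 143, .negSucc 107, .negSucc 933, .negSucc 378⟩, ⟨.negSucc 2256, .ofNat 238, .ofNat 270, .ofNat 21, .ofNat 1839, .ofNat 799⟩, ⟨.negSucc 1428, .negSucc 90, .negSucc 49, .negSucc 805, .negSucc 240, .negSucc 302⟩, .ofNat 545, .ofNat 544, .ofNat 0, .ofNat 544, .ofNat 1578, .ofNat 0, .ofNat 1198, .negSucc 1562, .negSucc 2809, .ofNat 0, .ofNat 920, .ofNat 1136, .ofNat 0, .ofNat 0, .ofNat 2701, .ofNat 5139, .ofNat 0, .ofNat 0, .ofNat 0, .ofNat 0, .ofNat 0, .ofNat 146094226506744997798907897302115942400, .ofNat 0, .ofNat 0, .ofNat 0, .ofNat 198965366213486644717481339020482969600, .ofNat 0, .ofNat 0, .ofNat 0, .ofNat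 147130671639101941297781705720777932800, .ofNat 0, .ofNat 0⟩)
    (by decide +kernel)
theorem L00866 : Good (Phi V4.P V4.D (-1) (-1)) ⟨6, 52, 4, 4, 1, 1, 1, 1, 4, 3⟩ :=
  out_sound (S := T4.ds_mm) T4.ok_mm (w := 72) (j := 3) (by decide +kernel)
theorem L00867 : Good (Phi V4.P V4.D (-1) (-1)) ⟨6, 52, 4, 5, 2, 2, 1, 1, 4, 3⟩ :=
  leaf_sound (S := T4.ds_mm) T4.ok_mm (w := 184) (c := ⟨⟨.negSucc 1504, .ofNat 160, .ofNat 59, .ofNat 93, .ofNat 1652, .ofNat 286⟩, ⟨.ofNat 568, .negSucc 82, .ofNat 40, .negSucc 78, .negSucc 740, .negSucc 132⟩, ⟨.ofNat 1041, .negSucc 101, .negSucc 61, .negSucc 137, .negSucc 1560, .negSucc 201⟩, ⟨.negSucc 2587, .ofNat 315, .ofNat 47, .negSucc 196, .ofNat 2445, .ofNat 381⟩, ⟨.negSucc 503, .ofNat 123, .negSucc 41, .negSucc 792, .negSucc 424, .negSucc 171⟩, .ofNat 911, .ofNat 1255, .ofNat 0, .ofNat 1255, .ofNat 3019, .ofNat 0, .ofNat 196,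 .negSucc 327, .negSucc 578, .ofNat 0, .ofNat 191, .ofNat 262, .ofNat 0, .ofNat 0, .ofNat 668, .ofNat 961, .ofNat 0, .ofNat 0, .ofNat 0, .ofNat 0, .ofNat 0, .ofNat 111210216574318894473436877236155187200, .ofNat 89988524575192720600989696000, .ofNat 0, .ofNat 0, .ofNat 70648486162930895322717887698619596800, .ofNat 414601013906590447021798195200, .ofNat 0, .ofNat 0, .ofNat 45593755391645901069366892296771993600, .ofNat 0, .ofNat 0⟩)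
    (by decide +kernel)
theorem L00868 : Good (Phi V4.P V4.D (-1) (-1)) ⟨6, 52, 4, 5, 2, 3, 2, 2, 4, 3⟩ :=
  leaf_sound (S := T4.ds_mm) T4.ok_mm (w := 192) (c := ⟨⟨.negSucc 1729, .ofNat 103, .ofNat 69, .ofNat 277, .ofNat 926, .ofNat 613⟩, ⟨.ofNat 610, .negSucc 83, .ofNat 77, .negSucc 161, .negSucc 430, .negSucc 297⟩, ⟨.ofNat 1000, .negSucc 38, .negSucc 37, .negSucc 50, .negSucc 807, .negSucc 373⟩, ⟨.negSucc 3135, .ofNat 136, .ofNat 93, .ofNat 69, .ofNat 1221, .ofNat 699⟩, ⟨.negSucc 999, .negSucc 72, .ofNat 94, .negSucc 857, .negSucc 583, .negSucc 640⟩, .ofNat 909, .ofNat 1253, .ofNat 0, .ofNat 1253, .ofNat 3018, .ofNat 0, .ofNat 442, .negSucc 856, .negSucc 1089, .ofNat 0, .ofNat 474, .ofNat 504, .ofNat 0, .ofNat 0, .ofNat 1173, .ofNat 6052, .ofNat 0, .ofNat 0, .ofNat 0, .ofNat 0, .ofNat 0, .ofNat 1020309929458918518068476689883594752000, .ofNat 54245106961713216874828372377600,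 .ofNat 0, .ofNat 0, .ofNat 0, .ofNat 48586857318023977514603800166400, .ofNat 0, .ofNat 0, .ofNat 0, .ofNat 0, .ofNat 0⟩)
    (by decide +kernel)
theorem L00869 : Good (Phi V4.P V4.D (-1) (-1)) ⟨6, 52, 4, 5, 2, 3, 2, 3, 4, 3⟩ :=
  leaf_sound (S := T4.ds_mm) T4.ok_mm (w := 200) (c := ⟨⟨.negSucc 870, .ofNat 86, .ofNat 167, .ofNat 312, .ofNat 1428, .ofNat 621⟩, ⟨.ofNat 226, .negSucc 88, .ofNat 12, .negSucc 175, .negSucc 628, .negSucc 284⟩, ⟨.ofNat 251, .negSucc 78, .negSucc 80, .negSucc 110, .negSucc 1073, .negSucc 404⟩, ⟨.negSucc 2021, .ofNat 81, .ofNat 211, .ofNat 142, .ofNat 2210, .ofNat 857⟩, ⟨.negSucc 1599, .negSucc 87, .ofNat 18, .negSucc 813, .negSucc 141, .negSucc 300⟩, .ofNat 1172, .ofNat 1796, .ofNat 0, .ofNat 1796, .ofNat 4188, .ofNat 0, .ofNat 1711, .negSucc 3579, .negSucc 5761, .ofNat 0, .ofNat 1904, .ofNat 2598, .ofNat 0, .ofNat 0, .ofNat 5448,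 .ofNat 11668, .ofNat 0, .ofNat 165331684796975318304975604725212774400, .ofNat 0, .ofNat 0, .ofNat 0, .ofNat 25452777703918233523831811662260731904000, .ofNat 1306735782271005689662331997388800, .ofNat 0, .ofNat 0, .ofNat 45362526662650096273282579432630281830400, .ofNat 1014404037038013356460783068774400, .ofNat 0, .ofNat 0, .ofNat 37848243106804109837417475387015403929600, .ofNat 0, .ofNat 0⟩)
    (by decide +kernel)
theorem L00870 : Good (Phi V4.P V4.D (-1) (-1)) ⟨6, 53, 3, 2, 1, 1, 1, 1, 4, 3⟩ :=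
  out_sound (S := T4.ds_mm) T4.ok_mm (w := 64) (j := 3) (by decide +kernel)
theorem L00871 : Good (Phi V4.P V4.D (-1) (-1)) ⟨5, 27, 3, 2, 1, 1, 1, 1, 4, 3⟩ :=
  out_sound (S := T4.ds_mm) T4.ok_mm (w := 64) (j := 3) (by decide +kernel)
theorem L00872 : Good (Phi V4.P V4.D (-1) (-1)) ⟨3, 7, 3, 2, 1, 1, 1, 1, 4, 3⟩ :=
  out_sound (S := T4.ds_mm) T4.ok_mm (w := 48) (j := 3) (by decide +kernel)
theorem L00873 : Good (Phi V4.P V4.D (-1) (-1)) ⟨2, 2, 4, 6, 1, 1, 1, 1, 2, 0⟩ :=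
  out_sound (S := T4.ds_mm) T4.ok_mm (w := 48) (j := 3) (by decide +kernel)
theorem L00874 : Good (Phi V4.P V4.D (-1) (-1)) ⟨4, 12, 4, 6, 2, 2, 1, 1, 4, 0⟩ :=
  leaf_sound (S := T4.ds_mm) T4.ok_mm (w := 184) (c := ⟨⟨.ofNat 264, .negSucc 162, .ofNat 296, .negSucc 396, .negSucc 815, .negSucc 504⟩, ⟨.negSucc 82, .negSucc 1, .negSucc 67, .ofNat 165, .ofNat 350, .ofNat 225⟩, ⟨.negSucc 601, .ofNat 128, .negSucc 238, .ofNat 366, .ofNat 513, .ofNat 454⟩, ⟨.ofNat 130, .negSucc 345, .ofNat 434, .negSucc 738, .negSucc 1382, .negSucc 754⟩, ⟨.negSucc 605, .negSucc 269, .negSucc 21, .negSucc 240, .negSucc 176, .ofNat 125⟩, .ofNat 1739, .ofNat 3051, .ofNat 0, .ofNat 3051, .ofNat 7001, .ofNat 0, .ofNat 92, .negSucc 199, .negSucc 520, .ofNat 0, .ofNat 105, .ofNat 233, .ofNat 0, .ofNat 0, .ofNat 518, .ofNat 569, .ofNat 0, .ofNat 0, .ofNat 0, .ofNat 0, .ofNat 0, .ofNat 0,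 .ofNat 0, .ofNat 0, .ofNat 0, .ofNat 0, .ofNat 3051054991477074148484500684800, .ofNat 0, .ofNat 0, .ofNat 30240954468058581825354200619417600, .ofNat 1045512030752224658461399449600, .ofNat 0⟩)
    (by decide +kernel)
theorem L00875 : Good (Phi V4.P V4.D (-1) (-1)) ⟨5, 26, 4, 6, 2, 2, 1, 1, 4, 0⟩ :=
  leaf_sound (S := T4.ds_mm) T4.ok_mm (w := 184) (c := ⟨⟨.ofNat 229, .negSucc 230, .ofNat 394, .negSucc 489, .negSucc 901, .negSucc 680⟩, ⟨.negSucc 160, .ofNat 86, .negSucc 131, .ofNat 217, .ofNat 407, .ofNat 323⟩, ⟨.negSucc 584, .ofNat 207, .negSucc 345, .ofNat 460, .ofNat 574, .ofNat 603⟩, ⟨.negSucc 45, .negSucc 290, .ofNat 545, .negSucc 880, .negSucc 1495, .negSucc 995⟩, ⟨.negSucc 922, .ofNat 106, .negSucc 78, .negSucc 227, .negSucc 149, .ofNat 167⟩, .ofNat 1092, .ofNat 1586, .ofNat 0, .ofNat 1586, .ofNat 3557, .ofNat 0, .ofNat 101, .negSucc 200, .negSucc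 589, .ofNat 0, .ofNat 115, .ofNat 279, .ofNat 0, .ofNat 0, .ofNat 562, .ofNat 395, .ofNat 0, .ofNat 0, .ofNat 0, .ofNat 0, .ofNat 0, .ofNat 0, .ofNat 653712533822328004783846195200, .ofNat 0, .ofNat 0, .ofNat 0, .ofNat 522322531038585756801250099200, .ofNat 0, .ofNat 0, .ofNat 0, .ofNat 409425878055347870603673600000, .ofNat 0⟩)
    (by decide +kernel)
theorem L00876 : Good (Phi V4.P V4.D (-1) (-1)) ⟨5, 27, 4, 6, 2, 2, 1, 1, 4, 0⟩ :=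
  out_sound (S := T4.ds_mm) T4.ok_mm (w := 64) (j := 3) (by decide +kernel)
theorem L00877 : Good (Phi V4.P V4.D (-1) (-1)) ⟨3, 7, 4, 6, 2, 2, 1, 1, 4, 0⟩ :=
  out_sound (S := T4.ds_mm) T4.ok_mm (w := 48) (j := 3) (by decide +kernel)
theorem L00878 : Good (Phi V4.P V4.D (-1) (-1)) ⟨5, 24, 4, 6, 2, 3, 1, 1, 4, 0⟩ :=
  out_sound (S := T4.ds_mm) T4.ok_mm (w := 64) (j := 3) (by decide +kernel)
theorem L00879 : Good (Phi V4.P V4.D (-1) (-1)) ⟨6, 50, 4, 6, 2, 3, 1, 1, 4, 0⟩ :=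
  out_sound (S := T4.ds_mm) T4.ok_mm (w := 72) (j := 3) (by decide +kernel)
theorem L00880 : Good (Phi V4.P V4.D (-1) (-1)) ⟨6, 51, 5, 12, 2, 3, 2, 2, 4, 0⟩ :=
  leaf_sound (S := T4.ds_mm) T4.ok_mm (w := 192) (c := ⟨⟨.ofNat 165, .negSucc 42, .ofNat 304, .negSucc 454, .negSucc 598, .negSucc 1335⟩, ⟨.negSucc 101, .ofNat 12, .negSucc 97, .ofNat 214, .ofNat 248, .ofNat 584⟩, ⟨.negSucc 325, .ofNat 34, .negSucc 200, .ofNat 498, .ofNat 274, .ofNat 898⟩, ⟨.negSucc 123, .negSucc 27, .ofNat 451, .negSucc 536, .negSucc 1126, .negSucc 2129⟩, ⟨.negSucc 855, .ofNat 44, .negSucc 55, .ofNat 436, .negSucc 382, .ofNat 22⟩, .ofNat 1749, .ofNat 3071, .ofNat 0, .ofNat 3071, .ofNat 7043, .ofNat 0, .ofNat 195, .negSucc 505, .negSucc 1009, .ofNat 0, .ofNat 251, .ofNat 452, .ofNat 0, .ofNat 0, .ofNat 836, .ofNat 1730, .ofNat 0, .ofNat 0, .ofNat 0, .ofNat 0, .ofNat 0, .ofNat 0,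 .ofNat 0, .ofNat 0, .ofNat 0, .ofNat 0, .ofNat 6656496896783783405968529817600, .ofNat 0, .ofNat 0, .ofNat 0, .ofNat 0, .ofNat 0⟩)
    (by decide +kernel)
theorem L00881 : Good (Phi V4.P V4.D (-1) (-1)) ⟨6, 51, 5, 12, 2, 3, 2, 3, 4, 0⟩ :=
  leaf_sound (S := T4.ds_mm) T4.ok_mm (w := 192) (c := ⟨⟨.negSucc 742, .negSucc 278, .ofNat 114, .negSucc 237, .negSucc 342, .negSucc 623⟩, ⟨.ofNat 290, .ofNat 111, .negSucc 3, .ofNat 108, .ofNat 137, .ofNat 268⟩, ⟨.ofNat 306, .ofNat 191, .negSucc 97, .ofNat 150, .ofNat 151, .ofNat 364⟩, ⟨.negSucc 1613, .negSucc 409, .ofNat 147, .negSucc 341, .negSucc 711, .negSucc 1066⟩, ⟨.negSucc 921, .ofNat 10, .negSucc 38, .ofNat 92, .negSucc 371, .negSucc 155⟩, .ofNat 1673, .ofNat 2910, .ofNat 0, .ofNat 2910, .ofNat 6697, .ofNat 0, .ofNat 101, .negSucc 251, .negSucc 529, .ofNat 0, .ofNat 124, .ofNat 235, .ofNat 0, .ofNat 0, .ofNat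 443, .ofNat 432, .ofNat 0, .ofNat 0, .ofNat 0, .ofNat 0, .ofNat 0, .ofNat 0, .ofNat 0, .ofNat 0, .ofNat 0, .ofNat 0, .ofNat 0, .ofNat 0, .ofNat 0, .ofNat 0, .ofNat 0, .ofNat 0⟩)
    (by decide +kernel)
theorem L00882 : Good (Phi V4.P V4.D (-1) (-1)) ⟨6, 51, 5, 13, 2, 3, 1, 1, 4, 0⟩ :=
  out_sound (S := T4.ds_mm) T4.ok_mm (w := 72) (j := 3) (by decide +kernel)
theorem L00883 : Good (Phi V4.P V4.D (-1) (-1)) ⟨6, 52, 4, 6, 3, 6, 1, 1, 4, 0⟩ :=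
  leaf_sound (S := T4.ds_mm) T4.ok_mm (w := 200) (c := ⟨⟨.ofNat 191, .negSucc 186, .ofNat 182, .negSucc 349, .negSucc 1153, .negSucc 1134⟩, ⟨.negSucc 144, .ofNat 75, .negSucc 11, .ofNat 162, .ofNat 505, .ofNat 519⟩, ⟨.negSucc 358, .ofNat 86, .negSucc 81, .ofNat 272, .ofNat 677, .ofNat 786⟩, ⟨.negSucc 82, .negSucc 283, .ofNat 260, .negSucc 511, .negSucc 2073, .negSucc 1765⟩, ⟨.negSucc 864, .negSucc 21, .ofNat 21, .ofNat 94, .negSucc 538, .ofNat 67⟩, .ofNat 1053, .ofNat 1527, .ofNat 0, .ofNat 1527, .ofNat 3500, .ofNat 0, .ofNat 109, .negSucc 235, .negSucc 584, .ofNat 0, .ofNat 127, .ofNat 271, .ofNat 0, .ofNat 0, .ofNat 492, .ofNat 356, .ofNat 0, .ofNat 0, .ofNat 0, .ofNat 0, .ofNat 0, .ofNat 0, .ofNat 0, .ofNat 0, .ofNat 0, .ofNat 0, .ofNat 0, .ofNat 0, .ofNat 0, .ofNat 0, .ofNat 0, .ofNat 0⟩)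
    (by decide +kernel)
theorem L00884 : Good (Phi V4.P V4.D (-1) (-1)) ⟨6, 52, 4, 6, 3, 7, 1, 1, 4, 0⟩ :=
  leaf_sound (S := T4.ds_mm) T4.ok_mm (w := 200) (c := ⟨⟨.negSucc 386, .ofNat 40, .ofNat 31, .ofNat 71, .negSucc 1037, .negSucc 1004⟩, ⟨.ofNat 125, .negSucc 33, .ofNat 74, .negSucc 23, .ofNat 442, .ofNat 452⟩, ⟨.ofNat 259, .negSucc 17, .negSucc 19, .ofNat 33, .ofNat 370, .ofNat 530⟩, ⟨.negSucc 798, .ofNat 94, .ofNat 22, .ofNat 209, .negSucc 2071, .negSucc 1703⟩, ⟨.negSucc 409, .ofNat 5, .ofNat 5, .ofNat 213, .negSucc 934, .negSucc 250⟩, .ofNat 1473, .ofNat 2384, .ofNat 0, .ofNat 2384, .ofNat 5290, .ofNat 0, .ofNat 102, .negSucc 278, .negSucc 523, .ofNat 0, .ofNat 141, .ofNat 243, .ofNat 0, .ofNat 0, .ofNat 404, .ofNat 510, .ofNat 0, .ofNat 0, .ofNat 0, .ofNat 0, .ofNat 0, .ofNat 0, .ofNat 130849746384815984274387134054400, .ofNat 0, .ofNat 0, .ofNat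 0, .ofNat 0, .ofNat 0, .ofNat 0, .ofNat 0, .ofNat 0, .ofNat 0⟩)
    (by decide +kernel)
theorem L00885 : Good (Phi V4.P V4.D (-1) (-1)) ⟨6, 53, 4, 6, 2, 3, 2, 2, 4, 0⟩ :=
  leaf_sound (S := T4.ds_mm) T4.ok_mm (w := 192) (c := ⟨⟨.ofNat 2, .negSucc 198, .ofNat 471, .negSucc 564, .negSucc 745, .negSucc 1564⟩, ⟨.negSucc 78, .ofNat 95, .negSucc 173, .ofNat 290, .ofNat 344, .ofNat 747⟩, ⟨.negSucc 190, .ofNat 183, .negSucc 304, .ofNat 622, .ofNat 347, .ofNat 964⟩, ⟨.negSucc 330, .negSucc 200, .ofNat 656, .negSucc 618, .negSucc 1352, .negSucc 2485⟩, ⟨.negSucc 741, .ofNat 184, .negSucc 115, .ofNat 553, .negSucc 388, .negSucc 81⟩, .ofNat 2018, .ofNat 3382, .ofNat 0, .ofNat 3382, .ofNat 7067, .ofNat 0, .ofNat 89, .negSucc 268, .negSucc 561, .ofNat 0, .ofNat 142, .ofNat 275, .ofNat 0, .ofNat 0, .ofNat 437, .ofNat 552, .ofNat 0, .ofNat 0, .ofNat 90710017464031628710064947200,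 .ofNat 0, .ofNat 0, .ofNat 0, .ofNat 3469713564866462337304048435200, .ofNat 0, .ofNat 0, .ofNat 0, .ofNat 5146929396197857894510205337600, .ofNat 0, .ofNat 0, .ofNat 0, .ofNat 1979646396293564606914442035200, .ofNat 0⟩)
    (by decide +kernel)
theorem L00886 : Good (Phi V4.P V4.D (-1) (-1)) ⟨6, 53, 4, 6, 2, 3, 2, 3, 4, 0⟩ :=
  leaf_sound (S := T4.ds_mm) T4.ok_mm (w := 192) (c := ⟨⟨.negSucc 1217, .negSucc 530, .ofNat 327, .negSucc 366, .negSucc 415, .negSucc 452⟩, ⟨.ofNat 463, .ofNat 246, .negSucc 61, .ofNat 180, .ofNat 185, .ofNat 211⟩, ⟨.ofNat 623, .ofNat 371, .negSucc 224, .ofNat 249, .ofNat 192, .ofNat 246⟩, ⟨.negSucc 2309, .negSucc 761, .ofNat 468, .negSucc 519, .negSucc 838, .negSucc 788⟩, ⟨.negSucc 909, .ofNat 81, .negSucc 17, .ofNat 113, .negSucc 393, .negSucc 168⟩, .ofNat 2061, .ofNat 3467, .ofNat 0, .ofNat 3467, .ofNat 7239, .ofNat 0, .ofNat 93,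 .negSucc 258, .negSucc 608, .ofNat 0, .ofNat 137, .ofNat 296, .ofNat 0, .ofNat 0, .ofNat 489, .ofNat 424, .ofNat 0, .ofNat 18901711010051415136526085704908800, .ofNat 64473502728331389885323673600, .ofNat 0, .ofNat 0, .ofNat 20424170909684746681204213327645900800, .ofNat 3334683930537032079665371545600, .ofNat 0, .ofNat 0, .ofNat 18033426903711456854900625582430617600, .ofNat 1827886360272391284749814988800, .ofNat 0, .ofNat 0, .ofNat 0, .ofNat 1710609835823574669987309158400, .ofNat 0⟩)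
    (by decide +kernel)
theorem L00887 : Good (Phi V4.P V4.D (-1) (-1)) ⟨5, 27, 4, 6, 2, 3, 1, 1, 4, 0⟩ :=
  out_sound (S := T4.ds_mm) T4.ok_mm (w := 64) (j := 3) (by decide +kernel)
theorem L00888 : Good (Phi V4.P V4.D (-1) (-1)) ⟨3, 7, 4, 6, 2, 3, 1, 1, 4, 0⟩ :=
  out_sound (S := T4.ds_mm) T4.ok_mm (w := 48) (j := 3) (by decide +kernel)
theorem L00889 : Good (Phi V4.P V4.D (-1) (-1)) ⟨4, 12, 4, 6, 2, 2, 2, 2, 4, 1⟩ :=
  leaf_sound (S := T4.ds_mm) T4.ok_mm (w := 184) (c := ⟨⟨.negSucc 526, .negSucc 323, .ofNat 165, .negSucc 513, .ofNat 84, .negSucc 245⟩, ⟨.ofNat 233, .ofNat 110, .negSucc 4, .ofNat 215, .negSucc 45, .ofNat 107⟩, ⟨.ofNat 193, .ofNat 229, .negSucc 124, .ofNat 326, .negSucc 170, .ofNat 243⟩, ⟨.negSucc 1176, .negSucc 433, .ofNat 189, .negSucc 929, .ofNat 23, .negSucc 397⟩, ⟨.negSucc 569, .negSucc 14, .negSucc 114, .negSucc 243, .negSucc 256,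 .negSucc 10⟩, .ofNat 1753, .ofNat 3084, .ofNat 0, .ofNat 3084, .ofNat 7081, .ofNat 0, .ofNat 172, .negSucc 379, .negSucc 876, .ofNat 0, .ofNat 199, .ofNat 395, .ofNat 0, .ofNat 0, .ofNat 896, .ofNat 2433, .ofNat 0, .ofNat 0, .ofNat 0, .ofNat 0, .ofNat 0, .ofNat 0, .ofNat 0, .ofNat 0, .ofNat 0, .ofNat 0, .ofNat 50542730515237190680666806681600, .ofNat 0, .ofNat 0, .ofNat 0, .ofNat 67861992807227681538032900505600, .ofNat 0⟩)
    (by decide +kernel)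
theorem L00890 : Good (Phi V4.P V4.D (-1) (-1)) ⟨4, 12, 4, 6, 2, 3, 2, 2, 4, 1⟩ :=
  leaf_sound (S := T4.ds_mm) T4.ok_mm (w := 184) (c := ⟨⟨.negSucc 1037, .negSucc 732, .ofNat 143, .negSucc 342, .ofNat 208, .negSucc 96⟩, ⟨.ofNat 419, .ofNat 327, .ofNat 29, .ofNat 152, .negSucc 109, .ofNat 34⟩, ⟨.ofNat 481, .ofNat 568, .negSucc 100, .ofNat 229, .negSucc 247, .ofNat 56⟩, ⟨.negSucc 2109, .negSucc 935, .ofNat 187, .negSucc 525, .ofNat 90, .negSucc 264⟩, ⟨.negSucc 716, .ofNat 213, .negSucc 36, .ofNat 55, .negSucc 554, .negSucc 254⟩, .ofNat 1776, .ofNat 3133, .ofNat 0, .ofNat 3133, .ofNat 7186, .ofNat 0, .ofNat 96, .negSucc 261, .negSucc 512, .ofNat 0, .ofNat 129, .ofNat 230, .ofNat 0, .ofNat 0, .ofNat 412, .ofNat 700, .ofNat 0, .ofNat 0, .ofNat 0, .ofNat 0, .ofNat 0, .ofNat 0, .ofNat 0, .ofNat 0, .ofNat 0, .ofNat 0, .ofNat 23494206261461703500819437977600, .ofNat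 0, .ofNat 0, .ofNat 0, .ofNat 5122197176915462091669975859200, .ofNat 0⟩)
    (by decide +kernel)
theorem L00891 : Good (Phi V4.P V4.D (-1) (-1)) ⟨5, 26, 4, 6, 2, 2, 2, 2, 4, 1⟩ :=
  leaf_sound (S := T4.ds_mm) T4.ok_mm (w := 184) (c := ⟨⟨.negSucc 847, .negSucc 23, .ofNat 3, .negSucc 559, .ofNat 203, .negSucc 231⟩, ⟨.ofNat 335, .negSucc 7, .ofNat 70, .ofNat 253, .negSucc 108, .ofNat 108⟩, ⟨.ofNat 418, .ofNat 7, .negSucc 10, .ofNat 359, .negSucc 255, .ofNat 238⟩, ⟨.negSucc 1609, .ofNat 6, .negSucc 21, .negSucc 977, .ofNat 167, .negSucc 366⟩, ⟨.negSucc 593, .negSucc 6, .ofNat 1, .negSucc 211, .negSucc 321, .negSucc 4⟩, .ofNat 1081, .ofNat 1570, .ofNat 0, .ofNat 1570, .ofNat 3543, .ofNat 0, .ofNat 189, .negSucc 384, .negSucc 1000, .ofNat 0, .ofNat 218, .ofNat 476, .ofNat 0, .ofNat 0, .ofNat 976, .ofNat 1591, .ofNat 0, .ofNat 0, .ofNat 0, .ofNat 0, .ofNat 0,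 .ofNat 0, .ofNat 28887105036223954113240917606400, .ofNat 0, .ofNat 0, .ofNat 0, .ofNat 15534145510467471949965557760000, .ofNat 0, .ofNat 0, .ofNat 0, .ofNat 12498553315760242428909453312000, .ofNat 0⟩)
    (by decide +kernel)
theorem L00892 : Good (Phi V4.P V4.D (-1) (-1)) ⟨5, 26, 4, 6, 2, 3, 2, 2, 4, 1⟩ :=
  leaf_sound (S := T4.ds_mm) T4.ok_mm (w := 184) (c := ⟨⟨.negSucc 1982, .negSucc 345, .ofNat 334, .negSucc 343, .ofNat 275, .ofNat 30⟩, ⟨.ofNat 847, .ofNat 148, .negSucc 49, .ofNat 157, .negSucc 150, .negSucc 28⟩, ⟨.ofNat 1197, .ofNat 168, .negSucc 157, .ofNat 214, .negSucc 314, .negSucc 51⟩, ⟨.negSucc 3326, .negSucc 444, .ofNat 493, .negSucc 535, .ofNat 149, .negSucc 107⟩, ⟨.negSucc 410, .ofNat 53, .negSucc 17, .ofNat 11, .negSucc 616, .negSucc 327⟩, .ofNat 1059, .ofNat 1532, .ofNat 0, .ofNat 1532, .ofNat 3489, .ofNat 0, .ofNat 109, .negSucc 263,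 .negSucc 570, .ofNat 0, .ofNat 139, .ofNat 268, .ofNat 0, .ofNat 0, .ofNat 439, .ofNat 429, .ofNat 0, .ofNat 0, .ofNat 28737960313330717806506803200, .ofNat 0, .ofNat 0, .ofNat 0, .ofNat 7492500114928561970563409510400, .ofNat 0, .ofNat 0, .ofNat 0, .ofNat 4495773530177004849729424588800, .ofNat 0, .ofNat 0, .ofNat 0, .ofNat 3712318656238912066498540339200, .ofNat 0⟩)
    (by decide +kernel)
theorem L00893 : Good (Phi V4.P V4.D (-1) (-1)) ⟨5, 27, 4, 6, 1, 1, 2, 2, 4, 1⟩ :=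
  out_sound (S := T4.ds_mm) T4.ok_mm (w := 64) (j := 3) (by decide +kernel)
theorem L00894 : Good (Phi V4.P V4.D (-1) (-1)) ⟨4, 12, 4, 6, 2, 2, 2, 3, 4, 1⟩ :=
  leaf_sound (S := T4.ds_mm) T4.ok_mm (w := 184) (c := ⟨⟨.negSucc 953, .negSucc 66, .ofNat 405, .negSucc 566, .ofNat 558, .ofNat 303⟩, ⟨.ofNat 423, .negSucc 12, .negSucc 109, .ofNat 233, .negSucc 247, .negSucc 133⟩, ⟨.ofNat 514, .negSucc 87, .negSucc 317, .ofNat 439, .negSucc 536, .negSucc 215⟩, ⟨.negSucc 1977, .ofNat 17, .ofNat 611, .negSucc 1086, .ofNat 846, .ofNat 465⟩, ⟨.negSucc 933, .ofNat 175, .negSucc 17, .negSucc 411, .negSucc 109, .negSucc 44⟩, .ofNat 1791, .ofNat 3169, .ofNat 0, .ofNat 3169, .ofNat 7269, .ofNat 0, .ofNat 183, .negSucc 396, .negSucc 997, .ofNat 0, .ofNat 209, .ofNat 443, .ofNat 0, .ofNat 0, .ofNat 990, .ofNat 1736, .ofNat 0, .ofNat 0, .ofNat 0, .ofNat 0, .ofNat 0, .ofNat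 0, .ofNat 0, .ofNat 0, .ofNat 0, .ofNat 0, .ofNat 90384948838661914917074475417600, .ofNat 0, .ofNat 0, .ofNat 0, .ofNat 100075786651781739149766583910400, .ofNat 0⟩)
    (by decide +kernel)
theorem L00895 : Good (Phi V4.P V4.D (-1) (-1)) ⟨5, 26, 4, 6, 2, 2, 2, 3, 4, 1⟩ :=
  leaf_sound (S := T4.ds_mm) T4.ok_mm (w := 192) (c := ⟨⟨.negSucc 1334, .ofNat 207, .ofNat 202, .negSucc 442, .ofNat 757, .ofNat 471⟩, ⟨.ofNat 559, .negSucc 145, .negSucc 12, .ofNat 189, .negSucc 357, .negSucc 223⟩, ⟨.ofNat 674, .negSucc 194, .negSucc 154, .ofNat 347, .negSucc 689, .negSucc 342⟩, ⟨.negSucc 2416, .ofNat 302, .ofNat 283, .negSucc 896, .ofNat 1112, .ofNat 690⟩, ⟨.negSucc 705, .negSucc 88, .negSucc 8, .negSucc 423, .negSucc 174, .negSucc 110⟩, .ofNat 1083, .ofNat 1574, .ofNat 0, .ofNat 1574, .ofNat 3552, .ofNat 0, .ofNat 203, .negSucc 401, .negSucc 1128, .ofNat 0, .ofNat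 228, .ofNat 526, .ofNat 0, .ofNat 0, .ofNat 1070, .ofNat 1568, .ofNat 0, .ofNat 0, .ofNat 0, .ofNat 0, .ofNat 0, .ofNat 0, .ofNat 18865214432314332224327516160000, .ofNat 0, .ofNat 0, .ofNat 2610393861886686888471370277270323200, .ofNat 17120854671655672500490705305600, .ofNat 0, .ofNat 0, .ofNat 0, .ofNat 10778947651580655454621846732800, .ofNat 0⟩)
    (by decide +kernel)
theorem L00896 : Good (Phi V4.P V4.D (-1) (-1)) ⟨5, 27, 4, 6, 2, 2, 2, 3, 4, 1⟩ :=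
  out_sound (S := T4.ds_mm) T4.ok_mm (w := 64) (j := 3) (by decide +kernel)
theorem L00897 : Good (Phi V4.P V4.D (-1) (-1)) ⟨4, 12, 4, 6, 2, 3, 2, 3, 4, 1⟩ :=
  leaf_sound (S := T4.ds_mm) T4.ok_mm (w := 184) (c := ⟨⟨.negSucc 1747, .negSucc 233, .ofNat 20, .negSucc 251, .ofNat 688, .ofNat 657⟩, ⟨.ofNat 775, .ofNat 45, .ofNat 91, .ofNat 103, .negSucc 313, .negSucc 298⟩, ⟨.ofNat 988, .ofNat 120, .negSucc 12, .ofNat 107, .negSucc 575, .negSucc 462⟩, ⟨.negSucc 3316, .negSucc 237, .negSucc 58, .negSucc 488, .ofNat 926, .ofNat 895⟩, ⟨.negSucc 973, .ofNat 81, .negSucc 119, .negSucc 194, .negSucc 406, .negSucc 360⟩, .ofNat 1727, .ofNat 3027, .ofNat 0, .ofNat 3027, .ofNat 6956, .ofNat 0, .ofNat 101, .negSucc 256, .negSucc 556, .ofNat 0, .ofNat 127, .ofNat 247, .ofNat 0, .ofNat 0, .ofNat 450, .ofNat 498, .ofNat 0, .ofNat 0, .ofNat 415380492077436906266374963200, .ofNat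 0, .ofNat 0, .ofNat 0, .ofNat 0, .ofNat 0, .ofNat 0, .ofNat 204157216270862304637575735174758400, .ofNat 13790348353512489634798082457600, .ofNat 0, .ofNat 0, .ofNat 0, .ofNat 9380628229888395229898421043200, .ofNat 0⟩)
    (by decide +kernel)
theorem L00898 : Good (Phi V4.P V4.D (-1) (-1)) ⟨6, 52, 4, 6, 2, 3, 2, 3, 5, 2⟩ :=
  leaf_sound (S := T4.ds_mm) T4.ok_mm (w := 192) (c := ⟨⟨.negSucc 1784, .negSucc 104, .ofNat 236, .negSucc 411, .ofNat 464, .ofNat 154⟩, ⟨.ofNat 734, .ofNat 36, .negSucc 3, .ofNat 185, .negSucc 227, .negSucc 74⟩, ⟨.ofNat 991, .ofNat 51, .negSucc 136, .ofNat 187, .negSucc 423, .negSucc 122⟩, ⟨.negSucc 3265, .negSucc 117, .ofNat 315, .negSucc 690, .ofNat 536, .ofNat 176⟩, ⟨.negSucc 974, .ofNat 31, .negSucc 35, .negSucc 85, .negSucc 432, .negSucc 152⟩, .ofNat 1448, .ofNat 2330, .ofNat 0, .ofNat 2330, .ofNat 5172, .ofNat 0, .ofNat 103,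 .negSucc 259, .negSucc 611, .ofNat 0, .ofNat 134, .ofNat 284, .ofNat 0, .ofNat 0, .ofNat 481, .ofNat 440, .ofNat 0, .ofNat 0, .ofNat 0, .ofNat 0, .ofNat 0, .ofNat 0, .ofNat 0, .ofNat 0, .ofNat 0, .ofNat 0, .ofNat 0, .ofNat 0, .ofNat 0, .ofNat 0, .ofNat 0, .ofNat 0⟩)
    (by decide +kernel)
theorem L00899 : Good (Phi V4.P V4.D (-1) (-1)) ⟨6, 52, 4, 6, 2, 3, 2, 3, 5, 3⟩ :=
  leaf_sound (S := T4.ds_mm) T4.ok_mm (w := 200) (c := ⟨⟨.negSucc 1881, .negSucc 19, .ofNat 181, .negSucc 274, .ofNat 981, .ofNat 554⟩, ⟨.ofNat 783, .negSucc 16, .ofNat 21, .ofNat 122, .negSucc 467, .negSucc 265⟩, ⟨.ofNat 1019, .negSucc 5, .negSucc 103, .ofNat 149, .negSucc 777, .negSucc 374⟩, ⟨.negSucc 3445, .negSucc 14, .ofNat 239, .negSucc 529, .ofNat 1354, .ofNat 762⟩, ⟨.negSucc 1049, .ofNat 0, .negSucc 9, .negSucc 216, .negSucc 428, .negSucc 246⟩, .ofNat 1487, .ofNat 2412, .ofNat 0,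 .ofNat 2412, .ofNat 5345, .ofNat 0, .ofNat 199, .negSucc 531, .negSucc 1175, .ofNat 0, .ofNat 273, .ofNat 547, .ofNat 0, .ofNat 0, .ofNat 913, .ofNat 465, .ofNat 0, .ofNat 0, .ofNat 0, .ofNat 0, .ofNat 0, .ofNat 0, .ofNat 0, .ofNat 0, .ofNat 0, .ofNat 819878968484196928634695391044750540800, .ofNat 0, .ofNat 0, .ofNat 0, .ofNat 0, .ofNat 0, .ofNat 0⟩)
    (by decide +kernel)
theorem L00900 : Good (Phi V4.P V4.D (-1) (-1)) ⟨6, 53, 4, 6, 2, 3, 2, 3, 4, 1⟩ :=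
  leaf_sound (S := T4.ds_mm) T4.ok_mm (w := 192) (c := ⟨⟨.negSucc 2156, .negSucc 522, .ofNat 209, .negSucc 289, .ofNat 769, .ofNat 974⟩, ⟨.ofNat 909, .ofNat 234, .ofNat 0, .ofNat 134, .negSucc 384, .negSucc 481⟩, ⟨.ofNat 1165, .ofNat 283, .negSucc 99, .ofNat 166, .negSucc 620, .negSucc 648⟩, ⟨.negSucc 3813, .negSucc 780, .ofNat 317, .negSucc 516, .ofNat 989, .ofNat 1326⟩, ⟨.negSucc 996, .ofNat 28, .ofNat 70, .negSucc 130, .negSucc 444, .negSucc 411⟩, .ofNat 1900, .ofNat 3147, .ofNat 0, .ofNat 3147, .ofNat 6595, .ofNat 0, .ofNat 93, .negSucc 268, .negSucc 637, .ofNat 0, .ofNat 142, .ofNat 311, .ofNat 0, .ofNat 0, .ofNat 488, .ofNat 405, .ofNat 0, .ofNat 0, .ofNat 82123258358220113113723699200, .ofNat 0, .ofNat 0, .ofNat 0, .ofNat 2522775399965466496009135718400, .ofNat 0, .ofNat 0, .ofNat 46571339882673947644644103996361932800, .ofNat 1095776065974401492878098432000,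 .ofNat 0, .ofNat 0, .ofNat 1181787081689277901895494502921011200, .ofNat 2341391315645911016593686528000, .ofNat 0⟩)
    (by decide +kernel)
theorem L00901 : Good (Phi V4.P V4.D (-1) (-1)) ⟨5, 27, 4, 6, 2, 3, 2, 3, 4, 1⟩ :=
  out_sound (S := T4.ds_mm) T4.ok_mm (w := 64) (j := 3) (by decide +kernel)
theorem L00902 : Good (Phi V4.P V4.D (-1) (-1)) ⟨3, 7, 4, 6, 1, 1, 1, 1, 4, 1⟩ :=
  out_sound (S := T4.ds_mm) T4.ok_mm (w := 48) (j := 3) (by decide +kernel)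
theorem L00903 : Good (Phi V4.P V4.D (-1) (-1)) ⟨5, 24, 4, 6, 2, 2, 1, 1, 3, 1⟩ :=
  out_sound (S := T4.ds_mm) T4.ok_mm (w := 64) (j := 3) (by decide +kernel)
theorem L00904 : Good (Phi V4.P V4.D (-1) (-1)) ⟨6, 50, 4, 6, 2, 2, 1, 1, 3, 1⟩ :=
  out_sound (S := T4.ds_mm) T4.ok_mm (w := 72) (j := 3) (by decide +kernel)
theorem L00905 : Good (Phi V4.P V4.D (-1) (-1)) ⟨6, 51, 5, 12, 2, 2, 2, 2, 3, 1⟩ :=
  leaf_sound (S := T4.ds_mm) T4.ok_mm (w := 192) (c := ⟨⟨.negSucc 1611, .ofNat 117, .negSucc 65, .negSucc 73, .ofNat 591, .ofNat 554⟩, ⟨.ofNat 697, .negSucc 69, .ofNat 68, .ofNat 10, .negSucc 269, .negSucc 253⟩, ⟨.ofNat 1082, .negSucc 75, .ofNat 34, .negSucc 32, .negSucc 589, .negSucc 377⟩, ⟨.negSucc 2722, .ofNat 151, .negSucc 106, .negSucc 391, .ofNat 802, .ofNat 731⟩, ⟨.negSucc 297, .negSucc 124, .ofNat 32, .negSucc 625, .negSucc 331, .negSucc 358⟩, .ofNat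 1404, .ofNat 2329, .ofNat 0, .ofNat 2329, .ofNat 5426, .ofNat 0, .ofNat 166, .negSucc 354, .negSucc 633, .ofNat 0, .ofNat 188, .ofNat 286, .ofNat 0, .ofNat 0, .ofNat 708, .ofNat 1693, .ofNat 0, .ofNat 0, .ofNat 0, .ofNat 0, .ofNat 0, .ofNat 0, .ofNat 0, .ofNat 0, .ofNat 0, .ofNat 0, .ofNat 0, .ofNat 0, .ofNat 0, .ofNat 0, .ofNat 0, .ofNat 0⟩)
    (by decide +kernel)

end Crest.Agent.R097C4.N4mm
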