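import Crest.Agent.R097.T4

/-!
# Row 97, box cover in dimension n = 4 (generated)
-/

set_option autoImplicit false
set_option Elab.async false
set_option maxHeartbeats 0
set_option maxRecDepth 100000

open Crest.Agent.R097 Crest.Agent.R097.KA


namespace Crest.Agent.R097C4.N4mm

theorem L00906 : Good (Phi V4.P V4.D (-1) (-1)) ⟨6, 51, 5, 12, 2, 2, 2, 3, 3, 1⟩ :=
  leaf_sound (S := T4.ds_mm) T4.ok_mm (w := 192) (c := ⟨⟨.negSucc 1162, .ofNat 46, .ofNat 78, .ofNat 21, .ofNat 1073, .ofNat 816⟩, ⟨.ofNat 494, .negSucc 42, .negSucc 5, .negSucc 33, .negSucc 469, .negSucc 363⟩, ⟨.ofNat 598, .negSucc 56, .negSucc 63, .negSucc 38, .negSucc 965, .negSucc 592⟩, ⟨.negSucc 2183, .ofNat 88, .ofNat 92, .negSucc 276, .ofNat 1710, .ofNat 1204⟩, ⟨.negSucc 744, .ofNat 33, .negSucc 31, .negSucc 713, .negSucc 22, .negSucc 235⟩, .ofNat 1800, .ofNat 3185, .ofNat 0, .ofNat 3185,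 .ofNat 7296, .ofNat 0, .ofNat 168, .negSucc 368, .negSucc 721, .ofNat 0, .ofNat 194, .ofNat 320, .ofNat 0, .ofNat 0, .ofNat 769, .ofNat 721, .ofNat 0, .ofNat 0, .ofNat 0, .ofNat 0, .ofNat 0, .ofNat 0, .ofNat 0, .ofNat 0, .ofNat 0, .ofNat 147891701728950661140104025216752025600, .ofNat 0, .ofNat 0, .ofNat 0, .ofNat 0, .ofNat 0, .ofNat 0⟩)
    (by decide +kernel)
theorem L00907 : Good (Phi V4.P V4.D (-1) (-1)) ⟨6, 51, 5, 13, 2, 2, 1, 1, 3, 1⟩ :=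
  out_sound (S := T4.ds_mm) T4.ok_mm (w := 72) (j := 3) (by decide +kernel)
theorem L00908 : Good (Phi V4.P V4.D (-1) (-1)) ⟨6, 52, 4, 6, 2, 2, 2, 2, 3, 1⟩ :=
  leaf_sound (S := T4.ds_mm) T4.ok_mm (w := 184) (c := ⟨⟨.negSucc 1504, .negSucc 134, .ofNat 223, .negSucc 256, .ofNat 642, .ofNat 637⟩, ⟨.ofNat 644, .ofNat 46, .negSucc 27, .ofNat 96, .negSucc 305, .negSucc 304⟩, ⟨.ofNat 1004, .ofNat 111, .negSucc 182, .ofNat 101, .negSucc 626, .negSucc 440⟩, ⟨.negSucc 2553, .negSucc 204, .ofNat 291, .negSucc 645, .ofNat 858, .ofNat 833⟩, ⟨.negSucc 398, .negSucc 25, .negSucc 46, .negSucc 521, .negSucc 344, .negSucc 380⟩, .ofNat 1049, .ofNat 1515, .ofNat 0, .ofNat 1515, .ofNat 3464, .ofNat 0, .ofNat 183, .negSucc 362, .negSucc 706, .ofNat 0, .ofNat 206, .ofNat 333, .ofNat 0, .ofNat 0, .ofNat 749, .ofNat 1543, .ofNat 0, .ofNat 0, .ofNat 0, .ofNat 0, .ofNat 0, .ofNat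 0, .ofNat 0, .ofNat 0, .ofNat 0, .ofNat 0, .ofNat 0, .ofNat 0, .ofNat 0, .ofNat 0, .ofNat 229856216171351873353364275200, .ofNat 0⟩)
    (by decide +kernel)
theorem L00909 : Good (Phi V4.P V4.D (-1) (-1)) ⟨6, 52, 4, 6, 2, 2, 2, 3, 3, 1⟩ :=
  leaf_sound (S := T4.ds_mm) T4.ok_mm (w := 192) (c := ⟨⟨.negSucc 1187, .ofNat 153, .ofNat 55, .ofNat 200, .ofNat 1148, .ofNat 771⟩, ⟨.ofNat 502, .negSucc 102, .ofNat 37, .negSucc 120, .negSucc 526, .negSucc 362⟩, ⟨.ofNat 598, .negSucc 132, .negSucc 44, .negSucc 159, .negSucc 1018, .negSucc 568⟩, ⟨.negSucc 2198, .ofNat 227, .ofNat 53, .negSucc 37, .ofNat 1821, .ofNat 1131⟩, ⟨.negSucc 748, .negSucc 4, .negSucc 2, .negSucc 779, .ofNat 20, .negSucc 196⟩, .ofNat 1448, .ofNat 2330, .ofNat 0, .ofNat 2330, .ofNat 5169, .ofNat 0, .ofNat 171, .negSucc 370, .negSucc 752, .ofNat 0, .ofNat 205, .ofNat 349, .ofNat 0, .ofNat 0, .ofNat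 785, .ofNat 582, .ofNat 0, .ofNat 0, .ofNat 0, .ofNat 0, .ofNat 0, .ofNat 29575740960676594471849039641968640000, .ofNat 0, .ofNat 0, .ofNat 0, .ofNat 34576163943140688150767311645153689600, .ofNat 0, .ofNat 0, .ofNat 0, .ofNat 0, .ofNat 0, .ofNat 0⟩)
    (by decide +kernel)
theorem L00910 : Good (Phi V4.P V4.D (-1) (-1)) ⟨6, 53, 4, 6, 2, 2, 2, 2, 3, 1⟩ :=
  leaf_sound (S := T4.ds_mm) T4.ok_mm (w := 192) (c := ⟨⟨.negSucc 1324, .negSucc 14, .negSucc 347, .ofNat 12, .ofNat 768, .ofNat 666⟩, ⟨.ofNat 548, .negSucc 6, .ofNat 248, .negSucc 27, .negSucc 381, .negSucc 333⟩, ⟨.ofNat 919, .negSucc 17, .ofNat 196, .negSucc 92, .negSucc 724, .negSucc 455⟩, ⟨.negSucc 2310, .ofNat 48, .negSucc 472, .negSucc 289, .ofNat 1015, .ofNat 837⟩, ⟨.negSucc 553, .ofNat 114, .ofNat 212, .negSucc 648, .negSucc 388, .negSucc 425⟩, .ofNat 1585, .ofNat 2526, .ofNat 0, .ofNat 2526,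 .ofNat 5358, .ofNat 0, .ofNat 153, .negSucc 367, .negSucc 685, .ofNat 0, .ofNat 207, .ofNat 338, .ofNat 0, .ofNat 0, .ofNat 735, .ofNat 1152, .ofNat 0, .ofNat 0, .ofNat 0, .ofNat 0, .ofNat 0, .ofNat 0, .ofNat 1591256878059515424474031718400, .ofNat 0, .ofNat 0, .ofNat 0, .ofNat 826574597476850002662575308800, .ofNat 0, .ofNat 0, .ofNat 0, .ofNat 329930206834252759144228454400, .ofNat 0⟩)
    (by decide +kernel)
theorem L00911 : Good (Phi V4.P V4.D (-1) (-1)) ⟨6, 53, 4, 6, 2, 2, 2, 3, 3, 1⟩ :=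
  leaf_sound (S := T4.ds_mm) T4.ok_mm (w := 192) (c := ⟨⟨.negSucc 1338, .ofNat 152, .ofNat 126, .ofNat 447, .ofNat 1414, .ofNat 848⟩, ⟨.ofNat 574, .negSucc 105, .negSucc 10, .negSucc 244, .negSucc 678, .negSucc 415⟩, ⟨.ofNat 671, .negSucc 74, .negSucc 101, .negSucc 322, .negSucc 1219, .negSucc 601⟩, ⟨.negSucc 2328, .ofNat 231, .ofNat 89, .ofNat 282, .ofNat 2206, .ofNat 1204⟩, ⟨.negSucc 577, .ofNat 20, .negSucc 138, .negSucc 867, .negSucc 10, .negSucc 252⟩, .ofNat 2061, .ofNat 3465, .ofNat 0, .ofNat 3465, .ofNat 7232, .ofNat 0, .ofNat 309, .negSucc 764, .negSucc 1494, .ofNat 0, .ofNat 426, .ofNat 727, .ofNat 0, .ofNat 0, .ofNat 1540, .ofNat 1644, .ofNat 0, .ofNat 0, .ofNat 0, .ofNat 0, .ofNat 0, .ofNat 153425536304619669900814149640991539200, .ofNat 3245055528880470564610139750400, .ofNat 0, .ofNat 0, .ofNat 96381964022079827460614471339212800000, .ofNat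 1898848312136303357390015692800, .ofNat 0, .ofNat 0, .ofNat 16175846509298566421932922865765580800, .ofNat 688021486722026119098689126400, .ofNat 0⟩)
    (by decide +kernel)
theorem L00912 : Good (Phi V4.P V4.D (-1) (-1)) ⟨5, 27, 4, 6, 2, 2, 1, 1, 3, 1⟩ :=
  out_sound (S := T4.ds_mm) T4.ok_mm (w := 64) (j := 3) (by decide +kernel)
theorem L00913 : Good (Phi V4.P V4.D (-1) (-1)) ⟨3, 7, 4, 6, 2, 2, 1, 1, 3, 1⟩ :=
  out_sound (S := T4.ds_mm) T4.ok_mm (w := 48) (j := 3) (by decide +kernel)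
theorem L00914 : Good (Phi V4.P V4.D (-1) (-1)) ⟨5, 24, 4, 6, 2, 3, 1, 1, 3, 1⟩ :=
  out_sound (S := T4.ds_mm) T4.ok_mm (w := 64) (j := 3) (by decide +kernel)
theorem L00915 : Good (Phi V4.P V4.D (-1) (-1)) ⟨6, 50, 4, 6, 2, 3, 1, 1, 3, 1⟩ :=
  out_sound (S := T4.ds_mm) T4.ok_mm (w := 72) (j := 3) (by decide +kernel)
theorem L00916 : Good (Phi V4.P V4.D (-1) (-1)) ⟨6, 51, 4, 6, 2, 3, 2, 2, 3, 1⟩ :=
  leaf_sound (S := T4.ds_mm) T4.ok_mm (w := 184) (c := ⟨⟨.negSucc 2204, .negSucc 45, .ofNat 186, .ofNat 58, .ofNat 796, .ofNat 1331⟩, ⟨.ofNat 956, .negSucc 7, .ofNat 17, .negSucc 48, .negSucc 364, .negSucc 617⟩, ⟨.ofNat 1334, .ofNat 24, .negSucc 109, .ofNat 18, .negSucc 702, .negSucc 826⟩, ⟨.negSucc 3767, .negSucc 53, .ofNat 192, .negSucc 195, .ofNat 1053, .ofNat 1661⟩, ⟨.negSucc 520, .ofNat 13, .negSucc 118, .negSucc 663, .negSucc 508, .negSucc 1082⟩, .ofNat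 1015, .ofNat 1501, .ofNat 0, .ofNat 1501, .ofNat 3609, .ofNat 0, .ofNat 203, .negSucc 441, .negSucc 626, .ofNat 0, .ofNat 232, .ofNat 284, .ofNat 0, .ofNat 0, .ofNat 630, .ofNat 1668, .ofNat 0, .ofNat 0, .ofNat 0, .ofNat 0, .ofNat 0, .ofNat 0, .ofNat 0, .ofNat 0, .ofNat 0, .ofNat 9431371774937309658722322641584128000, .ofNat 14437495405873582454498918400, .ofNat 0, .ofNat 0, .ofNat 0, .ofNat 0, .ofNat 0⟩)
    (by decide +kernel)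
theorem L00917 : Good (Phi V4.P V4.D (-1) (-1)) ⟨6, 51, 4, 6, 2, 3, 3, 6, 3, 1⟩ :=
  leaf_sound (S := T4.ds_mm) T4.ok_mm (w := 192) (c := ⟨⟨.negSucc 1537, .negSucc 5, .ofNat 431, .ofNat 131, .ofNat 590, .ofNat 1616⟩, ⟨.ofNat 652, .negSucc 37, .negSucc 95, .negSucc 76, .negSucc 261, .negSucc 732⟩, ⟨.ofNat 762, .negSucc 19, .negSucc 225, .negSucc 37, .negSucc 462, .negSucc 1072⟩, ⟨.negSucc 2948, .negSucc 35, .ofNat 598, .negSucc 36, .ofNat 883, .ofNat 2227⟩, ⟨.negSucc 1125, .negSucc 51, .negSucc 87, .negSucc 564, .negSucc 144, .negSucc 833⟩, .ofNat 1788, .ofNat 3165, .ofNat 0, .ofNat 3165, .ofNat 7269, .ofNat 0, .ofNat 378, .negSucc 976, .negSucc 1627, .ofNat 0, .ofNat 486, .ofNat 726, .ofNat 0, .ofNat 0, .ofNat 1445, .ofNat 1983, .ofNat 0, .ofNat 0, .ofNat 0, .ofNat 0, .ofNat 0, .ofNat 0, .ofNat 0, .ofNat 0, .ofNat 0, .ofNat 306953662141191102815256231585565900800,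 .ofNat 7878371074529934206346618470400, .ofNat 0, .ofNat 0, .ofNat 0, .ofNat 0, .ofNat 0⟩)
    (by decide +kernel)
theorem L00918 : Good (Phi V4.P V4.D (-1) (-1)) ⟨6, 51, 4, 6, 2, 3, 3, 7, 3, 1⟩ :=
  leaf_sound (S := T4.ds_mm) T4.ok_mm (w := 192) (c := ⟨⟨.negSucc 1057, .ofNat 170, .ofNat 128, .negSucc 12, .ofNat 666, .ofNat 2086⟩, ⟨.ofNat 431, .negSucc 109, .ofNat 28, .negSucc 7, .negSucc 289, .negSucc 926⟩, ⟨.ofNat 372, .negSucc 113, .negSucc 88, .ofNat 53, .negSucc 509, .negSucc 1428⟩, ⟨.negSucc 2294, .ofNat 252, .ofNat 153, .negSucc 196, .ofNat 1062, .ofNat 3082⟩, ⟨.negSucc 1389, .negSucc 42, .ofNat 8, .negSucc 406, .negSucc 12, .negSucc 604⟩, .ofNat 1021, .ofNat 1515, .ofNat 0, .ofNat 1515, .ofNat 3641, .ofNat 0, .ofNat 457, .negSucc 995, .negSucc 2030, .ofNat 0, .ofNat 507, .ofNat 887, .ofNat 0, .ofNat 0, .ofNat 1675, .ofNat 3111, .ofNat 0, .ofNat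 24899403398479319896354672712928460800, .ofNat 0, .ofNat 0, .ofNat 0, .ofNat 1830267596770405106555904981947803238400, .ofNat 0, .ofNat 0, .ofNat 0, .ofNat 2134407541808626080416083453599232819200, .ofNat 5700751802196474839487322521600, .ofNat 0, .ofNat 0, .ofNat 1208985751266422054915714231721944678400, .ofNat 0, .ofNat 0⟩)
    (by decide +kernel)
theorem L00919 : Good (Phi V4.P V4.D (-1) (-1)) ⟨6, 52, 4, 6, 2, 3, 2, 2, 4, 2⟩ :=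
  leaf_sound (S := T4.ds_mm) T4.ok_mm (w := 192) (c := ⟨⟨.negSucc 2462, .negSucc 12, .ofNat 199, .ofNat 92, .ofNat 965, .ofNat 900⟩, ⟨.ofNat 1071, .negSucc 13, .ofNat 8, .negSucc 59, .negSucc 468, .negSucc 435⟩, ⟨.ofNat 1463, .ofNat 23, .negSucc 130, .ofNat 4, .negSucc 778, .negSucc 543⟩, ⟨.negSucc 4096, .negSucc 5, .ofNat 236, .negSucc 37, .ofNat 1215, .ofNat 1128⟩, ⟨.negSucc 469, .negSucc 27, .negSucc 67, .negSucc 389, .negSucc 670, .negSucc 642⟩, .ofNat 1053, .ofNat 1521, .ofNat 0, .ofNat 1521, .ofNat 3473, .ofNat 0, .ofNat 210, .negSucc 497, .negSucc 845, .ofNat 0, .ofNat 266, .ofNat 400, .ofNat 0, .ofNat 0, .ofNat 724, .ofNat 1394, .ofNat 0, .ofNat 0, .ofNat 0, .ofNat 0, .ofNat 0, .ofNat 0, .ofNat 0, .ofNat 0, .ofNat 0, .ofNat 0, .ofNat 0, .ofNat 0, .ofNat 0, .ofNat 0, .ofNat 0, .ofNat 0⟩)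
    (by decide +kernel)
theorem L00920 : Good (Phi V4.P V4.D (-1) (-1)) ⟨6, 52, 4, 6, 2, 3, 3, 6, 4, 2⟩ :=
  leaf_sound (S := T4.ds_mm) T4.ok_mm (w := 192) (c := ⟨⟨.negSucc 1667, .ofNat 188, .negSucc 3, .ofNat 193, .ofNat 727, .ofNat 1122⟩, ⟨.ofNat 691, .negSucc 135, .ofNat 105, .negSucc 104, .negSucc 338, .negSucc 533⟩, ⟨.ofNat 809, .negSucc 123, .negSucc 11, .negSucc 15, .negSucc 553, .negSucc 724⟩, ⟨.negSucc 3148, .ofNat 259, .negSucc 34, .ofNat 56, .ofNat 1098, .ofNat 1533⟩, ⟨.negSucc 1170, .negSucc 58, .ofNat 38, .negSucc 551, .negSucc 113, .negSucc 528⟩, .ofNat 1078, .ofNat 1575, .ofNat 0, .ofNat 1575, .ofNat 3586, .ofNat 0, .ofNat 213, .negSucc 502, .negSucc 963, .ofNat 0, .ofNat 266, .ofNat 449, .ofNat 0, .ofNat 0, .ofNat 794, .ofNat 909, .ofNat 0, .ofNat 0, .ofNat 0, .ofNat 0, .ofNat 0, .ofNat 0, .ofNat 0, .ofNat 0, .ofNat 0, .ofNat 311935996827645779853356762350485504000,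 .ofNat 0, .ofNat 0, .ofNat 0, .ofNat 0, .ofNat 0, .ofNat 0⟩)
    (by decide +kernel)
theorem L00921 : Good (Phi V4.P V4.D (-1) (-1)) ⟨6, 52, 4, 6, 2, 3, 3, 7, 4, 2⟩ :=
  leaf_sound (S := T4.ds_mm) T4.ok_mm (w := 200) (c := ⟨⟨.negSucc 953, .ofNat 190, .ofNat 202, .ofNat 3, .ofNat 757, .ofNat 1103⟩, ⟨.ofNat 365, .negSucc 124, .negSucc 18, .negSucc 17, .negSucc 349, .negSucc 516⟩, ⟨.ofNat 293, .negSucc 125, .negSucc 138, .ofNat 81, .negSucc 586, .negSucc 761⟩, ⟨.negSucc 2123, .ofNat 271, .ofNat 259, .negSucc 200, .ofNat 1184, .ofNat 1604⟩, ⟨.negSucc 1417, .negSucc 44, .negSucc 6, .negSucc 447, .negSucc 14, .negSucc 304⟩, .ofNat 1046, .ofNat 1512, .ofNat 0, .ofNat 1512, .ofNat 3467, .ofNat 0, .ofNat 888, .negSucc 1967, .negSucc 4285, .ofNat 0, .ofNat 1046, .ofNat 1961, .ofNat 0, .ofNat 0, .ofNat 3511, .ofNat 2898, .ofNat 0, .ofNat 0, .ofNat 0, .ofNat 0, .ofNat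 0, .ofNat 0, .ofNat 0, .ofNat 0, .ofNat 0, .ofNat 18459046717134389800208349313916259532800, .ofNat 0, .ofNat 0, .ofNat 0, .ofNat 0, .ofNat 0, .ofNat 0⟩)
    (by decide +kernel)
theorem L00922 : Good (Phi V4.P V4.D (-1) (-1)) ⟨6, 52, 4, 6, 2, 3, 2, 2, 4, 3⟩ :=
  leaf_sound (S := T4.ds_mm) T4.ok_mm (w := 192) (c := ⟨⟨.negSucc 1720, .ofNat 51, .ofNat 170, .ofNat 302, .ofNat 1007, .ofNat 615⟩, ⟨.ofNat 722, .negSucc 66, .ofNat 21, .negSucc 169, .negSucc 480, .negSucc 302⟩, ⟨.ofNat 991, .negSucc 45, .negSucc 76, .negSucc 49, .negSucc 855, .negSucc 374⟩, ⟨.negSucc 3152, .ofNat 60, .ofNat 189, .ofNat 62, .ofNat 1374, .ofNat 734⟩, ⟨.negSucc 1011, .negSucc 50, .negSucc 27, .negSucc 912, .negSucc 471, .negSucc 514⟩, .ofNat 1451, .ofNat 2339, .ofNat 0, .ofNat 2339, .ofNat 5196, .ofNat 0, .ofNat 353, .negSucc 886, .negSucc 1149, .ofNat 0, .ofNat 473, .ofNat 548,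 .ofNat 0, .ofNat 0, .ofNat 1202, .ofNat 3635, .ofNat 0, .ofNat 0, .ofNat 0, .ofNat 0, .ofNat 0, .ofNat 260405205529540811881818356756722483200, .ofNat 31161975095502585773977868697600, .ofNat 0, .ofNat 0, .ofNat 0, .ofNat 16274044046653426413510171033600, .ofNat 0, .ofNat 0, .ofNat 0, .ofNat 0, .ofNat 0⟩)
    (by decide +kernel)
theorem L00923 : Good (Phi V4.P V4.D (-1) (-1)) ⟨6, 52, 4, 6, 2, 3, 2, 3, 4, 3⟩ :=
  leaf_sound (S := T4.ds_mm) T4.ok_mm (w := 192) (c := ⟨⟨.negSucc 709, .ofNat 171, .ofNat 141, .ofNat 327, .ofNat 1501, .ofNat 569⟩, ⟨.ofNat 248, .negSucc 134, .ofNat 23, .negSucc 180, .negSucc 694, .negSucc 270⟩, ⟨.ofNat 166, .negSucc 120, .negSucc 66, .negSucc 90, .negSucc 1158, .negSucc 378⟩, ⟨.negSucc 1800, .ofNat 217, .ofNat 155, .ofNat 129, .ofNat 2288, .ofNat 762⟩, ⟨.negSucc 1577, .negSucc 65, .negSucc 8, .negSucc 839, .negSucc 180, .negSucc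 297⟩, .ofNat 608, .ofNat 654, .ofNat 0, .ofNat 654, .ofNat 1654, .ofNat 0, .ofNat 1077, .negSucc 1729, .negSucc 3124, .ofNat 0, .ofNat 1017, .ofNat 1417, .ofNat 0, .ofNat 0, .ofNat 2821, .ofNat 6544, .ofNat 0, .ofNat 104058347287016347958433315419062272000, .ofNat 0, .ofNat 0, .ofNat 0, .ofNat 12681809782248672854050674080152446566400, .ofNat 0, .ofNat 0, .ofNat 0, .ofNat 16316524320035219627868871330631358873600, .ofNat 0, .ofNat 0, .ofNat 0, .ofNat 12109839068685665104013854364992222003200, .ofNat 0, .ofNat 0⟩)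
    (by decide +kernel)
theorem L00924 : Good (Phi V4.P V4.D (-1) (-1)) ⟨6, 53, 5, 12, 2, 3, 1, 1, 3, 1⟩ :=
  out_sound (S := T4.ds_mm) T4.ok_mm (w := 72) (j := 3) (by decide +kernel)
theorem L00925 : Good (Phi V4.P V4.D (-1) (-1)) ⟨7, 106, 5, 13, 2, 3, 2, 2, 4, 2⟩ :=
  leaf_sound (S := T4.ds_mm) T4.ok_mm (w := 200) (c := ⟨⟨.negSucc 2463, .ofNat 37, .ofNat 155, .ofNat 40, .ofNat 1000, .ofNat 970⟩, ⟨.ofNat 1124, .negSucc 31, .negSucc 25, .negSucc 32, .negSucc 502, .negSucc 490⟩, ⟨.ofNat 1438, .negSucc 30, .negSucc 66, .ofNat 57, .negSucc 804, .negSucc 593⟩, ⟨.negSucc 4062, .ofNat 52, .ofNat 193, .negSucc 128, .ofNat 1249, .ofNat 1179⟩, ⟨.negSucc 479, .negSucc 29, .negSucc 51, .negSucc 399, .negSucc 655, .negSucc 701⟩, .ofNat 1596, .ofNat 2545, .ofNat 0, .ofNat 2545, .ofNat 5391, .ofNat 0, .ofNat 178, .negSucc 515, .negSucc 907, .ofNat 0, .ofNat 277, .ofNat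 448, .ofNat 0, .ofNat 0, .ofNat 754, .ofNat 2594, .ofNat 0, .ofNat 0, .ofNat 0, .ofNat 0, .ofNat 0, .ofNat 0, .ofNat 10147328519479887589271823974400, .ofNat 0, .ofNat 0, .ofNat 0, .ofNat 1775849575889274812164472832000, .ofNat 0, .ofNat 0, .ofNat 0, .ofNat 1781079647775300645914935296000, .ofNat 0⟩)
    (by decide +kernel)
theorem L00926 : Good (Phi V4.P V4.D (-1) (-1)) ⟨7, 106, 5, 13, 2, 3, 2, 3, 4, 2⟩ :=
  leaf_sound (S := T4.ds_mm) T4.ok_mm (w := 200) (c := ⟨⟨.negSucc 1652, .ofNat 31, .ofNat 151, .ofNat 256, .ofNat 1706, .ofNat 1213⟩, ⟨.ofNat 717, .negSucc 41, .negSucc 27, .negSucc 141, .negSucc 827, .negSucc 600⟩, ⟨.ofNat 721, .negSucc 51, .negSucc 68, .ofNat 12, .negSucc 1231, .negSucc 757⟩, ⟨.negSucc 3119, .negSucc 1, .ofNat 213, .ofNat 136, .ofNat 2522, .ofNat 1619⟩, ⟨.negSucc 1170, .negSucc 87, .ofNat 12, .negSucc 550, .negSucc 307, .negSucc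 580⟩, .ofNat 1898, .ofNat 3143, .ofNat 0, .ofNat 3143, .ofNat 6587, .ofNat 0, .ofNat 181, .negSucc 533, .negSucc 1014, .ofNat 0, .ofNat 283, .ofNat 495, .ofNat 0, .ofNat 0, .ofNat 810, .ofNat 608, .ofNat 0, .ofNat 156908570034969337759040611050061824000, .ofNat 0, .ofNat 0, .ofNat 0, .ofNat 4594430922280736804769794825427458457600, .ofNat 5276169578764391763874834022400, .ofNat 0, .ofNat 0, .ofNat 23011085033077296638286423560887153459200, .ofNat 0, .ofNat 0, .ofNat 0, .ofNat 0, .ofNat 0, .ofNat 0⟩)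
    (by decide +kernel)
theorem L00927 : Good (Phi V4.P V4.D (-1) (-1)) ⟨7, 107, 5, 13, 2, 3, 1, 1, 4, 2⟩ :=
  out_sound (S := T4.ds_mm) T4.ok_mm (w := 80) (j := 3) (by decide +kernel)
theorem L00928 : Good (Phi V4.P V4.D (-1) (-1)) ⟨6, 53, 5, 13, 2, 3, 2, 2, 4, 3⟩ :=
  leaf_sound (S := T4.ds_mm) T4.ok_mm (w := 192) (c := ⟨⟨.negSucc 1629, .negSucc 4, .ofNat 91, .ofNat 329, .ofNat 1097, .ofNat 578⟩, ⟨.ofNat 710, .negSucc 39, .ofNat 2, .negSucc 190, .negSucc 543, .negSucc 297⟩, ⟨.ofNat 894, .negSucc 80, .negSucc 8, .negSucc 45, .negSucc 900, .negSucc 358⟩, ⟨.negSucc 2980, .ofNat 36, .ofNat 69, .ofNat 66, .ofNat 1467, .ofNat 621⟩, ⟨.negSucc 968, .ofNat 97, .negSucc 76, .negSucc 934, .negSucc 515, .negSucc 586⟩, .ofNat 2047, .ofNat 3437, .ofNat 0, .ofNat 3437, .ofNat 7173, .ofNat 0, .ofNat 161, .negSucc 456, .negSucc 589, .ofNat 0, .ofNat 248, .ofNat 294,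 .ofNat 0, .ofNat 0, .ofNat 603, .ofNat 1536, .ofNat 0, .ofNat 0, .ofNat 0, .ofNat 0, .ofNat 0, .ofNat 0, .ofNat 38132789367051749889320524185600, .ofNat 0, .ofNat 0, .ofNat 0, .ofNat 21816818765061664472464726425600, .ofNat 0, .ofNat 0, .ofNat 0, .ofNat 0, .ofNat 0⟩)
    (by decide +kernel)
theorem L00929 : Good (Phi V4.P V4.D (-1) (-1)) ⟨6, 53, 5, 13, 2, 3, 2, 3, 4, 3⟩ :=
  leaf_sound (S := T4.ds_mm) T4.ok_mm (w := 200) (c := ⟨⟨.negSucc 502, .ofNat 176, .ofNat 69, .ofNat 398, .ofNat 1656, .ofNat 562⟩, ⟨.ofNat 152, .negSucc 143, .ofNat 9, .negSucc 220, .negSucc 798, .negSucc 278⟩, ⟨.ofNat 33, .negSucc 118, .negSucc 49, .negSucc 94, .negSucc 1275, .negSucc 372⟩, ⟨.negSucc 1532, .ofNat 239, .ofNat 58, .ofNat 205, .ofNat 2517, .ofNat 745⟩, ⟨.negSucc 1624, .negSucc 23, .negSucc 34, .negSucc 871, .negSucc 153, .negSucc 280⟩, .ofNat 2030, .ofNat 3404, .ofNat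 0, .ofNat 3404, .ofNat 7111, .ofNat 0, .ofNat 1328, .negSucc 3775, .negSucc 6052, .ofNat 0, .ofNat 2030, .ofNat 2967, .ofNat 0, .ofNat 0, .ofNat 5557, .ofNat 7473, .ofNat 0, .ofNat 566884637595592410533034707395176038400, .ofNat 0, .ofNat 0, .ofNat 0, .ofNat 150128264692564468861731285551299323494400, .ofNat 1027339051122197026769496283545600, .ofNat 0, .ofNat 0, .ofNat 155194549947196356388451386562898296832000, .ofNat 903529038741907226219395625779200, .ofNat 0, .ofNat 0, .ofNat 99340983432784699214494950298123606425600, .ofNat 0, .ofNat 0⟩)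
    (by decide +kernel)
theorem L00930 : Good (Phi V4.P V4.D (-1) (-1)) ⟨5, 27, 4, 6, 2, 3, 1, 1, 3, 1⟩ :=
  out_sound (S := T4.ds_mm) T4.ok_mm (w := 64) (j := 3) (by decide +kernel)
theorem L00931 : Good (Phi V4.P V4.D (-1) (-1)) ⟨3, 7, 4, 6, 2, 3, 1, 1, 3, 1⟩ :=
  out_sound (S := T4.ds_mm) T4.ok_mm (w := 48) (j := 3) (by decide +kernel)
theorem L00932 : Good (Phi V4.P V4.D (-1) (-1)) ⟨2, 2, 4, 7, 1, 1, 2, 2, 2, 0⟩ :=
  out_sound (S := T4.ds_mm) T4.ok_mm (w := 48) (j := 3) (by decide +kernel)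
theorem L00933 : Good (Phi V4.P V4.D (-1) (-1)) ⟨4, 12, 4, 7, 1, 1, 2, 2, 3, 0⟩ :=
  out_sound (S := T4.ds_mm) T4.ok_mm (w := 56) (j := 3) (by decide +kernel)
theorem L00934 : Good (Phi V4.P V4.D (-1) (-1)) ⟨6, 52, 4, 7, 2, 2, 2, 2, 3, 0⟩ :=
  leaf_sound (S := T4.ds_mm) T4.ok_mm (w := 192) (c := ⟨⟨.ofNat 755, .negSucc 661, .ofNat 650, .negSucc 498, .negSucc 65, .negSucc 1210⟩, ⟨.negSucc 389, .ofNat 322, .negSucc 263, .ofNat 234, .ofNat 26, .ofNat 587⟩, ⟨.negSucc 965, .ofNat 523, .negSucc 585, .ofNat 375, .negSucc 45, .ofNat 1094⟩, ⟨.ofNat 546, .negSucc 798, .ofNat 857, .negSucc 876, .negSucc 201, .negSucc 1790⟩, ⟨.negSucc 1303, .ofNat 472, .negSucc 282, .negSucc 197, .negSucc 202, .ofNat 228⟩, .ofNat 2511, .ofNat 4401, .ofNat 0, .ofNat 4401, .ofNat 9178, .ofNat 0, .ofNat 71, .negSucc 203, .negSucc 523, .ofNat 0, .ofNat 110, .ofNat 257, .ofNat 0, .ofNat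 0, .ofNat 509, .ofNat 455, .ofNat 0, .ofNat 0, .ofNat 9187694715721882864818585600, .ofNat 0, .ofNat 0, .ofNat 0, .ofNat 0, .ofNat 0, .ofNat 0, .ofNat 0, .ofNat 447480920769390450707949158400, .ofNat 0, .ofNat 0, .ofNat 0, .ofNat 350286056596510000778575872000, .ofNat 0⟩)
    (by decide +kernel)
theorem L00935 : Good (Phi V4.P V4.D (-1) (-1)) ⟨6, 53, 4, 7, 2, 2, 2, 2, 4, 0⟩ :=
  leaf_sound (S := T4.ds_mm) T4.ok_mm (w := 192) (c := ⟨⟨.ofNat 758, .ofNat 125, .ofNat 127, .negSucc 213, .negSucc 665, .negSucc 1376⟩, ⟨.negSucc 414, .negSucc 96, .negSucc 7, .ofNat 103, .ofNat 332, .ofNat 698⟩, ⟨.negSucc 1047, .negSucc 107, .negSucc 107, .ofNat 275, .ofNat 411, .ofNat 1207⟩, ⟨.ofNat 632, .ofNat 146, .ofNat 166, .negSucc 396, .negSucc 1045, .negSucc 1961⟩, ⟨.negSucc 1125, .negSucc 70, .negSucc 4, .negSucc 131, .negSucc 25, .ofNat 353⟩, .ofNat 1296, .ofNat 1921,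 .ofNat 0, .ofNat 1921, .ofNat 4024, .ofNat 0, .ofNat 85, .negSucc 203, .negSucc 600, .ofNat 0, .ofNat 117, .ofNat 304, .ofNat 0, .ofNat 0, .ofNat 565, .ofNat 766, .ofNat 0, .ofNat 0, .ofNat 0, .ofNat 0, .ofNat 0, .ofNat 0, .ofNat 0, .ofNat 0, .ofNat 0, .ofNat 0, .ofNat 0, .ofNat 0, .ofNat 0, .ofNat 0, .ofNat 0, .ofNat 0⟩)
    (by decide +kernel)
theorem L00936 : Good (Phi V4.P V4.D (-1) (-1)) ⟨6, 53, 4, 7, 2, 2, 2, 2, 4, 1⟩ :=
  leaf_sound (S := T4.ds_mm) T4.ok_mm (w := 192) (c := ⟨⟨.negSucc 823, .negSucc 220, .ofNat 340, .negSucc 435, .ofNat 251, .negSucc 380⟩, ⟨.ofNat 372, .ofNat 94, .negSucc 91, .ofNat 211, .negSucc 132, .ofNat 189⟩, ⟨.ofNat 390, .ofNat 195, .negSucc 301, .ofNat 269, .negSucc 306, .ofNat 353⟩, ⟨.negSucc 1575, .negSucc 309, .ofNat 472, .negSucc 796, .ofNat 231, .negSucc 589⟩, ⟨.negSucc 597, .ofNat 33, .negSucc 66, .negSucc 243, .negSucc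 319, .ofNat 8⟩, .ofNat 1298, .ofNat 1927, .ofNat 0, .ofNat 1927, .ofNat 4046, .ofNat 0, .ofNat 83, .negSucc 201, .negSucc 548, .ofNat 0, .ofNat 116, .ofNat 278, .ofNat 0, .ofNat 0, .ofNat 517, .ofNat 670, .ofNat 0, .ofNat 0, .ofNat 0, .ofNat 0, .ofNat 0, .ofNat 0, .ofNat 0, .ofNat 0, .ofNat 0, .ofNat 0, .ofNat 0, .ofNat 0, .ofNat 0, .ofNat 0, .ofNat 0, .ofNat 0⟩)
    (by decide +kernel)
theorem L00937 : Good (Phi V4.P V4.D (-1) (-1)) ⟨6, 54, 5, 14, 2, 2, 2, 2, 3, 0⟩ :=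
  out_sound (S := T4.ds_mm) T4.ok_mm (w := 72) (j := 3) (by decide +kernel)
theorem L00938 : Good (Phi V4.P V4.D (-1) (-1)) ⟨7, 108, 5, 15, 2, 2, 2, 2, 4, 0⟩ :=
  leaf_sound (S := T4.ds_mm) T4.ok_mm (w := 200) (c := ⟨⟨.ofNat 1266, .ofNat 314, .negSucc 343, .negSucc 169, .negSucc 639, .negSucc 1474⟩, ⟨.negSucc 705, .negSucc 183, .ofNat 208, .ofNat 85, .ofNat 334, .ofNat 778⟩, ⟨.negSucc 1504, .negSucc 281, .ofNat 309, .ofNat 253, .ofNat 397, .ofNat 1289⟩, ⟨.ofNat 1247, .ofNat 389, .negSucc 441, .negSucc 352, .negSucc 983, .negSucc 2062⟩, ⟨.negSucc 1366, .negSucc 166, .ofNat 201, .negSucc 175, .negSucc 1, .ofNat 389⟩, .ofNat 3302, .ofNat 5600, .ofNat 0, .ofNat 5600, .ofNat 10772, .ofNat 0, .ofNat 60, .negSucc 212, .negSucc 644, .ofNat 0, .ofNat 120, .ofNat 341, .ofNat 0, .ofNat 0, .ofNat 601, .ofNat 975, .ofNat 0, .ofNat 0, .ofNat 0, .ofNat 0, .ofNat 0,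 .ofNat 0, .ofNat 3521793472633678953781710028800, .ofNat 0, .ofNat 0, .ofNat 0, .ofNat 931678616647388739968748748800, .ofNat 0, .ofNat 0, .ofNat 0, .ofNat 1386751011963737064978618777600, .ofNat 0⟩)
    (by decide +kernel)
theorem L00939 : Good (Phi V4.P V4.D (-1) (-1)) ⟨7, 108, 5, 15, 2, 2, 2, 2, 4, 1⟩ :=
  leaf_sound (S := T4.ds_mm) T4.ok_mm (w := 200) (c := ⟨⟨.negSucc 1040, .ofNat 22, .ofNat 174, .negSucc 527, .ofNat 412, .negSucc 257⟩, ⟨.ofNat 500, .negSucc 17, .negSucc 53, .ofNat 272, .negSucc 222, .ofNat 135⟩, ⟨.ofNat 554, .negSucc 58, .negSucc 133, .ofNat 345, .negSucc 424, .ofNat 259⟩, ⟨.negSucc 1867, .ofNat 66, .ofNat 213, .negSucc 932, .ofNat 431, .negSucc 398⟩, ⟨.negSucc 530, .ofNat 42, .negSucc 79, .negSucc 233, .negSucc 384, .negSucc 3⟩, .ofNat 2483, .ofNat 4072, .ofNat 0, .ofNat 4072, .ofNat 7913, .ofNat 0, .ofNat 62, .negSucc 209, .negSucc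 588, .ofNat 0, .ofNat 119, .ofNat 311, .ofNat 0, .ofNat 0, .ofNat 545, .ofNat 822, .ofNat 0, .ofNat 0, .ofNat 0, .ofNat 0, .ofNat 0, .ofNat 0, .ofNat 4136144493071965133955347251200, .ofNat 0, .ofNat 0, .ofNat 0, .ofNat 0, .ofNat 0, .ofNat 0, .ofNat 0, .ofNat 1227946425903423783667394150400, .ofNat 0⟩)
    (by decide +kernel)
theorem L00940 : Good (Phi V4.P V4.D (-1) (-1)) ⟨7, 109, 5, 15, 2, 2, 2, 2, 3, 0⟩ :=
  out_sound (S := T4.ds_mm) T4.ok_mm (w := 80) (j := 3) (by decide +kernel)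
theorem L00941 : Good (Phi V4.P V4.D (-1) (-1)) ⟨6, 55, 4, 7, 2, 2, 2, 2, 3, 0⟩ :=
  out_sound (S := T4.ds_mm) T4.ok_mm (w := 72) (j := 3) (by decide +kernel)
theorem L00942 : Good (Phi V4.P V4.D (-1) (-1)) ⟨7, 104, 4, 7, 2, 3, 2, 2, 3, 0⟩ :=
  out_sound (S := T4.ds_mm) T4.ok_mm (w := 72) (j := 3) (by decide +kernel)
theorem L00943 : Good (Phi V4.P V4.D (-1) (-1)) ⟨7, 105, 5, 14, 2, 3, 2, 2, 4, 0⟩ :=
  leaf_sound (S := T4.ds_mm) T4.ok_mm (w := 200) (c := ⟨⟨.ofNat 246, .ofNat 97, .ofNat 37, .negSucc 458, .negSucc 685, .negSucc 1491⟩, ⟨.negSucc 139, .negSucc 48, .ofNat 16, .ofNat 234, .ofNat 320, .ofNat 716⟩, ⟨.negSucc 478, .ofNat 62, .negSucc 25, .ofNat 573, .ofNat 332, .ofNat 959⟩, ⟨.negSucc 58, .ofNat 199, .ofNat 78, .negSucc 468, .negSucc 1246, .negSucc 2355⟩, ⟨.negSucc 909, .ofNat 79, .ofNat 68, .ofNat 524, .negSucc 355, .negSucc 32⟩, .ofNat 2326,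 .ofNat 4029, .ofNat 0, .ofNat 4029, .ofNat 8428, .ofNat 0, .ofNat 79, .negSucc 267, .negSucc 548, .ofNat 0, .ofNat 139, .ofNat 268, .ofNat 0, .ofNat 0, .ofNat 434, .ofNat 657, .ofNat 0, .ofNat 0, .ofNat 0, .ofNat 0, .ofNat 0, .ofNat 0, .ofNat 0, .ofNat 0, .ofNat 0, .ofNat 0, .ofNat 1728301521859520201508048076800, .ofNat 0, .ofNat 0, .ofNat 0, .ofNat 0, .ofNat 0⟩)
    (by decide +kernel)
theorem L00944 : Good (Phi V4.P V4.D (-1) (-1)) ⟨7, 105, 5, 14, 2, 3, 2, 2, 4, 1⟩ :=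
  leaf_sound (S := T4.ds_mm) T4.ok_mm (w := 200) (c := ⟨⟨.negSucc 1345, .negSucc 387, .ofNat 353, .negSucc 515, .ofNat 144, .negSucc 166⟩, ⟨.ofNat 627, .ofNat 189, .negSucc 124, .ofNat 250, .negSucc 83, .ofNat 74⟩, ⟨.ofNat 782, .ofNat 220, .negSucc 153, .ofNat 327, .negSucc 197, .ofNat 114⟩, ⟨.negSucc 2434, .negSucc 529, .ofNat 487, .negSucc 770, .negSucc 36, .negSucc 376⟩, ⟨.negSucc 633, .ofNat 117, .negSucc 111, .ofNat 82, .negSucc 547, .negSucc 238⟩, .ofNat 2329, .ofNat 4039, .ofNat 0, .ofNat 4039, .ofNat 8455, .ofNat 0, .ofNat 77, .negSucc 266, .negSucc 589, .ofNat 0, .ofNat 139, .ofNat 289, .ofNat 0, .ofNat 0, .ofNat 456, .ofNat 751, .ofNat 0, .ofNat 0, .ofNat 0, .ofNat 0, .ofNat 0, .ofNat 0, .ofNat 0, .ofNat 0, .ofNat 0, .ofNat 0, .ofNat 0, .ofNat 0, .ofNat 0, .ofNat 0, .ofNat 0, .ofNat 0⟩)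
    (by decide +kernel)
theorem L00945 : Good (Phi V4.P V4.D (-1) (-1)) ⟨7, 105, 5, 15, 2, 3, 2, 2, 3, 0⟩ :=
  out_sound (S := T4.ds_mm) T4.ok_mm (w := 80) (j := 3) (by decide +kernel)
theorem L00946 : Good (Phi V4.P V4.D (-1) (-1)) ⟨6, 53, 4, 7, 3, 6, 2, 2, 4, 0⟩ :=
  leaf_sound (S := T4.ds_mm) T4.ok_mm (w := 200) (c := ⟨⟨.ofNat 522, .negSucc 249, .ofNat 388, .negSucc 488, .negSucc 770, .negSucc 1471⟩, ⟨.negSucc 306, .ofNat 117, .negSucc 131, .ofNat 248, .ofNat 379, .ofNat 737⟩, ⟨.negSucc 593, .ofNat 135, .negSucc 212, .ofNat 424, .ofNat 431, .ofNat 1021⟩, ⟨.ofNat 336, .negSucc 369, .ofNat 563, .negSucc 644, .negSucc 1319, .negSucc 2234⟩, ⟨.negSucc 960, .negSucc 2, .negSucc 6, .ofNat 232, .negSucc 246, .ofNat 100⟩, .ofNat 1297, .ofNat 1922, .ofNat 0, .ofNat 1922, .ofNat 4028, .ofNat 0, .ofNat 91, .negSucc 247, .negSucc 654, .ofNat 0, .ofNat 137, .ofNat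 329, .ofNat 0, .ofNat 0, .ofNat 523, .ofNat 1126, .ofNat 0, .ofNat 0, .ofNat 0, .ofNat 0, .ofNat 0, .ofNat 0, .ofNat 0, .ofNat 0, .ofNat 0, .ofNat 0, .ofNat 0, .ofNat 0, .ofNat 0, .ofNat 0, .ofNat 823803607967431109920982197862400, .ofNat 0⟩)
    (by decide +kernel)
theorem L00947 : Good (Phi V4.P V4.D (-1) (-1)) ⟨6, 53, 4, 7, 3, 7, 2, 2, 4, 0⟩ :=
  leaf_sound (S := T4.ds_mm) T4.ok_mm (w := 200) (c := ⟨⟨.ofNat 91, .negSucc 276, .ofNat 325, .ofNat 34, .negSucc 733, .negSucc 1689⟩, ⟨.negSucc 77, .ofNat 146, .negSucc 117, .negSucc 7, .ofNat 351, .ofNat 838⟩, ⟨.negSucc 76, .ofNat 262, .negSucc 275, .ofNat 206, .ofNat 252, .ofNat 959⟩, ⟨.negSucc 105, .negSucc 289, .ofNat 369, .ofNat 241, .negSucc 1398, .negSucc 2724⟩, ⟨.negSucc 493, .ofNat 231, .negSucc 226, .ofNat 383, .negSucc 517, .negSucc 204⟩, .ofNat 1295, .ofNat 1927, .ofNat 0, .ofNat 1927, .ofNat 4056,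 .ofNat 0, .ofNat 95, .negSucc 293, .negSucc 560, .ofNat 0, .ofNat 156, .ofNat 279, .ofNat 0, .ofNat 0, .ofNat 408, .ofNat 727, .ofNat 0, .ofNat 0, .ofNat 0, .ofNat 0, .ofNat 0, .ofNat 0, .ofNat 0, .ofNat 0, .ofNat 0, .ofNat 0, .ofNat 0, .ofNat 0, .ofNat 0, .ofNat 0, .ofNat 257151731614133952682794575462400, .ofNat 0⟩)
    (by decide +kernel)
theorem L00948 : Good (Phi V4.P V4.D (-1) (-1)) ⟨6, 53, 4, 7, 2, 3, 2, 2, 4, 1⟩ :=
  leaf_sound (S := T4.ds_mm) T4.ok_mm (w := 192) (c := ⟨⟨.negSucc 1710, .negSucc 401, .ofNat 422, .negSucc 457, .ofNat 294, .negSucc 134⟩, ⟨.ofNat 804, .ofNat 198, .negSucc 113, .ofNat 229, .negSucc 163, .ofNat 60⟩, ⟨.ofNat 994, .ofNat 264, .negSucc 263, .ofNat 342, .negSucc 309, .ofNat 62⟩, ⟨.negSucc 2925, .negSucc 507, .ofNat 561, .negSucc 657, .ofNat 159, .negSucc 346⟩, ⟨.negSucc 521, .ofNat 152, .negSucc 136, .ofNat 112, .negSucc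 593, .negSucc 277⟩, .ofNat 1297, .ofNat 1927, .ofNat 0, .ofNat 1927, .ofNat 4047, .ofNat 0, .ofNat 92, .negSucc 272, .negSucc 640, .ofNat 0, .ofNat 148, .ofNat 323, .ofNat 0, .ofNat 0, .ofNat 477, .ofNat 431, .ofNat 0, .ofNat 0, .ofNat 15227962876728175507380633600, .ofNat 0, .ofNat 0, .ofNat 0, .ofNat 0, .ofNat 0, .ofNat 0, .ofNat 0, .ofNat 0, .ofNat 0, .ofNat 0, .ofNat 0, .ofNat 0, .ofNat 0⟩)
    (by decide +kernel)
theorem L00949 : Good (Phi V4.P V4.D (-1) (-1)) ⟨7, 108, 5, 14, 2, 3, 2, 2, 3, 0⟩ :=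
  out_sound (S := T4.ds_mm) T4.ok_mm (w := 80) (j := 3) (by decide +kernel)
theorem L00950 : Good (Phi V4.P V4.D (-1) (-1)) ⟨7, 108, 5, 15, 3, 6, 2, 2, 4, 0⟩ :=
  leaf_sound (S := T4.ds_mm) T4.ok_mm (w := 208) (c := ⟨⟨.ofNat 522, .negSucc 84, .ofNat 304, .negSucc 592, .negSucc 795, .negSucc 1658⟩, ⟨.negSucc 319, .ofNat 32, .negSucc 124, .ofNat 316, .ofNat 411, .ofNat 869⟩, ⟨.negSucc 630, .ofNat 36, .negSucc 176, .ofNat 527, .ofNat 440, .ofNat 1141⟩, ⟨.ofNat 294, .negSucc 128, .ofNat 422, .negSucc 755, .negSucc 1342, .negSucc 2481⟩, ⟨.negSucc 995, .negSucc 5, .negSucc 56, .ofNat 297, .negSucc 229, .ofNat 130⟩, .ofNat 3308, .ofNat 5611, .ofNat 0, .ofNat 5611, .ofNat 10793, .ofNat 0, .ofNat 63, .negSucc 258, .negSucc 668, .ofNat 0, .ofNat 143, .ofNat 353, .ofNat 0, .ofNat 0, .ofNat 526, .ofNat 1194, .ofNat 0, .ofNat 0, .ofNat 0, .ofNat 0, .ofNat 0, .ofNat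 0, .ofNat 1984145783473640377277101375488000, .ofNat 0, .ofNat 0, .ofNat 0, .ofNat 1212127166328284175127843700736000, .ofNat 0, .ofNat 0, .ofNat 0, .ofNat 646119332066609961846180308582400, .ofNat 0⟩)
    (by decide +kernel)
theorem L00951 : Good (Phi V4.P V4.D (-1) (-1)) ⟨7, 108, 5, 15, 3, 7, 2, 2, 4, 0⟩ :=
  leaf_sound (S := T4.ds_mm) T4.ok_mm (w := 208) (c := ⟨⟨.ofNat 37, .negSucc 90, .ofNat 50, .ofNat 122, .negSucc 731, .negSucc 1590⟩, ⟨.negSucc 49, .ofNat 49, .negSucc 0, .negSucc 56, .ofNat 371, .ofNat 827⟩, ⟨.ofNat 55, .ofNat 137, .negSucc 101, .ofNat 130, .ofNat 246, .ofNat 892⟩, ⟨.negSucc 117, .negSucc 41, .ofNat 0, .ofNat 361, .negSucc 1399, .negSucc 2547⟩, ⟨.negSucc 349, .ofNat 162, .negSucc 125, .ofNat 335, .negSucc 526, .negSucc 199⟩, .ofNat 3666, .ofNat 6278, .ofNat 0, .ofNat 6278, .ofNat 12040, .ofNat 0, .ofNat 64, .negSucc 296, .negSucc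 612, .ofNat 0, .ofNat 161, .ofNat 323, .ofNat 0, .ofNat 0, .ofNat 440, .ofNat 705, .ofNat 0, .ofNat 0, .ofNat 0, .ofNat 0, .ofNat 0, .ofNat 0, .ofNat 2141238434546165013808338803097600, .ofNat 0, .ofNat 0, .ofNat 0, .ofNat 1304111921632446263003172569088000, .ofNat 0, .ofNat 0, .ofNat 0, .ofNat 0, .ofNat 0⟩)
    (by decide +kernel)
theorem L00952 : Good (Phi V4.P V4.D (-1) (-1)) ⟨7, 108, 5, 15, 2, 3, 2, 2, 4, 1⟩ :=
  leaf_sound (S := T4.ds_mm) T4.ok_mm (w := 200) (c := ⟨⟨.negSucc 2052, .ofNat 206, .ofNat 110, .negSucc 327, .ofNat 395, .negSucc 58⟩, ⟨.ofNat 1021, .negSucc 109, .negSucc 9, .ofNat 174, .negSucc 218, .ofNat 25⟩, ⟨.ofNat 1163, .negSucc 103, .negSucc 32, .ofNat 272, .negSucc 383, .ofNat 30⟩, ⟨.negSucc 3400, .ofNat 341, .ofNat 163, .negSucc 444, .ofNat 270, .negSucc 249⟩, ⟨.negSucc 489, .ofNat 6, .ofNat 15, .ofNat 113, .negSucc 644, .negSucc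 302⟩, .ofNat 3358, .ofNat 5699, .ofNat 0, .ofNat 5699, .ofNat 10951, .ofNat 0, .ofNat 63, .negSucc 286, .negSucc 689, .ofNat 0, .ofNat 157, .ofNat 365, .ofNat 0, .ofNat 0, .ofNat 495, .ofNat 427, .ofNat 0, .ofNat 0, .ofNat 22681441567903298755756032000, .ofNat 0, .ofNat 0, .ofNat 0, .ofNat 3677851177505523874029109248000, .ofNat 0, .ofNat 0, .ofNat 0, .ofNat 0, .ofNat 0, .ofNat 0, .ofNat 0, .ofNat 1003689939348232458211845734400, .ofNat 0⟩)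
    (by decide +kernel)
theorem L00953 : Good (Phi V4.P V4.D (-1) (-1)) ⟨7, 109, 4, 7, 2, 3, 2, 2, 3, 0⟩ :=
  out_sound (S := T4.ds_mm) T4.ok_mm (w := 72) (j := 3) (by decide +kernel)
theorem L00954 : Good (Phi V4.P V4.D (-1) (-1)) ⟨6, 55, 4, 7, 2, 3, 2, 2, 3, 0⟩ :=
  out_sound (S := T4.ds_mm) T4.ok_mm (w := 72) (j := 3) (by decide +kernel)
theorem L00955 : Good (Phi V4.P V4.D (-1) (-1)) ⟨4, 12, 4, 7, 1, 1, 2, 2, 3, 1⟩ :=
  out_sound (S := T4.ds_mm) T4.ok_mm (w := 56) (j := 3) (by decide +kernel)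
theorem L00956 : Good (Phi V4.P V4.D (-1) (-1)) ⟨5, 26, 4, 7, 2, 2, 2, 2, 3, 1⟩ :=
  leaf_sound (S := T4.ds_mm) T4.ok_mm (w := 184) (c := ⟨⟨.negSucc 1685, .ofNat 209, .negSucc 32, .negSucc 21, .ofNat 755, .ofNat 603⟩, ⟨.ofNat 832, .negSucc 150, .ofNat 93, .negSucc 6, .negSucc 384, .negSucc 307⟩, ⟨.ofNat 1156, .negSucc 176, .ofNat 27, .negSucc 72, .negSucc 735, .negSucc 424⟩, ⟨.negSucc 2774, .ofNat 213, .negSucc 28, .negSucc 357, .ofNat 1015, .ofNat 779⟩, ⟨.negSucc 303, .negSucc 264, .ofNat 106, .negSucc 647, .negSucc 315, .negSucc 319⟩, .ofNat 1992, .ofNat 3264, .ofNat 0, .ofNat 3264, .ofNat 6654, .ofNat 0, .ofNat 131, .negSucc 369, .negSucc 686, .ofNat 0, .ofNat 207, .ofNat 349, .ofNat 0, .ofNat 0, .ofNat 740, .ofNat 1095, .ofNat 0, .ofNat 0, .ofNat 0, .ofNat 0, .ofNat 0, .ofNat 0, .ofNat 1745947294186053391222623436800, .ofNat 0, .ofNat 0, .ofNat 0,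 .ofNat 356352542464648154684011315200, .ofNat 0, .ofNat 0, .ofNat 0, .ofNat 422567332950770694396208742400, .ofNat 0⟩)
    (by decide +kernel)
theorem L00957 : Good (Phi V4.P V4.D (-1) (-1)) ⟨5, 26, 4, 7, 2, 3, 2, 2, 3, 1⟩ :=
  leaf_sound (S := T4.ds_mm) T4.ok_mm (w := 184) (c := ⟨⟨.negSucc 2342, .ofNat 128, .ofNat 51, .ofNat 155, .ofNat 1033, .ofNat 1578⟩, ⟨.ofNat 1158, .negSucc 132, .ofNat 81, .negSucc 88, .negSucc 524, .negSucc 816⟩, ⟨.ofNat 1329, .negSucc 19, .negSucc 71, .ofNat 55, .negSucc 833, .negSucc 938⟩, ⟨.negSucc 3744, .negSucc 60, .ofNat 129, .negSucc 16, .ofNat 1312, .ofNat 1773⟩, ⟨.negSucc 170, .negSucc 615, .ofNat 217, .negSucc 521, .negSucc 604, .negSucc 1371⟩, .ofNat 1310, .ofNat 1954, .ofNat 0, .ofNat 1954, .ofNat 4108, .ofNat 0, .ofNat 174, .negSucc 505, .negSucc 795, .ofNat 0, .ofNat 279, .ofNat 404, .ofNat 0, .ofNat 0, .ofNat 692,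 .ofNat 1171, .ofNat 0, .ofNat 0, .ofNat 0, .ofNat 0, .ofNat 0, .ofNat 0, .ofNat 0, .ofNat 0, .ofNat 0, .ofNat 0, .ofNat 392536210306222821488984064000, .ofNat 0, .ofNat 0, .ofNat 0, .ofNat 425238918717920060849415782400, .ofNat 0⟩)
    (by decide +kernel)
theorem L00958 : Good (Phi V4.P V4.D (-1) (-1)) ⟨6, 54, 5, 14, 1, 1, 2, 2, 3, 1⟩ :=
  out_sound (S := T4.ds_mm) T4.ok_mm (w := 72) (j := 3) (by decide +kernel)
theorem L00959 : Good (Phi V4.P V4.D (-1) (-1)) ⟨7, 108, 5, 15, 2, 2, 2, 2, 3, 1⟩ :=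
  leaf_sound (S := T4.ds_mm) T4.ok_mm (w := 200) (c := ⟨⟨.negSucc 1529, .ofNat 96, .negSucc 156, .ofNat 64, .ofNat 955, .ofNat 703⟩, ⟨.ofNat 756, .negSucc 62, .ofNat 125, .negSucc 45, .negSucc 506, .negSucc 375⟩, ⟨.ofNat 1032, .negSucc 43, .ofNat 66, .negSucc 125, .negSucc 859, .negSucc 472⟩, ⟨.negSucc 2577, .ofNat 122, .negSucc 209, .negSucc 236, .ofNat 1244, .ofNat 851⟩, ⟨.negSucc 457, .negSucc 57, .ofNat 88, .negSucc 640, .negSucc 425, .negSucc 439⟩, .ofNat 3297, .ofNat 5592, .ofNat 0, .ofNat 5592, .ofNat 10763, .ofNat 0, .ofNat 108, .negSucc 390, .negSucc 737, .ofNat 0, .ofNat 220, .ofNat 391, .ofNat 0, .ofNat 0, .ofNat 764, .ofNat 1547, .ofNat 0, .ofNat 0, .ofNat 0, .ofNat 0, .ofNat 0, .ofNat 0, .ofNat 965243217329672455604876083200, .ofNat 0, .ofNat 0, .ofNat 0, .ofNat 352672966593832691066889830400, .ofNat 0, .ofNat 0, .ofNat 0, .ofNat 92094588724739007638509977600,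 .ofNat 0⟩)
    (by decide +kernel)
theorem L00960 : Good (Phi V4.P V4.D (-1) (-1)) ⟨7, 108, 5, 15, 2, 3, 2, 2, 3, 1⟩ :=
  leaf_sound (S := T4.ds_mm) T4.ok_mm (w := 200) (c := ⟨⟨.negSucc 2403, .negSucc 260, .ofNat 231, .ofNat 251, .ofNat 1230, .ofNat 1605⟩, ⟨.ofNat 1206, .ofNat 116, .negSucc 72, .negSucc 144, .negSucc 652, .negSucc 862⟩, ⟨.ofNat 1392, .ofNat 178, .negSucc 159, .ofNat 44, .negSucc 962, .negSucc 974⟩, ⟨.negSucc 3880, .negSucc 351, .ofNat 244, .negSucc 12, .ofNat 1573, .ofNat 1801⟩, ⟨.negSucc 400, .ofNat 97, .negSucc 159, .negSucc 764, .negSucc 608, .negSucc 1274⟩, .ofNat 3277, .ofNat 5557, .ofNat 0, .ofNat 5557, .ofNat 10699, .ofNat 0, .ofNat 120, .negSucc 503, .negSucc 753, .ofNat 0, .ofNat 279, .ofNat 400, .ofNat 0, .ofNat 0, .ofNat 675, .ofNat 1223, .ofNat 0, .ofNat 0, .ofNat 0, .ofNat 0, .ofNat 0, .ofNat 0, .ofNat 820553425504927531724596838400,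 .ofNat 0, .ofNat 0, .ofNat 0, .ofNat 343822696438092148036023091200, .ofNat 0, .ofNat 0, .ofNat 0, .ofNat 51986514932397371835600076800, .ofNat 0⟩)
    (by decide +kernel)
theorem L00961 : Good (Phi V4.P V4.D (-1) (-1)) ⟨7, 109, 5, 15, 1, 1, 2, 2, 3, 1⟩ :=
  out_sound (S := T4.ds_mm) T4.ok_mm (w := 80) (j := 3) (by decide +kernel)
theorem L00962 : Good (Phi V4.P V4.D (-1) (-1)) ⟨6, 55, 4, 7, 1, 1, 2, 2, 3, 1⟩ :=
  out_sound (S := T4.ds_mm) T4.ok_mm (w := 72) (j := 3) (by decide +kernel)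
theorem L00963 : Good (Phi V4.P V4.D (-1) (-1)) ⟨3, 7, 4, 7, 1, 1, 2, 2, 2, 0⟩ :=
  out_sound (S := T4.ds_mm) T4.ok_mm (w := 48) (j := 3) (by decide +kernel)
theorem L00964 : Good (Phi V4.P V4.D (-1) (-1)) ⟨2, 2, 4, 7, 1, 1, 2, 3, 2, 0⟩ :=
  out_sound (S := T4.ds_mm) T4.ok_mm (w := 48) (j := 3) (by decide +kernel)
theorem L00965 : Good (Phi V4.P V4.D (-1) (-1)) ⟨4, 12, 4, 7, 2, 2, 2, 3, 2, 0⟩ :=
  out_sound (S := T4.ds_mm) T4.ok_mm (w := 56) (j := 3) (by decide +kernel)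
theorem L00966 : Good (Phi V4.P V4.D (-1) (-1)) ⟨6, 52, 4, 7, 2, 2, 2, 3, 3, 0⟩ :=
  leaf_sound (S := T4.ds_mm) T4.ok_mm (w := 192) (c := ⟨⟨.negSucc 1919, .ofNat 1338, .ofNat 256, .negSucc 393, .ofNat 235, .ofNat 167⟩, ⟨.ofNat 918, .negSucc 664, .negSucc 57, .ofNat 178, .negSucc 114, .negSucc 79⟩, ⟨.ofNat 1071, .negSucc 1089, .negSucc 98, .ofNat 354, .negSucc 265, .negSucc 47⟩, ⟨.negSucc 3313, .ofNat 1971, .ofNat 552, .negSucc 813, .ofNat 337, .ofNat 262⟩, ⟨.negSucc 625, .negSucc 273, .ofNat 372, .negSucc 406, .negSucc 67, .ofNat 2⟩, .ofNat 2589, .ofNat 4559, .ofNat 0, .ofNat 4559, .ofNat 9499, .ofNat 0, .ofNat 77, .negSucc 210, .negSucc 593, .ofNat 0, .ofNat 114, .ofNat 288, .ofNat 0, .ofNat 0, .ofNat 570, .ofNat 379, .ofNat 0, .ofNat 0, .ofNat 0, .ofNat 0, .ofNat 0, .ofNat 0, .ofNat 0, .ofNat 0, .ofNat 0, .ofNat 0, .ofNat 764065570058464579105377484800,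 .ofNat 0, .ofNat 0, .ofNat 820412848556013836552020137345024000, .ofNat 368141901948405902968514150400, .ofNat 0⟩)
    (by decide +kernel)
theorem L00967 : Good (Phi V4.P V4.D (-1) (-1)) ⟨6, 53, 5, 14, 2, 2, 2, 3, 3, 0⟩ :=
  leaf_sound (S := T4.ds_mm) T4.ok_mm (w := 192) (c := ⟨⟨.negSucc 990, .ofNat 504, .ofNat 60, .negSucc 432, .ofNat 221, .ofNat 608⟩, ⟨.ofNat 455, .negSucc 272, .ofNat 5, .ofNat 202, .negSucc 111, .negSucc 301⟩, ⟨.ofNat 320, .negSucc 425, .negSucc 52, .ofNat 397, .negSucc 247, .negSucc 418⟩, ⟨.negSucc 1959, .ofNat 805, .ofNat 68, .negSucc 878, .ofNat 309, .ofNat 938⟩, ⟨.negSucc 859, .ofNat 35, .negSucc 18, .negSucc 415, .negSucc 71, .negSucc 17⟩, .ofNat 2495, .ofNat 4269, .ofNat 0, .ofNat 4269, .ofNat 8694, .ofNat 0, .ofNat 78, .negSucc 212, .negSucc 639, .ofNat 0, .ofNat 118, .ofNat 318, .ofNat 0, .ofNat 0, .ofNat 606, .ofNat 253, .ofNat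 0, .ofNat 0, .ofNat 1358060870556322965120614400, .ofNat 0, .ofNat 0, .ofNat 0, .ofNat 418222664766371730552363417600, .ofNat 0, .ofNat 0, .ofNat 0, .ofNat 214883296762240618255613952000, .ofNat 0, .ofNat 0, .ofNat 0, .ofNat 175870477720379062902325248000, .ofNat 0⟩)
    (by decide +kernel)
theorem L00968 : Good (Phi V4.P V4.D (-1) (-1)) ⟨6, 53, 5, 15, 2, 2, 2, 3, 3, 0⟩ :=
  leaf_sound (S := T4.ds_mm) T4.ok_mm (w := 192) (c := ⟨⟨.negSucc 533, .ofNat 233, .ofNat 146, .negSucc 736, .ofNat 115, .ofNat 222⟩, ⟨.ofNat 266, .negSucc 152, .negSucc 37, .ofNat 367, .negSucc 59, .negSucc 111⟩, ⟨.negSucc 64, .negSucc 216, .negSucc 120, .ofNat 669, .negSucc 156, .negSucc 96⟩, ⟨.negSucc 1194, .ofNat 181, .ofNat 279, .negSucc 1304, .ofNat 164, .ofNat 346⟩, ⟨.negSucc 728, .negSucc 355, .ofNat 144, .negSucc 323, .negSucc 27, .ofNat 1⟩, .ofNat 2219, .ofNat 3656, .ofNat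 0, .ofNat 3656, .ofNat 7310, .ofNat 0, .ofNat 72, .negSucc 215, .negSucc 672, .ofNat 0, .ofNat 121, .ofNat 344, .ofNat 0, .ofNat 0, .ofNat 628, .ofNat 410, .ofNat 0, .ofNat 0, .ofNat 0, .ofNat 0, .ofNat 0, .ofNat 0, .ofNat 0, .ofNat 0, .ofNat 0, .ofNat 0, .ofNat 0, .ofNat 0, .ofNat 0, .ofNat 0, .ofNat 0, .ofNat 0⟩)
    (by decide +kernel)
theorem L00969 : Good (Phi V4.P V4.D (-1) (-1)) ⟨5, 26, 4, 7, 2, 2, 3, 6, 3, 1⟩ :=
  leaf_sound (S := T4.ds_mm) T4.ok_mm (w := 192) (c := ⟨⟨.negSucc 1268, .ofNat 218, .ofNat 195, .ofNat 320, .ofNat 689, .ofNat 836⟩, ⟨.ofNat 633, .negSucc 167, .negSucc 41, .negSucc 180, .negSucc 342, .negSucc 421⟩, ⟨.ofNat 631, .negSucc 171, .negSucc 160, .negSucc 235, .negSucc 603, .negSucc 597⟩, ⟨.negSucc 2301, .ofNat 313, .ofNat 223, .ofNat 108, .ofNat 1048, .ofNat 1185⟩, ⟨.negSucc 720, .negSucc 17, .negSucc 79, .negSucc 776, .negSucc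 47, .negSucc 224⟩, .ofNat 1299, .ofNat 1934, .ofNat 0, .ofNat 1934, .ofNat 4072, .ofNat 0, .ofNat 323, .negSucc 765, .negSucc 1634, .ofNat 0, .ofNat 439, .ofNat 812, .ofNat 0, .ofNat 0, .ofNat 1650, .ofNat 1877, .ofNat 0, .ofNat 0, .ofNat 0, .ofNat 0, .ofNat 0, .ofNat 0, .ofNat 0, .ofNat 0, .ofNat 0, .ofNat 0, .ofNat 0, .ofNat 0, .ofNat 0, .ofNat 0, .ofNat 0, .ofNat 0⟩)
    (by decide +kernel)
theorem L00970 : Good (Phi V4.P V4.D (-1) (-1)) ⟨5, 26, 4, 7, 2, 2, 3, 7, 3, 1⟩ :=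
  leaf_sound (S := T4.ds_mm) T4.ok_mm (w := 192) (c := ⟨⟨.negSucc 671, .ofNat 317, .ofNat 180, .ofNat 441, .ofNat 727, .ofNat 857⟩, ⟨.ofNat 350, .negSucc 230, .negSucc 49, .negSucc 239, .negSucc 358, .negSucc 427⟩, ⟨.ofNat 80, .negSucc 261, .negSucc 149, .negSucc 263, .negSucc 625, .negSucc 609⟩, ⟨.negSucc 1425, .ofNat 429, .ofNat 240, .ofNat 316, .ofNat 1206, .ofNat 1309⟩, ⟨.negSucc 849, .negSucc 57, .ofNat 4, .negSucc 742, .ofNat 160, .negSucc 42⟩, .ofNat 1940, .ofNat 3175, .ofNat 0, .ofNat 3175, .ofNat 6513, .ofNat 0, .ofNat 293, .negSucc 796, .negSucc 1775, .ofNat 0, .ofNat 444, .ofNat 881, .ofNat 0, .ofNat 0, .ofNat 1751, .ofNat 1174, .ofNat 0, .ofNat 410440769529846729980676282305740800, .ofNat 0, .ofNat 0, .ofNat 0, .ofNat 13937392237119161651898334808585011200, .ofNat 0, .ofNat 0, .ofNat 0, .ofNat 39179830371211642844427802873587302400, .ofNat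 0, .ofNat 0, .ofNat 0, .ofNat 0, .ofNat 0, .ofNat 0⟩)
    (by decide +kernel)
theorem L00971 : Good (Phi V4.P V4.D (-1) (-1)) ⟨6, 54, 5, 14, 2, 2, 2, 3, 3, 0⟩ :=
  out_sound (S := T4.ds_mm) T4.ok_mm (w := 72) (j := 3) (by decide +kernel)
theorem L00972 : Good (Phi V4.P V4.D (-1) (-1)) ⟨6, 54, 5, 15, 2, 2, 2, 3, 3, 0⟩ :=
  leaf_sound (S := T4.ds_mm) T4.ok_mm (w := 192) (c := ⟨⟨.negSucc 1469, .negSucc 42, .ofNat 1059, .negSucc 300, .ofNat 471, .ofNat 204⟩, ⟨.ofNat 725, .negSucc 0, .negSucc 522, .ofNat 149, .negSucc 246, .negSucc 106⟩, ⟨.ofNat 696, .ofNat 13, .negSucc 892, .ofNat 316, .negSucc 466, .negSucc 52⟩, ⟨.negSucc 2686, .ofNat 92, .ofNat 1532, .negSucc 680, .ofNat 716, .ofNat 320⟩, ⟨.negSucc 849, .ofNat 311, .negSucc 148, .negSucc 417, .negSucc 12, .ofNat 12⟩, .ofNat 3698, .ofNat 6339, .ofNat 0, .ofNat 6339, .ofNat 12156, .ofNat 0, .ofNat 62, .negSucc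 215, .negSucc 676, .ofNat 0, .ofNat 122, .ofNat 356, .ofNat 0, .ofNat 0, .ofNat 634, .ofNat 242, .ofNat 0, .ofNat 0, .ofNat 3684966743848097383081574400, .ofNat 0, .ofNat 0, .ofNat 0, .ofNat 911064054824092288294060032000, .ofNat 0, .ofNat 0, .ofNat 0, .ofNat 481752141768350276356826726400, .ofNat 0, .ofNat 0, .ofNat 0, .ofNat 379328350464876751764848640000, .ofNat 0⟩)
    (by decide +kernel)
theorem L00973 : Good (Phi V4.P V4.D (-1) (-1)) ⟨6, 54, 5, 14, 2, 2, 2, 3, 3, 1⟩ :=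
  out_sound (S := T4.ds_mm) T4.ok_mm (w := 72) (j := 3) (by decide +kernel)
theorem L00974 : Good (Phi V4.P V4.D (-1) (-1)) ⟨6, 54, 5, 15, 2, 2, 3, 6, 3, 1⟩ :=
  leaf_sound (S := T4.ds_mm) T4.ok_mm (w := 192) (c := ⟨⟨.negSucc 1190, .negSucc 188, .ofNat 231, .ofNat 576, .ofNat 800, .ofNat 814⟩, ⟨.ofNat 588, .ofNat 65, .negSucc 96, .negSucc 316, .negSucc 417, .negSucc 428⟩, ⟨.ofNat 565, .ofNat 101, .negSucc 199, .negSucc 394, .negSucc 693, .negSucc 573⟩, ⟨.negSucc 2208, .negSucc 257, .ofNat 309, .ofNat 449, .ofNat 1215, .ofNat 1138⟩, ⟨.negSucc 765, .ofNat 91, .negSucc 42, .negSucc 835, .negSucc 26, .negSucc 215⟩, .ofNat 3271, .ofNat 5544, .ofNat 0, .ofNat 5544, .ofNat 10675, .ofNat 0, .ofNat 114, .negSucc 397, .negSucc 841, .ofNat 0, .ofNat 224, .ofNat 443, .ofNat 0, .ofNat 0, .ofNat 845, .ofNat 1468, .ofNat 0, .ofNat 0, .ofNat 0, .ofNat 0, .ofNat 0, .ofNat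 0, .ofNat 31515306766270242027688112947200, .ofNat 0, .ofNat 0, .ofNat 268839039480983024401101346573595443200, .ofNat 3587110188390223614902167142400, .ofNat 0, .ofNat 0, .ofNat 44206153504029125623668519071435980800, .ofNat 3032958887529293848032313344000, .ofNat 0⟩)
    (by decide +kernel)
theorem L00975 : Good (Phi V4.P V4.D (-1) (-1)) ⟨6, 54, 5, 15, 2, 2, 3, 7, 3, 1⟩ :=
  leaf_sound (S := T4.ds_mm) T4.ok_mm (w := 200) (c := ⟨⟨.negSucc 308, .ofNat 390, .ofNat 11, .ofNat 673, .ofNat 944, .ofNat 816⟩, ⟨.ofNat 132, .negSucc 244, .ofNat 13, .negSucc 366, .negSucc 489, .negSucc 426⟩, ⟨.negSucc 257, .negSucc 305, .negSucc 2, .negSucc 407, .negSucc 797, .negSucc 563⟩, ⟨.negSucc 938, .ofNat 537, .ofNat 11, .ofNat 633, .ofNat 1546, .ofNat 1237⟩, ⟨.negSucc 929, .negSucc 67, .ofNat 27, .negSucc 767, .ofNat 183, .negSucc 31⟩, .ofNat 3268, .ofNat 5535, .ofNat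 0, .ofNat 5535, .ofNat 10650, .ofNat 0, .ofNat 234, .negSucc 812, .negSucc 1849, .ofNat 0, .ofNat 458, .ofNat 968, .ofNat 0, .ofNat 0, .ofNat 1808, .ofNat 2657, .ofNat 0, .ofNat 81576433446430655019932982204117811200, .ofNat 0, .ofNat 0, .ofNat 0, .ofNat 1924146097517468608684112025850635878400, .ofNat 108911262889437769850475773952000, .ofNat 0, .ofNat 0, .ofNat 4566207017248090459949850176126346854400, .ofNat 14309751238729555409900037734400, .ofNat 0, .ofNat 0, .ofNat 1129419022875968793753119675092303872000, .ofNat 16722442830531125396559731097600, .ofNat 0⟩)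
    (by decide +kernel)
theorem L00976 : Good (Phi V4.P V4.D (-1) (-1)) ⟨6, 55, 4, 7, 2, 2, 2, 3, 2, 0⟩ :=
  out_sound (S := T4.ds_mm) T4.ok_mm (w := 72) (j := 3) (by decide +kernel)
theorem L00977 : Good (Phi V4.P V4.D (-1) (-1)) ⟨3, 7, 4, 7, 2, 2, 2, 3, 2, 0⟩ :=
  out_sound (S := T4.ds_mm) T4.ok_mm (w := 48) (j := 3) (by decide +kernel)
theorem L00978 : Good (Phi V4.P V4.D (-1) (-1)) ⟨4, 12, 4, 7, 2, 3, 2, 3, 2, 0⟩ :=
  out_sound (S := T4.ds_mm) T4.ok_mm (w := 56) (j := 3) (by decide +kernel)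
theorem L00979 : Good (Phi V4.P V4.D (-1) (-1)) ⟨6, 52, 4, 7, 2, 3, 2, 3, 4, 0⟩ :=
  leaf_sound (S := T4.ds_mm) T4.ok_mm (w := 192) (c := ⟨⟨.negSucc 1153, .ofNat 221, .ofNat 183, .negSucc 393, .negSucc 350, .negSucc 496⟩, ⟨.ofNat 532, .negSucc 111, .negSucc 6, .ofNat 191, .ofNat 159, .ofNat 235⟩, ⟨.ofNat 613, .negSucc 163, .negSucc 299, .ofNat 219, .ofNat 153, .ofNat 269⟩, ⟨.negSucc 2299, .ofNat 395, .ofNat 102, .negSucc 591, .negSucc 717, .negSucc 846⟩, ⟨.negSucc 969, .ofNat 45, .negSucc 317, .ofNat 55, .negSucc 348, .negSucc 140⟩, .ofNat 2324, .ofNat 4025, .ofNat 0, .ofNat 4025, .ofNat 8417, .ofNat 0, .ofNat 83, .negSucc 262, .negSucc 596, .ofNat 0, .ofNat 136, .ofNat 290, .ofNat 0, .ofNat 0, .ofNat 479, .ofNat 376, .ofNat 0, .ofNat 52383470988305723430856236938035200, .ofNat 141592960778811673770196992000, .ofNat 0, .ofNat 0, .ofNat 0, .ofNat 0, .ofNat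 0, .ofNat 0, .ofNat 0, .ofNat 6547428865387064033917953638400, .ofNat 0, .ofNat 0, .ofNat 11837911269008399049581218126154956800, .ofNat 1242893486414696022713932185600, .ofNat 0⟩)
    (by decide +kernel)
theorem L00980 : Good (Phi V4.P V4.D (-1) (-1)) ⟨6, 53, 4, 7, 3, 6, 2, 3, 4, 0⟩ :=
  leaf_sound (S := T4.ds_mm) T4.ok_mm (w := 200) (c := ⟨⟨.negSucc 758, .negSucc 562, .ofNat 661, .negSucc 393, .negSucc 359, .negSucc 433⟩, ⟨.ofNat 319, .ofNat 269, .negSucc 243, .ofNat 200, .ofNat 173, .ofNat 216⟩, ⟨.ofNat 250, .ofNat 423, .negSucc 512, .ofNat 296, .ofNat 202, .ofNat 274⟩, ⟨.negSucc 1676, .negSucc 830, .ofNat 950, .negSucc 591, .negSucc 705, .negSucc 716⟩, ⟨.negSucc 999, .ofNat 37, .negSucc 78, .ofNat 36, .negSucc 299, .negSucc 85⟩, .ofNat 1992, .ofNat 3256, .ofNat 0, .ofNat 3256, .ofNat 6626, .ofNat 0, .ofNat 82, .negSucc 248, .negSucc 685, .ofNat 0,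 .ofNat 135, .ofNat 345, .ofNat 0, .ofNat 0, .ofNat 565, .ofNat 458, .ofNat 0, .ofNat 0, .ofNat 0, .ofNat 0, .ofNat 0, .ofNat 2464952532056342598867942251319577804800, .ofNat 1694750903858562679053675292262400, .ofNat 0, .ofNat 0, .ofNat 0, .ofNat 0, .ofNat 0, .ofNat 0, .ofNat 0, .ofNat 0, .ofNat 0⟩)
    (by decide +kernel)

end Crest.Agent.R097C4.N4mm
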