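import Crest.Agent.R097.T4

/-!
# Row 97, box cover in dimension n = 4 (generated)
-/

set_option autoImplicit false
set_option Elab.async false
set_option maxHeartbeats 0
set_option maxRecDepth 100000

open Crest.Agent.R097 Crest.Agent.R097.KA


namespace Crest.Agent.R097C4.N4mm

theorem L00981 : Good (Phi V4.P V4.D (-1) (-1)) ⟨6, 53, 4, 7, 3, 7, 2, 3, 4, 0⟩ :=
  leaf_sound (S := T4.ds_mm) T4.ok_mm (w := 200) (c := ⟨⟨.negSucc 1196, .negSucc 167, .ofNat 229, .ofNat 120, .negSucc 414, .negSucc 682⟩, ⟨.ofNat 541, .ofNat 72, .negSucc 15, .negSucc 57, .ofNat 196, .ofNat 334⟩, ⟨.ofNat 666, .ofNat 74, .negSucc 95, .negSucc 66, .ofNat 127, .ofNat 315⟩, ⟨.negSucc 2270, .negSucc 245, .ofNat 356, .ofNat 254, .negSucc 871, .negSucc 1198⟩, ⟨.negSucc 824, .negSucc 35, .ofNat 67, .ofNat 134, .negSucc 453, .negSucc 276⟩, .ofNat 2005, .ofNat 3285, .ofNat 0, .ofNat 3285, .ofNat 6690,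 .ofNat 0, .ofNat 83, .negSucc 289, .negSucc 601, .ofNat 0, .ofNat 153, .ofNat 301, .ofNat 0, .ofNat 0, .ofNat 442, .ofNat 522, .ofNat 0, .ofNat 0, .ofNat 0, .ofNat 0, .ofNat 0, .ofNat 0, .ofNat 0, .ofNat 0, .ofNat 0, .ofNat 3688812475760231844975862982838426009600, .ofNat 0, .ofNat 0, .ofNat 0, .ofNat 0, .ofNat 0, .ofNat 0⟩)
    (by decide +kernel)
theorem L00982 : Good (Phi V4.P V4.D (-1) (-1)) ⟨6, 52, 4, 7, 2, 3, 2, 3, 5, 2⟩ :=
  leaf_sound (S := T4.ds_mm) T4.ok_mm (w := 200) (c := ⟨⟨.negSucc 960, .negSucc 949, .ofNat 1071, .negSucc 513, .ofNat 679, .ofNat 419⟩, ⟨.ofNat 449, .ofNat 439, .negSucc 423, .ofNat 243, .negSucc 336, .negSucc 204⟩, ⟨.ofNat 448, .ofNat 608, .negSucc 654, .ofNat 292, .negSucc 567, .negSucc 306⟩, ⟨.negSucc 1928, .negSucc 1535, .ofNat 1672, .negSucc 860, .ofNat 866, .ofNat 590⟩, ⟨.negSucc 827, .negSucc 148, .ofNat 63, .negSucc 114, .negSucc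 414, .negSucc 139⟩, .ofNat 2321, .ofNat 4021, .ofNat 0, .ofNat 4021, .ofNat 8413, .ofNat 0, .ofNat 83, .negSucc 274, .negSucc 635, .ofNat 0, .ofNat 142, .ofNat 308, .ofNat 0, .ofNat 0, .ofNat 483, .ofNat 542, .ofNat 0, .ofNat 0, .ofNat 0, .ofNat 0, .ofNat 0, .ofNat 0, .ofNat 0, .ofNat 0, .ofNat 0, .ofNat 63800405271864303324532459591591526400, .ofNat 126737283690702994130261036236800, .ofNat 0, .ofNat 0, .ofNat 0, .ofNat 9482479519213988143564220006400, .ofNat 0⟩)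
    (by decide +kernel)
theorem L00983 : Good (Phi V4.P V4.D (-1) (-1)) ⟨6, 53, 4, 7, 3, 6, 2, 3, 5, 2⟩ :=
  leaf_sound (S := T4.ds_mm) T4.ok_mm (w := 208) (c := ⟨⟨.negSucc 1720, .negSucc 209, .ofNat 388, .negSucc 606, .ofNat 849, .ofNat 396⟩, ⟨.ofNat 801, .ofNat 80, .negSucc 90, .ofNat 302, .negSucc 433, .negSucc 197⟩, ⟨.ofNat 931, .ofNat 151, .negSucc 286, .ofNat 403, .negSucc 690, .negSucc 291⟩, ⟨.negSucc 3173, .negSucc 319, .ofNat 571, .negSucc 969, .ofNat 1134, .ofNat 555⟩, ⟨.negSucc 1012, .negSucc 31, .ofNat 20, .negSucc 55, .negSucc 369, .negSucc 123⟩, .ofNat 1293, .ofNat 1922, .ofNat 0, .ofNat 1922, .ofNat 4045, .ofNat 0, .ofNat 95, .negSucc 249, .negSucc 748, .ofNat 0, .ofNat 138, .ofNat 371, .ofNat 0, .ofNat 0, .ofNat 591, .ofNat 700, .ofNat 0, .ofNat 0, .ofNat 0, .ofNat 0, .ofNat 0, .ofNat 0, .ofNat 0, .ofNat 0, .ofNat 0, .ofNat 0, .ofNat 0, .ofNat 0,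 .ofNat 0, .ofNat 0, .ofNat 0, .ofNat 0⟩)
    (by decide +kernel)
theorem L00984 : Good (Phi V4.P V4.D (-1) (-1)) ⟨6, 53, 4, 7, 3, 7, 2, 3, 5, 2⟩ :=
  leaf_sound (S := T4.ds_mm) T4.ok_mm (w := 208) (c := ⟨⟨.negSucc 2297, .negSucc 260, .ofNat 366, .ofNat 210, .ofNat 608, .ofNat 386⟩, ⟨.ofNat 1083, .ofNat 117, .negSucc 74, .negSucc 104, .negSucc 317, .negSucc 196⟩, ⟨.ofNat 1266, .ofNat 136, .negSucc 186, .negSucc 154, .negSucc 515, .negSucc 262⟩, ⟨.negSucc 4069, .negSucc 369, .ofNat 532, .ofNat 328, .ofNat 699, .ofNat 500⟩, ⟨.negSucc 1004, .negSucc 3, .ofNat 21, .ofNat 4, .negSucc 485, .negSucc 199⟩, .ofNat 1302, .ofNat 1932, .ofNat 0, .ofNat 1932, .ofNat 4046, .ofNat 0, .ofNat 197, .negSucc 604, .negSucc 1455, .ofNat 0, .ofNat 321, .ofNat 723, .ofNat 0, .ofNat 0, .ofNat 990, .ofNat 1346, .ofNat 0, .ofNat 0, .ofNat 0, .ofNat 0, .ofNat 0, .ofNat 0, .ofNat 0, .ofNat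 0, .ofNat 0, .ofNat 107827442898578324911393734506360655052800, .ofNat 0, .ofNat 0, .ofNat 0, .ofNat 73525522803875718037209627936149628518400, .ofNat 0, .ofNat 0⟩)
    (by decide +kernel)
theorem L00985 : Good (Phi V4.P V4.D (-1) (-1)) ⟨6, 52, 4, 7, 2, 3, 2, 3, 5, 3⟩ :=
  leaf_sound (S := T4.ds_mm) T4.ok_mm (w := 200) (c := ⟨⟨.negSucc 1428, .negSucc 349, .ofNat 573, .negSucc 315, .ofNat 1214, .ofNat 565⟩, ⟨.ofNat 677, .ofNat 144, .negSucc 180, .ofNat 146, .negSucc 591, .negSucc 277⟩, ⟨.ofNat 690, .ofNat 234, .negSucc 371, .ofNat 221, .negSucc 925, .negSucc 373⟩, ⟨.negSucc 2680, .negSucc 648, .ofNat 955, .negSucc 590, .ofNat 1731, .ofNat 770⟩, ⟨.negSucc 889, .negSucc 236, .ofNat 192, .negSucc 196, .negSucc 363, .negSucc 243⟩, .ofNat 2583, .ofNat 4547, .ofNat 0, .ofNat 4547, .ofNat 9477, .ofNat 0, .ofNat 81, .negSucc 272, .negSucc 619, .ofNat 0, .ofNat 141, .ofNat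 301, .ofNat 0, .ofNat 0, .ofNat 474, .ofNat 410, .ofNat 0, .ofNat 0, .ofNat 0, .ofNat 0, .ofNat 0, .ofNat 0, .ofNat 0, .ofNat 0, .ofNat 0, .ofNat 303700323931384358627316201401037619200, .ofNat 77294316050943339553493719449600, .ofNat 0, .ofNat 0, .ofNat 0, .ofNat 0, .ofNat 0⟩)
    (by decide +kernel)
theorem L00986 : Good (Phi V4.P V4.D (-1) (-1)) ⟨6, 53, 4, 7, 3, 6, 2, 3, 5, 3⟩ :=
  leaf_sound (S := T4.ds_mm) T4.ok_mm (w := 208) (c := ⟨⟨.negSucc 1847, .negSucc 7, .ofNat 486, .negSucc 439, .ofNat 1500, .ofNat 715⟩, ⟨.ofNat 877, .negSucc 15, .negSucc 173, .ofNat 215, .negSucc 760, .negSucc 363⟩, ⟨.ofNat 987, .negSucc 17, .negSucc 316, .ofNat 325, .negSucc 1157, .negSucc 498⟩, ⟨.negSucc 3420, .negSucc 3, .ofNat 685, .negSucc 757, .ofNat 2183, .ofNat 1021⟩, ⟨.negSucc 1144, .negSucc 14, .negSucc 14, .negSucc 148, .negSucc 286, .negSucc 174⟩, .ofNat 1982, .ofNat 3240,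 .ofNat 0, .ofNat 3240, .ofNat 6599, .ofNat 0, .ofNat 160, .negSucc 506, .negSucc 1380, .ofNat 0, .ofNat 274, .ofNat 693, .ofNat 0, .ofNat 0, .ofNat 1098, .ofNat 1460, .ofNat 0, .ofNat 0, .ofNat 0, .ofNat 0, .ofNat 0, .ofNat 0, .ofNat 70471999914782809701183888398745600, .ofNat 0, .ofNat 0, .ofNat 82094020533881919846681002862215115571200, .ofNat 0, .ofNat 0, .ofNat 0, .ofNat 0, .ofNat 0, .ofNat 0⟩)
    (by decide +kernel)
theorem L00987 : Good (Phi V4.P V4.D (-1) (-1)) ⟨6, 53, 4, 7, 3, 7, 2, 3, 5, 3⟩ :=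
  leaf_sound (S := T4.ds_mm) T4.ok_mm (w := 208) (c := ⟨⟨.negSucc 2308, .ofNat 3, .ofNat 333, .ofNat 258, .ofNat 1319, .ofNat 865⟩, ⟨.ofNat 1089, .negSucc 39, .negSucc 55, .negSucc 126, .negSucc 664, .negSucc 435⟩, ⟨.ofNat 1206, .negSucc 24, .negSucc 161, .negSucc 107, .negSucc 941, .negSucc 524⟩, ⟨.negSucc 4165, .negSucc 4, .ofNat 478, .ofNat 379, .ofNat 1835, .ofNat 1205⟩, ⟨.negSucc 1175, .negSucc 32, .ofNat 5, .negSucc 49, .negSucc 438, .negSucc 283⟩, .ofNat 1274, .ofNat 1890, .ofNat 0, .ofNat 1890, .ofNat 3996, .ofNat 0, .ofNat 100, .negSucc 302, .negSucc 687, .ofNat 0, .ofNat 160, .ofNat 340, .ofNat 0, .ofNat 0, .ofNat 471, .ofNat 250, .ofNat 0, .ofNat 0, .ofNat 0, .ofNat 0, .ofNat 0, .ofNat 0, .ofNat 0, .ofNat 0, .ofNat 0, .ofNat 42977553138020215599328524679874032435200, .ofNat 0, .ofNat 0, .ofNat 0, .ofNat 0, .ofNat 0, .ofNat 0⟩)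
    (by decide +kernel)
theorem L00988 : Good (Phi V4.P V4.D (-1) (-1)) ⟨5, 27, 5, 14, 2, 3, 2, 3, 3, 0⟩ :=
  out_sound (S := T4.ds_mm) T4.ok_mm (w := 64) (j := 3) (by decide +kernel)
theorem L00989 : Good (Phi V4.P V4.D (-1) (-1)) ⟨7, 108, 5, 15, 3, 6, 2, 3, 4, 0⟩ :=
  leaf_sound (S := T4.ds_mm) T4.ok_mm (w := 208) (c := ⟨⟨.negSucc 837, .ofNat 87, .ofNat 199, .negSucc 539, .negSucc 387, .negSucc 544⟩, ⟨.ofNat 379, .negSucc 53, .negSucc 58, .ofNat 283, .ofNat 197, .ofNat 283⟩, ⟨.ofNat 283, .negSucc 62, .negSucc 128, .ofNat 398, .ofNat 221, .ofNat 358⟩, ⟨.negSucc 1814, .ofNat 159, .ofNat 284, .negSucc 803, .negSucc 744, .negSucc 874⟩, ⟨.negSucc 1038, .ofNat 24, .negSucc 4, .ofNat 48, .negSucc 282, .negSucc 73⟩, .ofNat 3310, .ofNat 5616, .ofNat 0, .ofNat 5616, .ofNat 10805, .ofNat 0, .ofNat 65, .negSucc 252, .negSucc 740, .ofNat 0, .ofNat 140, .ofNat 390, .ofNat 0,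 .ofNat 0, .ofNat 602, .ofNat 608, .ofNat 0, .ofNat 0, .ofNat 0, .ofNat 0, .ofNat 0, .ofNat 215799771855363817709105407595184862003200, .ofNat 1889686617779559112580267193139200, .ofNat 0, .ofNat 0, .ofNat 0, .ofNat 0, .ofNat 0, .ofNat 0, .ofNat 265129953205683786852303083871148179456000, .ofNat 247488680944900524929876125286400, .ofNat 0⟩)
    (by decide +kernel)
theorem L00990 : Good (Phi V4.P V4.D (-1) (-1)) ⟨7, 108, 5, 15, 3, 6, 2, 3, 4, 1⟩ :=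
  leaf_sound (S := T4.ds_mm) T4.ok_mm (w := 208) (c := ⟨⟨.negSucc 2152, .ofNat 224, .ofNat 205, .negSucc 627, .ofNat 1345, .ofNat 1376⟩, ⟨.ofNat 1065, .negSucc 134, .negSucc 57, .ofNat 327, .negSucc 710, .negSucc 727⟩, ⟨.ofNat 1229, .negSucc 150, .negSucc 174, .ofNat 447, .negSucc 1038, .negSucc 966⟩, ⟨.negSucc 3860, .ofNat 314, .ofNat 360, .negSucc 999, .ofNat 1881, .ofNat 1897⟩, ⟨.negSucc 1097, .negSucc 66, .ofNat 129, .negSucc 67, .negSucc 352, .negSucc 411⟩, .ofNat 3407, .ofNat 5793, .ofNat 0, .ofNat 5793, .ofNat 11130, .ofNat 0, .ofNat 63, .negSucc 260, .negSucc 771, .ofNat 0, .ofNat 144, .ofNat 406, .ofNat 0, .ofNat 0, .ofNat 598, .ofNat 705, .ofNat 0, .ofNat 0, .ofNat 0, .ofNat 0, .ofNat 0, .ofNat 174260090526408642408519805345374142464000, .ofNat 1411071064334226462492877809254400, .ofNat 0, .ofNat 0, .ofNat 51715603343629754172173990628650542694400, .ofNat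 967887200943846599908835878502400, .ofNat 0, .ofNat 0, .ofNat 0, .ofNat 496840836326452487191523229696000, .ofNat 0⟩)
    (by decide +kernel)
theorem L00991 : Good (Phi V4.P V4.D (-1) (-1)) ⟨7, 108, 5, 15, 3, 7, 2, 3, 4, 0⟩ :=
  leaf_sound (S := T4.ds_mm) T4.ok_mm (w := 208) (c := ⟨⟨.negSucc 503, .ofNat 160, .negSucc 554, .ofNat 1, .negSucc 616, .negSucc 866⟩, ⟨.ofNat 201, .negSucc 90, .ofNat 343, .ofNat 2, .ofNat 314, .ofNat 448⟩, ⟨.ofNat 249, .negSucc 103, .ofNat 331, .ofNat 1, .ofNat 251, .ofNat 440⟩, ⟨.negSucc 1202, .ofNat 242, .negSucc 853, .ofNat 72, .negSucc 1178, .negSucc 1471⟩, ⟨.negSucc 842, .negSucc 35, .ofNat 27, .ofNat 134, .negSucc 442, .negSucc 267⟩, .ofNat 2472, .ofNat 4050, .ofNat 0, .ofNat 4050, .ofNat 7869, .ofNat 0, .ofNat 143, .negSucc 597, .negSucc 1285, .ofNat 0, .ofNat 323, .ofNat 672, .ofNat 0, .ofNat 0, .ofNat 912, .ofNat 1090, .ofNat 0,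 .ofNat 0, .ofNat 0, .ofNat 0, .ofNat 0, .ofNat 0, .ofNat 7604824675206140568531040311705600, .ofNat 0, .ofNat 0, .ofNat 0, .ofNat 0, .ofNat 0, .ofNat 0, .ofNat 0, .ofNat 1147113352807688783692584242380800, .ofNat 0⟩)
    (by decide +kernel)
theorem L00992 : Good (Phi V4.P V4.D (-1) (-1)) ⟨7, 108, 5, 15, 3, 7, 2, 3, 4, 1⟩ :=
  leaf_sound (S := T4.ds_mm) T4.ok_mm (w := 208) (c := ⟨⟨.negSucc 2558, .ofNat 217, .negSucc 139, .ofNat 220, .ofNat 1023, .ofNat 1626⟩, ⟨.ofNat 1278, .negSucc 126, .ofNat 122, .negSucc 115, .negSucc 542, .negSucc 860⟩, ⟨.ofNat 1384, .negSucc 82, .ofNat 70, .negSucc 82, .negSucc 779, .negSucc 980⟩, ⟨.negSucc 4398, .ofNat 358, .negSucc 271, .ofNat 333, .ofNat 1345, .ofNat 2217⟩, ⟨.negSucc 933, .ofNat 31, .negSucc 60, .negSucc 9, .negSucc 433, .negSucc 535⟩, .ofNat 2457, .ofNat 4021, .ofNat 0, .ofNat 4021, .ofNat 7814, .ofNat 0, .ofNat 72, .negSucc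 312, .negSucc 763, .ofNat 0, .ofNat 170, .ofNat 400, .ofNat 0, .ofNat 0, .ofNat 508, .ofNat 408, .ofNat 0, .ofNat 0, .ofNat 0, .ofNat 0, .ofNat 0, .ofNat 0, .ofNat 0, .ofNat 0, .ofNat 0, .ofNat 466822099094540326824704197316953138790400, .ofNat 0, .ofNat 0, .ofNat 0, .ofNat 80129215348344479441644868412792373248000, .ofNat 0, .ofNat 0⟩)
    (by decide +kernel)
theorem L00993 : Good (Phi V4.P V4.D (-1) (-1)) ⟨7, 109, 5, 15, 2, 3, 2, 3, 3, 0⟩ :=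
  out_sound (S := T4.ds_mm) T4.ok_mm (w := 80) (j := 3) (by decide +kernel)
theorem L00994 : Good (Phi V4.P V4.D (-1) (-1)) ⟨6, 55, 5, 15, 2, 3, 2, 3, 3, 0⟩ :=
  out_sound (S := T4.ds_mm) T4.ok_mm (w := 72) (j := 3) (by decide +kernel)
theorem L00995 : Good (Phi V4.P V4.D (-1) (-1)) ⟨6, 52, 4, 7, 2, 3, 3, 6, 3, 1⟩ :=
  leaf_sound (S := T4.ds_mm) T4.ok_mm (w := 192) (c := ⟨⟨.negSucc 1725, .ofNat 346, .negSucc 383, .ofNat 312, .ofNat 790, .ofNat 1770⟩, ⟨.ofNat 831, .negSucc 205, .ofNat 270, .negSucc 165, .negSucc 381, .negSucc 871⟩, ⟨.ofNat 734, .negSucc 130, .ofNat 191, .negSucc 44, .negSucc 583, .negSucc 1157⟩, ⟨.negSucc 3271, .ofNat 501, .negSucc 479, .ofNat 201, .ofNat 1191, .ofNat 2373⟩, ⟨.negSucc 1200, .negSucc 57, .ofNat 367, .negSucc 600, .negSucc 100, .negSucc 839⟩, .ofNat 2564, .ofNat 4505, .ofNat 0, .ofNat 4505, .ofNat 9388, .ofNat 0, .ofNat 154, .negSucc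 511, .negSucc 893, .ofNat 0, .ofNat 267, .ofNat 436, .ofNat 0, .ofNat 0, .ofNat 757, .ofNat 884, .ofNat 0, .ofNat 0, .ofNat 0, .ofNat 0, .ofNat 0, .ofNat 0, .ofNat 0, .ofNat 0, .ofNat 0, .ofNat 74767906614634149116761740813533184000, .ofNat 12116169915328600922598565478400, .ofNat 0, .ofNat 0, .ofNat 0, .ofNat 0, .ofNat 0⟩)
    (by decide +kernel)
theorem L00996 : Good (Phi V4.P V4.D (-1) (-1)) ⟨6, 52, 4, 7, 2, 3, 3, 7, 3, 1⟩ :=
  leaf_sound (S := T4.ds_mm) T4.ok_mm (w := 192) (c := ⟨⟨.negSucc 788, .ofNat 92, .ofNat 86, .ofNat 86, .ofNat 973, .ofNat 2678⟩, ⟨.ofNat 375, .negSucc 83, .ofNat 23, .negSucc 52, .negSucc 466, .negSucc 1302⟩, ⟨.ofNat 187, .negSucc 108, .negSucc 20, .ofNat 96, .negSucc 698, .negSucc 1775⟩, ⟨.negSucc 1902, .ofNat 101, .ofNat 72, .negSucc 69, .ofNat 1531, .ofNat 3896⟩, ⟨.negSucc 1416, .negSucc 60, .negSucc 25, .negSucc 427, .ofNat 9, .negSucc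 633⟩, .ofNat 2316, .ofNat 4012, .ofNat 0, .ofNat 4012, .ofNat 8396, .ofNat 0, .ofNat 323, .negSucc 1064, .negSucc 2290, .ofNat 0, .ofNat 553, .ofNat 1109, .ofNat 0, .ofNat 0, .ofNat 1807, .ofNat 2000, .ofNat 0, .ofNat 20338538190997661914136266074488832000, .ofNat 0, .ofNat 0, .ofNat 0, .ofNat 1763805966603521770093990335560338636800, .ofNat 0, .ofNat 0, .ofNat 0, .ofNat 1613133010556697364493872515538275532800, .ofNat 53734879256852287053125753241600, .ofNat 0, .ofNat 0, .ofNat 1260098844211840600193415668182705766400, .ofNat 26869594852794274729302373171200, .ofNat 0⟩)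
    (by decide +kernel)
theorem L00997 : Good (Phi V4.P V4.D (-1) (-1)) ⟨6, 53, 4, 7, 2, 3, 3, 6, 3, 1⟩ :=
  leaf_sound (S := T4.ds_mm) T4.ok_mm (w := 192) (c := ⟨⟨.negSucc 1487, .ofNat 127, .ofNat 357, .ofNat 366, .ofNat 833, .ofNat 1874⟩, ⟨.ofNat 695, .negSucc 116, .negSucc 94, .negSucc 197, .negSucc 414, .negSucc 949⟩, ⟨.ofNat 631, .negSucc 57, .negSucc 233, .negSucc 16, .negSucc 618, .negSucc 1212⟩, ⟨.negSucc 2911, .ofNat 211, .ofNat 396, .ofNat 265, .ofNat 1253, .ofNat 2502⟩, ⟨.negSucc 1265, .ofNat 84, .negSucc 212, .negSucc 607, .negSucc 88, .negSucc 827⟩, .ofNat 2001, .ofNat 3281, .ofNat 0, .ofNat 3281, .ofNat 6685, .ofNat 0, .ofNat 154, .negSucc 515, .negSucc 952, .ofNat 0, .ofNat 278, .ofNat 481, .ofNat 0, .ofNat 0, .ofNat 788, .ofNat 344, .ofNat 0, .ofNat 286078992513129126901771197323673600, .ofNat 0, .ofNat 0, .ofNat 0, .ofNat 35974332958101791205390505901398425600,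 .ofNat 0, .ofNat 0, .ofNat 0, .ofNat 32116470931704791409297328846562918400, .ofNat 1754381188053612268112314368000, .ofNat 0, .ofNat 0, .ofNat 0, .ofNat 0, .ofNat 0⟩)
    (by decide +kernel)
theorem L00998 : Good (Phi V4.P V4.D (-1) (-1)) ⟨6, 53, 4, 7, 3, 6, 3, 7, 4, 2⟩ :=
  leaf_sound (S := T4.ds_mm) T4.ok_mm (w := 208) (c := ⟨⟨.negSucc 659, .ofNat 383, .ofNat 268, .negSucc 2, .ofNat 867, .ofNat 1263⟩, ⟨.ofNat 287, .negSucc 243, .negSucc 68, .negSucc 5, .negSucc 429, .negSucc 634⟩, ⟨.ofNat 62, .negSucc 261, .negSucc 183, .ofNat 96, .negSucc 666, .negSucc 852⟩, ⟨.negSucc 1714, .ofNat 530, .ofNat 356, .negSucc 153, .ofNat 1388, .ofNat 1813⟩, ⟨.negSucc 1449, .negSucc 73, .negSucc 11, .negSucc 299, .ofNat 78, .negSucc 301⟩, .ofNat 1306, .ofNat 1942, .ofNat 0, .ofNat 1942, .ofNat 4069, .ofNat 0, .ofNat 738, .negSucc 2015, .negSucc 4962, .ofNat 0, .ofNat 1108, .ofNat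 2463, .ofNat 0, .ofNat 0, .ofNat 3953, .ofNat 3796, .ofNat 0, .ofNat 15582591667278257066809140767464253030400, .ofNat 0, .ofNat 0, .ofNat 0, .ofNat 0, .ofNat 0, .ofNat 0, .ofNat 0, .ofNat 3301900520362220149745859782453585195827200, .ofNat 0, .ofNat 0, .ofNat 0, .ofNat 0, .ofNat 0, .ofNat 0⟩)
    (by decide +kernel)
theorem L00999 : Good (Phi V4.P V4.D (-1) (-1)) ⟨6, 53, 4, 7, 3, 7, 3, 7, 4, 2⟩ :=
  leaf_sound (S := T4.ds_mm) T4.ok_mm (w := 208) (c := ⟨⟨.negSucc 991, .ofNat 294, .ofNat 331, .ofNat 378, .ofNat 1304, .ofNat 2125⟩, ⟨.ofNat 443, .negSucc 199, .negSucc 82, .negSucc 190, .negSucc 654, .negSucc 1077⟩, ⟨.ofNat 259, .negSucc 182, .negSucc 159, .negSucc 62, .negSucc 779, .negSucc 1246⟩, ⟨.negSucc 2355, .ofNat 408, .ofNat 466, .ofNat 542, .ofNat 2028, .ofNat 3029⟩, ⟨.negSucc 1700, .negSucc 59, .ofNat 24, .negSucc 89, .ofNat 17, .negSucc 537⟩, .ofNat 1297,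 .ofNat 1930, .ofNat 0, .ofNat 1930, .ofNat 4066, .ofNat 0, .ofNat 793, .negSucc 2442, .negSucc 5344, .ofNat 0, .ofNat 1293, .ofNat 2641, .ofNat 0, .ofNat 0, .ofNat 3678, .ofNat 5535, .ofNat 0, .ofNat 39493625408030750461706023327073776435200, .ofNat 0, .ofNat 0, .ofNat 0, .ofNat 3524261654945361677863880222272352629555200, .ofNat 0, .ofNat 0, .ofNat 0, .ofNat 5247749378426264638464673860508759936204800, .ofNat 0, .ofNat 0, .ofNat 0, .ofNat 3852976246904682490455647612184293277696000, .ofNat 0, .ofNat 0⟩)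
    (by decide +kernel)
theorem L01000 : Good (Phi V4.P V4.D (-1) (-1)) ⟨6, 53, 4, 7, 2, 3, 3, 7, 4, 3⟩ :=
  out_sound (S := T4.ds_mm) T4.ok_mm (w := 32) (j := 2) (by decide +kernel)
theorem L01001 : Good (Phi V4.P V4.D (-1) (-1)) ⟨6, 54, 5, 14, 2, 3, 2, 3, 3, 1⟩ :=
  out_sound (S := T4.ds_mm) T4.ok_mm (w := 72) (j := 3) (by decide +kernel)
theorem L01002 : Good (Phi V4.P V4.D (-1) (-1)) ⟨7, 108, 5, 15, 2, 3, 3, 6, 3, 1⟩ :=
  leaf_sound (S := T4.ds_mm) T4.ok_mm (w := 200) (c := ⟨⟨.negSucc 1091, .ofNat 198, .negSucc 179, .ofNat 450, .ofNat 1060, .ofNat 2038⟩, ⟨.ofNat 511, .negSucc 134, .ofNat 140, .negSucc 246, .negSucc 556, .negSucc 1082⟩, ⟨.ofNat 415, .negSucc 109, .ofNat 40, .negSucc 8, .negSucc 758, .negSucc 1284⟩, ⟨.negSucc 2384, .ofNat 253, .negSucc 232, .ofNat 381, .ofNat 1550, .ofNat 2641⟩, ⟨.negSucc 1405, .negSucc 71, .ofNat 137, .negSucc 594, .negSucc 151,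 .negSucc 937⟩, .ofNat 3824, .ofNat 6573, .ofNat 0, .ofNat 6573, .ofNat 12589, .ofNat 0, .ofNat 124, .negSucc 538, .negSucc 1044, .ofNat 0, .ofNat 295, .ofNat 551, .ofNat 0, .ofNat 0, .ofNat 827, .ofNat 533, .ofNat 0, .ofNat 52882367220023081160059158009164595200, .ofNat 0, .ofNat 0, .ofNat 0, .ofNat 0, .ofNat 7007069574629844045555931545600, .ofNat 0, .ofNat 0, .ofNat 2023211105666970950566924788140133580800, .ofNat 2000889289315024594563760128000, .ofNat 0, .ofNat 0, .ofNat 0, .ofNat 0, .ofNat 0⟩)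
    (by decide +kernel)
theorem L01003 : Good (Phi V4.P V4.D (-1) (-1)) ⟨7, 108, 5, 15, 2, 3, 3, 7, 4, 2⟩ :=
  leaf_sound (S := T4.ds_mm) T4.ok_mm (w := 208) (c := ⟨⟨.negSucc 297, .ofNat 125, .ofNat 190, .ofNat 199, .ofNat 1101, .ofNat 1389⟩, ⟨.ofNat 101, .negSucc 93, .negSucc 65, .negSucc 110, .negSucc 572, .negSucc 732⟩, ⟨.negSucc 225, .negSucc 67, .negSucc 127, .ofNat 196, .negSucc 817, .negSucc 927⟩, ⟨.negSucc 1234, .ofNat 206, .ofNat 240, .ofNat 121, .ofNat 1740, .ofNat 1946⟩, ⟨.negSucc 1540, .ofNat 62, .negSucc 48, .negSucc 354, .ofNat 93, .negSucc 359⟩, .ofNat 3293, .ofNat 5582, .ofNat 0, .ofNat 5582, .ofNat 10739, .ofNat 0, .ofNat 260, .negSucc 1097, .negSucc 2604, .ofNat 0, .ofNat 601, .ofNat 1367, .ofNat 0, .ofNat 0, .ofNat 1973, .ofNat 1550, .ofNat 0, .ofNat 4102444914047027602439487189545071411200, .ofNat 0, .ofNat 0, .ofNat 0, .ofNat 128586436964674827318488844402920364441600,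 .ofNat 448072699878240077618965433548800, .ofNat 0, .ofNat 0, .ofNat 374309674158532495306740262765584187392000, .ofNat 44658768380382562787103080448000, .ofNat 0, .ofNat 0, .ofNat 163044966528397093600239054378124286361600, .ofNat 0, .ofNat 0⟩)
    (by decide +kernel)
theorem L01004 : Good (Phi V4.P V4.D (-1) (-1)) ⟨7, 108, 5, 15, 2, 3, 3, 7, 4, 3⟩ :=
  out_sound (S := T4.ds_mm) T4.ok_mm (w := 32) (j := 2) (by decide +kernel)
theorem L01005 : Good (Phi V4.P V4.D (-1) (-1)) ⟨7, 109, 5, 15, 2, 3, 2, 3, 3, 1⟩ :=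
  out_sound (S := T4.ds_mm) T4.ok_mm (w := 80) (j := 3) (by decide +kernel)
theorem L01006 : Good (Phi V4.P V4.D (-1) (-1)) ⟨6, 55, 4, 7, 2, 3, 2, 3, 3, 1⟩ :=
  out_sound (S := T4.ds_mm) T4.ok_mm (w := 72) (j := 3) (by decide +kernel)
theorem L01007 : Good (Phi V4.P V4.D (-1) (-1)) ⟨3, 7, 4, 7, 2, 3, 2, 3, 2, 0⟩ :=
  out_sound (S := T4.ds_mm) T4.ok_mm (w := 48) (j := 3) (by decide +kernel)
theorem L01008 : Good (Phi V4.P V4.D (-1) (-1)) ⟨2, 2, 2, 1, 1, 1, 1, 1, 2, 1⟩ :=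
  out_sound (S := T4.ds_mm) T4.ok_mm (w := 40) (j := 3) (by decide +kernel)
theorem L01009 : Good (Phi V4.P V4.D (-1) (-1)) ⟨4, 12, 2, 1, 2, 2, 2, 2, 3, 2⟩ :=
  leaf_sound (S := T4.ds_mm) T4.ok_mm (w := 176) (c := ⟨⟨.negSucc 1227, .ofNat 74, .ofNat 241, .ofNat 138, .ofNat 567, .ofNat 364⟩, ⟨.ofNat 421, .negSucc 117, .ofNat 175, .negSucc 94, .negSucc 219, .negSucc 142⟩, ⟨.ofNat 867, .negSucc 70, .negSucc 199, .negSucc 176, .negSucc 595, .negSucc 254⟩, ⟨.negSucc 2227, .ofNat 95, .ofNat 195, .negSucc 112, .ofNat 882, .ofNat 546⟩, ⟨.negSucc 590, .negSucc 107, .negSucc 46, .negSucc 912, .negSucc 148, .negSucc 174⟩, .ofNat 529, .ofNat 516, .ofNat 0, .ofNat 516, .ofNat 1595, .ofNat 0, .ofNat 226, .negSucc 237, .negSucc 352, .ofNat 0, .ofNat 161, .ofNat 139, .ofNat 0, .ofNat 0, .ofNat 522, .ofNat 893, .ofNat 0, .ofNat 0, .ofNat 0, .ofNat 0, .ofNat 0, .ofNat 0, .ofNat 0,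 .ofNat 0, .ofNat 0, .ofNat 0, .ofNat 0, .ofNat 0, .ofNat 0, .ofNat 0, .ofNat 0, .ofNat 0⟩)
    (by decide +kernel)
theorem L01010 : Good (Phi V4.P V4.D (-1) (-1)) ⟨4, 12, 2, 1, 2, 2, 2, 3, 3, 2⟩ :=
  leaf_sound (S := T4.ds_mm) T4.ok_mm (w := 176) (c := ⟨⟨.negSucc 722, .ofNat 131, .ofNat 345, .ofNat 214, .ofNat 894, .ofNat 389⟩, ⟨.ofNat 240, .negSucc 128, .ofNat 37, .negSucc 124, .negSucc 339, .negSucc 151⟩, ⟨.ofNat 316, .negSucc 114, .negSucc 303, .negSucc 205, .negSucc 831, .negSucc 275⟩, ⟨.negSucc 1451, .ofNat 163, .ofNat 399, .ofNat 33, .ofNat 1493, .ofNat 609⟩, ⟨.negSucc 807, .negSucc 84, .negSucc 23, .negSucc 852, .ofNat 62, .negSucc 74⟩, .ofNat 803, .ofNat 1127, .ofNat 0, .ofNat 1127, .ofNat 3175, .ofNat 0, .ofNat 800, .negSucc 1099, .negSucc 1730, .ofNat 0, .ofNat 616, .ofNat 655, .ofNat 0, .ofNat 0, .ofNat 2274, .ofNat 2048, .ofNat 0, .ofNat 1417979530177692020813831602176000,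 .ofNat 0, .ofNat 0, .ofNat 0, .ofNat 212806636223305498411797517330022400, .ofNat 0, .ofNat 0, .ofNat 0, .ofNat 327783972476939310138331017039052800, .ofNat 5508636990191229070498332672000, .ofNat 0, .ofNat 0, .ofNat 204143323401321041131054340191027200, .ofNat 0, .ofNat 0⟩)
    (by decide +kernel)
theorem L01011 : Good (Phi V4.P V4.D (-1) (-1)) ⟨4, 12, 2, 1, 2, 3, 2, 2, 3, 2⟩ :=
  leaf_sound (S := T4.ds_mm) T4.ok_mm (w := 176) (c := ⟨⟨.negSucc 1255, .ofNat 107, .ofNat 340, .ofNat 150, .ofNat 636, .ofNat 615⟩, ⟨.ofNat 399, .negSucc 162, .ofNat 231, .negSucc 104, .negSucc 259, .negSucc 262⟩, ⟨.ofNat 764, .negSucc 90, .negSucc 185, .negSucc 68, .negSucc 639, .negSucc 404⟩, ⟨.negSucc 2507, .ofNat 137, .ofNat 232, .negSucc 135, .ofNat 919, .ofNat 802⟩, ⟨.negSucc 1281, .negSucc 162, .negSucc 135, .negSucc 997, .negSucc 351, .negSucc 548⟩, .ofNat 326, .ofNat 172, .ofNat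 0, .ofNat 172, .ofNat 680, .ofNat 0, .ofNat 672, .negSucc 523, .negSucc 891, .ofNat 0, .ofNat 457, .ofNat 371, .ofNat 0, .ofNat 0, .ofNat 1103, .ofNat 4115, .ofNat 0, .ofNat 0, .ofNat 0, .ofNat 0, .ofNat 0, .ofNat 113858804135542433029746288544972800, .ofNat 0, .ofNat 0, .ofNat 0, .ofNat 102464453200824327782156993770291200, .ofNat 0, .ofNat 0, .ofNat 0, .ofNat 60876963770992833115658623175884800, .ofNat 252562268139463954022164070400, .ofNat 0⟩)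
    (by decide +kernel)
theorem L01012 : Good (Phi V4.P V4.D (-1) (-1)) ⟨4, 12, 2, 1, 2, 3, 2, 3, 3, 2⟩ :=
  leaf_sound (S := T4.ds_mm) T4.ok_mm (w := 184) (c := ⟨⟨.negSucc 615, .ofNat 214, .ofNat 508, .ofNat 0, .ofNat 660, .ofNat 0⟩, ⟨.ofNat 160, .negSucc 206, .ofNat 69, .ofNat 0, .negSucc 227, .ofNat 0⟩, ⟨.ofNat 177, .negSucc 186, .negSucc 345, .ofNat 0, .negSucc 559, .ofNat 0⟩, ⟨.negSucc 1563, .ofNat 279, .ofNat 524, .ofNat 0, .ofNat 1070, .ofNat 0⟩, ⟨.negSucc 1621, .negSucc 145, .negSucc 102, .ofNat 0, .negSucc 94, .ofNat 0⟩, .ofNat 325, .ofNat 172, .ofNat 0, .ofNat 172, .ofNat 677, .ofNat 0, .ofNat 5945, .negSucc 4335, .negSucc 11675, .ofNat 0, .ofNat 3748, .ofNat 4164, .ofNat 0, .ofNat 0, .ofNat 11286, .ofNat 76336, .ofNat 0, .ofNat 0, .ofNat 0, .ofNat 0, .ofNat 0, .ofNat 133479751484465618937988589343159091200, .ofNat 0, .ofNat 0, .ofNat 0, .ofNat 65728272345573543004111741322998579200,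 .ofNat 0, .ofNat 0, .ofNat 0, .ofNat 90590508487994716678139781723036057600, .ofNat 251188230500886452953564997222400, .ofNat 0⟩)
    (by decide +kernel)
theorem L01013 : Good (Phi V4.P V4.D (-1) (-1)) ⟨4, 12, 2, 1, 1, 1, 1, 1, 3, 3⟩ :=
  leaf_sound (S := T4.ds_mm) T4.ok_mm (w := 168) (c := ⟨⟨.negSucc 819, .ofNat 6, .ofNat 200, .ofNat 414, .ofNat 956, .ofNat 232⟩, ⟨.ofNat 256, .negSucc 65, .ofNat 142, .negSucc 229, .negSucc 360, .negSucc 87⟩, ⟨.ofNat 576, .negSucc 8, .negSucc 180, .negSucc 429, .negSucc 1081, .negSucc 168⟩, ⟨.negSucc 1641, .ofNat 19, .ofNat 142, .ofNat 3, .ofNat 1517, .ofNat 357⟩, ⟨.negSucc 814, .negSucc 52, .negSucc 59, .negSucc 1766, .negSucc 173, .negSucc 64⟩, .ofNat 325, .ofNat 170, .ofNat 0, .ofNat 170, .ofNat 680, .ofNat 0, .ofNat 1903, .negSucc 1147, .negSucc 2166, .ofNat 0, .ofNat 1298, .ofNat 809, .ofNat 0, .ofNat 0, .ofNat 3716, .ofNat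 6928, .ofNat 0, .ofNat 13363441625300557728367352217600, .ofNat 0, .ofNat 0, .ofNat 0, .ofNat 10558959717334329996349145717145600, .ofNat 0, .ofNat 0, .ofNat 0, .ofNat 5803517411875221081832380432384000, .ofNat 0, .ofNat 0, .ofNat 0, .ofNat 8772718149382190576911058888294400, .ofNat 0, .ofNat 0⟩)
    (by decide +kernel)
theorem L01014 : Good (Phi V4.P V4.D (-1) (-1)) ⟨5, 26, 3, 2, 2, 2, 1, 1, 3, 2⟩ :=
  leaf_sound (S := T4.ds_mm) T4.ok_mm (w := 176) (c := ⟨⟨.negSucc 1072, .ofNat 134, .negSucc 75, .ofNat 221, .ofNat 1429, .ofNat 394⟩, ⟨.ofNat 333, .negSucc 90, .ofNat 138, .negSucc 143, .negSucc 636, .negSucc 180⟩, ⟨.ofNat 751, .negSucc 97, .ofNat 35, .negSucc 239, .negSucc 1421, .negSucc 281⟩, ⟨.negSucc 1850, .ofNat 213, .negSucc 275, .negSucc 61, .ofNat 2128, .ofNat 539⟩, ⟨.negSucc 499, .negSucc 0, .negSucc 179, .negSucc 953, .negSucc 342, .negSucc 200⟩, .ofNat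 1169, .ofNat 1792, .ofNat 0, .ofNat 1792, .ofNat 4184, .ofNat 0, .ofNat 325, .negSucc 572, .negSucc 742, .ofNat 0, .ofNat 330, .ofNat 339, .ofNat 0, .ofNat 0, .ofNat 1063, .ofNat 1091, .ofNat 0, .ofNat 4505487333342074730891018082713600, .ofNat 3267698409950730780672000000, .ofNat 0, .ofNat 0, .ofNat 974498007586742970923876100341760000, .ofNat 1103064205102372212449476608000, .ofNat 0, .ofNat 0, .ofNat 1805014617423503628837044730042777600, .ofNat 185509064485838922154455859200, .ofNat 0, .ofNat 0, .ofNat 1385044220635764550734628108055347200, .ofNat 683246182480312967589003264000, .ofNat 0⟩)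
    (by decide +kernel)
theorem L01015 : Good (Phi V4.P V4.D (-1) (-1)) ⟨5, 26, 4, 6, 2, 2, 2, 2, 3, 2⟩ :=
  leaf_sound (S := T4.ds_mm) T4.ok_mm (w := 184) (c := ⟨⟨.negSucc 1222, .ofNat 79, .ofNat 83, .ofNat 368, .ofNat 732, .ofNat 381⟩, ⟨.ofNat 525, .negSucc 104, .ofNat 30, .negSucc 211, .negSucc 345, .negSucc 185⟩, ⟨.ofNat 832, .negSucc 57, .negSucc 67, .negSucc 322, .negSucc 727, .negSucc 275⟩, ⟨.negSucc 2197, .ofNat 46, .ofNat 103, .ofNat 99, .ofNat 1073, .ofNat 514⟩, ⟨.negSucc 651, .negSucc 138, .ofNat 26, .negSucc 1028, .negSucc 168, .negSucc 176⟩, .ofNat 614, .ofNat 662, .ofNat 0, .ofNat 662, .ofNat 1654, .ofNat 0, .ofNat 200, .negSucc 273, .negSucc 405, .ofNat 0, .ofNat 183, .ofNat 189, .ofNat 0, .ofNat 0, .ofNat 547, .ofNat 1421, .ofNat 0, .ofNat 0, .ofNat 0, .ofNat 0, .ofNat 0, .ofNat 0, .ofNat 0, .ofNat 0, .ofNat 0, .ofNat 0, .ofNat 0, .ofNat 0, .ofNat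 0, .ofNat 0, .ofNat 0, .ofNat 0⟩)
    (by decide +kernel)
theorem L01016 : Good (Phi V4.P V4.D (-1) (-1)) ⟨5, 26, 4, 6, 2, 2, 2, 3, 3, 2⟩ :=
  leaf_sound (S := T4.ds_mm) T4.ok_mm (w := 192) (c := ⟨⟨.negSucc 535, .ofNat 105, .ofNat 101, .ofNat 509, .ofNat 1150, .ofNat 395⟩, ⟨.ofNat 206, .negSucc 119, .ofNat 8, .negSucc 272, .negSucc 532, .negSucc 186⟩, ⟨.ofNat 126, .negSucc 86, .negSucc 85, .negSucc 399, .negSucc 1033, .negSucc 271⟩, ⟨.negSucc 1214, .ofNat 93, .ofNat 121, .ofNat 355, .ofNat 1847, .ofNat 588⟩, ⟨.negSucc 874, .negSucc 90, .ofNat 6, .negSucc 955, .ofNat 63, .negSucc 71⟩, .ofNat 1083, .ofNat 1574, .ofNat 0, .ofNat 1574, .ofNat 3548, .ofNat 0, .ofNat 1297, .negSucc 2500, .negSucc 3880, .ofNat 0, .ofNat 1450, .ofNat 1811, .ofNat 0, .ofNat 0, .ofNat 4767, .ofNat 9627, .ofNat 0, .ofNat 1923768501706286256631752872165376000, .ofNat 0, .ofNat 0, .ofNat 0,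 .ofNat 355084929430178921002866855692677939200, .ofNat 56139324689393428729648958668800, .ofNat 0, .ofNat 0, .ofNat 538553945550403514089087056455978188800, .ofNat 75028083371800873760991058329600, .ofNat 0, .ofNat 0, .ofNat 500078076078674742080425473963825561600, .ofNat 0, .ofNat 0⟩)
    (by decide +kernel)
theorem L01017 : Good (Phi V4.P V4.D (-1) (-1)) ⟨5, 26, 4, 7, 2, 2, 2, 2, 3, 2⟩ :=
  leaf_sound (S := T4.ds_mm) T4.ok_mm (w := 184) (c := ⟨⟨.negSucc 1121, .negSucc 117, .ofNat 215, .ofNat 401, .ofNat 794, .ofNat 389⟩, ⟨.ofNat 560, .negSucc 5, .negSucc 38, .negSucc 228, .negSucc 398, .negSucc 195⟩, ⟨.ofNat 772, .ofNat 35, .negSucc 132, .negSucc 346, .negSucc 780, .negSucc 276⟩, ⟨.negSucc 2082, .negSucc 131, .ofNat 214, .ofNat 102, .ofNat 1147, .ofNat 514⟩, ⟨.negSucc 713, .ofNat 78, .negSucc 132, .negSucc 1035, .negSucc 165, .negSucc 182⟩, .ofNat 667, .ofNat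 750, .ofNat 0, .ofNat 750, .ofNat 1740, .ofNat 0, .ofNat 185, .negSucc 284, .negSucc 416, .ofNat 0, .ofNat 189, .ofNat 206, .ofNat 0, .ofNat 0, .ofNat 552, .ofNat 2005, .ofNat 0, .ofNat 0, .ofNat 0, .ofNat 0, .ofNat 0, .ofNat 0, .ofNat 0, .ofNat 0, .ofNat 0, .ofNat 955045101719447341485718368367411200, .ofNat 321709167426053665316457676800, .ofNat 0, .ofNat 0, .ofNat 0, .ofNat 0, .ofNat 0⟩)
    (by decide +kernel)
theorem L01018 : Good (Phi V4.P V4.D (-1) (-1)) ⟨5, 26, 4, 7, 2, 2, 2, 3, 3, 2⟩ :=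
  leaf_sound (S := T4.ds_mm) T4.ok_mm (w := 192) (c := ⟨⟨.negSucc 533, .ofNat 206, .ofNat 83, .ofNat 607, .ofNat 1296, .ofNat 388⟩, ⟨.ofNat 273, .negSucc 171, .ofNat 4, .negSucc 325, .negSucc 639, .negSucc 192⟩, ⟨.ofNat 104, .negSucc 145, .negSucc 86, .negSucc 460, .negSucc 1160, .negSucc 266⟩, ⟨.negSucc 1213, .ofNat 222, .ofNat 103, .ofNat 459, .ofNat 2056, .ofNat 575⟩, ⟨.negSucc 857, .negSucc 104, .ofNat 15, .negSucc 980, .ofNat 76, .negSucc 60⟩, .ofNat 1287, .ofNat 1915, .ofNat 0, .ofNat 1915, .ofNat 4044, .ofNat 0, .ofNat 1150, .negSucc 2608, .negSucc 4152, .ofNat 0, .ofNat 1517, .ofNat 2054, .ofNat 0, .ofNat 0, .ofNat 4945, .ofNat 9601, .ofNat 0, .ofNat 2159342388689217738378435651384115200, .ofNat 0, .ofNat 0, .ofNat 0, .ofNat 438768767559326862940891981292136038400, .ofNat 0, .ofNat 0, .ofNat 0, .ofNat 625633606555886062828366225603559424000, .ofNat 0, .ofNat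 0, .ofNat 0, .ofNat 520885549681240671597361742824970649600, .ofNat 0, .ofNat 0⟩)
    (by decide +kernel)
theorem L01019 : Good (Phi V4.P V4.D (-1) (-1)) ⟨5, 27, 3, 2, 2, 2, 1, 1, 3, 2⟩ :=
  out_sound (S := T4.ds_mm) T4.ok_mm (w := 64) (j := 3) (by decide +kernel)
theorem L01020 : Good (Phi V4.P V4.D (-1) (-1)) ⟨5, 27, 4, 6, 2, 2, 1, 1, 3, 2⟩ :=
  out_sound (S := T4.ds_mm) T4.ok_mm (w := 64) (j := 3) (by decide +kernel)
theorem L01021 : Good (Phi V4.P V4.D (-1) (-1)) ⟨5, 27, 4, 7, 2, 2, 2, 2, 3, 2⟩ :=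
  leaf_sound (S := T4.ds_mm) T4.ok_mm (w := 184) (c := ⟨⟨.negSucc 1248, .negSucc 343, .ofNat 158, .ofNat 466, .ofNat 895, .ofNat 383⟩, ⟨.ofNat 583, .ofNat 127, .negSucc 20, .negSucc 263, .negSucc 471, .negSucc 203⟩, ⟨.ofNat 836, .ofNat 173, .negSucc 127, .negSucc 380, .negSucc 851, .negSucc 266⟩, ⟨.negSucc 2227, .negSucc 475, .ofNat 179, .ofNat 159, .ofNat 1275, .ofNat 480⟩, ⟨.negSucc 673, .ofNat 118, .negSucc 34, .negSucc 1066, .negSucc 190, .negSucc 205⟩, .ofNat 707, .ofNat 808, .ofNat 0, .ofNat 808, .ofNat 1784, .ofNat 0, .ofNat 177, .negSucc 296, .negSucc 423, .ofNat 0, .ofNat 197, .ofNat 219, .ofNat 0, .ofNat 0, .ofNat 552, .ofNat 1774, .ofNat 0, .ofNat 0, .ofNat 0, .ofNat 0, .ofNat 0, .ofNat 0, .ofNat 4254049132351770094884775526400, .ofNat 0, .ofNat 0, .ofNat 3004294725354835449561174307032268800, .ofNat 1621363791167215785241214976000, .ofNat 0, .ofNat 0,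 .ofNat 1129655156741982538784447713719091200, .ofNat 2492961438093933819295118131200, .ofNat 0⟩)
    (by decide +kernel)
theorem L01022 : Good (Phi V4.P V4.D (-1) (-1)) ⟨5, 27, 4, 7, 2, 2, 2, 3, 3, 2⟩ :=
  leaf_sound (S := T4.ds_mm) T4.ok_mm (w := 192) (c := ⟨⟨.negSucc 372, .ofNat 86, .ofNat 98, .ofNat 692, .ofNat 1453, .ofNat 366⟩, ⟨.ofNat 143, .negSucc 106, .negSucc 11, .negSucc 381, .negSucc 755, .negSucc 192⟩, ⟨.negSucc 21, .negSucc 27, .negSucc 90, .negSucc 497, .negSucc 1293, .negSucc 245⟩, ⟨.negSucc 1008, .ofNat 45, .ofNat 93, .ofNat 527, .ofNat 2299, .ofNat 535⟩, ⟨.negSucc 915, .negSucc 101, .negSucc 26, .negSucc 1025, .ofNat 127, .negSucc 52⟩, .ofNat 2464, .ofNat 4040, .ofNat 0, .ofNat 4040, .ofNat 7860, .ofNat 0, .ofNat 860, .negSucc 2733, .negSucc 4249, .ofNat 0, .ofNat 1560, .ofNat 2226, .ofNat 0, .ofNat 0, .ofNat 4995, .ofNat 7389, .ofNat 0, .ofNat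 2161226359599660495070327898269286400, .ofNat 0, .ofNat 0, .ofNat 0, .ofNat 555280452906444331487886647810536243200, .ofNat 221161630788745223700911593881600, .ofNat 0, .ofNat 0, .ofNat 460671550187616269292140355570263654400, .ofNat 118046366939787225643448952422400, .ofNat 0, .ofNat 0, .ofNat 400708985070196869439856844671130009600, .ofNat 208548950442894960874700459212800, .ofNat 0⟩)
    (by decide +kernel)
theorem L01023 : Good (Phi V4.P V4.D (-1) (-1)) ⟨4, 13, 2, 1, 2, 3, 2, 2, 3, 2⟩ :=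
  leaf_sound (S := T4.ds_mm) T4.ok_mm (w := 176) (c := ⟨⟨.negSucc 1334, .ofNat 265, .ofNat 420, .ofNat 378, .ofNat 960, .ofNat 677⟩, ⟨.ofNat 364, .negSucc 292, .ofNat 166, .negSucc 224, .negSucc 476, .negSucc 351⟩, ⟨.ofNat 702, .negSucc 176, .negSucc 203, .negSucc 56, .negSucc 822, .negSucc 403⟩, ⟨.negSucc 2525, .ofNat 248, .ofNat 305, .ofNat 23, .ofNat 1313, .ofNat 769⟩, ⟨.negSucc 1373, .negSucc 254, .negSucc 144, .negSucc 1171, .negSucc 387, .negSucc 598⟩, .ofNat 344, .ofNat 220, .ofNat 0, .ofNat 220, .ofNat 676, .ofNat 0, .ofNat 641, .negSucc 660, .negSucc 1034, .ofNat 0, .ofNat 530, .ofNat 505, .ofNat 0, .ofNat 0, .ofNat 1139, .ofNat 1210, .ofNat 0, .ofNat 0, .ofNat 0, .ofNat 0, .ofNat 0, .ofNat 76063830340383226450418985861120000, .ofNat 0, .ofNat 0, .ofNat 0, .ofNat 67903810679459232932253404862873600, .ofNat 0, .ofNat 0, .ofNat 0, .ofNat 51317118234780156933661621695283200,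 .ofNat 2328532558935727658461927833600, .ofNat 0⟩)
    (by decide +kernel)
theorem L01024 : Good (Phi V4.P V4.D (-1) (-1)) ⟨4, 13, 2, 1, 2, 3, 2, 3, 3, 2⟩ :=
  leaf_sound (S := T4.ds_mm) T4.ok_mm (w := 184) (c := ⟨⟨.negSucc 384, .ofNat 575, .ofNat 468, .ofNat 0, .ofNat 930, .ofNat 0⟩, ⟨.negSucc 24, .negSucc 458, .ofNat 35, .ofNat 0, .negSucc 444, .ofNat 0⟩, ⟨.negSucc 33, .negSucc 445, .negSucc 295, .ofNat 0, .negSucc 742, .ofNat 0⟩, ⟨.negSucc 1251, .ofNat 687, .ofNat 450, .ofNat 0, .ofNat 1429, .ofNat 0⟩, ⟨.negSucc 1772, .negSucc 216, .negSucc 93, .ofNat 0, .negSucc 72, .ofNat 0⟩, .ofNat 344, .ofNat 219, .ofNat 0, .ofNat 219, .ofNat 676, .ofNat 0, .ofNat 5504, .negSucc 5339, .negSucc 13882, .ofNat 0, .ofNat 4187, .ofNat 5989, .ofNat 0, .ofNat 0, .ofNat 12324, .ofNat 62970, .ofNat 0, .ofNat 765423010247981727489583907812147200, .ofNat 0, .ofNat 0, .ofNat 0, .ofNat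 45672822085548940528560130574254080000, .ofNat 173996090573010821021042108006400, .ofNat 0, .ofNat 0, .ofNat 77759115758658283878209760753667276800, .ofNat 452365928873353899456219788083200, .ofNat 0, .ofNat 0, .ofNat 89526046915851596210710971858655641600, .ofNat 462540756781846274793984648806400, .ofNat 0⟩)
    (by decide +kernel)
theorem L01025 : Good (Phi V4.P V4.D (-1) (-1)) ⟨4, 13, 2, 1, 1, 1, 2, 2, 3, 3⟩ :=
  leaf_sound (S := T4.ds_mm) T4.ok_mm (w := 168) (c := ⟨⟨.negSucc 861, .ofNat 126, .ofNat 146, .ofNat 783, .ofNat 647, .ofNat 250⟩, ⟨.ofNat 251, .negSucc 138, .ofNat 138, .negSucc 450, .negSucc 317, .negSucc 122⟩, ⟨.ofNat 604, .negSucc 109, .negSucc 134, .negSucc 721, .negSucc 683, .negSucc 182⟩, ⟨.negSucc 1682, .ofNat 102, .ofNat 131, .ofNat 257, .ofNat 961, .ofNat 358⟩, ⟨.negSucc 870, .negSucc 97, .negSucc 10, .negSucc 1949, .negSucc 90, .negSucc 62⟩,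 .ofNat 636, .ofNat 697, .ofNat 0, .ofNat 697, .ofNat 1682, .ofNat 0, .ofNat 649, .negSucc 873, .negSucc 1074, .ofNat 0, .ofNat 608, .ofNat 514, .ofNat 0, .ofNat 0, .ofNat 1839, .ofNat 7127, .ofNat 0, .ofNat 0, .ofNat 0, .ofNat 0, .ofNat 0, .ofNat 2660145277358449651014866829312000, .ofNat 13469123818422060528225484800, .ofNat 0, .ofNat 0, .ofNat 3295437708426903160227229807411200, .ofNat 22151291333699328475240857600, .ofNat 0, .ofNat 0, .ofNat 2069419603962407517537035511398400, .ofNat 0, .ofNat 0⟩)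
    (by decide +kernel)
theorem L01026 : Good (Phi V4.P V4.D (-1) (-1)) ⟨4, 13, 2, 1, 1, 1, 2, 3, 3, 3⟩ :=
  leaf_sound (S := T4.ds_mm) T4.ok_mm (w := 176) (c := ⟨⟨.negSucc 238, .ofNat 205, .ofNat 222, .ofNat 0, .ofNat 743, .ofNat 0⟩, ⟨.ofNat 0, .negSucc 190, .ofNat 37, .ofNat 0, .negSucc 375, .ofNat 0⟩, ⟨.negSucc 49, .negSucc 184, .negSucc 202, .ofNat 0, .negSucc 692, .ofNat 0⟩, ⟨.negSucc 724, .ofNat 237, .ofNat 217, .ofNat 0, .ofNat 1170, .ofNat 0⟩, ⟨.negSucc 938, .negSucc 57, .negSucc 27, .ofNat 0, .ofNat 37, .ofNat 0⟩, .ofNat 347, .ofNat 225, .ofNat 0, .ofNat 225, .ofNat 676, .ofNat 0, .ofNat 7982, .negSucc 6565, .negSucc 15337, .ofNat 0, .ofNat 6329, .ofNat 6378, .ofNat 0, .ofNat 0, .ofNat 18764, .ofNat 162915, .ofNat 0, .ofNat 20014105258222666704812210179276800, .ofNat 0, .ofNat 0, .ofNat 0, .ofNat 3963348824820051772033355198811340800, .ofNat 983814371613938100901773312000,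 .ofNat 0, .ofNat 0, .ofNat 2226219455628505140689194659820339200, .ofNat 2137219693581217059203501260800, .ofNat 0, .ofNat 0, .ofNat 3203170373321279089260714564098457600, .ofNat 0, .ofNat 0⟩)
    (by decide +kernel)
theorem L01027 : Good (Phi V4.P V4.D (-1) (-1)) ⟨3, 7, 2, 1, 1, 1, 1, 1, 2, 1⟩ :=
  out_sound (S := T4.ds_mm) T4.ok_mm (w := 48) (j := 3) (by decide +kernel)
theorem L01028 : Good (Phi V4.P V4.D (-1) (-1)) ⟨2, 2, 3, 4, 2, 0, 2, 0, 4, 0⟩ :=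
  out_sound (S := T4.ds_mm) T4.ok_mm (w := 40) (j := 3) (by decide +kernel)
theorem L01029 : Good (Phi V4.P V4.D (-1) (-1)) ⟨4, 12, 3, 4, 2, 0, 2, 0, 4, 0⟩ :=
  out_sound (S := T4.ds_mm) T4.ok_mm (w := 56) (j := 3) (by decide +kernel)
theorem L01030 : Good (Phi V4.P V4.D (-1) (-1)) ⟨5, 26, 3, 4, 2, 0, 2, 0, 4, 0⟩ :=
  out_sound (S := T4.ds_mm) T4.ok_mm (w := 64) (j := 3) (by decide +kernel)
theorem L01031 : Good (Phi V4.P V4.D (-1) (-1)) ⟨6, 54, 4, 8, 2, 0, 3, 0, 4, 0⟩ :=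
  leaf_sound (S := T4.ds_mm) T4.ok_mm (w := 192) (c := ⟨⟨.negSucc 1154, .negSucc 178, .ofNat 253, .ofNat 1183, .negSucc 139, .negSucc 870⟩, ⟨.ofNat 606, .ofNat 103, .negSucc 95, .negSucc 644, .ofNat 78, .ofNat 474⟩, ⟨.ofNat 1521, .ofNat 185, .negSucc 259, .negSucc 1433, .ofNat 38, .ofNat 859⟩, ⟨.negSucc 1779, .negSucc 239, .ofNat 364, .ofNat 1777, .negSucc 204, .negSucc 1266⟩, ⟨.negSucc 6, .ofNat 19, .negSucc 59, .negSucc 41, .ofNat 11, .ofNat 108⟩, .ofNat 1704, .ofNat 2572, .ofNat 0, .ofNat 2572, .ofNat 4972, .ofNat 0, .ofNat 109, .negSucc 275, .negSucc 654, .ofNat 0, .ofNat 169, .ofNat 350, .ofNat 0, .ofNat 0, .ofNat 786, .ofNat 4124, .ofNat 0, .ofNat 0, .ofNat 0, .ofNat 0, .ofNat 0, .ofNat 0, .ofNat 0, .ofNat 0, .ofNat 0, .ofNat 0, .ofNat 0, .ofNat 0, .ofNat 0, .ofNat 0, .ofNat 0, .ofNat 0⟩)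
    (by decide +kernel)
theorem L01032 : Good (Phi V4.P V4.D (-1) (-1)) ⟨6, 55, 4, 8, 2, 0, 3, 0, 4, 0⟩ :=
  leaf_sound (S := T4.ds_mm) T4.ok_mm (w := 200) (c := ⟨⟨.negSucc 700, .ofNat 323, .negSucc 692, .ofNat 1278, .negSucc 46, .negSucc 936⟩, ⟨.ofNat 376, .negSucc 153, .ofNat 409, .negSucc 720, .ofNat 26, .ofNat 529⟩, ⟨.ofNat 1062, .negSucc 345, .ofNat 701, .negSucc 1536, .negSucc 51, .ofNat 927⟩, ⟨.negSucc 1108, .ofNat 506, .negSucc 981, .ofNat 1891, .negSucc 84, .negSucc 1344⟩, ⟨.negSucc 71, .negSucc 7, .ofNat 96, .negSucc 67, .negSucc 23, .ofNat 121⟩, .ofNat 4685, .ofNat 7754, .ofNat 0, .ofNat 7754, .ofNat 13968, .ofNat 0, .ofNat 65, .negSucc 290, .negSucc 696, .ofNat 0, .ofNat 171, .ofNat 391, .ofNat 0, .ofNat 0, .ofNat 819, .ofNat 4243, .ofNat 134875870279325729232534997101969408000, .ofNat 0, .ofNat 220056995672877166510473216000, .ofNat 0, .ofNat 2789375244463602609073447164642223718400,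 .ofNat 0, .ofNat 195882144770731561157099991859200, .ofNat 0, .ofNat 0, .ofNat 0, .ofNat 145701103411236001201370903347200, .ofNat 0, .ofNat 0, .ofNat 0, .ofNat 69610084800747403428348139929600, .ofNat 0⟩)
    (by decide +kernel)
theorem L01033 : Good (Phi V4.P V4.D (-1) (-1)) ⟨6, 54, 4, 9, 2, 0, 3, 0, 4, 0⟩ :=
  out_sound (S := T4.ds_mm) T4.ok_mm (w := 72) (j := 3) (by decide +kernel)
theorem L01034 : Good (Phi V4.P V4.D (-1) (-1)) ⟨7, 110, 6, 36, 2, 0, 3, 0, 4, 0⟩ :=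
  leaf_sound (S := T4.ds_mm) T4.ok_mm (w := 208) (c := ⟨⟨.negSucc 1214, .negSucc 50, .negSucc 179, .ofNat 1179, .negSucc 3, .negSucc 841⟩, ⟨.ofNat 687, .ofNat 36, .ofNat 112, .negSucc 673, .ofNat 2, .ofNat 481⟩, ⟨.ofNat 1578, .ofNat 65, .ofNat 171, .negSucc 1435, .negSucc 94, .ofNat 828⟩, ⟨.negSucc 1851, .negSucc 52, .negSucc 235, .ofNat 1754, .negSucc 16, .negSucc 1215⟩, ⟨.negSucc 33, .ofNat 31, .ofNat 50, .negSucc 33, .negSucc 19, .ofNat 89⟩, .ofNat 5772, .ofNat 9561, .ofNat 0, .ofNat 9561, .ofNat 16952, .ofNat 0, .ofNat 56, .negSucc 291, .negSucc 672, .ofNat 0, .ofNat 172, .ofNat 383, .ofNat 0, .ofNat 0, .ofNat 802, .ofNat 3534, .ofNat 0, .ofNat 0, .ofNat 0, .ofNat 0, .ofNat 0, .ofNat 0, .ofNat 0, .ofNat 0, .ofNat 0, .ofNat 0, .ofNat 0, .ofNat 0, .ofNat 0, .ofNat 0, .ofNat 46458849916287411578492210380800, .ofNat 0⟩)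
    (by decide +kernel)
theorem L01035 : Good (Phi V4.P V4.D (-1) (-1)) ⟨8, 220, 6, 37, 2, 0, 3, 0, 4, 0⟩ :=
  out_sound (S := T4.ds_mm) T4.ok_mm (w := 88) (j := 3) (by decide +kernel)
theorem L01036 : Good (Phi V4.P V4.D (-1) (-1)) ⟨9, 442, 7, 74, 2, 0, 3, 0, 4, 0⟩ :=
  out_sound (S := T4.ds_mm) T4.ok_mm (w := 96) (j := 3) (by decide +kernel)
theorem L01037 : Good (Phi V4.P V4.D (-1) (-1)) ⟨10, 886, 8, 148, 2, 0, 3, 0, 4, 0⟩ :=
  out_sound (S := T4.ds_mm) T4.ok_mm (w := 104) (j := 3) (by decide +kernel)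
theorem L01038 : Good (Phi V4.P V4.D (-1) (-1)) ⟨10, 887, 8, 148, 2, 0, 3, 0, 4, 0⟩ :=
  out_sound (S := T4.ds_mm) T4.ok_mm (w := 32) (j := 4) (by decide +kernel)
theorem L01039 : Good (Phi V4.P V4.D (-1) (-1)) ⟨9, 443, 8, 149, 2, 0, 3, 0, 4, 0⟩ :=
  out_sound (S := T4.ds_mm) T4.ok_mm (w := 96) (j := 3) (by decide +kernel)
theorem L01040 : Good (Phi V4.P V4.D (-1) (-1)) ⟨8, 221, 7, 75, 2, 0, 3, 0, 4, 0⟩ :=
  out_sound (S := T4.ds_mm) T4.ok_mm (w := 88) (j := 3) (by decide +kernel)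
theorem L01041 : Good (Phi V4.P V4.D (-1) (-1)) ⟨7, 111, 5, 18, 2, 0, 3, 0, 4, 0⟩ :=
  out_sound (S := T4.ds_mm) T4.ok_mm (w := 24) (j := 4) (by decide +kernel)
theorem L01042 : Good (Phi V4.P V4.D (-1) (-1)) ⟨7, 110, 5, 19, 2, 0, 3, 0, 4, 0⟩ :=
  out_sound (S := T4.ds_mm) T4.ok_mm (w := 80) (j := 3) (by decide +kernel)
theorem L01043 : Good (Phi V4.P V4.D (-1) (-1)) ⟨7, 111, 5, 19, 2, 0, 3, 0, 4, 0⟩ :=
  out_sound (S := T4.ds_mm) T4.ok_mm (w := 24) (j := 4) (by decide +kernel)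
theorem L01044 : Good (Phi V4.P V4.D (-1) (-1)) ⟨6, 54, 3, 4, 2, 0, 3, 1, 4, 0⟩ :=
  leaf_sound (S := T4.ds_mm) T4.ok_mm (w := 192) (c := ⟨⟨.negSucc 1204, .negSucc 250, .ofNat 388, .ofNat 864, .negSucc 6, .negSucc 608⟩, ⟨.ofNat 630, .ofNat 156, .negSucc 148, .negSucc 470, .ofNat 3, .ofNat 333⟩, ⟨.ofNat 1470, .ofNat 257, .negSucc 406, .negSucc 1105, .negSucc 106, .ofNat 595⟩, ⟨.negSucc 1838, .negSucc 309, .ofNat 510, .ofNat 1247, .negSucc 30, .negSucc 878⟩, ⟨.ofNat 27, .ofNat 84, .negSucc 170, .negSucc 124, .negSucc 36, .ofNat 89⟩, .ofNat 1698, .ofNat 2563, .ofNat 0, .ofNat 2563, .ofNat 4959, .ofNat 0, .ofNat 113, .negSucc 284, .negSucc 602, .ofNat 0, .ofNat 174, .ofNat 322, .ofNat 0, .ofNat 0, .ofNat 757, .ofNat 3231, .ofNat 0, .ofNat 0, .ofNat 0, .ofNat 0, .ofNat 0, .ofNat 0, .ofNat 0, .ofNat 0, .ofNat 0, .ofNat 0, .ofNat 0, .ofNat 0, .ofNat 0, .ofNat 0, .ofNat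 0, .ofNat 0⟩)
    (by decide +kernel)
theorem L01045 : Good (Phi V4.P V4.D (-1) (-1)) ⟨6, 55, 3, 4, 2, 0, 3, 1, 4, 0⟩ :=
  leaf_sound (S := T4.ds_mm) T4.ok_mm (w := 192) (c := ⟨⟨.negSucc 1268, .negSucc 144, .negSucc 12, .ofNat 844, .negSucc 46, .negSucc 586⟩, ⟨.ofNat 702, .ofNat 121, .ofNat 30, .negSucc 479, .ofNat 27, .ofNat 334⟩, ⟨.ofNat 1528, .ofNat 144, .ofNat 19, .negSucc 1085, .negSucc 66, .ofNat 573⟩, ⟨.negSucc 1901, .negSucc 164, .negSucc 31, .ofNat 1222, .negSucc 78, .negSucc 851⟩, ⟨.ofNat 40, .ofNat 48, .negSucc 45, .negSucc 83, .negSucc 15, .ofNat 55⟩, .ofNat 2154, .ofNat 3279, .ofNat 0, .ofNat 3279, .ofNat 6024, .ofNat 0, .ofNat 95, .negSucc 292, .negSucc 630, .ofNat 0, .ofNat 180, .ofNat 353, .ofNat 0, .ofNat 0, .ofNat 780, .ofNat 1553, .ofNat 0, .ofNat 0, .ofNat 160105640657174075791953100800, .ofNat 0, .ofNat 0, .ofNat 0, .ofNat 49722366371821278810438264422400,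 .ofNat 0, .ofNat 0, .ofNat 0, .ofNat 0, .ofNat 0, .ofNat 0, .ofNat 0, .ofNat 18691440777146311490125430784000, .ofNat 0⟩)
    (by decide +kernel)
theorem L01046 : Good (Phi V4.P V4.D (-1) (-1)) ⟨3, 7, 3, 4, 2, 0, 2, 0, 4, 0⟩ :=
  out_sound (S := T4.ds_mm) T4.ok_mm (w := 16) (j := 4) (by decide +kernel)
theorem L01047 : Good (Phi V4.P V4.D (-1) (-1)) ⟨2, 2, 3, 4, 2, 0, 2, 0, 4, 1⟩ :=
  out_sound (S := T4.ds_mm) T4.ok_mm (w := 40) (j := 3) (by decide +kernel)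
theorem L01048 : Good (Phi V4.P V4.D (-1) (-1)) ⟨4, 12, 3, 4, 2, 0, 2, 0, 4, 1⟩ :=
  out_sound (S := T4.ds_mm) T4.ok_mm (w := 56) (j := 3) (by decide +kernel)
theorem L01049 : Good (Phi V4.P V4.D (-1) (-1)) ⟨5, 26, 3, 4, 2, 0, 2, 0, 4, 1⟩ :=
  out_sound (S := T4.ds_mm) T4.ok_mm (w := 64) (j := 3) (by decide +kernel)
theorem L01050 : Good (Phi V4.P V4.D (-1) (-1)) ⟨5, 27, 3, 4, 3, 0, 2, 0, 4, 1⟩ :=
  leaf_sound (S := T4.ds_mm) T4.ok_mm (w := 192) (c := ⟨⟨.negSucc 1742, .negSucc 47, .negSucc 201, .ofNat 86, .ofNat 287, .negSucc 132⟩, ⟨.ofNat 912, .ofNat 93, .ofNat 187, .negSucc 46, .negSucc 158, .ofNat 73⟩, ⟨.ofNat 2090, .ofNat 43, .ofNat 206, .negSucc 170, .negSucc 533, .ofNat 112⟩, ⟨.negSucc 2663, .ofNat 16, .negSucc 293, .ofNat 182, .ofNat 407, .negSucc 202⟩, ⟨.ofNat 30, .ofNat 18, .negSucc 12, .ofNat 95, .negSucc 52, .negSucc 0⟩, .ofNat 765, .ofNat 896, .ofNat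 0, .ofNat 896, .ofNat 1877, .ofNat 0, .ofNat 160, .negSucc 251, .negSucc 542, .ofNat 0, .ofNat 181, .ofNat 280, .ofNat 0, .ofNat 0, .ofNat 709, .ofNat 6189, .ofNat 0, .ofNat 0, .ofNat 0, .ofNat 0, .ofNat 0, .ofNat 0, .ofNat 0, .ofNat 0, .ofNat 0, .ofNat 0, .ofNat 0, .ofNat 0, .ofNat 2754802164348395895065155874075757772800, .ofNat 0, .ofNat 1188456871579541044859815487078400, .ofNat 0⟩)
    (by decide +kernel)
theorem L01051 : Good (Phi V4.P V4.D (-1) (-1)) ⟨5, 27, 3, 4, 3, 1, 3, 0, 4, 1⟩ :=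
  leaf_sound (S := T4.ds_mm) T4.ok_mm (w := 192) (c := ⟨⟨.negSucc 1477, .ofNat 41, .negSucc 369, .ofNat 262, .ofNat 105, .negSucc 379⟩, ⟨.ofNat 772, .ofNat 35, .ofNat 277, .negSucc 143, .negSucc 57, .ofNat 208⟩, ⟨.ofNat 1716, .negSucc 55, .ofNat 371, .negSucc 392, .negSucc 204, .ofNat 381⟩, ⟨.negSucc 2208, .ofNat 128, .negSucc 498, .ofNat 390, .ofNat 119, .negSucc 549⟩, ⟨.ofNat 126, .negSucc 10, .ofNat 65, .negSucc 14, .negSucc 72, .ofNat 52⟩, .ofNat 763, .ofNat 893, .ofNat 0, .ofNat 893, .ofNat 1873, .ofNat 0, .ofNat 162, .negSucc 258, .negSucc 649, .ofNat 0, .ofNat 183, .ofNat 341, .ofNat 0, .ofNat 0, .ofNat 785, .ofNat 3789, .ofNat 151376325879207729537515187056148480000, .ofNat 0, .ofNat 150782998562433825440278354329600, .ofNat 0, .ofNat 0, .ofNat 0, .ofNat 0, .ofNat 0, .ofNat 0, .ofNat 0, .ofNat 0, .ofNat 0, .ofNat 0, .ofNat 0, .ofNat 0, .ofNat 0⟩)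
    (by decide +kernel)
theorem L01052 : Good (Phi V4.P V4.D (-1) (-1)) ⟨5, 27, 3, 4, 3, 1, 3, 1, 4, 1⟩ :=
  leaf_sound (S := T4.ds_mm) T4.ok_mm (w := 200) (c := ⟨⟨.negSucc 1323, .negSucc 532, .ofNat 257, .ofNat 196, .ofNat 50, .negSucc 333⟩, ⟨.ofNat 689, .ofNat 345, .negSucc 67, .negSucc 106, .negSucc 29, .ofNat 183⟩, ⟨.ofNat 1450, .ofNat 557, .negSucc 290, .negSucc 310, .negSucc 156, .ofNat 333⟩, ⟨.negSucc 2004, .negSucc 696, .ofNat 394, .ofNat 276, .ofNat 38, .negSucc 484⟩, ⟨.ofNat 64, .ofNat 97, .negSucc 48, .negSucc 39, .negSucc 64, .ofNat 42⟩, .ofNat 1841, .ofNat 2788, .ofNat 0, .ofNat 2788, .ofNat 5290, .ofNat 0, .ofNat 105, .negSucc 288, .negSucc 587, .ofNat 0, .ofNat 177, .ofNat 321, .ofNat 0, .ofNat 0, .ofNat 745, .ofNat 3965, .ofNat 0, .ofNat 0, .ofNat 0, .ofNat 0, .ofNat 0, .ofNat 0, .ofNat 75505476964455850829337120787660800, .ofNat 0, .ofNat 0, .ofNat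 0, .ofNat 0, .ofNat 0, .ofNat 0, .ofNat 0, .ofNat 0, .ofNat 0⟩)
    (by decide +kernel)
theorem L01053 : Good (Phi V4.P V4.D (-1) (-1)) ⟨3, 7, 3, 4, 2, 0, 2, 0, 4, 1⟩ :=
  out_sound (S := T4.ds_mm) T4.ok_mm (w := 16) (j := 4) (by decide +kernel)
theorem L01054 : Good (Phi V4.P V4.D (-1) (-1)) ⟨2, 2, 3, 4, 2, 1, 2, 0, 4, 0⟩ :=
  out_sound (S := T4.ds_mm) T4.ok_mm (w := 40) (j := 3) (by decide +kernel)
theorem L01055 : Good (Phi V4.P V4.D (-1) (-1)) ⟨4, 12, 3, 4, 2, 1, 2, 0, 4, 0⟩ :=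
  out_sound (S := T4.ds_mm) T4.ok_mm (w := 56) (j := 3) (by decide +kernel)
theorem L01056 : Good (Phi V4.P V4.D (-1) (-1)) ⟨5, 26, 3, 4, 2, 1, 2, 0, 4, 0⟩ :=
  out_sound (S := T4.ds_mm) T4.ok_mm (w := 64) (j := 3) (by decide +kernel)
theorem L01057 : Good (Phi V4.P V4.D (-1) (-1)) ⟨7, 108, 5, 16, 2, 1, 2, 0, 4, 0⟩ :=
  leaf_sound (S := T4.ds_mm) T4.ok_mm (w := 200) (c := ⟨⟨.ofNat 882, .negSucc 380, .ofNat 456, .ofNat 1823, .negSucc 1006, .negSucc 1625⟩, ⟨.negSucc 464, .ofNat 189, .negSucc 232, .negSucc 978, .ofNat 533, .ofNat 866⟩, ⟨.negSucc 680, .ofNat 323, .negSucc 402, .negSucc 1728, .ofNat 690, .ofNat 1511⟩, ⟨.ofNat 1237, .negSucc 587, .ofNat 676, .ofNat 2385, .negSucc 1539, .negSucc 2327⟩, ⟨.negSucc 229, .ofNat 9, .negSucc 33, .negSucc 766, .ofNat 7, .ofNat 308⟩, .ofNat 726, .ofNat 839, .ofNat 0, .ofNat 839, .ofNat 1823, .ofNat 0, .ofNat 178, .negSucc 289,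 .negSucc 878, .ofNat 0, .ofNat 198, .ofNat 455, .ofNat 0, .ofNat 0, .ofNat 917, .ofNat 2591, .ofNat 1505151740401598558876516770875074150400, .ofNat 0, .ofNat 20404305098456097783545856000, .ofNat 0, .ofNat 0, .ofNat 0, .ofNat 0, .ofNat 0, .ofNat 0, .ofNat 0, .ofNat 0, .ofNat 0, .ofNat 0, .ofNat 0, .ofNat 3450757647603529293891423436800, .ofNat 0⟩)
    (by decide +kernel)
theorem L01058 : Good (Phi V4.P V4.D (-1) (-1)) ⟨7, 109, 5, 16, 2, 1, 3, 0, 4, 0⟩ :=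
  leaf_sound (S := T4.ds_mm) T4.ok_mm (w := 200) (c := ⟨⟨.ofNat 733, .ofNat 91, .ofNat 144, .ofNat 2090, .negSucc 654, .negSucc 1743⟩, ⟨.negSucc 397, .negSucc 65, .negSucc 76, .negSucc 1145, .ofNat 356, .ofNat 951⟩, ⟨.negSucc 491, .ofNat 92, .negSucc 271, .negSucc 1865, .ofNat 480, .ofNat 1567⟩, ⟨.ofNat 1036, .ofNat 142, .ofNat 155, .ofNat 2731, .negSucc 984, .negSucc 2472⟩, ⟨.negSucc 161, .ofNat 39, .negSucc 106, .negSucc 826, .ofNat 20, .ofNat 333⟩, .ofNat 3254, .ofNat 5365, .ofNat 0, .ofNat 5365, .ofNat 10029, .ofNat 0, .ofNat 87, .negSucc 324, .negSucc 851, .ofNat 0, .ofNat 188, .ofNat 465, .ofNat 0, .ofNat 0, .ofNat 885, .ofNat 5419, .ofNat 0, .ofNat 0, .ofNat 0, .ofNat 0, .ofNat 0, .ofNat 0, .ofNat 150607376673433984711359096422400, .ofNat 0, .ofNat 0, .ofNat 0, .ofNat 49261180334585618635862468198400, .ofNat 0, .ofNat 0, .ofNat 0, .ofNat 0, .ofNat 0⟩)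
    (by decide +kernel)

end Crest.Agent.R097C4.N4mm
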