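import Crest.Agent.R097.T4

/-!
# Row 97, box cover in dimension n = 4 (generated)
-/

set_option autoImplicit false
set_option Elab.async false
set_option maxHeartbeats 0
set_option maxRecDepth 100000

open Crest.Agent.R097 Crest.Agent.R097.KA


namespace Crest.Agent.R097C4.N4mm

theorem L01059 : Good (Phi V4.P V4.D (-1) (-1)) ⟨7, 109, 5, 16, 2, 1, 3, 1, 4, 0⟩ :=
  leaf_sound (S := T4.ds_mm) T4.ok_mm (w := 208) (c := ⟨⟨.ofNat 60, .ofNat 22, .ofNat 240, .ofNat 1768, .negSucc 432, .negSucc 1462⟩, ⟨.negSucc 41, .negSucc 23, .negSucc 119, .negSucc 970, .ofNat 236, .ofNat 800⟩, ⟨.ofNat 3, .ofNat 69, .negSucc 288, .negSucc 1710, .ofNat 277, .ofNat 1367⟩, ⟨.negSucc 15, .ofNat 9, .ofNat 346, .ofNat 2249, .negSucc 659, .negSucc 2051⟩, ⟨.negSucc 205, .negSucc 27, .negSucc 27, .negSucc 814, .negSucc 0, .ofNat 321⟩, .ofNat 4949, .ofNat 8438, .ofNat 0, .ofNat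 8438, .ofNat 15612, .ofNat 0, .ofNat 79, .negSucc 332, .negSucc 825, .ofNat 0, .ofNat 191, .ofNat 452, .ofNat 0, .ofNat 0, .ofNat 888, .ofNat 3297, .ofNat 0, .ofNat 0, .ofNat 0, .ofNat 0, .ofNat 0, .ofNat 0, .ofNat 151765421292431666728322413363200, .ofNat 0, .ofNat 0, .ofNat 0, .ofNat 55411860676225193757815655628800, .ofNat 0, .ofNat 0, .ofNat 0, .ofNat 0, .ofNat 0⟩)
    (by decide +kernel)
theorem L01060 : Good (Phi V4.P V4.D (-1) (-1)) ⟨7, 108, 5, 17, 2, 1, 2, 0, 4, 0⟩ :=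
  out_sound (S := T4.ds_mm) T4.ok_mm (w := 80) (j := 3) (by decide +kernel)
theorem L01061 : Good (Phi V4.P V4.D (-1) (-1)) ⟨7, 109, 5, 17, 2, 1, 3, 0, 4, 0⟩ :=
  leaf_sound (S := T4.ds_mm) T4.ok_mm (w := 208) (c := ⟨⟨.ofNat 1164, .negSucc 690, .ofNat 807, .ofNat 2162, .negSucc 643, .negSucc 1857⟩, ⟨.negSucc 644, .ofNat 391, .negSucc 464, .negSucc 1201, .ofNat 354, .ofNat 1030⟩, ⟨.negSucc 933, .ofNat 540, .negSucc 640, .negSucc 1938, .ofNat 472, .ofNat 1672⟩, ⟨.ofNat 1600, .negSucc 960, .ofNat 1084, .ofNat 2806, .negSucc 967, .negSucc 2611⟩, ⟨.negSucc 307, .ofNat 149, .negSucc 206, .negSucc 855, .ofNat 18, .ofNat 371⟩, .ofNat 3794, .ofNat 6270, .ofNat 0, .ofNat 6270, .ofNat 11521, .ofNat 0, .ofNat 78, .negSucc 327, .negSucc 879, .ofNat 0, .ofNat 191, .ofNat 488, .ofNat 0, .ofNat 0, .ofNat 906, .ofNat 4889, .ofNat 19217951795297728011599542462809165004800,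 .ofNat 0, .ofNat 146059495436925431977712025600, .ofNat 0, .ofNat 0, .ofNat 0, .ofNat 0, .ofNat 0, .ofNat 0, .ofNat 0, .ofNat 23997088092578522195959794892800, .ofNat 0, .ofNat 0, .ofNat 0, .ofNat 90250182606562227175251404390400, .ofNat 0⟩)
    (by decide +kernel)
theorem L01062 : Good (Phi V4.P V4.D (-1) (-1)) ⟨7, 109, 5, 17, 2, 1, 3, 1, 4, 0⟩ :=
  leaf_sound (S := T4.ds_mm) T4.ok_mm (w := 208) (c := ⟨⟨.ofNat 149, .ofNat 343, .negSucc 293, .ofNat 1847, .negSucc 428, .negSucc 1560⟩, ⟨.negSucc 77, .negSucc 207, .ofNat 182, .negSucc 1027, .ofNat 238, .ofNat 864⟩, ⟨.negSucc 187, .negSucc 116, .ofNat 74, .negSucc 1788, .ofNat 278, .ofNat 1445⟩, ⟨.ofNat 132, .ofNat 428, .negSucc 369, .ofNat 2337, .negSucc 650, .negSucc 2176⟩, ⟨.negSucc 185, .negSucc 137, .ofNat 130, .negSucc 838, .negSucc 1, .ofNat 345⟩, .ofNat 3828, .ofNat 6332, .ofNat 0, .ofNat 6332,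 .ofNat 11636, .ofNat 0, .ofNat 80, .negSucc 333, .negSucc 847, .ofNat 0, .ofNat 194, .ofNat 470, .ofNat 0, .ofNat 0, .ofNat 905, .ofNat 1840, .ofNat 0, .ofNat 0, .ofNat 878497431113758926042877132800, .ofNat 0, .ofNat 0, .ofNat 0, .ofNat 0, .ofNat 0, .ofNat 0, .ofNat 0, .ofNat 54446272469237998314555074150400, .ofNat 0, .ofNat 0, .ofNat 0, .ofNat 0, .ofNat 0⟩)
    (by decide +kernel)
theorem L01063 : Good (Phi V4.P V4.D (-1) (-1)) ⟨6, 54, 4, 9, 2, 1, 2, 0, 4, 0⟩ :=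
  out_sound (S := T4.ds_mm) T4.ok_mm (w := 72) (j := 3) (by decide +kernel)
theorem L01064 : Good (Phi V4.P V4.D (-1) (-1)) ⟨7, 110, 3, 4, 3, 2, 2, 0, 4, 0⟩ :=
  leaf_sound (S := T4.ds_mm) T4.ok_mm (w := 208) (c := ⟨⟨.ofNat 1077, .ofNat 90, .negSucc 373, .ofNat 1151, .negSucc 1046, .negSucc 1725⟩, ⟨.negSucc 617, .negSucc 50, .ofNat 222, .negSucc 654, .ofNat 596, .ofNat 982⟩, ⟨.negSucc 879, .negSucc 83, .ofNat 298, .negSucc 1139, .ofNat 776, .ofNat 1650⟩, ⟨.ofNat 1435, .ofNat 110, .negSucc 486, .ofNat 1486, .negSucc 1551, .negSucc 2401⟩, ⟨.negSucc 329, .negSucc 30, .ofNat 127, .negSucc 436, .ofNat 42, .ofNat 346⟩, .ofNat 2156, .ofNat 3283, .ofNat 0, .ofNat 3283, .ofNat 6031, .ofNat 0, .ofNat 95, .negSucc 312, .negSucc 893, .ofNat 0, .ofNat 191, .ofNat 504, .ofNat 0, .ofNat 0, .ofNat 951, .ofNat 3162, .ofNat 38548088128521219405095320996092366028800,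 .ofNat 0, .ofNat 1852027735629304837271715840000, .ofNat 0, .ofNat 0, .ofNat 0, .ofNat 622633227100988488287496490188800, .ofNat 0, .ofNat 0, .ofNat 0, .ofNat 0, .ofNat 0, .ofNat 0, .ofNat 0, .ofNat 0, .ofNat 0⟩)
    (by decide +kernel)
theorem L01065 : Good (Phi V4.P V4.D (-1) (-1)) ⟨7, 110, 3, 4, 3, 3, 2, 0, 4, 0⟩ :=
  leaf_sound (S := T4.ds_mm) T4.ok_mm (w := 208) (c := ⟨⟨.ofNat 2304, .ofNat 165, .ofNat 120, .ofNat 1005, .negSucc 1364, .negSucc 2141⟩, ⟨.negSucc 1307, .negSucc 118, .negSucc 58, .negSucc 573, .ofNat 776, .ofNat 1222⟩, ⟨.negSucc 2013, .negSucc 155, .negSucc 50, .negSucc 806, .ofNat 942, .ofNat 1892⟩, ⟨.ofNat 3041, .ofNat 172, .ofNat 205, .ofNat 1237, .negSucc 2021, .negSucc 2957⟩, ⟨.negSucc 779, .negSucc 73, .ofNat 41, .negSucc 484, .ofNat 59, .ofNat 467⟩, .ofNat 2149, .ofNat 3271, .ofNat 0, .ofNat 3271, .ofNat 6012, .ofNat 0, .ofNat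 99, .negSucc 348, .negSucc 984, .ofNat 0, .ofNat 210, .ofNat 556, .ofNat 0, .ofNat 0, .ofNat 964, .ofNat 2637, .ofNat 0, .ofNat 0, .ofNat 0, .ofNat 0, .ofNat 0, .ofNat 0, .ofNat 602595966078818743732282589184000, .ofNat 0, .ofNat 0, .ofNat 0, .ofNat 0, .ofNat 0, .ofNat 0, .ofNat 0, .ofNat 0, .ofNat 0⟩)
    (by decide +kernel)
theorem L01066 : Good (Phi V4.P V4.D (-1) (-1)) ⟨7, 111, 3, 4, 2, 1, 2, 0, 4, 0⟩ :=
  out_sound (S := T4.ds_mm) T4.ok_mm (w := 24) (j := 4) (by decide +kernel)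
theorem L01067 : Good (Phi V4.P V4.D (-1) (-1)) ⟨3, 7, 3, 4, 2, 1, 2, 0, 4, 0⟩ :=
  out_sound (S := T4.ds_mm) T4.ok_mm (w := 16) (j := 4) (by decide +kernel)
theorem L01068 : Good (Phi V4.P V4.D (-1) (-1)) ⟨2, 2, 3, 4, 2, 1, 2, 0, 4, 1⟩ :=
  out_sound (S := T4.ds_mm) T4.ok_mm (w := 40) (j := 3) (by decide +kernel)
theorem L01069 : Good (Phi V4.P V4.D (-1) (-1)) ⟨4, 12, 3, 4, 2, 1, 2, 0, 4, 1⟩ :=
  out_sound (S := T4.ds_mm) T4.ok_mm (w := 56) (j := 3) (by decide +kernel)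
theorem L01070 : Good (Phi V4.P V4.D (-1) (-1)) ⟨5, 26, 3, 4, 2, 1, 2, 0, 4, 1⟩ :=
  out_sound (S := T4.ds_mm) T4.ok_mm (w := 64) (j := 3) (by decide +kernel)
theorem L01071 : Good (Phi V4.P V4.D (-1) (-1)) ⟨6, 54, 4, 8, 3, 2, 2, 0, 5, 2⟩ :=
  leaf_sound (S := T4.ds_mm) T4.ok_mm (w := 208) (c := ⟨⟨.negSucc 803, .ofNat 101, .negSucc 177, .ofNat 480, .negSucc 322, .negSucc 435⟩, ⟨.ofNat 421, .negSucc 61, .ofNat 144, .negSucc 260, .ofNat 173, .ofNat 237⟩, ⟨.ofNat 916, .negSucc 100, .ofNat 165, .negSucc 578, .ofNat 120, .ofNat 424⟩, ⟨.negSucc 1218, .ofNat 151, .negSucc 235, .ofNat 611, .negSucc 539, .negSucc 609⟩, ⟨.ofNat 29, .negSucc 24, .ofNat 46, .negSucc 224, .negSucc 89, .ofNat 100⟩, .ofNat 1697, .ofNat 2562, .ofNat 0, .ofNat 2562, .ofNat 4957, .ofNat 0, .ofNat 114, .negSucc 305, .negSucc 735, .ofNat 0, .ofNat 185, .ofNat 397, .ofNat 0, .ofNat 0,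 .ofNat 834, .ofNat 4801, .ofNat 0, .ofNat 0, .ofNat 0, .ofNat 0, .ofNat 0, .ofNat 0, .ofNat 0, .ofNat 0, .ofNat 0, .ofNat 0, .ofNat 0, .ofNat 0, .ofNat 0, .ofNat 0, .ofNat 0, .ofNat 0⟩)
    (by decide +kernel)
theorem L01072 : Good (Phi V4.P V4.D (-1) (-1)) ⟨6, 54, 4, 9, 3, 2, 2, 0, 5, 2⟩ :=
  out_sound (S := T4.ds_mm) T4.ok_mm (w := 72) (j := 3) (by decide +kernel)
theorem L01073 : Good (Phi V4.P V4.D (-1) (-1)) ⟨6, 55, 5, 16, 3, 2, 2, 0, 5, 2⟩ :=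
  out_sound (S := T4.ds_mm) T4.ok_mm (w := 72) (j := 3) (by decide +kernel)
theorem L01074 : Good (Phi V4.P V4.D (-1) (-1)) ⟨6, 55, 5, 17, 3, 2, 2, 0, 5, 2⟩ :=
  leaf_sound (S := T4.ds_mm) T4.ok_mm (w := 216) (c := ⟨⟨.negSucc 888, .ofNat 65, .negSucc 50, .ofNat 566, .negSucc 277, .negSucc 501⟩, ⟨.ofNat 486, .negSucc 25, .ofNat 46, .negSucc 319, .ofNat 156, .ofNat 283⟩, ⟨.ofNat 1011, .negSucc 4, .ofNat 17, .negSucc 664, .ofNat 81, .ofNat 484⟩, ⟨.negSucc 1335, .ofNat 61, .negSucc 42, .ofNat 718, .negSucc 475, .negSucc 692⟩, ⟨.ofNat 20, .negSucc 89, .ofNat 50, .negSucc 240, .negSucc 98, .ofNat 115⟩, .ofNat 9067, .ofNat 15486, .ofNat 0, .ofNat 15486, .ofNat 27621, .ofNat 0, .ofNat 53, .negSucc 320, .negSucc 762, .ofNat 0, .ofNat 185, .ofNat 431, .ofNat 0, .ofNat 0, .ofNat 857, .ofNat 4626, .ofNat 158434492263600791401386657844609784217600, .ofNat 0, .ofNat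 0, .ofNat 0, .ofNat 777065876291521756096038694865369825280000, .ofNat 0, .ofNat 487053857492692479264539064611635200, .ofNat 0, .ofNat 1141109006953332439992857541616978624512000, .ofNat 0, .ofNat 352494031786182326641987026734284800, .ofNat 0, .ofNat 3138440587271057699614115285344062957158400, .ofNat 0, .ofNat 75551445819616708078335591815577600, .ofNat 0⟩)
    (by decide +kernel)
theorem L01075 : Good (Phi V4.P V4.D (-1) (-1)) ⟨6, 55, 5, 18, 3, 2, 2, 0, 5, 2⟩ :=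
  leaf_sound (S := T4.ds_mm) T4.ok_mm (w := 208) (c := ⟨⟨.negSucc 767, .negSucc 337, .negSucc 23, .ofNat 665, .negSucc 363, .negSucc 610⟩, ⟨.ofNat 433, .ofNat 203, .ofNat 31, .negSucc 380, .ofNat 207, .ofNat 350⟩, ⟨.ofNat 889, .ofNat 292, .ofNat 24, .negSucc 757, .ofNat 157, .ofNat 582⟩, ⟨.negSucc 1152, .negSucc 443, .negSucc 28, .ofNat 849, .negSucc 590, .negSucc 836⟩, ⟨.ofNat 8, .ofNat 102, .negSucc 5, .negSucc 262, .negSucc 76, .ofNat 144⟩, .ofNat 2235, .ofNat 3406, .ofNat 0, .ofNat 3406, .ofNat 6216, .ofNat 0, .ofNat 93, .negSucc 315, .negSucc 803, .ofNat 0, .ofNat 192, .ofNat 456, .ofNat 0, .ofNat 0, .ofNat 883, .ofNat 3183, .ofNat 0, .ofNat 0, .ofNat 0, .ofNat 0, .ofNat 0, .ofNat 0, .ofNat 0, .ofNat 0, .ofNat 0, .ofNat 0, .ofNat 0, .ofNat 0, .ofNat 3652440673312550056626883944882211966156800, .ofNat 0, .ofNat 58733187757375017779635180850380800,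 .ofNat 0⟩)
    (by decide +kernel)
theorem L01076 : Good (Phi V4.P V4.D (-1) (-1)) ⟨7, 110, 5, 19, 3, 2, 2, 0, 5, 2⟩ :=
  out_sound (S := T4.ds_mm) T4.ok_mm (w := 80) (j := 3) (by decide +kernel)
theorem L01077 : Good (Phi V4.P V4.D (-1) (-1)) ⟨7, 111, 5, 19, 3, 2, 2, 0, 5, 2⟩ :=
  out_sound (S := T4.ds_mm) T4.ok_mm (w := 24) (j := 4) (by decide +kernel)
theorem L01078 : Good (Phi V4.P V4.D (-1) (-1)) ⟨5, 27, 3, 4, 3, 2, 2, 0, 5, 3⟩ :=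
  leaf_sound (S := T4.ds_mm) T4.ok_mm (w := 200) (c := ⟨⟨.negSucc 1295, .negSucc 182, .negSucc 67, .ofNat 312, .negSucc 27, .negSucc 284⟩, ⟨.ofNat 677, .ofNat 153, .ofNat 102, .negSucc 174, .ofNat 13, .ofNat 159⟩, ⟨.ofNat 1396, .ofNat 179, .ofNat 45, .negSucc 439, .negSucc 149, .ofNat 284⟩, ⟨.negSucc 1922, .negSucc 201, .negSucc 65, .ofNat 387, .negSucc 130, .negSucc 400⟩, ⟨.ofNat 127, .ofNat 37, .ofNat 24, .negSucc 151, .negSucc 157, .ofNat 54⟩, .ofNat 1876, .ofNat 2842, .ofNat 0, .ofNat 2842, .ofNat 5369, .ofNat 0, .ofNat 105, .negSucc 305, .negSucc 683, .ofNat 0, .ofNat 186, .ofNat 377, .ofNat 0, .ofNat 0, .ofNat 793, .ofNat 3381, .ofNat 270309982477557144605170680596319436800, .ofNat 0, .ofNat 296813412421441033219989936537600, .ofNat 0, .ofNat 0, .ofNat 0, .ofNat 159534578595509831828315708168601600, .ofNat 0, .ofNat 0, .ofNat 0, .ofNat 0, .ofNat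 0, .ofNat 8020837900828433301822204476276500070400, .ofNat 0, .ofNat 0, .ofNat 0⟩)
    (by decide +kernel)
theorem L01079 : Good (Phi V4.P V4.D (-1) (-1)) ⟨6, 54, 4, 8, 3, 3, 3, 0, 4, 1⟩ :=
  leaf_sound (S := T4.ds_mm) T4.ok_mm (w := 208) (c := ⟨⟨.negSucc 25, .ofNat 526, .negSucc 517, .ofNat 500, .negSucc 356, .negSucc 1476⟩, ⟨.negSucc 5, .negSucc 272, .ofNat 296, .negSucc 272, .ofNat 195, .ofNat 807⟩, ⟨.ofNat 122, .negSucc 426, .ofNat 408, .negSucc 511, .ofNat 205, .ofNat 1286⟩, ⟨.negSucc 201, .ofNat 757, .negSucc 746, .ofNat 607, .negSucc 546, .negSucc 2031⟩, ⟨.negSucc 283, .negSucc 119, .ofNat 110, .negSucc 288, .negSucc 9, .ofNat 399⟩, .ofNat 1699, .ofNat 2566, .ofNat 0, .ofNat 2566, .ofNat 4965, .ofNat 0, .ofNat 117, .negSucc 341, .negSucc 807, .ofNat 0, .ofNat 203, .ofNat 438, .ofNat 0, .ofNat 0, .ofNat 823, .ofNat 7229, .ofNat 50469581639099040347353490087150931148800,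 .ofNat 0, .ofNat 140420624742462320460380189491200, .ofNat 0, .ofNat 0, .ofNat 0, .ofNat 0, .ofNat 0, .ofNat 0, .ofNat 0, .ofNat 33786997648911098511598229756313600, .ofNat 0, .ofNat 0, .ofNat 0, .ofNat 40082280604347030228234285141196800, .ofNat 0⟩)
    (by decide +kernel)
theorem L01080 : Good (Phi V4.P V4.D (-1) (-1)) ⟨6, 54, 4, 8, 3, 3, 3, 1, 4, 1⟩ :=
  leaf_sound (S := T4.ds_mm) T4.ok_mm (w := 208) (c := ⟨⟨.negSucc 402, .negSucc 136, .ofNat 159, .ofNat 298, .negSucc 159, .negSucc 1033⟩, ⟨.ofNat 196, .ofNat 74, .negSucc 41, .negSucc 163, .ofNat 86, .ofNat 565⟩, ⟨.ofNat 343, .ofNat 106, .negSucc 133, .negSucc 373, .ofNat 62, .ofNat 953⟩, ⟨.negSucc 775, .negSucc 168, .ofNat 211, .ofNat 321, .negSucc 274, .negSucc 1421⟩, ⟨.negSucc 279, .ofNat 45, .negSucc 56, .negSucc 246, .negSucc 58, .ofNat 280⟩, .ofNat 1689, .ofNat 2550, .ofNat 0, .ofNat 2550,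 .ofNat 4941, .ofNat 0, .ofNat 118, .negSucc 335, .negSucc 778, .ofNat 0, .ofNat 200, .ofNat 423, .ofNat 0, .ofNat 0, .ofNat 833, .ofNat 6200, .ofNat 0, .ofNat 0, .ofNat 0, .ofNat 0, .ofNat 0, .ofNat 0, .ofNat 0, .ofNat 0, .ofNat 0, .ofNat 0, .ofNat 0, .ofNat 0, .ofNat 0, .ofNat 0, .ofNat 0, .ofNat 0⟩)
    (by decide +kernel)
theorem L01081 : Good (Phi V4.P V4.D (-1) (-1)) ⟨6, 54, 4, 9, 3, 3, 2, 0, 4, 1⟩ :=
  out_sound (S := T4.ds_mm) T4.ok_mm (w := 72) (j := 3) (by decide +kernel)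
theorem L01082 : Good (Phi V4.P V4.D (-1) (-1)) ⟨6, 55, 3, 4, 3, 3, 2, 0, 5, 2⟩ :=
  leaf_sound (S := T4.ds_mm) T4.ok_mm (w := 208) (c := ⟨⟨.ofNat 144, .ofNat 88, .negSucc 60, .ofNat 605, .negSucc 739, .negSucc 851⟩, ⟨.negSucc 92, .negSucc 35, .ofNat 49, .negSucc 343, .ofNat 421, .ofNat 485⟩, ⟨.negSucc 60, .negSucc 86, .ofNat 58, .negSucc 586, .ofNat 460, .ofNat 761⟩, ⟨.ofNat 32, .ofNat 99, .negSucc 74, .ofNat 713, .negSucc 1118, .negSucc 1145⟩, ⟨.negSucc 326, .negSucc 45, .ofNat 25, .negSucc 347, .negSucc 7, .ofNat 241⟩, .ofNat 2138, .ofNat 3254, .ofNat 0, .ofNat 3254, .ofNat 5985, .ofNat 0, .ofNat 99, .negSucc 349, .negSucc 922, .ofNat 0, .ofNat 211, .ofNat 521, .ofNat 0, .ofNat 0, .ofNat 920, .ofNat 2331, .ofNat 5348222542806122435446489326553556582400, .ofNat 0, .ofNat 61841400944413002110869281177600, .ofNat 0, .ofNat 0, .ofNat 0, .ofNat 44755699448085162352294396900147200,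 .ofNat 0, .ofNat 257944826822983047482916484980504369561600, .ofNat 0, .ofNat 10843686579666862212400218636288000, .ofNat 0, .ofNat 0, .ofNat 0, .ofNat 0, .ofNat 0⟩)
    (by decide +kernel)
theorem L01083 : Good (Phi V4.P V4.D (-1) (-1)) ⟨6, 55, 3, 4, 3, 3, 2, 0, 5, 3⟩ :=
  leaf_sound (S := T4.ds_mm) T4.ok_mm (w := 208) (c := ⟨⟨.negSucc 751, .negSucc 32, .negSucc 134, .ofNat 341, .negSucc 329, .negSucc 544⟩, ⟨.ofNat 410, .ofNat 58, .ofNat 96, .negSucc 195, .ofNat 187, .ofNat 310⟩, ⟨.ofNat 752, .ofNat 33, .ofNat 106, .negSucc 420, .ofNat 137, .ofNat 491⟩, ⟨.negSucc 1192, .negSucc 25, .negSucc 172, .ofNat 372, .negSucc 559, .negSucc 736⟩, ⟨.negSucc 92, .ofNat 7, .ofNat 41, .negSucc 247, .negSucc 110, .ofNat 148⟩, .ofNat 2149, .ofNat 3272, .ofNat 0, .ofNat 3272, .ofNat 6014, .ofNat 0, .ofNat 98, .negSucc 344, .negSucc 817, .ofNat 0, .ofNat 208, .ofNat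 463, .ofNat 0, .ofNat 0, .ofNat 846, .ofNat 3949, .ofNat 6906688117513607038448689398391033036800, .ofNat 0, .ofNat 91848621462057589157857434009600, .ofNat 0, .ofNat 0, .ofNat 0, .ofNat 47653792729882534667041884654796800, .ofNat 0, .ofNat 233826992198178561790557117161052045312000, .ofNat 0, .ofNat 15865868110278240455334141571891200, .ofNat 0, .ofNat 0, .ofNat 0, .ofNat 0, .ofNat 0⟩)
    (by decide +kernel)
theorem L01084 : Good (Phi V4.P V4.D (-1) (-1)) ⟨3, 7, 3, 4, 2, 1, 2, 0, 4, 1⟩ :=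
  out_sound (S := T4.ds_mm) T4.ok_mm (w := 16) (j := 4) (by decide +kernel)
theorem L01085 : Good (Phi V4.P V4.D (-1) (-1)) ⟨2, 2, 3, 4, 1, 0, 2, 0, 3, 1⟩ :=
  out_sound (S := T4.ds_mm) T4.ok_mm (w := 40) (j := 3) (by decide +kernel)
theorem L01086 : Good (Phi V4.P V4.D (-1) (-1)) ⟨4, 12, 3, 4, 1, 0, 2, 0, 3, 1⟩ :=
  out_sound (S := T4.ds_mm) T4.ok_mm (w := 56) (j := 3) (by decide +kernel)
theorem L01087 : Good (Phi V4.P V4.D (-1) (-1)) ⟨5, 26, 3, 4, 1, 0, 2, 0, 3, 1⟩ :=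
  out_sound (S := T4.ds_mm) T4.ok_mm (w := 64) (j := 3) (by decide +kernel)
theorem L01088 : Good (Phi V4.P V4.D (-1) (-1)) ⟨6, 54, 5, 16, 2, 0, 2, 0, 4, 2⟩ :=
  leaf_sound (S := T4.ds_mm) T4.ok_mm (w := 192) (c := ⟨⟨.negSucc 1798, .negSucc 65, .negSucc 7, .ofNat 31, .ofNat 243, .ofNat 32⟩, ⟨.ofNat 943, .ofNat 55, .ofNat 30, .negSucc 14, .negSucc 130, .negSucc 16⟩, ⟨.ofNat 2111, .ofNat 90, .negSucc 14, .negSucc 174, .negSucc 484, .negSucc 55⟩, ⟨.negSucc 2732, .negSucc 79, .ofNat 13, .ofNat 101, .ofNat 325, .ofNat 40⟩, ⟨.ofNat 65, .negSucc 44, .ofNat 44, .ofNat 100, .negSucc 83, .negSucc 15⟩, .ofNat 4235, .ofNat 7222, .ofNat 0, .ofNat 7222, .ofNat 13564, .ofNat 0, .ofNat 80, .negSucc 278, .negSucc 430, .ofNat 0, .ofNat 161, .ofNat 231, .ofNat 0, .ofNat 0, .ofNat 628, .ofNat 7174, .ofNat 0, .ofNat 0, .ofNat 0, .ofNat 0, .ofNat 0, .ofNat 0, .ofNat 43090964324371733729269461811200,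 .ofNat 0, .ofNat 7424737762610926573489488120732293529600, .ofNat 0, .ofNat 17428283481103616948469497856000, .ofNat 0, .ofNat 9326484028712521264309346160003671654400, .ofNat 0, .ofNat 0, .ofNat 0⟩)
    (by decide +kernel)
theorem L01089 : Good (Phi V4.P V4.D (-1) (-1)) ⟨6, 54, 5, 16, 2, 1, 2, 0, 4, 2⟩ :=
  leaf_sound (S := T4.ds_mm) T4.ok_mm (w := 192) (c := ⟨⟨.negSucc 1512, .negSucc 117, .negSucc 5, .ofNat 165, .ofNat 77, .negSucc 181⟩, ⟨.ofNat 794, .ofNat 82, .ofNat 27, .negSucc 91, .negSucc 44, .ofNat 98⟩, ⟨.ofNat 1603, .ofNat 133, .negSucc 7, .negSucc 432, .negSucc 237, .ofNat 195⟩, ⟨.negSucc 2215, .negSucc 124, .negSucc 11, .ofNat 102, .ofNat 2, .negSucc 277⟩, ⟨.ofNat 209, .ofNat 18, .ofNat 0, .negSucc 279, .negSucc 212, .ofNat 1⟩, .ofNat 2927, .ofNat 4828, .ofNat 0, .ofNat 4828, .ofNat 9172, .ofNat 0, .ofNat 92, .negSucc 313, .negSucc 560,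 .ofNat 0, .ofNat 181, .ofNat 303, .ofNat 0, .ofNat 0, .ofNat 689, .ofNat 3714, .ofNat 63055770363396354221052590389041561600, .ofNat 0, .ofNat 0, .ofNat 0, .ofNat 0, .ofNat 0, .ofNat 35939542300210691749456537190400, .ofNat 0, .ofNat 0, .ofNat 0, .ofNat 0, .ofNat 0, .ofNat 0, .ofNat 0, .ofNat 0, .ofNat 0⟩)
    (by decide +kernel)
theorem L01090 : Good (Phi V4.P V4.D (-1) (-1)) ⟨6, 54, 5, 16, 2, 0, 2, 0, 4, 3⟩ :=
  leaf_sound (S := T4.ds_mm) T4.ok_mm (w := 192) (c := ⟨⟨.negSucc 1711, .negSucc 80, .ofNat 5, .negSucc 27, .ofNat 206, .ofNat 110⟩, ⟨.ofNat 898, .ofNat 58, .ofNat 23, .ofNat 16, .negSucc 111, .negSucc 58⟩, ⟨.ofNat 1976, .ofNat 137, .negSucc 46, .negSucc 55, .negSucc 460, .negSucc 131⟩, ⟨.negSucc 2588, .negSucc 137, .ofNat 49, .negSucc 29, .ofNat 272, .ofNat 156⟩, ⟨.ofNat 81, .negSucc 101, .ofNat 71, .ofNat 24, .negSucc 78, .negSucc 22⟩, .ofNat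 1643, .ofNat 2477, .ofNat 0, .ofNat 2477, .ofNat 4835, .ofNat 0, .ofNat 105, .negSucc 258, .negSucc 358, .ofNat 0, .ofNat 159, .ofNat 191, .ofNat 0, .ofNat 0, .ofNat 579, .ofNat 14347, .ofNat 0, .ofNat 0, .ofNat 0, .ofNat 0, .ofNat 0, .ofNat 0, .ofNat 0, .ofNat 0, .ofNat 12573404201240424441549484883172340531200, .ofNat 0, .ofNat 10677562150707833233502896128000, .ofNat 0, .ofNat 0, .ofNat 0, .ofNat 0, .ofNat 0⟩)
    (by decide +kernel)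
theorem L01091 : Good (Phi V4.P V4.D (-1) (-1)) ⟨6, 54, 5, 16, 2, 1, 2, 0, 4, 3⟩ :=
  leaf_sound (S := T4.ds_mm) T4.ok_mm (w := 192) (c := ⟨⟨.negSucc 1694, .negSucc 126, .ofNat 33, .ofNat 66, .ofNat 164, .ofNat 86⟩, ⟨.ofNat 892, .ofNat 80, .ofNat 10, .negSucc 40, .negSucc 90, .negSucc 46⟩, ⟨.ofNat 1777, .ofNat 142, .negSucc 46, .negSucc 307, .negSucc 315, .negSucc 41⟩, ⟨.negSucc 2475, .negSucc 156, .ofNat 58, .negSucc 70, .ofNat 126, .ofNat 77⟩, ⟨.ofNat 241, .negSucc 6, .ofNat 14, .negSucc 322, .negSucc 230, .negSucc 100⟩, .ofNat 1628, .ofNat 2451, .ofNat 0, .ofNat 2451, .ofNat 4790, .ofNat 0, .ofNat 111, .negSucc 292, .negSucc 441, .ofNat 0, .ofNat 176, .ofNat 239, .ofNat 0, .ofNat 0, .ofNat 607, .ofNat 15804, .ofNat 0, .ofNat 0, .ofNat 0, .ofNat 0, .ofNat 0, .ofNat 0, .ofNat 0, .ofNat 0, .ofNat 4225581272450909510321686543921368268800, .ofNat 0,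 .ofNat 13435199835251162007240651571200, .ofNat 0, .ofNat 6391918325498119897842419961945076531200, .ofNat 0, .ofNat 5197711526968926077737500672000, .ofNat 0⟩)
    (by decide +kernel)
theorem L01092 : Good (Phi V4.P V4.D (-1) (-1)) ⟨7, 108, 5, 17, 1, 0, 2, 0, 3, 1⟩ :=
  out_sound (S := T4.ds_mm) T4.ok_mm (w := 80) (j := 3) (by decide +kernel)
theorem L01093 : Good (Phi V4.P V4.D (-1) (-1)) ⟨7, 109, 6, 34, 2, 0, 2, 0, 3, 1⟩ :=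
  leaf_sound (S := T4.ds_mm) T4.ok_mm (w := 200) (c := ⟨⟨.negSucc 1798, .negSucc 139, .ofNat 41, .ofNat 8, .ofNat 224, .ofNat 157⟩, ⟨.ofNat 981, .ofNat 88, .negSucc 10, .negSucc 3, .negSucc 123, .negSucc 86⟩, ⟨.ofNat 2067, .ofNat 186, .negSucc 67, .negSucc 122, .negSucc 463, .negSucc 185⟩, ⟨.negSucc 2696, .negSucc 155, .ofNat 48, .ofNat 43, .ofNat 286, .ofNat 205⟩, ⟨.ofNat 83, .ofNat 61, .negSucc 26, .ofNat 55, .negSucc 96, .negSucc 58⟩, .ofNat 3815, .ofNat 6309, .ofNat 0, .ofNat 6309, .ofNat 11599, .ofNat 0, .ofNat 72, .negSucc 276, .negSucc 399, .ofNat 0, .ofNat 162, .ofNat 220, .ofNat 0, .ofNat 0, .ofNat 605, .ofNat 5058, .ofNat 0, .ofNat 0, .ofNat 0, .ofNat 0, .ofNat 0, .ofNat 0, .ofNat 0, .ofNat 0, .ofNat 0, .ofNat 0, .ofNat 0, .ofNat 0, .ofNat 95034547672576492378647862722074089881600, .ofNat 0, .ofNat 0, .ofNat 0⟩)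
    (by decide +kernel)
theorem L01094 : Good (Phi V4.P V4.D (-1) (-1)) ⟨7, 109, 6, 34, 2, 1, 2, 0, 3, 1⟩ :=
  leaf_sound (S := T4.ds_mm) T4.ok_mm (w := 200) (c := ⟨⟨.negSucc 1570, .negSucc 214, .ofNat 100, .ofNat 200, .ofNat 111, .negSucc 123⟩, ⟨.ofNat 859, .ofNat 124, .negSucc 41, .negSucc 113, .negSucc 63, .ofNat 67⟩, ⟨.ofNat 1657, .ofNat 166, .negSucc 76, .negSucc 453, .negSucc 273, .ofNat 183⟩, ⟨.negSucc 2242, .negSucc 315, .ofNat 153, .ofNat 126, .ofNat 45, .negSucc 246⟩, ⟨.ofNat 274, .negSucc 14, .negSucc 0, .negSucc 321, .negSucc 222, .negSucc 107⟩, .ofNat 6119, .ofNat 10446, .ofNat 0, .ofNat 10446, .ofNat 19036, .ofNat 0, .ofNat 66, .negSucc 315, .negSucc 512, .ofNat 0, .ofNat 182, .ofNat 285, .ofNat 0, .ofNat 0, .ofNat 652, .ofNat 4505, .ofNat 0, .ofNat 0, .ofNat 1519649675543591000211456000, .ofNat 0, .ofNat 7427981350785119131332229073091113779200,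 .ofNat 0, .ofNat 1969858970314700584676386406400, .ofNat 0, .ofNat 0, .ofNat 0, .ofNat 0, .ofNat 0, .ofNat 0, .ofNat 0, .ofNat 0, .ofNat 0⟩)
    (by decide +kernel)
theorem L01095 : Good (Phi V4.P V4.D (-1) (-1)) ⟨8, 218, 6, 35, 1, 0, 2, 0, 4, 2⟩ :=
  out_sound (S := T4.ds_mm) T4.ok_mm (w := 88) (j := 3) (by decide +kernel)
theorem L01096 : Good (Phi V4.P V4.D (-1) (-1)) ⟨8, 219, 6, 35, 2, 0, 2, 0, 4, 2⟩ :=
  leaf_sound (S := T4.ds_mm) T4.ok_mm (w := 208) (c := ⟨⟨.negSucc 1868, .negSucc 34, .ofNat 24, .ofNat 30, .ofNat 262, .ofNat 34⟩, ⟨.ofNat 1037, .ofNat 26, .negSucc 1, .negSucc 15, .negSucc 146, .negSucc 18⟩, ⟨.ofNat 2181, .ofNat 33, .negSucc 27, .negSucc 196, .negSucc 494, .negSucc 47⟩, ⟨.negSucc 2806, .negSucc 8, .negSucc 30, .ofNat 107, .ofNat 336, .ofNat 39⟩, ⟨.ofNat 53, .ofNat 60, .negSucc 122, .ofNat 110, .negSucc 108, .negSucc 21⟩, .ofNat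 9884, .ofNat 17044, .ofNat 0, .ofNat 17044, .ofNat 30590, .ofNat 0, .ofNat 53, .negSucc 287, .negSucc 460, .ofNat 0, .ofNat 166, .ofNat 258, .ofNat 0, .ofNat 0, .ofNat 647, .ofNat 9659, .ofNat 0, .ofNat 0, .ofNat 0, .ofNat 0, .ofNat 0, .ofNat 0, .ofNat 0, .ofNat 0, .ofNat 0, .ofNat 0, .ofNat 0, .ofNat 0, .ofNat 9915170934811156916847942423815743183257600, .ofNat 0, .ofNat 0, .ofNat 0⟩)
    (by decide +kernel)
theorem L01097 : Good (Phi V4.P V4.D (-1) (-1)) ⟨8, 219, 6, 35, 2, 1, 2, 0, 4, 2⟩ :=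
  leaf_sound (S := T4.ds_mm) T4.ok_mm (w := 208) (c := ⟨⟨.negSucc 1641, .negSucc 13, .ofNat 34, .ofNat 167, .ofNat 99, .negSucc 144⟩, ⟨.ofNat 913, .ofNat 12, .negSucc 6, .negSucc 94, .negSucc 56, .ofNat 81⟩, ⟨.ofNat 1713, .ofNat 37, .negSucc 75, .negSucc 443, .negSucc 257, .ofNat 153⟩, ⟨.negSucc 2342, .negSucc 38, .ofNat 86, .ofNat 98, .ofNat 33, .negSucc 222⟩, ⟨.ofNat 268, .negSucc 46, .ofNat 60, .negSucc 275, .negSucc 210, .negSucc 8⟩, .ofNat 11127, .ofNat 19253, .ofNat 0, .ofNat 19253, .ofNat 34514, .ofNat 0, .ofNat 54, .negSucc 322, .negSucc 580, .ofNat 0, .ofNat 185, .ofNat 326, .ofNat 0, .ofNat 0, .ofNat 705, .ofNat 5900, .ofNat 0, .ofNat 0, .ofNat 0, .ofNat 0, .ofNat 0, .ofNat 0, .ofNat 0, .ofNat 0, .ofNat 4329042458817778361673898874992269144883200, .ofNat 0, .ofNat 8220573801011744357618810880000, .ofNat 0, .ofNat 0, .ofNat 0, .ofNat 0, .ofNat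 0⟩)
    (by decide +kernel)
theorem L01098 : Good (Phi V4.P V4.D (-1) (-1)) ⟨7, 109, 6, 35, 2, 0, 2, 0, 4, 3⟩ :=
  leaf_sound (S := T4.ds_mm) T4.ok_mm (w := 200) (c := ⟨⟨.negSucc 1709, .negSucc 84, .ofNat 11, .negSucc 41, .ofNat 214, .ofNat 119⟩, ⟨.ofNat 945, .ofNat 57, .ofNat 6, .ofNat 23, .negSucc 119, .negSucc 66⟩, ⟨.ofNat 1941, .ofNat 107, .negSucc 24, .negSucc 32, .negSucc 454, .negSucc 135⟩, ⟨.negSucc 2621, .negSucc 12, .negSucc 11, .negSucc 53, .ofNat 260, .ofNat 155⟩, ⟨.negSucc 34, .ofNat 176, .negSucc 55, .ofNat 17, .negSucc 112, .negSucc 44⟩, .ofNat 4214, .ofNat 6973, .ofNat 0, .ofNat 6973, .ofNat 12685, .ofNat 0, .ofNat 66, .negSucc 271, .negSucc 363, .ofNat 0, .ofNat 160, .ofNat 203, .ofNat 0, .ofNat 0, .ofNat 582, .ofNat 21208, .ofNat 0, .ofNat 0, .ofNat 0, .ofNat 0, .ofNat 0, .ofNat 0, .ofNat 0, .ofNat 0, .ofNat 0, .ofNat 0, .ofNat 8355702895987474230571066982400,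 .ofNat 0, .ofNat 342179435212649801009707434461900675481600, .ofNat 0, .ofNat 6624565157192532991034366361600, .ofNat 0⟩)
    (by decide +kernel)
theorem L01099 : Good (Phi V4.P V4.D (-1) (-1)) ⟨7, 109, 6, 35, 2, 1, 2, 0, 4, 3⟩ :=
  leaf_sound (S := T4.ds_mm) T4.ok_mm (w := 200) (c := ⟨⟨.negSucc 1716, .negSucc 94, .ofNat 24, .ofNat 82, .ofNat 183, .ofNat 109⟩, ⟨.ofNat 952, .ofNat 60, .ofNat 0, .negSucc 47, .negSucc 103, .negSucc 61⟩, ⟨.ofNat 1814, .ofNat 74, .negSucc 15, .negSucc 321, .negSucc 337, .negSucc 67⟩, ⟨.negSucc 2503, .negSucc 81, .ofNat 25, .negSucc 62, .ofNat 144, .ofNat 102⟩, ⟨.ofNat 197, .ofNat 77, .negSucc 21, .negSucc 333, .negSucc 237, .negSucc 111⟩, .ofNat 4238, .ofNat 7013, .ofNat 0, .ofNat 7013, .ofNat 12755, .ofNat 0, .ofNat 68, .negSucc 304, .negSucc 451, .ofNat 0, .ofNat 178, .ofNat 254, .ofNat 0, .ofNat 0, .ofNat 614, .ofNat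 13293, .ofNat 0, .ofNat 0, .ofNat 0, .ofNat 0, .ofNat 0, .ofNat 0, .ofNat 0, .ofNat 0, .ofNat 0, .ofNat 0, .ofNat 0, .ofNat 0, .ofNat 0, .ofNat 0, .ofNat 0, .ofNat 0⟩)
    (by decide +kernel)
theorem L01100 : Good (Phi V4.P V4.D (-1) (-1)) ⟨6, 55, 5, 16, 1, 0, 2, 0, 3, 1⟩ :=
  out_sound (S := T4.ds_mm) T4.ok_mm (w := 72) (j := 3) (by decide +kernel)
theorem L01101 : Good (Phi V4.P V4.D (-1) (-1)) ⟨7, 110, 6, 34, 1, 0, 2, 0, 3, 1⟩ :=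
  out_sound (S := T4.ds_mm) T4.ok_mm (w := 80) (j := 3) (by decide +kernel)
theorem L01102 : Good (Phi V4.P V4.D (-1) (-1)) ⟨8, 220, 7, 70, 2, 0, 2, 0, 3, 1⟩ :=
  leaf_sound (S := T4.ds_mm) T4.ok_mm (w := 208) (c := ⟨⟨.negSucc 1885, .ofNat 1, .ofNat 0, .negSucc 22, .ofNat 227, .ofNat 185⟩, ⟨.ofNat 1053, .ofNat 3, .ofNat 7, .ofNat 13, .negSucc 127, .negSucc 103⟩, ⟨.ofNat 2160, .negSucc 81, .ofNat 30, .negSucc 87, .negSucc 459, .negSucc 227⟩, ⟨.negSucc 2773, .ofNat 6, .negSucc 10, .negSucc 4, .ofNat 278, .ofNat 247⟩, ⟨.ofNat 137, .negSucc 8, .negSucc 19, .ofNat 53, .negSucc 115, .negSucc 57⟩, .ofNat 12707, .ofNat 21973, .ofNat 0, .ofNat 21973, .ofNat 39186, .ofNat 0, .ofNat 48, .negSucc 280, .negSucc 397, .ofNat 0, .ofNat 162, .ofNat 224, .ofNat 0, .ofNat 0, .ofNat 604, .ofNat 5250, .ofNat 0, .ofNat 0, .ofNat 0, .ofNat 0, .ofNat 1255996581380020617883246094983760550297600,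 .ofNat 0, .ofNat 3084128650248555804198174720000, .ofNat 0, .ofNat 0, .ofNat 0, .ofNat 0, .ofNat 0, .ofNat 6423510301206061048761585279309560414208000, .ofNat 0, .ofNat 95959121441936293485556531200, .ofNat 0⟩)
    (by decide +kernel)
theorem L01103 : Good (Phi V4.P V4.D (-1) (-1)) ⟨8, 220, 7, 70, 2, 1, 2, 0, 4, 2⟩ :=
  leaf_sound (S := T4.ds_mm) T4.ok_mm (w := 208) (c := ⟨⟨.negSucc 1577, .ofNat 2, .negSucc 30, .ofNat 197, .ofNat 64, .negSucc 214⟩, ⟨.ofNat 881, .ofNat 3, .ofNat 23, .negSucc 111, .negSucc 36, .ofNat 121⟩, ⟨.ofNat 1662, .ofNat 36, .ofNat 7, .negSucc 469, .negSucc 211, .ofNat 230⟩, ⟨.negSucc 2238, .ofNat 52, .negSucc 60, .ofNat 132, .negSucc 29, .negSucc 325⟩, ⟨.ofNat 260, .ofNat 70, .negSucc 26, .negSucc 293, .negSucc 226, .negSucc 1⟩, .ofNat 4426, .ofNat 7321, .ofNat 0, .ofNat 7321, .ofNat 13250, .ofNat 0, .ofNat 69, .negSucc 325,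 .negSucc 599, .ofNat 0, .ofNat 190, .ofNat 337, .ofNat 0, .ofNat 0, .ofNat 711, .ofNat 5760, .ofNat 0, .ofNat 0, .ofNat 0, .ofNat 0, .ofNat 0, .ofNat 0, .ofNat 0, .ofNat 0, .ofNat 0, .ofNat 0, .ofNat 0, .ofNat 0, .ofNat 0, .ofNat 0, .ofNat 0, .ofNat 0⟩)
    (by decide +kernel)
theorem L01104 : Good (Phi V4.P V4.D (-1) (-1)) ⟨8, 220, 7, 70, 2, 1, 2, 0, 4, 3⟩ :=
  leaf_sound (S := T4.ds_mm) T4.ok_mm (w := 208) (c := ⟨⟨.negSucc 1805, .ofNat 2, .negSucc 8, .ofNat 85, .ofNat 185, .ofNat 119⟩, ⟨.ofNat 1009, .ofNat 2, .ofNat 12, .negSucc 49, .negSucc 104, .negSucc 66⟩, ⟨.ofNat 1891, .negSucc 6, .ofNat 5, .negSucc 321, .negSucc 341, .negSucc 81⟩, ⟨.negSucc 2578, .ofNat 12, .negSucc 12, .negSucc 63, .ofNat 151, .ofNat 113⟩, ⟨.ofNat 269, .ofNat 0, .ofNat 1, .negSucc 341, .negSucc 230, .negSucc 117⟩, .ofNat 8221, .ofNat 14033, .ofNat 0, .ofNat 14033, .ofNat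 25131, .ofNat 0, .ofNat 53, .negSucc 306, .negSucc 443, .ofNat 0, .ofNat 177, .ofNat 251, .ofNat 0, .ofNat 0, .ofNat 607, .ofNat 9307, .ofNat 0, .ofNat 0, .ofNat 0, .ofNat 0, .ofNat 0, .ofNat 0, .ofNat 54015850758697357047436306022400, .ofNat 0, .ofNat 0, .ofNat 0, .ofNat 0, .ofNat 0, .ofNat 0, .ofNat 0, .ofNat 0, .ofNat 0⟩)
    (by decide +kernel)
theorem L01105 : Good (Phi V4.P V4.D (-1) (-1)) ⟨8, 220, 7, 71, 2, 0, 2, 0, 3, 1⟩ :=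
  leaf_sound (S := T4.ds_mm) T4.ok_mm (w := 200) (c := ⟨⟨.negSucc 1913, .ofNat 0, .negSucc 7, .negSucc 12, .ofNat 261, .ofNat 176⟩, ⟨.ofNat 1076, .ofNat 4, .ofNat 11, .ofNat 8, .negSucc 147, .negSucc 99⟩, ⟨.ofNat 2228, .negSucc 44, .ofNat 21, .negSucc 107, .negSucc 510, .negSucc 214⟩, ⟨.negSucc 2827, .negSucc 10, .ofNat 3, .ofNat 15, .ofNat 335, .ofNat 235⟩, ⟨.ofNat 114, .negSucc 33, .ofNat 24, .ofNat 61, .negSucc 104, .negSucc 54⟩, .ofNat 4757, .ofNat 7875, .ofNat 0, .ofNat 7875, .ofNat 14170, .ofNat 0, .ofNat 62, .negSucc 280, .negSucc 418, .ofNat 0, .ofNat 165, .ofNat 236, .ofNat 0, .ofNat 0, .ofNat 619, .ofNat 3747, .ofNat 54005737843445006128583330009630480793600, .ofNat 0, .ofNat 1033912653133189638153830400, .ofNat 0, .ofNat 0, .ofNat 0, .ofNat 0, .ofNat 0, .ofNat 0, .ofNat 0, .ofNat 0, .ofNat 0, .ofNat 0, .ofNat 0, .ofNat 0, .ofNat 0⟩)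
    (by decide +kernel)
theorem L01106 : Good (Phi V4.P V4.D (-1) (-1)) ⟨8, 220, 7, 71, 2, 1, 2, 0, 4, 2⟩ :=
  leaf_sound (S := T4.ds_mm) T4.ok_mm (w := 208) (c := ⟨⟨.negSucc 1762, .ofNat 382, .negSucc 181, .ofNat 266, .ofNat 84, .negSucc 204⟩, ⟨.ofNat 992, .negSucc 210, .ofNat 109, .negSucc 151, .negSucc 47, .ofNat 116⟩, ⟨.ofNat 1837, .negSucc 373, .ofNat 179, .negSucc 541, .negSucc 234, .ofNat 216⟩, ⟨.negSucc 2527, .ofNat 588, .negSucc 274, .ofNat 234, .ofNat 3, .negSucc 304⟩, ⟨.ofNat 242, .ofNat 3, .negSucc 0, .negSucc 296, .negSucc 218, .ofNat 7⟩, .ofNat 4812, .ofNat 7966, .ofNat 0, .ofNat 7966, .ofNat 14320, .ofNat 0, .ofNat 65, .negSucc 322, .negSucc 599, .ofNat 0, .ofNat 189, .ofNat 339, .ofNat 0, .ofNat 0, .ofNat 715, .ofNat 5540, .ofNat 175863831932353200583056067649362880102400, .ofNat 0, .ofNat 47880319528804476569989939200, .ofNat 0, .ofNat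 0, .ofNat 0, .ofNat 0, .ofNat 0, .ofNat 0, .ofNat 0, .ofNat 0, .ofNat 0, .ofNat 0, .ofNat 0, .ofNat 9861496815966044968935279820800, .ofNat 0⟩)
    (by decide +kernel)
theorem L01107 : Good (Phi V4.P V4.D (-1) (-1)) ⟨8, 220, 7, 71, 2, 1, 2, 0, 4, 3⟩ :=
  leaf_sound (S := T4.ds_mm) T4.ok_mm (w := 208) (c := ⟨⟨.negSucc 1829, .ofNat 79, .negSucc 52, .ofNat 99, .ofNat 181, .ofNat 108⟩, ⟨.ofNat 1029, .negSucc 41, .ofNat 37, .negSucc 57, .negSucc 102, .negSucc 61⟩, ⟨.ofNat 1929, .negSucc 166, .ofNat 101, .negSucc 356, .negSucc 328, .negSucc 62⟩, ⟨.negSucc 2627, .ofNat 153, .negSucc 96, .negSucc 30, .ofNat 140, .ofNat 106⟩, ⟨.ofNat 241, .ofNat 47, .negSucc 32, .negSucc 319, .negSucc 234, .negSucc 101⟩, .ofNat 2074, .ofNat 3154, .ofNat 0, .ofNat 3154, .ofNat 5835, .ofNat 0, .ofNat 93, .negSucc 301, .negSucc 463, .ofNat 0, .ofNat 183, .ofNat 262, .ofNat 0,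 .ofNat 0, .ofNat 619, .ofNat 9945, .ofNat 0, .ofNat 0, .ofNat 0, .ofNat 0, .ofNat 0, .ofNat 0, .ofNat 0, .ofNat 0, .ofNat 0, .ofNat 0, .ofNat 0, .ofNat 0, .ofNat 28654292292374386118756692932350446456012800, .ofNat 0, .ofNat 12026274391461647423832588288000, .ofNat 0⟩)
    (by decide +kernel)
theorem L01108 : Good (Phi V4.P V4.D (-1) (-1)) ⟨8, 221, 6, 35, 1, 0, 2, 0, 3, 1⟩ :=
  out_sound (S := T4.ds_mm) T4.ok_mm (w := 88) (j := 3) (by decide +kernel)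
theorem L01109 : Good (Phi V4.P V4.D (-1) (-1)) ⟨7, 111, 5, 17, 1, 0, 2, 0, 3, 1⟩ :=
  out_sound (S := T4.ds_mm) T4.ok_mm (w := 80) (j := 3) (by decide +kernel)
theorem L01110 : Good (Phi V4.P V4.D (-1) (-1)) ⟨6, 54, 4, 9, 1, 0, 2, 0, 3, 1⟩ :=
  out_sound (S := T4.ds_mm) T4.ok_mm (w := 72) (j := 3) (by decide +kernel)
theorem L01111 : Good (Phi V4.P V4.D (-1) (-1)) ⟨8, 220, 6, 36, 2, 0, 2, 0, 3, 1⟩ :=
  leaf_sound (S := T4.ds_mm) T4.ok_mm (w := 208) (c := ⟨⟨.negSucc 1835, .negSucc 116, .ofNat 90, .negSucc 23, .ofNat 251, .ofNat 195⟩, ⟨.ofNat 1037, .ofNat 74, .negSucc 40, .ofNat 14, .negSucc 142, .negSucc 110⟩, ⟨.ofNat 2136, .ofNat 113, .negSucc 82, .negSucc 89, .negSucc 496, .negSucc 237⟩, ⟨.negSucc 2714, .negSucc 152, .ofNat 95, .ofNat 0, .ofNat 318, .ofNat 259⟩, ⟨.ofNat 100, .ofNat 27, .negSucc 76, .ofNat 63, .negSucc 106, .negSucc 61⟩, .ofNat 11672,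 .ofNat 19942, .ofNat 0, .ofNat 19942, .ofNat 35228, .ofNat 0, .ofNat 42, .negSucc 283, .negSucc 412, .ofNat 0, .ofNat 165, .ofNat 235, .ofNat 0, .ofNat 0, .ofNat 615, .ofNat 3452, .ofNat 2626382943273980891027893911552000000000, .ofNat 0, .ofNat 636941346947442905658163200, .ofNat 0, .ofNat 0, .ofNat 0, .ofNat 0, .ofNat 0, .ofNat 0, .ofNat 0, .ofNat 0, .ofNat 0, .ofNat 0, .ofNat 0, .ofNat 0, .ofNat 0⟩)
    (by decide +kernel)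
theorem L01112 : Good (Phi V4.P V4.D (-1) (-1)) ⟨8, 220, 6, 36, 2, 1, 2, 0, 4, 2⟩ :=
  leaf_sound (S := T4.ds_mm) T4.ok_mm (w := 208) (c := ⟨⟨.negSucc 1427, .negSucc 258, .ofNat 138, .ofNat 286, .ofNat 32, .negSucc 257⟩, ⟨.ofNat 806, .ofNat 154, .negSucc 68, .negSucc 162, .negSucc 18, .ofNat 147⟩, ⟨.ofNat 1461, .ofNat 313, .negSucc 175, .negSucc 561, .negSucc 185, .ofNat 271⟩, ⟨.negSucc 2035, .negSucc 356, .ofNat 176, .ofNat 256, .negSucc 69, .negSucc 382⟩, ⟨.ofNat 212, .ofNat 43, .negSucc 60, .negSucc 306, .negSucc 206, .ofNat 10⟩, .ofNat 22837, .ofNat 39498, .ofNat 0, .ofNat 39498, .ofNat 69484, .ofNat 0, .ofNat 37, .negSucc 330, .negSucc 620, .ofNat 0, .ofNat 191, .ofNat 354, .ofNat 0, .ofNat 0, .ofNat 727, .ofNat 6609, .ofNat 74414436131194750899411172500838337740800, .ofNat 0, .ofNat 3709335001796702772815462400, .ofNat 0, .ofNat 0, .ofNat 0,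 .ofNat 0, .ofNat 0, .ofNat 7038524217976280896695783780822255717580800, .ofNat 0, .ofNat 6100226139357519631615210291200, .ofNat 0, .ofNat 1076620579730565737812537761795148244582400, .ofNat 0, .ofNat 4736062623399462467494163251200, .ofNat 0⟩)
    (by decide +kernel)
theorem L01113 : Good (Phi V4.P V4.D (-1) (-1)) ⟨8, 220, 6, 36, 2, 1, 2, 0, 4, 3⟩ :=
  leaf_sound (S := T4.ds_mm) T4.ok_mm (w := 208) (c := ⟨⟨.negSucc 1775, .negSucc 75, .ofNat 54, .ofNat 94, .ofNat 190, .ofNat 125⟩, ⟨.ofNat 1004, .ofNat 50, .negSucc 19, .negSucc 53, .negSucc 108, .negSucc 70⟩, ⟨.ofNat 1788, .ofNat 165, .negSucc 148, .negSucc 340, .negSucc 339, .negSucc 86⟩, ⟨.negSucc 2575, .negSucc 45, .ofNat 47, .negSucc 49, .ofNat 153, .ofNat 122⟩, ⟨.ofNat 182, .ofNat 109, .negSucc 64, .negSucc 335, .negSucc 232, .negSucc 115⟩, .ofNat 2149, .ofNat 3272, .ofNat 0, .ofNat 3272, .ofNat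 6015, .ofNat 0, .ofNat 91, .negSucc 302, .negSucc 465, .ofNat 0, .ofNat 184, .ofNat 264, .ofNat 0, .ofNat 0, .ofNat 620, .ofNat 12133, .ofNat 0, .ofNat 0, .ofNat 0, .ofNat 0, .ofNat 0, .ofNat 0, .ofNat 0, .ofNat 0, .ofNat 0, .ofNat 0, .ofNat 9653732181632861983013968281600, .ofNat 0, .ofNat 0, .ofNat 0, .ofNat 8375165128860977958400032768000, .ofNat 0⟩)
    (by decide +kernel)
theorem L01114 : Good (Phi V4.P V4.D (-1) (-1)) ⟨8, 221, 7, 72, 2, 0, 2, 0, 3, 1⟩ :=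
  leaf_sound (S := T4.ds_mm) T4.ok_mm (w := 208) (c := ⟨⟨.negSucc 1986, .negSucc 136, .ofNat 101, .negSucc 24, .ofNat 252, .ofNat 192⟩, ⟨.ofNat 1131, .ofNat 84, .negSucc 50, .ofNat 14, .negSucc 143, .negSucc 109⟩, ⟨.ofNat 2268, .ofNat 70, .negSucc 83, .negSucc 75, .negSucc 490, .negSucc 238⟩, ⟨.negSucc 2872, .negSucc 3, .ofNat 62, .negSucc 8, .ofNat 318, .ofNat 253⟩, ⟨.ofNat 209, .ofNat 345, .negSucc 161, .ofNat 49, .negSucc 108, .negSucc 63⟩, .ofNat 13592, .ofNat 23224, .ofNat 0, .ofNat 23224, .ofNat 40833, .ofNat 0, .ofNat 37, .negSucc 283, .negSucc 403, .ofNat 0, .ofNat 165, .ofNat 231, .ofNat 0, .ofNat 0, .ofNat 609, .ofNat 3648, .ofNat 3243266463303162239374894950351529574400, .ofNat 0, .ofNat 1060944897760846317984153600, .ofNat 0, .ofNat 840124879796825554659249373513905497702400, .ofNat 0, .ofNat 3090612701020079031826828492800, .ofNat 0,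 .ofNat 0, .ofNat 0, .ofNat 0, .ofNat 0, .ofNat 0, .ofNat 0, .ofNat 0, .ofNat 0⟩)
    (by decide +kernel)
theorem L01115 : Good (Phi V4.P V4.D (-1) (-1)) ⟨9, 442, 7, 72, 2, 1, 2, 0, 4, 2⟩ :=
  leaf_sound (S := T4.ds_mm) T4.ok_mm (w := 216) (c := ⟨⟨.negSucc 1486, .ofNat 267, .negSucc 333, .ofNat 219, .ofNat 74, .negSucc 188⟩, ⟨.ofNat 846, .negSucc 148, .ofNat 196, .negSucc 125, .negSucc 42, .ofNat 108⟩, ⟨.ofNat 1580, .negSucc 223, .ofNat 294, .negSucc 508, .negSucc 219, .ofNat 206⟩, ⟨.negSucc 2103, .ofNat 374, .negSucc 473, .ofNat 160, .negSucc 13, .negSucc 287⟩, ⟨.ofNat 236, .negSucc 54, .ofNat 49, .negSucc 296, .negSucc 217, .negSucc 6⟩, .ofNat 13597, .ofNat 23233, .ofNat 0, .ofNat 23233, .ofNat 40847, .ofNat 0, .ofNat 40, .negSucc 329, .negSucc 604, .ofNat 0, .ofNat 191, .ofNat 346, .ofNat 0, .ofNat 0, .ofNat 715, .ofNat 5341, .ofNat 3718450015330436864214280562940821530214400,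 .ofNat 0, .ofNat 30434713896405267919562342400, .ofNat 0, .ofNat 0, .ofNat 0, .ofNat 20345993075354135921400427315200, .ofNat 0, .ofNat 0, .ofNat 0, .ofNat 0, .ofNat 0, .ofNat 216615046444913534853748801819688938399334400, .ofNat 0, .ofNat 5517981665113972631259001651200, .ofNat 0⟩)
    (by decide +kernel)
theorem L01116 : Good (Phi V4.P V4.D (-1) (-1)) ⟨9, 442, 7, 72, 2, 1, 2, 0, 4, 3⟩ :=
  leaf_sound (S := T4.ds_mm) T4.ok_mm (w := 216) (c := ⟨⟨.negSucc 1820, .ofNat 26, .negSucc 16, .ofNat 97, .ofNat 178, .ofNat 115⟩, ⟨.ofNat 1036, .negSucc 10, .ofNat 15, .negSucc 55, .negSucc 101, .negSucc 65⟩, ⟨.ofNat 1890, .negSucc 55, .ofNat 34, .negSucc 355, .negSucc 320, .negSucc 71⟩, ⟨.negSucc 2568, .ofNat 87, .negSucc 60, .negSucc 39, .ofNat 131, .ofNat 105⟩, ⟨.ofNat 301, .ofNat 78, .negSucc 64, .negSucc 323, .negSucc 239, .negSucc 117⟩, .ofNat 13520, .ofNat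 23103, .ofNat 0, .ofNat 23103, .ofNat 40628, .ofNat 0, .ofNat 38, .negSucc 313, .negSucc 471, .ofNat 0, .ofNat 182, .ofNat 270, .ofNat 0, .ofNat 0, .ofNat 624, .ofNat 14542, .ofNat 0, .ofNat 0, .ofNat 0, .ofNat 0, .ofNat 0, .ofNat 0, .ofNat 18864275926730651161769646489600, .ofNat 0, .ofNat 0, .ofNat 0, .ofNat 0, .ofNat 0, .ofNat 176517811840598365800920236570835282401689600, .ofNat 0, .ofNat 0, .ofNat 0⟩)
    (by decide +kernel)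
theorem L01117 : Good (Phi V4.P V4.D (-1) (-1)) ⟨9, 443, 7, 72, 2, 1, 2, 0, 3, 1⟩ :=
  out_sound (S := T4.ds_mm) T4.ok_mm (w := 96) (j := 3) (by decide +kernel)
theorem L01118 : Good (Phi V4.P V4.D (-1) (-1)) ⟨8, 221, 7, 73, 2, 0, 2, 0, 3, 1⟩ :=
  leaf_sound (S := T4.ds_mm) T4.ok_mm (w := 208) (c := ⟨⟨.negSucc 1924, .ofNat 37, .negSucc 43, .negSucc 16, .ofNat 232, .ofNat 191⟩, ⟨.ofNat 1102, .negSucc 16, .ofNat 32, .ofNat 10, .negSucc 133, .negSucc 109⟩, ⟨.ofNat 2214, .negSucc 69, .ofNat 71, .negSucc 101, .negSucc 474, .negSucc 216⟩, ⟨.negSucc 2831, .ofNat 72, .negSucc 64, .ofNat 11, .ofNat 290, .ofNat 249⟩, ⟨.ofNat 108, .ofNat 22, .negSucc 4, .ofNat 64, .negSucc 100, .negSucc 65⟩, .ofNat 17446, .ofNat 29814, .ofNat 0, .ofNat 29814, .ofNat 52090, .ofNat 0, .ofNat 31, .negSucc 284, .negSucc 406, .ofNat 0, .ofNat 166, .ofNat 234, .ofNat 0, .ofNat 0,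 .ofNat 611, .ofNat 5353, .ofNat 0, .ofNat 0, .ofNat 0, .ofNat 0, .ofNat 0, .ofNat 0, .ofNat 0, .ofNat 0, .ofNat 0, .ofNat 0, .ofNat 0, .ofNat 0, .ofNat 6825146889085592792076395170010794819584000, .ofNat 0, .ofNat 167214932933932913788138291200, .ofNat 0⟩)
    (by decide +kernel)
theorem L01119 : Good (Phi V4.P V4.D (-1) (-1)) ⟨9, 442, 7, 73, 2, 1, 3, 0, 4, 2⟩ :=
  leaf_sound (S := T4.ds_mm) T4.ok_mm (w := 216) (c := ⟨⟨.negSucc 1701, .ofNat 21, .negSucc 33, .ofNat 326, .ofNat 33, .negSucc 268⟩, ⟨.ofNat 973, .negSucc 7, .ofNat 24, .negSucc 187, .negSucc 18, .ofNat 154⟩, ⟨.ofNat 1781, .ofNat 1, .ofNat 6, .negSucc 636, .negSucc 110, .ofNat 279⟩, ⟨.negSucc 2421, .ofNat 28, .negSucc 32, .ofNat 322, .negSucc 1, .negSucc 394⟩, ⟨.ofNat 239, .negSucc 12, .ofNat 26, .negSucc 292, .negSucc 89, .ofNat 15⟩, .ofNat 16270, .ofNat 27804, .ofNat 0, .ofNat 27804, .ofNat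 48657, .ofNat 0, .ofNat 35, .negSucc 330, .negSucc 610, .ofNat 0, .ofNat 192, .ofNat 351, .ofNat 0, .ofNat 0, .ofNat 712, .ofNat 12974, .ofNat 0, .ofNat 0, .ofNat 0, .ofNat 0, .ofNat 0, .ofNat 0, .ofNat 0, .ofNat 0, .ofNat 0, .ofNat 0, .ofNat 0, .ofNat 0, .ofNat 0, .ofNat 0, .ofNat 0, .ofNat 0⟩)
    (by decide +kernel)
theorem L01120 : Good (Phi V4.P V4.D (-1) (-1)) ⟨9, 442, 7, 73, 2, 1, 3, 1, 4, 2⟩ :=
  leaf_sound (S := T4.ds_mm) T4.ok_mm (w := 216) (c := ⟨⟨.negSucc 1503, .negSucc 277, .ofNat 297, .ofNat 142, .ofNat 61, .negSucc 145⟩, ⟨.ofNat 859, .ofNat 164, .negSucc 165, .negSucc 81, .negSucc 34, .ofNat 84⟩, ⟨.ofNat 1511, .ofNat 246, .negSucc 264, .negSucc 414, .negSucc 135, .ofNat 161⟩, ⟨.negSucc 2189, .negSucc 377, .ofNat 412, .ofNat 44, .ofNat 22, .negSucc 223⟩, ⟨.ofNat 125, .ofNat 65, .negSucc 63, .negSucc 294, .negSucc 122, .negSucc 7⟩, .ofNat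 16258, .ofNat 27782, .ofNat 0, .ofNat 27782, .ofNat 48620, .ofNat 0, .ofNat 35, .negSucc 329, .negSucc 617, .ofNat 0, .ofNat 191, .ofNat 355, .ofNat 0, .ofNat 0, .ofNat 733, .ofNat 5605, .ofNat 0, .ofNat 0, .ofNat 746400247490452382197324185600, .ofNat 0, .ofNat 0, .ofNat 0, .ofNat 0, .ofNat 0, .ofNat 0, .ofNat 0, .ofNat 0, .ofNat 0, .ofNat 0, .ofNat 0, .ofNat 63763455058270924086517432320000, .ofNat 0⟩)
    (by decide +kernel)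
theorem L01121 : Good (Phi V4.P V4.D (-1) (-1)) ⟨9, 442, 7, 73, 2, 1, 2, 0, 4, 3⟩ :=
  leaf_sound (S := T4.ds_mm) T4.ok_mm (w := 208) (c := ⟨⟨.negSucc 1839, .ofNat 3, .negSucc 11, .ofNat 99, .ofNat 185, .ofNat 117⟩, ⟨.ofNat 1052, .ofNat 2, .ofNat 11, .negSucc 56, .negSucc 105, .negSucc 66⟩, ⟨.ofNat 1919, .negSucc 2, .ofNat 1, .negSucc 353, .negSucc 334, .negSucc 74⟩, ⟨.negSucc 2633, .ofNat 37, .negSucc 29, .negSucc 35, .ofNat 141, .ofNat 116⟩, ⟨.ofNat 230, .ofNat 50, .negSucc 24, .negSucc 319, .negSucc 237, .negSucc 104⟩, .ofNat 2264, .ofNat 3452, .ofNat 0, .ofNat 3452, .ofNat 6285, .ofNat 0, .ofNat 87, .negSucc 301, .negSucc 466, .ofNat 0, .ofNat 184, .ofNat 267, .ofNat 0, .ofNat 0, .ofNat 623, .ofNat 13394, .ofNat 0, .ofNat 0, .ofNat 0, .ofNat 0, .ofNat 0, .ofNat 0, .ofNat 0, .ofNat 0, .ofNat 0, .ofNat 0, .ofNat 0, .ofNat 0, .ofNat 0, .ofNat 0,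 .ofNat 0, .ofNat 0⟩)
    (by decide +kernel)
theorem L01122 : Good (Phi V4.P V4.D (-1) (-1)) ⟨9, 443, 7, 73, 2, 1, 2, 0, 4, 2⟩ :=
  leaf_sound (S := T4.ds_mm) T4.ok_mm (w := 216) (c := ⟨⟨.negSucc 1656, .ofNat 71, .negSucc 55, .ofNat 259, .ofNat 66, .negSucc 208⟩, ⟨.ofNat 951, .negSucc 36, .ofNat 36, .negSucc 149, .negSucc 37, .ofNat 120⟩, ⟨.ofNat 1733, .negSucc 66, .ofNat 53, .negSucc 550, .negSucc 213, .ofNat 221⟩, ⟨.negSucc 2354, .ofNat 101, .negSucc 69, .ofNat 222, .negSucc 20, .negSucc 312⟩, ⟨.ofNat 234, .negSucc 14, .ofNat 19, .negSucc 289, .negSucc 208, .ofNat 1⟩, .ofNat 6396, .ofNat 10599, .ofNat 0, .ofNat 10599, .ofNat 18671, .ofNat 0, .ofNat 53, .negSucc 330, .negSucc 613, .ofNat 0, .ofNat 194, .ofNat 353, .ofNat 0, .ofNat 0, .ofNat 718, .ofNat 6311, .ofNat 0, .ofNat 0, .ofNat 0, .ofNat 0, .ofNat 0, .ofNat 0, .ofNat 0, .ofNat 0, .ofNat 0,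 .ofNat 0, .ofNat 0, .ofNat 0, .ofNat 0, .ofNat 0, .ofNat 0, .ofNat 0⟩)
    (by decide +kernel)
theorem L01123 : Good (Phi V4.P V4.D (-1) (-1)) ⟨9, 443, 7, 73, 2, 1, 2, 0, 4, 3⟩ :=
  leaf_sound (S := T4.ds_mm) T4.ok_mm (w := 216) (c := ⟨⟨.negSucc 1862, .ofNat 10, .ofNat 4, .ofNat 102, .ofNat 192, .ofNat 127⟩, ⟨.ofNat 1070, .negSucc 0, .ofNat 2, .negSucc 58, .negSucc 110, .negSucc 73⟩, ⟨.ofNat 1932, .negSucc 9, .negSucc 6, .negSucc 352, .negSucc 336, .negSucc 71⟩, ⟨.negSucc 2638, .ofNat 22, .ofNat 10, .negSucc 34, .ofNat 149, .ofNat 116⟩, ⟨.ofNat 275, .ofNat 8, .ofNat 3, .negSucc 327, .negSucc 239, .negSucc 129⟩, .ofNat 6425, .ofNat 10648, .ofNat 0, .ofNat 10648, .ofNat 18751, .ofNat 0, .ofNat 51, .negSucc 309, .negSucc 464, .ofNat 0, .ofNat 182, .ofNat 267, .ofNat 0, .ofNat 0, .ofNat 620, .ofNat 11114, .ofNat 0, .ofNat 0, .ofNat 0, .ofNat 0, .ofNat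 0, .ofNat 0, .ofNat 0, .ofNat 0, .ofNat 0, .ofNat 0, .ofNat 0, .ofNat 0, .ofNat 0, .ofNat 0, .ofNat 0, .ofNat 0⟩)
    (by decide +kernel)
theorem L01124 : Good (Phi V4.P V4.D (-1) (-1)) ⟨8, 220, 6, 37, 1, 0, 2, 0, 3, 1⟩ :=
  out_sound (S := T4.ds_mm) T4.ok_mm (w := 88) (j := 3) (by decide +kernel)
theorem L01125 : Good (Phi V4.P V4.D (-1) (-1)) ⟨9, 442, 7, 74, 1, 0, 2, 0, 3, 1⟩ :=
  out_sound (S := T4.ds_mm) T4.ok_mm (w := 96) (j := 3) (by decide +kernel)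
theorem L01126 : Good (Phi V4.P V4.D (-1) (-1)) ⟨10, 886, 8, 148, 1, 0, 2, 0, 3, 1⟩ :=
  out_sound (S := T4.ds_mm) T4.ok_mm (w := 104) (j := 3) (by decide +kernel)
theorem L01127 : Good (Phi V4.P V4.D (-1) (-1)) ⟨10, 887, 8, 148, 1, 0, 2, 0, 3, 1⟩ :=
  out_sound (S := T4.ds_mm) T4.ok_mm (w := 32) (j := 4) (by decide +kernel)
theorem L01128 : Good (Phi V4.P V4.D (-1) (-1)) ⟨9, 443, 8, 149, 1, 0, 2, 0, 3, 1⟩ :=
  out_sound (S := T4.ds_mm) T4.ok_mm (w := 96) (j := 3) (by decide +kernel)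
theorem L01129 : Good (Phi V4.P V4.D (-1) (-1)) ⟨8, 221, 7, 75, 1, 0, 2, 0, 3, 1⟩ :=
  out_sound (S := T4.ds_mm) T4.ok_mm (w := 88) (j := 3) (by decide +kernel)
theorem L01130 : Good (Phi V4.P V4.D (-1) (-1)) ⟨7, 111, 5, 18, 1, 0, 2, 0, 3, 1⟩ :=
  out_sound (S := T4.ds_mm) T4.ok_mm (w := 24) (j := 4) (by decide +kernel)
theorem L01131 : Good (Phi V4.P V4.D (-1) (-1)) ⟨7, 110, 5, 19, 1, 0, 2, 0, 3, 1⟩ :=
  out_sound (S := T4.ds_mm) T4.ok_mm (w := 80) (j := 3) (by decide +kernel)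
theorem L01132 : Good (Phi V4.P V4.D (-1) (-1)) ⟨7, 111, 5, 19, 1, 0, 2, 0, 3, 1⟩ :=
  out_sound (S := T4.ds_mm) T4.ok_mm (w := 24) (j := 4) (by decide +kernel)
theorem L01133 : Good (Phi V4.P V4.D (-1) (-1)) ⟨3, 7, 3, 4, 1, 0, 2, 0, 3, 1⟩ :=
  out_sound (S := T4.ds_mm) T4.ok_mm (w := 16) (j := 4) (by decide +kernel)
theorem L01134 : Good (Phi V4.P V4.D (-1) (-1)) ⟨2, 2, 3, 4, 1, 0, 2, 0, 2, 1⟩ :=
  out_sound (S := T4.ds_mm) T4.ok_mm (w := 40) (j := 3) (by decide +kernel)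

end Crest.Agent.R097C4.N4mm
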