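import Crest.Agent.R097.T4

/-!
# Row 97, box cover in dimension n = 4 (generated)
-/

set_option autoImplicit false
set_option Elab.async false
set_option maxHeartbeats 0
set_option maxRecDepth 100000

open Crest.Agent.R097 Crest.Agent.R097.KA


namespace Crest.Agent.R097C4.N4mm

theorem L01135 : Good (Phi V4.P V4.D (-1) (-1)) ⟨3, 6, 3, 4, 1, 0, 2, 0, 3, 2⟩ :=
  leaf_sound (S := T4.ds_mm) T4.ok_mm (w := 160) (c := ⟨⟨.negSucc 1689, .ofNat 48, .negSucc 103, .ofNat 106, .ofNat 183, .ofNat 272⟩, ⟨.ofNat 866, .ofNat 14, .ofNat 169, .negSucc 62, .negSucc 102, .negSucc 151⟩, ⟨.ofNat 1937, .negSucc 124, .ofNat 118, .negSucc 234, .negSucc 417, .negSucc 249⟩, ⟨.negSucc 2344, .negSucc 74, .negSucc 39, .negSucc 134, .ofNat 199, .ofNat 371⟩, ⟨.ofNat 474, .negSucc 324, .ofNat 111, .negSucc 530, .negSucc 140, .negSucc 74⟩, .ofNat 1916, .ofNat 2906, .ofNat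 0, .ofNat 2906, .ofNat 5466, .ofNat 0, .ofNat 88, .negSucc 250, .negSucc 284, .ofNat 0, .ofNat 154, .ofNat 158, .ofNat 0, .ofNat 0, .ofNat 514, .ofNat 3660, .ofNat 1047380972153906628451211673600, .ofNat 0, .ofNat 23631027954727957512192000, .ofNat 0, .ofNat 22681806249619362960905129164800, .ofNat 0, .ofNat 8498387064481369298672025600, .ofNat 0, .ofNat 71225793422053579674942544281600, .ofNat 0, .ofNat 3204845569799549603964518400, .ofNat 0, .ofNat 255917479520970213824476584345600, .ofNat 0, .ofNat 2951247118721792039976960000, .ofNat 0⟩)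
    (by decide +kernel)
theorem L01136 : Good (Phi V4.P V4.D (-1) (-1)) ⟨3, 6, 3, 4, 1, 0, 2, 0, 3, 3⟩ :=
  leaf_sound (S := T4.ds_mm) T4.ok_mm (w := 168) (c := ⟨⟨.negSucc 1325, .negSucc 83, .negSucc 31, .ofNat 211, .ofNat 116, .ofNat 277⟩, ⟨.ofNat 676, .ofNat 79, .ofNat 113, .negSucc 122, .negSucc 63, .negSucc 153⟩, ⟨.ofNat 1340, .ofNat 59, .ofNat 53, .negSucc 142, .negSucc 242, .negSucc 254⟩, ⟨.negSucc 2064, .negSucc 24, .negSucc 17, .negSucc 95, .ofNat 219, .ofNat 329⟩, ⟨.negSucc 62, .ofNat 180, .negSucc 4, .negSucc 754, .ofNat 62, .negSucc 167⟩, .ofNat 1904, .ofNat 2888, .ofNat 0, .ofNat 2888, .ofNat 5441, .ofNat 0, .ofNat 159, .negSucc 448, .negSucc 428, .ofNat 0, .ofNat 275, .ofNat 237, .ofNat 0, .ofNat 0, .ofNat 919, .ofNat 14393, .ofNat 0, .ofNat 0, .ofNat 0, .ofNat 0, .ofNat 690750883012625254047295733760000, .ofNat 0, .ofNat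 36422820046448572858210713600, .ofNat 0, .ofNat 1020947585175576355267437133824000, .ofNat 0, .ofNat 21200840778214855366882099200, .ofNat 0, .ofNat 327785775559176834647034377011200, .ofNat 0, .ofNat 20248481273402697147482112000, .ofNat 0⟩)
    (by decide +kernel)
theorem L01137 : Good (Phi V4.P V4.D (-1) (-1)) ⟨3, 7, 3, 4, 1, 0, 2, 0, 2, 1⟩ :=
  out_sound (S := T4.ds_mm) T4.ok_mm (w := 16) (j := 4) (by decide +kernel)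
theorem L01138 : Good (Phi V4.P V4.D (-1) (-1)) ⟨2, 2, 3, 4, 1, 0, 2, 1, 1, 0⟩ :=
  out_sound (S := T4.ds_mm) T4.ok_mm (w := 40) (j := 3) (by decide +kernel)
theorem L01139 : Good (Phi V4.P V4.D (-1) (-1)) ⟨4, 12, 3, 4, 2, 0, 2, 1, 3, 0⟩ :=
  out_sound (S := T4.ds_mm) T4.ok_mm (w := 56) (j := 3) (by decide +kernel)
theorem L01140 : Good (Phi V4.P V4.D (-1) (-1)) ⟨5, 26, 3, 4, 2, 0, 2, 1, 3, 0⟩ :=
  out_sound (S := T4.ds_mm) T4.ok_mm (w := 64) (j := 3) (by decide +kernel)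
theorem L01141 : Good (Phi V4.P V4.D (-1) (-1)) ⟨6, 54, 4, 8, 2, 0, 2, 1, 3, 0⟩ :=
  leaf_sound (S := T4.ds_mm) T4.ok_mm (w := 184) (c := ⟨⟨.negSucc 1157, .negSucc 145, .ofNat 39, .ofNat 314, .ofNat 54, .negSucc 492⟩, ⟨.ofNat 603, .ofNat 99, .ofNat 15, .negSucc 170, .negSucc 29, .ofNat 266⟩, ⟨.ofNat 1252, .ofNat 131, .negSucc 18, .negSucc 459, .negSucc 301, .ofNat 470⟩, ⟨.negSucc 1757, .negSucc 206, .ofNat 86, .ofNat 410, .ofNat 42, .negSucc 731⟩, ⟨.ofNat 45, .negSucc 37, .ofNat 48, .negSucc 127, .negSucc 75, .ofNat 38⟩, .ofNat 1695, .ofNat 2561, .ofNat 0, .ofNat 2561, .ofNat 4962, .ofNat 0, .ofNat 117, .negSucc 294, .negSucc 536, .ofNat 0, .ofNat 181, .ofNat 287, .ofNat 0, .ofNat 0, .ofNat 727, .ofNat 1374, .ofNat 0, .ofNat 0, .ofNat 0, .ofNat 0, .ofNat 0, .ofNat 0, .ofNat 0, .ofNat 0, .ofNat 0, .ofNat 0, .ofNat 0, .ofNat 0, .ofNat 0,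 .ofNat 0, .ofNat 0, .ofNat 0⟩)
    (by decide +kernel)
theorem L01142 : Good (Phi V4.P V4.D (-1) (-1)) ⟨6, 55, 5, 16, 2, 0, 2, 1, 3, 0⟩ :=
  out_sound (S := T4.ds_mm) T4.ok_mm (w := 72) (j := 3) (by decide +kernel)
theorem L01143 : Good (Phi V4.P V4.D (-1) (-1)) ⟨6, 55, 5, 17, 2, 0, 2, 1, 4, 0⟩ :=
  leaf_sound (S := T4.ds_mm) T4.ok_mm (w := 200) (c := ⟨⟨.negSucc 1254, .negSucc 88, .negSucc 19, .ofNat 499, .negSucc 2, .negSucc 368⟩, ⟨.ofNat 691, .ofNat 61, .ofNat 30, .negSucc 281, .ofNat 1, .ofNat 208⟩, ⟨.ofNat 1397, .ofNat 158, .negSucc 12, .negSucc 691, .negSucc 253, .ofNat 358⟩, ⟨.negSucc 1858, .negSucc 98, .negSucc 31, .ofNat 652, .negSucc 58, .negSucc 524⟩, ⟨.ofNat 74, .ofNat 43, .negSucc 19, .negSucc 178, .negSucc 95, .ofNat 58⟩, .ofNat 4701, .ofNat 7780, .ofNat 0, .ofNat 7780, .ofNat 14009, .ofNat 0, .ofNat 71, .negSucc 318, .negSucc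 614, .ofNat 0, .ofNat 187, .ofNat 346, .ofNat 0, .ofNat 0, .ofNat 790, .ofNat 1911, .ofNat 0, .ofNat 0, .ofNat 0, .ofNat 0, .ofNat 0, .ofNat 0, .ofNat 70526830850671284812530896076800, .ofNat 0, .ofNat 0, .ofNat 0, .ofNat 0, .ofNat 0, .ofNat 0, .ofNat 0, .ofNat 13938605957467155522653886873600, .ofNat 0⟩)
    (by decide +kernel)
theorem L01144 : Good (Phi V4.P V4.D (-1) (-1)) ⟨6, 55, 5, 17, 2, 0, 2, 1, 4, 1⟩ :=
  leaf_sound (S := T4.ds_mm) T4.ok_mm (w := 200) (c := ⟨⟨.negSucc 1539, .ofNat 30, .negSucc 17, .ofNat 143, .ofNat 131, .negSucc 109⟩, ⟨.ofNat 848, .negSucc 3, .ofNat 34, .negSucc 80, .negSucc 73, .ofNat 62⟩, ⟨.ofNat 1604, .negSucc 81, .ofNat 28, .negSucc 267, .negSucc 374, .ofNat 95⟩, ⟨.negSucc 2286, .ofNat 79, .negSucc 29, .ofNat 169, .ofNat 149, .negSucc 164⟩, ⟨.ofNat 86, .ofNat 33, .negSucc 25, .negSucc 83, .negSucc 84, .ofNat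 0⟩, .ofNat 4672, .ofNat 7732, .ofNat 0, .ofNat 7732, .ofNat 13930, .ofNat 0, .ofNat 69, .negSucc 308, .negSucc 532, .ofNat 0, .ofNat 181, .ofNat 299, .ofNat 0, .ofNat 0, .ofNat 723, .ofNat 2941, .ofNat 0, .ofNat 0, .ofNat 0, .ofNat 0, .ofNat 0, .ofNat 0, .ofNat 68868114015986449048691697254400, .ofNat 0, .ofNat 0, .ofNat 0, .ofNat 0, .ofNat 0, .ofNat 0, .ofNat 0, .ofNat 0, .ofNat 0⟩)
    (by decide +kernel)
theorem L01145 : Good (Phi V4.P V4.D (-1) (-1)) ⟨6, 54, 4, 9, 2, 0, 2, 1, 3, 0⟩ :=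
  out_sound (S := T4.ds_mm) T4.ok_mm (w := 72) (j := 3) (by decide +kernel)
theorem L01146 : Good (Phi V4.P V4.D (-1) (-1)) ⟨7, 110, 4, 9, 2, 0, 2, 1, 3, 0⟩ :=
  leaf_sound (S := T4.ds_mm) T4.ok_mm (w := 192) (c := ⟨⟨.negSucc 1243, .negSucc 81, .ofNat 3, .ofNat 334, .ofNat 31, .negSucc 519⟩, ⟨.ofNat 697, .ofNat 69, .ofNat 12, .negSucc 191, .negSucc 17, .ofNat 297⟩, ⟨.ofNat 1346, .ofNat 86, .ofNat 13, .negSucc 492, .negSucc 284, .ofNat 488⟩, ⟨.negSucc 1870, .negSucc 86, .negSucc 31, .ofNat 447, .ofNat 16, .negSucc 761⟩, ⟨.ofNat 14, .ofNat 38, .negSucc 79, .negSucc 96, .negSucc 53, .ofNat 34⟩, .ofNat 2226, .ofNat 3392, .ofNat 0, .ofNat 3392, .ofNat 6195, .ofNat 0, .ofNat 96, .negSucc 303, .negSucc 554, .ofNat 0, .ofNat 187, .ofNat 312, .ofNat 0, .ofNat 0, .ofNat 740, .ofNat 1194, .ofNat 0, .ofNat 0, .ofNat 158644868918067944305459200, .ofNat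 0, .ofNat 0, .ofNat 0, .ofNat 0, .ofNat 0, .ofNat 0, .ofNat 0, .ofNat 0, .ofNat 0, .ofNat 0, .ofNat 0, .ofNat 26373273417014534652454502400, .ofNat 0⟩)
    (by decide +kernel)
theorem L01147 : Good (Phi V4.P V4.D (-1) (-1)) ⟨7, 111, 4, 9, 2, 0, 2, 1, 3, 0⟩ :=
  out_sound (S := T4.ds_mm) T4.ok_mm (w := 24) (j := 4) (by decide +kernel)
theorem L01148 : Good (Phi V4.P V4.D (-1) (-1)) ⟨3, 7, 3, 4, 2, 0, 2, 1, 3, 0⟩ :=
  out_sound (S := T4.ds_mm) T4.ok_mm (w := 16) (j := 4) (by decide +kernel)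
theorem L01149 : Good (Phi V4.P V4.D (-1) (-1)) ⟨4, 12, 3, 4, 2, 1, 2, 1, 3, 0⟩ :=
  out_sound (S := T4.ds_mm) T4.ok_mm (w := 56) (j := 3) (by decide +kernel)
theorem L01150 : Good (Phi V4.P V4.D (-1) (-1)) ⟨5, 26, 3, 4, 2, 1, 2, 1, 3, 0⟩ :=
  out_sound (S := T4.ds_mm) T4.ok_mm (w := 64) (j := 3) (by decide +kernel)
theorem L01151 : Good (Phi V4.P V4.D (-1) (-1)) ⟨5, 27, 4, 8, 2, 1, 2, 1, 4, 0⟩ :=
  leaf_sound (S := T4.ds_mm) T4.ok_mm (w := 192) (c := ⟨⟨.negSucc 75, .negSucc 925, .ofNat 629, .ofNat 1280, .negSucc 487, .negSucc 1091⟩, ⟨.ofNat 31, .ofNat 447, .negSucc 295, .negSucc 707, .ofNat 269, .ofNat 600⟩, ⟨.negSucc 7, .ofNat 717, .negSucc 511, .negSucc 1303, .ofNat 239, .ofNat 1057⟩, ⟨.negSucc 244, .negSucc 1299, .ofNat 857, .ofNat 1534, .negSucc 773, .negSucc 1509⟩, ⟨.negSucc 254, .ofNat 298, .negSucc 201, .negSucc 755, .negSucc 64,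 .ofNat 276⟩, .ofNat 1776, .ofNat 2688, .ofNat 0, .ofNat 2688, .ofNat 5146, .ofNat 0, .ofNat 119, .negSucc 338, .negSucc 849, .ofNat 0, .ofNat 204, .ofNat 463, .ofNat 0, .ofNat 0, .ofNat 938, .ofNat 1188, .ofNat 0, .ofNat 0, .ofNat 77412637329161714910049075200, .ofNat 0, .ofNat 0, .ofNat 0, .ofNat 34575275129211933714114674688000, .ofNat 0, .ofNat 0, .ofNat 0, .ofNat 16821850003014831783169071513600, .ofNat 0, .ofNat 0, .ofNat 0, .ofNat 22372744826271400547700650803200, .ofNat 0⟩)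
    (by decide +kernel)
theorem L01152 : Good (Phi V4.P V4.D (-1) (-1)) ⟨5, 27, 4, 8, 2, 1, 2, 1, 4, 1⟩ :=
  leaf_sound (S := T4.ds_mm) T4.ok_mm (w := 192) (c := ⟨⟨.negSucc 1000, .ofNat 87, .negSucc 150, .ofNat 424, .negSucc 47, .negSucc 536⟩, ⟨.ofNat 519, .negSucc 23, .ofNat 123, .negSucc 234, .ofNat 23, .ofNat 293⟩, ⟨.ofNat 889, .negSucc 10, .ofNat 100, .negSucc 586, .negSucc 131, .ofNat 530⟩, ⟨.negSucc 1560, .ofNat 122, .negSucc 193, .ofNat 404, .negSucc 166, .negSucc 750⟩, ⟨.negSucc 50, .negSucc 86, .ofNat 63, .negSucc 442, .negSucc 168, .ofNat 121⟩, .ofNat 1738, .ofNat 2625, .ofNat 0, .ofNat 2625, .ofNat 5049, .ofNat 0, .ofNat 118, .negSucc 326, .negSucc 725, .ofNat 0, .ofNat 197, .ofNat 395, .ofNat 0, .ofNat 0, .ofNat 838, .ofNat 1463, .ofNat 0, .ofNat 0, .ofNat 0, .ofNat 0, .ofNat 0, .ofNat 0, .ofNat 38958229434296404375570376294400,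 .ofNat 0, .ofNat 0, .ofNat 0, .ofNat 14064543971337395454111173836800, .ofNat 0, .ofNat 0, .ofNat 0, .ofNat 12653575875611153840592440524800, .ofNat 0⟩)
    (by decide +kernel)
theorem L01153 : Good (Phi V4.P V4.D (-1) (-1)) ⟨6, 54, 4, 9, 2, 1, 2, 1, 3, 0⟩ :=
  out_sound (S := T4.ds_mm) T4.ok_mm (w := 72) (j := 3) (by decide +kernel)
theorem L01154 : Good (Phi V4.P V4.D (-1) (-1)) ⟨7, 110, 6, 36, 2, 1, 2, 1, 4, 0⟩ :=
  leaf_sound (S := T4.ds_mm) T4.ok_mm (w := 208) (c := ⟨⟨.negSucc 171, .ofNat 229, .negSucc 70, .ofNat 1711, .negSucc 549, .negSucc 1451⟩, ⟨.ofNat 94, .negSucc 124, .ofNat 41, .negSucc 981, .ofNat 315, .ofNat 833⟩, ⟨.ofNat 75, .negSucc 227, .ofNat 71, .negSucc 1682, .ofNat 301, .ofNat 1358⟩, ⟨.negSucc 386, .ofNat 314, .negSucc 103, .ofNat 2055, .negSucc 858, .negSucc 1957⟩, ⟨.negSucc 223, .negSucc 58, .ofNat 18, .negSucc 902,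 .negSucc 56, .ofNat 391⟩, .ofNat 5798, .ofNat 9605, .ofNat 0, .ofNat 9605, .ofNat 17027, .ofNat 0, .ofNat 62, .negSucc 354, .negSucc 919, .ofNat 0, .ofNat 208, .ofNat 526, .ofNat 0, .ofNat 0, .ofNat 985, .ofNat 1062, .ofNat 0, .ofNat 0, .ofNat 0, .ofNat 0, .ofNat 0, .ofNat 0, .ofNat 0, .ofNat 0, .ofNat 0, .ofNat 0, .ofNat 0, .ofNat 0, .ofNat 0, .ofNat 0, .ofNat 0, .ofNat 0⟩)
    (by decide +kernel)
theorem L01155 : Good (Phi V4.P V4.D (-1) (-1)) ⟨7, 110, 6, 36, 2, 1, 2, 1, 4, 1⟩ :=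
  leaf_sound (S := T4.ds_mm) T4.ok_mm (w := 200) (c := ⟨⟨.negSucc 813, .negSucc 491, .ofNat 190, .ofNat 410, .negSucc 50, .negSucc 668⟩, ⟨.ofNat 456, .ofNat 289, .negSucc 98, .negSucc 234, .ofNat 29, .ofNat 383⟩, ⟨.ofNat 716, .ofNat 472, .negSucc 186, .negSucc 590, .negSucc 123, .ofNat 649⟩, ⟨.negSucc 1299, .negSucc 646, .ofNat 256, .ofNat 367, .negSucc 174, .negSucc 908⟩, ⟨.negSucc 122, .ofNat 151, .negSucc 55, .negSucc 436, .negSucc 171, .ofNat 169⟩, .ofNat 5692, .ofNat 9430, .ofNat 0, .ofNat 9430, .ofNat 16736, .ofNat 0, .ofNat 62, .negSucc 344, .negSucc 782, .ofNat 0, .ofNat 202, .ofNat 447, .ofNat 0, .ofNat 0, .ofNat 880, .ofNat 1903, .ofNat 0, .ofNat 0, .ofNat 0, .ofNat 0, .ofNat 0, .ofNat 0, .ofNat 0, .ofNat 0, .ofNat 0, .ofNat 0, .ofNat 0, .ofNat 0, .ofNat 0, .ofNat 0, .ofNat 9734924355569543341394834227200, .ofNat 0⟩)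
    (by decide +kernel)
theorem L01156 : Good (Phi V4.P V4.D (-1) (-1)) ⟨8, 220, 6, 37, 2, 1, 2, 1, 3, 0⟩ :=
  out_sound (S := T4.ds_mm) T4.ok_mm (w := 88) (j := 3) (by decide +kernel)
theorem L01157 : Good (Phi V4.P V4.D (-1) (-1)) ⟨9, 442, 7, 74, 2, 1, 2, 1, 3, 0⟩ :=
  out_sound (S := T4.ds_mm) T4.ok_mm (w := 96) (j := 3) (by decide +kernel)
theorem L01158 : Good (Phi V4.P V4.D (-1) (-1)) ⟨10, 886, 8, 148, 2, 1, 2, 1, 3, 0⟩ :=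
  out_sound (S := T4.ds_mm) T4.ok_mm (w := 104) (j := 3) (by decide +kernel)
theorem L01159 : Good (Phi V4.P V4.D (-1) (-1)) ⟨10, 887, 8, 148, 2, 1, 2, 1, 3, 0⟩ :=
  out_sound (S := T4.ds_mm) T4.ok_mm (w := 32) (j := 4) (by decide +kernel)
theorem L01160 : Good (Phi V4.P V4.D (-1) (-1)) ⟨9, 443, 8, 149, 2, 1, 2, 1, 3, 0⟩ :=
  out_sound (S := T4.ds_mm) T4.ok_mm (w := 96) (j := 3) (by decide +kernel)
theorem L01161 : Good (Phi V4.P V4.D (-1) (-1)) ⟨8, 221, 7, 75, 2, 1, 2, 1, 3, 0⟩ :=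
  out_sound (S := T4.ds_mm) T4.ok_mm (w := 88) (j := 3) (by decide +kernel)
theorem L01162 : Good (Phi V4.P V4.D (-1) (-1)) ⟨7, 111, 5, 18, 2, 1, 2, 1, 3, 0⟩ :=
  out_sound (S := T4.ds_mm) T4.ok_mm (w := 24) (j := 4) (by decide +kernel)
theorem L01163 : Good (Phi V4.P V4.D (-1) (-1)) ⟨7, 110, 5, 19, 2, 1, 2, 1, 3, 0⟩ :=
  out_sound (S := T4.ds_mm) T4.ok_mm (w := 80) (j := 3) (by decide +kernel)
theorem L01164 : Good (Phi V4.P V4.D (-1) (-1)) ⟨7, 111, 5, 19, 2, 1, 2, 1, 3, 0⟩ :=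
  out_sound (S := T4.ds_mm) T4.ok_mm (w := 24) (j := 4) (by decide +kernel)
theorem L01165 : Good (Phi V4.P V4.D (-1) (-1)) ⟨3, 7, 3, 4, 2, 1, 2, 1, 3, 0⟩ :=
  out_sound (S := T4.ds_mm) T4.ok_mm (w := 16) (j := 4) (by decide +kernel)
theorem L01166 : Good (Phi V4.P V4.D (-1) (-1)) ⟨4, 12, 3, 4, 1, 0, 2, 1, 3, 1⟩ :=
  out_sound (S := T4.ds_mm) T4.ok_mm (w := 56) (j := 3) (by decide +kernel)
theorem L01167 : Good (Phi V4.P V4.D (-1) (-1)) ⟨5, 26, 3, 4, 1, 0, 2, 1, 3, 1⟩ :=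
  out_sound (S := T4.ds_mm) T4.ok_mm (w := 64) (j := 3) (by decide +kernel)
theorem L01168 : Good (Phi V4.P V4.D (-1) (-1)) ⟨5, 27, 3, 4, 2, 0, 2, 1, 3, 1⟩ :=
  leaf_sound (S := T4.ds_mm) T4.ok_mm (w := 184) (c := ⟨⟨.negSucc 1572, .negSucc 41, .negSucc 124, .ofNat 17, .ofNat 190, .ofNat 123⟩, ⟨.ofNat 826, .ofNat 67, .ofNat 150, .negSucc 9, .negSucc 105, .negSucc 67⟩, ⟨.ofNat 1594, .negSucc 50, .ofNat 224, .negSucc 74, .negSucc 417, .negSucc 150⟩, ⟨.negSucc 2386, .ofNat 18, .negSucc 189, .negSucc 19, .ofNat 246, .ofNat 170⟩, ⟨.ofNat 50, .ofNat 55, .negSucc 45, .negSucc 80, .negSucc 75, .negSucc 31⟩, .ofNat 1868, .ofNat 2832, .ofNat 0, .ofNat 2832, .ofNat 5357, .ofNat 0, .ofNat 100, .negSucc 274, .negSucc 413, .ofNat 0, .ofNat 169, .ofNat 226, .ofNat 0, .ofNat 0, .ofNat 624, .ofNat 2899, .ofNat 0, .ofNat 0, .ofNat 2264235359419867545678643200,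 .ofNat 0, .ofNat 0, .ofNat 0, .ofNat 1010940367389592485378392064000, .ofNat 0, .ofNat 0, .ofNat 0, .ofNat 0, .ofNat 0, .ofNat 0, .ofNat 0, .ofNat 354335099105192236614785433600, .ofNat 0⟩)
    (by decide +kernel)
theorem L01169 : Good (Phi V4.P V4.D (-1) (-1)) ⟨5, 27, 4, 8, 2, 1, 3, 2, 3, 1⟩ :=
  leaf_sound (S := T4.ds_mm) T4.ok_mm (w := 184) (c := ⟨⟨.negSucc 1545, .ofNat 71, .negSucc 87, .ofNat 79, .ofNat 96, .ofNat 64⟩, ⟨.ofNat 811, .negSucc 13, .ofNat 100, .negSucc 47, .negSucc 52, .negSucc 36⟩, ⟨.ofNat 1428, .negSucc 206, .ofNat 148, .negSucc 265, .negSucc 167, .ofNat 5⟩, ⟨.negSucc 2324, .ofNat 239, .negSucc 160, .negSucc 85, .ofNat 81, .ofNat 16⟩, ⟨.ofNat 85, .ofNat 138, .negSucc 51, .negSucc 380, .negSucc 117, .negSucc 149⟩, .ofNat 1765, .ofNat 2672, .ofNat 0, .ofNat 2672, .ofNat 5126, .ofNat 0, .ofNat 108, .negSucc 302, .negSucc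 511, .ofNat 0, .ofNat 183, .ofNat 280, .ofNat 0, .ofNat 0, .ofNat 663, .ofNat 3927, .ofNat 0, .ofNat 0, .ofNat 58418123416627918520136499200, .ofNat 0, .ofNat 0, .ofNat 0, .ofNat 18146426404478251619694359347200, .ofNat 0, .ofNat 0, .ofNat 0, .ofNat 8090889216379615558439534592000, .ofNat 0, .ofNat 0, .ofNat 0, .ofNat 5224675174866964836986860339200, .ofNat 0⟩)
    (by decide +kernel)
theorem L01170 : Good (Phi V4.P V4.D (-1) (-1)) ⟨5, 27, 4, 9, 2, 1, 3, 2, 3, 1⟩ :=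
  leaf_sound (S := T4.ds_mm) T4.ok_mm (w := 192) (c := ⟨⟨.negSucc 1653, .ofNat 8, .negSucc 35, .ofNat 84, .ofNat 127, .ofNat 91⟩, ⟨.ofNat 923, .ofNat 22, .ofNat 73, .negSucc 48, .negSucc 72, .negSucc 52⟩, ⟨.ofNat 1534, .negSucc 15, .ofNat 34, .negSucc 290, .negSucc 195, .negSucc 29⟩, ⟨.negSucc 2449, .ofNat 42, .negSucc 6, .negSucc 79, .ofNat 117, .ofNat 53⟩, ⟨.ofNat 85, .ofNat 26, .ofNat 38, .negSucc 360, .negSucc 127, .negSucc 146⟩, .ofNat 5710, .ofNat 9459, .ofNat 0, .ofNat 9459, .ofNat 16784, .ofNat 0, .ofNat 57, .negSucc 315, .negSucc 529, .ofNat 0, .ofNat 186, .ofNat 303, .ofNat 0, .ofNat 0, .ofNat 678, .ofNat 2421, .ofNat 0, .ofNat 0, .ofNat 32390517703491714023424000000, .ofNat 0, .ofNat 0, .ofNat 0, .ofNat 29446544225305964409623307878400, .ofNat 0, .ofNat 0, .ofNat 0, .ofNat 0, .ofNat 0, .ofNat 0, .ofNat 0, .ofNat 0, .ofNat 0⟩)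
    (by decide +kernel)
theorem L01171 : Good (Phi V4.P V4.D (-1) (-1)) ⟨5, 27, 3, 4, 2, 1, 3, 3, 3, 1⟩ :=
  leaf_sound (S := T4.ds_mm) T4.ok_mm (w := 184) (c := ⟨⟨.negSucc 1498, .negSucc 41, .negSucc 68, .ofNat 103, .ofNat 142, .ofNat 143⟩, ⟨.ofNat 785, .ofNat 58, .ofNat 126, .negSucc 60, .negSucc 78, .negSucc 78⟩, ⟨.ofNat 1294, .negSucc 26, .ofNat 121, .negSucc 256, .negSucc 213, .negSucc 77⟩, ⟨.negSucc 2305, .ofNat 31, .negSucc 147, .negSucc 77, .ofNat 155, .ofNat 155⟩, ⟨.negSucc 20, .ofNat 108, .negSucc 101, .negSucc 427, .negSucc 110, .negSucc 116⟩, .ofNat 1806, .ofNat 2735, .ofNat 0, .ofNat 2735, .ofNat 5213, .ofNat 0, .ofNat 107, .negSucc 303, .negSucc 535, .ofNat 0, .ofNat 184, .ofNat 294, .ofNat 0, .ofNat 0, .ofNat 692, .ofNat 1276, .ofNat 0, .ofNat 0, .ofNat 23436915663928735297437696000, .ofNat 0, .ofNat 0, .ofNat 0, .ofNat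 8341331893543274845420545638400, .ofNat 0, .ofNat 0, .ofNat 0, .ofNat 2940159572051004243663283814400, .ofNat 0, .ofNat 0, .ofNat 0, .ofNat 0, .ofNat 0⟩)
    (by decide +kernel)
theorem L01172 : Good (Phi V4.P V4.D (-1) (-1)) ⟨3, 7, 3, 4, 1, 0, 2, 1, 3, 1⟩ :=
  out_sound (S := T4.ds_mm) T4.ok_mm (w := 16) (j := 4) (by decide +kernel)
theorem L01173 : Good (Phi V4.P V4.D (-1) (-1)) ⟨4, 12, 3, 4, 1, 0, 2, 1, 2, 1⟩ :=
  out_sound (S := T4.ds_mm) T4.ok_mm (w := 56) (j := 3) (by decide +kernel)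
theorem L01174 : Good (Phi V4.P V4.D (-1) (-1)) ⟨4, 13, 3, 4, 2, 0, 2, 1, 3, 2⟩ :=
  leaf_sound (S := T4.ds_mm) T4.ok_mm (w := 176) (c := ⟨⟨.negSucc 1436, .negSucc 51, .negSucc 67, .ofNat 55, .ofNat 168, .ofNat 241⟩, ⟨.ofNat 732, .ofNat 78, .ofNat 123, .negSucc 32, .negSucc 92, .negSucc 132⟩, ⟨.ofNat 1377, .ofNat 2, .ofNat 99, .negSucc 9, .negSucc 352, .negSucc 272⟩, ⟨.negSucc 2193, .negSucc 21, .negSucc 64, .negSucc 16, .ofNat 222, .ofNat 338⟩, ⟨.ofNat 70, .negSucc 8, .ofNat 6, .negSucc 182, .negSucc 60, .negSucc 48⟩, .ofNat 1851, .ofNat 2804, .ofNat 0, .ofNat 2804, .ofNat 5314, .ofNat 0, .ofNat 90, .negSucc 243, .negSucc 294, .ofNat 0, .ofNat 150, .ofNat 160, .ofNat 0, .ofNat 0, .ofNat 525, .ofNat 5911, .ofNat 0, .ofNat 0, .ofNat 0, .ofNat 0, .ofNat 0, .ofNat 0, .ofNat 2736048052050274010050383052800, .ofNat 0, .ofNat 0, .ofNat 0, .ofNat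 726033469218106162722059059200, .ofNat 0, .ofNat 0, .ofNat 0, .ofNat 976696889109161768235565056000, .ofNat 0⟩)
    (by decide +kernel)
theorem L01175 : Good (Phi V4.P V4.D (-1) (-1)) ⟨4, 13, 3, 4, 2, 1, 2, 1, 3, 2⟩ :=
  leaf_sound (S := T4.ds_mm) T4.ok_mm (w := 176) (c := ⟨⟨.negSucc 1430, .negSucc 246, .ofNat 89, .ofNat 227, .ofNat 314, .ofNat 334⟩, ⟨.ofNat 738, .ofNat 167, .ofNat 48, .negSucc 129, .negSucc 174, .negSucc 185⟩, ⟨.ofNat 1344, .ofNat 202, .negSucc 85, .negSucc 301, .negSucc 453, .negSucc 269⟩, ⟨.negSucc 2202, .negSucc 294, .ofNat 113, .ofNat 29, .ofNat 374, .ofNat 412⟩, ⟨.ofNat 3, .ofNat 56, .negSucc 46, .negSucc 568, .negSucc 183, .negSucc 168⟩, .ofNat 1875, .ofNat 2843, .ofNat 0, .ofNat 2843, .ofNat 5372, .ofNat 0, .ofNat 93, .negSucc 267, .negSucc 347, .ofNat 0, .ofNat 163, .ofNat 193, .ofNat 0, .ofNat 0, .ofNat 543,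 .ofNat 4137, .ofNat 0, .ofNat 0, .ofNat 0, .ofNat 0, .ofNat 0, .ofNat 0, .ofNat 2991590830088449381599333580800, .ofNat 0, .ofNat 0, .ofNat 0, .ofNat 1147843445360311123715712614400, .ofNat 0, .ofNat 0, .ofNat 0, .ofNat 0, .ofNat 0⟩)
    (by decide +kernel)
theorem L01176 : Good (Phi V4.P V4.D (-1) (-1)) ⟨4, 13, 3, 4, 1, 0, 2, 1, 3, 3⟩ :=
  leaf_sound (S := T4.ds_mm) T4.ok_mm (w := 168) (c := ⟨⟨.negSucc 1258, .negSucc 232, .ofNat 81, .ofNat 428, .ofNat 238, .ofNat 212⟩, ⟨.ofNat 647, .ofNat 166, .ofNat 28, .negSucc 243, .negSucc 131, .negSucc 116⟩, ⟨.ofNat 1036, .ofNat 367, .negSucc 146, .negSucc 342, .negSucc 381, .negSucc 187⟩, ⟨.negSucc 1996, .negSucc 10, .negSucc 30, .ofNat 140, .ofNat 316, .ofNat 302⟩, ⟨.negSucc 106, .ofNat 557, .negSucc 281, .negSucc 926, .negSucc 85, .negSucc 36⟩, .ofNat 1829, .ofNat 2769, .ofNat 0, .ofNat 2769,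 .ofNat 5260, .ofNat 0, .ofNat 163, .negSucc 445, .negSucc 463, .ofNat 0, .ofNat 273, .ofNat 254, .ofNat 0, .ofNat 0, .ofNat 912, .ofNat 4851, .ofNat 0, .ofNat 0, .ofNat 43861212943790890637721600, .ofNat 0, .ofNat 0, .ofNat 0, .ofNat 21623712249789243890388172800, .ofNat 0, .ofNat 0, .ofNat 0, .ofNat 11311643171004977106439372800, .ofNat 0, .ofNat 0, .ofNat 0, .ofNat 0, .ofNat 0⟩)
    (by decide +kernel)
theorem L01177 : Good (Phi V4.P V4.D (-1) (-1)) ⟨3, 7, 3, 4, 1, 0, 2, 1, 2, 1⟩ :=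
  out_sound (S := T4.ds_mm) T4.ok_mm (w := 16) (j := 4) (by decide +kernel)
theorem L01178 : Good (Phi V4.P V4.D (-1) (-1)) ⟨2, 2, 3, 5, 1, 0, 1, 0, 1, 0⟩ :=
  out_sound (S := T4.ds_mm) T4.ok_mm (w := 40) (j := 3) (by decide +kernel)
theorem L01179 : Good (Phi V4.P V4.D (-1) (-1)) ⟨3, 6, 3, 5, 1, 0, 1, 0, 1, 0⟩ :=
  out_sound (S := T4.ds_mm) T4.ok_mm (w := 48) (j := 3) (by decide +kernel)
theorem L01180 : Good (Phi V4.P V4.D (-1) (-1)) ⟨3, 7, 3, 5, 1, 0, 1, 0, 1, 0⟩ :=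
  out_sound (S := T4.ds_mm) T4.ok_mm (w := 16) (j := 4) (by decide +kernel)
theorem L01181 : Good (Phi V4.P V4.D (-1) (-1)) ⟨2, 2, 2, 3, 1, 0, 1, 0, 1, 0⟩ :=
  out_sound (S := T4.ds_mm) T4.ok_mm (w := 40) (j := 3) (by decide +kernel)
theorem L01182 : Good (Phi V4.P V4.D (-1) (-1)) ⟨3, 6, 2, 3, 1, 0, 1, 0, 1, 0⟩ :=
  out_sound (S := T4.ds_mm) T4.ok_mm (w := 48) (j := 3) (by decide +kernel)
theorem L01183 : Good (Phi V4.P V4.D (-1) (-1)) ⟨3, 7, 2, 3, 1, 0, 1, 0, 1, 0⟩ :=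
  out_sound (S := T4.ds_mm) T4.ok_mm (w := 16) (j := 4) (by decide +kernel)
theorem L01184 : Good (Phi V4.P V4.D (-1) (-1)) ⟨2, 2, 1, 1, 1, 0, 2, 2, 3, 0⟩ :=
  out_sound (S := T4.ds_mm) T4.ok_mm (w := 40) (j := 3) (by decide +kernel)
theorem L01185 : Good (Phi V4.P V4.D (-1) (-1)) ⟨4, 12, 2, 2, 1, 0, 2, 2, 3, 0⟩ :=
  out_sound (S := T4.ds_mm) T4.ok_mm (w := 56) (j := 3) (by decide +kernel)
theorem L01186 : Good (Phi V4.P V4.D (-1) (-1)) ⟨5, 26, 2, 2, 1, 0, 2, 2, 3, 0⟩ :=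
  out_sound (S := T4.ds_mm) T4.ok_mm (w := 56) (j := 3) (by decide +kernel)
theorem L01187 : Good (Phi V4.P V4.D (-1) (-1)) ⟨5, 27, 3, 4, 2, 0, 2, 2, 3, 0⟩ :=
  leaf_sound (S := T4.ds_mm) T4.ok_mm (w := 184) (c := ⟨⟨.negSucc 1278, .negSucc 138, .negSucc 23, .ofNat 202, .ofNat 119, .negSucc 159⟩, ⟨.ofNat 669, .ofNat 116, .ofNat 83, .negSucc 113, .negSucc 65, .ofNat 88⟩, ⟨.ofNat 1053, .ofNat 95, .ofNat 64, .negSucc 269, .negSucc 354, .ofNat 188⟩, ⟨.negSucc 1945, .negSucc 133, .negSucc 45, .ofNat 162, .ofNat 142, .negSucc 228⟩, ⟨.ofNat 33, .ofNat 38, .negSucc 24, .negSucc 264, .negSucc 69, .ofNat 26⟩, .ofNat 1806, .ofNat 2733, .ofNat 0, .ofNat 2733, .ofNat 5211, .ofNat 0, .ofNat 121, .negSucc 320, .negSucc 605, .ofNat 0, .ofNat 197, .ofNat 328, .ofNat 0, .ofNat 0, .ofNat 801, .ofNat 615, .ofNat 0, .ofNat 0, .ofNat 0, .ofNat 0, .ofNat 0, .ofNat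 0, .ofNat 1038066225175816827949390233600, .ofNat 0, .ofNat 0, .ofNat 0, .ofNat 0, .ofNat 0, .ofNat 0, .ofNat 0, .ofNat 0, .ofNat 0⟩)
    (by decide +kernel)
theorem L01188 : Good (Phi V4.P V4.D (-1) (-1)) ⟨6, 54, 3, 4, 2, 1, 2, 2, 4, 0⟩ :=
  leaf_sound (S := T4.ds_mm) T4.ok_mm (w := 192) (c := ⟨⟨.negSucc 678, .ofNat 640, .negSucc 1105, .ofNat 917, .negSucc 213, .negSucc 734⟩, ⟨.ofNat 352, .negSucc 359, .ofNat 686, .negSucc 506, .ofNat 115, .ofNat 403⟩, ⟨.ofNat 312, .negSucc 582, .ofNat 985, .negSucc 962, .ofNat 20, .ofNat 754⟩, ⟨.negSucc 1186, .ofNat 853, .negSucc 1486, .ofNat 1027, .negSucc 369, .negSucc 1005⟩, ⟨.negSucc 292, .negSucc 182, .ofNat 312, .negSucc 679, .negSucc 84, .ofNat 203⟩, .ofNat 1728, .ofNat 2611, .ofNat 0, .ofNat 2611, .ofNat 5031, .ofNat 0, .ofNat 65, .negSucc 177, .negSucc 456, .ofNat 0, .ofNat 107, .ofNat 247,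 .ofNat 0, .ofNat 0, .ofNat 513, .ofNat 583, .ofNat 0, .ofNat 0, .ofNat 0, .ofNat 0, .ofNat 0, .ofNat 0, .ofNat 0, .ofNat 0, .ofNat 0, .ofNat 0, .ofNat 678441127733142664878489600000, .ofNat 0, .ofNat 0, .ofNat 0, .ofNat 579035517589510483872212582400, .ofNat 0⟩)
    (by decide +kernel)
theorem L01189 : Good (Phi V4.P V4.D (-1) (-1)) ⟨6, 54, 3, 4, 2, 1, 2, 2, 4, 1⟩ :=
  leaf_sound (S := T4.ds_mm) T4.ok_mm (w := 192) (c := ⟨⟨.negSucc 1186, .negSucc 194, .ofNat 251, .ofNat 328, .ofNat 264, .negSucc 191⟩, ⟨.ofNat 619, .ofNat 122, .negSucc 68, .negSucc 183, .negSucc 145, .ofNat 104⟩, ⟨.ofNat 848, .ofNat 166, .negSucc 214, .negSucc 415, .negSucc 403, .ofNat 224⟩, ⟨.negSucc 1905, .negSucc 233, .ofNat 289, .ofNat 224, .ofNat 294, .negSucc 266⟩, ⟨.negSucc 163, .ofNat 77, .negSucc 124, .negSucc 512, .negSucc 198, .ofNat 51⟩, .ofNat 1706, .ofNat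 2578, .ofNat 0, .ofNat 2578, .ofNat 4986, .ofNat 0, .ofNat 127, .negSucc 342, .negSucc 819, .ofNat 0, .ofNat 207, .ofNat 442, .ofNat 0, .ofNat 0, .ofNat 936, .ofNat 1870, .ofNat 0, .ofNat 0, .ofNat 0, .ofNat 0, .ofNat 0, .ofNat 0, .ofNat 0, .ofNat 0, .ofNat 0, .ofNat 0, .ofNat 2796120234889822553276783001600, .ofNat 0, .ofNat 0, .ofNat 0, .ofNat 0, .ofNat 0⟩)
    (by decide +kernel)
theorem L01190 : Good (Phi V4.P V4.D (-1) (-1)) ⟨6, 55, 5, 16, 2, 1, 2, 2, 3, 0⟩ :=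
  out_sound (S := T4.ds_mm) T4.ok_mm (w := 72) (j := 3) (by decide +kernel)
theorem L01191 : Good (Phi V4.P V4.D (-1) (-1)) ⟨8, 220, 5, 17, 2, 1, 2, 2, 3, 0⟩ :=
  leaf_sound (S := T4.ds_mm) T4.ok_mm (w := 200) (c := ⟨⟨.negSucc 690, .negSucc 143, .ofNat 218, .ofNat 899, .negSucc 157, .negSucc 1011⟩, ⟨.ofNat 373, .ofNat 82, .negSucc 105, .negSucc 509, .ofNat 89, .ofNat 572⟩, ⟨.ofNat 287, .ofNat 113, .negSucc 157, .negSucc 938, .negSucc 29, .ofNat 1072⟩, ⟨.negSucc 1201, .negSucc 201, .ofNat 290, .ofNat 974, .negSucc 286, .negSucc 1378⟩, ⟨.negSucc 290, .ofNat 27, .negSucc 58, .negSucc 677, .negSucc 84, .ofNat 263⟩, .ofNat 9314, .ofNat 15910, .ofNat 0, .ofNat 15910, .ofNat 28349, .ofNat 0, .ofNat 59, .negSucc 368, .negSucc 894, .ofNat 0, .ofNat 213, .ofNat 505, .ofNat 0, .ofNat 0, .ofNat 1005, .ofNat 1127, .ofNat 0, .ofNat 0, .ofNat 0, .ofNat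 0, .ofNat 0, .ofNat 0, .ofNat 294913747852561079319763353600, .ofNat 0, .ofNat 0, .ofNat 0, .ofNat 179476215597154792802510438400, .ofNat 0, .ofNat 0, .ofNat 0, .ofNat 34980929017560244241930649600, .ofNat 0⟩)
    (by decide +kernel)
theorem L01192 : Good (Phi V4.P V4.D (-1) (-1)) ⟨8, 221, 5, 17, 2, 1, 2, 2, 3, 0⟩ :=
  out_sound (S := T4.ds_mm) T4.ok_mm (w := 80) (j := 3) (by decide +kernel)
theorem L01193 : Good (Phi V4.P V4.D (-1) (-1)) ⟨7, 111, 5, 17, 2, 1, 2, 2, 3, 0⟩ :=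
  out_sound (S := T4.ds_mm) T4.ok_mm (w := 80) (j := 3) (by decide +kernel)
theorem L01194 : Good (Phi V4.P V4.D (-1) (-1)) ⟨7, 110, 5, 18, 2, 1, 2, 2, 3, 0⟩ :=
  leaf_sound (S := T4.ds_mm) T4.ok_mm (w := 200) (c := ⟨⟨.negSucc 760, .ofNat 239, .negSucc 339, .ofNat 784, .ofNat 134, .negSucc 973⟩, ⟨.ofNat 427, .negSucc 125, .ofNat 203, .negSucc 449, .negSucc 76, .ofNat 558⟩, ⟨.ofNat 368, .negSucc 174, .ofNat 272, .negSucc 849, .negSucc 303, .ofNat 1042⟩, ⟨.negSucc 1287, .ofNat 283, .negSucc 429, .ofNat 811, .ofNat 108, .negSucc 1316⟩, ⟨.negSucc 251, .negSucc 138, .ofNat 152, .negSucc 640, .negSucc 161, .ofNat 258⟩, .ofNat 5792, .ofNat 9595, .ofNat 0, .ofNat 9595, .ofNat 17009, .ofNat 0, .ofNat 33, .negSucc 184, .negSucc 459, .ofNat 0, .ofNat 108, .ofNat 263, .ofNat 0, .ofNat 0, .ofNat 514, .ofNat 397, .ofNat 0, .ofNat 0, .ofNat 1279953581264383084226150400,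 .ofNat 0, .ofNat 0, .ofNat 0, .ofNat 0, .ofNat 0, .ofNat 0, .ofNat 0, .ofNat 0, .ofNat 0, .ofNat 0, .ofNat 0, .ofNat 0, .ofNat 0⟩)
    (by decide +kernel)
theorem L01195 : Good (Phi V4.P V4.D (-1) (-1)) ⟨7, 111, 5, 18, 2, 1, 2, 2, 3, 0⟩ :=
  out_sound (S := T4.ds_mm) T4.ok_mm (w := 24) (j := 4) (by decide +kernel)
theorem L01196 : Good (Phi V4.P V4.D (-1) (-1)) ⟨7, 110, 5, 19, 2, 1, 2, 2, 3, 0⟩ :=
  out_sound (S := T4.ds_mm) T4.ok_mm (w := 80) (j := 3) (by decide +kernel)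
theorem L01197 : Good (Phi V4.P V4.D (-1) (-1)) ⟨7, 111, 5, 19, 2, 1, 2, 2, 3, 0⟩ :=
  out_sound (S := T4.ds_mm) T4.ok_mm (w := 24) (j := 4) (by decide +kernel)
theorem L01198 : Good (Phi V4.P V4.D (-1) (-1)) ⟨5, 27, 3, 5, 1, 0, 2, 2, 3, 0⟩ :=
  out_sound (S := T4.ds_mm) T4.ok_mm (w := 64) (j := 3) (by decide +kernel)
theorem L01199 : Good (Phi V4.P V4.D (-1) (-1)) ⟨3, 7, 2, 2, 1, 0, 2, 2, 3, 0⟩ :=
  out_sound (S := T4.ds_mm) T4.ok_mm (w := 16) (j := 4) (by decide +kernel)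
theorem L01200 : Good (Phi V4.P V4.D (-1) (-1)) ⟨3, 6, 2, 3, 1, 0, 2, 2, 3, 0⟩ :=
  out_sound (S := T4.ds_mm) T4.ok_mm (w := 48) (j := 3) (by decide +kernel)
theorem L01201 : Good (Phi V4.P V4.D (-1) (-1)) ⟨3, 7, 2, 3, 1, 0, 2, 2, 3, 0⟩ :=
  out_sound (S := T4.ds_mm) T4.ok_mm (w := 16) (j := 4) (by decide +kernel)
theorem L01202 : Good (Phi V4.P V4.D (-1) (-1)) ⟨2, 2, 1, 1, 1, 0, 2, 2, 3, 1⟩ :=
  out_sound (S := T4.ds_mm) T4.ok_mm (w := 40) (j := 3) (by decide +kernel)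
theorem L01203 : Good (Phi V4.P V4.D (-1) (-1)) ⟨4, 12, 2, 2, 1, 0, 2, 2, 3, 1⟩ :=
  out_sound (S := T4.ds_mm) T4.ok_mm (w := 56) (j := 3) (by decide +kernel)
theorem L01204 : Good (Phi V4.P V4.D (-1) (-1)) ⟨5, 26, 3, 4, 1, 0, 2, 2, 3, 1⟩ :=
  out_sound (S := T4.ds_mm) T4.ok_mm (w := 64) (j := 3) (by decide +kernel)
theorem L01205 : Good (Phi V4.P V4.D (-1) (-1)) ⟨5, 27, 3, 4, 2, 0, 2, 2, 3, 1⟩ :=
  leaf_sound (S := T4.ds_mm) T4.ok_mm (w := 184) (c := ⟨⟨.negSucc 1483, .ofNat 75, .negSucc 219, .ofNat 158, .ofNat 232, .ofNat 142⟩, ⟨.ofNat 783, .negSucc 5, .ofNat 196, .negSucc 88, .negSucc 129, .negSucc 78⟩, ⟨.ofNat 1211, .negSucc 58, .ofNat 210, .negSucc 156, .negSucc 406, .negSucc 115⟩, ⟨.negSucc 2246, .ofNat 86, .negSucc 221, .ofNat 102, .ofNat 320, .ofNat 212⟩, ⟨.ofNat 50, .negSucc 121, .ofNat 159, .negSucc 252, .negSucc 55, .negSucc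 5⟩, .ofNat 1844, .ofNat 2796, .ofNat 0, .ofNat 2796, .ofNat 5307, .ofNat 0, .ofNat 106, .negSucc 287, .negSucc 483, .ofNat 0, .ofNat 177, .ofNat 263, .ofNat 0, .ofNat 0, .ofNat 679, .ofNat 1977, .ofNat 0, .ofNat 0, .ofNat 0, .ofNat 0, .ofNat 0, .ofNat 0, .ofNat 1059615410048864144239833907200, .ofNat 0, .ofNat 0, .ofNat 0, .ofNat 0, .ofNat 0, .ofNat 0, .ofNat 0, .ofNat 0, .ofNat 0⟩)
    (by decide +kernel)
theorem L01206 : Good (Phi V4.P V4.D (-1) (-1)) ⟨5, 27, 4, 8, 2, 1, 2, 2, 3, 1⟩ :=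
  leaf_sound (S := T4.ds_mm) T4.ok_mm (w := 184) (c := ⟨⟨.negSucc 1577, .ofNat 8, .ofNat 23, .ofNat 314, .ofNat 533, .ofNat 259⟩, ⟨.ofNat 836, .ofNat 14, .ofNat 28, .negSucc 177, .negSucc 293, .negSucc 142⟩, ⟨.ofNat 1238, .negSucc 32, .negSucc 5, .negSucc 380, .negSucc 632, .negSucc 177⟩, ⟨.negSucc 2453, .negSucc 10, .ofNat 58, .ofNat 173, .ofNat 712, .ofNat 354⟩, ⟨.negSucc 93, .negSucc 79, .ofNat 50, .negSucc 557, .negSucc 176, .negSucc 69⟩, .ofNat 1760, .ofNat 2660, .ofNat 0, .ofNat 2660, .ofNat 5102, .ofNat 0, .ofNat 114, .negSucc 313, .negSucc 601, .ofNat 0, .ofNat 190, .ofNat 326, .ofNat 0, .ofNat 0, .ofNat 742, .ofNat 1968, .ofNat 0, .ofNat 0, .ofNat 0, .ofNat 0, .ofNat 0, .ofNat 0, .ofNat 2189714124574832319444654489600, .ofNat 0, .ofNat 0, .ofNat 0, .ofNat 1181450757084350747247850291200, .ofNat 0, .ofNat 0, .ofNat 0, .ofNat 632377420796000282748125184000,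 .ofNat 0⟩)
    (by decide +kernel)
theorem L01207 : Good (Phi V4.P V4.D (-1) (-1)) ⟨6, 54, 4, 9, 2, 1, 2, 2, 3, 1⟩ :=
  out_sound (S := T4.ds_mm) T4.ok_mm (w := 72) (j := 3) (by decide +kernel)
theorem L01208 : Good (Phi V4.P V4.D (-1) (-1)) ⟨6, 55, 4, 9, 2, 1, 2, 2, 3, 1⟩ :=
  leaf_sound (S := T4.ds_mm) T4.ok_mm (w := 192) (c := ⟨⟨.negSucc 1650, .negSucc 87, .negSucc 42, .ofNat 425, .ofNat 594, .ofNat 315⟩, ⟨.ofNat 934, .ofNat 75, .ofNat 50, .negSucc 243, .negSucc 339, .negSucc 179⟩, ⟨.ofNat 1304, .ofNat 68, .ofNat 18, .negSucc 485, .negSucc 688, .negSucc 219⟩, ⟨.negSucc 2517, .negSucc 143, .negSucc 44, .ofNat 316, .ofNat 770, .ofNat 421⟩, ⟨.negSucc 60, .negSucc 25, .ofNat 27, .negSucc 562, .negSucc 215, .negSucc 91⟩, .ofNat 2232, .ofNat 3402, .ofNat 0, .ofNat 3402, .ofNat 6210, .ofNat 0, .ofNat 96, .negSucc 324, .negSucc 640, .ofNat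 0, .ofNat 198, .ofNat 363, .ofNat 0, .ofNat 0, .ofNat 772, .ofNat 1600, .ofNat 0, .ofNat 0, .ofNat 0, .ofNat 0, .ofNat 0, .ofNat 0, .ofNat 0, .ofNat 0, .ofNat 0, .ofNat 0, .ofNat 0, .ofNat 0, .ofNat 0, .ofNat 0, .ofNat 0, .ofNat 0⟩)
    (by decide +kernel)
theorem L01209 : Good (Phi V4.P V4.D (-1) (-1)) ⟨4, 13, 3, 5, 1, 0, 2, 2, 3, 1⟩ :=
  out_sound (S := T4.ds_mm) T4.ok_mm (w := 56) (j := 3) (by decide +kernel)
theorem L01210 : Good (Phi V4.P V4.D (-1) (-1)) ⟨3, 6, 2, 3, 1, 0, 2, 2, 3, 1⟩ :=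
  out_sound (S := T4.ds_mm) T4.ok_mm (w := 48) (j := 3) (by decide +kernel)
theorem L01211 : Good (Phi V4.P V4.D (-1) (-1)) ⟨3, 7, 1, 1, 1, 0, 2, 2, 3, 1⟩ :=
  out_sound (S := T4.ds_mm) T4.ok_mm (w := 16) (j := 4) (by decide +kernel)
theorem L01212 : Good (Phi V4.P V4.D (-1) (-1)) ⟨2, 2, 2, 2, 1, 0, 3, 6, 2, 0⟩ :=
  out_sound (S := T4.ds_mm) T4.ok_mm (w := 40) (j := 3) (by decide +kernel)
theorem L01213 : Good (Phi V4.P V4.D (-1) (-1)) ⟨4, 12, 2, 2, 1, 0, 3, 6, 2, 0⟩ :=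
  out_sound (S := T4.ds_mm) T4.ok_mm (w := 56) (j := 3) (by decide +kernel)
theorem L01214 : Good (Phi V4.P V4.D (-1) (-1)) ⟨5, 26, 3, 4, 1, 0, 3, 6, 3, 0⟩ :=
  out_sound (S := T4.ds_mm) T4.ok_mm (w := 64) (j := 3) (by decide +kernel)
theorem L01215 : Good (Phi V4.P V4.D (-1) (-1)) ⟨5, 27, 3, 4, 2, 0, 3, 6, 3, 0⟩ :=
  leaf_sound (S := T4.ds_mm) T4.ok_mm (w := 184) (c := ⟨⟨.negSucc 1297, .negSucc 192, .ofNat 66, .ofNat 307, .ofNat 106, .negSucc 12⟩, ⟨.ofNat 682, .ofNat 138, .ofNat 33, .negSucc 172, .negSucc 58, .ofNat 8⟩, ⟨.ofNat 765, .ofNat 164, .negSucc 38, .negSucc 332, .negSucc 203, .ofNat 124⟩, ⟨.negSucc 1982, .negSucc 257, .ofNat 110, .ofNat 269, .ofNat 149, .ofNat 7⟩, ⟨.ofNat 10, .negSucc 24, .ofNat 16, .negSucc 355, .negSucc 20, .ofNat 46⟩, .ofNat 1836, .ofNat 2781, .ofNat 0, .ofNat 2781, .ofNat 5279, .ofNat 0, .ofNat 256, .negSucc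 689, .negSucc 1528, .ofNat 0, .ofNat 423, .ofNat 828, .ofNat 0, .ofNat 0, .ofNat 1879, .ofNat 1035, .ofNat 0, .ofNat 0, .ofNat 0, .ofNat 0, .ofNat 0, .ofNat 0, .ofNat 33182798302823330556459299635200, .ofNat 0, .ofNat 0, .ofNat 0, .ofNat 0, .ofNat 0, .ofNat 0, .ofNat 0, .ofNat 0, .ofNat 0⟩)
    (by decide +kernel)
theorem L01216 : Good (Phi V4.P V4.D (-1) (-1)) ⟨6, 54, 4, 8, 2, 1, 3, 6, 3, 0⟩ :=
  leaf_sound (S := T4.ds_mm) T4.ok_mm (w := 192) (c := ⟨⟨.negSucc 1072, .ofNat 228, .negSucc 110, .ofNat 608, .ofNat 215, .negSucc 171⟩, ⟨.ofNat 563, .negSucc 135, .ofNat 113, .negSucc 336, .negSucc 117, .ofNat 94⟩, ⟨.ofNat 469, .negSucc 214, .ofNat 105, .negSucc 611, .negSucc 268, .ofNat 298⟩, ⟨.negSucc 1830, .ofNat 329, .negSucc 162, .ofNat 602, .ofNat 301, .negSucc 197⟩, ⟨.negSucc 368, .negSucc 21, .ofNat 6, .negSucc 597, .negSucc 48, .ofNat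 118⟩, .ofNat 3174, .ofNat 5237, .ofNat 0, .ofNat 5237, .ofNat 9831, .ofNat 0, .ofNat 214, .negSucc 748, .negSucc 1990, .ofNat 0, .ofNat 436, .ofNat 1077, .ofNat 0, .ofNat 0, .ofNat 2195, .ofNat 764, .ofNat 0, .ofNat 0, .ofNat 0, .ofNat 0, .ofNat 0, .ofNat 0, .ofNat 31985797476339122562469881446400, .ofNat 0, .ofNat 0, .ofNat 0, .ofNat 0, .ofNat 0, .ofNat 0, .ofNat 0, .ofNat 0, .ofNat 0⟩)
    (by decide +kernel)
theorem L01217 : Good (Phi V4.P V4.D (-1) (-1)) ⟨6, 55, 4, 8, 2, 1, 3, 6, 3, 0⟩ :=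
  leaf_sound (S := T4.ds_mm) T4.ok_mm (w := 192) (c := ⟨⟨.negSucc 937, .negSucc 38, .negSucc 114, .ofNat 814, .ofNat 288, .negSucc 228⟩, ⟨.ofNat 502, .ofNat 29, .ofNat 91, .negSucc 461, .negSucc 161, .ofNat 129⟩, ⟨.ofNat 316, .ofNat 3, .ofNat 124, .negSucc 798, .negSucc 332, .ofNat 366⟩, ⟨.negSucc 1627, .negSucc 42, .negSucc 182, .ofNat 869, .ofNat 413, .negSucc 264⟩, ⟨.negSucc 381, .ofNat 48, .negSucc 11, .negSucc 640, .negSucc 39, .ofNat 143⟩, .ofNat 4628, .ofNat 7657, .ofNat 0, .ofNat 7657, .ofNat 13805, .ofNat 0, .ofNat 83, .negSucc 389, .negSucc 1107, .ofNat 0, .ofNat 228, .ofNat 622, .ofNat 0, .ofNat 0, .ofNat 1181, .ofNat 671, .ofNat 0, .ofNat 0, .ofNat 0, .ofNat 0, .ofNat 0, .ofNat 0, .ofNat 11592083484755002747524848025600, .ofNat 0, .ofNat 0, .ofNat 0, .ofNat 11354930120498038704697245696000, .ofNat 0, .ofNat 0, .ofNat 0, .ofNat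 5049436081323044169574671974400, .ofNat 0⟩)
    (by decide +kernel)
theorem L01218 : Good (Phi V4.P V4.D (-1) (-1)) ⟨6, 54, 4, 9, 2, 1, 3, 6, 3, 0⟩ :=
  out_sound (S := T4.ds_mm) T4.ok_mm (w := 72) (j := 3) (by decide +kernel)
theorem L01219 : Good (Phi V4.P V4.D (-1) (-1)) ⟨7, 110, 5, 18, 2, 1, 3, 6, 3, 0⟩ :=
  leaf_sound (S := T4.ds_mm) T4.ok_mm (w := 200) (c := ⟨⟨.negSucc 1013, .ofNat 92, .ofNat 2, .ofNat 923, .ofNat 237, .negSucc 398⟩, ⟨.ofNat 572, .negSucc 44, .ofNat 8, .negSucc 529, .negSucc 135, .ofNat 228⟩, ⟨.ofNat 418, .negSucc 121, .ofNat 25, .negSucc 905, .negSucc 284, .ofNat 519⟩, ⟨.negSucc 1727, .ofNat 93, .ofNat 29, .ofNat 1008, .ofNat 333, .negSucc 504⟩, ⟨.negSucc 360, .negSucc 74, .ofNat 50, .negSucc 664, .negSucc 40, .ofNat 166⟩, .ofNat 5707, .ofNat 9455, .ofNat 0, .ofNat 9455, .ofNat 16778, .ofNat 0, .ofNat 71, .negSucc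 387, .negSucc 1092, .ofNat 0, .ofNat 228, .ofNat 623, .ofNat 0, .ofNat 0, .ofNat 1176, .ofNat 846, .ofNat 0, .ofNat 0, .ofNat 0, .ofNat 0, .ofNat 0, .ofNat 0, .ofNat 0, .ofNat 0, .ofNat 0, .ofNat 0, .ofNat 0, .ofNat 0, .ofNat 0, .ofNat 0, .ofNat 0, .ofNat 0⟩)
    (by decide +kernel)
theorem L01220 : Good (Phi V4.P V4.D (-1) (-1)) ⟨7, 111, 5, 18, 2, 1, 3, 6, 3, 0⟩ :=
  out_sound (S := T4.ds_mm) T4.ok_mm (w := 24) (j := 4) (by decide +kernel)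
theorem L01221 : Good (Phi V4.P V4.D (-1) (-1)) ⟨7, 110, 5, 19, 2, 1, 3, 6, 3, 0⟩ :=
  out_sound (S := T4.ds_mm) T4.ok_mm (w := 80) (j := 3) (by decide +kernel)
theorem L01222 : Good (Phi V4.P V4.D (-1) (-1)) ⟨7, 111, 5, 19, 2, 1, 3, 6, 3, 0⟩ :=
  out_sound (S := T4.ds_mm) T4.ok_mm (w := 24) (j := 4) (by decide +kernel)
theorem L01223 : Good (Phi V4.P V4.D (-1) (-1)) ⟨5, 26, 3, 4, 1, 0, 3, 6, 3, 1⟩ :=
  out_sound (S := T4.ds_mm) T4.ok_mm (w := 64) (j := 3) (by decide +kernel)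
theorem L01224 : Good (Phi V4.P V4.D (-1) (-1)) ⟨5, 27, 3, 4, 2, 0, 3, 6, 3, 1⟩ :=
  leaf_sound (S := T4.ds_mm) T4.ok_mm (w := 184) (c := ⟨⟨.negSucc 1445, .negSucc 115, .ofNat 0, .ofNat 453, .ofNat 268, .ofNat 261⟩, ⟨.ofNat 771, .ofNat 93, .ofNat 56, .negSucc 251, .negSucc 148, .negSucc 144⟩, ⟨.ofNat 964, .ofNat 131, .negSucc 13, .negSucc 412, .negSucc 320, .negSucc 186⟩, ⟨.negSucc 2201, .negSucc 108, .negSucc 24, .ofNat 520, .ofNat 399, .ofNat 399⟩, ⟨.ofNat 14, .ofNat 72, .negSucc 71, .negSucc 303, .negSucc 10, .ofNat 4⟩, .ofNat 1862, .ofNat 2822, .ofNat 0, .ofNat 2822, .ofNat 5342, .ofNat 0, .ofNat 111, .negSucc 302, .negSucc 634, .ofNat 0, .ofNat 186, .ofNat 344, .ofNat 0, .ofNat 0, .ofNat 793, .ofNat 1471, .ofNat 0, .ofNat 0, .ofNat 0, .ofNat 0, .ofNat 0, .ofNat 0, .ofNat 7931059926612989374222250803200, .ofNat 0, .ofNat 0, .ofNat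 0, .ofNat 0, .ofNat 0, .ofNat 0, .ofNat 0, .ofNat 0, .ofNat 0⟩)
    (by decide +kernel)
theorem L01225 : Good (Phi V4.P V4.D (-1) (-1)) ⟨5, 27, 4, 8, 2, 1, 3, 6, 3, 1⟩ :=
  leaf_sound (S := T4.ds_mm) T4.ok_mm (w := 184) (c := ⟨⟨.negSucc 1446, .ofNat 307, .negSucc 56, .ofNat 729, .ofNat 594, .ofNat 471⟩, ⟨.ofNat 778, .negSucc 207, .ofNat 79, .negSucc 406, .negSucc 324, .negSucc 257⟩, ⟨.ofNat 917, .negSucc 291, .ofNat 58, .negSucc 692, .negSucc 590, .negSucc 338⟩, ⟨.negSucc 2322, .ofNat 373, .negSucc 66, .ofNat 762, .ofNat 892, .ofNat 705⟩, ⟨.negSucc 250, .negSucc 78, .ofNat 16, .negSucc 628, .negSucc 20, .negSucc 16⟩, .ofNat 1773, .ofNat 2682, .ofNat 0, .ofNat 2682, .ofNat 5134, .ofNat 0, .ofNat 120, .negSucc 332, .negSucc 748, .ofNat 0, .ofNat 201, .ofNat 404, .ofNat 0, .ofNat 0, .ofNat 850, .ofNat 1729, .ofNat 0, .ofNat 0, .ofNat 0, .ofNat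 0, .ofNat 0, .ofNat 0, .ofNat 14795638022334081035481278054400, .ofNat 0, .ofNat 0, .ofNat 0, .ofNat 10812668077764649886336365363200, .ofNat 0, .ofNat 0, .ofNat 0, .ofNat 6919663809943712494648295424000, .ofNat 0⟩)
    (by decide +kernel)
theorem L01226 : Good (Phi V4.P V4.D (-1) (-1)) ⟨5, 27, 4, 9, 2, 1, 3, 6, 3, 1⟩ :=
  leaf_sound (S := T4.ds_mm) T4.ok_mm (w := 192) (c := ⟨⟨.negSucc 1428, .negSucc 17, .ofNat 162, .ofNat 867, .ofNat 666, .ofNat 508⟩, ⟨.ofNat 808, .ofNat 20, .negSucc 70, .negSucc 496, .negSucc 380, .negSucc 290⟩, ⟨.ofNat 906, .negSucc 0, .negSucc 138, .negSucc 819, .negSucc 652, .negSucc 365⟩, ⟨.negSucc 2301, .negSucc 39, .ofNat 239, .ofNat 939, .ofNat 991, .ofNat 760⟩, ⟨.negSucc 275, .negSucc 11, .ofNat 9, .negSucc 636, .negSucc 17, .negSucc 5⟩, .ofNat 2216, .ofNat 3378, .ofNat 0, .ofNat 3378, .ofNat 6173, .ofNat 0,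 .ofNat 101, .negSucc 340, .negSucc 776, .ofNat 0, .ofNat 207, .ofNat 437, .ofNat 0, .ofNat 0, .ofNat 874, .ofNat 662, .ofNat 0, .ofNat 0, .ofNat 0, .ofNat 0, .ofNat 0, .ofNat 0, .ofNat 0, .ofNat 0, .ofNat 0, .ofNat 0, .ofNat 0, .ofNat 0, .ofNat 0, .ofNat 0, .ofNat 0, .ofNat 0⟩)
    (by decide +kernel)
theorem L01227 : Good (Phi V4.P V4.D (-1) (-1)) ⟨4, 13, 3, 5, 1, 0, 3, 6, 2, 0⟩ :=
  out_sound (S := T4.ds_mm) T4.ok_mm (w := 56) (j := 3) (by decide +kernel)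
theorem L01228 : Good (Phi V4.P V4.D (-1) (-1)) ⟨3, 7, 2, 2, 1, 0, 3, 6, 2, 0⟩ :=
  out_sound (S := T4.ds_mm) T4.ok_mm (w := 16) (j := 4) (by decide +kernel)
theorem L01229 : Good (Phi V4.P V4.D (-1) (-1)) ⟨2, 2, 2, 2, 1, 0, 3, 7, 2, 0⟩ :=
  out_sound (S := T4.ds_mm) T4.ok_mm (w := 40) (j := 3) (by decide +kernel)
theorem L01230 : Good (Phi V4.P V4.D (-1) (-1)) ⟨4, 12, 2, 2, 1, 0, 3, 7, 2, 0⟩ :=
  out_sound (S := T4.ds_mm) T4.ok_mm (w := 56) (j := 3) (by decide +kernel)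
theorem L01231 : Good (Phi V4.P V4.D (-1) (-1)) ⟨5, 26, 2, 2, 1, 0, 3, 7, 2, 0⟩ :=
  out_sound (S := T4.ds_mm) T4.ok_mm (w := 56) (j := 3) (by decide +kernel)
theorem L01232 : Good (Phi V4.P V4.D (-1) (-1)) ⟨6, 54, 4, 8, 2, 0, 3, 7, 3, 0⟩ :=
  leaf_sound (S := T4.ds_mm) T4.ok_mm (w := 192) (c := ⟨⟨.negSucc 1585, .ofNat 221, .negSucc 291, .ofNat 487, .ofNat 361, .ofNat 438⟩, ⟨.ofNat 844, .negSucc 126, .ofNat 210, .negSucc 268, .negSucc 195, .negSucc 237⟩, ⟨.ofNat 902, .negSucc 225, .ofNat 301, .negSucc 476, .negSucc 428, .negSucc 267⟩, ⟨.negSucc 2429, .ofNat 321, .negSucc 404, .ofNat 537, .ofNat 551, .ofNat 699⟩, ⟨.negSucc 10, .negSucc 26, .ofNat 33, .negSucc 378, .ofNat 2, .ofNat 59⟩, .ofNat 1689, .ofNat 2550, .ofNat 0, .ofNat 2550, .ofNat 4943, .ofNat 0, .ofNat 143, .negSucc 359, .negSucc 1070, .ofNat 0, .ofNat 220, .ofNat 567, .ofNat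 0, .ofNat 0, .ofNat 1200, .ofNat 749, .ofNat 0, .ofNat 0, .ofNat 0, .ofNat 0, .ofNat 0, .ofNat 0, .ofNat 0, .ofNat 0, .ofNat 0, .ofNat 0, .ofNat 0, .ofNat 0, .ofNat 0, .ofNat 264291339688738618586116898208035635200, .ofNat 0, .ofNat 0⟩)
    (by decide +kernel)
theorem L01233 : Good (Phi V4.P V4.D (-1) (-1)) ⟨6, 54, 4, 9, 2, 0, 3, 7, 3, 0⟩ :=
  out_sound (S := T4.ds_mm) T4.ok_mm (w := 72) (j := 3) (by decide +kernel)
theorem L01234 : Good (Phi V4.P V4.D (-1) (-1)) ⟨6, 55, 5, 16, 2, 0, 3, 7, 3, 0⟩ :=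
  out_sound (S := T4.ds_mm) T4.ok_mm (w := 72) (j := 3) (by decide +kernel)
theorem L01235 : Good (Phi V4.P V4.D (-1) (-1)) ⟨7, 110, 5, 17, 2, 0, 4, 14, 3, 0⟩ :=
  leaf_sound (S := T4.ds_mm) T4.ok_mm (w := 208) (c := ⟨⟨.negSucc 1222, .ofNat 186, .negSucc 368, .ofNat 490, .ofNat 76, .ofNat 236⟩, ⟨.ofNat 675, .negSucc 94, .ofNat 223, .negSucc 277, .negSucc 42, .negSucc 132⟩, ⟨.ofNat 545, .negSucc 209, .ofNat 382, .negSucc 490, .negSucc 112, .negSucc 77⟩, ⟨.negSucc 1854, .ofNat 282, .negSucc 548, .ofNat 518, .ofNat 115, .ofNat 389⟩, ⟨.negSucc 11, .negSucc 17, .ofNat 13, .negSucc 391, .ofNat 0, .ofNat 58⟩, .ofNat 9255, .ofNat 15805, .ofNat 0, .ofNat 15805, .ofNat 28163, .ofNat 0, .ofNat 131, .negSucc 760, .negSucc 2007, .ofNat 0, .ofNat 441, .ofNat 1131, .ofNat 0, .ofNat 0, .ofNat 2293, .ofNat 2341, .ofNat 0, .ofNat 0, .ofNat 0, .ofNat 0,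 .ofNat 0, .ofNat 0, .ofNat 290580226452565941992294449152000, .ofNat 0, .ofNat 0, .ofNat 0, .ofNat 0, .ofNat 0, .ofNat 0, .ofNat 0, .ofNat 0, .ofNat 0⟩)
    (by decide +kernel)
theorem L01236 : Good (Phi V4.P V4.D (-1) (-1)) ⟨7, 110, 5, 17, 2, 0, 4, 15, 3, 0⟩ :=
  leaf_sound (S := T4.ds_mm) T4.ok_mm (w := 208) (c := ⟨⟨.negSucc 1408, .ofNat 362, .negSucc 479, .ofNat 719, .ofNat 224, .ofNat 685⟩, ⟨.ofNat 781, .negSucc 196, .ofNat 286, .negSucc 406, .negSucc 125, .negSucc 385⟩, ⟨.ofNat 696, .negSucc 337, .ofNat 452, .negSucc 694, .negSucc 256, .negSucc 501⟩, ⟨.negSucc 2118, .ofNat 585, .negSucc 749, .ofNat 875, .ofNat 339, .ofNat 1065⟩, ⟨.ofNat 20, .ofNat 56, .negSucc 49, .negSucc 372, .ofNat 0, .ofNat 55⟩, .ofNat 9137, .ofNat 15604, .ofNat 0, .ofNat 15604, .ofNat 27822, .ofNat 0, .ofNat 68, .negSucc 389, .negSucc 1286, .ofNat 0, .ofNat 226,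 .ofNat 724, .ofNat 0, .ofNat 0, .ofNat 1397, .ofNat 396, .ofNat 0, .ofNat 0, .ofNat 0, .ofNat 0, .ofNat 0, .ofNat 0, .ofNat 70522217489000130224360679014400, .ofNat 0, .ofNat 0, .ofNat 0, .ofNat 0, .ofNat 0, .ofNat 0, .ofNat 0, .ofNat 0, .ofNat 0⟩)
    (by decide +kernel)
theorem L01237 : Good (Phi V4.P V4.D (-1) (-1)) ⟨7, 111, 5, 17, 2, 0, 3, 7, 3, 0⟩ :=
  out_sound (S := T4.ds_mm) T4.ok_mm (w := 80) (j := 3) (by decide +kernel)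
theorem L01238 : Good (Phi V4.P V4.D (-1) (-1)) ⟨7, 110, 5, 18, 2, 0, 3, 7, 3, 0⟩ :=
  leaf_sound (S := T4.ds_mm) T4.ok_mm (w := 200) (c := ⟨⟨.negSucc 1994, .ofNat 426, .negSucc 484, .ofNat 754, .ofNat 344, .ofNat 573⟩, ⟨.ofNat 1133, .negSucc 233, .ofNat 290, .negSucc 431, .negSucc 196, .negSucc 327⟩, ⟨.ofNat 1292, .negSucc 394, .ofNat 460, .negSucc 735, .negSucc 411, .negSucc 396⟩, ⟨.negSucc 3024, .ofNat 670, .negSucc 736, .ofNat 924, .ofNat 514, .ofNat 896⟩, ⟨.negSucc 38, .ofNat 44, .negSucc 21, .negSucc 364, .negSucc 4, .ofNat 61⟩, .ofNat 5793, .ofNat 9598, .ofNat 0, .ofNat 9598, .ofNat 17014, .ofNat 0, .ofNat 37, .negSucc 192, .negSucc 593, .ofNat 0, .ofNat 114, .ofNat 338, .ofNat 0, .ofNat 0, .ofNat 654, .ofNat 449, .ofNat 0, .ofNat 0, .ofNat 0, .ofNat 0, .ofNat 0, .ofNat 0, .ofNat 0, .ofNat 0, .ofNat 0, .ofNat 0, .ofNat 0, .ofNat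 0, .ofNat 0, .ofNat 2344638544524637933476218618817124761600, .ofNat 359308818276551810555786035200, .ofNat 0⟩)
    (by decide +kernel)
theorem L01239 : Good (Phi V4.P V4.D (-1) (-1)) ⟨7, 110, 5, 19, 2, 0, 3, 7, 3, 0⟩ :=
  out_sound (S := T4.ds_mm) T4.ok_mm (w := 80) (j := 3) (by decide +kernel)
theorem L01240 : Good (Phi V4.P V4.D (-1) (-1)) ⟨7, 111, 4, 9, 2, 0, 3, 7, 3, 0⟩ :=
  out_sound (S := T4.ds_mm) T4.ok_mm (w := 24) (j := 4) (by decide +kernel)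
theorem L01241 : Good (Phi V4.P V4.D (-1) (-1)) ⟨6, 54, 3, 4, 2, 1, 3, 7, 4, 0⟩ :=
  leaf_sound (S := T4.ds_mm) T4.ok_mm (w := 192) (c := ⟨⟨.negSucc 1152, .ofNat 99, .ofNat 327, .ofNat 693, .ofNat 438, .ofNat 157⟩, ⟨.ofNat 612, .negSucc 60, .negSucc 114, .negSucc 383, .negSucc 237, .negSucc 84⟩, ⟨.ofNat 441, .negSucc 75, .negSucc 356, .negSucc 649, .negSucc 465, .negSucc 55⟩, ⟨.negSucc 1988, .ofNat 143, .ofNat 465, .ofNat 741, .ofNat 686, .ofNat 287⟩, ⟨.negSucc 449, .ofNat 12, .negSucc 43, .negSucc 579, .ofNat 36, .ofNat 91⟩, .ofNat 1727, .ofNat 2610, .ofNat 0, .ofNat 2610, .ofNat 5031, .ofNat 0, .ofNat 148, .negSucc 395, .negSucc 1394, .ofNat 0, .ofNat 240, .ofNat 745, .ofNat 0, .ofNat 0, .ofNat 1447, .ofNat 240, .ofNat 0, .ofNat 0, .ofNat 0, .ofNat 0, .ofNat 0, .ofNat 0, .ofNat 0, .ofNat 0, .ofNat 0, .ofNat 0, .ofNat 0, .ofNat 0, .ofNat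 0, .ofNat 0, .ofNat 7449222406996451595922912051200, .ofNat 0⟩)
    (by decide +kernel)
theorem L01242 : Good (Phi V4.P V4.D (-1) (-1)) ⟨6, 54, 3, 4, 2, 1, 3, 7, 4, 1⟩ :=
  leaf_sound (S := T4.ds_mm) T4.ok_mm (w := 192) (c := ⟨⟨.negSucc 1209, .negSucc 152, .ofNat 824, .ofNat 724, .ofNat 889, .ofNat 346⟩, ⟨.ofNat 642, .ofNat 94, .negSucc 435, .negSucc 399, .negSucc 481, .negSucc 184⟩, ⟨.ofNat 562, .ofNat 154, .negSucc 810, .negSucc 655, .negSucc 864, .negSucc 236⟩, ⟨.negSucc 2042, .negSucc 253, .ofNat 1245, .ofNat 799, .ofNat 1398, .ofNat 558⟩, ⟨.negSucc 382, .negSucc 46, .ofNat 76, .negSucc 558, .ofNat 81, .ofNat 56⟩, .ofNat 1720, .ofNat 2598, .ofNat 0, .ofNat 2598, .ofNat 5011, .ofNat 0, .ofNat 140, .negSucc 377, .negSucc 1203, .ofNat 0, .ofNat 228, .ofNat 642, .ofNat 0, .ofNat 0, .ofNat 1248, .ofNat 1385, .ofNat 0, .ofNat 0, .ofNat 0,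 .ofNat 0, .ofNat 0, .ofNat 0, .ofNat 0, .ofNat 0, .ofNat 0, .ofNat 201095197586450613631885812433315430400, .ofNat 23318591405130835123410409881600, .ofNat 0, .ofNat 0, .ofNat 0, .ofNat 13063355483547218166221163724800, .ofNat 0⟩)
    (by decide +kernel)
theorem L01243 : Good (Phi V4.P V4.D (-1) (-1)) ⟨6, 55, 4, 8, 2, 1, 3, 7, 3, 0⟩ :=
  leaf_sound (S := T4.ds_mm) T4.ok_mm (w := 192) (c := ⟨⟨.negSucc 979, .ofNat 895, .negSucc 306, .ofNat 1021, .ofNat 710, .ofNat 360⟩, ⟨.ofNat 535, .negSucc 503, .ofNat 189, .negSucc 578, .negSucc 399, .negSucc 201⟩, ⟨.ofNat 328, .negSucc 755, .ofNat 207, .negSucc 940, .negSucc 710, .negSucc 161⟩, ⟨.negSucc 1661, .ofNat 1416, .negSucc 560, .ofNat 1208, .ofNat 1111, .ofNat 628⟩, ⟨.negSucc 339, .ofNat 136, .negSucc 154, .negSucc 588, .ofNat 70, .ofNat 151⟩, .ofNat 4695, .ofNat 7770, .ofNat 0, .ofNat 7770,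 .ofNat 13994, .ofNat 0, .ofNat 86, .negSucc 401, .negSucc 1311, .ofNat 0, .ofNat 235, .ofNat 736, .ofNat 0, .ofNat 0, .ofNat 1363, .ofNat 698, .ofNat 0, .ofNat 0, .ofNat 0, .ofNat 0, .ofNat 0, .ofNat 0, .ofNat 10271317994392979042832325017600, .ofNat 0, .ofNat 0, .ofNat 0, .ofNat 10639212632013608880728702976000, .ofNat 0, .ofNat 0, .ofNat 0, .ofNat 3648581877758734486705117593600, .ofNat 0⟩)
    (by decide +kernel)
theorem L01244 : Good (Phi V4.P V4.D (-1) (-1)) ⟨7, 110, 5, 18, 2, 1, 3, 7, 3, 0⟩ :=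
  leaf_sound (S := T4.ds_mm) T4.ok_mm (w := 200) (c := ⟨⟨.negSucc 1316, .ofNat 258, .negSucc 226, .ofNat 1250, .ofNat 806, .ofNat 352⟩, ⟨.ofNat 749, .negSucc 139, .ofNat 125, .negSucc 715, .negSucc 460, .negSucc 200⟩, ⟨.ofNat 559, .negSucc 235, .ofNat 176, .negSucc 1133, .negSucc 788, .negSucc 142⟩, ⟨.negSucc 2250, .ofNat 371, .negSucc 378, .ofNat 1540, .ofNat 1269, .ofNat 632⟩, ⟨.negSucc 481, .negSucc 23, .negSucc 40, .negSucc 589, .ofNat 101, .ofNat 177⟩, .ofNat 5901, .ofNat 9776, .ofNat 0, .ofNat 9776, .ofNat 17309, .ofNat 0, .ofNat 73, .negSucc 405, .negSucc 1388, .ofNat 0, .ofNat 239, .ofNat 791, .ofNat 0, .ofNat 0, .ofNat 1416, .ofNat 858, .ofNat 0, .ofNat 0, .ofNat 0, .ofNat 0, .ofNat 0, .ofNat 0, .ofNat 0, .ofNat 0, .ofNat 0, .ofNat 0, .ofNat 0, .ofNat 0, .ofNat 0, .ofNat 0, .ofNat 0, .ofNat 0⟩)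
    (by decide +kernel)
theorem L01245 : Good (Phi V4.P V4.D (-1) (-1)) ⟨7, 111, 5, 18, 2, 1, 3, 7, 3, 0⟩ :=
  out_sound (S := T4.ds_mm) T4.ok_mm (w := 24) (j := 4) (by decide +kernel)
theorem L01246 : Good (Phi V4.P V4.D (-1) (-1)) ⟨7, 110, 5, 19, 2, 1, 3, 7, 3, 0⟩ :=
  out_sound (S := T4.ds_mm) T4.ok_mm (w := 80) (j := 3) (by decide +kernel)
theorem L01247 : Good (Phi V4.P V4.D (-1) (-1)) ⟨7, 111, 5, 19, 2, 1, 3, 7, 3, 0⟩ :=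
  out_sound (S := T4.ds_mm) T4.ok_mm (w := 24) (j := 4) (by decide +kernel)
theorem L01248 : Good (Phi V4.P V4.D (-1) (-1)) ⟨5, 27, 3, 5, 1, 0, 3, 7, 3, 0⟩ :=
  out_sound (S := T4.ds_mm) T4.ok_mm (w := 64) (j := 3) (by decide +kernel)
theorem L01249 : Good (Phi V4.P V4.D (-1) (-1)) ⟨6, 54, 4, 8, 2, 0, 3, 7, 3, 1⟩ :=
  leaf_sound (S := T4.ds_mm) T4.ok_mm (w := 192) (c := ⟨⟨.negSucc 1514, .negSucc 184, .ofNat 273, .ofNat 761, .ofNat 926, .ofNat 428⟩, ⟨.ofNat 811, .ofNat 122, .negSucc 145, .negSucc 418, .negSucc 501, .negSucc 233⟩, ⟨.ofNat 950, .ofNat 167, .negSucc 239, .negSucc 699, .negSucc 946, .negSucc 321⟩, ⟨.negSucc 2319, .negSucc 281, .ofNat 436, .ofNat 999, .ofNat 1424, .ofNat 665⟩, ⟨.negSucc 9, .negSucc 53, .ofNat 78, .negSucc 291, .ofNat 24, .ofNat 29⟩, .ofNat 1701, .ofNat 2569, .ofNat 0, .ofNat 2569, .ofNat 4971, .ofNat 0, .ofNat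 125, .negSucc 314, .negSucc 878, .ofNat 0, .ofNat 193, .ofNat 466, .ofNat 0, .ofNat 0, .ofNat 997, .ofNat 949, .ofNat 0, .ofNat 0, .ofNat 0, .ofNat 0, .ofNat 0, .ofNat 0, .ofNat 0, .ofNat 0, .ofNat 0, .ofNat 0, .ofNat 0, .ofNat 0, .ofNat 0, .ofNat 0, .ofNat 1942447020189299926959233433600, .ofNat 0⟩)
    (by decide +kernel)
theorem L01250 : Good (Phi V4.P V4.D (-1) (-1)) ⟨6, 54, 4, 9, 2, 0, 3, 7, 3, 1⟩ :=
  out_sound (S := T4.ds_mm) T4.ok_mm (w := 72) (j := 3) (by decide +kernel)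
theorem L01251 : Good (Phi V4.P V4.D (-1) (-1)) ⟨6, 55, 5, 16, 2, 0, 3, 7, 3, 1⟩ :=
  out_sound (S := T4.ds_mm) T4.ok_mm (w := 72) (j := 3) (by decide +kernel)
theorem L01252 : Good (Phi V4.P V4.D (-1) (-1)) ⟨6, 55, 5, 17, 2, 0, 3, 7, 3, 1⟩ :=
  leaf_sound (S := T4.ds_mm) T4.ok_mm (w := 192) (c := ⟨⟨.negSucc 1492, .ofNat 428, .negSucc 186, .ofNat 846, .ofNat 968, .ofNat 483⟩, ⟨.ofNat 833, .negSucc 241, .ofNat 115, .negSucc 477, .negSucc 544, .negSucc 271⟩, ⟨.ofNat 941, .negSucc 387, .ofNat 170, .negSucc 786, .negSucc 986, .negSucc 377⟩, ⟨.negSucc 2248, .ofNat 657, .negSucc 292, .ofNat 1108, .ofNat 1479, .ofNat 736⟩, ⟨.ofNat 8, .ofNat 18, .negSucc 19, .negSucc 298, .ofNat 32, .ofNat 13⟩, .ofNat 4641, .ofNat 7679, .ofNat 0, .ofNat 7679, .ofNat 13841, .ofNat 0, .ofNat 38, .negSucc 166, .negSucc 461, .ofNat 0, .ofNat 98, .ofNat 259, .ofNat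 0, .ofNat 0, .ofNat 519, .ofNat 515, .ofNat 0, .ofNat 0, .ofNat 0, .ofNat 0, .ofNat 0, .ofNat 0, .ofNat 7924754821744579208299728076800, .ofNat 0, .ofNat 0, .ofNat 0, .ofNat 6694766708877150421100632473600, .ofNat 0, .ofNat 0, .ofNat 0, .ofNat 1610070351615869714584672665600, .ofNat 0⟩)
    (by decide +kernel)

end Crest.Agent.R097C4.N4mm
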