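import Crest.Agent.R097.T4

/-!
# Row 97, box cover in dimension n = 4 (generated)
-/

set_option autoImplicit false
set_option Elab.async false
set_option maxHeartbeats 0
set_option maxRecDepth 100000

open Crest.Agent.R097 Crest.Agent.R097.KA


namespace Crest.Agent.R097C4.N4mm

theorem L01253 : Good (Phi V4.P V4.D (-1) (-1)) ⟨7, 110, 5, 18, 2, 0, 3, 7, 3, 1⟩ :=
  leaf_sound (S := T4.ds_mm) T4.ok_mm (w := 200) (c := ⟨⟨.negSucc 1593, .ofNat 41, .negSucc 65, .ofNat 886, .ofNat 932, .ofNat 412⟩, ⟨.ofNat 908, .negSucc 21, .ofNat 49, .negSucc 507, .negSucc 532, .negSucc 235⟩, ⟨.ofNat 1035, .negSucc 42, .ofNat 70, .negSucc 828, .negSucc 953, .negSucc 305⟩, ⟨.negSucc 2395, .ofNat 48, .negSucc 81, .ofNat 1163, .ofNat 1419, .ofNat 633⟩, ⟨.ofNat 1, .negSucc 21, .ofNat 20, .negSucc 295, .ofNat 30, .ofNat 24⟩, .ofNat 5728, .ofNat 9489, .ofNat 0, .ofNat 9489,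 .ofNat 16834, .ofNat 0, .ofNat 65, .negSucc 336, .negSucc 919, .ofNat 0, .ofNat 198, .ofNat 523, .ofNat 0, .ofNat 0, .ofNat 1035, .ofNat 825, .ofNat 0, .ofNat 0, .ofNat 0, .ofNat 0, .ofNat 0, .ofNat 0, .ofNat 0, .ofNat 0, .ofNat 0, .ofNat 0, .ofNat 0, .ofNat 0, .ofNat 0, .ofNat 25617558638056845040868888819477250048000, .ofNat 613116557518841166759041433600, .ofNat 0⟩)
    (by decide +kernel)
theorem L01254 : Good (Phi V4.P V4.D (-1) (-1)) ⟨7, 111, 5, 18, 2, 0, 3, 7, 3, 1⟩ :=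
  out_sound (S := T4.ds_mm) T4.ok_mm (w := 24) (j := 4) (by decide +kernel)
theorem L01255 : Good (Phi V4.P V4.D (-1) (-1)) ⟨7, 110, 5, 19, 2, 0, 3, 7, 3, 1⟩ :=
  out_sound (S := T4.ds_mm) T4.ok_mm (w := 80) (j := 3) (by decide +kernel)
theorem L01256 : Good (Phi V4.P V4.D (-1) (-1)) ⟨7, 111, 5, 19, 2, 0, 3, 7, 3, 1⟩ :=
  out_sound (S := T4.ds_mm) T4.ok_mm (w := 24) (j := 4) (by decide +kernel)
theorem L01257 : Good (Phi V4.P V4.D (-1) (-1)) ⟨5, 27, 4, 8, 2, 1, 3, 7, 3, 1⟩ :=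
  leaf_sound (S := T4.ds_mm) T4.ok_mm (w := 192) (c := ⟨⟨.negSucc 998, .ofNat 204, .ofNat 116, .ofNat 827, .ofNat 1133, .ofNat 552⟩, ⟨.ofNat 543, .negSucc 151, .negSucc 41, .negSucc 458, .negSucc 615, .negSucc 298⟩, ⟨.ofNat 435, .negSucc 241, .negSucc 78, .negSucc 721, .negSucc 1079, .negSucc 409⟩, ⟨.negSucc 1697, .ofNat 375, .ofNat 114, .ofNat 948, .ofNat 1793, .ofNat 861⟩, ⟨.negSucc 354, .ofNat 129, .negSucc 64, .negSucc 572, .ofNat 130, .ofNat 40⟩, .ofNat 1736, .ofNat 2623, .ofNat 0, .ofNat 2623, .ofNat 5050, .ofNat 0, .ofNat 252, .negSucc 683, .negSucc 1748, .ofNat 0, .ofNat 413, .ofNat 933, .ofNat 0, .ofNat 0, .ofNat 1887, .ofNat 921, .ofNat 0, .ofNat 302249646884440450585502274709094400, .ofNat 152570153354512489270109798400, .ofNat 0, .ofNat 0, .ofNat 0, .ofNat 65389518371502420265477236326400, .ofNat 0, .ofNat 0, .ofNat 22645870586293635648283395158861414400,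 .ofNat 0, .ofNat 0, .ofNat 0, .ofNat 27014768559331939863555692478175641600, .ofNat 18815108827133481957405071769600, .ofNat 0⟩)
    (by decide +kernel)
theorem L01258 : Good (Phi V4.P V4.D (-1) (-1)) ⟨6, 54, 4, 9, 2, 1, 3, 7, 3, 1⟩ :=
  out_sound (S := T4.ds_mm) T4.ok_mm (w := 72) (j := 3) (by decide +kernel)
theorem L01259 : Good (Phi V4.P V4.D (-1) (-1)) ⟨6, 55, 5, 18, 2, 1, 3, 7, 3, 1⟩ :=
  leaf_sound (S := T4.ds_mm) T4.ok_mm (w := 200) (c := ⟨⟨.negSucc 959, .ofNat 89, .ofNat 60, .ofNat 1100, .ofNat 1285, .ofNat 541⟩, ⟨.ofNat 548, .negSucc 50, .negSucc 34, .negSucc 630, .negSucc 735, .negSucc 308⟩, ⟨.ofNat 385, .negSucc 56, .negSucc 74, .negSucc 966, .negSucc 1227, .negSucc 389⟩, ⟨.negSucc 1635, .ofNat 115, .ofNat 73, .ofNat 1313, .ofNat 2022, .ofNat 837⟩, ⟨.negSucc 342, .negSucc 23, .negSucc 9, .negSucc 596, .ofNat 156, .ofNat 40⟩, .ofNat 2227,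 .ofNat 3394, .ofNat 0, .ofNat 3394, .ofNat 6197, .ofNat 0, .ofNat 209, .negSucc 699, .negSucc 1837, .ofNat 0, .ofNat 427, .ofNat 1030, .ofNat 0, .ofNat 0, .ofNat 1963, .ofNat 1135, .ofNat 0, .ofNat 31405894331276118978189445539299328000, .ofNat 0, .ofNat 0, .ofNat 0, .ofNat 0, .ofNat 0, .ofNat 0, .ofNat 0, .ofNat 0, .ofNat 0, .ofNat 0, .ofNat 0, .ofNat 1863651901875167841568559108096576716800, .ofNat 18999934003118258512638404198400, .ofNat 0⟩)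
    (by decide +kernel)
theorem L01260 : Good (Phi V4.P V4.D (-1) (-1)) ⟨7, 110, 5, 19, 2, 1, 3, 7, 3, 1⟩ :=
  out_sound (S := T4.ds_mm) T4.ok_mm (w := 80) (j := 3) (by decide +kernel)
theorem L01261 : Good (Phi V4.P V4.D (-1) (-1)) ⟨7, 111, 5, 19, 2, 1, 3, 7, 3, 1⟩ :=
  out_sound (S := T4.ds_mm) T4.ok_mm (w := 24) (j := 4) (by decide +kernel)
theorem L01262 : Good (Phi V4.P V4.D (-1) (-1)) ⟨5, 27, 3, 5, 1, 0, 3, 7, 3, 1⟩ :=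
  out_sound (S := T4.ds_mm) T4.ok_mm (w := 64) (j := 3) (by decide +kernel)
theorem L01263 : Good (Phi V4.P V4.D (-1) (-1)) ⟨3, 7, 2, 2, 1, 0, 3, 7, 2, 0⟩ :=
  out_sound (S := T4.ds_mm) T4.ok_mm (w := 16) (j := 4) (by decide +kernel)
theorem L01264 : Good (Phi V4.P V4.D (-1) (-1)) ⟨2, 2, 2, 3, 1, 0, 2, 3, 2, 0⟩ :=
  out_sound (S := T4.ds_mm) T4.ok_mm (w := 40) (j := 3) (by decide +kernel)
theorem L01265 : Good (Phi V4.P V4.D (-1) (-1)) ⟨3, 6, 2, 3, 1, 0, 2, 3, 2, 0⟩ :=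
  out_sound (S := T4.ds_mm) T4.ok_mm (w := 48) (j := 3) (by decide +kernel)
theorem L01266 : Good (Phi V4.P V4.D (-1) (-1)) ⟨3, 7, 2, 3, 1, 0, 2, 3, 2, 0⟩ :=
  out_sound (S := T4.ds_mm) T4.ok_mm (w := 16) (j := 4) (by decide +kernel)
theorem L01267 : Good (Phi V4.P V4.D (-1) (-1)) ⟨2, 2, 1, 1, 1, 0, 2, 2, 2, 1⟩ :=
  out_sound (S := T4.ds_mm) T4.ok_mm (w := 40) (j := 3) (by decide +kernel)
theorem L01268 : Good (Phi V4.P V4.D (-1) (-1)) ⟨4, 12, 2, 2, 1, 0, 2, 2, 2, 1⟩ :=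
  out_sound (S := T4.ds_mm) T4.ok_mm (w := 56) (j := 3) (by decide +kernel)
theorem L01269 : Good (Phi V4.P V4.D (-1) (-1)) ⟨4, 13, 3, 4, 2, 0, 2, 2, 3, 2⟩ :=
  leaf_sound (S := T4.ds_mm) T4.ok_mm (w := 176) (c := ⟨⟨.negSucc 1373, .ofNat 4, .negSucc 130, .ofNat 261, .ofNat 257, .ofNat 203⟩, ⟨.ofNat 707, .ofNat 37, .ofNat 147, .negSucc 145, .negSucc 140, .negSucc 111⟩, ⟨.ofNat 1063, .ofNat 13, .ofNat 123, .negSucc 203, .negSucc 374, .negSucc 179⟩, ⟨.negSucc 2104, .ofNat 47, .negSucc 157, .ofNat 244, .ofNat 373, .ofNat 303⟩, ⟨.ofNat 43, .negSucc 16, .ofNat 25, .negSucc 277, .negSucc 29, .negSucc 8⟩, .ofNat 1815, .ofNat 2748, .ofNat 0, .ofNat 2748, .ofNat 5232, .ofNat 0, .ofNat 96, .negSucc 254, .negSucc 373, .ofNat 0, .ofNat 157, .ofNat 202, .ofNat 0, .ofNat 0, .ofNat 571, .ofNat 1581, .ofNat 0, .ofNat 0, .ofNat 4787098274745362517118156800, .ofNat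 0, .ofNat 0, .ofNat 0, .ofNat 2683605375834016669672616755200, .ofNat 0, .ofNat 0, .ofNat 0, .ofNat 1763585634898431983626695475200, .ofNat 0, .ofNat 0, .ofNat 0, .ofNat 0, .ofNat 0⟩)
    (by decide +kernel)
theorem L01270 : Good (Phi V4.P V4.D (-1) (-1)) ⟨4, 13, 3, 4, 2, 1, 2, 2, 3, 2⟩ :=
  leaf_sound (S := T4.ds_mm) T4.ok_mm (w := 176) (c := ⟨⟨.negSucc 1195, .negSucc 342, .ofNat 184, .ofNat 452, .ofNat 609, .ofNat 326⟩, ⟨.ofNat 625, .ofNat 204, .negSucc 26, .negSucc 254, .negSucc 334, .negSucc 181⟩, ⟨.ofNat 941, .ofNat 269, .negSucc 154, .negSucc 459, .negSucc 679, .negSucc 254⟩, ⟨.negSucc 1920, .negSucc 482, .ofNat 240, .ofNat 328, .ofNat 865, .ofNat 450⟩, ⟨.negSucc 160, .ofNat 4, .negSucc 19, .negSucc 650, .negSucc 108, .negSucc 79⟩, .ofNat 767, .ofNat 898, .ofNat 0, .ofNat 898, .ofNat 1880, .ofNat 0, .ofNat 152, .negSucc 254, .negSucc 421,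 .ofNat 0, .ofNat 177, .ofNat 223, .ofNat 0, .ofNat 0, .ofNat 584, .ofNat 1911, .ofNat 0, .ofNat 0, .ofNat 0, .ofNat 0, .ofNat 0, .ofNat 0, .ofNat 0, .ofNat 0, .ofNat 0, .ofNat 0, .ofNat 821342858498956251254646374400, .ofNat 0, .ofNat 0, .ofNat 0, .ofNat 335793703045483542572590694400, .ofNat 0⟩)
    (by decide +kernel)
theorem L01271 : Good (Phi V4.P V4.D (-1) (-1)) ⟨5, 26, 3, 4, 1, 0, 2, 2, 3, 3⟩ :=
  out_sound (S := T4.ds_mm) T4.ok_mm (w := 64) (j := 3) (by decide +kernel)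
theorem L01272 : Good (Phi V4.P V4.D (-1) (-1)) ⟨6, 54, 4, 8, 1, 0, 2, 2, 4, 6⟩ :=
  leaf_sound (S := T4.ds_mm) T4.ok_mm (w := 184) (c := ⟨⟨.negSucc 1343, .negSucc 53, .ofNat 62, .ofNat 772, .ofNat 420, .ofNat 136⟩, ⟨.ofNat 715, .ofNat 31, .negSucc 1, .negSucc 428, .negSucc 226, .negSucc 73⟩, ⟨.ofNat 1033, .ofNat 89, .negSucc 93, .negSucc 666, .negSucc 495, .negSucc 120⟩, ⟨.negSucc 1990, .ofNat 46, .negSucc 52, .ofNat 661, .ofNat 618, .ofNat 195⟩, ⟨.ofNat 112, .ofNat 206, .negSucc 237, .negSucc 955, .negSucc 42, .negSucc 21⟩, .ofNat 3107, .ofNat 5131, .ofNat 0, .ofNat 5131, .ofNat 9671, .ofNat 0, .ofNat 144, .negSucc 481, .negSucc 594, .ofNat 0, .ofNat 281, .ofNat 321, .ofNat 0, .ofNat 0, .ofNat 981, .ofNat 3883, .ofNat 0, .ofNat 0, .ofNat 0, .ofNat 0, .ofNat 0, .ofNat 0, .ofNat 126444227828585949818781696000, .ofNat 0, .ofNat 0, .ofNat 3264969311858438356354293469859020800,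 .ofNat 23014033017539676323866214400, .ofNat 0, .ofNat 0, .ofNat 0, .ofNat 0, .ofNat 0⟩)
    (by decide +kernel)
theorem L01273 : Good (Phi V4.P V4.D (-1) (-1)) ⟨6, 55, 5, 16, 1, 0, 2, 2, 4, 6⟩ :=
  out_sound (S := T4.ds_mm) T4.ok_mm (w := 72) (j := 3) (by decide +kernel)
theorem L01274 : Good (Phi V4.P V4.D (-1) (-1)) ⟨7, 110, 5, 17, 1, 0, 2, 2, 4, 6⟩ :=
  leaf_sound (S := T4.ds_mm) T4.ok_mm (w := 192) (c := ⟨⟨.negSucc 1247, .negSucc 29, .negSucc 76, .ofNat 786, .ofNat 405, .ofNat 75⟩, ⟨.ofNat 694, .ofNat 24, .ofNat 54, .negSucc 447, .negSucc 227, .negSucc 41⟩, ⟨.ofNat 967, .ofNat 102, .ofNat 28, .negSucc 682, .negSucc 471, .negSucc 56⟩, ⟨.negSucc 1743, .ofNat 175, .negSucc 268, .ofNat 654, .ofNat 623, .ofNat 105⟩, ⟨.ofNat 245, .ofNat 383, .negSucc 266, .negSucc 945, .ofNat 20, .negSucc 13⟩, .ofNat 9049, .ofNat 15452, .ofNat 0, .ofNat 15452, .ofNat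 27558, .ofNat 0, .ofNat 86, .negSucc 500, .negSucc 623, .ofNat 0, .ofNat 290, .ofNat 351, .ofNat 0, .ofNat 0, .ofNat 999, .ofNat 3054, .ofNat 0, .ofNat 0, .ofNat 45618565216715411020185600, .ofNat 0, .ofNat 0, .ofNat 0, .ofNat 157158610678094385272743526400, .ofNat 0, .ofNat 0, .ofNat 0, .ofNat 63447592107468411673509888000, .ofNat 0, .ofNat 0, .ofNat 0, .ofNat 0, .ofNat 0⟩)
    (by decide +kernel)
theorem L01275 : Good (Phi V4.P V4.D (-1) (-1)) ⟨7, 111, 5, 17, 1, 0, 2, 2, 4, 6⟩ :=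
  out_sound (S := T4.ds_mm) T4.ok_mm (w := 80) (j := 3) (by decide +kernel)
theorem L01276 : Good (Phi V4.P V4.D (-1) (-1)) ⟨6, 54, 4, 9, 1, 0, 2, 2, 4, 6⟩ :=
  out_sound (S := T4.ds_mm) T4.ok_mm (w := 72) (j := 3) (by decide +kernel)
theorem L01277 : Good (Phi V4.P V4.D (-1) (-1)) ⟨7, 110, 5, 18, 1, 0, 3, 4, 4, 6⟩ :=
  leaf_sound (S := T4.ds_mm) T4.ok_mm (w := 192) (c := ⟨⟨.negSucc 1264, .negSucc 75, .ofNat 102, .ofNat 688, .ofNat 154, .ofNat 111⟩, ⟨.ofNat 716, .ofNat 52, .negSucc 45, .negSucc 395, .negSucc 87, .negSucc 62⟩, ⟨.ofNat 956, .ofNat 114, .negSucc 163, .negSucc 592, .negSucc 194, .negSucc 97⟩, ⟨.negSucc 1848, .negSucc 61, .ofNat 48, .ofNat 493, .ofNat 232, .ofNat 153⟩, ⟨.ofNat 92, .ofNat 100, .negSucc 197, .negSucc 944, .ofNat 0, .negSucc 25⟩, .ofNat 5731, .ofNat 9494, .ofNat 0, .ofNat 9494, .ofNat 16842, .ofNat 0, .ofNat 93, .negSucc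 492, .negSucc 581, .ofNat 0, .ofNat 290, .ofNat 332, .ofNat 0, .ofNat 0, .ofNat 978, .ofNat 6179, .ofNat 0, .ofNat 0, .ofNat 0, .ofNat 0, .ofNat 0, .ofNat 0, .ofNat 0, .ofNat 0, .ofNat 0, .ofNat 0, .ofNat 0, .ofNat 0, .ofNat 0, .ofNat 0, .ofNat 0, .ofNat 0⟩)
    (by decide +kernel)
theorem L01278 : Good (Phi V4.P V4.D (-1) (-1)) ⟨7, 110, 5, 18, 1, 0, 3, 5, 4, 6⟩ :=
  leaf_sound (S := T4.ds_mm) T4.ok_mm (w := 192) (c := ⟨⟨.negSucc 1232, .negSucc 83, .ofNat 94, .ofNat 1001, .ofNat 236, .ofNat 118⟩, ⟨.ofNat 699, .ofNat 55, .negSucc 44, .negSucc 574, .negSucc 134, .negSucc 67⟩, ⟨.ofNat 866, .ofNat 98, .negSucc 103, .negSucc 886, .negSucc 255, .negSucc 93⟩, ⟨.negSucc 1799, .negSucc 129, .ofNat 137, .ofNat 934, .ofNat 389, .ofNat 163⟩, ⟨.ofNat 93, .negSucc 3, .negSucc 10, .negSucc 996, .ofNat 59, .negSucc 24⟩, .ofNat 2226, .ofNat 3393, .ofNat 0, .ofNat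 3393, .ofNat 6196, .ofNat 0, .ofNat 77, .negSucc 249, .negSucc 340, .ofNat 0, .ofNat 153, .ofNat 192, .ofNat 0, .ofNat 0, .ofNat 516, .ofNat 2128, .ofNat 0, .ofNat 0, .ofNat 0, .ofNat 0, .ofNat 0, .ofNat 0, .ofNat 0, .ofNat 0, .ofNat 0, .ofNat 0, .ofNat 0, .ofNat 0, .ofNat 0, .ofNat 0, .ofNat 0, .ofNat 0⟩)
    (by decide +kernel)
theorem L01279 : Good (Phi V4.P V4.D (-1) (-1)) ⟨7, 111, 5, 18, 1, 0, 2, 2, 4, 6⟩ :=
  out_sound (S := T4.ds_mm) T4.ok_mm (w := 24) (j := 4) (by decide +kernel)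
theorem L01280 : Good (Phi V4.P V4.D (-1) (-1)) ⟨7, 110, 5, 19, 1, 0, 2, 2, 4, 6⟩ :=
  out_sound (S := T4.ds_mm) T4.ok_mm (w := 80) (j := 3) (by decide +kernel)
theorem L01281 : Good (Phi V4.P V4.D (-1) (-1)) ⟨7, 111, 5, 19, 1, 0, 2, 2, 4, 6⟩ :=
  out_sound (S := T4.ds_mm) T4.ok_mm (w := 24) (j := 4) (by decide +kernel)
theorem L01282 : Good (Phi V4.P V4.D (-1) (-1)) ⟨5, 27, 3, 4, 1, 0, 2, 2, 4, 7⟩ :=
  leaf_sound (S := T4.ds_mm) T4.ok_mm (w := 176) (c := ⟨⟨.negSucc 1243, .negSucc 29, .ofNat 29, .ofNat 815, .ofNat 380, .ofNat 95⟩, ⟨.ofNat 665, .ofNat 33, .ofNat 34, .negSucc 458, .negSucc 209, .negSucc 52⟩, ⟨.ofNat 936, .ofNat 39, .negSucc 30, .negSucc 685, .negSucc 444, .negSucc 80⟩, ⟨.negSucc 1839, .ofNat 17, .negSucc 17, .ofNat 701, .ofNat 570, .ofNat 146⟩, ⟨.ofNat 101, .ofNat 17, .negSucc 23, .negSucc 968, .negSucc 10, .ofNat 1⟩, .ofNat 767,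 .ofNat 898, .ofNat 0, .ofNat 898, .ofNat 1880, .ofNat 0, .ofNat 252, .negSucc 404, .negSucc 547, .ofNat 0, .ofNat 288, .ofNat 285, .ofNat 0, .ofNat 0, .ofNat 928, .ofNat 3043, .ofNat 0, .ofNat 0, .ofNat 40701158330362224456499200, .ofNat 0, .ofNat 0, .ofNat 0, .ofNat 0, .ofNat 0, .ofNat 0, .ofNat 64191728866425415872053393542348800, .ofNat 0, .ofNat 0, .ofNat 0, .ofNat 0, .ofNat 0, .ofNat 0⟩)
    (by decide +kernel)
theorem L01283 : Good (Phi V4.P V4.D (-1) (-1)) ⟨4, 13, 3, 5, 1, 0, 2, 2, 2, 1⟩ :=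
  out_sound (S := T4.ds_mm) T4.ok_mm (w := 56) (j := 3) (by decide +kernel)
theorem L01284 : Good (Phi V4.P V4.D (-1) (-1)) ⟨3, 6, 2, 3, 1, 0, 2, 2, 2, 1⟩ :=
  out_sound (S := T4.ds_mm) T4.ok_mm (w := 48) (j := 3) (by decide +kernel)
theorem L01285 : Good (Phi V4.P V4.D (-1) (-1)) ⟨3, 7, 1, 1, 1, 0, 2, 2, 2, 1⟩ :=
  out_sound (S := T4.ds_mm) T4.ok_mm (w := 16) (j := 4) (by decide +kernel)
theorem L01286 : Good (Phi V4.P V4.D (-1) (-1)) ⟨2, 2, 1, 1, 1, 0, 2, 3, 2, 1⟩ :=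
  out_sound (S := T4.ds_mm) T4.ok_mm (w := 40) (j := 3) (by decide +kernel)
theorem L01287 : Good (Phi V4.P V4.D (-1) (-1)) ⟨4, 12, 2, 2, 1, 0, 3, 6, 2, 1⟩ :=
  out_sound (S := T4.ds_mm) T4.ok_mm (w := 56) (j := 3) (by decide +kernel)
theorem L01288 : Good (Phi V4.P V4.D (-1) (-1)) ⟨4, 13, 2, 2, 1, 0, 3, 6, 2, 1⟩ :=
  leaf_sound (S := T4.ds_mm) T4.ok_mm (w := 168) (c := ⟨⟨.negSucc 1341, .negSucc 213, .ofNat 234, .ofNat 1428, .ofNat 432, .ofNat 419⟩, ⟨.ofNat 714, .ofNat 140, .negSucc 76, .negSucc 794, .negSucc 234, .negSucc 227⟩, ⟨.ofNat 913, .ofNat 168, .negSucc 193, .negSucc 1291, .negSucc 437, .negSucc 302⟩, ⟨.negSucc 2028, .negSucc 224, .ofNat 161, .ofNat 1656, .ofNat 665, .ofNat 640⟩, ⟨.negSucc 21, .ofNat 236, .negSucc 338, .negSucc 923, .ofNat 12, .ofNat 1⟩, .ofNat 770, .ofNat 904, .ofNat 0, .ofNat 904, .ofNat 1886, .ofNat 0, .ofNat 149, .negSucc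 243, .negSucc 481, .ofNat 0, .ofNat 172, .ofNat 249, .ofNat 0, .ofNat 0, .ofNat 621, .ofNat 786, .ofNat 0, .ofNat 0, .ofNat 6124960570654277377228800, .ofNat 0, .ofNat 0, .ofNat 0, .ofNat 0, .ofNat 0, .ofNat 0, .ofNat 16353264464657964452249232998400, .ofNat 109585052777115390600806400, .ofNat 0, .ofNat 0, .ofNat 0, .ofNat 106440656230283412661862400, .ofNat 0⟩)
    (by decide +kernel)
theorem L01289 : Good (Phi V4.P V4.D (-1) (-1)) ⟨3, 6, 2, 3, 1, 0, 3, 6, 2, 1⟩ :=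
  out_sound (S := T4.ds_mm) T4.ok_mm (w := 48) (j := 3) (by decide +kernel)
theorem L01290 : Good (Phi V4.P V4.D (-1) (-1)) ⟨3, 7, 1, 1, 1, 0, 3, 6, 2, 1⟩ :=
  out_sound (S := T4.ds_mm) T4.ok_mm (w := 16) (j := 4) (by decide +kernel)
theorem L01291 : Good (Phi V4.P V4.D (-1) (-1)) ⟨4, 12, 2, 2, 1, 0, 3, 7, 2, 1⟩ :=
  out_sound (S := T4.ds_mm) T4.ok_mm (w := 56) (j := 3) (by decide +kernel)
theorem L01292 : Good (Phi V4.P V4.D (-1) (-1)) ⟨5, 26, 3, 4, 1, 0, 3, 7, 2, 1⟩ :=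
  out_sound (S := T4.ds_mm) T4.ok_mm (w := 64) (j := 3) (by decide +kernel)
theorem L01293 : Good (Phi V4.P V4.D (-1) (-1)) ⟨5, 27, 3, 4, 1, 0, 4, 14, 2, 1⟩ :=
  leaf_sound (S := T4.ds_mm) T4.ok_mm (w := 176) (c := ⟨⟨.negSucc 1277, .ofNat 200, .negSucc 144, .ofNat 1957, .ofNat 391, .ofNat 500⟩, ⟨.ofNat 700, .negSucc 101, .ofNat 91, .negSucc 1085, .negSucc 216, .negSucc 274⟩, ⟨.ofNat 790, .negSucc 174, .ofNat 130, .negSucc 1764, .negSucc 383, .negSucc 379⟩, ⟨.negSucc 1932, .ofNat 388, .negSucc 317, .ofNat 2563, .ofNat 603, .ofNat 795⟩, ⟨.ofNat 6, .ofNat 142, .negSucc 147, .negSucc 738, .ofNat 23, .ofNat 65⟩, .ofNat 769, .ofNat 901, .ofNat 0, .ofNat 901, .ofNat 1884, .ofNat 0, .ofNat 153, .negSucc 245, .negSucc 619, .ofNat 0, .ofNat 174, .ofNat 317, .ofNat 0, .ofNat 0, .ofNat 733, .ofNat 622, .ofNat 0, .ofNat 74967835426383364287001893273600, .ofNat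 0, .ofNat 0, .ofNat 0, .ofNat 0, .ofNat 0, .ofNat 0, .ofNat 0, .ofNat 11416840456651718691963063081369600, .ofNat 0, .ofNat 0, .ofNat 0, .ofNat 0, .ofNat 0, .ofNat 0⟩)
    (by decide +kernel)
theorem L01294 : Good (Phi V4.P V4.D (-1) (-1)) ⟨6, 54, 4, 8, 1, 0, 4, 15, 2, 1⟩ :=
  leaf_sound (S := T4.ds_mm) T4.ok_mm (w := 184) (c := ⟨⟨.negSucc 1065, .ofNat 162, .negSucc 56, .ofNat 2377, .ofNat 837, .ofNat 531⟩, ⟨.ofNat 585, .negSucc 98, .ofNat 39, .negSucc 1299, .negSucc 457, .negSucc 287⟩, ⟨.ofNat 581, .negSucc 171, .ofNat 71, .negSucc 2168, .negSucc 831, .negSucc 406⟩, ⟨.negSucc 1626, .ofNat 257, .negSucc 100, .ofNat 3359, .ofNat 1288, .ofNat 835⟩, ⟨.negSucc 19, .ofNat 44, .negSucc 38, .negSucc 477, .ofNat 30, .ofNat 52⟩, .ofNat 1701, .ofNat 2566, .ofNat 0, .ofNat 2566, .ofNat 4962, .ofNat 0, .ofNat 107, .negSucc 269, .negSucc 725, .ofNat 0, .ofNat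 166, .ofNat 384, .ofNat 0, .ofNat 0, .ofNat 825, .ofNat 537, .ofNat 0, .ofNat 21147403988041539820962170535936000, .ofNat 0, .ofNat 0, .ofNat 0, .ofNat 0, .ofNat 0, .ofNat 0, .ofNat 0, .ofNat 1602947810675136127264910135525376000, .ofNat 0, .ofNat 0, .ofNat 0, .ofNat 0, .ofNat 0, .ofNat 0⟩)
    (by decide +kernel)
theorem L01295 : Good (Phi V4.P V4.D (-1) (-1)) ⟨6, 55, 4, 8, 1, 0, 4, 15, 2, 1⟩ :=
  leaf_sound (S := T4.ds_mm) T4.ok_mm (w := 184) (c := ⟨⟨.negSucc 655, .ofNat 75, .negSucc 407, .ofNat 2519, .ofNat 867, .ofNat 532⟩, ⟨.ofNat 375, .negSucc 48, .ofNat 226, .negSucc 1423, .negSucc 488, .negSucc 299⟩, ⟨.ofNat 173, .negSucc 52, .ofNat 398, .negSucc 2299, .negSucc 858, .negSucc 400⟩, ⟨.negSucc 927, .ofNat 43, .negSucc 677, .ofNat 3507, .ofNat 1327, .ofNat 831⟩, ⟨.ofNat 101, .negSucc 105, .negSucc 102, .negSucc 517, .ofNat 32, .ofNat 50⟩, .ofNat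 4696, .ofNat 7773, .ofNat 0, .ofNat 7773, .ofNat 14001, .ofNat 0, .ofNat 129, .negSucc 577, .negSucc 1491, .ofNat 0, .ofNat 340, .ofNat 835, .ofNat 0, .ofNat 0, .ofNat 1683, .ofNat 1037, .ofNat 0, .ofNat 39820812315840301107562000102195200, .ofNat 93783994772083031841177600, .ofNat 0, .ofNat 0, .ofNat 777932670557335220483465245674700800, .ofNat 41369489979097990508524339200, .ofNat 0, .ofNat 0, .ofNat 2799657336822948107442714735909273600, .ofNat 33806570760416036085615820800, .ofNat 0, .ofNat 0, .ofNat 0, .ofNat 12365028289198342114010726400, .ofNat 0⟩)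
    (by decide +kernel)
theorem L01296 : Good (Phi V4.P V4.D (-1) (-1)) ⟨6, 54, 4, 9, 1, 0, 4, 15, 2, 1⟩ :=
  out_sound (S := T4.ds_mm) T4.ok_mm (w := 72) (j := 3) (by decide +kernel)
theorem L01297 : Good (Phi V4.P V4.D (-1) (-1)) ⟨7, 110, 5, 18, 1, 0, 4, 15, 3, 2⟩ :=
  leaf_sound (S := T4.ds_mm) T4.ok_mm (w := 200) (c := ⟨⟨.negSucc 1077, .negSucc 244, .ofNat 192, .ofNat 2793, .ofNat 1008, .ofNat 369⟩, ⟨.ofNat 619, .ofNat 135, .negSucc 109, .negSucc 1598, .negSucc 575, .negSucc 210⟩, ⟨.ofNat 581, .ofNat 243, .negSucc 195, .negSucc 2565, .negSucc 994, .negSucc 290⟩, ⟨.negSucc 1605, .negSucc 423, .ofNat 328, .ofNat 3904, .ofNat 1545, .ofNat 579⟩, ⟨.ofNat 22, .negSucc 90, .ofNat 73, .negSucc 516, .ofNat 51, .ofNat 43⟩, .ofNat 5800, .ofNat 9609, .ofNat 0, .ofNat 9609, .ofNat 17032, .ofNat 0, .ofNat 115, .negSucc 607, .negSucc 1709, .ofNat 0, .ofNat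 358, .ofNat 972, .ofNat 0, .ofNat 0, .ofNat 1888, .ofNat 2110, .ofNat 0, .ofNat 24577688530893107279332818766371225600, .ofNat 0, .ofNat 0, .ofNat 0, .ofNat 0, .ofNat 0, .ofNat 0, .ofNat 0, .ofNat 1846578763842697800978366934396226764800, .ofNat 0, .ofNat 0, .ofNat 0, .ofNat 1043475541256014914167113487926217932800, .ofNat 0, .ofNat 0⟩)
    (by decide +kernel)
theorem L01298 : Good (Phi V4.P V4.D (-1) (-1)) ⟨7, 111, 5, 18, 1, 0, 4, 15, 3, 2⟩ :=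
  out_sound (S := T4.ds_mm) T4.ok_mm (w := 24) (j := 4) (by decide +kernel)
theorem L01299 : Good (Phi V4.P V4.D (-1) (-1)) ⟨7, 110, 5, 19, 1, 0, 4, 15, 3, 2⟩ :=
  out_sound (S := T4.ds_mm) T4.ok_mm (w := 80) (j := 3) (by decide +kernel)
theorem L01300 : Good (Phi V4.P V4.D (-1) (-1)) ⟨7, 111, 5, 19, 1, 0, 4, 15, 3, 2⟩ :=
  out_sound (S := T4.ds_mm) T4.ok_mm (w := 24) (j := 4) (by decide +kernel)
theorem L01301 : Good (Phi V4.P V4.D (-1) (-1)) ⟨7, 110, 5, 18, 1, 0, 4, 15, 3, 3⟩ :=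
  leaf_sound (S := T4.ds_mm) T4.ok_mm (w := 200) (c := ⟨⟨.negSucc 883, .ofNat 43, .ofNat 104, .ofNat 3057, .ofNat 918, .ofNat 191⟩, ⟨.ofNat 507, .negSucc 23, .negSucc 63, .negSucc 1751, .negSucc 525, .negSucc 108⟩, ⟨.ofNat 466, .negSucc 44, .negSucc 100, .negSucc 2837, .negSucc 913, .negSucc 139⟩, ⟨.negSucc 1335, .ofNat 73, .ofNat 144, .ofNat 4385, .ofNat 1396, .ofNat 300⟩, ⟨.negSucc 14, .ofNat 15, .negSucc 14, .negSucc 366, .ofNat 29, .ofNat 21⟩, .ofNat 14815, .ofNat 25315, .ofNat 0, .ofNat 25315, .ofNat 44402, .ofNat 0, .ofNat 67, .negSucc 541, .negSucc 1349, .ofNat 0, .ofNat 315, .ofNat 772, .ofNat 0, .ofNat 0, .ofNat 1546, .ofNat 1158, .ofNat 0, .ofNat 13659953189502258214473865186875801600, .ofNat 0, .ofNat 0, .ofNat 0, .ofNat 0, .ofNat 598615502471924598767930572800, .ofNat 0, .ofNat 0, .ofNat 1469488400490644382180109276247438131200, .ofNat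 0, .ofNat 0, .ofNat 0, .ofNat 0, .ofNat 66266173380190802179365273600, .ofNat 0⟩)
    (by decide +kernel)
theorem L01302 : Good (Phi V4.P V4.D (-1) (-1)) ⟨7, 111, 5, 18, 1, 0, 4, 15, 3, 3⟩ :=
  out_sound (S := T4.ds_mm) T4.ok_mm (w := 24) (j := 4) (by decide +kernel)
theorem L01303 : Good (Phi V4.P V4.D (-1) (-1)) ⟨7, 110, 5, 19, 1, 0, 4, 15, 3, 3⟩ :=
  out_sound (S := T4.ds_mm) T4.ok_mm (w := 80) (j := 3) (by decide +kernel)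
theorem L01304 : Good (Phi V4.P V4.D (-1) (-1)) ⟨7, 111, 5, 19, 1, 0, 4, 15, 3, 3⟩ :=
  out_sound (S := T4.ds_mm) T4.ok_mm (w := 24) (j := 4) (by decide +kernel)
theorem L01305 : Good (Phi V4.P V4.D (-1) (-1)) ⟨4, 13, 3, 5, 1, 0, 3, 7, 2, 1⟩ :=
  out_sound (S := T4.ds_mm) T4.ok_mm (w := 56) (j := 3) (by decide +kernel)
theorem L01306 : Good (Phi V4.P V4.D (-1) (-1)) ⟨3, 7, 2, 2, 1, 0, 3, 7, 2, 1⟩ :=
  out_sound (S := T4.ds_mm) T4.ok_mm (w := 16) (j := 4) (by decide +kernel)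
theorem L01307 : Good (Phi V4.P V4.D (-1) (-1)) ⟨3, 6, 2, 3, 1, 0, 3, 7, 2, 1⟩ :=
  out_sound (S := T4.ds_mm) T4.ok_mm (w := 48) (j := 3) (by decide +kernel)
theorem L01308 : Good (Phi V4.P V4.D (-1) (-1)) ⟨3, 7, 2, 3, 1, 0, 3, 7, 2, 1⟩ :=
  out_sound (S := T4.ds_mm) T4.ok_mm (w := 16) (j := 4) (by decide +kernel)
theorem L01309 : Good (Phi V4.P V4.D (-1) (-1)) ⟨2, 2, 1, 1, 2, 2, 1, 0, 2, 0⟩ :=
  out_sound (S := T4.ds_mm) T4.ok_mm (w := 40) (j := 3) (by decide +kernel)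
theorem L01310 : Good (Phi V4.P V4.D (-1) (-1)) ⟨4, 12, 1, 1, 3, 4, 1, 0, 3, 0⟩ :=
  out_sound (S := T4.ds_mm) T4.ok_mm (w := 48) (j := 3) (by decide +kernel)
theorem L01311 : Good (Phi V4.P V4.D (-1) (-1)) ⟨5, 26, 3, 4, 3, 4, 1, 0, 3, 0⟩ :=
  out_sound (S := T4.ds_mm) T4.ok_mm (w := 64) (j := 3) (by decide +kernel)
theorem L01312 : Good (Phi V4.P V4.D (-1) (-1)) ⟨6, 54, 4, 8, 3, 4, 1, 0, 4, 0⟩ :=
  leaf_sound (S := T4.ds_mm) T4.ok_mm (w := 200) (c := ⟨⟨.ofNat 2592, .ofNat 101, .ofNat 291, .ofNat 334, .negSucc 1712, .negSucc 1862⟩, ⟨.negSucc 1399, .negSucc 94, .negSucc 151, .negSucc 180, .ofNat 926, .ofNat 1019⟩, ⟨.negSucc 2007, .negSucc 55, .negSucc 271, .negSucc 117, .ofNat 789, .ofNat 1515⟩, ⟨.ofNat 3485, .ofNat 136, .ofNat 302, .ofNat 408, .negSucc 2757, .negSucc 2631⟩, ⟨.negSucc 920, .ofNat 31, .negSucc 177, .negSucc 186, .negSucc 273, .ofNat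 371⟩, .ofNat 751, .ofNat 876, .ofNat 0, .ofNat 876, .ofNat 1859, .ofNat 0, .ofNat 97, .negSucc 190, .negSucc 564, .ofNat 0, .ofNat 123, .ofNat 301, .ofNat 0, .ofNat 0, .ofNat 502, .ofNat 683, .ofNat 0, .ofNat 0, .ofNat 770863716970174996724632780800, .ofNat 0, .ofNat 0, .ofNat 0, .ofNat 0, .ofNat 0, .ofNat 0, .ofNat 0, .ofNat 38940156994822364024671725158400, .ofNat 0, .ofNat 0, .ofNat 0, .ofNat 0, .ofNat 0⟩)
    (by decide +kernel)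
theorem L01313 : Good (Phi V4.P V4.D (-1) (-1)) ⟨6, 54, 4, 8, 3, 4, 2, 0, 4, 1⟩ :=
  leaf_sound (S := T4.ds_mm) T4.ok_mm (w := 200) (c := ⟨⟨.ofNat 592, .ofNat 278, .negSucc 223, .ofNat 134, .negSucc 684, .negSucc 1688⟩, ⟨.negSucc 336, .negSucc 173, .ofNat 181, .negSucc 80, .ofNat 372, .ofNat 920⟩, ⟨.negSucc 409, .negSucc 248, .ofNat 230, .negSucc 128, .ofNat 344, .ofNat 1335⟩, ⟨.ofNat 578, .ofNat 376, .negSucc 303, .ofNat 116, .negSucc 1077, .negSucc 2315⟩, ⟨.negSucc 602, .negSucc 84, .ofNat 67, .negSucc 154, .negSucc 66, .ofNat 479⟩, .ofNat 1703, .ofNat 2572, .ofNat 0, .ofNat 2572, .ofNat 4973, .ofNat 0, .ofNat 123, .negSucc 401, .negSucc 905, .ofNat 0, .ofNat 235, .ofNat 493, .ofNat 0, .ofNat 0, .ofNat 828, .ofNat 2286, .ofNat 1347759866298254542405496737279613337600, .ofNat 0, .ofNat 6443289047053926882240941260800, .ofNat 0, .ofNat 0, .ofNat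 0, .ofNat 0, .ofNat 0, .ofNat 0, .ofNat 0, .ofNat 0, .ofNat 0, .ofNat 0, .ofNat 0, .ofNat 0, .ofNat 0⟩)
    (by decide +kernel)
theorem L01314 : Good (Phi V4.P V4.D (-1) (-1)) ⟨6, 54, 4, 8, 3, 4, 2, 1, 4, 1⟩ :=
  leaf_sound (S := T4.ds_mm) T4.ok_mm (w := 200) (c := ⟨⟨.negSucc 314, .ofNat 259, .negSucc 153, .negSucc 60, .negSucc 248, .negSucc 1082⟩, ⟨.ofNat 143, .negSucc 140, .ofNat 133, .ofNat 31, .ofNat 134, .ofNat 592⟩, ⟨.ofNat 92, .negSucc 129, .ofNat 33, .negSucc 13, .ofNat 79, .ofNat 935⟩, ⟨.negSucc 794, .ofNat 368, .negSucc 238, .negSucc 171, .negSucc 475, .negSucc 1480⟩, ⟨.negSucc 572, .negSucc 85, .ofNat 29, .negSucc 145, .negSucc 181, .ofNat 309⟩, .ofNat 1706, .ofNat 2578, .ofNat 0, .ofNat 2578, .ofNat 4986, .ofNat 0, .ofNat 127, .negSucc 394, .negSucc 1022, .ofNat 0, .ofNat 232, .ofNat 556, .ofNat 0, .ofNat 0, .ofNat 969, .ofNat 2672,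 .ofNat 0, .ofNat 0, .ofNat 0, .ofNat 0, .ofNat 0, .ofNat 0, .ofNat 0, .ofNat 0, .ofNat 0, .ofNat 0, .ofNat 2199945104037626831237997291110400, .ofNat 0, .ofNat 0, .ofNat 0, .ofNat 3994300769714885977726646432563200, .ofNat 0⟩)
    (by decide +kernel)
theorem L01315 : Good (Phi V4.P V4.D (-1) (-1)) ⟨6, 54, 4, 9, 3, 4, 1, 0, 3, 0⟩ :=
  out_sound (S := T4.ds_mm) T4.ok_mm (w := 72) (j := 3) (by decide +kernel)
theorem L01316 : Good (Phi V4.P V4.D (-1) (-1)) ⟨6, 55, 5, 16, 3, 4, 1, 0, 3, 0⟩ :=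
  out_sound (S := T4.ds_mm) T4.ok_mm (w := 72) (j := 3) (by decide +kernel)
theorem L01317 : Good (Phi V4.P V4.D (-1) (-1)) ⟨6, 55, 6, 34, 3, 4, 1, 0, 3, 0⟩ :=
  out_sound (S := T4.ds_mm) T4.ok_mm (w := 72) (j := 3) (by decide +kernel)
theorem L01318 : Good (Phi V4.P V4.D (-1) (-1)) ⟨8, 220, 6, 35, 3, 4, 1, 0, 4, 0⟩ :=
  leaf_sound (S := T4.ds_mm) T4.ok_mm (w := 216) (c := ⟨⟨.ofNat 2834, .negSucc 198, .ofNat 248, .ofNat 488, .negSucc 1712, .negSucc 1898⟩, ⟨.negSucc 1593, .ofNat 110, .negSucc 149, .negSucc 275, .ofNat 962, .ofNat 1071⟩, ⟨.negSucc 2181, .ofNat 205, .negSucc 279, .negSucc 189, .ofNat 764, .ofNat 1554⟩, ⟨.ofNat 3715, .negSucc 343, .ofNat 349, .ofNat 632, .negSucc 2742, .negSucc 2650⟩, ⟨.negSucc 1021, .negSucc 64, .negSucc 19, .negSucc 185, .negSucc 277, .ofNat 384⟩, .ofNat 4636, .ofNat 7671, .ofNat 0, .ofNat 7671, .ofNat 13827, .ofNat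 0, .ofNat 37, .negSucc 205, .negSucc 534, .ofNat 0, .ofNat 119, .ofNat 302, .ofNat 0, .ofNat 0, .ofNat 481, .ofNat 769, .ofNat 0, .ofNat 0, .ofNat 1676554305290497415039680512000, .ofNat 0, .ofNat 0, .ofNat 0, .ofNat 0, .ofNat 0, .ofNat 0, .ofNat 0, .ofNat 0, .ofNat 0, .ofNat 0, .ofNat 0, .ofNat 0, .ofNat 0⟩)
    (by decide +kernel)
theorem L01319 : Good (Phi V4.P V4.D (-1) (-1)) ⟨8, 220, 6, 35, 3, 4, 2, 0, 4, 1⟩ :=
  leaf_sound (S := T4.ds_mm) T4.ok_mm (w := 216) (c := ⟨⟨.ofNat 912, .ofNat 364, .negSucc 341, .ofNat 96, .negSucc 683, .negSucc 1898⟩, ⟨.negSucc 522, .negSucc 208, .ofNat 203, .negSucc 54, .ofNat 385, .ofNat 1073⟩, ⟨.negSucc 660, .negSucc 307, .ofNat 301, .negSucc 99, .ofNat 346, .ofNat 1475⟩, ⟨.ofNat 973, .ofNat 483, .negSucc 455, .ofNat 66, .negSucc 1069, .negSucc 2553⟩, ⟨.negSucc 715, .negSucc 113, .ofNat 107, .negSucc 140, .negSucc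 68, .ofNat 554⟩, .ofNat 2055, .ofNat 3124, .ofNat 0, .ofNat 3124, .ofNat 5792, .ofNat 0, .ofNat 107, .negSucc 412, .negSucc 956, .ofNat 0, .ofNat 244, .ofNat 539, .ofNat 0, .ofNat 0, .ofNat 852, .ofNat 2943, .ofNat 0, .ofNat 0, .ofNat 0, .ofNat 0, .ofNat 0, .ofNat 0, .ofNat 0, .ofNat 0, .ofNat 0, .ofNat 0, .ofNat 0, .ofNat 0, .ofNat 0, .ofNat 0, .ofNat 0, .ofNat 0⟩)
    (by decide +kernel)
theorem L01320 : Good (Phi V4.P V4.D (-1) (-1)) ⟨8, 220, 6, 35, 3, 4, 2, 1, 4, 1⟩ :=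
  leaf_sound (S := T4.ds_mm) T4.ok_mm (w := 216) (c := ⟨⟨.negSucc 111, .ofNat 336, .negSucc 268, .ofNat 9, .negSucc 236, .negSucc 1219⟩, ⟨.ofNat 52, .negSucc 191, .ofNat 165, .negSucc 5, .ofNat 133, .ofNat 690⟩, ⟨.negSucc 89, .negSucc 346, .ofNat 292, .negSucc 59, .ofNat 67, .ofNat 1049⟩, ⟨.negSucc 553, .ofNat 401, .negSucc 310, .negSucc 85, .negSucc 457, .negSucc 1635⟩, ⟨.negSucc 684, .negSucc 192, .ofNat 177, .negSucc 177, .negSucc 177, .ofNat 363⟩, .ofNat 9272, .ofNat 15840, .ofNat 0, .ofNat 15840, .ofNat 28230, .ofNat 0, .ofNat 29, .negSucc 203, .negSucc 534, .ofNat 0, .ofNat 117, .ofNat 303, .ofNat 0, .ofNat 0, .ofNat 504, .ofNat 1184, .ofNat 0, .ofNat 0, .ofNat 0, .ofNat 0, .ofNat 0, .ofNat 0, .ofNat 2169632338149787640544371304038400, .ofNat 0, .ofNat 0, .ofNat 0, .ofNat 678759591808375530585549963264000, .ofNat 0, .ofNat 0, .ofNat 0, .ofNat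 924395753421226406542842003456000, .ofNat 0⟩)
    (by decide +kernel)
theorem L01321 : Good (Phi V4.P V4.D (-1) (-1)) ⟨8, 221, 6, 35, 3, 4, 1, 0, 3, 0⟩ :=
  out_sound (S := T4.ds_mm) T4.ok_mm (w := 88) (j := 3) (by decide +kernel)
theorem L01322 : Good (Phi V4.P V4.D (-1) (-1)) ⟨7, 111, 6, 35, 3, 4, 1, 0, 3, 0⟩ :=
  out_sound (S := T4.ds_mm) T4.ok_mm (w := 80) (j := 3) (by decide +kernel)
theorem L01323 : Good (Phi V4.P V4.D (-1) (-1)) ⟨7, 110, 4, 9, 3, 4, 2, 0, 4, 0⟩ :=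
  leaf_sound (S := T4.ds_mm) T4.ok_mm (w := 208) (c := ⟨⟨.ofNat 3061, .ofNat 325, .negSucc 160, .ofNat 286, .negSucc 1105, .negSucc 1927⟩, ⟨.negSucc 1738, .negSucc 210, .ofNat 87, .negSucc 163, .ofNat 633, .ofNat 1105⟩, ⟨.negSucc 2336, .negSucc 268, .ofNat 194, .ofNat 30, .ofNat 480, .ofNat 1501⟩, ⟨.ofNat 4056, .ofNat 350, .negSucc 149, .ofNat 369, .negSucc 1746, .negSucc 2740⟩, ⟨.negSucc 994, .negSucc 175, .ofNat 188, .negSucc 106, .negSucc 146, .ofNat 274⟩, .ofNat 2230, .ofNat 3398, .ofNat 0, .ofNat 3398, .ofNat 6203, .ofNat 0, .ofNat 50, .negSucc 207, .negSucc 519, .ofNat 0, .ofNat 124, .ofNat 295, .ofNat 0, .ofNat 0, .ofNat 446, .ofNat 2850, .ofNat 0, .ofNat 0, .ofNat 0, .ofNat 0, .ofNat 0, .ofNat 0, .ofNat 0, .ofNat 0, .ofNat 0, .ofNat 0, .ofNat 0, .ofNat 0, .ofNat 0, .ofNat 0, .ofNat 11835235855617709145223226982400, .ofNat 0⟩)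
    (by decide +kernel)
theorem L01324 : Good (Phi V4.P V4.D (-1) (-1)) ⟨7, 110, 4, 9, 3, 4, 2, 1, 4, 0⟩ :=
  leaf_sound (S := T4.ds_mm) T4.ok_mm (w := 208) (c := ⟨⟨.ofNat 2080, .ofNat 1, .ofNat 385, .ofNat 426, .negSucc 610, .negSucc 2092⟩, ⟨.negSucc 1187, .negSucc 10, .negSucc 218, .negSucc 245, .ofNat 350, .ofNat 1200⟩, ⟨.negSucc 1943, .ofNat 15, .negSucc 287, .negSucc 230, .ofNat 250, .ofNat 1747⟩, ⟨.ofNat 2415, .negSucc 12, .ofNat 484, .ofNat 492, .negSucc 993, .negSucc 2832⟩, ⟨.negSucc 1278, .ofNat 28, .negSucc 147, .negSucc 257, .negSucc 131, .ofNat 546⟩, .ofNat 14619, .ofNat 24981, .ofNat 0, .ofNat 24981, .ofNat 43837, .ofNat 0, .ofNat 21, .negSucc 210, .negSucc 614, .ofNat 0, .ofNat 122, .ofNat 352, .ofNat 0, .ofNat 0, .ofNat 558, .ofNat 994, .ofNat 0, .ofNat 0, .ofNat 3455954973218834227265745715200, .ofNat 0, .ofNat 0, .ofNat 0, .ofNat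 1496498681132124212728499798016000, .ofNat 0, .ofNat 0, .ofNat 0, .ofNat 282035415585535682798701825228800, .ofNat 0, .ofNat 0, .ofNat 0, .ofNat 188159207915004232915004424192000, .ofNat 0⟩)
    (by decide +kernel)
theorem L01325 : Good (Phi V4.P V4.D (-1) (-1)) ⟨7, 111, 4, 9, 3, 4, 1, 0, 4, 0⟩ :=
  out_sound (S := T4.ds_mm) T4.ok_mm (w := 24) (j := 4) (by decide +kernel)
theorem L01326 : Good (Phi V4.P V4.D (-1) (-1)) ⟨7, 110, 5, 18, 3, 4, 2, 0, 4, 1⟩ :=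
  leaf_sound (S := T4.ds_mm) T4.ok_mm (w := 216) (c := ⟨⟨.ofNat 767, .ofNat 226, .negSucc 209, .ofNat 176, .negSucc 703, .negSucc 1936⟩, ⟨.negSucc 448, .negSucc 119, .ofNat 126, .negSucc 100, .ofNat 403, .ofNat 1111⟩, ⟨.negSucc 522, .negSucc 157, .ofNat 127, .negSucc 139, .ofNat 347, .ofNat 1485⟩, ⟨.ofNat 766, .ofNat 306, .negSucc 297, .ofNat 170, .negSucc 1097, .negSucc 2582⟩, ⟨.negSucc 675, .negSucc 59, .ofNat 38, .negSucc 164, .negSucc 67, .ofNat 573⟩, .ofNat 15090, .ofNat 25785, .ofNat 0, .ofNat 25785, .ofNat 45207, .ofNat 0, .ofNat 40, .negSucc 426, .negSucc 983, .ofNat 0, .ofNat 246, .ofNat 564, .ofNat 0, .ofNat 0, .ofNat 868, .ofNat 2224, .ofNat 72949743804379422522745215301745796710400, .ofNat 0, .ofNat 24620590046340224688322510848000, .ofNat 0, .ofNat 0, .ofNat 0, .ofNat 11539947349074665979661812498432000, .ofNat 0, .ofNat 0, .ofNat 0,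 .ofNat 0, .ofNat 0, .ofNat 0, .ofNat 0, .ofNat 0, .ofNat 0⟩)
    (by decide +kernel)
theorem L01327 : Good (Phi V4.P V4.D (-1) (-1)) ⟨7, 110, 5, 18, 3, 4, 2, 1, 4, 1⟩ :=
  leaf_sound (S := T4.ds_mm) T4.ok_mm (w := 208) (c := ⟨⟨.negSucc 161, .negSucc 114, .ofNat 218, .negSucc 21, .negSucc 181, .negSucc 1192⟩, ⟨.ofNat 82, .ofNat 75, .negSucc 110, .ofNat 12, .ofNat 104, .ofNat 683⟩, ⟨.negSucc 34, .ofNat 118, .negSucc 203, .negSucc 51, .ofNat 23, .ofNat 1028⟩, ⟨.negSucc 615, .negSucc 139, .ofNat 262, .negSucc 129, .negSucc 383, .negSucc 1590⟩, ⟨.negSucc 652, .ofNat 63, .negSucc 116, .negSucc 170, .negSucc 194, .ofNat 356⟩, .ofNat 2218, .ofNat 3380, .ofNat 0, .ofNat 3380, .ofNat 6177, .ofNat 0, .ofNat 52, .negSucc 198, .negSucc 546, .ofNat 0, .ofNat 119, .ofNat 311, .ofNat 0, .ofNat 0, .ofNat 513, .ofNat 1249, .ofNat 0, .ofNat 0, .ofNat 0, .ofNat 0,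 .ofNat 0, .ofNat 0, .ofNat 0, .ofNat 0, .ofNat 0, .ofNat 0, .ofNat 0, .ofNat 0, .ofNat 0, .ofNat 0, .ofNat 0, .ofNat 0⟩)
    (by decide +kernel)
theorem L01328 : Good (Phi V4.P V4.D (-1) (-1)) ⟨7, 110, 5, 19, 3, 4, 1, 0, 4, 1⟩ :=
  out_sound (S := T4.ds_mm) T4.ok_mm (w := 80) (j := 3) (by decide +kernel)
theorem L01329 : Good (Phi V4.P V4.D (-1) (-1)) ⟨7, 111, 4, 9, 3, 4, 1, 0, 4, 1⟩ :=
  out_sound (S := T4.ds_mm) T4.ok_mm (w := 24) (j := 4) (by decide +kernel)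
theorem L01330 : Good (Phi V4.P V4.D (-1) (-1)) ⟨4, 13, 3, 5, 3, 4, 1, 0, 3, 0⟩ :=
  out_sound (S := T4.ds_mm) T4.ok_mm (w := 56) (j := 3) (by decide +kernel)
theorem L01331 : Good (Phi V4.P V4.D (-1) (-1)) ⟨4, 13, 2, 3, 3, 4, 1, 0, 3, 0⟩ :=
  out_sound (S := T4.ds_mm) T4.ok_mm (w := 56) (j := 3) (by decide +kernel)
theorem L01332 : Good (Phi V4.P V4.D (-1) (-1)) ⟨4, 12, 1, 1, 3, 5, 1, 0, 3, 0⟩ :=
  out_sound (S := T4.ds_mm) T4.ok_mm (w := 48) (j := 3) (by decide +kernel)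
theorem L01333 : Good (Phi V4.P V4.D (-1) (-1)) ⟨5, 26, 3, 4, 3, 5, 1, 0, 3, 0⟩ :=
  out_sound (S := T4.ds_mm) T4.ok_mm (w := 64) (j := 3) (by decide +kernel)
theorem L01334 : Good (Phi V4.P V4.D (-1) (-1)) ⟨6, 54, 3, 4, 3, 5, 2, 0, 4, 0⟩ :=
  leaf_sound (S := T4.ds_mm) T4.ok_mm (w := 200) (c := ⟨⟨.ofNat 2694, .ofNat 538, .negSucc 486, .negSucc 272, .negSucc 1018, .negSucc 1406⟩, ⟨.negSucc 1445, .negSucc 289, .ofNat 137, .ofNat 148, .ofNat 551, .ofNat 760⟩, ⟨.negSucc 1720, .negSucc 219, .ofNat 157, .ofNat 509, .ofNat 231, .ofNat 932⟩, ⟨.ofNat 3729, .ofNat 723, .negSucc 782, .negSucc 219, .negSucc 1708, .negSucc 2218⟩, ⟨.negSucc 758, .negSucc 144, .ofNat 153, .ofNat 364, .negSucc 292, .negSucc 137⟩, .ofNat 1729, .ofNat 2611, .ofNat 0, .ofNat 2611, .ofNat 5028, .ofNat 0, .ofNat 130, .negSucc 502, .negSucc 945, .ofNat 0, .ofNat 289, .ofNat 514, .ofNat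 0, .ofNat 0, .ofNat 740, .ofNat 2222, .ofNat 0, .ofNat 0, .ofNat 0, .ofNat 0, .ofNat 0, .ofNat 0, .ofNat 0, .ofNat 0, .ofNat 0, .ofNat 0, .ofNat 0, .ofNat 0, .ofNat 0, .ofNat 0, .ofNat 0, .ofNat 0⟩)
    (by decide +kernel)
theorem L01335 : Good (Phi V4.P V4.D (-1) (-1)) ⟨6, 54, 3, 4, 3, 5, 2, 1, 4, 0⟩ :=
  leaf_sound (S := T4.ds_mm) T4.ok_mm (w := 200) (c := ⟨⟨.ofNat 2032, .ofNat 263, .ofNat 20, .negSucc 311, .negSucc 752, .negSucc 1902⟩, ⟨.negSucc 1105, .negSucc 193, .ofNat 56, .ofNat 171, .ofNat 405, .ofNat 1043⟩, ⟨.negSucc 1668, .negSucc 251, .ofNat 132, .ofNat 415, .ofNat 289, .ofNat 1425⟩, ⟨.ofNat 2466, .ofNat 253, .ofNat 100, .negSucc 354, .negSucc 1250, .negSucc 2708⟩, ⟨.negSucc 1219, .negSucc 174, .ofNat 177, .ofNat 222, .negSucc 189, .ofNat 338⟩, .ofNat 3363, .ofNat 5552, .ofNat 0, .ofNat 5552, .ofNat 10349, .ofNat 0, .ofNat 50, .negSucc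 235, .negSucc 586, .ofNat 0, .ofNat 134, .ofNat 322, .ofNat 0, .ofNat 0, .ofNat 485, .ofNat 964, .ofNat 0, .ofNat 0, .ofNat 0, .ofNat 0, .ofNat 0, .ofNat 0, .ofNat 676677968555714961365457174528000, .ofNat 0, .ofNat 0, .ofNat 0, .ofNat 251307617556447378644450829926400, .ofNat 0, .ofNat 0, .ofNat 0, .ofNat 0, .ofNat 0⟩)
    (by decide +kernel)
theorem L01336 : Good (Phi V4.P V4.D (-1) (-1)) ⟨6, 55, 4, 8, 3, 5, 2, 0, 4, 0⟩ :=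
  leaf_sound (S := T4.ds_mm) T4.ok_mm (w := 200) (c := ⟨⟨.ofNat 3345, .ofNat 418, .negSucc 143, .negSucc 286, .negSucc 1051, .negSucc 1643⟩, ⟨.negSucc 1864, .negSucc 266, .ofNat 56, .ofNat 163, .ofNat 592, .ofNat 927⟩, ⟨.negSucc 2142, .negSucc 305, .ofNat 145, .ofNat 563, .ofNat 240, .ofNat 1089⟩, ⟨.ofNat 4529, .ofNat 515, .negSucc 222, .negSucc 225, .negSucc 1748, .negSucc 2487⟩, ⟨.negSucc 992, .negSucc 127, .ofNat 61, .ofNat 366, .negSucc 285, .negSucc 11⟩, .ofNat 2059, .ofNat 3130, .ofNat 0, .ofNat 3130, .ofNat 5801, .ofNat 0, .ofNat 57, .negSucc 252, .negSucc 516, .ofNat 0, .ofNat 148, .ofNat 290, .ofNat 0, .ofNat 0, .ofNat 396, .ofNat 1503, .ofNat 0, .ofNat 0, .ofNat 121131979211589512867678571724800, .ofNat 0, .ofNat 0, .ofNat 0, .ofNat 3046186919430015481096373167718400, .ofNat 0, .ofNat 47721950646930315912916747910703690547200, .ofNat 0,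 .ofNat 669885941742876571025367524966400, .ofNat 0, .ofNat 0, .ofNat 0, .ofNat 1345764316360713808058103575347200, .ofNat 0⟩)
    (by decide +kernel)
theorem L01337 : Good (Phi V4.P V4.D (-1) (-1)) ⟨6, 55, 4, 8, 3, 5, 2, 1, 4, 0⟩ :=
  leaf_sound (S := T4.ds_mm) T4.ok_mm (w := 200) (c := ⟨⟨.ofNat 2333, .ofNat 606, .ofNat 41, .negSucc 459, .negSucc 710, .negSucc 1906⟩, ⟨.negSucc 1316, .negSucc 359, .negSucc 25, .ofNat 260, .ofNat 400, .ofNat 1077⟩, ⟨.negSucc 1798, .negSucc 248, .negSucc 138, .ofNat 541, .ofNat 254, .ofNat 1404⟩, ⟨.ofNat 2836, .ofNat 811, .negSucc 15, .negSucc 532, .negSucc 1187, .negSucc 2703⟩, ⟨.negSucc 1273, .negSucc 117, .negSucc 77, .ofNat 286, .negSucc 201, .ofNat 307⟩, .ofNat 4734, .ofNat 7835, .ofNat 0, .ofNat 7835, .ofNat 14100, .ofNat 0, .ofNat 39, .negSucc 243, .negSucc 622, .ofNat 0, .ofNat 140, .ofNat 352, .ofNat 0, .ofNat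 0, .ofNat 501, .ofNat 736, .ofNat 0, .ofNat 0, .ofNat 42347938834692970517693988864000, .ofNat 0, .ofNat 0, .ofNat 0, .ofNat 3096285301244465065252622853734400, .ofNat 0, .ofNat 0, .ofNat 0, .ofNat 2152576679536644457930421383987200, .ofNat 0, .ofNat 0, .ofNat 0, .ofNat 1413602088519453686852915036160000, .ofNat 0⟩)
    (by decide +kernel)
theorem L01338 : Good (Phi V4.P V4.D (-1) (-1)) ⟨6, 55, 5, 18, 3, 5, 2, 0, 4, 0⟩ :=
  leaf_sound (S := T4.ds_mm) T4.ok_mm (w := 200) (c := ⟨⟨.ofNat 3164, .negSucc 279, .ofNat 545, .negSucc 303, .negSucc 1038, .negSucc 1467⟩, ⟨.negSucc 1802, .ofNat 149, .negSucc 336, .ofNat 173, .ofNat 594, .ofNat 839⟩, ⟨.negSucc 1995, .ofNat 153, .negSucc 288, .ofNat 579, .ofNat 226, .ofNat 984⟩, ⟨.ofNat 4249, .negSucc 358, .ofNat 652, .negSucc 245, .negSucc 1722, .negSucc 2269⟩, ⟨.negSucc 909, .ofNat 142, .negSucc 231, .ofNat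 369, .negSucc 281, .negSucc 109⟩, .ofNat 2239, .ofNat 3413, .ofNat 0, .ofNat 3413, .ofNat 6226, .ofNat 0, .ofNat 53, .negSucc 254, .negSucc 523, .ofNat 0, .ofNat 150, .ofNat 298, .ofNat 0, .ofNat 0, .ofNat 396, .ofNat 1019, .ofNat 0, .ofNat 0, .ofNat 52597356102291808721863861862400, .ofNat 0, .ofNat 0, .ofNat 0, .ofNat 0, .ofNat 0, .ofNat 155777536536011749318842275912533986508800, .ofNat 0, .ofNat 396018526131585554906276167680000, .ofNat 0, .ofNat 0, .ofNat 0, .ofNat 1229787807628890159350145456537600, .ofNat 0⟩)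
    (by decide +kernel)
theorem L01339 : Good (Phi V4.P V4.D (-1) (-1)) ⟨7, 110, 5, 18, 3, 5, 2, 1, 4, 0⟩ :=
  leaf_sound (S := T4.ds_mm) T4.ok_mm (w := 208) (c := ⟨⟨.ofNat 2477, .ofNat 107, .ofNat 2, .negSucc 477, .negSucc 716, .negSucc 1969⟩, ⟨.negSucc 1421, .negSucc 58, .negSucc 8, .ofNat 276, .ofNat 411, .ofNat 1129⟩, ⟨.negSucc 1983, .negSucc 97, .negSucc 13, .ofNat 554, .ofNat 256, .ofNat 1489⟩, ⟨.ofNat 2944, .ofNat 114, .negSucc 22, .negSucc 561, .negSucc 1179, .negSucc 2750⟩, ⟨.negSucc 1380, .negSucc 61, .negSucc 5, .ofNat 271, .negSucc 178, .ofNat 367⟩, .ofNat 2230, .ofNat 3399, .ofNat 0, .ofNat 3399, .ofNat 6206, .ofNat 0, .ofNat 55, .negSucc 236, .negSucc 670, .ofNat 0, .ofNat 140, .ofNat 381, .ofNat 0, .ofNat 0, .ofNat 541, .ofNat 1353, .ofNat 0, .ofNat 0, .ofNat 0, .ofNat 0, .ofNat 0, .ofNat 0, .ofNat 0, .ofNat 0, .ofNat 0, .ofNat 0,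 .ofNat 0, .ofNat 0, .ofNat 0, .ofNat 0, .ofNat 275024999732193779927708860416000, .ofNat 0⟩)
    (by decide +kernel)
theorem L01340 : Good (Phi V4.P V4.D (-1) (-1)) ⟨7, 111, 5, 18, 3, 5, 2, 1, 4, 0⟩ :=
  out_sound (S := T4.ds_mm) T4.ok_mm (w := 24) (j := 4) (by decide +kernel)
theorem L01341 : Good (Phi V4.P V4.D (-1) (-1)) ⟨7, 110, 5, 19, 3, 5, 1, 0, 4, 0⟩ :=
  out_sound (S := T4.ds_mm) T4.ok_mm (w := 80) (j := 3) (by decide +kernel)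
theorem L01342 : Good (Phi V4.P V4.D (-1) (-1)) ⟨7, 111, 5, 19, 3, 5, 1, 0, 4, 0⟩ :=
  out_sound (S := T4.ds_mm) T4.ok_mm (w := 24) (j := 4) (by decide +kernel)
theorem L01343 : Good (Phi V4.P V4.D (-1) (-1)) ⟨6, 54, 4, 8, 3, 5, 2, 0, 5, 2⟩ :=
  leaf_sound (S := T4.ds_mm) T4.ok_mm (w := 208) (c := ⟨⟨.ofNat 1166, .ofNat 208, .negSucc 47, .negSucc 237, .negSucc 1075, .negSucc 1234⟩, ⟨.negSucc 640, .negSucc 148, .ofNat 74, .ofNat 130, .ofNat 581, .ofNat 672⟩, ⟨.negSucc 668, .negSucc 119, .ofNat 23, .ofNat 268, .ofNat 457, .ofNat 821⟩, ⟨.ofNat 1356, .ofNat 229, .negSucc 47, .negSucc 287, .negSucc 1659, .negSucc 1706⟩, ⟨.negSucc 800, .negSucc 140, .ofNat 76, .ofNat 140, .negSucc 35, .ofNat 322⟩, .ofNat 3175, .ofNat 5238, .ofNat 0, .ofNat 5238, .ofNat 9829, .ofNat 0, .ofNat 51, .negSucc 252, .negSucc 529, .ofNat 0, .ofNat 142, .ofNat 290, .ofNat 0, .ofNat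 0, .ofNat 412, .ofNat 450, .ofNat 0, .ofNat 0, .ofNat 0, .ofNat 0, .ofNat 0, .ofNat 0, .ofNat 35011465905285690853304996934451200, .ofNat 0, .ofNat 0, .ofNat 0, .ofNat 0, .ofNat 0, .ofNat 0, .ofNat 0, .ofNat 0, .ofNat 0⟩)
    (by decide +kernel)
theorem L01344 : Good (Phi V4.P V4.D (-1) (-1)) ⟨6, 54, 4, 8, 3, 5, 2, 0, 5, 3⟩ :=
  leaf_sound (S := T4.ds_mm) T4.ok_mm (w := 208) (c := ⟨⟨.negSucc 76, .negSucc 98, .ofNat 79, .negSucc 478, .negSucc 701, .negSucc 859⟩, ⟨.ofNat 14, .ofNat 74, .negSucc 7, .ofNat 261, .ofNat 377, .ofNat 466⟩, ⟨.ofNat 165, .ofNat 56, .negSucc 41, .ofNat 274, .ofNat 324, .ofNat 554⟩, ⟨.negSucc 397, .negSucc 77, .ofNat 71, .negSucc 621, .negSucc 1140, .negSucc 1193⟩, ⟨.negSucc 498, .ofNat 63, .negSucc 48, .ofNat 203, .negSucc 128, .ofNat 218⟩, .ofNat 1710, .ofNat 2581, .ofNat 0, .ofNat 2581, .ofNat 4983, .ofNat 0, .ofNat 131,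 .negSucc 502, .negSucc 991, .ofNat 0, .ofNat 289, .ofNat 542, .ofNat 0, .ofNat 0, .ofNat 783, .ofNat 2633, .ofNat 0, .ofNat 0, .ofNat 0, .ofNat 0, .ofNat 0, .ofNat 0, .ofNat 0, .ofNat 0, .ofNat 0, .ofNat 0, .ofNat 0, .ofNat 0, .ofNat 0, .ofNat 0, .ofNat 0, .ofNat 0⟩)
    (by decide +kernel)
theorem L01345 : Good (Phi V4.P V4.D (-1) (-1)) ⟨6, 54, 4, 9, 3, 5, 2, 0, 4, 1⟩ :=
  out_sound (S := T4.ds_mm) T4.ok_mm (w := 72) (j := 3) (by decide +kernel)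
theorem L01346 : Good (Phi V4.P V4.D (-1) (-1)) ⟨6, 54, 3, 4, 3, 5, 2, 1, 4, 1⟩ :=
  leaf_sound (S := T4.ds_mm) T4.ok_mm (w := 200) (c := ⟨⟨.negSucc 67, .negSucc 230, .ofNat 956, .negSucc 428, .negSucc 404, .negSucc 1457⟩, ⟨.negSucc 0, .ofNat 156, .negSucc 472, .ofNat 232, .ofNat 218, .ofNat 797⟩, ⟨.negSucc 79, .ofNat 180, .negSucc 698, .ofNat 292, .ofNat 187, .ofNat 1074⟩, ⟨.negSucc 520, .negSucc 268, .ofNat 1188, .negSucc 596, .negSucc 740, .negSucc 2019⟩, ⟨.negSucc 757, .ofNat 98, .negSucc 389, .ofNat 108, .negSucc 231, .ofNat 370⟩, .ofNat 3133, .ofNat 5171, .ofNat 0, .ofNat 5171, .ofNat 9729, .ofNat 0, .ofNat 52, .negSucc 235, .negSucc 592, .ofNat 0, .ofNat 133, .ofNat 323, .ofNat 0, .ofNat 0, .ofNat 490, .ofNat 1023, .ofNat 0, .ofNat 0, .ofNat 16236782169233148497433408307200, .ofNat 0, .ofNat 0, .ofNat 0, .ofNat 856210431544296890589570819686400,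 .ofNat 0, .ofNat 0, .ofNat 0, .ofNat 100949861680311840376428586598400, .ofNat 0, .ofNat 0, .ofNat 0, .ofNat 89477647133320913405419192320000, .ofNat 0⟩)
    (by decide +kernel)
theorem L01347 : Good (Phi V4.P V4.D (-1) (-1)) ⟨7, 110, 5, 16, 3, 5, 1, 0, 4, 1⟩ :=
  out_sound (S := T4.ds_mm) T4.ok_mm (w := 80) (j := 3) (by decide +kernel)
theorem L01348 : Good (Phi V4.P V4.D (-1) (-1)) ⟨8, 220, 6, 34, 3, 5, 1, 0, 4, 1⟩ :=
  out_sound (S := T4.ds_mm) T4.ok_mm (w := 88) (j := 3) (by decide +kernel)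
theorem L01349 : Good (Phi V4.P V4.D (-1) (-1)) ⟨8, 220, 6, 35, 3, 5, 2, 0, 4, 1⟩ :=
  leaf_sound (S := T4.ds_mm) T4.ok_mm (w := 216) (c := ⟨⟨.ofNat 1591, .ofNat 700, .negSucc 706, .negSucc 488, .negSucc 930, .negSucc 2433⟩, ⟨.negSucc 904, .negSucc 387, .ofNat 400, .ofNat 277, .ofNat 525, .ofNat 1376⟩, ⟨.negSucc 822, .negSucc 312, .ofNat 303, .ofNat 317, .ofNat 405, .ofNat 1518⟩, ⟨.ofNat 1857, .ofNat 1007, .negSucc 1012, .negSucc 604, .negSucc 1438, .negSucc 3283⟩, ⟨.negSucc 969, .negSucc 103, .ofNat 114, .ofNat 235, .negSucc 59, .ofNat 691⟩, .ofNat 4689, .ofNat 7760, .ofNat 0, .ofNat 7760, .ofNat 13979, .ofNat 0, .ofNat 39, .negSucc 265, .negSucc 529, .ofNat 0, .ofNat 153, .ofNat 299, .ofNat 0, .ofNat 0, .ofNat 398, .ofNat 1010, .ofNat 1023842282390477847475768009270189935820800, .ofNat 0, .ofNat 12936234053132370981915564441600, .ofNat 0, .ofNat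 0, .ofNat 0, .ofNat 0, .ofNat 0, .ofNat 261048065937052251129350465767289181437952000, .ofNat 0, .ofNat 157230956806712998440759145267200, .ofNat 0, .ofNat 0, .ofNat 0, .ofNat 790143027992888488827603753369600, .ofNat 0⟩)
    (by decide +kernel)
theorem L01350 : Good (Phi V4.P V4.D (-1) (-1)) ⟨8, 220, 6, 35, 3, 5, 2, 1, 4, 1⟩ :=
  leaf_sound (S := T4.ds_mm) T4.ok_mm (w := 216) (c := ⟨⟨.negSucc 39, .ofNat 337, .negSucc 229, .negSucc 530, .negSucc 275, .negSucc 1369⟩, ⟨.ofNat 6, .negSucc 200, .ofNat 155, .ofNat 300, .ofNat 154, .ofNat 775⟩, ⟨.negSucc 79, .negSucc 187, .ofNat 109, .ofNat 340, .ofNat 105, .ofNat 1011⟩, ⟨.negSucc 506, .ofNat 418, .negSucc 275, .negSucc 736, .negSucc 560, .negSucc 1872⟩, ⟨.negSucc 787, .negSucc 152, .ofNat 117, .ofNat 114, .negSucc 255, .ofNat 343⟩, .ofNat 4689, .ofNat 7759, .ofNat 0, .ofNat 7759, .ofNat 13974, .ofNat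 0, .ofNat 39, .negSucc 239, .negSucc 640, .ofNat 0, .ofNat 138, .ofNat 362, .ofNat 0, .ofNat 0, .ofNat 519, .ofNat 1186, .ofNat 0, .ofNat 0, .ofNat 0, .ofNat 0, .ofNat 0, .ofNat 0, .ofNat 0, .ofNat 0, .ofNat 0, .ofNat 0, .ofNat 335741463568057413227661125222400, .ofNat 0, .ofNat 0, .ofNat 0, .ofNat 803940078387489746103181718323200, .ofNat 0⟩)
    (by decide +kernel)
theorem L01351 : Good (Phi V4.P V4.D (-1) (-1)) ⟨8, 221, 5, 17, 3, 5, 1, 0, 4, 1⟩ :=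
  out_sound (S := T4.ds_mm) T4.ok_mm (w := 80) (j := 3) (by decide +kernel)
theorem L01352 : Good (Phi V4.P V4.D (-1) (-1)) ⟨7, 110, 6, 36, 3, 5, 2, 0, 4, 1⟩ :=
  leaf_sound (S := T4.ds_mm) T4.ok_mm (w := 216) (c := ⟨⟨.ofNat 1702, .negSucc 488, .ofNat 148, .negSucc 419, .negSucc 1011, .negSucc 2492⟩, ⟨.negSucc 982, .ofNat 288, .negSucc 81, .ofNat 242, .ofNat 579, .ofNat 1427⟩, ⟨.negSucc 916, .ofNat 241, .negSucc 96, .ofNat 334, .ofNat 442, .ofNat 1566⟩, ⟨.ofNat 1982, .negSucc 662, .ofNat 194, .negSucc 506, .negSucc 1547, .negSucc 3346⟩, ⟨.negSucc 1004, .ofNat 114, .negSucc 41, .ofNat 215, .negSucc 44, .ofNat 701⟩, .ofNat 5768, .ofNat 9556, .ofNat 0, .ofNat 9556, .ofNat 16944, .ofNat 0, .ofNat 33, .negSucc 267, .negSucc 564, .ofNat 0, .ofNat 155, .ofNat 323, .ofNat 0, .ofNat 0, .ofNat 419, .ofNat 862, .ofNat 0, .ofNat 0, .ofNat 10004553464408620161111687168000,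 .ofNat 0, .ofNat 0, .ofNat 0, .ofNat 0, .ofNat 0, .ofNat 23901765329978853231378380352927534415872000, .ofNat 0, .ofNat 606329134684107569728503939072000, .ofNat 0, .ofNat 0, .ofNat 0, .ofNat 0, .ofNat 0⟩)
    (by decide +kernel)
theorem L01353 : Good (Phi V4.P V4.D (-1) (-1)) ⟨8, 220, 6, 37, 3, 5, 2, 0, 4, 1⟩ :=
  out_sound (S := T4.ds_mm) T4.ok_mm (w := 88) (j := 3) (by decide +kernel)
theorem L01354 : Good (Phi V4.P V4.D (-1) (-1)) ⟨9, 442, 7, 74, 3, 5, 2, 0, 4, 1⟩ :=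
  out_sound (S := T4.ds_mm) T4.ok_mm (w := 96) (j := 3) (by decide +kernel)
theorem L01355 : Good (Phi V4.P V4.D (-1) (-1)) ⟨10, 886, 8, 148, 3, 5, 2, 0, 4, 1⟩ :=
  out_sound (S := T4.ds_mm) T4.ok_mm (w := 104) (j := 3) (by decide +kernel)
theorem L01356 : Good (Phi V4.P V4.D (-1) (-1)) ⟨10, 887, 8, 148, 3, 5, 2, 0, 4, 1⟩ :=
  out_sound (S := T4.ds_mm) T4.ok_mm (w := 32) (j := 4) (by decide +kernel)
theorem L01357 : Good (Phi V4.P V4.D (-1) (-1)) ⟨9, 443, 8, 149, 3, 5, 2, 0, 4, 1⟩ :=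
  out_sound (S := T4.ds_mm) T4.ok_mm (w := 96) (j := 3) (by decide +kernel)
theorem L01358 : Good (Phi V4.P V4.D (-1) (-1)) ⟨8, 221, 7, 75, 3, 5, 2, 0, 4, 1⟩ :=
  out_sound (S := T4.ds_mm) T4.ok_mm (w := 88) (j := 3) (by decide +kernel)
theorem L01359 : Good (Phi V4.P V4.D (-1) (-1)) ⟨7, 110, 5, 18, 3, 5, 2, 1, 4, 1⟩ :=
  leaf_sound (S := T4.ds_mm) T4.ok_mm (w := 208) (c := ⟨⟨.ofNat 167, .negSucc 187, .ofNat 211, .negSucc 508, .negSucc 331, .negSucc 1566⟩, ⟨.negSucc 108, .ofNat 124, .negSucc 109, .ofNat 291, .ofNat 190, .ofNat 897⟩, ⟨.negSucc 257, .ofNat 155, .negSucc 133, .ofNat 353, .ofNat 123, .ofNat 1145⟩, ⟨.negSucc 239, .negSucc 236, .ofNat 265, .negSucc 690, .negSucc 639, .negSucc 2125⟩, ⟨.negSucc 856, .ofNat 73, .negSucc 81, .ofNat 132, .negSucc 245, .ofNat 404⟩, .ofNat 2215, .ofNat 3375, .ofNat 0, .ofNat 3375, .ofNat 6169, .ofNat 0, .ofNat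 55, .negSucc 238, .negSucc 664, .ofNat 0, .ofNat 141, .ofNat 379, .ofNat 0, .ofNat 0, .ofNat 531, .ofNat 1349, .ofNat 0, .ofNat 0, .ofNat 0, .ofNat 0, .ofNat 0, .ofNat 0, .ofNat 0, .ofNat 0, .ofNat 0, .ofNat 0, .ofNat 0, .ofNat 0, .ofNat 0, .ofNat 0, .ofNat 0, .ofNat 0⟩)
    (by decide +kernel)
theorem L01360 : Good (Phi V4.P V4.D (-1) (-1)) ⟨7, 110, 5, 19, 3, 5, 1, 0, 4, 1⟩ :=
  out_sound (S := T4.ds_mm) T4.ok_mm (w := 80) (j := 3) (by decide +kernel)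
theorem L01361 : Good (Phi V4.P V4.D (-1) (-1)) ⟨7, 111, 3, 4, 3, 5, 1, 0, 4, 1⟩ :=
  out_sound (S := T4.ds_mm) T4.ok_mm (w := 24) (j := 4) (by decide +kernel)
theorem L01362 : Good (Phi V4.P V4.D (-1) (-1)) ⟨4, 13, 3, 5, 3, 5, 1, 0, 3, 0⟩ :=
  out_sound (S := T4.ds_mm) T4.ok_mm (w := 56) (j := 3) (by decide +kernel)
theorem L01363 : Good (Phi V4.P V4.D (-1) (-1)) ⟨4, 13, 2, 3, 3, 5, 1, 0, 3, 0⟩ :=
  out_sound (S := T4.ds_mm) T4.ok_mm (w := 56) (j := 3) (by decide +kernel)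
theorem L01364 : Good (Phi V4.P V4.D (-1) (-1)) ⟨4, 12, 2, 2, 2, 2, 1, 0, 3, 1⟩ :=
  out_sound (S := T4.ds_mm) T4.ok_mm (w := 56) (j := 3) (by decide +kernel)
theorem L01365 : Good (Phi V4.P V4.D (-1) (-1)) ⟨5, 26, 3, 4, 2, 2, 1, 0, 3, 1⟩ :=
  out_sound (S := T4.ds_mm) T4.ok_mm (w := 64) (j := 3) (by decide +kernel)
theorem L01366 : Good (Phi V4.P V4.D (-1) (-1)) ⟨5, 27, 3, 4, 3, 4, 2, 0, 4, 2⟩ :=
  leaf_sound (S := T4.ds_mm) T4.ok_mm (w := 192) (c := ⟨⟨.negSucc 1159, .negSucc 380, .ofNat 284, .negSucc 65, .negSucc 112, .negSucc 334⟩, ⟨.ofNat 594, .ofNat 256, .negSucc 71, .ofNat 36, .ofNat 60, .ofNat 185⟩, ⟨.ofNat 993, .ofNat 257, .negSucc 206, .negSucc 87, .negSucc 14, .ofNat 313⟩, ⟨.negSucc 1819, .negSucc 511, .ofNat 436, .negSucc 173, .negSucc 301, .negSucc 519⟩, ⟨.negSucc 67, .ofNat 28, .negSucc 5, .negSucc 132, .negSucc 235, .negSucc 17⟩, .ofNat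 1837, .ofNat 2782, .ofNat 0, .ofNat 2782, .ofNat 5284, .ofNat 0, .ofNat 114, .negSucc 386, .negSucc 705, .ofNat 0, .ofNat 228, .ofNat 391, .ofNat 0, .ofNat 0, .ofNat 711, .ofNat 3878, .ofNat 31272865292903540591997450702972518400, .ofNat 0, .ofNat 19266816352981063214567522304000, .ofNat 0, .ofNat 0, .ofNat 0, .ofNat 9635314518642093064540872140390400, .ofNat 0, .ofNat 2174089484979106243077757333273155993600, .ofNat 0, .ofNat 1981663702669031250634888288665600, .ofNat 0, .ofNat 0, .ofNat 0, .ofNat 3513491100629969167527790510080000, .ofNat 0⟩)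
    (by decide +kernel)

end Crest.Agent.R097C4.N4mm
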