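import Crest.Agent.R097.T4

/-!
# Row 97, box cover in dimension n = 4 (generated)
-/

set_option autoImplicit false
set_option Elab.async false
set_option maxHeartbeats 0
set_option maxRecDepth 100000

open Crest.Agent.R097 Crest.Agent.R097.KA


namespace Crest.Agent.R097C4.N4mm

theorem L01367 : Good (Phi V4.P V4.D (-1) (-1)) ⟨5, 27, 3, 4, 3, 4, 2, 1, 4, 2⟩ :=
  leaf_sound (S := T4.ds_mm) T4.ok_mm (w := 192) (c := ⟨⟨.negSucc 1478, .negSucc 246, .ofNat 197, .negSucc 83, .ofNat 286, .negSucc 13⟩, ⟨.ofNat 769, .ofNat 179, .negSucc 14, .ofNat 44, .negSucc 161, .ofNat 6⟩, ⟨.ofNat 1123, .ofNat 179, .negSucc 161, .negSucc 44, .negSucc 338, .ofNat 61⟩, ⟨.negSucc 2378, .negSucc 290, .ofNat 256, .negSucc 233, .ofNat 236, .negSucc 86⟩, ⟨.negSucc 212, .ofNat 44, .negSucc 40, .negSucc 193, .negSucc 359, .negSucc 118⟩, .ofNat 1790, .ofNat 2709, .ofNat 0, .ofNat 2709,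 .ofNat 5172, .ofNat 0, .ofNat 117, .negSucc 375, .negSucc 760, .ofNat 0, .ofNat 222, .ofNat 419, .ofNat 0, .ofNat 0, .ofNat 782, .ofNat 562, .ofNat 0, .ofNat 0, .ofNat 10207454371807358119218197299200, .ofNat 0, .ofNat 0, .ofNat 0, .ofNat 9973023156477879224694539393433600, .ofNat 0, .ofNat 0, .ofNat 0, .ofNat 0, .ofNat 0, .ofNat 0, .ofNat 0, .ofNat 761701028700249824125850851737600, .ofNat 0⟩)
    (by decide +kernel)
theorem L01368 : Good (Phi V4.P V4.D (-1) (-1)) ⟨6, 54, 4, 8, 3, 5, 1, 0, 4, 2⟩ :=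
  leaf_sound (S := T4.ds_mm) T4.ok_mm (w := 200) (c := ⟨⟨.negSucc 1653, .negSucc 235, .ofNat 213, .negSucc 348, .ofNat 339, .ofNat 95⟩, ⟨.ofNat 865, .ofNat 130, .negSucc 37, .ofNat 190, .negSucc 193, .negSucc 54⟩, ⟨.ofNat 1193, .ofNat 128, .negSucc 123, .ofNat 143, .negSucc 376, .negSucc 9⟩, ⟨.negSucc 2495, .negSucc 210, .ofNat 193, .negSucc 532, .ofNat 44, .negSucc 15⟩, ⟨.ofNat 69, .ofNat 205, .negSucc 217, .negSucc 2, .negSucc 867, .negSucc 297⟩, .ofNat 1739, .ofNat 2627, .ofNat 0, .ofNat 2627, .ofNat 5051, .ofNat 0, .ofNat 127, .negSucc 461, .negSucc 803, .ofNat 0, .ofNat 268, .ofNat 442, .ofNat 0, .ofNat 0, .ofNat 719, .ofNat 2103, .ofNat 0, .ofNat 0, .ofNat 0, .ofNat 0, .ofNat 0, .ofNat 0, .ofNat 0, .ofNat 0, .ofNat 0, .ofNat 0, .ofNat 0, .ofNat 0, .ofNat 0, .ofNat 0, .ofNat 0, .ofNat 0⟩)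
    (by decide +kernel)
theorem L01369 : Good (Phi V4.P V4.D (-1) (-1)) ⟨6, 54, 4, 9, 3, 5, 1, 0, 4, 2⟩ :=
  out_sound (S := T4.ds_mm) T4.ok_mm (w := 72) (j := 3) (by decide +kernel)
theorem L01370 : Good (Phi V4.P V4.D (-1) (-1)) ⟨6, 55, 5, 16, 3, 5, 1, 0, 4, 2⟩ :=
  out_sound (S := T4.ds_mm) T4.ok_mm (w := 72) (j := 3) (by decide +kernel)
theorem L01371 : Good (Phi V4.P V4.D (-1) (-1)) ⟨6, 55, 5, 17, 3, 5, 1, 0, 4, 2⟩ :=
  leaf_sound (S := T4.ds_mm) T4.ok_mm (w := 200) (c := ⟨⟨.negSucc 1721, .negSucc 524, .ofNat 90, .negSucc 334, .ofNat 312, .ofNat 72⟩, ⟨.ofNat 943, .ofNat 307, .negSucc 17, .ofNat 189, .negSucc 179, .negSucc 41⟩, ⟨.ofNat 1232, .ofNat 360, .negSucc 63, .ofNat 120, .negSucc 346, .negSucc 1⟩, ⟨.negSucc 2567, .negSucc 701, .ofNat 138, .negSucc 500, .negSucc 18, .negSucc 43⟩, ⟨.ofNat 67, .ofNat 151, .negSucc 13, .ofNat 8, .negSucc 865, .negSucc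 268⟩, .ofNat 4739, .ofNat 7843, .ofNat 0, .ofNat 7843, .ofNat 14115, .ofNat 0, .ofNat 75, .negSucc 475, .negSucc 853, .ofNat 0, .ofNat 274, .ofNat 484, .ofNat 0, .ofNat 0, .ofNat 746, .ofNat 2145, .ofNat 0, .ofNat 0, .ofNat 0, .ofNat 0, .ofNat 0, .ofNat 0, .ofNat 4168920424878308929466531001139200, .ofNat 0, .ofNat 107694151388965956094752360056874231398400, .ofNat 0, .ofNat 563669325323005739767724349849600, .ofNat 0, .ofNat 0, .ofNat 0, .ofNat 1572301565628070550911366201344000, .ofNat 0⟩)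
    (by decide +kernel)
theorem L01372 : Good (Phi V4.P V4.D (-1) (-1)) ⟨7, 110, 4, 9, 3, 5, 1, 0, 4, 2⟩ :=
  leaf_sound (S := T4.ds_mm) T4.ok_mm (w := 208) (c := ⟨⟨.negSucc 1706, .negSucc 55, .negSucc 115, .negSucc 281, .ofNat 336, .ofNat 74⟩, ⟨.ofNat 957, .ofNat 62, .ofNat 83, .ofNat 161, .negSucc 193, .negSucc 42⟩, ⟨.ofNat 1216, .ofNat 42, .ofNat 72, .ofNat 77, .negSucc 372, .ofNat 6⟩, ⟨.negSucc 2506, .negSucc 81, .negSucc 139, .negSucc 409, .negSucc 4, .negSucc 69⟩, ⟨.ofNat 114, .negSucc 13, .ofNat 50, .ofNat 25, .negSucc 890, .negSucc 315⟩, .ofNat 5764, .ofNat 9549, .ofNat 0, .ofNat 9549, .ofNat 16934, .ofNat 0, .ofNat 65, .negSucc 483, .negSucc 832, .ofNat 0, .ofNat 281, .ofNat 477, .ofNat 0, .ofNat 0, .ofNat 723, .ofNat 2314, .ofNat 0, .ofNat 0, .ofNat 1877153962215602643425191526400, .ofNat 0, .ofNat 0, .ofNat 0, .ofNat 0, .ofNat 0, .ofNat 860006034180548225660793848853455437824000,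 .ofNat 0, .ofNat 33674736439127082911643205632000, .ofNat 0, .ofNat 56180134070970498426017406077379595468800, .ofNat 0, .ofNat 60357110570158907349822917836800, .ofNat 0⟩)
    (by decide +kernel)
theorem L01373 : Good (Phi V4.P V4.D (-1) (-1)) ⟨7, 111, 4, 9, 3, 5, 1, 0, 4, 2⟩ :=
  out_sound (S := T4.ds_mm) T4.ok_mm (w := 24) (j := 4) (by decide +kernel)
theorem L01374 : Good (Phi V4.P V4.D (-1) (-1)) ⟨5, 27, 3, 4, 2, 2, 2, 0, 4, 3⟩ :=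
  leaf_sound (S := T4.ds_mm) T4.ok_mm (w := 184) (c := ⟨⟨.negSucc 1741, .ofNat 39, .negSucc 71, .negSucc 84, .ofNat 178, .ofNat 235⟩, ⟨.ofNat 913, .ofNat 31, .ofNat 133, .ofNat 41, .negSucc 102, .negSucc 132⟩, ⟨.ofNat 1466, .ofNat 9, .negSucc 27, .negSucc 164, .negSucc 228, .negSucc 86⟩, ⟨.negSucc 2609, .ofNat 50, .negSucc 59, .negSucc 391, .ofNat 69, .ofNat 180⟩, ⟨.ofNat 98, .negSucc 159, .ofNat 155, .negSucc 479, .negSucc 365, .negSucc 317⟩, .ofNat 1879, .ofNat 2848, .ofNat 0, .ofNat 2848, .ofNat 5380, .ofNat 0, .ofNat 109, .negSucc 377, .negSucc 482, .ofNat 0, .ofNat 224, .ofNat 271, .ofNat 0, .ofNat 0, .ofNat 572, .ofNat 2999, .ofNat 79354574089010391570915575778508800, .ofNat 0, .ofNat 30078949586756892449203814400, .ofNat 0, .ofNat 0, .ofNat 0, .ofNat 17159698081332640790824668364800, .ofNat 0, .ofNat 15002820963956700614756566481397350400, .ofNat 0,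 .ofNat 3715871753146923589892780851200, .ofNat 0, .ofNat 0, .ofNat 0, .ofNat 0, .ofNat 0⟩)
    (by decide +kernel)
theorem L01375 : Good (Phi V4.P V4.D (-1) (-1)) ⟨5, 27, 3, 4, 2, 2, 2, 1, 4, 3⟩ :=
  leaf_sound (S := T4.ds_mm) T4.ok_mm (w := 184) (c := ⟨⟨.negSucc 1686, .negSucc 193, .ofNat 261, .ofNat 25, .ofNat 480, .ofNat 317⟩, ⟨.ofNat 885, .ofNat 127, .negSucc 29, .negSucc 18, .negSucc 269, .negSucc 177⟩, ⟨.ofNat 1331, .ofNat 51, .negSucc 139, .negSucc 174, .negSucc 498, .negSucc 194⟩, ⟨.negSucc 2683, .negSucc 201, .ofNat 286, .negSucc 319, .ofNat 504, .ofNat 330⟩, ⟨.negSucc 229, .ofNat 225, .negSucc 252, .negSucc 657, .negSucc 406, .negSucc 271⟩, .ofNat 1815, .ofNat 2744, .ofNat 0, .ofNat 2744, .ofNat 5217, .ofNat 0, .ofNat 112, .negSucc 368, .negSucc 552, .ofNat 0, .ofNat 218, .ofNat 307, .ofNat 0, .ofNat 0, .ofNat 628, .ofNat 1345, .ofNat 0, .ofNat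 0, .ofNat 32392468701343788641235763200, .ofNat 0, .ofNat 0, .ofNat 0, .ofNat 17041642637024816705830492569600, .ofNat 0, .ofNat 0, .ofNat 0, .ofNat 4460826485364807084260563353600, .ofNat 0, .ofNat 0, .ofNat 0, .ofNat 0, .ofNat 0⟩)
    (by decide +kernel)
theorem L01376 : Good (Phi V4.P V4.D (-1) (-1)) ⟨4, 13, 3, 5, 2, 2, 1, 0, 3, 1⟩ :=
  out_sound (S := T4.ds_mm) T4.ok_mm (w := 56) (j := 3) (by decide +kernel)
theorem L01377 : Good (Phi V4.P V4.D (-1) (-1)) ⟨3, 6, 2, 3, 2, 2, 1, 0, 3, 1⟩ :=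
  out_sound (S := T4.ds_mm) T4.ok_mm (w := 48) (j := 3) (by decide +kernel)
theorem L01378 : Good (Phi V4.P V4.D (-1) (-1)) ⟨3, 7, 1, 1, 2, 2, 1, 0, 2, 0⟩ :=
  out_sound (S := T4.ds_mm) T4.ok_mm (w := 16) (j := 4) (by decide +kernel)
theorem L01379 : Good (Phi V4.P V4.D (-1) (-1)) ⟨2, 2, 1, 1, 2, 3, 3, 0, 3, 0⟩ :=
  out_sound (S := T4.ds_mm) T4.ok_mm (w := 40) (j := 3) (by decide +kernel)
theorem L01380 : Good (Phi V4.P V4.D (-1) (-1)) ⟨4, 12, 1, 1, 2, 3, 3, 0, 3, 0⟩ :=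
  out_sound (S := T4.ds_mm) T4.ok_mm (w := 48) (j := 3) (by decide +kernel)
theorem L01381 : Good (Phi V4.P V4.D (-1) (-1)) ⟨5, 26, 2, 2, 2, 3, 3, 0, 4, 0⟩ :=
  out_sound (S := T4.ds_mm) T4.ok_mm (w := 56) (j := 3) (by decide +kernel)
theorem L01382 : Good (Phi V4.P V4.D (-1) (-1)) ⟨5, 27, 3, 4, 3, 6, 3, 0, 5, 0⟩ :=
  leaf_sound (S := T4.ds_mm) T4.ok_mm (w := 200) (c := ⟨⟨.ofNat 2327, .ofNat 1008, .negSucc 644, .negSucc 58, .negSucc 789, .negSucc 74⟩, ⟨.negSucc 1233, .negSucc 578, .ofNat 214, .ofNat 41, .ofNat 432, .ofNat 37⟩, ⟨.negSucc 1062, .negSucc 264, .ofNat 179, .ofNat 614, .ofNat 73, .ofNat 117⟩, ⟨.ofNat 3460, .ofNat 1290, .negSucc 885, .ofNat 286, .negSucc 1261, .negSucc 384⟩, ⟨.negSucc 203, .negSucc 364, .ofNat 339, .ofNat 679, .negSucc 111, .negSucc 492⟩, .ofNat 1799, .ofNat 2723, .ofNat 0, .ofNat 2723, .ofNat 5194, .ofNat 0, .ofNat 134, .negSucc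 640, .negSucc 828, .ofNat 0, .ofNat 365, .ofNat 451, .ofNat 0, .ofNat 0, .ofNat 610, .ofNat 1469, .ofNat 0, .ofNat 0, .ofNat 0, .ofNat 0, .ofNat 0, .ofNat 0, .ofNat 1272335494627632794926975758316339200, .ofNat 0, .ofNat 72992056302304251198188566592837438668800, .ofNat 0, .ofNat 171648541629940656183860208756326400, .ofNat 0, .ofNat 0, .ofNat 0, .ofNat 0, .ofNat 0⟩)
    (by decide +kernel)
theorem L01383 : Good (Phi V4.P V4.D (-1) (-1)) ⟨6, 54, 3, 4, 3, 6, 3, 0, 5, 1⟩ :=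
  leaf_sound (S := T4.ds_mm) T4.ok_mm (w := 208) (c := ⟨⟨.ofNat 2260, .ofNat 632, .negSucc 453, .ofNat 209, .negSucc 1177, .negSucc 987⟩, ⟨.negSucc 1203, .negSucc 377, .ofNat 198, .negSucc 106, .ofNat 640, .ofNat 533⟩, ⟨.negSucc 916, .negSucc 255, .ofNat 216, .ofNat 461, .ofNat 253, .ofNat 503⟩, ⟨.ofNat 3143, .ofNat 774, .negSucc 611, .ofNat 508, .negSucc 1726, .negSucc 1564⟩, ⟨.negSucc 613, .negSucc 264, .ofNat 222, .ofNat 347, .ofNat 124, .negSucc 107⟩, .ofNat 3255, .ofNat 5374, .ofNat 0, .ofNat 5374, .ofNat 10059, .ofNat 0, .ofNat 54, .negSucc 345, .negSucc 534, .ofNat 0, .ofNat 193, .ofNat 292, .ofNat 0, .ofNat 0, .ofNat 348, .ofNat 1320, .ofNat 0, .ofNat 0, .ofNat 0, .ofNat 0, .ofNat 0, .ofNat 0, .ofNat 100236272596018407237303930558873600, .ofNat 0, .ofNat 552424351949121758176119698189310335385600, .ofNat 0, .ofNat 11682988191831035940588541181952000,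 .ofNat 0, .ofNat 0, .ofNat 0, .ofNat 0, .ofNat 0⟩)
    (by decide +kernel)
theorem L01384 : Good (Phi V4.P V4.D (-1) (-1)) ⟨7, 110, 3, 4, 3, 6, 3, 0, 5, 1⟩ :=
  leaf_sound (S := T4.ds_mm) T4.ok_mm (w := 208) (c := ⟨⟨.ofNat 2859, .ofNat 304, .negSucc 521, .ofNat 376, .negSucc 1451, .negSucc 697⟩, ⟨.negSucc 1613, .negSucc 205, .ofNat 292, .negSucc 211, .ofNat 828, .ofNat 397⟩, ⟨.negSucc 1108, .negSucc 76, .ofNat 105, .ofNat 450, .ofNat 317, .ofNat 398⟩, ⟨.ofNat 3836, .ofNat 347, .negSucc 625, .ofNat 717, .negSucc 2030, .negSucc 1215⟩, ⟨.negSucc 858, .negSucc 132, .ofNat 299, .ofNat 266, .ofNat 269, .negSucc 289⟩, .ofNat 2149, .ofNat 3271, .ofNat 0, .ofNat 3271, .ofNat 6012, .ofNat 0, .ofNat 60, .negSucc 364, .negSucc 581, .ofNat 0, .ofNat 212, .ofNat 328, .ofNat 0, .ofNat 0, .ofNat 358, .ofNat 2289, .ofNat 0, .ofNat 0, .ofNat 0, .ofNat 0, .ofNat 4224294093970262845016641326098113206681600,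 .ofNat 0, .ofNat 17228762733272657967377505740390400, .ofNat 0, .ofNat 3386867232102293137479333414517659716812800, .ofNat 0, .ofNat 3262126559824958959555989995520000, .ofNat 0, .ofNat 0, .ofNat 0, .ofNat 0, .ofNat 0⟩)
    (by decide +kernel)
theorem L01385 : Good (Phi V4.P V4.D (-1) (-1)) ⟨7, 111, 3, 4, 3, 6, 3, 0, 5, 1⟩ :=
  out_sound (S := T4.ds_mm) T4.ok_mm (w := 24) (j := 4) (by decide +kernel)
theorem L01386 : Good (Phi V4.P V4.D (-1) (-1)) ⟨5, 27, 3, 5, 3, 6, 3, 0, 4, 0⟩ :=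
  out_sound (S := T4.ds_mm) T4.ok_mm (w := 64) (j := 3) (by decide +kernel)
theorem L01387 : Good (Phi V4.P V4.D (-1) (-1)) ⟨5, 27, 3, 4, 4, 14, 3, 0, 5, 0⟩ :=
  leaf_sound (S := T4.ds_mm) T4.ok_mm (w := 208) (c := ⟨⟨.ofNat 2267, .ofNat 954, .negSucc 468, .ofNat 80, .negSucc 919, .ofNat 114⟩, ⟨.negSucc 1181, .negSucc 603, .ofNat 151, .negSucc 38, .ofNat 507, .negSucc 70⟩, ⟨.negSucc 413, .negSucc 183, .ofNat 146, .ofNat 319, .ofNat 2, .ofNat 50⟩, ⟨.ofNat 3770, .ofNat 1158, .negSucc 549, .ofNat 345, .negSucc 1403, .negSucc 223⟩, ⟨.ofNat 546, .negSucc 412, .ofNat 330, .ofNat 406, .negSucc 19, .negSucc 715⟩, .ofNat 765, .ofNat 896, .ofNat 0, .ofNat 896, .ofNat 1877, .ofNat 0, .ofNat 227, .negSucc 724, .negSucc 873, .ofNat 0, .ofNat 428, .ofNat 453, .ofNat 0, .ofNat 0, .ofNat 628, .ofNat 5709, .ofNat 0, .ofNat 0, .ofNat 0, .ofNat 0, .ofNat 0, .ofNat 0, .ofNat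 0, .ofNat 0, .ofNat 0, .ofNat 0, .ofNat 0, .ofNat 0, .ofNat 0, .ofNat 0, .ofNat 0, .ofNat 0⟩)
    (by decide +kernel)
theorem L01388 : Good (Phi V4.P V4.D (-1) (-1)) ⟨5, 27, 4, 8, 4, 15, 3, 0, 5, 0⟩ :=
  leaf_sound (S := T4.ds_mm) T4.ok_mm (w := 216) (c := ⟨⟨.ofNat 2349, .ofNat 954, .negSucc 85, .negSucc 46, .negSucc 918, .ofNat 83⟩, ⟨.negSucc 1218, .negSucc 539, .negSucc 46, .ofNat 32, .ofNat 500, .negSucc 57⟩, ⟨.negSucc 75, .negSucc 243, .ofNat 69, .ofNat 419, .negSucc 65, .ofNat 96⟩, ⟨.ofNat 4120, .ofNat 1074, .negSucc 0, .ofNat 145, .negSucc 1322, .negSucc 362⟩, ⟨.ofNat 968, .negSucc 562, .ofNat 239, .ofNat 389, .ofNat 139, .negSucc 896⟩, .ofNat 1742, .ofNat 2635, .ofNat 0, .ofNat 2635, .ofNat 5071, .ofNat 0, .ofNat 153, .negSucc 759, .negSucc 861, .ofNat 0, .ofNat 431, .ofNat 456, .ofNat 0, .ofNat 0, .ofNat 669, .ofNat 7461, .ofNat 0, .ofNat 0, .ofNat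 0, .ofNat 0, .ofNat 0, .ofNat 0, .ofNat 1194022317287094004759346856528445440000, .ofNat 0, .ofNat 52085898111587090621098714142346348960153600, .ofNat 0, .ofNat 545785117199345278039334695059691929600, .ofNat 0, .ofNat 0, .ofNat 0, .ofNat 517176384133658425626560332247020339200, .ofNat 0⟩)
    (by decide +kernel)
theorem L01389 : Good (Phi V4.P V4.D (-1) (-1)) ⟨5, 27, 4, 9, 4, 15, 3, 0, 5, 0⟩ :=
  leaf_sound (S := T4.ds_mm) T4.ok_mm (w := 216) (c := ⟨⟨.ofNat 2460, .ofNat 163, .ofNat 363, .ofNat 161, .negSucc 873, .ofNat 319⟩, ⟨.negSucc 1366, .negSucc 137, .negSucc 293, .negSucc 91, .ofNat 501, .negSucc 183⟩, ⟨.negSucc 28, .negSucc 0, .negSucc 53, .ofNat 348, .negSucc 115, .negSucc 21⟩, ⟨.ofNat 4264, .ofNat 178, .ofNat 435, .ofNat 452, .negSucc 1214, .negSucc 62⟩, ⟨.ofNat 964, .negSucc 89, .negSucc 140, .ofNat 368, .ofNat 170, .negSucc 944⟩, .ofNat 2249,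 .ofNat 3428, .ofNat 0, .ofNat 3428, .ofNat 6249, .ofNat 0, .ofNat 127, .negSucc 769, .negSucc 921, .ofNat 0, .ofNat 451, .ofNat 515, .ofNat 0, .ofNat 0, .ofNat 696, .ofNat 1485, .ofNat 0, .ofNat 0, .ofNat 0, .ofNat 0, .ofNat 0, .ofNat 0, .ofNat 0, .ofNat 0, .ofNat 0, .ofNat 0, .ofNat 0, .ofNat 0, .ofNat 0, .ofNat 0, .ofNat 602363735580701553870597239305823846400, .ofNat 0⟩)
    (by decide +kernel)
theorem L01390 : Good (Phi V4.P V4.D (-1) (-1)) ⟨6, 54, 3, 4, 3, 7, 3, 0, 5, 1⟩ :=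
  leaf_sound (S := T4.ds_mm) T4.ok_mm (w := 208) (c := ⟨⟨.ofNat 2830, .ofNat 429, .ofNat 522, .negSucc 35, .negSucc 1810, .negSucc 946⟩, ⟨.negSucc 1497, .negSucc 283, .negSucc 330, .ofNat 19, .ofNat 987, .ofNat 505⟩, ⟨.negSucc 546, .negSucc 100, .negSucc 116, .ofNat 859, .ofNat 297, .ofNat 480⟩, ⟨.ofNat 4171, .ofNat 648, .ofNat 329, .ofNat 90, .negSucc 2441, .negSucc 1702⟩, ⟨.negSucc 331, .ofNat 130, .negSucc 905, .ofNat 279, .ofNat 590, .negSucc 482⟩, .ofNat 1683, .ofNat 2540, .ofNat 0, .ofNat 2540, .ofNat 4927, .ofNat 0, .ofNat 79, .negSucc 424, .negSucc 588, .ofNat 0, .ofNat 240, .ofNat 315, .ofNat 0, .ofNat 0, .ofNat 364, .ofNat 854, .ofNat 0, .ofNat 0, .ofNat 0, .ofNat 0, .ofNat 0, .ofNat 0, .ofNat 0, .ofNat 0, .ofNat 0, .ofNat 0, .ofNat 0, .ofNat 0, .ofNat 0, .ofNat 0, .ofNat 15012582426968683021902307078963200, .ofNat 0⟩)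
    (by decide +kernel)
theorem L01391 : Good (Phi V4.P V4.D (-1) (-1)) ⟨6, 55, 5, 16, 3, 7, 3, 0, 5, 1⟩ :=
  out_sound (S := T4.ds_mm) T4.ok_mm (w := 72) (j := 3) (by decide +kernel)
theorem L01392 : Good (Phi V4.P V4.D (-1) (-1)) ⟨6, 55, 5, 17, 3, 7, 3, 0, 5, 1⟩ :=
  leaf_sound (S := T4.ds_mm) T4.ok_mm (w := 216) (c := ⟨⟨.ofNat 2463, .negSucc 2071, .ofNat 1306, .ofNat 186, .negSucc 1839, .negSucc 738⟩, ⟨.negSucc 1363, .ofNat 1149, .negSucc 765, .negSucc 102, .ofNat 1040, .ofNat 413⟩, ⟨.negSucc 327, .ofNat 792, .negSucc 461, .ofNat 777, .ofNat 235, .ofNat 418⟩, ⟨.ofNat 3674, .negSucc 2398, .ofNat 1597, .ofNat 422, .negSucc 2341, .negSucc 1517⟩, ⟨.negSucc 107, .ofNat 1350, .negSucc 632, .ofNat 248, .ofNat 771, .negSucc 715⟩, .ofNat 4675, .ofNat 7738, .ofNat 0, .ofNat 7738, .ofNat 13943, .ofNat 0, .ofNat 93, .negSucc 871, .negSucc 1282, .ofNat 0, .ofNat 499,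 .ofNat 721, .ofNat 0, .ofNat 0, .ofNat 774, .ofNat 5009, .ofNat 0, .ofNat 0, .ofNat 0, .ofNat 0, .ofNat 0, .ofNat 0, .ofNat 3695913411413680752503760783566438400, .ofNat 0, .ofNat 22868714361014084178637625363969452120473600, .ofNat 0, .ofNat 1291352013263055182477801599637913600, .ofNat 0, .ofNat 6312548388946275004702702930306229757542400, .ofNat 0, .ofNat 508582940193831612827320954807910400, .ofNat 0⟩)
    (by decide +kernel)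
theorem L01393 : Good (Phi V4.P V4.D (-1) (-1)) ⟨7, 110, 4, 9, 3, 7, 3, 0, 5, 1⟩ :=
  leaf_sound (S := T4.ds_mm) T4.ok_mm (w := 216) (c := ⟨⟨.ofNat 3385, .negSucc 230, .ofNat 540, .ofNat 407, .negSucc 1948, .negSucc 415⟩, ⟨.negSucc 1915, .ofNat 97, .negSucc 330, .negSucc 232, .ofNat 1118, .ofNat 238⟩, ⟨.negSucc 646, .ofNat 119, .negSucc 194, .ofNat 686, .ofNat 270, .ofNat 296⟩, ⟨.ofNat 4814, .negSucc 319, .ofNat 711, .ofNat 705, .negSucc 2442, .negSucc 1145⟩, ⟨.negSucc 518, .ofNat 108, .negSucc 150, .ofNat 163, .ofNat 851, .negSucc 911⟩, .ofNat 5812, .ofNat 9628, .ofNat 0, .ofNat 9628, .ofNat 17063, .ofNat 0, .ofNat 40, .negSucc 443, .negSucc 646, .ofNat 0, .ofNat 257, .ofNat 369, .ofNat 0, .ofNat 0, .ofNat 385, .ofNat 1846, .ofNat 0, .ofNat 0, .ofNat 0, .ofNat 0, .ofNat 0, .ofNat 0, .ofNat 0, .ofNat 0, .ofNat 0, .ofNat 0, .ofNat 0, .ofNat 0, .ofNat 0, .ofNat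 0, .ofNat 12365320028879282398394970223411200, .ofNat 0⟩)
    (by decide +kernel)
theorem L01394 : Good (Phi V4.P V4.D (-1) (-1)) ⟨7, 111, 4, 9, 3, 7, 3, 0, 5, 1⟩ :=
  out_sound (S := T4.ds_mm) T4.ok_mm (w := 24) (j := 4) (by decide +kernel)
theorem L01395 : Good (Phi V4.P V4.D (-1) (-1)) ⟨5, 27, 3, 5, 3, 7, 3, 0, 4, 0⟩ :=
  out_sound (S := T4.ds_mm) T4.ok_mm (w := 64) (j := 3) (by decide +kernel)
theorem L01396 : Good (Phi V4.P V4.D (-1) (-1)) ⟨5, 26, 2, 2, 2, 3, 3, 0, 4, 1⟩ :=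
  out_sound (S := T4.ds_mm) T4.ok_mm (w := 56) (j := 3) (by decide +kernel)
theorem L01397 : Good (Phi V4.P V4.D (-1) (-1)) ⟨6, 54, 3, 4, 3, 6, 3, 0, 5, 2⟩ :=
  leaf_sound (S := T4.ds_mm) T4.ok_mm (w := 208) (c := ⟨⟨.ofNat 1421, .ofNat 194, .ofNat 334, .ofNat 2, .negSucc 1215, .negSucc 1722⟩, ⟨.negSucc 776, .negSucc 90, .negSucc 218, .ofNat 1, .ofNat 661, .ofNat 933⟩, ⟨.negSucc 457, .negSucc 15, .negSucc 241, .ofNat 407, .ofNat 352, .ofNat 840⟩, ⟨.ofNat 1760, .ofNat 328, .ofNat 200, .ofNat 144, .negSucc 1722, .negSucc 2415⟩, ⟨.negSucc 765, .ofNat 39, .negSucc 439, .ofNat 264, .ofNat 239, .ofNat 396⟩, .ofNat 1727, .ofNat 2610, .ofNat 0, .ofNat 2610, .ofNat 5033, .ofNat 0, .ofNat 71, .negSucc 357, .negSucc 621, .ofNat 0, .ofNat 202, .ofNat 339, .ofNat 0, .ofNat 0, .ofNat 380, .ofNat 709, .ofNat 0, .ofNat 0, .ofNat 1535882105999826777181316028825600, .ofNat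 0, .ofNat 0, .ofNat 0, .ofNat 0, .ofNat 0, .ofNat 606843978592016617427374207386995235225600, .ofNat 0, .ofNat 12349670661469764526752443400192000, .ofNat 0, .ofNat 0, .ofNat 0, .ofNat 0, .ofNat 0⟩)
    (by decide +kernel)
theorem L01398 : Good (Phi V4.P V4.D (-1) (-1)) ⟨6, 54, 3, 4, 3, 6, 3, 0, 5, 3⟩ :=
  leaf_sound (S := T4.ds_mm) T4.ok_mm (w := 208) (c := ⟨⟨.negSucc 337, .ofNat 130, .negSucc 241, .negSucc 709, .negSucc 560, .negSucc 1198⟩, ⟨.ofNat 150, .negSucc 47, .ofNat 214, .ofNat 391, .ofNat 303, .ofNat 654⟩, ⟨.ofNat 425, .negSucc 44, .ofNat 112, .ofNat 498, .ofNat 197, .ofNat 591⟩, ⟨.negSucc 714, .ofNat 204, .negSucc 269, .negSucc 761, .negSucc 887, .negSucc 1628⟩, ⟨.negSucc 325, .negSucc 37, .ofNat 106, .ofNat 592, .negSucc 61, .ofNat 364⟩, .ofNat 1697, .ofNat 2562, .ofNat 0, .ofNat 2562, .ofNat 4960, .ofNat 0, .ofNat 72, .negSucc 353, .negSucc 573,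 .ofNat 0, .ofNat 200, .ofNat 313, .ofNat 0, .ofNat 0, .ofNat 364, .ofNat 461, .ofNat 0, .ofNat 0, .ofNat 693082961425635190200351483494400, .ofNat 0, .ofNat 0, .ofNat 0, .ofNat 0, .ofNat 0, .ofNat 680437140323549969893959161414198231040000, .ofNat 0, .ofNat 11605073670475350521701690087833600, .ofNat 0, .ofNat 0, .ofNat 0, .ofNat 0, .ofNat 0⟩)
    (by decide +kernel)
theorem L01399 : Good (Phi V4.P V4.D (-1) (-1)) ⟨7, 110, 4, 8, 3, 6, 3, 0, 5, 2⟩ :=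
  leaf_sound (S := T4.ds_mm) T4.ok_mm (w := 216) (c := ⟨⟨.ofNat 2666, .ofNat 696, .negSucc 961, .ofNat 214, .negSucc 1460, .negSucc 1829⟩, ⟨.negSucc 1510, .negSucc 395, .ofNat 546, .negSucc 119, .ofNat 826, .ofNat 1034⟩, ⟨.negSucc 777, .negSucc 173, .ofNat 187, .ofNat 363, .ofNat 425, .ofNat 899⟩, ⟨.ofNat 3240, .ofNat 836, .negSucc 1155, .ofNat 397, .negSucc 1986, .negSucc 2511⟩, ⟨.negSucc 1411, .negSucc 365, .ofNat 546, .ofNat 132, .ofNat 386, .ofNat 443⟩, .ofNat 4665, .ofNat 7719, .ofNat 0, .ofNat 7719, .ofNat 13906, .ofNat 0, .ofNat 42, .negSucc 369, .negSucc 660, .ofNat 0, .ofNat 212, .ofNat 373, .ofNat 0, .ofNat 0, .ofNat 392, .ofNat 1763, .ofNat 0, .ofNat 0, .ofNat 0, .ofNat 0, .ofNat 0, .ofNat 0, .ofNat 85061728121672345878250112260505600, .ofNat 0, .ofNat 0, .ofNat 0, .ofNat 40590566592348072060073885984358400, .ofNat 0, .ofNat 0, .ofNat 0, .ofNat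 0, .ofNat 0⟩)
    (by decide +kernel)
theorem L01400 : Good (Phi V4.P V4.D (-1) (-1)) ⟨7, 110, 4, 8, 3, 6, 3, 0, 5, 3⟩ :=
  leaf_sound (S := T4.ds_mm) T4.ok_mm (w := 216) (c := ⟨⟨.ofNat 176, .ofNat 92, .negSucc 433, .negSucc 625, .negSucc 685, .negSucc 1310⟩, ⟨.negSucc 124, .negSucc 29, .ofNat 266, .ofNat 356, .ofNat 387, .ofNat 741⟩, ⟨.ofNat 374, .ofNat 23, .ofNat 2, .ofNat 496, .ofNat 233, .ofNat 635⟩, ⟨.negSucc 39, .ofNat 137, .negSucc 562, .negSucc 624, .negSucc 1032, .negSucc 1730⟩, ⟨.negSucc 522, .negSucc 37, .ofNat 150, .ofNat 566, .ofNat 1, .ofNat 439⟩, .ofNat 4685, .ofNat 7751, .ofNat 0, .ofNat 7751, .ofNat 13960, .ofNat 0, .ofNat 42, .negSucc 368, .negSucc 617, .ofNat 0, .ofNat 211, .ofNat 350, .ofNat 0, .ofNat 0, .ofNat 377, .ofNat 1203, .ofNat 0, .ofNat 0, .ofNat 0, .ofNat 0, .ofNat 0, .ofNat 0, .ofNat 92045821215369063917791941230592000, .ofNat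 0, .ofNat 41368185033565004239349045289646568138342400, .ofNat 0, .ofNat 40999667468378087440625972753203200, .ofNat 0, .ofNat 0, .ofNat 0, .ofNat 0, .ofNat 0⟩)
    (by decide +kernel)
theorem L01401 : Good (Phi V4.P V4.D (-1) (-1)) ⟨7, 110, 4, 9, 3, 6, 3, 0, 5, 2⟩ :=
  leaf_sound (S := T4.ds_mm) T4.ok_mm (w := 216) (c := ⟨⟨.ofNat 2273, .negSucc 238, .ofNat 212, .ofNat 350, .negSucc 1613, .negSucc 2144⟩, ⟨.negSucc 1298, .ofNat 130, .negSucc 116, .negSucc 198, .ofNat 923, .ofNat 1228⟩, ⟨.negSucc 706, .ofNat 10, .negSucc 57, .ofNat 335, .ofNat 462, .ofNat 967⟩, ⟨.ofNat 2755, .negSucc 279, .ofNat 228, .ofNat 572, .negSucc 2167, .negSucc 2881⟩, ⟨.negSucc 1174, .ofNat 166, .negSucc 159, .ofNat 78, .ofNat 455, .ofNat 599⟩, .ofNat 5749, .ofNat 9524, .ofNat 0, .ofNat 9524, .ofNat 16891, .ofNat 0, .ofNat 36, .negSucc 379, .negSucc 689, .ofNat 0, .ofNat 219, .ofNat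 395, .ofNat 0, .ofNat 0, .ofNat 398, .ofNat 930, .ofNat 0, .ofNat 0, .ofNat 0, .ofNat 0, .ofNat 0, .ofNat 0, .ofNat 0, .ofNat 0, .ofNat 53545101182667736049941347306521100917145600, .ofNat 0, .ofNat 0, .ofNat 0, .ofNat 0, .ofNat 0, .ofNat 0, .ofNat 0⟩)
    (by decide +kernel)
theorem L01402 : Good (Phi V4.P V4.D (-1) (-1)) ⟨7, 110, 4, 9, 3, 6, 3, 0, 5, 3⟩ :=
  leaf_sound (S := T4.ds_mm) T4.ok_mm (w := 216) (c := ⟨⟨.negSucc 106, .negSucc 209, .ofNat 163, .negSucc 475, .negSucc 690, .negSucc 1411⟩, ⟨.ofNat 46, .ofNat 142, .negSucc 80, .ofNat 274, .ofNat 395, .ofNat 808⟩, ⟨.ofNat 356, .ofNat 59, .negSucc 71, .ofNat 456, .ofNat 230, .ofNat 660⟩, ⟨.negSucc 415, .negSucc 248, .ofNat 212, .negSucc 432, .negSucc 1032, .negSucc 1852⟩, ⟨.negSucc 424, .ofNat 88, .negSucc 73, .ofNat 493, .ofNat 11, .ofNat 470⟩, .ofNat 2225, .ofNat 3390, .ofNat 0, .ofNat 3390, .ofNat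 6191, .ofNat 0, .ofNat 59, .negSucc 375, .negSucc 654, .ofNat 0, .ofNat 219, .ofNat 374, .ofNat 0, .ofNat 0, .ofNat 386, .ofNat 1010, .ofNat 0, .ofNat 0, .ofNat 0, .ofNat 0, .ofNat 0, .ofNat 0, .ofNat 0, .ofNat 0, .ofNat 49850179244041805315541658939512814829568000, .ofNat 0, .ofNat 0, .ofNat 0, .ofNat 0, .ofNat 0, .ofNat 0, .ofNat 0⟩)
    (by decide +kernel)
theorem L01403 : Good (Phi V4.P V4.D (-1) (-1)) ⟨7, 111, 3, 4, 3, 6, 3, 0, 4, 1⟩ :=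
  out_sound (S := T4.ds_mm) T4.ok_mm (w := 24) (j := 4) (by decide +kernel)
theorem L01404 : Good (Phi V4.P V4.D (-1) (-1)) ⟨5, 27, 3, 5, 3, 6, 3, 0, 4, 1⟩ :=
  out_sound (S := T4.ds_mm) T4.ok_mm (w := 64) (j := 3) (by decide +kernel)
theorem L01405 : Good (Phi V4.P V4.D (-1) (-1)) ⟨6, 54, 3, 4, 4, 14, 3, 0, 5, 2⟩ :=
  leaf_sound (S := T4.ds_mm) T4.ok_mm (w := 216) (c := ⟨⟨.ofNat 2147, .negSucc 442, .ofNat 2384, .ofNat 161, .negSucc 2056, .negSucc 2378⟩, ⟨.negSucc 1175, .ofNat 279, .negSucc 1387, .negSucc 95, .ofNat 1124, .ofNat 1300⟩, ⟨.negSucc 153, .ofNat 26, .negSucc 433, .ofNat 316, .ofNat 475, .ofNat 965⟩, ⟨.ofNat 2798, .negSucc 426, .ofNat 2661, .ofNat 213, .negSucc 2677, .negSucc 3294⟩, ⟨.negSucc 873, .ofNat 388, .negSucc 1587, .negSucc 40, .ofNat 839, .ofNat 603⟩, .ofNat 1709, .ofNat 2580, .ofNat 0, .ofNat 2580, .ofNat 4983, .ofNat 0, .ofNat 78, .negSucc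 458, .negSucc 722, .ofNat 0, .ofNat 259, .ofNat 393, .ofNat 0, .ofNat 0, .ofNat 390, .ofNat 1641, .ofNat 0, .ofNat 0, .ofNat 0, .ofNat 0, .ofNat 0, .ofNat 0, .ofNat 0, .ofNat 0, .ofNat 0, .ofNat 0, .ofNat 13392538509051122544717950398287052800, .ofNat 0, .ofNat 0, .ofNat 0, .ofNat 0, .ofNat 0⟩)
    (by decide +kernel)
theorem L01406 : Good (Phi V4.P V4.D (-1) (-1)) ⟨7, 110, 4, 8, 4, 14, 3, 0, 5, 2⟩ :=
  leaf_sound (S := T4.ds_mm) T4.ok_mm (w := 224) (c := ⟨⟨.ofNat 2167, .negSucc 87, .ofNat 909, .ofNat 300, .negSucc 2524, .negSucc 2340⟩, ⟨.negSucc 1222, .ofNat 48, .negSucc 517, .negSucc 170, .ofNat 1429, .ofNat 1324⟩, ⟨.negSucc 190, .ofNat 15, .negSucc 243, .ofNat 282, .ofNat 606, .ofNat 972⟩, ⟨.ofNat 2794, .negSucc 71, .ofNat 1080, .ofNat 403, .negSucc 3180, .negSucc 3211⟩, ⟨.negSucc 861, .ofNat 118, .negSucc 497, .negSucc 83, .ofNat 1113, .ofNat 566⟩, .ofNat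 4724, .ofNat 7819, .ofNat 0, .ofNat 7819, .ofNat 14076, .ofNat 0, .ofNat 45, .negSucc 463, .negSucc 766, .ofNat 0, .ofNat 266, .ofNat 433, .ofNat 0, .ofNat 0, .ofNat 403, .ofNat 1160, .ofNat 0, .ofNat 0, .ofNat 0, .ofNat 0, .ofNat 0, .ofNat 0, .ofNat 46398430292582724594263099886167654400, .ofNat 0, .ofNat 10089600913293890074082923934098326595357900800, .ofNat 0, .ofNat 16954307466654049945975545905597644800, .ofNat 0, .ofNat 2159285324297126736718055857501140734391091200, .ofNat 0, .ofNat 40650218847443753533495946646650880000, .ofNat 0⟩)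
    (by decide +kernel)
theorem L01407 : Good (Phi V4.P V4.D (-1) (-1)) ⟨7, 110, 4, 9, 4, 14, 3, 0, 5, 2⟩ :=
  leaf_sound (S := T4.ds_mm) T4.ok_mm (w := 224) (c := ⟨⟨.ofNat 2847, .ofNat 754, .ofNat 130, .ofNat 491, .negSucc 2762, .negSucc 2524⟩, ⟨.negSucc 1622, .negSucc 445, .negSucc 77, .negSucc 284, .ofNat 1586, .ofNat 1447⟩, ⟨.negSucc 379, .negSucc 203, .negSucc 58, .ofNat 242, .ofNat 661, .ofNat 1016⟩, ⟨.ofNat 3619, .ofNat 835, .ofNat 129, .ofNat 598, .negSucc 3396, .negSucc 3435⟩, ⟨.negSucc 1179, .negSucc 480, .negSucc 100, .negSucc 237, .ofNat 1316, .ofNat 629⟩, .ofNat 5835, .ofNat 9667, .ofNat 0, .ofNat 9667, .ofNat 17129, .ofNat 0, .ofNat 39, .negSucc 478, .negSucc 814, .ofNat 0, .ofNat 277, .ofNat 467, .ofNat 0, .ofNat 0, .ofNat 416, .ofNat 3362, .ofNat 0, .ofNat 0, .ofNat 0, .ofNat 0, .ofNat 0, .ofNat 0, .ofNat 0, .ofNat 0, .ofNat 0, .ofNat 0, .ofNat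 13862237516366366979377042575432089600, .ofNat 0, .ofNat 0, .ofNat 0, .ofNat 0, .ofNat 0⟩)
    (by decide +kernel)
theorem L01408 : Good (Phi V4.P V4.D (-1) (-1)) ⟨7, 111, 3, 4, 4, 14, 3, 0, 5, 2⟩ :=
  out_sound (S := T4.ds_mm) T4.ok_mm (w := 24) (j := 4) (by decide +kernel)
theorem L01409 : Good (Phi V4.P V4.D (-1) (-1)) ⟨6, 54, 3, 4, 4, 15, 3, 0, 5, 2⟩ :=
  leaf_sound (S := T4.ds_mm) T4.ok_mm (w := 216) (c := ⟨⟨.ofNat 2566, .negSucc 806, .ofNat 3661, .negSucc 1453, .negSucc 1931, .negSucc 2750⟩, ⟨.negSucc 1422, .ofNat 489, .negSucc 2087, .ofNat 805, .ofNat 1065, .ofNat 1500⟩, ⟨.ofNat 3, .ofNat 538, .negSucc 1625, .ofNat 1228, .ofNat 311, .ofNat 1176⟩, ⟨.ofNat 3304, .negSucc 1084, .ofNat 4713, .negSucc 2077, .negSucc 2319, .negSucc 3801⟩, ⟨.negSucc 1088, .ofNat 182, .negSucc 1371, .ofNat 217, .ofNat 1136, .ofNat 719⟩, .ofNat 1710, .ofNat 2582, .ofNat 0,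 .ofNat 2582, .ofNat 4988, .ofNat 0, .ofNat 82, .negSucc 473, .negSucc 807, .ofNat 0, .ofNat 270, .ofNat 438, .ofNat 0, .ofNat 0, .ofNat 448, .ofNat 832, .ofNat 0, .ofNat 0, .ofNat 1387145983626410686888779092223590400, .ofNat 0, .ofNat 0, .ofNat 0, .ofNat 0, .ofNat 0, .ofNat 122578626741707377726659397696887444838809600, .ofNat 0, .ofNat 19111989334584845625555673622878617600, .ofNat 0, .ofNat 0, .ofNat 0, .ofNat 11778354144149707036123423156312473600, .ofNat 0⟩)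
    (by decide +kernel)
theorem L01410 : Good (Phi V4.P V4.D (-1) (-1)) ⟨7, 110, 4, 8, 4, 15, 3, 0, 5, 2⟩ :=
  leaf_sound (S := T4.ds_mm) T4.ok_mm (w := 224) (c := ⟨⟨.ofNat 4170, .ofNat 721, .negSucc 396, .negSucc 1513, .negSucc 2467, .negSucc 3084⟩, ⟨.negSucc 2375, .negSucc 417, .ofNat 242, .ofNat 855, .ofNat 1400, .ofNat 1745⟩, ⟨.negSucc 525, .negSucc 212, .ofNat 138, .ofNat 1271, .ofNat 486, .ofNat 1373⟩, ⟨.ofNat 5353, .ofNat 931, .negSucc 620, .negSucc 2120, .negSucc 2864, .negSucc 4291⟩, ⟨.negSucc 1640, .negSucc 245, .negSucc 65, .ofNat 288, .ofNat 1520, .ofNat 641⟩, .ofNat 4768, .ofNat 7892, .ofNat 0, .ofNat 7892, .ofNat 14196, .ofNat 0, .ofNat 48, .negSucc 486, .negSucc 904, .ofNat 0, .ofNat 280, .ofNat 511, .ofNat 0, .ofNat 0, .ofNat 484, .ofNat 766, .ofNat 0, .ofNat 0, .ofNat 0, .ofNat 0, .ofNat 0, .ofNat 0, .ofNat 45237043579814975691451532827636531200,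 .ofNat 0, .ofNat 7843929228207994926588353437015712003103129600, .ofNat 0, .ofNat 32934012406162637902467423517487923200, .ofNat 0, .ofNat 0, .ofNat 0, .ofNat 27764060826323691640270112623165440000, .ofNat 0⟩)
    (by decide +kernel)
theorem L01411 : Good (Phi V4.P V4.D (-1) (-1)) ⟨7, 110, 4, 9, 4, 15, 3, 0, 5, 2⟩ :=
  leaf_sound (S := T4.ds_mm) T4.ok_mm (w := 224) (c := ⟨⟨.ofNat 3973, .ofNat 1120, .negSucc 804, .negSucc 1858, .negSucc 2865, .negSucc 3302⟩, ⟨.negSucc 2271, .negSucc 649, .ofNat 464, .ofNat 1063, .ofNat 1644, .ofNat 1891⟩, ⟨.negSucc 391, .negSucc 487, .ofNat 510, .ofNat 1399, .ofNat 621, .ofNat 1465⟩, ⟨.ofNat 4939, .ofNat 1375, .negSucc 1140, .negSucc 2508, .negSucc 3309, .negSucc 4549⟩, ⟨.negSucc 1829, .negSucc 500, .ofNat 118, .ofNat 502, .ofNat 1743, .ofNat 727⟩, .ofNat 2225, .ofNat 3391, .ofNat 0, .ofNat 3391, .ofNat 6192, .ofNat 0, .ofNat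 68, .negSucc 489, .negSucc 951, .ofNat 0, .ofNat 288, .ofNat 541, .ofNat 0, .ofNat 0, .ofNat 500, .ofNat 829, .ofNat 0, .ofNat 0, .ofNat 1386494831718416691124817862485606400, .ofNat 0, .ofNat 0, .ofNat 0, .ofNat 0, .ofNat 0, .ofNat 0, .ofNat 0, .ofNat 0, .ofNat 0, .ofNat 0, .ofNat 0, .ofNat 5025905610515605211889700327705804800, .ofNat 0⟩)
    (by decide +kernel)
theorem L01412 : Good (Phi V4.P V4.D (-1) (-1)) ⟨7, 111, 3, 4, 4, 15, 3, 0, 5, 2⟩ :=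
  out_sound (S := T4.ds_mm) T4.ok_mm (w := 24) (j := 4) (by decide +kernel)
theorem L01413 : Good (Phi V4.P V4.D (-1) (-1)) ⟨6, 54, 3, 4, 3, 7, 3, 0, 5, 3⟩ :=
  leaf_sound (S := T4.ds_mm) T4.ok_mm (w := 208) (c := ⟨⟨.negSucc 631, .ofNat 121, .ofNat 364, .negSucc 1211, .negSucc 800, .negSucc 1268⟩, ⟨.ofNat 310, .negSucc 52, .negSucc 59, .ofNat 654, .ofNat 439, .ofNat 691⟩, ⟨.ofNat 794, .negSucc 21, .negSucc 37, .ofNat 1660, .ofNat 67, .ofNat 490⟩, ⟨.negSucc 947, .ofNat 241, .ofNat 413, .negSucc 1804, .negSucc 1072, .negSucc 1647⟩, ⟨.ofNat 91, .ofNat 58, .negSucc 462, .ofNat 83, .ofNat 271, .ofNat 532⟩, .ofNat 1684, .ofNat 2542, .ofNat 0, .ofNat 2542, .ofNat 4931, .ofNat 0, .ofNat 81, .negSucc 465, .negSucc 686, .ofNat 0, .ofNat 265, .ofNat 374, .ofNat 0, .ofNat 0, .ofNat 392, .ofNat 817, .ofNat 0, .ofNat 0, .ofNat 2412151705241743024167155505561600, .ofNat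 0, .ofNat 0, .ofNat 0, .ofNat 0, .ofNat 0, .ofNat 1025357149945826899756530277189496183193600, .ofNat 0, .ofNat 16352769250054519019923488060211200, .ofNat 0, .ofNat 0, .ofNat 0, .ofNat 20072085789582911160884471110041600, .ofNat 0⟩)
    (by decide +kernel)
theorem L01414 : Good (Phi V4.P V4.D (-1) (-1)) ⟨7, 110, 4, 8, 3, 7, 3, 0, 5, 3⟩ :=
  leaf_sound (S := T4.ds_mm) T4.ok_mm (w := 216) (c := ⟨⟨.negSucc 2587, .negSucc 1556, .ofNat 3060, .negSucc 1450, .negSucc 809, .negSucc 1471⟩, ⟨.ofNat 1447, .ofNat 914, .negSucc 1720, .ofNat 819, .ofNat 458, .ofNat 833⟩, ⟨.ofNat 1446, .ofNat 673, .negSucc 998, .ofNat 1868, .negSucc 59, .ofNat 618⟩, ⟨.negSucc 3033, .negSucc 1824, .ofNat 3399, .negSucc 2118, .negSucc 945, .negSucc 1897⟩, ⟨.ofNat 1573, .ofNat 874, .negSucc 2177, .ofNat 124, .ofNat 489, .ofNat 574⟩, .ofNat 4684, .ofNat 7751, .ofNat 0, .ofNat 7751, .ofNat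 13963, .ofNat 0, .ofNat 48, .negSucc 479, .negSucc 749, .ofNat 0, .ofNat 276, .ofNat 424, .ofNat 0, .ofNat 0, .ofNat 414, .ofNat 1100, .ofNat 0, .ofNat 0, .ofNat 0, .ofNat 0, .ofNat 0, .ofNat 0, .ofNat 84463176209108135000763022914355200, .ofNat 0, .ofNat 29935711231847929654015785576699813219532800, .ofNat 0, .ofNat 20977616565174948771276010605772800, .ofNat 0, .ofNat 0, .ofNat 0, .ofNat 42162278993346718379165415269990400, .ofNat 0⟩)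
    (by decide +kernel)
theorem L01415 : Good (Phi V4.P V4.D (-1) (-1)) ⟨7, 110, 4, 9, 3, 7, 3, 0, 5, 3⟩ :=
  leaf_sound (S := T4.ds_mm) T4.ok_mm (w := 216) (c := ⟨⟨.ofNat 281, .ofNat 345, .ofNat 421, .negSucc 1449, .negSucc 1242, .negSucc 1965⟩, ⟨.negSucc 179, .negSucc 170, .negSucc 228, .ofNat 829, .ofNat 713, .ofNat 1127⟩, ⟨.ofNat 408, .ofNat 49, .negSucc 340, .ofNat 1861, .ofNat 123, .ofNat 894⟩, ⟨.ofNat 239, .ofNat 316, .ofNat 622, .negSucc 2109, .negSucc 1469, .negSucc 2538⟩, ⟨.negSucc 294, .negSucc 393, .negSucc 31, .ofNat 123, .ofNat 696, .ofNat 728⟩, .ofNat 5767, .ofNat 9554, .ofNat 0, .ofNat 9554, .ofNat 16942, .ofNat 0, .ofNat 42, .negSucc 492, .negSucc 781, .ofNat 0, .ofNat 286, .ofNat 448, .ofNat 0, .ofNat 0, .ofNat 419, .ofNat 851, .ofNat 0, .ofNat 0, .ofNat 2335456919671208114220830608588800, .ofNat 0, .ofNat 0, .ofNat 0, .ofNat 0, .ofNat 0,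 .ofNat 0, .ofNat 0, .ofNat 0, .ofNat 0, .ofNat 0, .ofNat 0, .ofNat 11551818015921007874282241392640000, .ofNat 0⟩)
    (by decide +kernel)
theorem L01416 : Good (Phi V4.P V4.D (-1) (-1)) ⟨7, 111, 3, 4, 3, 7, 3, 0, 5, 3⟩ :=
  out_sound (S := T4.ds_mm) T4.ok_mm (w := 24) (j := 4) (by decide +kernel)
theorem L01417 : Good (Phi V4.P V4.D (-1) (-1)) ⟨5, 27, 3, 5, 3, 7, 3, 0, 4, 1⟩ :=
  out_sound (S := T4.ds_mm) T4.ok_mm (w := 64) (j := 3) (by decide +kernel)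
theorem L01418 : Good (Phi V4.P V4.D (-1) (-1)) ⟨4, 13, 2, 3, 2, 3, 3, 0, 3, 0⟩ :=
  out_sound (S := T4.ds_mm) T4.ok_mm (w := 56) (j := 3) (by decide +kernel)
theorem L01419 : Good (Phi V4.P V4.D (-1) (-1)) ⟨3, 7, 1, 1, 2, 3, 3, 0, 3, 0⟩ :=
  out_sound (S := T4.ds_mm) T4.ok_mm (w := 16) (j := 4) (by decide +kernel)
theorem L01420 : Good (Phi V4.P V4.D (-1) (-1)) ⟨2, 2, 1, 1, 2, 3, 3, 0, 3, 1⟩ :=
  out_sound (S := T4.ds_mm) T4.ok_mm (w := 40) (j := 3) (by decide +kernel)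
theorem L01421 : Good (Phi V4.P V4.D (-1) (-1)) ⟨4, 12, 2, 2, 2, 3, 3, 0, 3, 1⟩ :=
  out_sound (S := T4.ds_mm) T4.ok_mm (w := 56) (j := 3) (by decide +kernel)
theorem L01422 : Good (Phi V4.P V4.D (-1) (-1)) ⟨5, 26, 2, 2, 2, 3, 3, 0, 3, 1⟩ :=
  out_sound (S := T4.ds_mm) T4.ok_mm (w := 56) (j := 3) (by decide +kernel)
theorem L01423 : Good (Phi V4.P V4.D (-1) (-1)) ⟨6, 54, 3, 4, 3, 6, 3, 0, 5, 4⟩ :=
  leaf_sound (S := T4.ds_mm) T4.ok_mm (w := 208) (c := ⟨⟨.negSucc 1684, .negSucc 237, .ofNat 377, .negSucc 622, .negSucc 146, .negSucc 159⟩, ⟨.ofNat 874, .ofNat 178, .negSucc 128, .ofNat 343, .ofNat 75, .ofNat 86⟩, ⟨.ofNat 1075, .ofNat 189, .negSucc 336, .ofNat 396, .ofNat 58, .ofNat 122⟩, ⟨.negSucc 2534, .negSucc 174, .ofNat 366, .negSucc 657, .negSucc 368, .negSucc 327⟩, ⟨.ofNat 124, .ofNat 238, .negSucc 403, .ofNat 538, .negSucc 262, .negSucc 158⟩, .ofNat 1709,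 .ofNat 2581, .ofNat 0, .ofNat 2581, .ofNat 4983, .ofNat 0, .ofNat 141, .negSucc 679, .negSucc 913, .ofNat 0, .ofNat 387, .ofNat 502, .ofNat 0, .ofNat 0, .ofNat 648, .ofNat 4649, .ofNat 0, .ofNat 0, .ofNat 0, .ofNat 0, .ofNat 0, .ofNat 0, .ofNat 0, .ofNat 0, .ofNat 2272618228415210260104748484646157890355200, .ofNat 0, .ofNat 96441085351643972306046386857574400, .ofNat 0, .ofNat 0, .ofNat 0, .ofNat 0, .ofNat 0⟩)
    (by decide +kernel)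
theorem L01424 : Good (Phi V4.P V4.D (-1) (-1)) ⟨7, 110, 3, 4, 3, 6, 3, 0, 5, 4⟩ :=
  leaf_sound (S := T4.ds_mm) T4.ok_mm (w := 208) (c := ⟨⟨.negSucc 1830, .negSucc 21, .negSucc 18, .negSucc 503, .negSucc 138, .negSucc 146⟩, ⟨.ofNat 1018, .ofNat 54, .ofNat 23, .ofNat 288, .ofNat 78, .ofNat 83⟩, ⟨.ofNat 1145, .ofNat 5, .ofNat 29, .ofNat 367, .ofNat 42, .ofNat 108⟩, ⟨.negSucc 2648, .ofNat 6, .negSucc 2, .negSucc 475, .negSucc 375, .negSucc 321⟩, ⟨.ofNat 223, .ofNat 7, .ofNat 33, .ofNat 497, .negSucc 292, .negSucc 176⟩, .ofNat 2169, .ofNat 3303, .ofNat 0, .ofNat 3303, .ofNat 6060, .ofNat 0, .ofNat 119, .negSucc 715, .negSucc 984, .ofNat 0, .ofNat 418, .ofNat 563, .ofNat 0, .ofNat 0, .ofNat 662, .ofNat 1726, .ofNat 0, .ofNat 0, .ofNat 0, .ofNat 0, .ofNat 0, .ofNat 0, .ofNat 82870503394652949792654847534694400, .ofNat 0, .ofNat 46304697747160291276888133724091880099020800,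 .ofNat 0, .ofNat 21279371420586195430232276179353600, .ofNat 0, .ofNat 0, .ofNat 0, .ofNat 0, .ofNat 0⟩)
    (by decide +kernel)
theorem L01425 : Good (Phi V4.P V4.D (-1) (-1)) ⟨7, 111, 3, 4, 3, 6, 3, 0, 5, 4⟩ :=
  out_sound (S := T4.ds_mm) T4.ok_mm (w := 24) (j := 4) (by decide +kernel)
theorem L01426 : Good (Phi V4.P V4.D (-1) (-1)) ⟨5, 27, 3, 4, 3, 6, 3, 0, 5, 5⟩ :=
  leaf_sound (S := T4.ds_mm) T4.ok_mm (w := 200) (c := ⟨⟨.negSucc 2133, .negSucc 221, .ofNat 247, .negSucc 230, .ofNat 14, .ofNat 251⟩, ⟨.ofNat 1116, .ofNat 197, .negSucc 30, .ofNat 128, .negSucc 10, .negSucc 141⟩, ⟨.ofNat 1346, .ofNat 162, .negSucc 189, .ofNat 254, .negSucc 48, .negSucc 63⟩, ⟨.negSucc 3168, .negSucc 106, .ofNat 226, .negSucc 252, .negSucc 157, .ofNat 153⟩, ⟨.ofNat 204, .ofNat 213, .negSucc 267, .ofNat 182, .negSucc 325, .negSucc 419⟩, .ofNat 1846, .ofNat 2797, .ofNat 0, .ofNat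 2797, .ofNat 5309, .ofNat 0, .ofNat 132, .negSucc 635, .negSucc 681, .ofNat 0, .ofNat 368, .ofNat 381, .ofNat 0, .ofNat 0, .ofNat 575, .ofNat 2535, .ofNat 0, .ofNat 0, .ofNat 0, .ofNat 0, .ofNat 0, .ofNat 0, .ofNat 1123685148253876774282417278025728000, .ofNat 0, .ofNat 52701668343973337735953855211178767155200, .ofNat 0, .ofNat 272892190295916307726791127282483200, .ofNat 0, .ofNat 0, .ofNat 0, .ofNat 0, .ofNat 0⟩)
    (by decide +kernel)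
theorem L01427 : Good (Phi V4.P V4.D (-1) (-1)) ⟨6, 54, 4, 8, 3, 7, 3, 0, 4, 2⟩ :=
  leaf_sound (S := T4.ds_mm) T4.ok_mm (w := 208) (c := ⟨⟨.negSucc 2697, .negSucc 140, .ofNat 455, .negSucc 115, .negSucc 67, .ofNat 738⟩, ⟨.ofNat 1429, .ofNat 129, .negSucc 205, .ofNat 51, .ofNat 38, .negSucc 415⟩, ⟨.ofNat 1681, .negSucc 80, .negSucc 6, .ofNat 1246, .negSucc 282, .negSucc 128⟩, ⟨.negSucc 3539, .ofNat 97, .ofNat 314, .negSucc 620, .negSucc 112, .ofNat 366⟩, ⟨.ofNat 1120, .ofNat 476, .negSucc 721, .negSucc 813, .negSucc 22, .negSucc 1394⟩, .ofNat 3176, .ofNat 5240, .ofNat 0, .ofNat 5240, .ofNat 9834, .ofNat 0, .ofNat 123, .negSucc 781, .negSucc 711, .ofNat 0, .ofNat 445, .ofNat 391, .ofNat 0, .ofNat 0, .ofNat 603, .ofNat 2714, .ofNat 0, .ofNat 0, .ofNat 0, .ofNat 0, .ofNat 0, .ofNat 0, .ofNat 48704149369356332851897010277580800, .ofNat 0, .ofNat 978418505177454633807357711294206784307200,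 .ofNat 0, .ofNat 18110206478252229730019041502822400, .ofNat 0, .ofNat 0, .ofNat 0, .ofNat 9071968844830076024319087162163200, .ofNat 0⟩)
    (by decide +kernel)
theorem L01428 : Good (Phi V4.P V4.D (-1) (-1)) ⟨6, 55, 5, 16, 3, 7, 3, 0, 4, 2⟩ :=
  out_sound (S := T4.ds_mm) T4.ok_mm (w := 72) (j := 3) (by decide +kernel)
theorem L01429 : Good (Phi V4.P V4.D (-1) (-1)) ⟨7, 110, 5, 17, 3, 7, 3, 0, 4, 2⟩ :=
  leaf_sound (S := T4.ds_mm) T4.ok_mm (w := 216) (c := ⟨⟨.negSucc 3484, .negSucc 578, .ofNat 1311, .negSucc 145, .negSucc 224, .ofNat 915⟩, ⟨.ofNat 1941, .ofNat 339, .negSucc 706, .ofNat 78, .ofNat 127, .negSucc 522⟩, ⟨.ofNat 2463, .ofNat 956, .negSucc 1234, .ofNat 1345, .negSucc 210, .negSucc 263⟩, ⟨.negSucc 4753, .negSucc 1410, .ofNat 2236, .negSucc 693, .negSucc 301, .ofNat 505⟩, ⟨.ofNat 926, .negSucc 979, .ofNat 425, .negSucc 836, .ofNat 67, .negSucc 1553⟩,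 .ofNat 9272, .ofNat 15836, .ofNat 0, .ofNat 15836, .ofNat 28218, .ofNat 0, .ofNat 74, .negSucc 826, .negSucc 794, .ofNat 0, .ofNat 475, .ofNat 451, .ofNat 0, .ofNat 0, .ofNat 625, .ofNat 2071, .ofNat 0, .ofNat 0, .ofNat 0, .ofNat 0, .ofNat 0, .ofNat 0, .ofNat 61688766605116122680912122164019200, .ofNat 0, .ofNat 139624400899634533212332701625875661271859200, .ofNat 0, .ofNat 32689160863501732129005938461900800, .ofNat 0, .ofNat 25019640687585957825769548743875616361676800, .ofNat 0, .ofNat 20431524047833486195747848821145600, .ofNat 0⟩)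
    (by decide +kernel)
theorem L01430 : Good (Phi V4.P V4.D (-1) (-1)) ⟨7, 111, 5, 17, 3, 7, 3, 0, 4, 2⟩ :=
  out_sound (S := T4.ds_mm) T4.ok_mm (w := 80) (j := 3) (by decide +kernel)
theorem L01431 : Good (Phi V4.P V4.D (-1) (-1)) ⟨6, 54, 4, 9, 3, 7, 3, 0, 4, 2⟩ :=
  out_sound (S := T4.ds_mm) T4.ok_mm (w := 72) (j := 3) (by decide +kernel)
theorem L01432 : Good (Phi V4.P V4.D (-1) (-1)) ⟨6, 55, 5, 18, 3, 7, 3, 0, 4, 2⟩ :=
  leaf_sound (S := T4.ds_mm) T4.ok_mm (w := 208) (c := ⟨⟨.negSucc 2392, .ofNat 204, .ofNat 41, .negSucc 18, .negSucc 230, .ofNat 595⟩, ⟨.ofNat 1357, .negSucc 98, .ofNat 12, .ofNat 9, .ofNat 132, .negSucc 342⟩, ⟨.ofNat 1487, .negSucc 19, .ofNat 91, .ofNat 1362, .negSucc 259, .negSucc 71⟩, ⟨.negSucc 2875, .ofNat 123, .negSucc 81, .negSucc 667, .negSucc 268, .ofNat 66⟩, ⟨.ofNat 1270, .negSucc 338, .negSucc 290, .negSucc 1111, .ofNat 137,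 .negSucc 1442⟩, .ofNat 5922, .ofNat 9811, .ofNat 0, .ofNat 9811, .ofNat 17367, .ofNat 0, .ofNat 81, .negSucc 826, .negSucc 776, .ofNat 0, .ofNat 482, .ofNat 446, .ofNat 0, .ofNat 0, .ofNat 617, .ofNat 1309, .ofNat 0, .ofNat 0, .ofNat 0, .ofNat 0, .ofNat 0, .ofNat 0, .ofNat 102172375218249197799080352074956800, .ofNat 0, .ofNat 9519494942362251012177095877630458068992000, .ofNat 0, .ofNat 45866973236282009628535801302220800, .ofNat 0, .ofNat 0, .ofNat 0, .ofNat 29011624449472070595842522952499200, .ofNat 0⟩)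
    (by decide +kernel)
theorem L01433 : Good (Phi V4.P V4.D (-1) (-1)) ⟨7, 110, 5, 19, 3, 7, 3, 0, 4, 2⟩ :=
  out_sound (S := T4.ds_mm) T4.ok_mm (w := 80) (j := 3) (by decide +kernel)
theorem L01434 : Good (Phi V4.P V4.D (-1) (-1)) ⟨7, 111, 5, 19, 3, 7, 3, 0, 4, 2⟩ :=
  out_sound (S := T4.ds_mm) T4.ok_mm (w := 24) (j := 4) (by decide +kernel)
theorem L01435 : Good (Phi V4.P V4.D (-1) (-1)) ⟨5, 27, 3, 4, 3, 6, 3, 0, 4, 3⟩ :=
  leaf_sound (S := T4.ds_mm) T4.ok_mm (w := 200) (c := ⟨⟨.negSucc 2095, .negSucc 38, .ofNat 181, .ofNat 74, .ofNat 68, .ofNat 552⟩, ⟨.ofNat 1101, .ofNat 71, .ofNat 14, .negSucc 44, .negSucc 38, .negSucc 312⟩, ⟨.ofNat 1366, .negSucc 43, .ofNat 13, .ofNat 198, .negSucc 140, .negSucc 125⟩, ⟨.negSucc 3185, .ofNat 22, .ofNat 123, .negSucc 72, .negSucc 16, .ofNat 368⟩, ⟨.ofNat 21, .ofNat 19, .negSucc 199, .negSucc 334, .negSucc 219, .negSucc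 855⟩, .ofNat 1819, .ofNat 2754, .ofNat 0, .ofNat 2754, .ofNat 5244, .ofNat 0, .ofNat 127, .negSucc 528, .negSucc 409, .ofNat 0, .ofNat 310, .ofNat 230, .ofNat 0, .ofNat 0, .ofNat 502, .ofNat 9330, .ofNat 0, .ofNat 0, .ofNat 0, .ofNat 0, .ofNat 0, .ofNat 0, .ofNat 69070984323431731020313691317862400, .ofNat 0, .ofNat 15265456345232700348475522896012037324800, .ofNat 0, .ofNat 21069723883520166943066492502016000, .ofNat 0, .ofNat 0, .ofNat 0, .ofNat 31087134338036171971356650373120000, .ofNat 0⟩)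
    (by decide +kernel)
theorem L01436 : Good (Phi V4.P V4.D (-1) (-1)) ⟨5, 27, 3, 4, 3, 7, 3, 0, 4, 3⟩ :=
  leaf_sound (S := T4.ds_mm) T4.ok_mm (w := 200) (c := ⟨⟨.negSucc 2026, .negSucc 54, .ofNat 382, .ofNat 185, .ofNat 17, .ofNat 609⟩, ⟨.ofNat 1063, .ofNat 32, .negSucc 39, .negSucc 116, .negSucc 6, .negSucc 349⟩, ⟨.ofNat 1533, .ofNat 267, .negSucc 202, .ofNat 1161, .negSucc 470, .negSucc 38⟩, ⟨.negSucc 3020, .negSucc 157, .ofNat 248, .negSucc 648, .ofNat 190, .ofNat 110⟩, ⟨.ofNat 85, .negSucc 297, .negSucc 341, .negSucc 1677, .ofNat 299, .negSucc 1480⟩, .ofNat 1847, .ofNat 2799, .ofNat 0, .ofNat 2799, .ofNat 5309, .ofNat 0, .ofNat 141, .negSucc 574, .negSucc 332, .ofNat 0, .ofNat 346, .ofNat 186, .ofNat 0, .ofNat 0, .ofNat 525, .ofNat 2219, .ofNat 0, .ofNat 0, .ofNat 0, .ofNat 0, .ofNat 0, .ofNat 0, .ofNat 54233177975066473444795985009049600, .ofNat 0,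 .ofNat 9653413061149384870911802179584419430400, .ofNat 0, .ofNat 21392102816692752024067402786406400, .ofNat 0, .ofNat 0, .ofNat 0, .ofNat 16559311648589495531727942057984000, .ofNat 0⟩)
    (by decide +kernel)
theorem L01437 : Good (Phi V4.P V4.D (-1) (-1)) ⟨5, 27, 3, 5, 2, 3, 3, 0, 3, 1⟩ :=
  out_sound (S := T4.ds_mm) T4.ok_mm (w := 64) (j := 3) (by decide +kernel)
theorem L01438 : Good (Phi V4.P V4.D (-1) (-1)) ⟨3, 6, 2, 3, 2, 3, 3, 0, 3, 1⟩ :=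
  out_sound (S := T4.ds_mm) T4.ok_mm (w := 48) (j := 3) (by decide +kernel)
theorem L01439 : Good (Phi V4.P V4.D (-1) (-1)) ⟨3, 7, 1, 1, 2, 3, 3, 0, 3, 1⟩ :=
  out_sound (S := T4.ds_mm) T4.ok_mm (w := 16) (j := 4) (by decide +kernel)
theorem L01440 : Good (Phi V4.P V4.D (-1) (-1)) ⟨2, 2, 1, 1, 2, 3, 3, 1, 3, 0⟩ :=
  out_sound (S := T4.ds_mm) T4.ok_mm (w := 40) (j := 3) (by decide +kernel)
theorem L01441 : Good (Phi V4.P V4.D (-1) (-1)) ⟨4, 12, 1, 1, 2, 3, 3, 1, 3, 0⟩ :=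
  out_sound (S := T4.ds_mm) T4.ok_mm (w := 48) (j := 3) (by decide +kernel)
theorem L01442 : Good (Phi V4.P V4.D (-1) (-1)) ⟨5, 26, 2, 2, 2, 3, 3, 1, 3, 0⟩ :=
  out_sound (S := T4.ds_mm) T4.ok_mm (w := 56) (j := 3) (by decide +kernel)
theorem L01443 : Good (Phi V4.P V4.D (-1) (-1)) ⟨5, 27, 3, 4, 3, 6, 3, 1, 4, 0⟩ :=
  leaf_sound (S := T4.ds_mm) T4.ok_mm (w := 192) (c := ⟨⟨.ofNat 2020, .ofNat 580, .negSucc 209, .negSucc 254, .negSucc 584, .negSucc 1446⟩, ⟨.negSucc 1086, .negSucc 376, .ofNat 95, .ofNat 146, .ofNat 320, .ofNat 793⟩, ⟨.negSucc 1106, .negSucc 325, .ofNat 197, .ofNat 550, .ofNat 119, .ofNat 843⟩, ⟨.ofNat 2833, .ofNat 705, .negSucc 268, .negSucc 53, .negSucc 978, .negSucc 2374⟩, ⟨.negSucc 485, .negSucc 177, .ofNat 121, .ofNat 606, .negSucc 167, .negSucc 322⟩, .ofNat 763, .ofNat 893, .ofNat 0, .ofNat 893, .ofNat 1875, .ofNat 0, .ofNat 108, .negSucc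 298, .negSucc 556, .ofNat 0, .ofNat 178, .ofNat 297, .ofNat 0, .ofNat 0, .ofNat 381, .ofNat 361, .ofNat 0, .ofNat 0, .ofNat 0, .ofNat 0, .ofNat 0, .ofNat 0, .ofNat 0, .ofNat 0, .ofNat 0, .ofNat 0, .ofNat 5257274498722904257433859784704000, .ofNat 0, .ofNat 0, .ofNat 0, .ofNat 2721614770970442107490930366873600, .ofNat 0⟩)
    (by decide +kernel)
theorem L01444 : Good (Phi V4.P V4.D (-1) (-1)) ⟨6, 54, 4, 8, 3, 7, 3, 1, 4, 0⟩ :=
  leaf_sound (S := T4.ds_mm) T4.ok_mm (w := 200) (c := ⟨⟨.ofNat 1800, .ofNat 34, .ofNat 341, .ofNat 237, .negSucc 716, .negSucc 1618⟩, ⟨.negSucc 951, .negSucc 21, .negSucc 228, .negSucc 118, .ofNat 387, .ofNat 866⟩, ⟨.negSucc 526, .negSucc 81, .negSucc 16, .ofNat 569, .ofNat 38, .ofNat 870⟩, ⟨.ofNat 2973, .negSucc 66, .ofNat 584, .ofNat 735, .negSucc 1172, .negSucc 2898⟩, ⟨.ofNat 406, .negSucc 172, .ofNat 100, .ofNat 693, .negSucc 147,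 .negSucc 794⟩, .ofNat 1711, .ofNat 2582, .ofNat 0, .ofNat 2582, .ofNat 4982, .ofNat 0, .ofNat 76, .negSucc 357, .negSucc 521, .ofNat 0, .ofNat 202, .ofNat 279, .ofNat 0, .ofNat 0, .ofNat 363, .ofNat 1217, .ofNat 0, .ofNat 0, .ofNat 0, .ofNat 0, .ofNat 0, .ofNat 0, .ofNat 0, .ofNat 0, .ofNat 0, .ofNat 0, .ofNat 0, .ofNat 0, .ofNat 0, .ofNat 0, .ofNat 1896756993954275702492405484748800, .ofNat 0⟩)
    (by decide +kernel)
theorem L01445 : Good (Phi V4.P V4.D (-1) (-1)) ⟨6, 54, 4, 9, 3, 7, 3, 1, 4, 0⟩ :=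
  out_sound (S := T4.ds_mm) T4.ok_mm (w := 72) (j := 3) (by decide +kernel)

end Crest.Agent.R097C4.N4mm
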