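import Crest.Agent.R097.T4

/-!
# Row 97, box cover in dimension n = 4 (generated)
-/

set_option autoImplicit false
set_option Elab.async false
set_option maxHeartbeats 0
set_option maxRecDepth 100000

open Crest.Agent.R097 Crest.Agent.R097.KA


namespace Crest.Agent.R097C4.N4mm

theorem L01446 : Good (Phi V4.P V4.D (-1) (-1)) ⟨6, 55, 4, 8, 3, 7, 3, 1, 4, 0⟩ :=
  leaf_sound (S := T4.ds_mm) T4.ok_mm (w := 208) (c := ⟨⟨.ofNat 2129, .ofNat 1080, .negSucc 86, .ofNat 344, .negSucc 895, .negSucc 1474⟩, ⟨.negSucc 1177, .negSucc 635, .ofNat 31, .negSucc 190, .ofNat 505, .ofNat 826⟩, ⟨.negSucc 633, .negSucc 433, .ofNat 69, .ofNat 505, .ofNat 121, .ofNat 785⟩, ⟨.ofNat 3053, .ofNat 1263, .ofNat 257, .ofNat 941, .negSucc 1400, .negSucc 2696⟩, ⟨.negSucc 294, .negSucc 624, .ofNat 699, .ofNat 749, .negSucc 84, .negSucc 835⟩, .ofNat 2046, .ofNat 3111, .ofNat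 0, .ofNat 3111, .ofNat 5772, .ofNat 0, .ofNat 66, .negSucc 365, .negSucc 566, .ofNat 0, .ofNat 211, .ofNat 315, .ofNat 0, .ofNat 0, .ofNat 378, .ofNat 983, .ofNat 0, .ofNat 0, .ofNat 386634088484840580527499824332800, .ofNat 0, .ofNat 0, .ofNat 0, .ofNat 22601140771945707874410428576563200, .ofNat 0, .ofNat 0, .ofNat 0, .ofNat 17570331065733196510156434702336000, .ofNat 0, .ofNat 0, .ofNat 0, .ofNat 4574788646511288752872352435404800, .ofNat 0⟩)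
    (by decide +kernel)
theorem L01447 : Good (Phi V4.P V4.D (-1) (-1)) ⟨7, 110, 5, 18, 3, 7, 3, 1, 5, 0⟩ :=
  leaf_sound (S := T4.ds_mm) T4.ok_mm (w := 224) (c := ⟨⟨.ofNat 1683, .ofNat 96, .ofNat 58, .ofNat 455, .negSucc 662, .negSucc 212⟩, ⟨.negSucc 948, .negSucc 67, .negSucc 56, .negSucc 259, .ofNat 380, .ofNat 121⟩, ⟨.negSucc 433, .negSucc 2, .negSucc 12, .ofNat 468, .ofNat 13, .ofNat 171⟩, ⟨.ofNat 2758, .ofNat 63, .ofNat 172, .ofNat 1207, .negSucc 1115, .negSucc 646⟩, ⟨.ofNat 387, .negSucc 122, .ofNat 150, .ofNat 911, .negSucc 208, .negSucc 572⟩, .ofNat 15331, .ofNat 26197, .ofNat 0, .ofNat 26197, .ofNat 45910, .ofNat 0, .ofNat 48, .negSucc 705, .negSucc 923, .ofNat 0, .ofNat 407, .ofNat 529, .ofNat 0, .ofNat 0, .ofNat 680, .ofNat 3707, .ofNat 0, .ofNat 0, .ofNat 6362142658017672851921648694067200, .ofNat 0, .ofNat 0, .ofNat 0, .ofNat 1629312865867756659635263177438003200,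 .ofNat 0, .ofNat 0, .ofNat 0, .ofNat 0, .ofNat 0, .ofNat 0, .ofNat 0, .ofNat 0, .ofNat 0⟩)
    (by decide +kernel)
theorem L01448 : Good (Phi V4.P V4.D (-1) (-1)) ⟨7, 111, 5, 18, 3, 7, 3, 1, 5, 0⟩ :=
  out_sound (S := T4.ds_mm) T4.ok_mm (w := 24) (j := 4) (by decide +kernel)
theorem L01449 : Good (Phi V4.P V4.D (-1) (-1)) ⟨7, 110, 5, 19, 3, 7, 3, 1, 5, 0⟩ :=
  out_sound (S := T4.ds_mm) T4.ok_mm (w := 80) (j := 3) (by decide +kernel)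
theorem L01450 : Good (Phi V4.P V4.D (-1) (-1)) ⟨7, 111, 5, 19, 3, 7, 3, 1, 5, 0⟩ :=
  out_sound (S := T4.ds_mm) T4.ok_mm (w := 24) (j := 4) (by decide +kernel)
theorem L01451 : Good (Phi V4.P V4.D (-1) (-1)) ⟨7, 110, 5, 18, 3, 7, 3, 1, 5, 1⟩ :=
  leaf_sound (S := T4.ds_mm) T4.ok_mm (w := 216) (c := ⟨⟨.ofNat 1676, .ofNat 338, .negSucc 235, .ofNat 385, .negSucc 1066, .negSucc 1220⟩, ⟨.negSucc 953, .negSucc 198, .ofNat 123, .negSucc 217, .ofNat 611, .ofNat 698⟩, ⟨.negSucc 391, .negSucc 46, .ofNat 50, .ofNat 540, .ofNat 177, .ofNat 610⟩, ⟨.ofNat 2478, .ofNat 382, .negSucc 312, .ofNat 883, .negSucc 1588, .negSucc 1999⟩, ⟨.negSucc 77, .negSucc 214, .ofNat 89, .ofNat 530, .ofNat 25, .negSucc 287⟩, .ofNat 5739, .ofNat 9506, .ofNat 0, .ofNat 9506, .ofNat 16862, .ofNat 0, .ofNat 39, .negSucc 388, .negSucc 669, .ofNat 0, .ofNat 225, .ofNat 382, .ofNat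 0, .ofNat 0, .ofNat 414, .ofNat 2034, .ofNat 0, .ofNat 0, .ofNat 0, .ofNat 0, .ofNat 0, .ofNat 0, .ofNat 0, .ofNat 0, .ofNat 0, .ofNat 0, .ofNat 0, .ofNat 0, .ofNat 0, .ofNat 0, .ofNat 0, .ofNat 0⟩)
    (by decide +kernel)
theorem L01452 : Good (Phi V4.P V4.D (-1) (-1)) ⟨7, 111, 5, 18, 3, 7, 3, 1, 5, 1⟩ :=
  out_sound (S := T4.ds_mm) T4.ok_mm (w := 24) (j := 4) (by decide +kernel)
theorem L01453 : Good (Phi V4.P V4.D (-1) (-1)) ⟨7, 110, 5, 19, 3, 7, 3, 1, 5, 1⟩ :=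
  out_sound (S := T4.ds_mm) T4.ok_mm (w := 80) (j := 3) (by decide +kernel)
theorem L01454 : Good (Phi V4.P V4.D (-1) (-1)) ⟨7, 111, 5, 19, 3, 7, 3, 1, 5, 1⟩ :=
  out_sound (S := T4.ds_mm) T4.ok_mm (w := 24) (j := 4) (by decide +kernel)
theorem L01455 : Good (Phi V4.P V4.D (-1) (-1)) ⟨6, 54, 3, 4, 3, 6, 3, 1, 4, 1⟩ :=
  leaf_sound (S := T4.ds_mm) T4.ok_mm (w := 200) (c := ⟨⟨.ofNat 344, .negSucc 439, .ofNat 831, .negSucc 663, .negSucc 439, .negSucc 2160⟩, ⟨.negSucc 215, .ofNat 262, .negSucc 359, .ofNat 367, .ofNat 232, .ofNat 1169⟩, ⟨.negSucc 50, .ofNat 125, .negSucc 241, .ofNat 485, .ofNat 159, .ofNat 1215⟩, ⟨.ofNat 184, .negSucc 532, .ofNat 1058, .negSucc 761, .negSucc 741, .negSucc 3028⟩, ⟨.negSucc 605, .ofNat 200, .negSucc 410, .ofNat 464, .negSucc 126, .ofNat 497⟩, .ofNat 1696, .ofNat 2562, .ofNat 0, .ofNat 2562, .ofNat 4963, .ofNat 0, .ofNat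 71, .negSucc 314, .negSucc 601, .ofNat 0, .ofNat 178, .ofNat 327, .ofNat 0, .ofNat 0, .ofNat 406, .ofNat 1121, .ofNat 0, .ofNat 0, .ofNat 0, .ofNat 0, .ofNat 0, .ofNat 0, .ofNat 0, .ofNat 0, .ofNat 0, .ofNat 0, .ofNat 547726984253660048264866352332800, .ofNat 0, .ofNat 0, .ofNat 0, .ofNat 0, .ofNat 0⟩)
    (by decide +kernel)
theorem L01456 : Good (Phi V4.P V4.D (-1) (-1)) ⟨6, 55, 3, 4, 3, 6, 3, 1, 5, 2⟩ :=
  leaf_sound (S := T4.ds_mm) T4.ok_mm (w := 208) (c := ⟨⟨.ofNat 605, .ofNat 112, .ofNat 219, .negSucc 449, .negSucc 718, .negSucc 1645⟩, ⟨.negSucc 355, .negSucc 35, .negSucc 112, .ofNat 255, .ofNat 408, .ofNat 936⟩, ⟨.negSucc 235, .negSucc 48, .negSucc 65, .ofNat 483, .ofNat 263, .ofNat 878⟩, ⟨.ofNat 505, .ofNat 149, .ofNat 283, .negSucc 424, .negSucc 1089, .negSucc 2245⟩, ⟨.negSucc 718, .negSucc 47, .negSucc 74, .ofNat 449, .negSucc 10,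 .ofNat 411⟩, .ofNat 2149, .ofNat 3271, .ofNat 0, .ofNat 3271, .ofNat 6013, .ofNat 0, .ofNat 60, .negSucc 329, .negSucc 688, .ofNat 0, .ofNat 192, .ofNat 390, .ofNat 0, .ofNat 0, .ofNat 436, .ofNat 870, .ofNat 0, .ofNat 0, .ofNat 0, .ofNat 0, .ofNat 0, .ofNat 0, .ofNat 85438960073336370179932189360128000, .ofNat 0, .ofNat 0, .ofNat 0, .ofNat 10733970742231592285852527912550400, .ofNat 0, .ofNat 0, .ofNat 0, .ofNat 40800572906852459591826082784870400, .ofNat 0⟩)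
    (by decide +kernel)
theorem L01457 : Good (Phi V4.P V4.D (-1) (-1)) ⟨6, 55, 3, 4, 3, 6, 3, 1, 5, 3⟩ :=
  leaf_sound (S := T4.ds_mm) T4.ok_mm (w := 208) (c := ⟨⟨.negSucc 1130, .negSucc 22, .ofNat 54, .negSucc 650, .negSucc 304, .negSucc 789⟩, ⟨.ofNat 614, .ofNat 80, .negSucc 3, .ofNat 372, .ofNat 173, .ofNat 450⟩, ⟨.ofNat 755, .ofNat 25, .negSucc 63, .ofNat 450, .ofNat 116, .ofNat 443⟩, ⟨.negSucc 1825, .ofNat 30, .ofNat 49, .negSucc 706, .negSucc 570, .negSucc 1099⟩, ⟨.negSucc 193, .ofNat 35, .negSucc 70, .ofNat 480, .negSucc 196, .ofNat 157⟩, .ofNat 2146, .ofNat 3267, .ofNat 0, .ofNat 3267, .ofNat 6005, .ofNat 0, .ofNat 60, .negSucc 325, .negSucc 643, .ofNat 0, .ofNat 190, .ofNat 366, .ofNat 0, .ofNat 0, .ofNat 418, .ofNat 1050, .ofNat 0, .ofNat 0, .ofNat 1867903465298266796907500981452800, .ofNat 0, .ofNat 0, .ofNat 0, .ofNat 94175158177698261019710550179840000,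 .ofNat 0, .ofNat 0, .ofNat 0, .ofNat 12090380083010204945345622835200000, .ofNat 0, .ofNat 0, .ofNat 0, .ofNat 41569957289188262389078265167872000, .ofNat 0⟩)
    (by decide +kernel)
theorem L01458 : Good (Phi V4.P V4.D (-1) (-1)) ⟨6, 54, 3, 4, 3, 7, 3, 1, 5, 2⟩ :=
  leaf_sound (S := T4.ds_mm) T4.ok_mm (w := 208) (c := ⟨⟨.ofNat 346, .negSucc 793, .ofNat 2100, .negSucc 688, .negSucc 687, .negSucc 1793⟩, ⟨.negSucc 212, .ofNat 454, .negSucc 1075, .ofNat 377, .ofNat 372, .ofNat 974⟩, ⟨.ofNat 190, .ofNat 588, .negSucc 1253, .ofNat 1020, .ofNat 92, .ofNat 825⟩, ⟨.ofNat 398, .negSucc 1151, .ofNat 3055, .negSucc 833, .negSucc 1067, .negSucc 2523⟩, ⟨.negSucc 198, .ofNat 41, .negSucc 292, .ofNat 399, .negSucc 34, .ofNat 390⟩, .ofNat 1705, .ofNat 2575, .ofNat 0, .ofNat 2575, .ofNat 4979, .ofNat 0, .ofNat 78, .negSucc 390, .negSucc 723, .ofNat 0, .ofNat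 221, .ofNat 392, .ofNat 0, .ofNat 0, .ofNat 432, .ofNat 811, .ofNat 0, .ofNat 0, .ofNat 1459312854535607910899776487424000, .ofNat 0, .ofNat 0, .ofNat 0, .ofNat 0, .ofNat 0, .ofNat 0, .ofNat 0, .ofNat 0, .ofNat 0, .ofNat 0, .ofNat 0, .ofNat 14124200403542865121245747216384000, .ofNat 0⟩)
    (by decide +kernel)
theorem L01459 : Good (Phi V4.P V4.D (-1) (-1)) ⟨7, 110, 3, 4, 3, 7, 3, 1, 5, 2⟩ :=
  leaf_sound (S := T4.ds_mm) T4.ok_mm (w := 208) (c := ⟨⟨.ofNat 443, .ofNat 132, .ofNat 514, .negSucc 514, .negSucc 927, .negSucc 2135⟩, ⟨.negSucc 262, .negSucc 59, .negSucc 288, .ofNat 294, .ofNat 527, .ofNat 1217⟩, ⟨.ofNat 157, .negSucc 71, .negSucc 93, .ofNat 981, .ofNat 186, .ofNat 1002⟩, ⟨.ofNat 512, .ofNat 184, .ofNat 675, .negSucc 540, .negSucc 1366, .negSucc 2969⟩, ⟨.negSucc 259, .negSucc 44, .negSucc 181, .ofNat 414, .ofNat 53, .ofNat 431⟩, .ofNat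 2152, .ofNat 3276, .ofNat 0, .ofNat 3276, .ofNat 6020, .ofNat 0, .ofNat 65, .negSucc 401, .negSucc 803, .ofNat 0, .ofNat 234, .ofNat 454, .ofNat 0, .ofNat 0, .ofNat 460, .ofNat 686, .ofNat 0, .ofNat 0, .ofNat 314357383280385965289432416256000, .ofNat 0, .ofNat 0, .ofNat 0, .ofNat 0, .ofNat 0, .ofNat 0, .ofNat 0, .ofNat 0, .ofNat 0, .ofNat 0, .ofNat 0, .ofNat 2621836543433699194672420749312000, .ofNat 0⟩)
    (by decide +kernel)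
theorem L01460 : Good (Phi V4.P V4.D (-1) (-1)) ⟨7, 111, 3, 4, 3, 7, 3, 1, 5, 2⟩ :=
  out_sound (S := T4.ds_mm) T4.ok_mm (w := 24) (j := 4) (by decide +kernel)
theorem L01461 : Good (Phi V4.P V4.D (-1) (-1)) ⟨6, 54, 3, 4, 3, 7, 3, 1, 5, 3⟩ :=
  leaf_sound (S := T4.ds_mm) T4.ok_mm (w := 208) (c := ⟨⟨.negSucc 1867, .negSucc 581, .ofNat 1642, .negSucc 662, .negSucc 158, .negSucc 483⟩, ⟨.ofNat 967, .ofNat 366, .negSucc 794, .ofNat 361, .ofNat 84, .ofNat 266⟩, ⟨.ofNat 1230, .ofNat 455, .negSucc 1118, .ofNat 1012, .negSucc 78, .ofNat 206⟩, ⟨.negSucc 2691, .negSucc 713, .ofNat 2254, .negSucc 855, .negSucc 399, .negSucc 716⟩, ⟨.ofNat 374, .ofNat 194, .negSucc 518, .ofNat 290, .negSucc 296, .ofNat 32⟩, .ofNat 1701, .ofNat 2567, .ofNat 0, .ofNat 2567, .ofNat 4963, .ofNat 0, .ofNat 78, .negSucc 387, .negSucc 644, .ofNat 0, .ofNat 221, .ofNat 351, .ofNat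 0, .ofNat 0, .ofNat 401, .ofNat 913, .ofNat 0, .ofNat 0, .ofNat 0, .ofNat 0, .ofNat 0, .ofNat 0, .ofNat 0, .ofNat 0, .ofNat 0, .ofNat 0, .ofNat 0, .ofNat 0, .ofNat 0, .ofNat 0, .ofNat 0, .ofNat 0⟩)
    (by decide +kernel)
theorem L01462 : Good (Phi V4.P V4.D (-1) (-1)) ⟨7, 110, 4, 8, 3, 7, 3, 1, 5, 3⟩ :=
  leaf_sound (S := T4.ds_mm) T4.ok_mm (w := 216) (c := ⟨⟨.negSucc 2121, .negSucc 225, .ofNat 412, .negSucc 832, .negSucc 207, .negSucc 420⟩, ⟨.ofNat 1165, .ofNat 162, .negSucc 202, .ofNat 471, .ofNat 116, .ofNat 236⟩, ⟨.ofNat 1758, .ofNat 252, .negSucc 645, .ofNat 1176, .negSucc 62, .ofNat 195⟩, ⟨.negSucc 3097, .negSucc 304, .ofNat 734, .negSucc 1063, .negSucc 471, .negSucc 653⟩, ⟨.ofNat 218, .ofNat 1, .ofNat 176, .ofNat 343, .negSucc 279, .negSucc 31⟩, .ofNat 4733, .ofNat 7834, .ofNat 0, .ofNat 7834, .ofNat 14098, .ofNat 0, .ofNat 46, .negSucc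 400, .negSucc 699, .ofNat 0, .ofNat 230, .ofNat 396, .ofNat 0, .ofNat 0, .ofNat 422, .ofNat 1243, .ofNat 0, .ofNat 0, .ofNat 0, .ofNat 0, .ofNat 0, .ofNat 0, .ofNat 93989860948827462014364444681830400, .ofNat 0, .ofNat 0, .ofNat 0, .ofNat 79045175117379647433963508177305600, .ofNat 0, .ofNat 0, .ofNat 0, .ofNat 50691280725920444624182289262182400, .ofNat 0⟩)
    (by decide +kernel)
theorem L01463 : Good (Phi V4.P V4.D (-1) (-1)) ⟨7, 110, 4, 9, 3, 7, 3, 1, 5, 3⟩ :=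
  leaf_sound (S := T4.ds_mm) T4.ok_mm (w := 216) (c := ⟨⟨.negSucc 1894, .ofNat 202, .negSucc 36, .negSucc 682, .negSucc 251, .negSucc 436⟩, ⟨.ofNat 1058, .negSucc 75, .ofNat 38, .ofNat 392, .ofNat 144, .ofNat 250⟩, ⟨.ofNat 1321, .negSucc 159, .ofNat 170, .ofNat 1081, .negSucc 63, .ofNat 195⟩, ⟨.negSucc 2658, .ofNat 326, .negSucc 106, .negSucc 846, .negSucc 515, .negSucc 667⟩, ⟨.ofNat 372, .negSucc 17, .negSucc 115, .ofNat 313, .negSucc 240, .negSucc 19⟩, .ofNat 5782, .ofNat 9580, .ofNat 0, .ofNat 9580, .ofNat 16987, .ofNat 0, .ofNat 40, .negSucc 402, .negSucc 724, .ofNat 0, .ofNat 233, .ofNat 415, .ofNat 0, .ofNat 0, .ofNat 430, .ofNat 1147, .ofNat 0, .ofNat 0, .ofNat 0, .ofNat 0, .ofNat 0, .ofNat 0, .ofNat 0, .ofNat 0, .ofNat 0, .ofNat 0, .ofNat 0, .ofNat 0, .ofNat 0, .ofNat 0, .ofNat 11173591721511654524208084418560000, .ofNat 0⟩)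
    (by decide +kernel)
theorem L01464 : Good (Phi V4.P V4.D (-1) (-1)) ⟨7, 111, 3, 4, 3, 7, 3, 1, 5, 3⟩ :=
  out_sound (S := T4.ds_mm) T4.ok_mm (w := 24) (j := 4) (by decide +kernel)
theorem L01465 : Good (Phi V4.P V4.D (-1) (-1)) ⟨5, 27, 3, 5, 2, 3, 3, 1, 3, 0⟩ :=
  out_sound (S := T4.ds_mm) T4.ok_mm (w := 64) (j := 3) (by decide +kernel)
theorem L01466 : Good (Phi V4.P V4.D (-1) (-1)) ⟨4, 13, 2, 3, 2, 3, 3, 1, 3, 0⟩ :=
  out_sound (S := T4.ds_mm) T4.ok_mm (w := 56) (j := 3) (by decide +kernel)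
theorem L01467 : Good (Phi V4.P V4.D (-1) (-1)) ⟨3, 7, 1, 1, 2, 3, 3, 1, 3, 0⟩ :=
  out_sound (S := T4.ds_mm) T4.ok_mm (w := 16) (j := 4) (by decide +kernel)
theorem L01468 : Good (Phi V4.P V4.D (-1) (-1)) ⟨2, 2, 1, 1, 2, 3, 3, 1, 3, 1⟩ :=
  out_sound (S := T4.ds_mm) T4.ok_mm (w := 40) (j := 3) (by decide +kernel)
theorem L01469 : Good (Phi V4.P V4.D (-1) (-1)) ⟨4, 12, 2, 2, 2, 3, 3, 1, 3, 1⟩ :=
  out_sound (S := T4.ds_mm) T4.ok_mm (w := 56) (j := 3) (by decide +kernel)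
theorem L01470 : Good (Phi V4.P V4.D (-1) (-1)) ⟨5, 26, 2, 2, 2, 3, 3, 1, 4, 2⟩ :=
  out_sound (S := T4.ds_mm) T4.ok_mm (w := 56) (j := 3) (by decide +kernel)
theorem L01471 : Good (Phi V4.P V4.D (-1) (-1)) ⟨5, 27, 3, 4, 3, 6, 3, 1, 4, 2⟩ :=
  leaf_sound (S := T4.ds_mm) T4.ok_mm (w := 200) (c := ⟨⟨.negSucc 2209, .ofNat 233, .negSucc 246, .negSucc 387, .ofNat 91, .ofNat 341⟩, ⟨.ofNat 1159, .negSucc 64, .ofNat 258, .ofNat 214, .negSucc 53, .negSucc 193⟩, ⟨.ofNat 1358, .negSucc 91, .ofNat 80, .ofNat 248, .negSucc 63, .negSucc 102⟩, ⟨.negSucc 3297, .ofNat 356, .negSucc 292, .negSucc 467, .negSucc 57, .ofNat 174⟩, ⟨.ofNat 155, .negSucc 83, .ofNat 66, .ofNat 222, .negSucc 348, .negSucc 613⟩, .ofNat 771, .ofNat 904, .ofNat 0, .ofNat 904, .ofNat 1885, .ofNat 0, .ofNat 208, .negSucc 575, .negSucc 894, .ofNat 0, .ofNat 351, .ofNat 498, .ofNat 0, .ofNat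 0, .ofNat 682, .ofNat 2327, .ofNat 0, .ofNat 0, .ofNat 0, .ofNat 0, .ofNat 0, .ofNat 0, .ofNat 0, .ofNat 0, .ofNat 0, .ofNat 0, .ofNat 24349063681378154406499735044096000, .ofNat 0, .ofNat 0, .ofNat 0, .ofNat 35639483399184727937481255891763200, .ofNat 0⟩)
    (by decide +kernel)
theorem L01472 : Good (Phi V4.P V4.D (-1) (-1)) ⟨5, 27, 3, 4, 4, 14, 3, 1, 4, 2⟩ :=
  leaf_sound (S := T4.ds_mm) T4.ok_mm (w := 208) (c := ⟨⟨.negSucc 2720, .negSucc 483, .ofNat 691, .ofNat 19, .ofNat 84, .ofNat 762⟩, ⟨.ofNat 1438, .ofNat 341, .negSucc 260, .negSucc 10, .negSucc 49, .negSucc 429⟩, ⟨.ofNat 1691, .ofNat 271, .negSucc 304, .ofNat 219, .negSucc 155, .negSucc 268⟩, ⟨.negSucc 3862, .negSucc 503, .ofNat 856, .ofNat 32, .negSucc 80, .ofNat 577⟩, ⟨.ofNat 570, .ofNat 285, .negSucc 429, .ofNat 0, .negSucc 384, .negSucc 1055⟩, .ofNat 1833, .ofNat 2777, .ofNat 0,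 .ofNat 2777, .ofNat 5280, .ofNat 0, .ofNat 141, .negSucc 677, .negSucc 809, .ofNat 0, .ofNat 392, .ofNat 450, .ofNat 0, .ofNat 0, .ofNat 631, .ofNat 739, .ofNat 0, .ofNat 0, .ofNat 155217445842034417331743564706611200, .ofNat 0, .ofNat 0, .ofNat 0, .ofNat 33589079825438269295265317491467878400, .ofNat 0, .ofNat 0, .ofNat 0, .ofNat 11915400037560693623982117975018700800, .ofNat 0, .ofNat 0, .ofNat 0, .ofNat 8759194501018081599293006062131609600, .ofNat 0⟩)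
    (by decide +kernel)
theorem L01473 : Good (Phi V4.P V4.D (-1) (-1)) ⟨5, 27, 3, 4, 4, 15, 3, 1, 4, 2⟩ :=
  leaf_sound (S := T4.ds_mm) T4.ok_mm (w := 208) (c := ⟨⟨.negSucc 2970, .negSucc 106, .ofNat 514, .negSucc 86, .ofNat 221, .ofNat 1088⟩, ⟨.ofNat 1577, .ofNat 120, .negSucc 150, .ofNat 45, .negSucc 123, .negSucc 610⟩, ⟨.ofNat 2068, .ofNat 180, .negSucc 171, .ofNat 587, .negSucc 439, .negSucc 416⟩, ⟨.negSucc 4074, .negSucc 201, .ofNat 703, .negSucc 281, .ofNat 188, .ofNat 835⟩, ⟨.ofNat 850, .negSucc 127, .negSucc 265, .negSucc 262, .negSucc 274, .negSucc 1487⟩, .ofNat 764, .ofNat 894, .ofNat 0, .ofNat 894, .ofNat 1876, .ofNat 0, .ofNat 234, .negSucc 676, .negSucc 790, .ofNat 0, .ofNat 429, .ofNat 437, .ofNat 0, .ofNat 0, .ofNat 652, .ofNat 1275, .ofNat 0, .ofNat 0, .ofNat 0, .ofNat 0, .ofNat 0, .ofNat 0, .ofNat 0, .ofNat 0, .ofNat 0, .ofNat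 0, .ofNat 14641403344154826880460350713495552000, .ofNat 0, .ofNat 0, .ofNat 0, .ofNat 7983711777629907409808395889698406400, .ofNat 0⟩)
    (by decide +kernel)
theorem L01474 : Good (Phi V4.P V4.D (-1) (-1)) ⟨5, 27, 3, 5, 2, 3, 3, 1, 4, 2⟩ :=
  out_sound (S := T4.ds_mm) T4.ok_mm (w := 64) (j := 3) (by decide +kernel)
theorem L01475 : Good (Phi V4.P V4.D (-1) (-1)) ⟨4, 13, 2, 2, 3, 6, 3, 1, 4, 3⟩ :=
  leaf_sound (S := T4.ds_mm) T4.ok_mm (w := 192) (c := ⟨⟨.negSucc 2133, .ofNat 181, .ofNat 155, .ofNat 72, .ofNat 160, .ofNat 554⟩, ⟨.ofNat 1051, .ofNat 33, .ofNat 98, .negSucc 41, .negSucc 90, .negSucc 311⟩, ⟨.ofNat 1403, .negSucc 111, .negSucc 29, .ofNat 95, .negSucc 177, .negSucc 222⟩, ⟨.negSucc 3350, .ofNat 190, .ofNat 155, .negSucc 85, .ofNat 96, .ofNat 442⟩, ⟨.negSucc 193, .negSucc 166, .negSucc 137, .negSucc 351, .negSucc 262, .negSucc 723⟩,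 .ofNat 1862, .ofNat 2822, .ofNat 0, .ofNat 2822, .ofNat 5341, .ofNat 0, .ofNat 122, .negSucc 487, .negSucc 460, .ofNat 0, .ofNat 286, .ofNat 259, .ofNat 0, .ofNat 0, .ofNat 526, .ofNat 2416, .ofNat 0, .ofNat 0, .ofNat 0, .ofNat 0, .ofNat 0, .ofNat 0, .ofNat 111713662465372900668284251353907200, .ofNat 0, .ofNat 0, .ofNat 0, .ofNat 28423055854609196728168929558528000, .ofNat 0, .ofNat 0, .ofNat 0, .ofNat 0, .ofNat 0⟩)
    (by decide +kernel)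
theorem L01476 : Good (Phi V4.P V4.D (-1) (-1)) ⟨4, 13, 2, 2, 3, 7, 3, 1, 4, 3⟩ :=
  leaf_sound (S := T4.ds_mm) T4.ok_mm (w := 192) (c := ⟨⟨.negSucc 2257, .ofNat 342, .ofNat 400, .ofNat 253, .ofNat 179, .ofNat 647⟩, ⟨.ofNat 1127, .negSucc 69, .negSucc 26, .negSucc 145, .negSucc 99, .negSucc 367⟩, ⟨.ofNat 1515, .negSucc 19, .negSucc 96, .ofNat 557, .negSucc 377, .negSucc 195⟩, ⟨.negSucc 3371, .ofNat 141, .ofNat 468, .negSucc 62, .ofNat 185, .ofNat 292⟩, ⟨.ofNat 39, .negSucc 628, .negSucc 129, .negSucc 811, .negSucc 154, .negSucc 1247⟩, .ofNat 1876, .ofNat 2844, .ofNat 0, .ofNat 2844, .ofNat 5374, .ofNat 0, .ofNat 136, .negSucc 540, .negSucc 422, .ofNat 0, .ofNat 323, .ofNat 238, .ofNat 0, .ofNat 0, .ofNat 533, .ofNat 956, .ofNat 0, .ofNat 0, .ofNat 754595029422807390461951056281600, .ofNat 0, .ofNat 0, .ofNat 0, .ofNat 92953779877645955900988472059494400,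 .ofNat 0, .ofNat 0, .ofNat 0, .ofNat 43563708012207255314046493969612800, .ofNat 0, .ofNat 0, .ofNat 0, .ofNat 0, .ofNat 0⟩)
    (by decide +kernel)
theorem L01477 : Good (Phi V4.P V4.D (-1) (-1)) ⟨3, 6, 2, 3, 2, 3, 3, 1, 3, 1⟩ :=
  out_sound (S := T4.ds_mm) T4.ok_mm (w := 48) (j := 3) (by decide +kernel)
theorem L01478 : Good (Phi V4.P V4.D (-1) (-1)) ⟨3, 7, 1, 1, 2, 3, 3, 1, 3, 1⟩ :=
  out_sound (S := T4.ds_mm) T4.ok_mm (w := 16) (j := 4) (by decide +kernel)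
theorem L01479 : Good (Phi V4.P V4.D (-1) (-1)) ⟨2, 2, 1, 1, 2, 3, 2, 1, 2, 0⟩ :=
  out_sound (S := T4.ds_mm) T4.ok_mm (w := 40) (j := 3) (by decide +kernel)
theorem L01480 : Good (Phi V4.P V4.D (-1) (-1)) ⟨4, 12, 2, 2, 2, 3, 2, 1, 3, 0⟩ :=
  out_sound (S := T4.ds_mm) T4.ok_mm (w := 56) (j := 3) (by decide +kernel)
theorem L01481 : Good (Phi V4.P V4.D (-1) (-1)) ⟨5, 26, 2, 2, 2, 3, 2, 1, 3, 0⟩ :=
  out_sound (S := T4.ds_mm) T4.ok_mm (w := 56) (j := 3) (by decide +kernel)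
theorem L01482 : Good (Phi V4.P V4.D (-1) (-1)) ⟨6, 54, 3, 4, 3, 6, 2, 1, 4, 0⟩ :=
  leaf_sound (S := T4.ds_mm) T4.ok_mm (w := 200) (c := ⟨⟨.ofNat 1882, .negSucc 0, .ofNat 356, .negSucc 487, .negSucc 930, .negSucc 2032⟩, ⟨.negSucc 1034, .ofNat 8, .negSucc 196, .ofNat 273, .ofNat 501, .ofNat 1104⟩, ⟨.negSucc 1231, .ofNat 52, .negSucc 318, .ofNat 541, .ofNat 345, .ofNat 1278⟩, ⟨.ofNat 2417, .ofNat 58, .ofNat 279, .negSucc 479, .negSucc 1579, .negSucc 3026⟩, ⟨.negSucc 852, .ofNat 124, .negSucc 399, .ofNat 486, .negSucc 297, .ofNat 127⟩, .ofNat 1705, .ofNat 2573, .ofNat 0, .ofNat 2573, .ofNat 4973, .ofNat 0, .ofNat 71, .negSucc 276, .negSucc 604, .ofNat 0, .ofNat 157, .ofNat 328, .ofNat 0, .ofNat 0, .ofNat 446, .ofNat 840, .ofNat 0, .ofNat 0, .ofNat 0, .ofNat 0, .ofNat 0, .ofNat 0, .ofNat 0, .ofNat 0, .ofNat 0, .ofNat 0, .ofNat 0, .ofNat 0, .ofNat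 0, .ofNat 0, .ofNat 0, .ofNat 0⟩)
    (by decide +kernel)
theorem L01483 : Good (Phi V4.P V4.D (-1) (-1)) ⟨6, 55, 3, 4, 3, 6, 2, 1, 5, 0⟩ :=
  leaf_sound (S := T4.ds_mm) T4.ok_mm (w := 208) (c := ⟨⟨.ofNat 1718, .ofNat 164, .ofNat 96, .negSucc 531, .negSucc 862, .negSucc 587⟩, ⟨.negSucc 964, .negSucc 109, .negSucc 75, .ofNat 306, .ofNat 490, .ofNat 334⟩, ⟨.negSucc 1124, .negSucc 78, .negSucc 63, .ofNat 678, .ofNat 229, .ofNat 376⟩, ⟨.ofNat 2202, .ofNat 194, .ofNat 59, .negSucc 416, .negSucc 1545, .negSucc 974⟩, ⟨.negSucc 713, .negSucc 19, .negSucc 107, .ofNat 674, .negSucc 433, .negSucc 157⟩, .ofNat 2157, .ofNat 3285, .ofNat 0, .ofNat 3285, .ofNat 6033, .ofNat 0, .ofNat 118, .negSucc 560, .negSucc 1094, .ofNat 0, .ofNat 327, .ofNat 618, .ofNat 0, .ofNat 0, .ofNat 819, .ofNat 659, .ofNat 0, .ofNat 0, .ofNat 141538321694753569916645592268800, .ofNat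 0, .ofNat 0, .ofNat 0, .ofNat 42475635170693160755858077070131200, .ofNat 0, .ofNat 0, .ofNat 0, .ofNat 0, .ofNat 0, .ofNat 0, .ofNat 0, .ofNat 3684596417668570648069522273075200, .ofNat 0⟩)
    (by decide +kernel)
theorem L01484 : Good (Phi V4.P V4.D (-1) (-1)) ⟨7, 110, 3, 4, 3, 6, 2, 1, 5, 1⟩ :=
  leaf_sound (S := T4.ds_mm) T4.ok_mm (w := 208) (c := ⟨⟨.ofNat 1308, .ofNat 85, .negSucc 33, .negSucc 623, .negSucc 1010, .negSucc 1243⟩, ⟨.negSucc 754, .negSucc 39, .ofNat 29, .ofNat 358, .ofNat 573, .ofNat 707⟩, ⟨.negSucc 791, .negSucc 55, .negSucc 38, .ofNat 603, .ofNat 398, .ofNat 759⟩, ⟨.ofNat 1464, .ofNat 80, .negSucc 48, .negSucc 667, .negSucc 1654, .negSucc 1795⟩, ⟨.negSucc 900, .negSucc 64, .ofNat 16, .ofNat 475, .negSucc 231, .ofNat 133⟩, .ofNat 2145, .ofNat 3266, .ofNat 0, .ofNat 3266, .ofNat 6004, .ofNat 0, .ofNat 60, .negSucc 288, .negSucc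 704, .ofNat 0, .ofNat 168, .ofNat 398, .ofNat 0, .ofNat 0, .ofNat 492, .ofNat 1305, .ofNat 0, .ofNat 0, .ofNat 0, .ofNat 0, .ofNat 0, .ofNat 0, .ofNat 2801851392214718444759447450419200, .ofNat 0, .ofNat 0, .ofNat 0, .ofNat 0, .ofNat 0, .ofNat 0, .ofNat 0, .ofNat 673508271916019286314399563776000, .ofNat 0⟩)
    (by decide +kernel)
theorem L01485 : Good (Phi V4.P V4.D (-1) (-1)) ⟨7, 111, 3, 4, 3, 6, 2, 1, 5, 1⟩ :=
  out_sound (S := T4.ds_mm) T4.ok_mm (w := 24) (j := 4) (by decide +kernel)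
theorem L01486 : Good (Phi V4.P V4.D (-1) (-1)) ⟨6, 54, 4, 8, 3, 7, 2, 1, 4, 0⟩ :=
  leaf_sound (S := T4.ds_mm) T4.ok_mm (w := 200) (c := ⟨⟨.ofNat 1266, .negSucc 33, .ofNat 375, .ofNat 147, .negSucc 1108, .negSucc 1888⟩, ⟨.negSucc 684, .ofNat 33, .negSucc 216, .negSucc 78, .ofNat 595, .ofNat 1017⟩, ⟨.negSucc 482, .ofNat 8, .negSucc 107, .ofNat 385, .ofNat 271, .ofNat 1028⟩, ⟨.ofNat 1926, .ofNat 55, .ofNat 460, .ofNat 572, .negSucc 1969, .negSucc 3094⟩, ⟨.negSucc 8, .ofNat 189, .negSucc 185, .ofNat 644, .negSucc 518, .negSucc 399⟩, .ofNat 1722, .ofNat 2602, .ofNat 0, .ofNat 2602, .ofNat 5018, .ofNat 0, .ofNat 75, .negSucc 324, .negSucc 560, .ofNat 0, .ofNat 183, .ofNat 301, .ofNat 0, .ofNat 0, .ofNat 389, .ofNat 827, .ofNat 0, .ofNat 0, .ofNat 0, .ofNat 0, .ofNat 0, .ofNat 0, .ofNat 0, .ofNat 0, .ofNat 0, .ofNat 0, .ofNat 0, .ofNat 0, .ofNat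 0, .ofNat 0, .ofNat 79952712911766248025761198899200, .ofNat 0⟩)
    (by decide +kernel)
theorem L01487 : Good (Phi V4.P V4.D (-1) (-1)) ⟨6, 54, 4, 9, 3, 7, 2, 1, 4, 0⟩ :=
  out_sound (S := T4.ds_mm) T4.ok_mm (w := 72) (j := 3) (by decide +kernel)
theorem L01488 : Good (Phi V4.P V4.D (-1) (-1)) ⟨7, 110, 4, 8, 3, 7, 2, 1, 5, 0⟩ :=
  leaf_sound (S := T4.ds_mm) T4.ok_mm (w := 208) (c := ⟨⟨.ofNat 980, .negSucc 74, .ofNat 386, .ofNat 268, .negSucc 1081, .negSucc 633⟩, ⟨.negSucc 552, .ofNat 26, .negSucc 212, .negSucc 145, .ofNat 606, .ofNat 355⟩, ⟨.negSucc 403, .negSucc 43, .negSucc 44, .ofNat 383, .ofNat 208, .ofNat 349⟩, ⟨.ofNat 1493, .negSucc 134, .ofNat 611, .ofNat 877, .negSucc 1976, .negSucc 1170⟩, ⟨.ofNat 13, .negSucc 30, .ofNat 63, .ofNat 839, .negSucc 610, .negSucc 379⟩, .ofNat 4647, .ofNat 7690, .ofNat 0, .ofNat 7690, .ofNat 13860, .ofNat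 0, .ofNat 44, .negSucc 324, .negSucc 531, .ofNat 0, .ofNat 185, .ofNat 298, .ofNat 0, .ofNat 0, .ofNat 379, .ofNat 747, .ofNat 0, .ofNat 0, .ofNat 93794460801037996261357545062400, .ofNat 0, .ofNat 0, .ofNat 0, .ofNat 13450955664897235255972829803315200, .ofNat 0, .ofNat 0, .ofNat 0, .ofNat 0, .ofNat 0, .ofNat 0, .ofNat 0, .ofNat 0, .ofNat 0⟩)
    (by decide +kernel)
theorem L01489 : Good (Phi V4.P V4.D (-1) (-1)) ⟨7, 110, 4, 9, 4, 14, 2, 1, 5, 0⟩ :=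
  leaf_sound (S := T4.ds_mm) T4.ok_mm (w := 224) (c := ⟨⟨.ofNat 1292, .ofNat 183, .negSucc 36, .ofNat 3, .negSucc 1065, .negSucc 589⟩, ⟨.negSucc 732, .negSucc 115, .ofNat 18, .negSucc 0, .ofNat 611, .ofNat 338⟩, ⟨.negSucc 485, .negSucc 59, .ofNat 37, .ofNat 239, .ofNat 250, .ofNat 344⟩, ⟨.ofNat 1962, .ofNat 238, .negSucc 26, .ofNat 225, .negSucc 1916, .negSucc 1042⟩, ⟨.ofNat 22, .negSucc 46, .ofNat 61, .ofNat 384, .negSucc 548, .negSucc 271⟩, .ofNat 2242, .ofNat 3417, .ofNat 0, .ofNat 3417, .ofNat 6232, .ofNat 0, .ofNat 119, .negSucc 626, .negSucc 1069, .ofNat 0, .ofNat 365, .ofNat 605, .ofNat 0, .ofNat 0, .ofNat 763, .ofNat 7122, .ofNat 0, .ofNat 0, .ofNat 0, .ofNat 0, .ofNat 0, .ofNat 0, .ofNat 0, .ofNat 0, .ofNat 0, .ofNat 0, .ofNat 8117309295252853462198725242152550400, .ofNat 0, .ofNat 0, .ofNat 0, .ofNat 0, .ofNat 0⟩)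
    (by decide +kernel)
theorem L01490 : Good (Phi V4.P V4.D (-1) (-1)) ⟨7, 110, 5, 18, 4, 15, 2, 1, 5, 0⟩ :=
  leaf_sound (S := T4.ds_mm) T4.ok_mm (w := 224) (c := ⟨⟨.ofNat 1360, .ofNat 141, .negSucc 12, .ofNat 337, .negSucc 1173, .negSucc 584⟩, ⟨.negSucc 773, .negSucc 82, .negSucc 6, .negSucc 192, .ofNat 671, .ofNat 335⟩, ⟨.negSucc 194, .negSucc 66, .ofNat 19, .ofNat 122, .ofNat 195, .ofNat 317⟩, ⟨.ofNat 2336, .ofNat 176, .ofNat 37, .ofNat 764, .negSucc 2136, .negSucc 1113⟩, ⟨.ofNat 505, .negSucc 56, .ofNat 105, .ofNat 448, .negSucc 650, .negSucc 408⟩, .ofNat 2231, .ofNat 3400, .ofNat 0, .ofNat 3400, .ofNat 6206, .ofNat 0, .ofNat 62, .negSucc 339, .negSucc 570, .ofNat 0, .ofNat 197, .ofNat 321, .ofNat 0, .ofNat 0, .ofNat 390, .ofNat 1889, .ofNat 0, .ofNat 0, .ofNat 121514870398485571798866595518873600, .ofNat 0, .ofNat 0, .ofNat 0, .ofNat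 0, .ofNat 0, .ofNat 0, .ofNat 0, .ofNat 0, .ofNat 0, .ofNat 0, .ofNat 0, .ofNat 0, .ofNat 0⟩)
    (by decide +kernel)
theorem L01491 : Good (Phi V4.P V4.D (-1) (-1)) ⟨7, 110, 5, 19, 4, 15, 2, 1, 5, 0⟩ :=
  out_sound (S := T4.ds_mm) T4.ok_mm (w := 80) (j := 3) (by decide +kernel)
theorem L01492 : Good (Phi V4.P V4.D (-1) (-1)) ⟨7, 111, 3, 4, 3, 7, 2, 1, 5, 0⟩ :=
  out_sound (S := T4.ds_mm) T4.ok_mm (w := 24) (j := 4) (by decide +kernel)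
theorem L01493 : Good (Phi V4.P V4.D (-1) (-1)) ⟨6, 55, 4, 8, 3, 7, 2, 1, 5, 1⟩ :=
  leaf_sound (S := T4.ds_mm) T4.ok_mm (w := 208) (c := ⟨⟨.ofNat 554, .ofNat 118, .ofNat 263, .ofNat 194, .negSucc 1188, .negSucc 1395⟩, ⟨.negSucc 324, .negSucc 55, .negSucc 136, .negSucc 105, .ofNat 668, .ofNat 787⟩, ⟨.negSucc 80, .negSucc 120, .negSucc 45, .ofNat 366, .ofNat 268, .ofNat 723⟩, ⟨.ofNat 781, .ofNat 204, .ofNat 323, .ofNat 581, .negSucc 2048, .negSucc 2161⟩, ⟨.negSucc 95, .ofNat 38, .negSucc 130, .ofNat 512, .negSucc 451, .negSucc 97⟩, .ofNat 4696, .ofNat 7772, .ofNat 0, .ofNat 7772, .ofNat 13998, .ofNat 0, .ofNat 44, .negSucc 346, .negSucc 703, .ofNat 0, .ofNat 198, .ofNat 396, .ofNat 0, .ofNat 0, .ofNat 448, .ofNat 823, .ofNat 0, .ofNat 0, .ofNat 0, .ofNat 0, .ofNat 0, .ofNat 0, .ofNat 45409879559730879109281431420928000, .ofNat 0, .ofNat 0, .ofNat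 0, .ofNat 42749317199611070058596793738854400, .ofNat 0, .ofNat 0, .ofNat 0, .ofNat 29423384556711449504843730360729600, .ofNat 0⟩)
    (by decide +kernel)
theorem L01494 : Good (Phi V4.P V4.D (-1) (-1)) ⟨6, 55, 5, 18, 4, 14, 2, 1, 5, 1⟩ :=
  leaf_sound (S := T4.ds_mm) T4.ok_mm (w := 224) (c := ⟨⟨.ofNat 847, .ofNat 71, .ofNat 145, .ofNat 30, .negSucc 1266, .negSucc 1285⟩, ⟨.negSucc 488, .negSucc 34, .negSucc 75, .negSucc 17, .ofNat 725, .ofNat 736⟩, ⟨.negSucc 207, .negSucc 15, .negSucc 54, .ofNat 185, .ofNat 397, .ofNat 699⟩, ⟨.ofNat 1097, .ofNat 104, .ofNat 199, .ofNat 176, .negSucc 2105, .negSucc 1924⟩, ⟨.negSucc 309, .negSucc 5, .negSucc 23, .ofNat 228, .negSucc 351, .ofNat 13⟩, .ofNat 5788, .ofNat 9588, .ofNat 0, .ofNat 9588, .ofNat 16998, .ofNat 0, .ofNat 74, .negSucc 667, .negSucc 1376, .ofNat 0, .ofNat 385, .ofNat 786, .ofNat 0, .ofNat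 0, .ofNat 892, .ofNat 2168, .ofNat 0, .ofNat 0, .ofNat 0, .ofNat 0, .ofNat 0, .ofNat 0, .ofNat 146894441832581712980654974796247859200, .ofNat 0, .ofNat 0, .ofNat 0, .ofNat 0, .ofNat 0, .ofNat 0, .ofNat 0, .ofNat 84944108064179299694676983090144870400, .ofNat 0⟩)
    (by decide +kernel)
theorem L01495 : Good (Phi V4.P V4.D (-1) (-1)) ⟨7, 110, 5, 18, 4, 15, 2, 1, 5, 1⟩ :=
  leaf_sound (S := T4.ds_mm) T4.ok_mm (w := 224) (c := ⟨⟨.ofNat 962, .negSucc 80, .ofNat 292, .ofNat 258, .negSucc 1302, .negSucc 1380⟩, ⟨.negSucc 547, .ofNat 37, .negSucc 151, .negSucc 146, .ofNat 744, .ofNat 791⟩, ⟨.ofNat 20, .ofNat 80, .negSucc 177, .ofNat 134, .ofNat 266, .ofNat 722⟩, ⟨.ofNat 1481, .negSucc 143, .ofNat 458, .ofNat 523, .negSucc 2207, .negSucc 2149⟩, ⟨.ofNat 59, .negSucc 31, .ofNat 24, .ofNat 237, .negSucc 434, .negSucc 128⟩, .ofNat 2218, .ofNat 3380, .ofNat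 0, .ofNat 3380, .ofNat 6176, .ofNat 0, .ofNat 63, .negSucc 358, .negSucc 787, .ofNat 0, .ofNat 208, .ofNat 444, .ofNat 0, .ofNat 0, .ofNat 479, .ofNat 1793, .ofNat 0, .ofNat 0, .ofNat 0, .ofNat 0, .ofNat 0, .ofNat 0, .ofNat 0, .ofNat 0, .ofNat 0, .ofNat 0, .ofNat 0, .ofNat 0, .ofNat 0, .ofNat 0, .ofNat 0, .ofNat 0⟩)
    (by decide +kernel)
theorem L01496 : Good (Phi V4.P V4.D (-1) (-1)) ⟨7, 111, 5, 18, 4, 15, 2, 1, 5, 1⟩ :=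
  out_sound (S := T4.ds_mm) T4.ok_mm (w := 24) (j := 4) (by decide +kernel)
theorem L01497 : Good (Phi V4.P V4.D (-1) (-1)) ⟨7, 110, 5, 19, 3, 7, 2, 1, 5, 1⟩ :=
  out_sound (S := T4.ds_mm) T4.ok_mm (w := 80) (j := 3) (by decide +kernel)
theorem L01498 : Good (Phi V4.P V4.D (-1) (-1)) ⟨7, 111, 5, 19, 3, 7, 2, 1, 5, 1⟩ :=
  out_sound (S := T4.ds_mm) T4.ok_mm (w := 24) (j := 4) (by decide +kernel)
theorem L01499 : Good (Phi V4.P V4.D (-1) (-1)) ⟨5, 27, 3, 5, 2, 3, 2, 1, 4, 0⟩ :=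
  out_sound (S := T4.ds_mm) T4.ok_mm (w := 64) (j := 3) (by decide +kernel)
theorem L01500 : Good (Phi V4.P V4.D (-1) (-1)) ⟨6, 54, 3, 4, 3, 6, 2, 1, 4, 1⟩ :=
  leaf_sound (S := T4.ds_mm) T4.ok_mm (w := 200) (c := ⟨⟨.negSucc 616, .ofNat 163, .negSucc 700, .negSucc 648, .negSucc 385, .negSucc 1313⟩, ⟨.ofNat 295, .negSucc 67, .ofNat 499, .ofNat 356, .ofNat 202, .ofNat 712⟩, ⟨.ofNat 382, .negSucc 171, .ofNat 540, .ofNat 414, .ofNat 164, .ofNat 821⟩, ⟨.negSucc 1197, .ofNat 185, .negSucc 816, .negSucc 835, .negSucc 805, .negSucc 1899⟩, ⟨.negSucc 442, .negSucc 183, .ofNat 485, .ofNat 282, .negSucc 399, .ofNat 187⟩, .ofNat 1721, .ofNat 2602, .ofNat 0, .ofNat 2602, .ofNat 5023, .ofNat 0, .ofNat 70, .negSucc 281, .negSucc 661, .ofNat 0, .ofNat 160, .ofNat 360, .ofNat 0, .ofNat 0, .ofNat 472, .ofNat 678, .ofNat 0, .ofNat 0, .ofNat 7905459337309790138232786124800,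 .ofNat 0, .ofNat 0, .ofNat 0, .ofNat 0, .ofNat 0, .ofNat 0, .ofNat 0, .ofNat 0, .ofNat 0, .ofNat 0, .ofNat 0, .ofNat 224699526580643018278761922560000, .ofNat 0⟩)
    (by decide +kernel)
theorem L01501 : Good (Phi V4.P V4.D (-1) (-1)) ⟨7, 110, 3, 4, 3, 6, 2, 1, 5, 2⟩ :=
  leaf_sound (S := T4.ds_mm) T4.ok_mm (w := 208) (c := ⟨⟨.negSucc 90, .ofNat 55, .negSucc 80, .negSucc 661, .negSucc 748, .negSucc 1222⟩, ⟨.ofNat 24, .negSucc 3, .ofNat 70, .ofNat 378, .ofNat 425, .ofNat 697⟩, ⟨.ofNat 60, .negSucc 32, .ofNat 41, .ofNat 488, .ofNat 340, .ofNat 726⟩, ⟨.negSucc 532, .ofNat 74, .negSucc 79, .negSucc 791, .negSucc 1287, .negSucc 1689⟩, ⟨.negSucc 679, .negSucc 28, .ofNat 57, .ofNat 360, .negSucc 280, .ofNat 266⟩, .ofNat 2162, .ofNat 3292, .ofNat 0, .ofNat 3292, .ofNat 6043, .ofNat 0, .ofNat 59, .negSucc 296, .negSucc 768, .ofNat 0, .ofNat 173, .ofNat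 435, .ofNat 0, .ofNat 0, .ofNat 519, .ofNat 712, .ofNat 0, .ofNat 0, .ofNat 50343607326281923486171319500800, .ofNat 0, .ofNat 0, .ofNat 0, .ofNat 2598237779020063890815057500569600, .ofNat 0, .ofNat 0, .ofNat 0, .ofNat 0, .ofNat 0, .ofNat 0, .ofNat 0, .ofNat 695903867491246993028637366681600, .ofNat 0⟩)
    (by decide +kernel)
theorem L01502 : Good (Phi V4.P V4.D (-1) (-1)) ⟨7, 111, 3, 4, 3, 6, 2, 1, 5, 2⟩ :=
  out_sound (S := T4.ds_mm) T4.ok_mm (w := 24) (j := 4) (by decide +kernel)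
theorem L01503 : Good (Phi V4.P V4.D (-1) (-1)) ⟨7, 110, 3, 4, 3, 6, 2, 1, 5, 3⟩ :=
  leaf_sound (S := T4.ds_mm) T4.ok_mm (w := 208) (c := ⟨⟨.negSucc 1637, .ofNat 55, .negSucc 109, .negSucc 658, .negSucc 86, .negSucc 284⟩, ⟨.ofNat 903, .ofNat 13, .ofNat 76, .ofNat 376, .ofNat 49, .ofNat 162⟩, ⟨.ofNat 992, .negSucc 39, .ofNat 77, .ofNat 394, .ofNat 4, .ofNat 190⟩, ⟨.negSucc 2595, .ofNat 74, .negSucc 147, .negSucc 835, .negSucc 422, .negSucc 449⟩, ⟨.negSucc 206, .negSucc 49, .ofNat 20, .ofNat 275, .negSucc 515, .negSucc 35⟩, .ofNat 2162, .ofNat 3292, .ofNat 0, .ofNat 3292, .ofNat 6044, .ofNat 0, .ofNat 59, .negSucc 286, .negSucc 698, .ofNat 0, .ofNat 168, .ofNat 397, .ofNat 0, .ofNat 0, .ofNat 489, .ofNat 983, .ofNat 0, .ofNat 0, .ofNat 59497287995828548892678632243200, .ofNat 0, .ofNat 0, .ofNat 0, .ofNat 2743664402144788432604633235456000, .ofNat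 0, .ofNat 0, .ofNat 0, .ofNat 0, .ofNat 0, .ofNat 0, .ofNat 0, .ofNat 1494417427639874337261022189977600, .ofNat 0⟩)
    (by decide +kernel)
theorem L01504 : Good (Phi V4.P V4.D (-1) (-1)) ⟨7, 111, 3, 4, 3, 6, 2, 1, 5, 3⟩ :=
  out_sound (S := T4.ds_mm) T4.ok_mm (w := 24) (j := 4) (by decide +kernel)
theorem L01505 : Good (Phi V4.P V4.D (-1) (-1)) ⟨5, 27, 3, 5, 3, 6, 2, 1, 4, 1⟩ :=
  out_sound (S := T4.ds_mm) T4.ok_mm (w := 64) (j := 3) (by decide +kernel)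
theorem L01506 : Good (Phi V4.P V4.D (-1) (-1)) ⟨6, 54, 3, 4, 3, 7, 2, 1, 5, 2⟩ :=
  leaf_sound (S := T4.ds_mm) T4.ok_mm (w := 200) (c := ⟨⟨.negSucc 924, .negSucc 633, .ofNat 1674, .negSucc 59, .negSucc 574, .negSucc 1194⟩, ⟨.ofNat 462, .ofNat 375, .negSucc 817, .ofNat 36, .ofNat 305, .ofNat 650⟩, ⟨.ofNat 765, .ofNat 279, .negSucc 741, .ofNat 386, .ofNat 59, .ofNat 574⟩, ⟨.negSucc 1485, .negSucc 819, .ofNat 2294, .ofNat 53, .negSucc 1170, .negSucc 1749⟩, ⟨.negSucc 90, .ofNat 173, .negSucc 435, .ofNat 267, .negSucc 546, .ofNat 127⟩, .ofNat 746, .ofNat 868, .ofNat 0, .ofNat 868, .ofNat 1848, .ofNat 0, .ofNat 120, .negSucc 336, .negSucc 843, .ofNat 0, .ofNat 196, .ofNat 445, .ofNat 0, .ofNat 0, .ofNat 510, .ofNat 528, .ofNat 0, .ofNat 0, .ofNat 19088549926226195989932697190400, .ofNat 0, .ofNat 0, .ofNat 0, .ofNat 0, .ofNat 0, .ofNat 0, .ofNat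 0, .ofNat 0, .ofNat 0, .ofNat 0, .ofNat 0, .ofNat 0, .ofNat 0⟩)
    (by decide +kernel)
theorem L01507 : Good (Phi V4.P V4.D (-1) (-1)) ⟨7, 110, 3, 4, 4, 14, 2, 1, 5, 2⟩ :=
  leaf_sound (S := T4.ds_mm) T4.ok_mm (w := 216) (c := ⟨⟨.negSucc 666, .ofNat 215, .negSucc 165, .negSucc 25, .negSucc 858, .negSucc 1312⟩, ⟨.ofNat 355, .negSucc 89, .ofNat 110, .ofNat 15, .ofNat 488, .ofNat 747⟩, ⟨.ofNat 610, .negSucc 92, .ofNat 78, .ofNat 163, .ofNat 245, .ofNat 687⟩, ⟨.negSucc 1116, .ofNat 311, .negSucc 231, .ofNat 35, .negSucc 1537, .negSucc 1863⟩, ⟨.negSucc 177, .negSucc 50, .ofNat 15, .ofNat 133, .negSucc 431, .ofNat 199⟩, .ofNat 2140, .ofNat 3257, .ofNat 0, .ofNat 3257, .ofNat 5990, .ofNat 0, .ofNat 63, .negSucc 343, .negSucc 796, .ofNat 0, .ofNat 199, .ofNat 450, .ofNat 0, .ofNat 0, .ofNat 490, .ofNat 977, .ofNat 0, .ofNat 0, .ofNat 30612051146656037751945184464076800,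 .ofNat 0, .ofNat 0, .ofNat 0, .ofNat 1531588554175506894702273930618470400, .ofNat 0, .ofNat 0, .ofNat 0, .ofNat 0, .ofNat 0, .ofNat 0, .ofNat 0, .ofNat 901278253351219424495468083465420800, .ofNat 0⟩)
    (by decide +kernel)
theorem L01508 : Good (Phi V4.P V4.D (-1) (-1)) ⟨7, 110, 3, 4, 4, 15, 2, 1, 5, 2⟩ :=
  leaf_sound (S := T4.ds_mm) T4.ok_mm (w := 216) (c := ⟨⟨.negSucc 1370, .negSucc 219, .ofNat 1166, .negSucc 156, .negSucc 317, .negSucc 1363⟩, ⟨.ofNat 755, .ofNat 157, .negSucc 639, .ofNat 90, .ofNat 177, .ofNat 775⟩, ⟨.ofNat 1212, .ofNat 145, .negSucc 630, .ofNat 361, .negSucc 221, .ofNat 700⟩, ⟨.negSucc 1966, .negSucc 260, .ofNat 1577, .negSucc 139, .negSucc 829, .negSucc 1994⟩, ⟨.ofNat 194, .ofNat 89, .negSucc 329, .ofNat 171, .negSucc 613, .ofNat 101⟩, .ofNat 2135, .ofNat 3249, .ofNat 0, .ofNat 3249, .ofNat 5979, .ofNat 0, .ofNat 66,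 .negSucc 371, .negSucc 873, .ofNat 0, .ofNat 215, .ofNat 491, .ofNat 0, .ofNat 0, .ofNat 512, .ofNat 884, .ofNat 0, .ofNat 0, .ofNat 24084898589182110157562161869619200, .ofNat 0, .ofNat 0, .ofNat 0, .ofNat 1583234374195500088613878054571212800, .ofNat 0, .ofNat 0, .ofNat 0, .ofNat 0, .ofNat 0, .ofNat 0, .ofNat 0, .ofNat 0, .ofNat 0⟩)
    (by decide +kernel)
theorem L01509 : Good (Phi V4.P V4.D (-1) (-1)) ⟨7, 111, 3, 4, 3, 7, 2, 1, 5, 2⟩ :=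
  out_sound (S := T4.ds_mm) T4.ok_mm (w := 24) (j := 4) (by decide +kernel)
theorem L01510 : Good (Phi V4.P V4.D (-1) (-1)) ⟨6, 54, 3, 4, 3, 7, 2, 1, 5, 3⟩ :=
  leaf_sound (S := T4.ds_mm) T4.ok_mm (w := 200) (c := ⟨⟨.negSucc 2518, .negSucc 171, .ofNat 360, .negSucc 107, .ofNat 245, .negSucc 75⟩, ⟨.ofNat 1319, .ofNat 136, .negSucc 65, .ofNat 61, .negSucc 143, .ofNat 38⟩, ⟨.ofNat 1562, .negSucc 50, .ofNat 227, .ofNat 439, .negSucc 378, .ofNat 59⟩, ⟨.negSucc 3729, .negSucc 186, .ofNat 526, .negSucc 79, .negSucc 71, .negSucc 216⟩, ⟨.ofNat 263, .ofNat 44, .negSucc 104, .ofNat 151, .negSucc 822, .negSucc 185⟩, .ofNat 1699, .ofNat 2565, .ofNat 0, .ofNat 2565, .ofNat 4964, .ofNat 0, .ofNat 76, .negSucc 340, .negSucc 663, .ofNat 0, .ofNat 193, .ofNat 360, .ofNat 0, .ofNat 0, .ofNat 431, .ofNat 678, .ofNat 0, .ofNat 0, .ofNat 0, .ofNat 0, .ofNat 0, .ofNat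 0, .ofNat 0, .ofNat 0, .ofNat 0, .ofNat 0, .ofNat 0, .ofNat 0, .ofNat 0, .ofNat 0, .ofNat 5333667067987422684626513874124800, .ofNat 0⟩)
    (by decide +kernel)
theorem L01511 : Good (Phi V4.P V4.D (-1) (-1)) ⟨7, 110, 4, 8, 3, 7, 2, 1, 5, 3⟩ :=
  leaf_sound (S := T4.ds_mm) T4.ok_mm (w := 216) (c := ⟨⟨.negSucc 3094, .negSucc 285, .ofNat 533, .ofNat 49, .ofNat 293, .negSucc 1⟩, ⟨.ofNat 1710, .ofNat 199, .negSucc 267, .negSucc 26, .negSucc 169, .ofNat 1⟩, ⟨.ofNat 1607, .ofNat 37, .ofNat 57, .ofNat 351, .negSucc 413, .ofNat 28⟩, ⟨.negSucc 4440, .negSucc 349, .ofNat 737, .ofNat 125, .negSucc 30, .negSucc 136⟩, ⟨.ofNat 429, .ofNat 100, .negSucc 134, .ofNat 92, .negSucc 838, .negSucc 235⟩, .ofNat 4702, .ofNat 7780, .ofNat 0, .ofNat 7780, .ofNat 14007, .ofNat 0, .ofNat 45, .negSucc 347, .negSucc 721, .ofNat 0, .ofNat 199, .ofNat 408, .ofNat 0, .ofNat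 0, .ofNat 457, .ofNat 867, .ofNat 0, .ofNat 0, .ofNat 219453908845081788368554033152000, .ofNat 0, .ofNat 0, .ofNat 0, .ofNat 12720833175174644618298980617420800, .ofNat 0, .ofNat 0, .ofNat 0, .ofNat 7934723713623678129473978577715200, .ofNat 0, .ofNat 0, .ofNat 0, .ofNat 6917914661420313556177369065062400, .ofNat 0⟩)
    (by decide +kernel)
theorem L01512 : Good (Phi V4.P V4.D (-1) (-1)) ⟨7, 110, 4, 9, 3, 7, 2, 1, 5, 3⟩ :=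
  leaf_sound (S := T4.ds_mm) T4.ok_mm (w := 216) (c := ⟨⟨.negSucc 2828, .ofNat 352, .negSucc 167, .ofNat 66, .ofNat 347, .ofNat 60⟩, ⟨.ofNat 1593, .negSucc 161, .ofNat 119, .negSucc 37, .negSucc 199, .negSucc 34⟩, ⟨.ofNat 1819, .negSucc 303, .ofNat 233, .ofNat 352, .negSucc 469, .negSucc 11⟩, ⟨.negSucc 4060, .ofNat 490, .negSucc 228, .ofNat 157, .ofNat 36, .negSucc 53⟩, ⟨.ofNat 357, .negSucc 101, .ofNat 20, .ofNat 103, .negSucc 850, .negSucc 248⟩, .ofNat 5629, .ofNat 9324, .ofNat 0, .ofNat 9324, .ofNat 16560, .ofNat 0, .ofNat 39, .negSucc 350, .negSucc 743, .ofNat 0, .ofNat 202, .ofNat 425, .ofNat 0, .ofNat 0, .ofNat 464, .ofNat 756, .ofNat 0, .ofNat 0, .ofNat 100746730429852030541850319257600, .ofNat 0, .ofNat 0, .ofNat 0, .ofNat 0, .ofNat 0, .ofNat 0, .ofNat 0, .ofNat 0, .ofNat 0, .ofNat 0, .ofNat 0, .ofNat 0, .ofNat 0⟩)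
    (by decide +kernel)
theorem L01513 : Good (Phi V4.P V4.D (-1) (-1)) ⟨7, 111, 3, 4, 3, 7, 2, 1, 5, 3⟩ :=
  out_sound (S := T4.ds_mm) T4.ok_mm (w := 24) (j := 4) (by decide +kernel)
theorem L01514 : Good (Phi V4.P V4.D (-1) (-1)) ⟨5, 27, 3, 5, 3, 7, 2, 1, 4, 1⟩ :=
  out_sound (S := T4.ds_mm) T4.ok_mm (w := 64) (j := 3) (by decide +kernel)
theorem L01515 : Good (Phi V4.P V4.D (-1) (-1)) ⟨3, 7, 2, 2, 2, 3, 2, 1, 3, 0⟩ :=
  out_sound (S := T4.ds_mm) T4.ok_mm (w := 16) (j := 4) (by decide +kernel)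
theorem L01516 : Good (Phi V4.P V4.D (-1) (-1)) ⟨3, 6, 2, 3, 2, 3, 2, 1, 3, 0⟩ :=
  out_sound (S := T4.ds_mm) T4.ok_mm (w := 48) (j := 3) (by decide +kernel)
theorem L01517 : Good (Phi V4.P V4.D (-1) (-1)) ⟨3, 7, 2, 3, 2, 3, 2, 1, 3, 0⟩ :=
  out_sound (S := T4.ds_mm) T4.ok_mm (w := 16) (j := 4) (by decide +kernel)
theorem L01518 : Good (Phi V4.P V4.D (-1) (-1)) ⟨4, 12, 1, 1, 2, 3, 2, 1, 3, 1⟩ :=
  out_sound (S := T4.ds_mm) T4.ok_mm (w := 48) (j := 3) (by decide +kernel)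
theorem L01519 : Good (Phi V4.P V4.D (-1) (-1)) ⟨5, 26, 3, 4, 2, 3, 2, 1, 3, 1⟩ :=
  out_sound (S := T4.ds_mm) T4.ok_mm (w := 64) (j := 3) (by decide +kernel)
theorem L01520 : Good (Phi V4.P V4.D (-1) (-1)) ⟨6, 54, 5, 16, 2, 3, 2, 1, 4, 2⟩ :=
  leaf_sound (S := T4.ds_mm) T4.ok_mm (w := 200) (c := ⟨⟨.negSucc 2746, .negSucc 194, .ofNat 229, .ofNat 48, .ofNat 583, .ofNat 896⟩, ⟨.ofNat 1453, .ofNat 94, .negSucc 71, .negSucc 28, .negSucc 324, .negSucc 492⟩, ⟨.ofNat 1622, .ofNat 283, .negSucc 181, .ofNat 296, .negSucc 545, .negSucc 460⟩, ⟨.negSucc 4077, .negSucc 214, .ofNat 287, .negSucc 51, .ofNat 461, .ofNat 875⟩, ⟨.ofNat 230, .ofNat 138, .negSucc 129, .negSucc 232, .negSucc 795, .negSucc 917⟩, .ofNat 2936, .ofNat 4839, .ofNat 0, .ofNat 4839, .ofNat 9180, .ofNat 0, .ofNat 116, .negSucc 564, .negSucc 832, .ofNat 0, .ofNat 317, .ofNat 453, .ofNat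 0, .ofNat 0, .ofNat 686, .ofNat 1374, .ofNat 0, .ofNat 0, .ofNat 0, .ofNat 0, .ofNat 0, .ofNat 0, .ofNat 29551715335866799934034621235200, .ofNat 0, .ofNat 0, .ofNat 0, .ofNat 10445441380225286073492072038400, .ofNat 0, .ofNat 0, .ofNat 0, .ofNat 0, .ofNat 0⟩)
    (by decide +kernel)
theorem L01521 : Good (Phi V4.P V4.D (-1) (-1)) ⟨6, 54, 5, 17, 2, 3, 2, 1, 4, 2⟩ :=
  leaf_sound (S := T4.ds_mm) T4.ok_mm (w := 200) (c := ⟨⟨.negSucc 2755, .ofNat 84, .ofNat 6, .ofNat 89, .ofNat 570, .ofNat 914⟩, ⟨.ofNat 1507, .negSucc 41, .ofNat 40, .negSucc 50, .negSucc 320, .negSucc 512⟩, ⟨.ofNat 1965, .negSucc 489, .ofNat 239, .ofNat 330, .negSucc 562, .negSucc 485⟩, ⟨.negSucc 3957, .negSucc 42, .ofNat 74, .ofNat 10, .ofNat 430, .ofNat 864⟩, ⟨.ofNat 460, .negSucc 380, .ofNat 131, .negSucc 227, .negSucc 792, .negSucc 947⟩, .ofNat 6307, .ofNat 10770, .ofNat 0,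 .ofNat 10770, .ofNat 19593, .ofNat 0, .ofNat 83, .negSucc 579, .negSucc 868, .ofNat 0, .ofNat 328, .ofNat 484, .ofNat 0, .ofNat 0, .ofNat 698, .ofNat 1099, .ofNat 0, .ofNat 0, .ofNat 116136209910963071911093862400, .ofNat 0, .ofNat 0, .ofNat 0, .ofNat 42462154681547450655010140979200, .ofNat 0, .ofNat 0, .ofNat 0, .ofNat 13181749712242817156677789286400, .ofNat 0, .ofNat 0, .ofNat 0, .ofNat 18481283465254586043739825766400, .ofNat 0⟩)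
    (by decide +kernel)
theorem L01522 : Good (Phi V4.P V4.D (-1) (-1)) ⟨6, 54, 4, 9, 2, 3, 2, 1, 4, 2⟩ :=
  out_sound (S := T4.ds_mm) T4.ok_mm (w := 72) (j := 3) (by decide +kernel)
theorem L01523 : Good (Phi V4.P V4.D (-1) (-1)) ⟨6, 55, 5, 16, 2, 3, 2, 1, 4, 2⟩ :=
  out_sound (S := T4.ds_mm) T4.ok_mm (w := 72) (j := 3) (by decide +kernel)
theorem L01524 : Good (Phi V4.P V4.D (-1) (-1)) ⟨7, 110, 6, 34, 2, 3, 2, 1, 4, 2⟩ :=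
  out_sound (S := T4.ds_mm) T4.ok_mm (w := 80) (j := 3) (by decide +kernel)
theorem L01525 : Good (Phi V4.P V4.D (-1) (-1)) ⟨7, 110, 6, 35, 2, 3, 2, 1, 4, 2⟩ :=
  leaf_sound (S := T4.ds_mm) T4.ok_mm (w := 208) (c := ⟨⟨.negSucc 2766, .ofNat 360, .negSucc 161, .ofNat 259, .ofNat 669, .ofNat 969⟩, ⟨.ofNat 1546, .negSucc 202, .ofNat 114, .negSucc 147, .negSucc 380, .negSucc 550⟩, ⟨.ofNat 1650, .ofNat 95, .negSucc 66, .ofNat 202, .negSucc 542, .negSucc 462⟩, ⟨.negSucc 4047, .ofNat 430, .negSucc 187, .ofNat 208, .ofNat 549, .ofNat 910⟩, ⟨.ofNat 231, .negSucc 210, .ofNat 97, .negSucc 324, .negSucc 813, .negSucc 980⟩, .ofNat 13096, .ofNat 22577, .ofNat 0, .ofNat 22577, .ofNat 40101, .ofNat 0, .ofNat 60, .negSucc 595, .negSucc 926, .ofNat 0, .ofNat 340, .ofNat 525, .ofNat 0, .ofNat 0, .ofNat 716, .ofNat 1323, .ofNat 0, .ofNat 0, .ofNat 93126868070016037161428582400,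 .ofNat 0, .ofNat 0, .ofNat 0, .ofNat 40138622278881628690513605427200, .ofNat 0, .ofNat 0, .ofNat 0, .ofNat 6441308269127095563598587494400, .ofNat 0, .ofNat 0, .ofNat 0, .ofNat 13435622618020526237306742374400, .ofNat 0⟩)
    (by decide +kernel)
theorem L01526 : Good (Phi V4.P V4.D (-1) (-1)) ⟨7, 111, 5, 17, 2, 3, 2, 1, 4, 2⟩ :=
  out_sound (S := T4.ds_mm) T4.ok_mm (w := 80) (j := 3) (by decide +kernel)
theorem L01527 : Good (Phi V4.P V4.D (-1) (-1)) ⟨7, 110, 4, 9, 3, 6, 2, 1, 4, 2⟩ :=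
  leaf_sound (S := T4.ds_mm) T4.ok_mm (w := 208) (c := ⟨⟨.negSucc 2443, .negSucc 6, .ofNat 132, .negSucc 173, .ofNat 525, .ofNat 742⟩, ⟨.ofNat 1375, .ofNat 40, .negSucc 55, .ofNat 100, .negSucc 301, .negSucc 425⟩, ⟨.ofNat 1505, .negSucc 5, .negSucc 74, .ofNat 129, .negSucc 413, .negSucc 380⟩, ⟨.negSucc 3702, .ofNat 37, .ofNat 112, .negSucc 272, .ofNat 368, .ofNat 699⟩, ⟨.negSucc 38, .ofNat 66, .negSucc 159, .negSucc 18, .negSucc 733, .negSucc 724⟩, .ofNat 5829, .ofNat 9657, .ofNat 0, .ofNat 9657, .ofNat 17112, .ofNat 0, .ofNat 69, .negSucc 556, .negSucc 984, .ofNat 0, .ofNat 323, .ofNat 564, .ofNat 0, .ofNat 0, .ofNat 763, .ofNat 3395, .ofNat 0, .ofNat 0, .ofNat 0, .ofNat 0, .ofNat 0, .ofNat 0, .ofNat 4411010856479592926047318415769600, .ofNat 0, .ofNat 0, .ofNat 0, .ofNat 0, .ofNat 0, .ofNat 0, .ofNat 0, .ofNat 0, .ofNat 0⟩)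
    (by decide +kernel)
theorem L01528 : Good (Phi V4.P V4.D (-1) (-1)) ⟨7, 110, 4, 9, 3, 7, 2, 1, 4, 2⟩ :=
  leaf_sound (S := T4.ds_mm) T4.ok_mm (w := 208) (c := ⟨⟨.negSucc 3021, .ofNat 135, .ofNat 8, .ofNat 461, .ofNat 775, .ofNat 1144⟩, ⟨.ofNat 1707, .negSucc 43, .ofNat 18, .negSucc 263, .negSucc 444, .negSucc 656⟩, ⟨.ofNat 1905, .negSucc 120, .ofNat 38, .ofNat 153, .negSucc 745, .negSucc 544⟩, ⟨.negSucc 4394, .ofNat 201, .ofNat 7, .ofNat 530, .ofNat 669, .ofNat 1046⟩, ⟨.ofNat 263, .negSucc 8, .negSucc 24, .negSucc 285, .negSucc 864, .negSucc 1175⟩, .ofNat 5778, .ofNat 9573, .ofNat 0, .ofNat 9573, .ofNat 16972, .ofNat 0, .ofNat 76, .negSucc 641, .negSucc 908, .ofNat 0, .ofNat 372, .ofNat 521, .ofNat 0, .ofNat 0, .ofNat 687, .ofNat 1167, .ofNat 0, .ofNat 0, .ofNat 11349021625579170812295276134400, .ofNat 0, .ofNat 0, .ofNat 0, .ofNat 0, .ofNat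 0, .ofNat 0, .ofNat 0, .ofNat 0, .ofNat 0, .ofNat 0, .ofNat 0, .ofNat 0, .ofNat 0⟩)
    (by decide +kernel)
theorem L01529 : Good (Phi V4.P V4.D (-1) (-1)) ⟨7, 111, 4, 9, 2, 3, 2, 1, 4, 2⟩ :=
  out_sound (S := T4.ds_mm) T4.ok_mm (w := 24) (j := 4) (by decide +kernel)

end Crest.Agent.R097C4.N4mm
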