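import Crest.Agent.R097.T4

/-!
# Row 97, box cover in dimension n = 4 (generated)
-/

set_option autoImplicit false
set_option Elab.async false
set_option maxHeartbeats 0
set_option maxRecDepth 100000

open Crest.Agent.R097 Crest.Agent.R097.KA


namespace Crest.Agent.R097C4.N4mm

theorem L01530 : Good (Phi V4.P V4.D (-1) (-1)) ⟨5, 27, 4, 8, 2, 3, 2, 1, 4, 3⟩ :=
  leaf_sound (S := T4.ds_mm) T4.ok_mm (w := 184) (c := ⟨⟨.negSucc 2107, .ofNat 242, .ofNat 64, .ofNat 424, .ofNat 707, .ofNat 620⟩, ⟨.ofNat 1112, .negSucc 155, .ofNat 45, .negSucc 243, .negSucc 392, .negSucc 344⟩, ⟨.ofNat 1329, .negSucc 64, .negSucc 62, .ofNat 148, .negSucc 655, .negSucc 329⟩, ⟨.negSucc 3389, .ofNat 472, .negSucc 82, .ofNat 104, .ofNat 715, .ofNat 515⟩, ⟨.negSucc 364, .ofNat 96, .negSucc 208, .negSucc 983, .negSucc 657, .negSucc 787⟩, .ofNat 1762, .ofNat 2664, .ofNat 0, .ofNat 2664,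 .ofNat 5110, .ofNat 0, .ofNat 130, .negSucc 476, .negSucc 527, .ofNat 0, .ofNat 279, .ofNat 292, .ofNat 0, .ofNat 0, .ofNat 562, .ofNat 1317, .ofNat 0, .ofNat 0, .ofNat 0, .ofNat 0, .ofNat 0, .ofNat 0, .ofNat 26507188398860886651800282726400, .ofNat 0, .ofNat 0, .ofNat 0, .ofNat 7132065863426232801953631436800, .ofNat 0, .ofNat 0, .ofNat 0, .ofNat 12546662513830548135666411110400, .ofNat 0⟩)
    (by decide +kernel)
theorem L01531 : Good (Phi V4.P V4.D (-1) (-1)) ⟨6, 54, 4, 9, 2, 3, 2, 1, 4, 3⟩ :=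
  out_sound (S := T4.ds_mm) T4.ok_mm (w := 72) (j := 3) (by decide +kernel)
theorem L01532 : Good (Phi V4.P V4.D (-1) (-1)) ⟨6, 55, 4, 9, 2, 3, 2, 1, 4, 3⟩ :=
  leaf_sound (S := T4.ds_mm) T4.ok_mm (w := 192) (c := ⟨⟨.negSucc 1958, .ofNat 181, .negSucc 86, .ofNat 505, .ofNat 733, .ofNat 589⟩, ⟨.ofNat 1106, .negSucc 69, .ofNat 86, .negSucc 290, .negSucc 419, .negSucc 338⟩, ⟨.ofNat 1262, .negSucc 135, .negSucc 8, .ofNat 213, .negSucc 744, .negSucc 275⟩, ⟨.negSucc 3217, .ofNat 210, .negSucc 53, .ofNat 152, .ofNat 769, .ofNat 361⟩, ⟨.negSucc 494, .negSucc 65, .ofNat 168, .negSucc 1059, .negSucc 579, .negSucc 915⟩, .ofNat 5841, .ofNat 9677, .ofNat 0, .ofNat 9677, .ofNat 17147, .ofNat 0, .ofNat 69, .negSucc 505, .negSucc 532, .ofNat 0, .ofNat 295, .ofNat 306, .ofNat 0, .ofNat 0, .ofNat 560, .ofNat 635, .ofNat 0, .ofNat 0, .ofNat 38650342503616218904972492800,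 .ofNat 0, .ofNat 0, .ofNat 0, .ofNat 16123614510524623941256033075200, .ofNat 0, .ofNat 0, .ofNat 0, .ofNat 0, .ofNat 0, .ofNat 0, .ofNat 0, .ofNat 0, .ofNat 0⟩)
    (by decide +kernel)
theorem L01533 : Good (Phi V4.P V4.D (-1) (-1)) ⟨4, 13, 3, 5, 2, 3, 2, 1, 3, 1⟩ :=
  out_sound (S := T4.ds_mm) T4.ok_mm (w := 56) (j := 3) (by decide +kernel)
theorem L01534 : Good (Phi V4.P V4.D (-1) (-1)) ⟨4, 13, 2, 3, 2, 3, 2, 1, 3, 1⟩ :=
  out_sound (S := T4.ds_mm) T4.ok_mm (w := 56) (j := 3) (by decide +kernel)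
theorem L01535 : Good (Phi V4.P V4.D (-1) (-1)) ⟨3, 7, 1, 1, 2, 3, 2, 1, 3, 1⟩ :=
  out_sound (S := T4.ds_mm) T4.ok_mm (w := 16) (j := 4) (by decide +kernel)
theorem L01536 : Good (Phi V4.P V4.D (-1) (-1)) ⟨2, 2, 1, 1, 1, 1, 1, 0, 2, 1⟩ :=
  out_sound (S := T4.ds_mm) T4.ok_mm (w := 40) (j := 3) (by decide +kernel)
theorem L01537 : Good (Phi V4.P V4.D (-1) (-1)) ⟨4, 12, 2, 2, 2, 2, 1, 0, 2, 1⟩ :=
  out_sound (S := T4.ds_mm) T4.ok_mm (w := 56) (j := 3) (by decide +kernel)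
theorem L01538 : Good (Phi V4.P V4.D (-1) (-1)) ⟨5, 26, 3, 4, 2, 2, 1, 0, 2, 1⟩ :=
  out_sound (S := T4.ds_mm) T4.ok_mm (w := 64) (j := 3) (by decide +kernel)
theorem L01539 : Good (Phi V4.P V4.D (-1) (-1)) ⟨5, 27, 3, 4, 2, 2, 2, 0, 3, 2⟩ :=
  leaf_sound (S := T4.ds_mm) T4.ok_mm (w := 184) (c := ⟨⟨.negSucc 1732, .ofNat 45, .ofNat 40, .ofNat 217, .ofNat 264, .ofNat 470⟩, ⟨.ofNat 913, .ofNat 3, .ofNat 77, .negSucc 128, .negSucc 147, .negSucc 263⟩, ⟨.ofNat 1514, .negSucc 166, .ofNat 96, .negSucc 224, .negSucc 370, .negSucc 207⟩, ⟨.negSucc 2642, .ofNat 128, .negSucc 72, .negSucc 194, .ofNat 231, .ofNat 454⟩, ⟨.negSucc 37, .ofNat 122, .negSucc 228, .negSucc 947, .negSucc 297, .negSucc 472⟩, .ofNat 1823, .ofNat 2760, .ofNat 0, .ofNat 2760, .ofNat 5248, .ofNat 0, .ofNat 200, .negSucc 628, .negSucc 570, .ofNat 0, .ofNat 377, .ofNat 320, .ofNat 0, .ofNat 0, .ofNat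 954, .ofNat 9146, .ofNat 0, .ofNat 0, .ofNat 0, .ofNat 0, .ofNat 0, .ofNat 0, .ofNat 4391273550732936440657530060800, .ofNat 0, .ofNat 10906276029479925378943634611214745600, .ofNat 0, .ofNat 1267967425729206655256415436800, .ofNat 0, .ofNat 0, .ofNat 0, .ofNat 1689437439005237988464944742400, .ofNat 0⟩)
    (by decide +kernel)
theorem L01540 : Good (Phi V4.P V4.D (-1) (-1)) ⟨5, 27, 3, 4, 2, 2, 2, 1, 3, 2⟩ :=
  leaf_sound (S := T4.ds_mm) T4.ok_mm (w := 184) (c := ⟨⟨.negSucc 1541, .ofNat 64, .ofNat 74, .ofNat 314, .ofNat 499, .ofNat 459⟩, ⟨.ofNat 811, .negSucc 24, .ofNat 55, .negSucc 181, .negSucc 277, .negSucc 253⟩, ⟨.ofNat 1239, .negSucc 154, .ofNat 36, .negSucc 297, .negSucc 559, .negSucc 288⟩, ⟨.negSucc 2539, .ofNat 174, .negSucc 70, .negSucc 70, .ofNat 590, .ofNat 522⟩, ⟨.negSucc 387, .ofNat 191, .negSucc 278, .negSucc 1001, .negSucc 305, .negSucc 323⟩,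 .ofNat 1802, .ofNat 2727, .ofNat 0, .ofNat 2727, .ofNat 5203, .ofNat 0, .ofNat 205, .negSucc 628, .negSucc 701, .ofNat 0, .ofNat 375, .ofNat 389, .ofNat 0, .ofNat 0, .ofNat 1022, .ofNat 2939, .ofNat 0, .ofNat 0, .ofNat 0, .ofNat 0, .ofNat 0, .ofNat 2893236145002386086763143517700096000, .ofNat 2471596013689936780024243814400, .ofNat 0, .ofNat 0, .ofNat 0, .ofNat 1308254226537441418219723161600, .ofNat 0, .ofNat 0, .ofNat 0, .ofNat 0, .ofNat 0⟩)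
    (by decide +kernel)
theorem L01541 : Good (Phi V4.P V4.D (-1) (-1)) ⟨5, 27, 3, 4, 2, 2, 1, 0, 3, 3⟩ :=
  leaf_sound (S := T4.ds_mm) T4.ok_mm (w := 176) (c := ⟨⟨.negSucc 1419, .ofNat 2, .ofNat 104, .ofNat 327, .ofNat 753, .ofNat 257⟩, ⟨.ofNat 751, .ofNat 2, .ofNat 33, .negSucc 192, .negSucc 421, .negSucc 143⟩, ⟨.ofNat 1439, .negSucc 76, .negSucc 14, .negSucc 270, .negSucc 1030, .negSucc 165⟩, ⟨.negSucc 2417, .ofNat 28, .ofNat 45, .negSucc 95, .ofNat 921, .ofNat 318⟩, ⟨.negSucc 510, .ofNat 33, .negSucc 91, .negSucc 1072, .negSucc 399, .negSucc 126⟩, .ofNat 366, .ofNat 261, .ofNat 0, .ofNat 261, .ofNat 688, .ofNat 0, .ofNat 402, .negSucc 391, .negSucc 467, .ofNat 0, .ofNat 368, .ofNat 264, .ofNat 0, .ofNat 0, .ofNat 891, .ofNat 3073, .ofNat 0, .ofNat 0, .ofNat 0, .ofNat 0, .ofNat 0, .ofNat 0, .ofNat 0, .ofNat 0, .ofNat 2936361431921586443595966873128140800,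 .ofNat 1725685618333416557062741712437248000, .ofNat 0, .ofNat 0, .ofNat 0, .ofNat 0, .ofNat 0, .ofNat 0⟩)
    (by decide +kernel)
theorem L01542 : Good (Phi V4.P V4.D (-1) (-1)) ⟨4, 13, 3, 5, 2, 2, 1, 0, 2, 1⟩ :=
  out_sound (S := T4.ds_mm) T4.ok_mm (w := 56) (j := 3) (by decide +kernel)
theorem L01543 : Good (Phi V4.P V4.D (-1) (-1)) ⟨3, 6, 2, 3, 2, 2, 1, 0, 2, 1⟩ :=
  out_sound (S := T4.ds_mm) T4.ok_mm (w := 48) (j := 3) (by decide +kernel)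
theorem L01544 : Good (Phi V4.P V4.D (-1) (-1)) ⟨3, 7, 1, 1, 2, 2, 1, 0, 2, 1⟩ :=
  out_sound (S := T4.ds_mm) T4.ok_mm (w := 16) (j := 4) (by decide +kernel)
theorem L01545 : Good (Phi V4.P V4.D (-1) (-1)) ⟨4, 12, 2, 2, 2, 3, 1, 0, 2, 1⟩ :=
  out_sound (S := T4.ds_mm) T4.ok_mm (w := 56) (j := 3) (by decide +kernel)
theorem L01546 : Good (Phi V4.P V4.D (-1) (-1)) ⟨5, 26, 3, 4, 2, 3, 1, 0, 2, 1⟩ :=
  out_sound (S := T4.ds_mm) T4.ok_mm (w := 64) (j := 3) (by decide +kernel)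
theorem L01547 : Good (Phi V4.P V4.D (-1) (-1)) ⟨7, 108, 5, 16, 3, 6, 1, 0, 4, 4⟩ :=
  leaf_sound (S := T4.ds_mm) T4.ok_mm (w := 208) (c := ⟨⟨.negSucc 1678, .negSucc 40, .ofNat 78, .ofNat 161, .ofNat 864, .ofNat 337⟩, ⟨.ofNat 875, .ofNat 3, .ofNat 12, .negSucc 95, .negSucc 470, .negSucc 185⟩, ⟨.ofNat 1404, .ofNat 50, .negSucc 109, .ofNat 89, .negSucc 1082, .negSucc 108⟩, ⟨.negSucc 2957, .negSucc 96, .ofNat 123, .negSucc 101, .ofNat 906, .ofNat 276⟩, ⟨.negSucc 738, .negSucc 74, .ofNat 66, .negSucc 655, .negSucc 786, .negSucc 450⟩, .ofNat 2799, .ofNat 4616, .ofNat 0, .ofNat 4616, .ofNat 8833, .ofNat 0, .ofNat 206, .negSucc 811, .negSucc 611, .ofNat 0, .ofNat 463, .ofNat 334, .ofNat 0, .ofNat 0, .ofNat 958, .ofNat 4181, .ofNat 0, .ofNat 0, .ofNat 0, .ofNat 0, .ofNat 0, .ofNat 0, .ofNat 0, .ofNat 0, .ofNat 5848383711469817158802408553945927096729600, .ofNat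 0, .ofNat 676986621460930197747405737164800, .ofNat 0, .ofNat 0, .ofNat 0, .ofNat 0, .ofNat 0⟩)
    (by decide +kernel)
theorem L01548 : Good (Phi V4.P V4.D (-1) (-1)) ⟨7, 108, 5, 16, 3, 7, 1, 0, 4, 4⟩ :=
  leaf_sound (S := T4.ds_mm) T4.ok_mm (w := 208) (c := ⟨⟨.negSucc 1537, .ofNat 244, .negSucc 197, .ofNat 152, .ofNat 797, .ofNat 308⟩, ⟨.ofNat 793, .negSucc 172, .ofNat 190, .negSucc 101, .negSucc 426, .negSucc 172⟩, ⟨.ofNat 1654, .ofNat 406, .negSucc 542, .ofNat 671, .negSucc 1667, .negSucc 166⟩, ⟨.negSucc 3007, .negSucc 134, .ofNat 227, .negSucc 444, .ofNat 1067, .ofNat 155⟩, ⟨.negSucc 1250, .negSucc 953, .ofNat 1065, .negSucc 1275, .negSucc 289, .negSucc 596⟩, .ofNat 4014, .ofNat 6855, .ofNat 0, .ofNat 6855, .ofNat 12965, .ofNat 0, .ofNat 206, .negSucc 866, .negSucc 478, .ofNat 0, .ofNat 497, .ofNat 261, .ofNat 0, .ofNat 0, .ofNat 971, .ofNat 1046,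 .ofNat 0, .ofNat 0, .ofNat 10887563725411295422880258457600, .ofNat 0, .ofNat 0, .ofNat 1448073900270038030132659181389553546035200, .ofNat 0, .ofNat 0, .ofNat 0, .ofNat 0, .ofNat 1552677682900034003063499915264000, .ofNat 0, .ofNat 0, .ofNat 0, .ofNat 351958271271852014991810389606400, .ofNat 0⟩)
    (by decide +kernel)
theorem L01549 : Good (Phi V4.P V4.D (-1) (-1)) ⟨7, 109, 6, 32, 2, 3, 1, 0, 4, 4⟩ :=
  out_sound (S := T4.ds_mm) T4.ok_mm (w := 80) (j := 3) (by decide +kernel)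
theorem L01550 : Good (Phi V4.P V4.D (-1) (-1)) ⟨7, 109, 6, 33, 3, 6, 1, 0, 4, 4⟩ :=
  leaf_sound (S := T4.ds_mm) T4.ok_mm (w := 208) (c := ⟨⟨.negSucc 1689, .ofNat 43, .negSucc 8, .ofNat 220, .ofNat 880, .ofNat 325⟩, ⟨.ofNat 894, .negSucc 41, .ofNat 31, .negSucc 127, .negSucc 487, .negSucc 181⟩, ⟨.ofNat 1436, .ofNat 106, .negSucc 76, .ofNat 78, .negSucc 1093, .negSucc 118⟩, ⟨.negSucc 2979, .ofNat 64, .negSucc 26, .negSucc 28, .ofNat 901, .ofNat 238⟩, ⟨.negSucc 762, .negSucc 9, .ofNat 0, .negSucc 668, .negSucc 807, .negSucc 472⟩, .ofNat 4832, .ofNat 8227, .ofNat 0, .ofNat 8227, .ofNat 15231, .ofNat 0, .ofNat 168, .negSucc 830, .negSucc 643, .ofNat 0, .ofNat 473, .ofNat 356, .ofNat 0, .ofNat 0, .ofNat 965, .ofNat 4488, .ofNat 0, .ofNat 0, .ofNat 0, .ofNat 0, .ofNat 0, .ofNat 0, .ofNat 10303019211720376245578779695513600, .ofNat 0, .ofNat 0, .ofNat 0, .ofNat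 1700490716997522085420290854092800, .ofNat 0, .ofNat 0, .ofNat 0, .ofNat 0, .ofNat 0⟩)
    (by decide +kernel)
theorem L01551 : Good (Phi V4.P V4.D (-1) (-1)) ⟨7, 109, 6, 33, 3, 7, 1, 0, 4, 4⟩ :=
  leaf_sound (S := T4.ds_mm) T4.ok_mm (w := 208) (c := ⟨⟨.negSucc 1537, .negSucc 101, .ofNat 92, .ofNat 204, .ofNat 869, .ofNat 369⟩, ⟨.ofNat 802, .ofNat 34, .negSucc 21, .negSucc 127, .negSucc 476, .negSucc 209⟩, ⟨.ofNat 1638, .negSucc 462, .ofNat 258, .ofNat 647, .negSucc 1676, .negSucc 66⟩, ⟨.negSucc 2992, .ofNat 226, .negSucc 156, .negSucc 418, .ofNat 1131, .ofNat 130⟩, ⟨.negSucc 1226, .ofNat 704, .negSucc 508, .negSucc 1342, .negSucc 352, .negSucc 792⟩, .ofNat 6198, .ofNat 10695, .ofNat 0, .ofNat 10695, .ofNat 19693, .ofNat 0, .ofNat 179, .negSucc 872, .negSucc 497, .ofNat 0, .ofNat 502, .ofNat 276, .ofNat 0, .ofNat 0, .ofNat 973, .ofNat 1281, .ofNat 0, .ofNat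 0, .ofNat 42459844288177026237360557260800, .ofNat 0, .ofNat 0, .ofNat 0, .ofNat 8112105714879406001528471184998400, .ofNat 0, .ofNat 0, .ofNat 0, .ofNat 3983682561109796238415395972710400, .ofNat 0, .ofNat 0, .ofNat 10601749049531449085872319320371635001753600, .ofNat 702962319558170688421893872025600, .ofNat 0⟩)
    (by decide +kernel)
theorem L01552 : Good (Phi V4.P V4.D (-1) (-1)) ⟨7, 108, 5, 17, 2, 3, 1, 0, 4, 4⟩ :=
  out_sound (S := T4.ds_mm) T4.ok_mm (w := 80) (j := 3) (by decide +kernel)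
theorem L01553 : Good (Phi V4.P V4.D (-1) (-1)) ⟨7, 109, 5, 17, 3, 6, 1, 0, 4, 4⟩ :=
  leaf_sound (S := T4.ds_mm) T4.ok_mm (w := 208) (c := ⟨⟨.negSucc 1746, .ofNat 178, .negSucc 118, .ofNat 196, .ofNat 926, .ofNat 321⟩, ⟨.ofNat 955, .negSucc 115, .ofNat 117, .negSucc 113, .negSucc 518, .negSucc 181⟩, ⟨.ofNat 1456, .negSucc 68, .ofNat 32, .ofNat 37, .negSucc 1107, .negSucc 123⟩, ⟨.negSucc 3038, .ofNat 205, .negSucc 168, .negSucc 66, .ofNat 939, .ofNat 224⟩, ⟨.negSucc 718, .negSucc 119, .ofNat 69, .negSucc 653, .negSucc 838, .negSucc 476⟩, .ofNat 1873, .ofNat 2839, .ofNat 0, .ofNat 2839, .ofNat 5368, .ofNat 0, .ofNat 229, .negSucc 821, .negSucc 661, .ofNat 0, .ofNat 488, .ofNat 373, .ofNat 0, .ofNat 0, .ofNat 970, .ofNat 3064, .ofNat 0, .ofNat 0, .ofNat 0, .ofNat 0, .ofNat 0, .ofNat 0, .ofNat 0, .ofNat 0, .ofNat 10261327090084115872886637865248642564096000,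 .ofNat 0, .ofNat 800130034997025657433544982528000, .ofNat 0, .ofNat 0, .ofNat 0, .ofNat 0, .ofNat 0⟩)
    (by decide +kernel)
theorem L01554 : Good (Phi V4.P V4.D (-1) (-1)) ⟨7, 109, 6, 34, 3, 7, 1, 0, 4, 4⟩ :=
  leaf_sound (S := T4.ds_mm) T4.ok_mm (w := 208) (c := ⟨⟨.negSucc 1405, .negSucc 38, .ofNat 9, .ofNat 190, .ofNat 882, .ofNat 268⟩, ⟨.ofNat 760, .negSucc 2, .ofNat 27, .negSucc 119, .negSucc 487, .negSucc 153⟩, ⟨.ofNat 1883, .negSucc 486, .ofNat 136, .ofNat 780, .negSucc 1759, .negSucc 25⟩, ⟨.negSucc 3080, .ofNat 212, .negSucc 57, .negSucc 532, .ofNat 1224, .ofNat 4⟩, ⟨.negSucc 1741, .ofNat 508, .negSucc 102, .negSucc 1490, .negSucc 205, .negSucc 730⟩, .ofNat 7608, .ofNat 13109, .ofNat 0, .ofNat 13109, .ofNat 23801, .ofNat 0, .ofNat 156, .negSucc 893, .negSucc 515, .ofNat 0, .ofNat 515, .ofNat 289, .ofNat 0, .ofNat 0, .ofNat 975, .ofNat 1185, .ofNat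 0, .ofNat 0, .ofNat 24709293503473680041110614835200, .ofNat 0, .ofNat 0, .ofNat 4787653027161470734917419165242685285990400, .ofNat 6620542589472709055703876108288000, .ofNat 0, .ofNat 0, .ofNat 0, .ofNat 2742244059490030033902734671872000, .ofNat 0, .ofNat 0, .ofNat 6169200365609589176989903244541121737523200, .ofNat 0, .ofNat 0⟩)
    (by decide +kernel)
theorem L01555 : Good (Phi V4.P V4.D (-1) (-1)) ⟨7, 109, 6, 35, 3, 7, 1, 0, 4, 4⟩ :=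
  leaf_sound (S := T4.ds_mm) T4.ok_mm (w := 216) (c := ⟨⟨.negSucc 1450, .ofNat 121, .ofNat 63, .ofNat 154, .ofNat 877, .ofNat 230⟩, ⟨.ofNat 819, .negSucc 93, .negSucc 7, .negSucc 93, .negSucc 490, .negSucc 132⟩, ⟨.ofNat 1645, .ofNat 119, .ofNat 247, .ofNat 532, .negSucc 1759, .negSucc 106⟩, ⟨.negSucc 2869, .negSucc 82, .negSucc 50, .negSucc 437, .ofNat 1185, .ofNat 3⟩, ⟨.negSucc 1216, .negSucc 474, .negSucc 222, .negSucc 1202, .negSucc 253, .negSucc 618⟩, .ofNat 11116, .ofNat 19227, .ofNat 0, .ofNat 19227, .ofNat 34458, .ofNat 0, .ofNat 133, .negSucc 886, .negSucc 505, .ofNat 0, .ofNat 511, .ofNat 285, .ofNat 0, .ofNat 0, .ofNat 968, .ofNat 1099, .ofNat 0, .ofNat 0, .ofNat 43309903067813326424920974950400, .ofNat 0, .ofNat 0, .ofNat 0, .ofNat 0, .ofNat 0, .ofNat 0, .ofNat 0, .ofNat 9743405168063063111520791140761600, .ofNat 0, .ofNat 0, .ofNat 5498700719951214772382610798544628062617600,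 .ofNat 0, .ofNat 0⟩)
    (by decide +kernel)
theorem L01556 : Good (Phi V4.P V4.D (-1) (-1)) ⟨6, 54, 4, 8, 2, 3, 1, 0, 4, 5⟩ :=
  leaf_sound (S := T4.ds_mm) T4.ok_mm (w := 192) (c := ⟨⟨.negSucc 1294, .negSucc 0, .ofNat 85, .ofNat 300, .ofNat 754, .ofNat 165⟩, ⟨.ofNat 664, .negSucc 32, .ofNat 53, .negSucc 182, .negSucc 413, .negSucc 91⟩, ⟨.ofNat 1296, .negSucc 52, .ofNat 28, .ofNat 430, .negSucc 1172, .negSucc 69⟩, ⟨.negSucc 2625, .negSucc 31, .ofNat 38, .negSucc 407, .ofNat 843, .ofNat 117⟩, ⟨.negSucc 1245, .negSucc 57, .negSucc 51, .negSucc 1602, .negSucc 567, .negSucc 247⟩, .ofNat 3169, .ofNat 5232, .ofNat 0, .ofNat 5232, .ofNat 9829, .ofNat 0, .ofNat 176, .negSucc 701, .negSucc 422, .ofNat 0, .ofNat 406, .ofNat 235, .ofNat 0, .ofNat 0, .ofNat 899, .ofNat 848, .ofNat 0, .ofNat 0, .ofNat 0, .ofNat 0, .ofNat 0, .ofNat 187896859386617457680644035969653145600,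 .ofNat 5396849863198214866364635545600, .ofNat 0, .ofNat 0, .ofNat 0, .ofNat 0, .ofNat 0, .ofNat 0, .ofNat 677655848412996157615526404014735360000, .ofNat 0, .ofNat 0⟩)
    (by decide +kernel)
theorem L01557 : Good (Phi V4.P V4.D (-1) (-1)) ⟨6, 55, 5, 16, 2, 3, 1, 0, 3, 2⟩ :=
  out_sound (S := T4.ds_mm) T4.ok_mm (w := 72) (j := 3) (by decide +kernel)
theorem L01558 : Good (Phi V4.P V4.D (-1) (-1)) ⟨7, 110, 6, 34, 2, 3, 1, 0, 3, 2⟩ :=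
  out_sound (S := T4.ds_mm) T4.ok_mm (w := 80) (j := 3) (by decide +kernel)
theorem L01559 : Good (Phi V4.P V4.D (-1) (-1)) ⟨8, 220, 6, 35, 3, 6, 2, 0, 4, 4⟩ :=
  leaf_sound (S := T4.ds_mm) T4.ok_mm (w := 216) (c := ⟨⟨.negSucc 1599, .negSucc 31, .ofNat 47, .ofNat 187, .ofNat 288, .ofNat 357⟩, ⟨.ofNat 884, .ofNat 12, .negSucc 1, .negSucc 108, .negSucc 163, .negSucc 203⟩, ⟨.ofNat 1358, .ofNat 42, .negSucc 61, .ofNat 134, .negSucc 485, .negSucc 118⟩, ⟨.negSucc 2877, .negSucc 113, .ofNat 135, .negSucc 98, .ofNat 232, .ofNat 235⟩, ⟨.negSucc 836, .negSucc 116, .ofNat 132, .negSucc 676, .negSucc 355, .negSucc 537⟩, .ofNat 9443, .ofNat 16128, .ofNat 0, .ofNat 16128, .ofNat 28715, .ofNat 0, .ofNat 110, .negSucc 838, .negSucc 545, .ofNat 0, .ofNat 484, .ofNat 311, .ofNat 0, .ofNat 0, .ofNat 932, .ofNat 13966, .ofNat 0, .ofNat 0, .ofNat 0, .ofNat 0, .ofNat 0, .ofNat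 0, .ofNat 31222542971654960839724720612966400, .ofNat 0, .ofNat 4705518722179103837130805573501836353706393600, .ofNat 0, .ofNat 2696059422697460936938668372787200, .ofNat 0, .ofNat 0, .ofNat 0, .ofNat 0, .ofNat 0⟩)
    (by decide +kernel)
theorem L01560 : Good (Phi V4.P V4.D (-1) (-1)) ⟨8, 220, 6, 35, 3, 7, 2, 0, 4, 4⟩ :=
  leaf_sound (S := T4.ds_mm) T4.ok_mm (w := 216) (c := ⟨⟨.negSucc 1366, .ofNat 33, .negSucc 8, .ofNat 195, .ofNat 270, .ofNat 369⟩, ⟨.ofNat 748, .negSucc 20, .ofNat 28, .negSucc 118, .negSucc 149, .negSucc 210⟩, ⟨.ofNat 1524, .negSucc 665, .ofNat 685, .ofNat 1006, .negSucc 1112, .negSucc 176⟩, ⟨.negSucc 2821, .ofNat 539, .negSucc 589, .negSucc 734, .ofNat 655, .ofNat 215⟩, ⟨.negSucc 1368, .ofNat 875, .negSucc 992, .negSucc 1826, .ofNat 439, .negSucc 606⟩, .ofNat 9128, .ofNat 15589, .ofNat 0, .ofNat 15589, .ofNat 27794, .ofNat 0, .ofNat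 130, .negSucc 907, .negSucc 436, .ofNat 0, .ofNat 527, .ofNat 248, .ofNat 0, .ofNat 0, .ofNat 986, .ofNat 2136, .ofNat 0, .ofNat 0, .ofNat 0, .ofNat 0, .ofNat 0, .ofNat 225503522950228710150817302601436778568089600, .ofNat 22545704412708447399444429668352000, .ofNat 0, .ofNat 0, .ofNat 0, .ofNat 17615933723470771423757447095910400, .ofNat 0, .ofNat 0, .ofNat 126223034038094644893523981848887916547276800, .ofNat 7671527896178428518728379609907200, .ofNat 0⟩)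
    (by decide +kernel)
theorem L01561 : Good (Phi V4.P V4.D (-1) (-1)) ⟨8, 220, 6, 35, 2, 3, 2, 1, 4, 4⟩ :=
  leaf_sound (S := T4.ds_mm) T4.ok_mm (w := 208) (c := ⟨⟨.negSucc 1292, .ofNat 233, .negSucc 158, .ofNat 450, .ofNat 628, .ofNat 347⟩, ⟨.ofNat 709, .negSucc 143, .ofNat 118, .negSucc 261, .negSucc 355, .negSucc 197⟩, ⟨.ofNat 990, .ofNat 210, .negSucc 230, .ofNat 207, .negSucc 695, .negSucc 163⟩, ⟨.negSucc 2632, .ofNat 167, .negSucc 108, .negSucc 154, .ofNat 725, .ofNat 257⟩, ⟨.negSucc 1233, .negSucc 335, .ofNat 274, .negSucc 1479, .negSucc 393, .negSucc 472⟩, .ofNat 12910, .ofNat 22251, .ofNat 0, .ofNat 22251, .ofNat 39533, .ofNat 0, .ofNat 106, .negSucc 849, .negSucc 697, .ofNat 0, .ofNat 488, .ofNat 396, .ofNat 0, .ofNat 0, .ofNat 985, .ofNat 3450, .ofNat 0, .ofNat 0, .ofNat 0, .ofNat 0, .ofNat 0, .ofNat 519696392719628632366309063643007182438400,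 .ofNat 54155562196012480428033599078400, .ofNat 0, .ofNat 0, .ofNat 0, .ofNat 33517526336473605724288371916800, .ofNat 0, .ofNat 0, .ofNat 0, .ofNat 23144385036196991466962996428800, .ofNat 0⟩)
    (by decide +kernel)
theorem L01562 : Good (Phi V4.P V4.D (-1) (-1)) ⟨8, 220, 6, 35, 2, 3, 1, 0, 4, 5⟩ :=
  leaf_sound (S := T4.ds_mm) T4.ok_mm (w := 208) (c := ⟨⟨.negSucc 1326, .negSucc 134, .ofNat 161, .ofNat 335, .ofNat 829, .ofNat 192⟩, ⟨.ofNat 728, .ofNat 66, .negSucc 64, .negSucc 196, .negSucc 469, .negSucc 108⟩, ⟨.ofNat 1280, .negSucc 74, .ofNat 82, .ofNat 303, .negSucc 1174, .negSucc 107⟩, ⟨.negSucc 2723, .negSucc 140, .ofNat 144, .negSucc 390, .ofNat 919, .ofNat 157⟩, ⟨.negSucc 1297, .ofNat 106, .negSucc 140, .negSucc 1592, .negSucc 590, .negSucc 237⟩, .ofNat 14627, .ofNat 25292, .ofNat 0, .ofNat 25292, .ofNat 44917, .ofNat 0, .ofNat 95, .negSucc 715,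 .negSucc 449, .ofNat 0, .ofNat 412, .ofNat 256, .ofNat 0, .ofNat 0, .ofNat 897, .ofNat 1505, .ofNat 0, .ofNat 0, .ofNat 0, .ofNat 0, .ofNat 187232727880745056635606374290311610368000, .ofNat 869926917287417922031725974403033543475200, .ofNat 6262835654434773713758558617600, .ofNat 0, .ofNat 0, .ofNat 2770943428936422614128051781052162637824000, .ofNat 2651297251891597381945471795200, .ofNat 0, .ofNat 0, .ofNat 4611093641284228561354455593630580709785600, .ofNat 151819310449504728851152896000, .ofNat 0⟩)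
    (by decide +kernel)
theorem L01563 : Good (Phi V4.P V4.D (-1) (-1)) ⟨8, 221, 6, 35, 2, 3, 1, 0, 3, 2⟩ :=
  out_sound (S := T4.ds_mm) T4.ok_mm (w := 88) (j := 3) (by decide +kernel)
theorem L01564 : Good (Phi V4.P V4.D (-1) (-1)) ⟨7, 111, 5, 17, 2, 3, 1, 0, 3, 2⟩ :=
  out_sound (S := T4.ds_mm) T4.ok_mm (w := 80) (j := 3) (by decide +kernel)
theorem L01565 : Good (Phi V4.P V4.D (-1) (-1)) ⟨6, 54, 4, 9, 2, 3, 1, 0, 3, 2⟩ :=
  out_sound (S := T4.ds_mm) T4.ok_mm (w := 72) (j := 3) (by decide +kernel)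
theorem L01566 : Good (Phi V4.P V4.D (-1) (-1)) ⟨9, 440, 7, 72, 2, 3, 2, 0, 3, 2⟩ :=
  out_sound (S := T4.ds_mm) T4.ok_mm (w := 96) (j := 3) (by decide +kernel)
theorem L01567 : Good (Phi V4.P V4.D (-1) (-1)) ⟨9, 441, 7, 72, 2, 3, 2, 0, 3, 2⟩ :=
  leaf_sound (S := T4.ds_mm) T4.ok_mm (w := 216) (c := ⟨⟨.negSucc 1643, .ofNat 140, .negSucc 132, .ofNat 431, .ofNat 298, .ofNat 642⟩, ⟨.ofNat 932, .negSucc 83, .ofNat 88, .negSucc 250, .negSucc 169, .negSucc 367⟩, ⟨.ofNat 1367, .negSucc 119, .ofNat 229, .ofNat 637, .negSucc 633, .negSucc 191⟩, ⟨.negSucc 2828, .ofNat 31, .negSucc 79, .negSucc 393, .ofNat 338, .ofNat 400⟩, ⟨.negSucc 624, .negSucc 314, .ofNat 220, .negSucc 1832, .negSucc 193, .negSucc 995⟩, .ofNat 11693, .ofNat 19978, .ofNat 0, .ofNat 19978, .ofNat 35293, .ofNat 0, .ofNat 98, .negSucc 834, .negSucc 503, .ofNat 0, .ofNat 483, .ofNat 288, .ofNat 0,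 .ofNat 0, .ofNat 934, .ofNat 1356, .ofNat 0, .ofNat 0, .ofNat 0, .ofNat 0, .ofNat 0, .ofNat 0, .ofNat 0, .ofNat 0, .ofNat 0, .ofNat 0, .ofNat 0, .ofNat 0, .ofNat 0, .ofNat 48757890718016283775738707607308539107737600, .ofNat 0, .ofNat 0⟩)
    (by decide +kernel)
theorem L01568 : Good (Phi V4.P V4.D (-1) (-1)) ⟨8, 220, 7, 72, 2, 3, 2, 1, 3, 2⟩ :=
  leaf_sound (S := T4.ds_mm) T4.ok_mm (w := 208) (c := ⟨⟨.negSucc 1348, .ofNat 37, .ofNat 8, .ofNat 484, .ofNat 656, .ofNat 689⟩, ⟨.ofNat 768, .negSucc 28, .ofNat 8, .negSucc 280, .negSucc 374, .negSucc 394⟩, ⟨.ofNat 680, .ofNat 375, .negSucc 314, .ofNat 280, .negSucc 749, .negSucc 354⟩, ⟨.negSucc 2439, .negSucc 296, .ofNat 206, .negSucc 164, .ofNat 753, .ofNat 536⟩, ⟨.negSucc 718, .negSucc 622, .ofNat 361, .negSucc 1572, .negSucc 411, .negSucc 882⟩, .ofNat 5254, .ofNat 8700, .ofNat 0, .ofNat 8700, .ofNat 15529,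 .ofNat 0, .ofNat 138, .negSucc 842, .negSucc 674, .ofNat 0, .ofNat 492, .ofNat 386, .ofNat 0, .ofNat 0, .ofNat 980, .ofNat 1813, .ofNat 0, .ofNat 0, .ofNat 64663332364389674874883276800, .ofNat 0, .ofNat 0, .ofNat 0, .ofNat 0, .ofNat 0, .ofNat 0, .ofNat 0, .ofNat 8514164490019166828759718297600, .ofNat 0, .ofNat 0, .ofNat 254024126017758411937133010130468601856000, .ofNat 2536228310028867317520138240000, .ofNat 0⟩)
    (by decide +kernel)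
theorem L01569 : Good (Phi V4.P V4.D (-1) (-1)) ⟨8, 220, 7, 73, 2, 3, 1, 0, 3, 2⟩ :=
  out_sound (S := T4.ds_mm) T4.ok_mm (w := 88) (j := 3) (by decide +kernel)
theorem L01570 : Good (Phi V4.P V4.D (-1) (-1)) ⟨9, 442, 7, 72, 2, 3, 2, 0, 4, 4⟩ :=
  leaf_sound (S := T4.ds_mm) T4.ok_mm (w := 216) (c := ⟨⟨.negSucc 1584, .negSucc 24, .ofNat 41, .ofNat 427, .ofNat 276, .ofNat 354⟩, ⟨.ofNat 895, .ofNat 13, .negSucc 10, .negSucc 248, .negSucc 156, .negSucc 202⟩, ⟨.ofNat 1688, .negSucc 8, .negSucc 333, .ofNat 858, .negSucc 793, .negSucc 218⟩, ⟨.negSucc 3191, .negSucc 180, .ofNat 478, .negSucc 557, .ofNat 428, .ofNat 280⟩, ⟨.negSucc 1424, .negSucc 251, .ofNat 743, .negSucc 2100, .ofNat 25, .negSucc 440⟩, .ofNat 5630, .ofNat 9326, .ofNat 0, .ofNat 9326, .ofNat 16563, .ofNat 0, .ofNat 134, .negSucc 858, .negSucc 487, .ofNat 0, .ofNat 504, .ofNat 281, .ofNat 0, .ofNat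 0, .ofNat 947, .ofNat 1943, .ofNat 0, .ofNat 0, .ofNat 0, .ofNat 0, .ofNat 0, .ofNat 0, .ofNat 0, .ofNat 0, .ofNat 0, .ofNat 0, .ofNat 0, .ofNat 0, .ofNat 0, .ofNat 153749782855689439760266158509406354092851200, .ofNat 0, .ofNat 0⟩)
    (by decide +kernel)
theorem L01571 : Good (Phi V4.P V4.D (-1) (-1)) ⟨9, 443, 7, 72, 2, 3, 2, 0, 4, 4⟩ :=
  out_sound (S := T4.ds_mm) T4.ok_mm (w := 96) (j := 3) (by decide +kernel)
theorem L01572 : Good (Phi V4.P V4.D (-1) (-1)) ⟨8, 221, 7, 72, 2, 3, 2, 1, 4, 4⟩ :=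
  leaf_sound (S := T4.ds_mm) T4.ok_mm (w := 216) (c := ⟨⟨.negSucc 1271, .ofNat 210, .negSucc 69, .ofNat 483, .ofNat 654, .ofNat 328⟩, ⟨.ofNat 717, .negSucc 122, .ofNat 50, .negSucc 279, .negSucc 373, .negSucc 187⟩, ⟨.ofNat 984, .ofNat 131, .negSucc 88, .ofNat 228, .negSucc 723, .negSucc 211⟩, ⟨.negSucc 2621, .ofNat 161, .negSucc 58, .negSucc 137, .ofNat 747, .ofNat 253⟩, ⟨.negSucc 1253, .negSucc 270, .ofNat 97, .negSucc 1512, .negSucc 412, .negSucc 419⟩, .ofNat 23663, .ofNat 40799, .ofNat 0, .ofNat 40799, .ofNat 71504, .ofNat 0, .ofNat 74, .negSucc 860, .negSucc 689, .ofNat 0, .ofNat 496, .ofNat 396, .ofNat 0, .ofNat 0, .ofNat 980, .ofNat 5101, .ofNat 0, .ofNat 0, .ofNat 0, .ofNat 0, .ofNat 0, .ofNat 0, .ofNat 159966462258819909359524380672000, .ofNat 0, .ofNat 0, .ofNat 0, .ofNat 85180823055237061917761391820800, .ofNat 0, .ofNat 0, .ofNat 0, .ofNat 5798320097695670788660238745600,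 .ofNat 0⟩)
    (by decide +kernel)
theorem L01573 : Good (Phi V4.P V4.D (-1) (-1)) ⟨8, 221, 7, 72, 2, 3, 1, 0, 4, 5⟩ :=
  leaf_sound (S := T4.ds_mm) T4.ok_mm (w := 208) (c := ⟨⟨.negSucc 1360, .negSucc 455, .ofNat 239, .ofNat 322, .ofNat 834, .ofNat 175⟩, ⟨.ofNat 768, .ofNat 258, .negSucc 126, .negSucc 186, .negSucc 477, .negSucc 99⟩, ⟨.ofNat 1246, .ofNat 80, .negSucc 22, .ofNat 431, .negSucc 1167, .negSucc 43⟩, ⟨.negSucc 2765, .negSucc 561, .ofNat 284, .negSucc 480, .ofNat 910, .ofNat 100⟩, ⟨.negSucc 1265, .ofNat 221, .negSucc 119, .negSucc 1689, .negSucc 602, .negSucc 285⟩, .ofNat 23307, .ofNat 40186, .ofNat 0, .ofNat 40186, .ofNat 70449, .ofNat 0, .ofNat 68, .negSucc 732, .negSucc 445, .ofNat 0, .ofNat 423, .ofNat 256, .ofNat 0, .ofNat 0, .ofNat 897, .ofNat 1140, .ofNat 299779757342133444736094809008205568409600, .ofNat 0, .ofNat 22413481269385547255434444800,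 .ofNat 0, .ofNat 0, .ofNat 120565738122484265497443129608297565388800, .ofNat 16085440678304201671099337932800, .ofNat 0, .ofNat 0, .ofNat 8096838708353354888666713754016848176742400, .ofNat 10995821291797370511118722662400, .ofNat 0, .ofNat 0, .ofNat 13409318214724649052075761583760501584691200, .ofNat 0, .ofNat 0⟩)
    (by decide +kernel)
theorem L01574 : Good (Phi V4.P V4.D (-1) (-1)) ⟨9, 442, 7, 73, 2, 3, 2, 0, 4, 4⟩ :=
  leaf_sound (S := T4.ds_mm) T4.ok_mm (w := 216) (c := ⟨⟨.negSucc 1561, .ofNat 10, .ofNat 1, .ofNat 420, .ofNat 296, .ofNat 351⟩, ⟨.ofNat 892, .negSucc 3, .ofNat 8, .negSucc 243, .negSucc 169, .negSucc 201⟩, ⟨.ofNat 1396, .ofNat 322, .negSucc 391, .ofNat 919, .negSucc 944, .negSucc 281⟩, ⟨.negSucc 2951, .negSucc 61, .ofNat 139, .negSucc 642, .ofNat 597, .ofNat 319⟩, ⟨.negSucc 1056, .negSucc 131, .ofNat 251, .negSucc 2219, .ofNat 264,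 .negSucc 362⟩, .ofNat 32403, .ofNat 55870, .ofNat 0, .ofNat 55870, .ofNat 97488, .ofNat 0, .ofNat 62, .negSucc 874, .negSucc 499, .ofNat 0, .ofNat 505, .ofNat 288, .ofNat 0, .ofNat 0, .ofNat 958, .ofNat 1940, .ofNat 0, .ofNat 0, .ofNat 160045136702028756168789196800, .ofNat 0, .ofNat 0, .ofNat 0, .ofNat 0, .ofNat 0, .ofNat 0, .ofNat 0, .ofNat 0, .ofNat 0, .ofNat 0, .ofNat 81588547496346185034508734750075299404185600, .ofNat 6190058629391841100965504614400, .ofNat 0⟩)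
    (by decide +kernel)
theorem L01575 : Good (Phi V4.P V4.D (-1) (-1)) ⟨9, 443, 7, 73, 2, 3, 2, 0, 4, 4⟩ :=
  leaf_sound (S := T4.ds_mm) T4.ok_mm (w := 216) (c := ⟨⟨.negSucc 1584, .negSucc 5, .ofNat 50, .ofNat 429, .ofNat 282, .ofNat 356⟩, ⟨.ofNat 908, .ofNat 8, .negSucc 23, .negSucc 247, .negSucc 161, .negSucc 204⟩, ⟨.ofNat 1655, .ofNat 126, .negSucc 224, .ofNat 795, .negSucc 782, .negSucc 290⟩, ⟨.negSucc 3106, .negSucc 162, .ofNat 272, .negSucc 523, .ofNat 444, .ofNat 338⟩, ⟨.negSucc 1270, .negSucc 262, .ofNat 351, .negSucc 2025, .ofNat 36, .negSucc 339⟩, .ofNat 19650, .ofNat 33581, .ofNat 0, .ofNat 33581, .ofNat 58527, .ofNat 0, .ofNat 70, .negSucc 863, .negSucc 519, .ofNat 0, .ofNat 501, .ofNat 300, .ofNat 0, .ofNat 0, .ofNat 951, .ofNat 1793, .ofNat 6303041353341868292029382610657842351308800, .ofNat 0, .ofNat 144760086552455386064171827200, .ofNat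 0, .ofNat 0, .ofNat 71515839808117015237708347441043944662630400, .ofNat 41412370411453793451640042291200, .ofNat 0, .ofNat 0, .ofNat 0, .ofNat 0, .ofNat 0, .ofNat 0, .ofNat 174246858625097758844612669949467775782092800, .ofNat 0, .ofNat 0⟩)
    (by decide +kernel)
theorem L01576 : Good (Phi V4.P V4.D (-1) (-1)) ⟨8, 221, 7, 73, 2, 3, 2, 1, 4, 4⟩ :=
  leaf_sound (S := T4.ds_mm) T4.ok_mm (w := 216) (c := ⟨⟨.negSucc 1280, .ofNat 20, .negSucc 23, .ofNat 480, .ofNat 656, .ofNat 341⟩, ⟨.ofNat 732, .negSucc 9, .ofNat 21, .negSucc 276, .negSucc 377, .negSucc 196⟩, ⟨.ofNat 899, .negSucc 14, .ofNat 10, .ofNat 275, .negSucc 745, .negSucc 153⟩, ⟨.negSucc 2601, .ofNat 20, .negSucc 27, .negSucc 186, .ofNat 756, .ofNat 235⟩, ⟨.negSucc 1186, .negSucc 15, .ofNat 28, .negSucc 1576, .negSucc 397, .negSucc 482⟩, .ofNat 17962, .ofNat 30695, .ofNat 0, .ofNat 30695, .ofNat 53595,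 .ofNat 0, .ofNat 73, .negSucc 861, .negSucc 706, .ofNat 0, .ofNat 499, .ofNat 407, .ofNat 0, .ofNat 0, .ofNat 986, .ofNat 5835, .ofNat 0, .ofNat 0, .ofNat 0, .ofNat 0, .ofNat 0, .ofNat 11326195763476714184759655808833154134835200, .ofNat 92393963779202400028227482419200, .ofNat 0, .ofNat 0, .ofNat 0, .ofNat 0, .ofNat 0, .ofNat 0, .ofNat 0, .ofNat 0, .ofNat 0⟩)
    (by decide +kernel)
theorem L01577 : Good (Phi V4.P V4.D (-1) (-1)) ⟨8, 221, 7, 73, 2, 3, 1, 0, 4, 5⟩ :=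
  leaf_sound (S := T4.ds_mm) T4.ok_mm (w := 208) (c := ⟨⟨.negSucc 1293, .ofNat 117, .negSucc 11, .ofNat 381, .ofNat 794, .ofNat 207⟩, ⟨.ofNat 738, .negSucc 64, .ofNat 14, .negSucc 220, .negSucc 456, .negSucc 118⟩, ⟨.ofNat 1262, .ofNat 82, .negSucc 58, .ofNat 389, .negSucc 1216, .negSucc 66⟩, ⟨.negSucc 2698, .ofNat 121, .negSucc 18, .negSucc 402, .ofNat 877, .ofNat 152⟩, ⟨.negSucc 1323, .negSucc 90, .ofNat 9, .negSucc 1695, .negSucc 547, .negSucc 273⟩, .ofNat 17302, .ofNat 29566, .ofNat 0, .ofNat 29566, .ofNat 51667, .ofNat 0, .ofNat 68, .negSucc 727, .negSucc 442, .ofNat 0, .ofNat 422, .ofNat 255, .ofNat 0, .ofNat 0, .ofNat 895, .ofNat 1260, .ofNat 0, .ofNat 0, .ofNat 0, .ofNat 0, .ofNat 0, .ofNat 2809772046021543682871673689002889497804800, .ofNat 10854035010171361412096458752000, .ofNat 0, .ofNat 0, .ofNat 0, .ofNat 0, .ofNat 0, .ofNat 0, .ofNat 16114907823326690638012761577140426217881600,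 .ofNat 0, .ofNat 0⟩)
    (by decide +kernel)
theorem L01578 : Good (Phi V4.P V4.D (-1) (-1)) ⟨8, 220, 6, 37, 2, 3, 1, 0, 3, 2⟩ :=
  out_sound (S := T4.ds_mm) T4.ok_mm (w := 88) (j := 3) (by decide +kernel)
theorem L01579 : Good (Phi V4.P V4.D (-1) (-1)) ⟨9, 442, 7, 74, 2, 3, 1, 0, 3, 2⟩ :=
  out_sound (S := T4.ds_mm) T4.ok_mm (w := 96) (j := 3) (by decide +kernel)
theorem L01580 : Good (Phi V4.P V4.D (-1) (-1)) ⟨10, 886, 8, 148, 2, 3, 1, 0, 3, 2⟩ :=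
  out_sound (S := T4.ds_mm) T4.ok_mm (w := 104) (j := 3) (by decide +kernel)
theorem L01581 : Good (Phi V4.P V4.D (-1) (-1)) ⟨10, 887, 8, 148, 2, 3, 1, 0, 3, 2⟩ :=
  out_sound (S := T4.ds_mm) T4.ok_mm (w := 32) (j := 4) (by decide +kernel)
theorem L01582 : Good (Phi V4.P V4.D (-1) (-1)) ⟨9, 443, 8, 149, 2, 3, 1, 0, 3, 2⟩ :=
  out_sound (S := T4.ds_mm) T4.ok_mm (w := 96) (j := 3) (by decide +kernel)
theorem L01583 : Good (Phi V4.P V4.D (-1) (-1)) ⟨8, 221, 7, 75, 2, 3, 1, 0, 3, 2⟩ :=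
  out_sound (S := T4.ds_mm) T4.ok_mm (w := 88) (j := 3) (by decide +kernel)
theorem L01584 : Good (Phi V4.P V4.D (-1) (-1)) ⟨7, 111, 5, 18, 2, 3, 1, 0, 3, 2⟩ :=
  out_sound (S := T4.ds_mm) T4.ok_mm (w := 24) (j := 4) (by decide +kernel)
theorem L01585 : Good (Phi V4.P V4.D (-1) (-1)) ⟨7, 110, 5, 19, 2, 3, 1, 0, 3, 2⟩ :=
  out_sound (S := T4.ds_mm) T4.ok_mm (w := 80) (j := 3) (by decide +kernel)
theorem L01586 : Good (Phi V4.P V4.D (-1) (-1)) ⟨7, 111, 5, 19, 2, 3, 1, 0, 3, 2⟩ :=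
  out_sound (S := T4.ds_mm) T4.ok_mm (w := 24) (j := 4) (by decide +kernel)
theorem L01587 : Good (Phi V4.P V4.D (-1) (-1)) ⟨5, 27, 3, 4, 2, 3, 2, 0, 4, 6⟩ :=
  leaf_sound (S := T4.ds_mm) T4.ok_mm (w := 192) (c := ⟨⟨.negSucc 1068, .ofNat 72, .ofNat 66, .ofNat 0, .ofNat 290, .ofNat 154⟩, ⟨.ofNat 536, .negSucc 53, .ofNat 102, .ofNat 0, .negSucc 160, .negSucc 87⟩, ⟨.ofNat 1228, .negSucc 53, .negSucc 24, .ofNat 0, .negSucc 521, .negSucc 42⟩, ⟨.negSucc 2438, .ofNat 32, .negSucc 11, .ofNat 0, .ofNat 300, .ofNat 136⟩, ⟨.negSucc 1542, .negSucc 76, .negSucc 83, .ofNat 0, .negSucc 250, .negSucc 176⟩, .ofNat 365, .ofNat 259, .ofNat 0, .ofNat 259, .ofNat 687, .ofNat 0, .ofNat 3558, .negSucc 3918, .negSucc 3011, .ofNat 0, .ofNat 3559, .ofNat 1942, .ofNat 0, .ofNat 0, .ofNat 7046, .ofNat 122496, .ofNat 0, .ofNat 0, .ofNat 0, .ofNat 0, .ofNat 0, .ofNat 4759412603009951798886191219626475520000,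 .ofNat 0, .ofNat 0, .ofNat 0, .ofNat 8760355891342844803182830596536454348800, .ofNat 0, .ofNat 0, .ofNat 0, .ofNat 10521929666602078936390593318412615680000, .ofNat 0, .ofNat 0⟩)
    (by decide +kernel)
theorem L01588 : Good (Phi V4.P V4.D (-1) (-1)) ⟨5, 27, 3, 4, 2, 3, 2, 1, 4, 6⟩ :=
  out_sound (S := T4.ds_mm) T4.ok_mm (w := 32) (j := 2) (by decide +kernel)
theorem L01589 : Good (Phi V4.P V4.D (-1) (-1)) ⟨5, 27, 3, 4, 2, 3, 1, 0, 4, 7⟩ :=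
  out_sound (S := T4.ds_mm) T4.ok_mm (w := 32) (j := 2) (by decide +kernel)
theorem L01590 : Good (Phi V4.P V4.D (-1) (-1)) ⟨4, 13, 3, 5, 2, 3, 1, 0, 2, 1⟩ :=
  out_sound (S := T4.ds_mm) T4.ok_mm (w := 56) (j := 3) (by decide +kernel)
theorem L01591 : Good (Phi V4.P V4.D (-1) (-1)) ⟨3, 6, 2, 3, 2, 3, 1, 0, 2, 1⟩ :=
  out_sound (S := T4.ds_mm) T4.ok_mm (w := 48) (j := 3) (by decide +kernel)
theorem L01592 : Good (Phi V4.P V4.D (-1) (-1)) ⟨3, 7, 1, 1, 2, 3, 1, 0, 2, 1⟩ :=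
  out_sound (S := T4.ds_mm) T4.ok_mm (w := 16) (j := 4) (by decide +kernel)
theorem L01593 : Good (Phi V4.P V4.D (-1) (-1)) ⟨2, 2, 2, 2, 2, 2, 1, 1, 3, 0⟩ :=
  out_sound (S := T4.ds_mm) T4.ok_mm (w := 40) (j := 3) (by decide +kernel)
theorem L01594 : Good (Phi V4.P V4.D (-1) (-1)) ⟨4, 12, 2, 2, 2, 2, 2, 2, 3, 0⟩ :=
  out_sound (S := T4.ds_mm) T4.ok_mm (w := 56) (j := 3) (by decide +kernel)
theorem L01595 : Good (Phi V4.P V4.D (-1) (-1)) ⟨5, 26, 2, 2, 2, 2, 2, 2, 3, 0⟩ :=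
  out_sound (S := T4.ds_mm) T4.ok_mm (w := 56) (j := 3) (by decide +kernel)
theorem L01596 : Good (Phi V4.P V4.D (-1) (-1)) ⟨6, 54, 3, 4, 3, 4, 2, 2, 4, 0⟩ :=
  leaf_sound (S := T4.ds_mm) T4.ok_mm (w := 200) (c := ⟨⟨.ofNat 761, .ofNat 419, .negSucc 206, .ofNat 307, .negSucc 456, .negSucc 1506⟩, ⟨.negSucc 430, .negSucc 220, .ofNat 119, .negSucc 168, .ofNat 245, .ofNat 818⟩, ⟨.negSucc 1077, .negSucc 353, .ofNat 124, .negSucc 223, .ofNat 249, .ofNat 1370⟩, ⟨.ofNat 563, .ofNat 564, .negSucc 389, .ofNat 316, .negSucc 706, .negSucc 2065⟩, ⟨.negSucc 1137, .negSucc 153, .ofNat 89, .negSucc 284, .negSucc 13, .ofNat 433⟩, .ofNat 1675, .ofNat 2526, .ofNat 0, .ofNat 2526, .ofNat 4902, .ofNat 0, .ofNat 139, .negSucc 404, .negSucc 1347, .ofNat 0, .ofNat 239, .ofNat 727, .ofNat 0, .ofNat 0, .ofNat 1286, .ofNat 1540, .ofNat 0, .ofNat 0, .ofNat 0, .ofNat 0, .ofNat 0, .ofNat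 0, .ofNat 0, .ofNat 0, .ofNat 0, .ofNat 0, .ofNat 0, .ofNat 0, .ofNat 0, .ofNat 0, .ofNat 0, .ofNat 0⟩)
    (by decide +kernel)
theorem L01597 : Good (Phi V4.P V4.D (-1) (-1)) ⟨6, 54, 3, 4, 3, 5, 2, 2, 4, 0⟩ :=
  leaf_sound (S := T4.ds_mm) T4.ok_mm (w := 200) (c := ⟨⟨.ofNat 1229, .ofNat 135, .ofNat 568, .negSucc 527, .negSucc 645, .negSucc 1625⟩, ⟨.negSucc 685, .negSucc 84, .negSucc 252, .ofNat 288, .ofNat 347, .ofNat 884⟩, ⟨.negSucc 1368, .negSucc 75, .negSucc 522, .ofNat 530, .ofNat 367, .ofNat 1349⟩, ⟨.ofNat 1150, .ofNat 159, .ofNat 714, .negSucc 730, .negSucc 1011, .negSucc 2285⟩, ⟨.negSucc 1377, .negSucc 56, .negSucc 144, .ofNat 134, .negSucc 47, .ofNat 355⟩, .ofNat 1702, .ofNat 2572, .ofNat 0, .ofNat 2572, .ofNat 4977, .ofNat 0, .ofNat 142, .negSucc 452, .negSucc 1547, .ofNat 0, .ofNat 263, .ofNat 837, .ofNat 0, .ofNat 0, .ofNat 1328, .ofNat 1265,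 .ofNat 0, .ofNat 0, .ofNat 0, .ofNat 0, .ofNat 0, .ofNat 0, .ofNat 0, .ofNat 0, .ofNat 0, .ofNat 0, .ofNat 0, .ofNat 0, .ofNat 0, .ofNat 0, .ofNat 0, .ofNat 0⟩)
    (by decide +kernel)
theorem L01598 : Good (Phi V4.P V4.D (-1) (-1)) ⟨7, 110, 4, 8, 2, 2, 2, 2, 4, 0⟩ :=
  leaf_sound (S := T4.ds_mm) T4.ok_mm (w := 200) (c := ⟨⟨.ofNat 796, .negSucc 18, .ofNat 684, .negSucc 68, .negSucc 427, .negSucc 1649⟩, ⟨.negSucc 458, .ofNat 9, .negSucc 381, .ofNat 38, .ofNat 241, .ofNat 932⟩, ⟨.negSucc 950, .ofNat 86, .negSucc 759, .ofNat 246, .ofNat 191, .ofNat 1422⟩, ⟨.ofNat 758, .ofNat 52, .ofNat 653, .negSucc 197, .negSucc 667, .negSucc 2257⟩, ⟨.negSucc 823, .ofNat 185, .negSucc 636, .negSucc 166, .negSucc 39, .ofNat 410⟩, .ofNat 4662, .ofNat 7713, .ofNat 0, .ofNat 7713, .ofNat 13898, .ofNat 0, .ofNat 41, .negSucc 220, .negSucc 758, .ofNat 0, .ofNat 128, .ofNat 428,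 .ofNat 0, .ofNat 0, .ofNat 682, .ofNat 481, .ofNat 0, .ofNat 0, .ofNat 15365934330040770426725990400, .ofNat 0, .ofNat 0, .ofNat 0, .ofNat 1466301365129409514271303270400, .ofNat 0, .ofNat 0, .ofNat 0, .ofNat 443232985297218412514535014400, .ofNat 0, .ofNat 0, .ofNat 0, .ofNat 896202713488699566679759257600, .ofNat 0⟩)
    (by decide +kernel)
theorem L01599 : Good (Phi V4.P V4.D (-1) (-1)) ⟨8, 220, 6, 36, 2, 2, 2, 2, 4, 0⟩ :=
  leaf_sound (S := T4.ds_mm) T4.ok_mm (w := 208) (c := ⟨⟨.ofNat 1173, .ofNat 498, .negSucc 365, .negSucc 314, .negSucc 439, .negSucc 1640⟩, ⟨.negSucc 670, .negSucc 283, .ofNat 212, .ofNat 179, .ofNat 250, .ofNat 935⟩, ⟨.negSucc 1482, .negSucc 326, .ofNat 204, .ofNat 445, .ofNat 202, .ofNat 1421⟩, ⟨.ofNat 991, .ofNat 707, .negSucc 462, .negSucc 529, .negSucc 686, .negSucc 2222⟩, ⟨.negSucc 1369, .negSucc 67, .ofNat 171, .negSucc 98,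 .negSucc 42, .ofNat 436⟩, .ofNat 5256, .ofNat 8705, .ofNat 0, .ofNat 8705, .ofNat 15538, .ofNat 0, .ofNat 38, .negSucc 222, .negSucc 771, .ofNat 0, .ofNat 130, .ofNat 439, .ofNat 0, .ofNat 0, .ofNat 689, .ofNat 611, .ofNat 0, .ofNat 0, .ofNat 0, .ofNat 0, .ofNat 0, .ofNat 0, .ofNat 0, .ofNat 0, .ofNat 0, .ofNat 0, .ofNat 493785185263131223571772211200, .ofNat 0, .ofNat 0, .ofNat 0, .ofNat 0, .ofNat 0⟩)
    (by decide +kernel)
theorem L01600 : Good (Phi V4.P V4.D (-1) (-1)) ⟨8, 221, 6, 36, 3, 4, 2, 2, 4, 0⟩ :=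
  leaf_sound (S := T4.ds_mm) T4.ok_mm (w := 216) (c := ⟨⟨.ofNat 1306, .ofNat 477, .negSucc 385, .ofNat 582, .negSucc 299, .negSucc 1696⟩, ⟨.negSucc 748, .negSucc 270, .ofNat 218, .negSucc 334, .ofNat 172, .ofNat 974⟩, ⟨.negSucc 1557, .negSucc 381, .ofNat 294, .negSucc 427, .ofNat 97, .ofNat 1548⟩, ⟨.ofNat 1200, .ofNat 604, .negSucc 504, .ofNat 655, .negSucc 469, .negSucc 2262⟩, ⟨.negSucc 1346, .negSucc 186, .ofNat 155, .negSucc 382, .negSucc 31, .ofNat 501⟩, .ofNat 2249, .ofNat 3428, .ofNat 0, .ofNat 3428, .ofNat 6249, .ofNat 0, .ofNat 111, .negSucc 415, .negSucc 1548, .ofNat 0, .ofNat 250, .ofNat 880, .ofNat 0, .ofNat 0, .ofNat 1447, .ofNat 3288, .ofNat 0, .ofNat 0, .ofNat 0, .ofNat 0, .ofNat 0, .ofNat 0, .ofNat 0, .ofNat 0, .ofNat 0, .ofNat 0, .ofNat 907122118866686647403144439398400, .ofNat 0, .ofNat 0, .ofNat 0, .ofNat 1868376254450303171239066415923200,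 .ofNat 0⟩)
    (by decide +kernel)
theorem L01601 : Good (Phi V4.P V4.D (-1) (-1)) ⟨8, 221, 6, 36, 3, 5, 2, 2, 4, 0⟩ :=
  leaf_sound (S := T4.ds_mm) T4.ok_mm (w := 216) (c := ⟨⟨.ofNat 1859, .negSucc 50, .ofNat 216, .negSucc 801, .negSucc 478, .negSucc 1783⟩, ⟨.negSucc 1070, .ofNat 26, .negSucc 118, .ofNat 461, .ofNat 275, .ofNat 1024⟩, ⟨.negSucc 1866, .negSucc 65, .negSucc 77, .ofNat 774, .ofNat 209, .ofNat 1451⟩, ⟨.ofNat 1895, .negSucc 75, .ofNat 263, .negSucc 1075, .negSucc 762, .negSucc 2453⟩, ⟨.negSucc 1574, .ofNat 21, .negSucc 96, .ofNat 223, .negSucc 73, .ofNat 394⟩, .ofNat 5964, .ofNat 9882, .ofNat 0, .ofNat 9882, .ofNat 17483, .ofNat 0, .ofNat 70, .negSucc 473, .negSucc 1739, .ofNat 0, .ofNat 276, .ofNat 996, .ofNat 0, .ofNat 0, .ofNat 1451, .ofNat 1765, .ofNat 0, .ofNat 0, .ofNat 0, .ofNat 0, .ofNat 0, .ofNat 0, .ofNat 0, .ofNat 0, .ofNat 0, .ofNat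 0, .ofNat 2114013492720851019606606112358400, .ofNat 0, .ofNat 0, .ofNat 0, .ofNat 0, .ofNat 0⟩)
    (by decide +kernel)
theorem L01602 : Good (Phi V4.P V4.D (-1) (-1)) ⟨8, 220, 6, 37, 2, 2, 2, 2, 4, 0⟩ :=
  out_sound (S := T4.ds_mm) T4.ok_mm (w := 88) (j := 3) (by decide +kernel)
theorem L01603 : Good (Phi V4.P V4.D (-1) (-1)) ⟨9, 442, 7, 74, 2, 2, 2, 2, 4, 0⟩ :=
  out_sound (S := T4.ds_mm) T4.ok_mm (w := 96) (j := 3) (by decide +kernel)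
theorem L01604 : Good (Phi V4.P V4.D (-1) (-1)) ⟨10, 886, 8, 148, 2, 2, 2, 2, 4, 0⟩ :=
  out_sound (S := T4.ds_mm) T4.ok_mm (w := 104) (j := 3) (by decide +kernel)
theorem L01605 : Good (Phi V4.P V4.D (-1) (-1)) ⟨10, 887, 8, 148, 2, 2, 2, 2, 4, 0⟩ :=
  out_sound (S := T4.ds_mm) T4.ok_mm (w := 32) (j := 4) (by decide +kernel)
theorem L01606 : Good (Phi V4.P V4.D (-1) (-1)) ⟨9, 443, 8, 149, 2, 2, 2, 2, 4, 0⟩ :=
  out_sound (S := T4.ds_mm) T4.ok_mm (w := 96) (j := 3) (by decide +kernel)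
theorem L01607 : Good (Phi V4.P V4.D (-1) (-1)) ⟨8, 221, 7, 75, 2, 2, 2, 2, 4, 0⟩ :=
  out_sound (S := T4.ds_mm) T4.ok_mm (w := 88) (j := 3) (by decide +kernel)
theorem L01608 : Good (Phi V4.P V4.D (-1) (-1)) ⟨7, 110, 5, 19, 2, 2, 2, 2, 4, 0⟩ :=
  out_sound (S := T4.ds_mm) T4.ok_mm (w := 80) (j := 3) (by decide +kernel)
theorem L01609 : Good (Phi V4.P V4.D (-1) (-1)) ⟨7, 111, 3, 4, 2, 2, 2, 2, 4, 0⟩ :=
  out_sound (S := T4.ds_mm) T4.ok_mm (w := 24) (j := 4) (by decide +kernel)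
theorem L01610 : Good (Phi V4.P V4.D (-1) (-1)) ⟨6, 54, 4, 8, 2, 2, 2, 2, 4, 1⟩ :=
  leaf_sound (S := T4.ds_mm) T4.ok_mm (w := 192) (c := ⟨⟨.negSucc 981, .ofNat 231, .negSucc 88, .negSucc 411, .ofNat 546, .negSucc 322⟩, ⟨.ofNat 505, .negSucc 139, .ofNat 117, .ofNat 222, .negSucc 301, .ofNat 176⟩, ⟨.ofNat 512, .negSucc 194, .ofNat 62, .ofNat 247, .negSucc 552, .ofNat 315⟩, ⟨.negSucc 1788, .ofNat 322, .negSucc 146, .negSucc 773, .ofNat 602, .negSucc 491⟩, ⟨.negSucc 547, .negSucc 55, .ofNat 6, .negSucc 272, .negSucc 421, .negSucc 1⟩, .ofNat 3291, .ofNat 5430, .ofNat 0, .ofNat 5430, .ofNat 10143, .ofNat 0, .ofNat 51, .negSucc 214, .negSucc 619, .ofNat 0, .ofNat 123, .ofNat 339, .ofNat 0, .ofNat 0, .ofNat 566, .ofNat 310, .ofNat 0, .ofNat 0, .ofNat 0, .ofNat 0, .ofNat 0, .ofNat 0, .ofNat 3729401609086013407284009369600, .ofNat 0, .ofNat 0, .ofNat 0, .ofNat 0,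 .ofNat 0, .ofNat 0, .ofNat 0, .ofNat 0, .ofNat 0⟩)
    (by decide +kernel)
theorem L01611 : Good (Phi V4.P V4.D (-1) (-1)) ⟨6, 54, 4, 9, 2, 2, 2, 2, 4, 1⟩ :=
  out_sound (S := T4.ds_mm) T4.ok_mm (w := 72) (j := 3) (by decide +kernel)
theorem L01612 : Good (Phi V4.P V4.D (-1) (-1)) ⟨6, 55, 4, 8, 2, 2, 2, 2, 4, 1⟩ :=
  leaf_sound (S := T4.ds_mm) T4.ok_mm (w := 200) (c := ⟨⟨.negSucc 1834, .negSucc 1245, .ofNat 1132, .negSucc 432, .ofNat 684, .negSucc 274⟩, ⟨.ofNat 999, .ofNat 723, .negSucc 605, .ofNat 242, .negSucc 387, .ofNat 154⟩, ⟨.ofNat 1204, .ofNat 1017, .negSucc 930, .ofNat 296, .negSucc 667, .ofNat 258⟩, ⟨.negSucc 2958, .negSucc 1691, .ofNat 1542, .negSucc 825, .ofNat 801, .negSucc 430⟩, ⟨.negSucc 352, .ofNat 347, .negSucc 279, .negSucc 306, .negSucc 411, .negSucc 29⟩, .ofNat 4649, .ofNat 7693, .ofNat 0, .ofNat 7693, .ofNat 13865, .ofNat 0, .ofNat 80,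 .negSucc 432, .negSucc 1305, .ofNat 0, .ofNat 250, .ofNat 736, .ofNat 0, .ofNat 0, .ofNat 1183, .ofNat 555, .ofNat 0, .ofNat 0, .ofNat 115970323719363828445819699200, .ofNat 0, .ofNat 0, .ofNat 0, .ofNat 22862525011078917466830038630400, .ofNat 0, .ofNat 0, .ofNat 0, .ofNat 10804765115189042779528573747200, .ofNat 0, .ofNat 0, .ofNat 0, .ofNat 12617681177866386208327100006400, .ofNat 0⟩)
    (by decide +kernel)
theorem L01613 : Good (Phi V4.P V4.D (-1) (-1)) ⟨7, 110, 5, 18, 2, 2, 2, 2, 4, 1⟩ :=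
  leaf_sound (S := T4.ds_mm) T4.ok_mm (w := 200) (c := ⟨⟨.negSucc 794, .negSucc 114, .ofNat 174, .negSucc 240, .ofNat 670, .negSucc 354⟩, ⟨.ofNat 445, .ofNat 76, .negSucc 85, .ofNat 137, .negSucc 383, .ofNat 203⟩, ⟨.ofNat 321, .ofNat 90, .negSucc 124, .ofNat 172, .negSucc 661, .ofNat 348⟩, ⟨.negSucc 1607, .negSucc 72, .ofNat 194, .negSucc 540, .ofNat 776, .negSucc 518⟩, ⟨.negSucc 729, .ofNat 182, .negSucc 106, .negSucc 311, .negSucc 403, .ofNat 25⟩, .ofNat 5709, .ofNat 9458, .ofNat 0, .ofNat 9458, .ofNat 16783, .ofNat 0, .ofNat 69, .negSucc 432, .negSucc 1351, .ofNat 0, .ofNat 252, .ofNat 772, .ofNat 0, .ofNat 0, .ofNat 1224, .ofNat 847, .ofNat 0, .ofNat 0, .ofNat 0, .ofNat 0, .ofNat 0, .ofNat 0, .ofNat 0, .ofNat 0, .ofNat 0, .ofNat 0, .ofNat 0, .ofNat 0, .ofNat 0, .ofNat 0, .ofNat 0, .ofNat 0⟩)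
    (by decide +kernel)
theorem L01614 : Good (Phi V4.P V4.D (-1) (-1)) ⟨7, 111, 5, 18, 2, 2, 2, 2, 4, 1⟩ :=
  out_sound (S := T4.ds_mm) T4.ok_mm (w := 24) (j := 4) (by decide +kernel)
theorem L01615 : Good (Phi V4.P V4.D (-1) (-1)) ⟨7, 110, 5, 19, 2, 2, 2, 2, 4, 1⟩ :=
  out_sound (S := T4.ds_mm) T4.ok_mm (w := 80) (j := 3) (by decide +kernel)
theorem L01616 : Good (Phi V4.P V4.D (-1) (-1)) ⟨7, 111, 5, 19, 2, 2, 2, 2, 4, 1⟩ :=
  out_sound (S := T4.ds_mm) T4.ok_mm (w := 24) (j := 4) (by decide +kernel)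
theorem L01617 : Good (Phi V4.P V4.D (-1) (-1)) ⟨5, 27, 3, 5, 2, 2, 2, 2, 3, 0⟩ :=
  out_sound (S := T4.ds_mm) T4.ok_mm (w := 64) (j := 3) (by decide +kernel)
theorem L01618 : Good (Phi V4.P V4.D (-1) (-1)) ⟨3, 7, 2, 2, 2, 2, 2, 2, 3, 0⟩ :=
  out_sound (S := T4.ds_mm) T4.ok_mm (w := 16) (j := 4) (by decide +kernel)
theorem L01619 : Good (Phi V4.P V4.D (-1) (-1)) ⟨4, 12, 3, 4, 2, 2, 2, 3, 3, 0⟩ :=
  out_sound (S := T4.ds_mm) T4.ok_mm (w := 56) (j := 3) (by decide +kernel)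
theorem L01620 : Good (Phi V4.P V4.D (-1) (-1)) ⟨5, 26, 3, 4, 2, 2, 2, 3, 3, 0⟩ :=
  out_sound (S := T4.ds_mm) T4.ok_mm (w := 64) (j := 3) (by decide +kernel)
theorem L01621 : Good (Phi V4.P V4.D (-1) (-1)) ⟨6, 54, 3, 4, 3, 4, 3, 6, 4, 0⟩ :=
  leaf_sound (S := T4.ds_mm) T4.ok_mm (w := 208) (c := ⟨⟨.negSucc 87, .ofNat 424, .ofNat 166, .ofNat 138, .negSucc 44, .negSucc 661⟩, ⟨.ofNat 27, .negSucc 242, .negSucc 25, .negSucc 77, .ofNat 23, .ofNat 363⟩, ⟨.negSucc 498, .negSucc 355, .negSucc 214, .negSucc 73, .negSucc 10, .ofNat 669⟩, ⟨.negSucc 689, .ofNat 591, .ofNat 141, .ofNat 76, .negSucc 59, .negSucc 908⟩, ⟨.negSucc 1060, .negSucc 72, .negSucc 90, .negSucc 248, .ofNat 19, .ofNat 180⟩, .ofNat 1731, .ofNat 2617, .ofNat 0, .ofNat 2617, .ofNat 5040, .ofNat 0, .ofNat 288, .negSucc 834, .negSucc 3226, .ofNat 0, .ofNat 495, .ofNat 1740, .ofNat 0, .ofNat 0, .ofNat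 3076, .ofNat 3801, .ofNat 0, .ofNat 0, .ofNat 0, .ofNat 0, .ofNat 0, .ofNat 0, .ofNat 0, .ofNat 0, .ofNat 0, .ofNat 0, .ofNat 0, .ofNat 0, .ofNat 0, .ofNat 0, .ofNat 20394873441596466761037912421171200, .ofNat 0⟩)
    (by decide +kernel)
theorem L01622 : Good (Phi V4.P V4.D (-1) (-1)) ⟨7, 110, 3, 4, 3, 4, 3, 6, 4, 0⟩ :=
  leaf_sound (S := T4.ds_mm) T4.ok_mm (w := 208) (c := ⟨⟨.ofNat 458, .ofNat 389, .negSucc 94, .ofNat 354, .ofNat 22, .negSucc 930⟩, ⟨.negSucc 262, .negSucc 217, .ofNat 47, .negSucc 201, .negSucc 11, .ofNat 530⟩, ⟨.negSucc 1004, .negSucc 353, .ofNat 93, .negSucc 239, .negSucc 73, .ofNat 914⟩, ⟨.ofNat 20, .ofNat 503, .negSucc 130, .ofNat 360, .ofNat 59, .negSucc 1261⟩, ⟨.negSucc 1217, .negSucc 103, .ofNat 68, .negSucc 304, .ofNat 45, .ofNat 248⟩, .ofNat 2149, .ofNat 3272, .ofNat 0, .ofNat 3272, .ofNat 6014, .ofNat 0, .ofNat 122, .negSucc 425,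 .negSucc 1821, .ofNat 0, .ofNat 256, .ofNat 1024, .ofNat 0, .ofNat 0, .ofNat 1716, .ofNat 1896, .ofNat 0, .ofNat 0, .ofNat 0, .ofNat 0, .ofNat 0, .ofNat 0, .ofNat 6294778357972868009163154155110400, .ofNat 0, .ofNat 0, .ofNat 0, .ofNat 0, .ofNat 0, .ofNat 0, .ofNat 0, .ofNat 1884412988595712139526257246208000, .ofNat 0⟩)
    (by decide +kernel)
theorem L01623 : Good (Phi V4.P V4.D (-1) (-1)) ⟨7, 111, 3, 4, 3, 4, 3, 6, 4, 0⟩ :=
  out_sound (S := T4.ds_mm) T4.ok_mm (w := 24) (j := 4) (by decide +kernel)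
theorem L01624 : Good (Phi V4.P V4.D (-1) (-1)) ⟨6, 54, 3, 4, 3, 5, 3, 6, 4, 0⟩ :=
  leaf_sound (S := T4.ds_mm) T4.ok_mm (w := 208) (c := ⟨⟨.ofNat 281, .ofNat 19, .ofNat 937, .negSucc 724, .negSucc 222, .negSucc 786⟩, ⟨.negSucc 182, .negSucc 5, .negSucc 450, .ofNat 394, .ofNat 121, .ofNat 425⟩, ⟨.negSucc 737, .ofNat 21, .negSucc 839, .ofNat 668, .ofNat 144, .ofNat 675⟩, ⟨.negSucc 256, .ofNat 61, .ofNat 1163, .negSucc 1074, .negSucc 340, .negSucc 1144⟩, ⟨.negSucc 1293, .ofNat 63, .negSucc 337, .ofNat 55, .ofNat 0, .ofNat 105⟩, .ofNat 1720, .ofNat 2599, .ofNat 0, .ofNat 2599, .ofNat 5014, .ofNat 0, .ofNat 147, .negSucc 454, .negSucc 1795, .ofNat 0, .ofNat 266, .ofNat 967, .ofNat 0, .ofNat 0, .ofNat 1557, .ofNat 1492, .ofNat 0, .ofNat 0, .ofNat 0, .ofNat 0, .ofNat 0, .ofNat 0, .ofNat 0, .ofNat 0, .ofNat 0, .ofNat 0, .ofNat 0, .ofNat 0, .ofNat 0, .ofNat 0,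 .ofNat 7038068621146594093165622958489600, .ofNat 0⟩)
    (by decide +kernel)
theorem L01625 : Good (Phi V4.P V4.D (-1) (-1)) ⟨7, 110, 3, 4, 3, 5, 3, 6, 4, 0⟩ :=
  leaf_sound (S := T4.ds_mm) T4.ok_mm (w := 208) (c := ⟨⟨.ofNat 674, .ofNat 438, .ofNat 170, .negSucc 965, .negSucc 188, .negSucc 659⟩, ⟨.negSucc 395, .negSucc 242, .negSucc 87, .ofNat 550, .ofNat 107, .ofNat 376⟩, ⟨.negSucc 1082, .negSucc 356, .negSucc 144, .ofNat 907, .ofNat 108, .ofNat 593⟩, ⟨.ofNat 234, .ofNat 588, .ofNat 214, .negSucc 1390, .negSucc 262, .negSucc 943⟩, ⟨.negSucc 1403, .negSucc 77, .negSucc 54, .ofNat 110, .ofNat 39, .ofNat 86⟩, .ofNat 2152, .ofNat 3277, .ofNat 0, .ofNat 3277, .ofNat 6022, .ofNat 0, .ofNat 125, .negSucc 463, .negSucc 2066, .ofNat 0, .ofNat 275, .ofNat 1161, .ofNat 0, .ofNat 0, .ofNat 1773, .ofNat 1351, .ofNat 0, .ofNat 0, .ofNat 0, .ofNat 0, .ofNat 0, .ofNat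 0, .ofNat 5940356060305280526225205572403200, .ofNat 0, .ofNat 0, .ofNat 0, .ofNat 0, .ofNat 0, .ofNat 0, .ofNat 0, .ofNat 0, .ofNat 0⟩)
    (by decide +kernel)
theorem L01626 : Good (Phi V4.P V4.D (-1) (-1)) ⟨7, 111, 3, 4, 3, 5, 3, 6, 4, 0⟩ :=
  out_sound (S := T4.ds_mm) T4.ok_mm (w := 24) (j := 4) (by decide +kernel)

end Crest.Agent.R097C4.N4mm
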