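import Crest.Agent.R097.T4

/-!
# Row 97, box cover in dimension n = 4 (generated)
-/

set_option autoImplicit false
set_option Elab.async false
set_option maxHeartbeats 0
set_option maxRecDepth 100000

open Crest.Agent.R097 Crest.Agent.R097.KA


namespace Crest.Agent.R097C4.N4mm

theorem L01627 : Good (Phi V4.P V4.D (-1) (-1)) ⟨6, 54, 3, 4, 3, 4, 3, 6, 4, 1⟩ :=
  leaf_sound (S := T4.ds_mm) T4.ok_mm (w := 208) (c := ⟨⟨.negSucc 865, .ofNat 99, .ofNat 394, .ofNat 127, .ofNat 514, .ofNat 82⟩, ⟨.ofNat 446, .negSucc 64, .negSucc 126, .negSucc 73, .negSucc 279, .negSucc 41⟩, ⟨.ofNat 280, .negSucc 104, .negSucc 308, .negSucc 99, .negSucc 493, .negSucc 18⟩, ⟨.negSucc 1760, .ofNat 131, .ofNat 506, .ofNat 29, .ofNat 738, .ofNat 119⟩, ⟨.negSucc 838, .negSucc 17, .negSucc 91, .negSucc 300, .negSucc 81, .negSucc 16⟩, .ofNat 3186, .ofNat 5260, .ofNat 0, .ofNat 5260,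 .ofNat 9875, .ofNat 0, .ofNat 215, .negSucc 822, .negSucc 2556, .ofNat 0, .ofNat 472, .ofNat 1386, .ofNat 0, .ofNat 0, .ofNat 2473, .ofNat 840, .ofNat 0, .ofNat 0, .ofNat 0, .ofNat 0, .ofNat 0, .ofNat 0, .ofNat 99604187628355069488037162804838400, .ofNat 0, .ofNat 0, .ofNat 0, .ofNat 0, .ofNat 0, .ofNat 0, .ofNat 0, .ofNat 14722494251072621336805508330291200, .ofNat 0⟩)
    (by decide +kernel)
theorem L01628 : Good (Phi V4.P V4.D (-1) (-1)) ⟨7, 110, 3, 4, 3, 4, 3, 6, 4, 1⟩ :=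
  leaf_sound (S := T4.ds_mm) T4.ok_mm (w := 208) (c := ⟨⟨.negSucc 775, .ofNat 285, .ofNat 1, .ofNat 370, .ofNat 707, .ofNat 69⟩, ⟨.ofNat 431, .negSucc 152, .ofNat 5, .negSucc 211, .negSucc 401, .negSucc 39⟩, ⟨.ofNat 169, .negSucc 249, .ofNat 16, .negSucc 291, .negSucc 659, .ofNat 5⟩, ⟨.negSucc 1657, .ofNat 382, .negSucc 10, .ofNat 355, .ofNat 1017, .ofNat 101⟩, ⟨.negSucc 883, .negSucc 51, .negSucc 0, .negSucc 356, .negSucc 82, .negSucc 6⟩, .ofNat 2129, .ofNat 3241, .ofNat 0, .ofNat 3241, .ofNat 5966, .ofNat 0, .ofNat 118, .negSucc 413, .negSucc 1439, .ofNat 0, .ofNat 248, .ofNat 807, .ofNat 0, .ofNat 0, .ofNat 1356, .ofNat 1972, .ofNat 0, .ofNat 0, .ofNat 0, .ofNat 0, .ofNat 0, .ofNat 0, .ofNat 6782289664412395473930689288601600, .ofNat 0, .ofNat 0, .ofNat 0, .ofNat 0, .ofNat 0, .ofNat 0, .ofNat 0, .ofNat 1180952564110830779607333155635200, .ofNat 0⟩)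
    (by decide +kernel)
theorem L01629 : Good (Phi V4.P V4.D (-1) (-1)) ⟨7, 111, 3, 4, 3, 4, 3, 6, 4, 1⟩ :=
  out_sound (S := T4.ds_mm) T4.ok_mm (w := 24) (j := 4) (by decide +kernel)
theorem L01630 : Good (Phi V4.P V4.D (-1) (-1)) ⟨6, 54, 3, 4, 3, 5, 3, 6, 4, 1⟩ :=
  leaf_sound (S := T4.ds_mm) T4.ok_mm (w := 208) (c := ⟨⟨.negSucc 1168, .ofNat 292, .ofNat 421, .negSucc 371, .ofNat 710, .ofNat 584⟩, ⟨.ofNat 604, .negSucc 166, .negSucc 128, .ofNat 199, .negSucc 383, .negSucc 317⟩, ⟨.ofNat 499, .negSucc 248, .negSucc 300, .ofNat 320, .negSucc 601, .negSucc 422⟩, ⟨.negSucc 2313, .ofNat 454, .ofNat 406, .negSucc 642, .ofNat 997, .ofNat 783⟩, ⟨.negSucc 1010, .ofNat 33, .negSucc 316, .negSucc 140, .negSucc 159, .negSucc 198⟩, .ofNat 1681, .ofNat 2537, .ofNat 0, .ofNat 2537, .ofNat 4924, .ofNat 0, .ofNat 145, .negSucc 450, .negSucc 1551, .ofNat 0, .ofNat 262,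 .ofNat 831, .ofNat 0, .ofNat 0, .ofNat 1335, .ofNat 674, .ofNat 0, .ofNat 0, .ofNat 0, .ofNat 0, .ofNat 0, .ofNat 0, .ofNat 0, .ofNat 0, .ofNat 0, .ofNat 0, .ofNat 0, .ofNat 0, .ofNat 0, .ofNat 0, .ofNat 6128459331074576968314352199270400, .ofNat 0⟩)
    (by decide +kernel)
theorem L01631 : Good (Phi V4.P V4.D (-1) (-1)) ⟨7, 110, 3, 4, 3, 5, 3, 6, 4, 1⟩ :=
  leaf_sound (S := T4.ds_mm) T4.ok_mm (w := 208) (c := ⟨⟨.negSucc 732, .ofNat 534, .negSucc 189, .negSucc 375, .ofNat 936, .ofNat 603⟩, ⟨.ofNat 406, .negSucc 295, .ofNat 115, .ofNat 214, .negSucc 532, .negSucc 342⟩, ⟨.ofNat 122, .negSucc 423, .ofNat 136, .ofNat 380, .negSucc 785, .negSucc 423⟩, ⟨.negSucc 1731, .ofNat 721, .negSucc 293, .negSucc 652, .ofNat 1334, .ofNat 812⟩, ⟨.negSucc 1133, .negSucc 97, .ofNat 5, .negSucc 151, .negSucc 131, .negSucc 167⟩, .ofNat 2145, .ofNat 3266, .ofNat 0, .ofNat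 3266, .ofNat 6005, .ofNat 0, .ofNat 121, .negSucc 461, .negSucc 1799, .ofNat 0, .ofNat 274, .ofNat 1010, .ofNat 0, .ofNat 0, .ofNat 1518, .ofNat 1188, .ofNat 0, .ofNat 0, .ofNat 0, .ofNat 0, .ofNat 0, .ofNat 0, .ofNat 5846791317742570898299588234444800, .ofNat 0, .ofNat 0, .ofNat 0, .ofNat 0, .ofNat 0, .ofNat 0, .ofNat 0, .ofNat 1199783417098473842281783964467200, .ofNat 0⟩)
    (by decide +kernel)
theorem L01632 : Good (Phi V4.P V4.D (-1) (-1)) ⟨7, 111, 3, 4, 3, 5, 3, 6, 4, 1⟩ :=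
  out_sound (S := T4.ds_mm) T4.ok_mm (w := 24) (j := 4) (by decide +kernel)
theorem L01633 : Good (Phi V4.P V4.D (-1) (-1)) ⟨7, 108, 5, 16, 2, 2, 3, 7, 3, 0⟩ :=
  leaf_sound (S := T4.ds_mm) T4.ok_mm (w := 200) (c := ⟨⟨.negSucc 643, .negSucc 376, .ofNat 745, .negSucc 399, .ofNat 351, .ofNat 992⟩, ⟨.ofNat 327, .ofNat 188, .negSucc 371, .ofNat 206, .negSucc 185, .negSucc 526⟩, ⟨.negSucc 56, .ofNat 319, .negSucc 641, .ofNat 429, .negSucc 321, .negSucc 716⟩, ⟨.negSucc 1500, .negSucc 576, .ofNat 1116, .negSucc 854, .ofNat 576, .ofNat 1518⟩, ⟨.negSucc 981, .ofNat 5, .negSucc 6, .negSucc 458, .ofNat 73, .negSucc 3⟩, .ofNat 2825, .ofNat 4658, .ofNat 0, .ofNat 4658, .ofNat 8896, .ofNat 0, .ofNat 126, .negSucc 441, .negSucc 1473, .ofNat 0, .ofNat 252, .ofNat 783, .ofNat 0, .ofNat 0, .ofNat 1364, .ofNat 640, .ofNat 0, .ofNat 0, .ofNat 0, .ofNat 0, .ofNat 0, .ofNat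 0, .ofNat 0, .ofNat 0, .ofNat 0, .ofNat 0, .ofNat 0, .ofNat 0, .ofNat 0, .ofNat 0, .ofNat 0, .ofNat 0⟩)
    (by decide +kernel)
theorem L01634 : Good (Phi V4.P V4.D (-1) (-1)) ⟨7, 109, 5, 16, 2, 2, 3, 7, 3, 0⟩ :=
  leaf_sound (S := T4.ds_mm) T4.ok_mm (w := 200) (c := ⟨⟨.negSucc 689, .ofNat 695, .ofNat 4, .negSucc 395, .ofNat 308, .ofNat 1175⟩, ⟨.ofNat 343, .negSucc 397, .ofNat 26, .ofNat 210, .negSucc 166, .negSucc 639⟩, ⟨.negSucc 61, .negSucc 602, .ofNat 9, .ofNat 469, .negSucc 277, .negSucc 849⟩, ⟨.negSucc 1499, .ofNat 1061, .negSucc 84, .negSucc 820, .ofNat 511, .ofNat 1739⟩, ⟨.negSucc 855, .ofNat 21, .negSucc 136, .negSucc 400, .ofNat 76, .negSucc 90⟩, .ofNat 5820, .ofNat 10016, .ofNat 0, .ofNat 10016, .ofNat 18472, .ofNat 0, .ofNat 99, .negSucc 452, .negSucc 1521, .ofNat 0, .ofNat 257, .ofNat 829, .ofNat 0, .ofNat 0, .ofNat 1384, .ofNat 350, .ofNat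 0, .ofNat 0, .ofNat 22078920616133806643163955200, .ofNat 0, .ofNat 0, .ofNat 0, .ofNat 10024408802599115565041713152000, .ofNat 0, .ofNat 0, .ofNat 0, .ofNat 0, .ofNat 0, .ofNat 0, .ofNat 0, .ofNat 4111382154630471691434511564800, .ofNat 0⟩)
    (by decide +kernel)
theorem L01635 : Good (Phi V4.P V4.D (-1) (-1)) ⟨6, 54, 5, 17, 2, 2, 3, 7, 3, 0⟩ :=
  leaf_sound (S := T4.ds_mm) T4.ok_mm (w := 192) (c := ⟨⟨.negSucc 1286, .ofNat 1183, .negSucc 308, .negSucc 587, .ofNat 488, .ofNat 1255⟩, ⟨.ofNat 709, .negSucc 665, .ofNat 181, .ofNat 323, .negSucc 270, .negSucc 693⟩, ⟨.ofNat 467, .negSucc 1033, .ofNat 271, .ofNat 629, .negSucc 427, .negSucc 907⟩, ⟨.negSucc 2499, .ofNat 1773, .negSucc 472, .negSucc 1125, .ofNat 798, .ofNat 1889⟩, ⟨.negSucc 1014, .negSucc 28, .ofNat 42, .negSucc 427, .ofNat 108, .negSucc 24⟩, .ofNat 3799, .ofNat 6281, .ofNat 0, .ofNat 6281,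 .ofNat 11547, .ofNat 0, .ofNat 51, .negSucc 225, .negSucc 803, .ofNat 0, .ofNat 130, .ofNat 443, .ofNat 0, .ofNat 0, .ofNat 728, .ofNat 248, .ofNat 0, .ofNat 0, .ofNat 40823300023088634579124224000, .ofNat 0, .ofNat 0, .ofNat 0, .ofNat 0, .ofNat 0, .ofNat 0, .ofNat 0, .ofNat 0, .ofNat 0, .ofNat 0, .ofNat 0, .ofNat 0, .ofNat 0⟩)
    (by decide +kernel)
theorem L01636 : Good (Phi V4.P V4.D (-1) (-1)) ⟨6, 54, 4, 9, 2, 2, 3, 7, 3, 0⟩ :=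
  out_sound (S := T4.ds_mm) T4.ok_mm (w := 72) (j := 3) (by decide +kernel)
theorem L01637 : Good (Phi V4.P V4.D (-1) (-1)) ⟨6, 55, 5, 16, 2, 2, 3, 7, 3, 0⟩ :=
  out_sound (S := T4.ds_mm) T4.ok_mm (w := 72) (j := 3) (by decide +kernel)
theorem L01638 : Good (Phi V4.P V4.D (-1) (-1)) ⟨7, 110, 5, 17, 2, 2, 3, 7, 3, 0⟩ :=
  leaf_sound (S := T4.ds_mm) T4.ok_mm (w := 200) (c := ⟨⟨.negSucc 609, .negSucc 21, .ofNat 407, .negSucc 614, .ofNat 323, .ofNat 1392⟩, ⟨.ofNat 328, .ofNat 2, .negSucc 213, .ofNat 344, .negSucc 180, .negSucc 783⟩, ⟨.negSucc 162, .negSucc 0, .negSucc 322, .ofNat 682, .negSucc 298, .negSucc 1012⟩, ⟨.negSucc 1397, .ofNat 76, .ofNat 445, .negSucc 1183, .ofNat 584, .ofNat 2088⟩, ⟨.negSucc 870, .ofNat 223, .negSucc 276, .negSucc 452, .ofNat 170, .negSucc 22⟩, .ofNat 4669, .ofNat 7728, .ofNat 0, .ofNat 7728, .ofNat 13925, .ofNat 0, .ofNat 44,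 .negSucc 228, .negSucc 834, .ofNat 0, .ofNat 132, .ofNat 468, .ofNat 0, .ofNat 0, .ofNat 750, .ofNat 229, .ofNat 0, .ofNat 19733364241774822846488409953376665600, .ofNat 5752143358705076000941670400, .ofNat 0, .ofNat 0, .ofNat 0, .ofNat 2375337467737879527494674022400, .ofNat 0, .ofNat 0, .ofNat 0, .ofNat 0, .ofNat 0, .ofNat 0, .ofNat 0, .ofNat 845300282709234147738727219200, .ofNat 0⟩)
    (by decide +kernel)
theorem L01639 : Good (Phi V4.P V4.D (-1) (-1)) ⟨7, 111, 5, 17, 2, 2, 3, 7, 3, 0⟩ :=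
  out_sound (S := T4.ds_mm) T4.ok_mm (w := 80) (j := 3) (by decide +kernel)
theorem L01640 : Good (Phi V4.P V4.D (-1) (-1)) ⟨9, 440, 6, 36, 2, 2, 3, 7, 3, 0⟩ :=
  out_sound (S := T4.ds_mm) T4.ok_mm (w := 88) (j := 3) (by decide +kernel)
theorem L01641 : Good (Phi V4.P V4.D (-1) (-1)) ⟨9, 441, 6, 36, 2, 2, 3, 7, 3, 0⟩ :=
  leaf_sound (S := T4.ds_mm) T4.ok_mm (w := 216) (c := ⟨⟨.negSucc 252, .ofNat 711, .negSucc 1249, .negSucc 556, .ofNat 283, .ofNat 861⟩, ⟨.ofNat 142, .negSucc 406, .ofNat 717, .ofNat 315, .negSucc 159, .negSucc 489⟩, ⟨.negSucc 456, .negSucc 608, .ofNat 1047, .ofNat 652, .negSucc 277, .negSucc 548⟩, ⟨.negSucc 1013, .ofNat 1098, .negSucc 1970, .negSucc 1084, .ofNat 528, .ofNat 1314⟩, ⟨.negSucc 1119, .ofNat 55, .negSucc 144, .negSucc 431, .ofNat 181, .ofNat 29⟩, .ofNat 23100, .ofNat 39955, .ofNat 0, .ofNat 39955, .ofNat 70281, .ofNat 0,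 .ofNat 24, .negSucc 228, .negSucc 843, .ofNat 0, .ofNat 131, .ofNat 480, .ofNat 0, .ofNat 0, .ofNat 770, .ofNat 288, .ofNat 0, .ofNat 0, .ofNat 3484452182804709869459865600, .ofNat 0, .ofNat 0, .ofNat 0, .ofNat 0, .ofNat 0, .ofNat 0, .ofNat 0, .ofNat 0, .ofNat 0, .ofNat 0, .ofNat 41848963057724919839821591389681588633600, .ofNat 184390959144888207762731827200, .ofNat 0⟩)
    (by decide +kernel)
theorem L01642 : Good (Phi V4.P V4.D (-1) (-1)) ⟨8, 221, 6, 36, 2, 2, 3, 7, 4, 0⟩ :=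
  leaf_sound (S := T4.ds_mm) T4.ok_mm (w := 216) (c := ⟨⟨.ofNat 322, .negSucc 554, .ofNat 721, .negSucc 938, .ofNat 4, .ofNat 284⟩, ⟨.negSucc 186, .ofNat 318, .negSucc 411, .ofNat 538, .negSucc 2, .negSucc 162⟩, ⟨.negSucc 951, .ofNat 461, .negSucc 593, .ofNat 984, .negSucc 44, .negSucc 161⟩, ⟨.negSucc 133, .negSucc 705, .ofNat 954, .negSucc 1584, .ofNat 84, .ofNat 429⟩, ⟨.negSucc 1089, .ofNat 237, .negSucc 213, .negSucc 302, .ofNat 136, .ofNat 5⟩, .ofNat 15846, .ofNat 27078, .ofNat 0, .ofNat 27078, .ofNat 47418, .ofNat 0, .ofNat 48, .negSucc 465, .negSucc 1924, .ofNat 0, .ofNat 270, .ofNat 1103, .ofNat 0, .ofNat 0, .ofNat 1738, .ofNat 760, .ofNat 0, .ofNat 0, .ofNat 0, .ofNat 0, .ofNat 0, .ofNat 0, .ofNat 133804677601446141628453906022400, .ofNat 0, .ofNat 0, .ofNat 0, .ofNat 0, .ofNat 0, .ofNat 0, .ofNat 0, .ofNat 49766107397806766081419562188800,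 .ofNat 0⟩)
    (by decide +kernel)
theorem L01643 : Good (Phi V4.P V4.D (-1) (-1)) ⟨8, 221, 6, 36, 2, 2, 3, 7, 4, 1⟩ :=
  leaf_sound (S := T4.ds_mm) T4.ok_mm (w := 216) (c := ⟨⟨.negSucc 232, .ofNat 212, .ofNat 92, .ofNat 401, .ofNat 896, .ofNat 804⟩, ⟨.ofNat 133, .negSucc 124, .negSucc 52, .negSucc 230, .negSucc 512, .negSucc 460⟩, ⟨.negSucc 408, .negSucc 231, .negSucc 37, .negSucc 122, .negSucc 791, .negSucc 590⟩, ⟨.negSucc 904, .ofNat 318, .ofNat 97, .ofNat 248, .ofNat 1478, .ofNat 1178⟩, ⟨.negSucc 983, .ofNat 8, .negSucc 48, .negSucc 618, .ofNat 229, .negSucc 53⟩, .ofNat 15878, .ofNat 27131, .ofNat 0, .ofNat 27131, .ofNat 47506, .ofNat 0, .ofNat 46, .negSucc 455, .negSucc 1592, .ofNat 0, .ofNat 263, .ofNat 913, .ofNat 0, .ofNat 0, .ofNat 1431, .ofNat 814, .ofNat 0, .ofNat 0, .ofNat 0, .ofNat 0, .ofNat 0, .ofNat 0, .ofNat 128177243806484608930225638604800,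 .ofNat 0, .ofNat 0, .ofNat 2246483009554251674414653227601029287116800, .ofNat 31107247363033978903017711206400, .ofNat 0, .ofNat 0, .ofNat 0, .ofNat 0, .ofNat 0⟩)
    (by decide +kernel)
theorem L01644 : Good (Phi V4.P V4.D (-1) (-1)) ⟨8, 220, 6, 37, 2, 2, 3, 7, 3, 0⟩ :=
  out_sound (S := T4.ds_mm) T4.ok_mm (w := 88) (j := 3) (by decide +kernel)
theorem L01645 : Good (Phi V4.P V4.D (-1) (-1)) ⟨9, 442, 7, 74, 2, 2, 3, 7, 3, 0⟩ :=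
  out_sound (S := T4.ds_mm) T4.ok_mm (w := 96) (j := 3) (by decide +kernel)
theorem L01646 : Good (Phi V4.P V4.D (-1) (-1)) ⟨10, 886, 8, 148, 2, 2, 3, 7, 3, 0⟩ :=
  out_sound (S := T4.ds_mm) T4.ok_mm (w := 104) (j := 3) (by decide +kernel)
theorem L01647 : Good (Phi V4.P V4.D (-1) (-1)) ⟨10, 887, 8, 148, 2, 2, 3, 7, 3, 0⟩ :=
  out_sound (S := T4.ds_mm) T4.ok_mm (w := 32) (j := 4) (by decide +kernel)
theorem L01648 : Good (Phi V4.P V4.D (-1) (-1)) ⟨9, 443, 8, 149, 2, 2, 3, 7, 3, 0⟩ :=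
  out_sound (S := T4.ds_mm) T4.ok_mm (w := 96) (j := 3) (by decide +kernel)
theorem L01649 : Good (Phi V4.P V4.D (-1) (-1)) ⟨8, 221, 7, 75, 2, 2, 3, 7, 3, 0⟩ :=
  out_sound (S := T4.ds_mm) T4.ok_mm (w := 88) (j := 3) (by decide +kernel)
theorem L01650 : Good (Phi V4.P V4.D (-1) (-1)) ⟨7, 110, 5, 19, 2, 2, 3, 7, 3, 0⟩ :=
  out_sound (S := T4.ds_mm) T4.ok_mm (w := 80) (j := 3) (by decide +kernel)
theorem L01651 : Good (Phi V4.P V4.D (-1) (-1)) ⟨7, 111, 4, 9, 2, 2, 3, 7, 3, 0⟩ :=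
  out_sound (S := T4.ds_mm) T4.ok_mm (w := 24) (j := 4) (by decide +kernel)
theorem L01652 : Good (Phi V4.P V4.D (-1) (-1)) ⟨3, 6, 3, 5, 2, 2, 2, 3, 3, 0⟩ :=
  out_sound (S := T4.ds_mm) T4.ok_mm (w := 48) (j := 3) (by decide +kernel)
theorem L01653 : Good (Phi V4.P V4.D (-1) (-1)) ⟨3, 7, 2, 2, 2, 2, 2, 3, 3, 0⟩ :=
  out_sound (S := T4.ds_mm) T4.ok_mm (w := 16) (j := 4) (by decide +kernel)
theorem L01654 : Good (Phi V4.P V4.D (-1) (-1)) ⟨2, 2, 2, 2, 2, 2, 1, 1, 3, 1⟩ :=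
  out_sound (S := T4.ds_mm) T4.ok_mm (w := 40) (j := 3) (by decide +kernel)
theorem L01655 : Good (Phi V4.P V4.D (-1) (-1)) ⟨4, 12, 2, 2, 2, 2, 1, 1, 3, 1⟩ :=
  out_sound (S := T4.ds_mm) T4.ok_mm (w := 56) (j := 3) (by decide +kernel)
theorem L01656 : Good (Phi V4.P V4.D (-1) (-1)) ⟨5, 26, 2, 2, 2, 2, 1, 1, 3, 1⟩ :=
  out_sound (S := T4.ds_mm) T4.ok_mm (w := 56) (j := 3) (by decide +kernel)
theorem L01657 : Good (Phi V4.P V4.D (-1) (-1)) ⟨6, 54, 4, 8, 2, 2, 2, 2, 4, 2⟩ :=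
  leaf_sound (S := T4.ds_mm) T4.ok_mm (w := 192) (c := ⟨⟨.negSucc 1743, .negSucc 23, .ofNat 258, .ofNat 28, .ofNat 1075, .ofNat 412⟩, ⟨.ofNat 924, .ofNat 3, .negSucc 81, .negSucc 24, .negSucc 588, .negSucc 226⟩, ⟨.ofNat 1134, .ofNat 30, .negSucc 193, .negSucc 98, .negSucc 952, .negSucc 263⟩, ⟨.negSucc 2821, .negSucc 66, .ofNat 323, .negSucc 265, .ofNat 1364, .ofNat 486⟩, ⟨.negSucc 325, .negSucc 67, .negSucc 72, .negSucc 561, .negSucc 503, .negSucc 255⟩, .ofNat 3246, .ofNat 5359, .ofNat 0, .ofNat 5359, .ofNat 10035, .ofNat 0, .ofNat 99, .negSucc 413, .negSucc 926, .ofNat 0, .ofNat 236, .ofNat 506, .ofNat 0, .ofNat 0, .ofNat 888, .ofNat 1288, .ofNat 0, .ofNat 0, .ofNat 0, .ofNat 0, .ofNat 0, .ofNat 0, .ofNat 15503334024707534658377613312000, .ofNat 0, .ofNat 0, .ofNat 0, .ofNat 0, .ofNat 0, .ofNat 0, .ofNat 0, .ofNat 0, .ofNat 0⟩)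
    (by decide +kernel)
theorem L01658 : Good (Phi V4.P V4.D (-1) (-1)) ⟨6, 54, 5, 16, 2, 2, 3, 6, 4, 2⟩ :=
  leaf_sound (S := T4.ds_mm) T4.ok_mm (w := 200) (c := ⟨⟨.negSucc 1029, .negSucc 334, .ofNat 332, .ofNat 596, .ofNat 870, .ofNat 487⟩, ⟨.ofNat 539, .ofNat 161, .negSucc 158, .negSucc 331, .negSucc 467, .negSucc 263⟩, ⟨.ofNat 402, .ofNat 217, .negSucc 236, .negSucc 398, .negSucc 734, .negSucc 344⟩, ⟨.negSucc 1997, .negSucc 484, .ofNat 448, .ofNat 485, .ofNat 1308, .ofNat 681⟩, ⟨.negSucc 819, .ofNat 42, .negSucc 53, .negSucc 787, .negSucc 40, .negSucc 115⟩, .ofNat 1657, .ofNat 2499, .ofNat 0, .ofNat 2499, .ofNat 4869, .ofNat 0, .ofNat 276, .negSucc 817, .negSucc 2016, .ofNat 0, .ofNat 478, .ofNat 1075, .ofNat 0, .ofNat 0, .ofNat 1917, .ofNat 3124, .ofNat 0, .ofNat 0, .ofNat 0, .ofNat 0, .ofNat 0, .ofNat 0, .ofNat 0, .ofNat 0, .ofNat 0, .ofNat 820306471237895896867834804944293068800,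 .ofNat 398851595687638083287251943424000, .ofNat 0, .ofNat 0, .ofNat 0, .ofNat 263321819646892324580180046643200, .ofNat 0⟩)
    (by decide +kernel)
theorem L01659 : Good (Phi V4.P V4.D (-1) (-1)) ⟨6, 54, 5, 16, 2, 2, 3, 7, 4, 2⟩ :=
  leaf_sound (S := T4.ds_mm) T4.ok_mm (w := 200) (c := ⟨⟨.negSucc 433, .ofNat 348, .ofNat 122, .ofNat 725, .ofNat 1028, .ofNat 618⟩, ⟨.ofNat 228, .negSucc 224, .negSucc 50, .negSucc 400, .negSucc 547, .negSucc 331⟩, ⟨.negSucc 170, .negSucc 206, .negSucc 130, .negSucc 433, .negSucc 873, .negSucc 441⟩, ⟨.negSucc 1117, .ofNat 445, .ofNat 184, .ofNat 704, .ofNat 1678, .ofNat 909⟩, ⟨.negSucc 895, .negSucc 90, .ofNat 25, .negSucc 753, .ofNat 204, .negSucc 64⟩, .ofNat 5048, .ofNat 8728, .ofNat 0, .ofNat 8728, .ofNat 16361, .ofNat 0, .ofNat 205, .negSucc 868, .negSucc 2183, .ofNat 0, .ofNat 489, .ofNat 1169, .ofNat 0, .ofNat 0,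 .ofNat 2025, .ofNat 1083, .ofNat 0, .ofNat 109832827884057725712467558181057331200, .ofNat 0, .ofNat 0, .ofNat 0, .ofNat 3157800162192964818922961870815179571200, .ofNat 749563541591870172635606915481600, .ofNat 0, .ofNat 0, .ofNat 5096402498062196348103372728021129625600, .ofNat 446537218283853015058279405977600, .ofNat 0, .ofNat 0, .ofNat 0, .ofNat 0, .ofNat 0⟩)
    (by decide +kernel)
theorem L01660 : Good (Phi V4.P V4.D (-1) (-1)) ⟨7, 108, 5, 17, 2, 2, 2, 3, 4, 2⟩ :=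
  out_sound (S := T4.ds_mm) T4.ok_mm (w := 80) (j := 3) (by decide +kernel)
theorem L01661 : Good (Phi V4.P V4.D (-1) (-1)) ⟨7, 109, 5, 17, 2, 2, 3, 6, 4, 2⟩ :=
  leaf_sound (S := T4.ds_mm) T4.ok_mm (w := 208) (c := ⟨⟨.negSucc 1043, .ofNat 389, .negSucc 110, .ofNat 624, .ofNat 850, .ofNat 453⟩, ⟨.ofNat 575, .negSucc 235, .ofNat 89, .negSucc 352, .negSucc 470, .negSucc 250⟩, ⟨.ofNat 447, .negSucc 382, .ofNat 175, .negSucc 422, .negSucc 746, .negSucc 331⟩, ⟨.negSucc 2025, .ofNat 559, .negSucc 201, .ofNat 496, .ofNat 1270, .ofNat 623⟩, ⟨.negSucc 827, .negSucc 27, .negSucc 33, .negSucc 813, .negSucc 31, .negSucc 115⟩, .ofNat 3813, .ofNat 6303, .ofNat 0, .ofNat 6303, .ofNat 11582, .ofNat 0, .ofNat 183, .negSucc 838, .negSucc 2068, .ofNat 0, .ofNat 482, .ofNat 1143, .ofNat 0, .ofNat 0, .ofNat 1963, .ofNat 2546, .ofNat 0, .ofNat 0, .ofNat 0, .ofNat 0, .ofNat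 0, .ofNat 0, .ofNat 0, .ofNat 0, .ofNat 0, .ofNat 0, .ofNat 117155808064017636878531218636800, .ofNat 0, .ofNat 0, .ofNat 0, .ofNat 0, .ofNat 0⟩)
    (by decide +kernel)
theorem L01662 : Good (Phi V4.P V4.D (-1) (-1)) ⟨7, 109, 5, 17, 2, 2, 3, 7, 4, 2⟩ :=
  leaf_sound (S := T4.ds_mm) T4.ok_mm (w := 208) (c := ⟨⟨.negSucc 311, .ofNat 257, .ofNat 37, .ofNat 994, .ofNat 1185, .ofNat 553⟩, ⟨.ofNat 178, .negSucc 169, .negSucc 1, .negSucc 556, .negSucc 652, .negSucc 306⟩, ⟨.negSucc 312, .negSucc 118, .negSucc 125, .negSucc 595, .negSucc 1011, .negSucc 383⟩, ⟨.negSucc 954, .ofNat 346, .ofNat 50, .ofNat 1059, .ofNat 1919, .ofNat 811⟩, ⟨.negSucc 905, .negSucc 42, .ofNat 26, .negSucc 808, .ofNat 224, .negSucc 50⟩, .ofNat 1863, .ofNat 2823, .ofNat 0, .ofNat 2823, .ofNat 5343, .ofNat 0, .ofNat 522, .negSucc 1711, .negSucc 4549, .ofNat 0, .ofNat 1009, .ofNat 2474,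 .ofNat 0, .ofNat 0, .ofNat 4160, .ofNat 4111, .ofNat 0, .ofNat 6934069120028683789163187155842891776000, .ofNat 0, .ofNat 0, .ofNat 0, .ofNat 0, .ofNat 0, .ofNat 0, .ofNat 0, .ofNat 882846370188850569723750703609478224281600, .ofNat 553521174409700167582226998886400, .ofNat 0, .ofNat 0, .ofNat 0, .ofNat 0, .ofNat 0⟩)
    (by decide +kernel)
theorem L01663 : Good (Phi V4.P V4.D (-1) (-1)) ⟨6, 54, 4, 8, 2, 2, 2, 2, 4, 3⟩ :=
  leaf_sound (S := T4.ds_mm) T4.ok_mm (w := 192) (c := ⟨⟨.negSucc 1535, .ofNat 495, .negSucc 388, .ofNat 337, .ofNat 1018, .ofNat 339⟩, ⟨.ofNat 810, .negSucc 285, .ofNat 272, .negSucc 193, .negSucc 555, .negSucc 183⟩, ⟨.ofNat 1026, .negSucc 347, .ofNat 262, .negSucc 306, .negSucc 947, .negSucc 242⟩, ⟨.negSucc 2617, .ofNat 746, .negSucc 659, .ofNat 38, .ofNat 1376, .ofNat 420⟩, ⟨.negSucc 537, .negSucc 11, .negSucc 63, .negSucc 873,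 .negSucc 323, .negSucc 180⟩, .ofNat 1728, .ofNat 2608, .ofNat 0, .ofNat 2608, .ofNat 5021, .ofNat 0, .ofNat 121, .negSucc 375, .negSucc 666, .ofNat 0, .ofNat 221, .ofNat 363, .ofNat 0, .ofNat 0, .ofNat 710, .ofNat 1843, .ofNat 0, .ofNat 0, .ofNat 0, .ofNat 0, .ofNat 0, .ofNat 0, .ofNat 0, .ofNat 0, .ofNat 0, .ofNat 0, .ofNat 3951025503384839372722195660800, .ofNat 0, .ofNat 0, .ofNat 0, .ofNat 8140192182266473898179559424000, .ofNat 0⟩)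
    (by decide +kernel)
theorem L01664 : Good (Phi V4.P V4.D (-1) (-1)) ⟨6, 54, 4, 8, 2, 2, 3, 6, 4, 3⟩ :=
  leaf_sound (S := T4.ds_mm) T4.ok_mm (w := 200) (c := ⟨⟨.negSucc 722, .ofNat 372, .negSucc 68, .ofNat 800, .ofNat 859, .ofNat 285⟩, ⟨.ofNat 381, .negSucc 245, .ofNat 89, .negSucc 442, .negSucc 461, .negSucc 154⟩, ⟨.ofNat 179, .negSucc 237, .negSucc 18, .negSucc 544, .negSucc 737, .negSucc 176⟩, ⟨.negSucc 1526, .ofNat 442, .negSucc 76, .ofNat 693, .ofNat 1322, .ofNat 375⟩, ⟨.negSucc 833, .negSucc 168, .ofNat 120, .negSucc 978, .ofNat 17, .negSucc 112⟩, .ofNat 1686, .ofNat 2544, .ofNat 0, .ofNat 2544, .ofNat 4932, .ofNat 0, .ofNat 261, .negSucc 789, .negSucc 1587, .ofNat 0, .ofNat 463, .ofNat 850, .ofNat 0, .ofNat 0, .ofNat 1583, .ofNat 2053, .ofNat 0, .ofNat 0, .ofNat 0, .ofNat 0, .ofNat 0, .ofNat 0, .ofNat 0, .ofNat 0, .ofNat 0, .ofNat 0, .ofNat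 0, .ofNat 0, .ofNat 0, .ofNat 0, .ofNat 0, .ofNat 0⟩)
    (by decide +kernel)
theorem L01665 : Good (Phi V4.P V4.D (-1) (-1)) ⟨6, 54, 4, 8, 2, 2, 3, 7, 4, 3⟩ :=
  leaf_sound (S := T4.ds_mm) T4.ok_mm (w := 200) (c := ⟨⟨.ofNat 61, .ofNat 198, .ofNat 200, .ofNat 1036, .ofNat 1114, .ofNat 293⟩, ⟨.negSucc 32, .negSucc 139, .negSucc 90, .negSucc 572, .negSucc 602, .negSucc 158⟩, ⟨.negSucc 501, .negSucc 161, .negSucc 174, .negSucc 689, .negSucc 937, .negSucc 192⟩, ⟨.negSucc 370, .ofNat 266, .ofNat 252, .ofNat 1114, .ofNat 1805, .ofNat 449⟩, ⟨.negSucc 912, .negSucc 20, .negSucc 12, .negSucc 859, .ofNat 202, .ofNat 4⟩, .ofNat 1708, .ofNat 2577, .ofNat 0, .ofNat 2577, .ofNat 4977, .ofNat 0, .ofNat 521, .negSucc 1534, .negSucc 3373, .ofNat 0, .ofNat 907, .ofNat 1799, .ofNat 0, .ofNat 0, .ofNat 3384, .ofNat 3016, .ofNat 0, .ofNat 160964934853649792041582670131494912000,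 .ofNat 0, .ofNat 0, .ofNat 0, .ofNat 0, .ofNat 0, .ofNat 0, .ofNat 0, .ofNat 34671695503428365410551183759660338380800, .ofNat 0, .ofNat 0, .ofNat 0, .ofNat 0, .ofNat 0, .ofNat 0⟩)
    (by decide +kernel)
theorem L01666 : Good (Phi V4.P V4.D (-1) (-1)) ⟨6, 54, 4, 9, 2, 2, 1, 1, 3, 1⟩ :=
  out_sound (S := T4.ds_mm) T4.ok_mm (w := 72) (j := 3) (by decide +kernel)
theorem L01667 : Good (Phi V4.P V4.D (-1) (-1)) ⟨7, 110, 5, 16, 2, 2, 1, 1, 4, 2⟩ :=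
  out_sound (S := T4.ds_mm) T4.ok_mm (w := 80) (j := 3) (by decide +kernel)
theorem L01668 : Good (Phi V4.P V4.D (-1) (-1)) ⟨7, 110, 6, 34, 2, 2, 1, 1, 4, 2⟩ :=
  out_sound (S := T4.ds_mm) T4.ok_mm (w := 80) (j := 3) (by decide +kernel)
theorem L01669 : Good (Phi V4.P V4.D (-1) (-1)) ⟨7, 110, 6, 35, 2, 2, 2, 2, 4, 2⟩ :=
  leaf_sound (S := T4.ds_mm) T4.ok_mm (w := 208) (c := ⟨⟨.negSucc 1624, .negSucc 136, .ofNat 117, .ofNat 65, .ofNat 1061, .ofNat 323⟩, ⟨.ofNat 904, .ofNat 70, .negSucc 48, .negSucc 39, .negSucc 599, .negSucc 182⟩, ⟨.ofNat 1051, .ofNat 53, .negSucc 53, .negSucc 124, .negSucc 966, .negSucc 211⟩, ⟨.negSucc 2684, .negSucc 210, .ofNat 161, .negSucc 246, .ofNat 1335, .ofNat 368⟩, ⟨.negSucc 416, .negSucc 12, .negSucc 18, .negSucc 610, .negSucc 471, .negSucc 213⟩, .ofNat 9220, .ofNat 15748, .ofNat 0, .ofNat 15748, .ofNat 28068, .ofNat 0, .ofNat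 58, .negSucc 412, .negSucc 942, .ofNat 0, .ofNat 237, .ofNat 533, .ofNat 0, .ofNat 0, .ofNat 910, .ofNat 1624, .ofNat 0, .ofNat 0, .ofNat 0, .ofNat 0, .ofNat 0, .ofNat 0, .ofNat 44135472856015725670762020864000, .ofNat 0, .ofNat 0, .ofNat 0, .ofNat 9380802010289090393867393433600, .ofNat 0, .ofNat 0, .ofNat 0, .ofNat 9631360115196562262699959910400, .ofNat 0⟩)
    (by decide +kernel)
theorem L01670 : Good (Phi V4.P V4.D (-1) (-1)) ⟨7, 110, 6, 35, 2, 2, 3, 6, 4, 2⟩ :=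
  leaf_sound (S := T4.ds_mm) T4.ok_mm (w := 208) (c := ⟨⟨.negSucc 968, .ofNat 185, .ofNat 90, .ofNat 820, .ofNat 1066, .ofNat 460⟩, ⟨.ofNat 539, .negSucc 113, .negSucc 43, .negSucc 466, .negSucc 600, .negSucc 258⟩, ⟨.ofNat 304, .negSucc 205, .negSucc 20, .negSucc 543, .negSucc 891, .negSucc 315⟩, ⟨.negSucc 1940, .ofNat 199, .ofNat 141, .ofNat 772, .ofNat 1573, .ofNat 633⟩, ⟨.negSucc 869, .negSucc 141, .ofNat 41, .negSucc 825, .negSucc 59, .negSucc 110⟩, .ofNat 9201, .ofNat 15715, .ofNat 0, .ofNat 15715, .ofNat 28011, .ofNat 0, .ofNat 62, .negSucc 431, .negSucc 1093, .ofNat 0, .ofNat 248, .ofNat 617, .ofNat 0, .ofNat 0, .ofNat 1018, .ofNat 1714, .ofNat 0, .ofNat 0, .ofNat 0, .ofNat 0, .ofNat 0, .ofNat 0, .ofNat 365088695726552119493191217971200, .ofNat 0, .ofNat 0, .ofNat 38293743982776752509231895706052067328000, .ofNat 92114609098651191127882019635200,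 .ofNat 0, .ofNat 0, .ofNat 0, .ofNat 89308251088515495126155604787200, .ofNat 0⟩)
    (by decide +kernel)
theorem L01671 : Good (Phi V4.P V4.D (-1) (-1)) ⟨7, 110, 6, 35, 2, 2, 3, 7, 4, 2⟩ :=
  leaf_sound (S := T4.ds_mm) T4.ok_mm (w := 208) (c := ⟨⟨.negSucc 127, .ofNat 386, .ofNat 32, .ofNat 1117, .ofNat 1283, .ofNat 570⟩, ⟨.ofNat 70, .negSucc 233, .negSucc 16, .negSucc 633, .negSucc 720, .negSucc 320⟩, ⟨.negSucc 479, .negSucc 269, .negSucc 31, .negSucc 649, .negSucc 1061, .negSucc 372⟩, ⟨.negSucc 702, .ofNat 531, .ofNat 38, .ofNat 1231, .ofNat 2065, .ofNat 821⟩, ⟨.negSucc 926, .negSucc 68, .ofNat 11, .negSucc 806, .ofNat 230, .negSucc 68⟩, .ofNat 4631, .ofNat 7665, .ofNat 0, .ofNat 7665, .ofNat 13825, .ofNat 0, .ofNat 167, .negSucc 887, .negSucc 2390, .ofNat 0, .ofNat 513, .ofNat 1339, .ofNat 0, .ofNat 0, .ofNat 2162, .ofNat 2826, .ofNat 0, .ofNat 24436596007537346249009174546764686950400,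 .ofNat 0, .ofNat 0, .ofNat 0, .ofNat 0, .ofNat 1252048103761421345735601605836800, .ofNat 0, .ofNat 0, .ofNat 973159456323788110911955237102292041728000, .ofNat 135092688421947192653647970304000, .ofNat 0, .ofNat 0, .ofNat 0, .ofNat 0, .ofNat 0⟩)
    (by decide +kernel)
theorem L01672 : Good (Phi V4.P V4.D (-1) (-1)) ⟨7, 111, 4, 8, 2, 2, 1, 1, 4, 2⟩ :=
  out_sound (S := T4.ds_mm) T4.ok_mm (w := 72) (j := 3) (by decide +kernel)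
theorem L01673 : Good (Phi V4.P V4.D (-1) (-1)) ⟨6, 55, 5, 18, 2, 2, 2, 2, 4, 2⟩ :=
  leaf_sound (S := T4.ds_mm) T4.ok_mm (w := 192) (c := ⟨⟨.negSucc 1740, .negSucc 106, .ofNat 280, .ofNat 139, .ofNat 1277, .ofNat 446⟩, ⟨.ofNat 988, .ofNat 69, .negSucc 138, .negSucc 80, .negSucc 731, .negSucc 254⟩, ⟨.ofNat 1124, .ofNat 89, .negSucc 182, .negSucc 171, .negSucc 1113, .negSucc 297⟩, ⟨.negSucc 2816, .negSucc 141, .ofNat 338, .negSucc 148, .ofNat 1607, .ofNat 508⟩, ⟨.negSucc 356, .ofNat 42, .negSucc 128, .negSucc 621, .negSucc 544, .negSucc 284⟩, .ofNat 2227, .ofNat 3394, .ofNat 0, .ofNat 3394, .ofNat 6198, .ofNat 0, .ofNat 106, .negSucc 417, .negSucc 1001, .ofNat 0, .ofNat 249, .ofNat 569, .ofNat 0, .ofNat 0, .ofNat 934, .ofNat 1032, .ofNat 0, .ofNat 0, .ofNat 0, .ofNat 0, .ofNat 0, .ofNat 0, .ofNat 0, .ofNat 0, .ofNat 0, .ofNat 0, .ofNat 0, .ofNat 0, .ofNat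 0, .ofNat 0, .ofNat 9326332258530225797892302438400, .ofNat 0⟩)
    (by decide +kernel)
theorem L01674 : Good (Phi V4.P V4.D (-1) (-1)) ⟨7, 110, 5, 19, 2, 2, 2, 2, 4, 2⟩ :=
  out_sound (S := T4.ds_mm) T4.ok_mm (w := 80) (j := 3) (by decide +kernel)
theorem L01675 : Good (Phi V4.P V4.D (-1) (-1)) ⟨7, 111, 5, 19, 2, 2, 2, 2, 4, 2⟩ :=
  out_sound (S := T4.ds_mm) T4.ok_mm (w := 24) (j := 4) (by decide +kernel)
theorem L01676 : Good (Phi V4.P V4.D (-1) (-1)) ⟨7, 110, 5, 18, 2, 2, 3, 6, 4, 2⟩ :=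
  leaf_sound (S := T4.ds_mm) T4.ok_mm (w := 208) (c := ⟨⟨.negSucc 967, .ofNat 359, .negSucc 74, .ofNat 912, .ofNat 1055, .ofNat 381⟩, ⟨.ofNat 552, .negSucc 202, .ofNat 43, .negSucc 523, .negSucc 603, .negSucc 218⟩, ⟨.ofNat 302, .negSucc 259, .ofNat 59, .negSucc 587, .negSucc 891, .negSucc 259⟩, ⟨.negSucc 1932, .ofNat 506, .negSucc 140, .ofNat 891, .ofNat 1561, .ofNat 517⟩, ⟨.negSucc 857, .negSucc 35, .negSucc 12, .negSucc 837, .negSucc 43, .negSucc 95⟩, .ofNat 14681, .ofNat 25085, .ofNat 0, .ofNat 25085, .ofNat 44011, .ofNat 0, .ofNat 45, .negSucc 428, .negSucc 1109, .ofNat 0, .ofNat 248, .ofNat 635, .ofNat 0, .ofNat 0, .ofNat 1037, .ofNat 1315, .ofNat 0, .ofNat 0, .ofNat 0, .ofNat 0, .ofNat 0, .ofNat 0, .ofNat 167360369276237203116489336422400, .ofNat 0, .ofNat 0, .ofNat 0, .ofNat 26755770839657521617429331968000, .ofNat 0, .ofNat 0, .ofNat 0, .ofNat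 22178863913869244602292738457600, .ofNat 0⟩)
    (by decide +kernel)
theorem L01677 : Good (Phi V4.P V4.D (-1) (-1)) ⟨7, 110, 5, 18, 2, 2, 4, 14, 4, 2⟩ :=
  leaf_sound (S := T4.ds_mm) T4.ok_mm (w := 208) (c := ⟨⟨.ofNat 23, .negSucc 6, .ofNat 402, .ofNat 1254, .ofNat 667, .ofNat 461⟩, ⟨.negSucc 5, .negSucc 7, .negSucc 232, .negSucc 719, .negSucc 381, .negSucc 263⟩, ⟨.negSucc 564, .negSucc 45, .negSucc 288, .negSucc 744, .negSucc 551, .negSucc 310⟩, ⟨.negSucc 482, .negSucc 40, .ofNat 568, .ofNat 1413, .ofNat 1073, .ofNat 664⟩, ⟨.negSucc 942, .negSucc 7, .negSucc 27, .negSucc 824, .ofNat 124, .negSucc 49⟩, .ofNat 5852, .ofNat 9695, .ofNat 0, .ofNat 9695, .ofNat 17174, .ofNat 0, .ofNat 139, .negSucc 888, .negSucc 2415, .ofNat 0, .ofNat 518, .ofNat 1377, .ofNat 0, .ofNat 0, .ofNat 2183, .ofNat 2757, .ofNat 0, .ofNat 6909970573555583351273476791004141977600,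 .ofNat 0, .ofNat 0, .ofNat 0, .ofNat 0, .ofNat 0, .ofNat 0, .ofNat 0, .ofNat 195842541828945097098327073218672092774400, .ofNat 0, .ofNat 0, .ofNat 0, .ofNat 0, .ofNat 0, .ofNat 0⟩)
    (by decide +kernel)
theorem L01678 : Good (Phi V4.P V4.D (-1) (-1)) ⟨7, 110, 5, 18, 2, 2, 4, 15, 4, 2⟩ :=
  leaf_sound (S := T4.ds_mm) T4.ok_mm (w := 208) (c := ⟨⟨.ofNat 583, .ofNat 262, .ofNat 165, .ofNat 1268, .ofNat 711, .ofNat 388⟩, ⟨.negSucc 326, .negSucc 160, .negSucc 104, .negSucc 727, .negSucc 406, .negSucc 221⟩, ⟨.negSucc 1055, .negSucc 194, .negSucc 179, .negSucc 769, .negSucc 599, .negSucc 242⟩, ⟨.ofNat 375, .ofNat 366, .ofNat 229, .ofNat 1502, .ofNat 1173, .ofNat 616⟩, ⟨.negSucc 906, .negSucc 11, .ofNat 1, .negSucc 706, .ofNat 182, .ofNat 57⟩, .ofNat 5795, .ofNat 9601, .ofNat 0, .ofNat 9601, .ofNat 17019, .ofNat 0, .ofNat 141, .negSucc 854, .negSucc 2429,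 .ofNat 0, .ofNat 499, .ofNat 1382, .ofNat 0, .ofNat 0, .ofNat 2276, .ofNat 1015, .ofNat 0, .ofNat 7755258643487180447847645772883637043200, .ofNat 0, .ofNat 0, .ofNat 0, .ofNat 0, .ofNat 0, .ofNat 0, .ofNat 0, .ofNat 1094030922451427726540809857853068568166400, .ofNat 0, .ofNat 0, .ofNat 0, .ofNat 0, .ofNat 0, .ofNat 0⟩)
    (by decide +kernel)
theorem L01679 : Good (Phi V4.P V4.D (-1) (-1)) ⟨7, 111, 5, 18, 2, 2, 2, 3, 4, 2⟩ :=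
  out_sound (S := T4.ds_mm) T4.ok_mm (w := 24) (j := 4) (by decide +kernel)
theorem L01680 : Good (Phi V4.P V4.D (-1) (-1)) ⟨7, 110, 5, 19, 2, 2, 2, 3, 4, 2⟩ :=
  out_sound (S := T4.ds_mm) T4.ok_mm (w := 80) (j := 3) (by decide +kernel)
theorem L01681 : Good (Phi V4.P V4.D (-1) (-1)) ⟨7, 111, 5, 19, 2, 2, 2, 3, 4, 2⟩ :=
  out_sound (S := T4.ds_mm) T4.ok_mm (w := 24) (j := 4) (by decide +kernel)
theorem L01682 : Good (Phi V4.P V4.D (-1) (-1)) ⟨6, 55, 3, 4, 2, 2, 2, 2, 4, 3⟩ :=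
  leaf_sound (S := T4.ds_mm) T4.ok_mm (w := 192) (c := ⟨⟨.negSucc 1467, .negSucc 55, .ofNat 131, .ofNat 515, .ofNat 1127, .ofNat 335⟩, ⟨.ofNat 819, .ofNat 64, .negSucc 60, .negSucc 294, .negSucc 642, .negSucc 189⟩, ⟨.ofNat 955, .ofNat 8, .negSucc 89, .negSucc 411, .negSucc 1027, .negSucc 221⟩, ⟨.negSucc 2501, .negSucc 117, .ofNat 152, .ofNat 238, .ofNat 1498, .ofNat 394⟩, ⟨.negSucc 540, .negSucc 8, .negSucc 44, .negSucc 941, .negSucc 349, .negSucc 198⟩, .ofNat 2173, .ofNat 3310, .ofNat 0, .ofNat 3310, .ofNat 6071, .ofNat 0, .ofNat 102, .negSucc 379, .negSucc 684, .ofNat 0, .ofNat 227, .ofNat 388, .ofNat 0, .ofNat 0, .ofNat 722, .ofNat 774, .ofNat 0, .ofNat 0, .ofNat 31777185246745509260741836800, .ofNat 0, .ofNat 0, .ofNat 0, .ofNat 5148762932174848952388865228800, .ofNat 0, .ofNat 0, .ofNat 0, .ofNat 565404257708942028325886361600, .ofNat 0, .ofNat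 0, .ofNat 0, .ofNat 0, .ofNat 0⟩)
    (by decide +kernel)
theorem L01683 : Good (Phi V4.P V4.D (-1) (-1)) ⟨6, 55, 3, 4, 2, 2, 3, 6, 4, 3⟩ :=
  leaf_sound (S := T4.ds_mm) T4.ok_mm (w := 200) (c := ⟨⟨.negSucc 560, .ofNat 363, .ofNat 51, .ofNat 1042, .ofNat 1005, .ofNat 212⟩, ⟨.ofNat 314, .negSucc 210, .negSucc 24, .negSucc 594, .negSucc 570, .negSucc 119⟩, ⟨.ofNat 55, .negSucc 251, .negSucc 92, .negSucc 674, .negSucc 842, .negSucc 151⟩, ⟨.negSucc 1334, .ofNat 426, .ofNat 39, .ofNat 992, .ofNat 1537, .ofNat 286⟩, ⟨.negSucc 913, .negSucc 101, .negSucc 11, .negSucc 1012, .ofNat 40, .negSucc 59⟩, .ofNat 2150, .ofNat 3273, .ofNat 0, .ofNat 3273, .ofNat 6015, .ofNat 0, .ofNat 217, .negSucc 804, .negSucc 1659, .ofNat 0, .ofNat 480, .ofNat 931, .ofNat 0, .ofNat 0, .ofNat 1630, .ofNat 1079, .ofNat 0, .ofNat 3208215042040993440866162862509260800, .ofNat 0, .ofNat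 0, .ofNat 0, .ofNat 0, .ofNat 155768933292767116427780318822400, .ofNat 0, .ofNat 0, .ofNat 0, .ofNat 0, .ofNat 0, .ofNat 0, .ofNat 0, .ofNat 0, .ofNat 0⟩)
    (by decide +kernel)
theorem L01684 : Good (Phi V4.P V4.D (-1) (-1)) ⟨6, 55, 4, 8, 2, 2, 4, 14, 4, 3⟩ :=
  leaf_sound (S := T4.ds_mm) T4.ok_mm (w := 208) (c := ⟨⟨.ofNat 165, .ofNat 204, .ofNat 267, .ofNat 1256, .ofNat 599, .ofNat 238⟩, ⟨.negSucc 88, .negSucc 131, .negSucc 158, .negSucc 711, .negSucc 335, .negSucc 132⟩, ⟨.negSucc 657, .negSucc 215, .negSucc 148, .negSucc 832, .negSucc 512, .negSucc 153⟩, ⟨.negSucc 220, .ofNat 284, .ofNat 327, .ofNat 1400, .ofNat 973, .ofNat 372⟩, ⟨.negSucc 909, .ofNat 18, .negSucc 52, .negSucc 880, .ofNat 122, .ofNat 22⟩, .ofNat 4654, .ofNat 7703, .ofNat 0, .ofNat 7703, .ofNat 13884, .ofNat 0, .ofNat 309, .negSucc 1597, .negSucc 3450, .ofNat 0, .ofNat 927, .ofNat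 1934, .ofNat 0, .ofNat 0, .ofNat 3431, .ofNat 5006, .ofNat 0, .ofNat 442702738776052027426425071128805376000, .ofNat 0, .ofNat 0, .ofNat 0, .ofNat 22353722791979432939118413633450881843200, .ofNat 27322576109101664563840604857958400, .ofNat 0, .ofNat 0, .ofNat 72982622407931622781749523573978536345600, .ofNat 7233683749430163013031442776064000, .ofNat 0, .ofNat 0, .ofNat 0, .ofNat 0, .ofNat 0⟩)
    (by decide +kernel)
theorem L01685 : Good (Phi V4.P V4.D (-1) (-1)) ⟨7, 110, 4, 9, 2, 2, 4, 14, 4, 3⟩ :=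
  leaf_sound (S := T4.ds_mm) T4.ok_mm (w := 208) (c := ⟨⟨.ofNat 353, .ofNat 208, .ofNat 93, .ofNat 1357, .ofNat 635, .ofNat 234⟩, ⟨.negSucc 195, .negSucc 131, .negSucc 56, .negSucc 777, .negSucc 362, .negSucc 133⟩, ⟨.negSucc 769, .negSucc 172, .negSucc 75, .negSucc 893, .negSucc 533, .negSucc 133⟩, ⟨.ofNat 16, .ofNat 268, .ofNat 118, .ofNat 1525, .ofNat 1023, .ofNat 357⟩, ⟨.negSucc 938, .negSucc 18, .negSucc 12, .negSucc 899, .ofNat 117, .ofNat 10⟩, .ofNat 2221, .ofNat 3384, .ofNat 0, .ofNat 3384, .ofNat 6183, .ofNat 0, .ofNat 427, .negSucc 1573, .negSucc 3565, .ofNat 0, .ofNat 944, .ofNat 2001, .ofNat 0, .ofNat 0, .ofNat 3514, .ofNat 2596, .ofNat 0, .ofNat 3604932106577380914166674590396527411200, .ofNat 0, .ofNat 0, .ofNat 0, .ofNat 0, .ofNat 0, .ofNat 0, .ofNat 0, .ofNat 1182748650071934728005457713127130503577600, .ofNat 0, .ofNat 0, .ofNat 0, .ofNat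 0, .ofNat 0, .ofNat 0⟩)
    (by decide +kernel)
theorem L01686 : Good (Phi V4.P V4.D (-1) (-1)) ⟨7, 111, 4, 9, 2, 2, 4, 14, 4, 3⟩ :=
  out_sound (S := T4.ds_mm) T4.ok_mm (w := 24) (j := 4) (by decide +kernel)
theorem L01687 : Good (Phi V4.P V4.D (-1) (-1)) ⟨6, 55, 3, 4, 2, 2, 4, 15, 4, 3⟩ :=
  leaf_sound (S := T4.ds_mm) T4.ok_mm (w := 200) (c := ⟨⟨.ofNat 906, .ofNat 390, .ofNat 219, .ofNat 1162, .ofNat 606, .ofNat 232⟩, ⟨.negSucc 505, .negSucc 250, .negSucc 136, .negSucc 661, .negSucc 343, .negSucc 130⟩, ⟨.negSucc 1216, .negSucc 343, .negSucc 190, .negSucc 843, .negSucc 531, .negSucc 137⟩, ⟨.ofNat 906, .ofNat 529, .ofNat 298, .ofNat 1385, .ofNat 1014, .ofNat 386⟩, ⟨.negSucc 853, .negSucc 8, .negSucc 2, .negSucc 643, .ofNat 177, .ofNat 62⟩, .ofNat 812, .ofNat 965, .ofNat 0, .ofNat 965, .ofNat 1950, .ofNat 0, .ofNat 3032, .negSucc 5777, .negSucc 18266,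 .ofNat 0, .ofNat 3870, .ofNat 9657, .ofNat 0, .ofNat 0, .ofNat 17558, .ofNat 54218, .ofNat 0, .ofNat 6213775139216397368539086235390024089600, .ofNat 0, .ofNat 0, .ofNat 0, .ofNat 1117371784434906499218886605261964207718400, .ofNat 0, .ofNat 0, .ofNat 0, .ofNat 2546019821971642095520448894304273196646400, .ofNat 0, .ofNat 0, .ofNat 0, .ofNat 1184353430464050054072171948086763139891200, .ofNat 0, .ofNat 0⟩)
    (by decide +kernel)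
theorem L01688 : Good (Phi V4.P V4.D (-1) (-1)) ⟨5, 27, 3, 5, 2, 2, 1, 1, 3, 1⟩ :=
  out_sound (S := T4.ds_mm) T4.ok_mm (w := 64) (j := 3) (by decide +kernel)
theorem L01689 : Good (Phi V4.P V4.D (-1) (-1)) ⟨3, 7, 2, 2, 2, 2, 1, 1, 3, 1⟩ :=
  out_sound (S := T4.ds_mm) T4.ok_mm (w := 16) (j := 4) (by decide +kernel)
theorem L01690 : Good (Phi V4.P V4.D (-1) (-1)) ⟨2, 2, 2, 3, 2, 2, 1, 1, 2, 0⟩ :=
  out_sound (S := T4.ds_mm) T4.ok_mm (w := 40) (j := 3) (by decide +kernel)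
theorem L01691 : Good (Phi V4.P V4.D (-1) (-1)) ⟨3, 6, 2, 3, 2, 2, 1, 1, 2, 0⟩ :=
  out_sound (S := T4.ds_mm) T4.ok_mm (w := 48) (j := 3) (by decide +kernel)
theorem L01692 : Good (Phi V4.P V4.D (-1) (-1)) ⟨3, 7, 2, 3, 2, 2, 1, 1, 2, 0⟩ :=
  out_sound (S := T4.ds_mm) T4.ok_mm (w := 16) (j := 4) (by decide +kernel)
theorem L01693 : Good (Phi V4.P V4.D (-1) (-1)) ⟨2, 2, 1, 1, 2, 3, 1, 1, 2, 0⟩ :=
  out_sound (S := T4.ds_mm) T4.ok_mm (w := 40) (j := 3) (by decide +kernel)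
theorem L01694 : Good (Phi V4.P V4.D (-1) (-1)) ⟨4, 12, 3, 4, 3, 6, 2, 2, 3, 0⟩ :=
  out_sound (S := T4.ds_mm) T4.ok_mm (w := 56) (j := 3) (by decide +kernel)
theorem L01695 : Good (Phi V4.P V4.D (-1) (-1)) ⟨5, 26, 3, 4, 3, 6, 2, 2, 3, 0⟩ :=
  out_sound (S := T4.ds_mm) T4.ok_mm (w := 64) (j := 3) (by decide +kernel)
theorem L01696 : Good (Phi V4.P V4.D (-1) (-1)) ⟨6, 54, 3, 4, 3, 6, 2, 2, 4, 0⟩ :=
  leaf_sound (S := T4.ds_mm) T4.ok_mm (w := 200) (c := ⟨⟨.ofNat 815, .ofNat 209, .ofNat 36, .negSucc 706, .negSucc 790, .negSucc 1700⟩, ⟨.negSucc 468, .negSucc 121, .ofNat 77, .ofNat 388, .ofNat 426, .ofNat 921⟩, ⟨.negSucc 806, .negSucc 64, .negSucc 176, .ofNat 608, .ofNat 434, .ofNat 1169⟩, ⟨.ofNat 676, .ofNat 329, .negSucc 85, .negSucc 891, .negSucc 1321, .negSucc 2517⟩, ⟨.negSucc 1061, .ofNat 27, .negSucc 190, .ofNat 343, .negSucc 217, .ofNat 138⟩, .ofNat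 1700, .ofNat 2565, .ofNat 0, .ofNat 2565, .ofNat 4958, .ofNat 0, .ofNat 73, .negSucc 257, .negSucc 706, .ofNat 0, .ofNat 147, .ofNat 381, .ofNat 0, .ofNat 0, .ofNat 546, .ofNat 732, .ofNat 0, .ofNat 0, .ofNat 0, .ofNat 0, .ofNat 0, .ofNat 0, .ofNat 0, .ofNat 0, .ofNat 0, .ofNat 0, .ofNat 209792845976767318605846439526400, .ofNat 0, .ofNat 0, .ofNat 0, .ofNat 78175006254709722861046176153600, .ofNat 0⟩)
    (by decide +kernel)
theorem L01697 : Good (Phi V4.P V4.D (-1) (-1)) ⟨6, 55, 4, 8, 3, 6, 2, 2, 4, 0⟩ :=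
  leaf_sound (S := T4.ds_mm) T4.ok_mm (w := 208) (c := ⟨⟨.ofNat 850, .negSucc 9, .ofNat 285, .negSucc 736, .negSucc 808, .negSucc 1783⟩, ⟨.negSucc 511, .ofNat 8, .negSucc 129, .ofNat 417, .ofNat 455, .ofNat 1005⟩, ⟨.negSucc 894, .ofNat 20, .negSucc 106, .ofNat 653, .ofNat 412, .ofNat 1217⟩, ⟨.ofNat 709, .ofNat 41, .ofNat 364, .negSucc 913, .negSucc 1354, .negSucc 2617⟩, ⟨.negSucc 1037, .ofNat 130, .negSucc 97, .ofNat 353, .negSucc 237, .ofNat 132⟩, .ofNat 4690, .ofNat 7762, .ofNat 0, .ofNat 7762, .ofNat 13980, .ofNat 0, .ofNat 85, .negSucc 536, .negSucc 1462, .ofNat 0, .ofNat 308, .ofNat 824, .ofNat 0, .ofNat 0, .ofNat 1107, .ofNat 1023, .ofNat 0, .ofNat 0, .ofNat 105408316556628908822300196864000, .ofNat 0, .ofNat 0, .ofNat 0, .ofNat 12320738688778702121399857289625600, .ofNat 0, .ofNat 0, .ofNat 0, .ofNat 8838258475833760073370843060633600, .ofNat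 0, .ofNat 0, .ofNat 0, .ofNat 4428031047954662915920956594585600, .ofNat 0⟩)
    (by decide +kernel)
theorem L01698 : Good (Phi V4.P V4.D (-1) (-1)) ⟨7, 110, 4, 9, 3, 6, 2, 2, 4, 0⟩ :=
  leaf_sound (S := T4.ds_mm) T4.ok_mm (w := 208) (c := ⟨⟨.ofNat 1054, .ofNat 205, .ofNat 55, .negSucc 885, .negSucc 774, .negSucc 1701⟩, ⟨.negSucc 614, .negSucc 103, .negSucc 17, .ofNat 508, .ofNat 444, .ofNat 975⟩, ⟨.negSucc 953, .negSucc 119, .negSucc 47, .ofNat 733, .ofNat 407, .ofNat 1159⟩, ⟨.ofNat 948, .ofNat 272, .ofNat 98, .negSucc 1117, .negSucc 1281, .negSucc 2486⟩, ⟨.negSucc 1123, .negSucc 40, .ofNat 31, .ofNat 373, .negSucc 203, .ofNat 125⟩, .ofNat 5803, .ofNat 9614, .ofNat 0, .ofNat 9614, .ofNat 17040, .ofNat 0, .ofNat 36, .negSucc 268, .negSucc 764, .ofNat 0, .ofNat 156, .ofNat 437, .ofNat 0, .ofNat 0, .ofNat 575, .ofNat 794, .ofNat 0, .ofNat 0, .ofNat 0,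 .ofNat 0, .ofNat 0, .ofNat 0, .ofNat 0, .ofNat 0, .ofNat 0, .ofNat 0, .ofNat 0, .ofNat 0, .ofNat 0, .ofNat 0, .ofNat 0, .ofNat 0⟩)
    (by decide +kernel)
theorem L01699 : Good (Phi V4.P V4.D (-1) (-1)) ⟨7, 111, 4, 9, 3, 6, 2, 2, 4, 0⟩ :=
  out_sound (S := T4.ds_mm) T4.ok_mm (w := 24) (j := 4) (by decide +kernel)
theorem L01700 : Good (Phi V4.P V4.D (-1) (-1)) ⟨6, 54, 3, 4, 3, 6, 2, 2, 4, 1⟩ :=
  leaf_sound (S := T4.ds_mm) T4.ok_mm (w := 200) (c := ⟨⟨.negSucc 1573, .negSucc 728, .ofNat 1337, .negSucc 670, .ofNat 546, .ofNat 38⟩, ⟨.ofNat 808, .ofNat 406, .negSucc 574, .ofNat 365, .negSucc 301, .negSucc 21⟩, ⟨.ofNat 891, .ofNat 486, .negSucc 881, .ofNat 424, .negSucc 447, .negSucc 24⟩, ⟨.negSucc 2703, .negSucc 1007, .ofNat 1808, .negSucc 972, .ofNat 505, .negSucc 81⟩, ⟨.negSucc 557, .ofNat 177, .negSucc 409, .ofNat 94, .negSucc 605, .negSucc 260⟩, .ofNat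 1756, .ofNat 2656, .ofNat 0, .ofNat 2656, .ofNat 5099, .ofNat 0, .ofNat 71, .negSucc 264, .negSucc 801, .ofNat 0, .ofNat 151, .ofNat 436, .ofNat 0, .ofNat 0, .ofNat 593, .ofNat 564, .ofNat 0, .ofNat 0, .ofNat 0, .ofNat 0, .ofNat 0, .ofNat 0, .ofNat 0, .ofNat 0, .ofNat 0, .ofNat 0, .ofNat 0, .ofNat 0, .ofNat 0, .ofNat 0, .ofNat 0, .ofNat 0⟩)
    (by decide +kernel)
theorem L01701 : Good (Phi V4.P V4.D (-1) (-1)) ⟨6, 55, 5, 16, 3, 6, 2, 2, 4, 1⟩ :=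
  out_sound (S := T4.ds_mm) T4.ok_mm (w := 72) (j := 3) (by decide +kernel)
theorem L01702 : Good (Phi V4.P V4.D (-1) (-1)) ⟨6, 55, 5, 17, 3, 6, 2, 2, 4, 1⟩ :=
  leaf_sound (S := T4.ds_mm) T4.ok_mm (w := 208) (c := ⟨⟨.negSucc 2356, .negSucc 1733, .ofNat 1094, .negSucc 700, .ofNat 601, .negSucc 8⟩, ⟨.ofNat 1293, .ofNat 987, .negSucc 578, .ofNat 395, .negSucc 340, .ofNat 4⟩, ⟨.ofNat 1437, .ofNat 1220, .negSucc 772, .ofNat 461, .negSucc 489, .negSucc 0⟩, ⟨.negSucc 3762, .negSucc 2276, .ofNat 1464, .negSucc 998, .ofNat 563, .negSucc 151⟩, ⟨.negSucc 367, .ofNat 591, .negSucc 329, .ofNat 104, .negSucc 608, .negSucc 244⟩, .ofNat 4681, .ofNat 7746, .ofNat 0, .ofNat 7746, .ofNat 13953, .ofNat 0, .ofNat 42, .negSucc 271, .negSucc 855, .ofNat 0, .ofNat 156, .ofNat 483, .ofNat 0, .ofNat 0, .ofNat 625, .ofNat 379, .ofNat 0, .ofNat 0, .ofNat 38710320884074159973387049369600,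 .ofNat 0, .ofNat 0, .ofNat 0, .ofNat 9039523946576922745569134877081600, .ofNat 0, .ofNat 0, .ofNat 0, .ofNat 5425066835819808219881513209036800, .ofNat 0, .ofNat 0, .ofNat 0, .ofNat 2805985349912599212908047918694400, .ofNat 0⟩)
    (by decide +kernel)
theorem L01703 : Good (Phi V4.P V4.D (-1) (-1)) ⟨7, 110, 4, 9, 3, 6, 2, 2, 4, 1⟩ :=
  leaf_sound (S := T4.ds_mm) T4.ok_mm (w := 208) (c := ⟨⟨.negSucc 1837, .ofNat 775, .negSucc 1495, .negSucc 814, .ofNat 694, .negSucc 29⟩, ⟨.ofNat 1029, .negSucc 410, .ofNat 872, .ofNat 467, .negSucc 398, .ofNat 17⟩, ⟨.ofNat 1070, .negSucc 520, .ofNat 960, .ofNat 533, .negSucc 554, .ofNat 13⟩, ⟨.negSucc 3066, .ofNat 1040, .negSucc 2024, .negSucc 1126, .ofNat 680, .negSucc 180⟩, ⟨.negSucc 527, .negSucc 224, .ofNat 400, .ofNat 171, .negSucc 635, .negSucc 237⟩, .ofNat 2227, .ofNat 3394, .ofNat 0, .ofNat 3394, .ofNat 6197,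 .ofNat 0, .ofNat 59, .negSucc 270, .negSucc 892, .ofNat 0, .ofNat 159, .ofNat 507, .ofNat 0, .ofNat 0, .ofNat 643, .ofNat 463, .ofNat 0, .ofNat 0, .ofNat 5769057169181608194279997440000, .ofNat 0, .ofNat 0, .ofNat 0, .ofNat 0, .ofNat 0, .ofNat 0, .ofNat 0, .ofNat 0, .ofNat 0, .ofNat 0, .ofNat 0, .ofNat 188743069028054937287610335232000, .ofNat 0⟩)
    (by decide +kernel)
theorem L01704 : Good (Phi V4.P V4.D (-1) (-1)) ⟨7, 111, 4, 9, 3, 6, 2, 2, 4, 1⟩ :=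
  out_sound (S := T4.ds_mm) T4.ok_mm (w := 24) (j := 4) (by decide +kernel)
theorem L01705 : Good (Phi V4.P V4.D (-1) (-1)) ⟨3, 7, 3, 4, 3, 6, 2, 2, 3, 0⟩ :=
  out_sound (S := T4.ds_mm) T4.ok_mm (w := 16) (j := 4) (by decide +kernel)
theorem L01706 : Good (Phi V4.P V4.D (-1) (-1)) ⟨4, 12, 3, 4, 3, 6, 2, 3, 4, 0⟩ :=
  out_sound (S := T4.ds_mm) T4.ok_mm (w := 56) (j := 3) (by decide +kernel)
theorem L01707 : Good (Phi V4.P V4.D (-1) (-1)) ⟨5, 26, 3, 4, 3, 6, 2, 3, 4, 0⟩ :=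
  out_sound (S := T4.ds_mm) T4.ok_mm (w := 64) (j := 3) (by decide +kernel)
theorem L01708 : Good (Phi V4.P V4.D (-1) (-1)) ⟨6, 54, 4, 8, 3, 6, 2, 3, 4, 0⟩ :=
  leaf_sound (S := T4.ds_mm) T4.ok_mm (w := 200) (c := ⟨⟨.negSucc 424, .negSucc 1049, .ofNat 1429, .negSucc 755, .negSucc 281, .negSucc 535⟩, ⟨.ofNat 189, .ofNat 576, .negSucc 712, .ofNat 408, .ofNat 148, .ofNat 289⟩, ⟨.negSucc 10, .ofNat 771, .negSucc 1032, .ofNat 571, .ofNat 135, .ofNat 346⟩, ⟨.negSucc 1229, .negSucc 1511, .ofNat 2080, .negSucc 1114, .negSucc 587, .negSucc 858⟩, ⟨.negSucc 1079, .ofNat 117, .negSucc 102, .ofNat 67, .negSucc 289, .negSucc 77⟩, .ofNat 1710, .ofNat 2583, .ofNat 0, .ofNat 2583, .ofNat 4993, .ofNat 0, .ofNat 77, .negSucc 256, .negSucc 812, .ofNat 0, .ofNat 147, .ofNat 435, .ofNat 0, .ofNat 0, .ofNat 637, .ofNat 322, .ofNat 0, .ofNat 0, .ofNat 9597853995900843693516521472000,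 .ofNat 0, .ofNat 0, .ofNat 0, .ofNat 0, .ofNat 0, .ofNat 0, .ofNat 0, .ofNat 0, .ofNat 0, .ofNat 0, .ofNat 0, .ofNat 545427933179233654378524259123200, .ofNat 0⟩)
    (by decide +kernel)
theorem L01709 : Good (Phi V4.P V4.D (-1) (-1)) ⟨6, 54, 4, 9, 3, 6, 2, 3, 4, 0⟩ :=
  out_sound (S := T4.ds_mm) T4.ok_mm (w := 72) (j := 3) (by decide +kernel)
theorem L01710 : Good (Phi V4.P V4.D (-1) (-1)) ⟨6, 55, 4, 8, 3, 6, 2, 3, 4, 0⟩ :=
  leaf_sound (S := T4.ds_mm) T4.ok_mm (w := 208) (c := ⟨⟨.negSucc 870, .negSucc 722, .ofNat 689, .negSucc 1017, .negSucc 344, .negSucc 323⟩, ⟨.ofNat 443, .ofNat 426, .negSucc 342, .ofNat 574, .ofNat 193, .ofNat 182⟩, ⟨.ofNat 377, .ofNat 602, .negSucc 588, .ofNat 778, .ofNat 187, .ofNat 195⟩, ⟨.negSucc 1857, .negSucc 989, .ofNat 941, .negSucc 1478, .negSucc 653, .negSucc 532⟩, ⟨.negSucc 983, .ofNat 193, .negSucc 155, .ofNat 100,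 .negSucc 234, .negSucc 77⟩, .ofNat 4714, .ofNat 7802, .ofNat 0, .ofNat 7802, .ofNat 14046, .ofNat 0, .ofNat 45, .negSucc 261, .negSucc 866, .ofNat 0, .ofNat 150, .ofNat 487, .ofNat 0, .ofNat 0, .ofNat 681, .ofNat 363, .ofNat 0, .ofNat 0, .ofNat 28476282511111034670081166540800, .ofNat 0, .ofNat 0, .ofNat 2382070440518446259864353034512996761600, .ofNat 3211917768143633847890594915942400, .ofNat 0, .ofNat 0, .ofNat 0, .ofNat 2191976251397369336686018402713600, .ofNat 0, .ofNat 0, .ofNat 773240929503892668063955768133969510400, .ofNat 1651793846789302402106288347545600, .ofNat 0⟩)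
    (by decide +kernel)
theorem L01711 : Good (Phi V4.P V4.D (-1) (-1)) ⟨7, 110, 5, 18, 3, 6, 2, 3, 4, 0⟩ :=
  leaf_sound (S := T4.ds_mm) T4.ok_mm (w := 208) (c := ⟨⟨.negSucc 102, .negSucc 75, .ofNat 210, .negSucc 1096, .negSucc 443, .negSucc 534⟩, ⟨.ofNat 42, .ofNat 58, .negSucc 100, .ofNat 629, .ofNat 254, .ofNat 306⟩, ⟨.negSucc 247, .ofNat 51, .negSucc 150, .ofNat 833, .ofNat 251, .ofNat 347⟩, ⟨.negSucc 804, .negSucc 117, .ofNat 296, .negSucc 1566, .negSucc 798, .negSucc 840⟩, ⟨.negSucc 1141, .ofNat 0, .negSucc 25, .ofNat 144, .negSucc 229, .negSucc 63⟩, .ofNat 5735, .ofNat 9501, .ofNat 0, .ofNat 9501, .ofNat 16853, .ofNat 0, .ofNat 38, .negSucc 264, .negSucc 905, .ofNat 0, .ofNat 153, .ofNat 516, .ofNat 0, .ofNat 0, .ofNat 699, .ofNat 286, .ofNat 0, .ofNat 0, .ofNat 0, .ofNat 0, .ofNat 0, .ofNat 0, .ofNat 0, .ofNat 0, .ofNat 0, .ofNat 0, .ofNat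 0, .ofNat 0, .ofNat 0, .ofNat 0, .ofNat 0, .ofNat 0⟩)
    (by decide +kernel)
theorem L01712 : Good (Phi V4.P V4.D (-1) (-1)) ⟨7, 110, 5, 19, 3, 6, 2, 3, 4, 0⟩ :=
  out_sound (S := T4.ds_mm) T4.ok_mm (w := 80) (j := 3) (by decide +kernel)
theorem L01713 : Good (Phi V4.P V4.D (-1) (-1)) ⟨7, 111, 4, 9, 3, 6, 2, 3, 4, 0⟩ :=
  out_sound (S := T4.ds_mm) T4.ok_mm (w := 24) (j := 4) (by decide +kernel)
theorem L01714 : Good (Phi V4.P V4.D (-1) (-1)) ⟨3, 7, 3, 4, 3, 6, 2, 3, 4, 0⟩ :=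
  out_sound (S := T4.ds_mm) T4.ok_mm (w := 16) (j := 4) (by decide +kernel)
theorem L01715 : Good (Phi V4.P V4.D (-1) (-1)) ⟨4, 12, 3, 4, 3, 6, 2, 3, 4, 1⟩ :=
  out_sound (S := T4.ds_mm) T4.ok_mm (w := 56) (j := 3) (by decide +kernel)
theorem L01716 : Good (Phi V4.P V4.D (-1) (-1)) ⟨5, 26, 3, 4, 3, 6, 2, 3, 4, 1⟩ :=
  out_sound (S := T4.ds_mm) T4.ok_mm (w := 64) (j := 3) (by decide +kernel)
theorem L01717 : Good (Phi V4.P V4.D (-1) (-1)) ⟨6, 54, 4, 8, 3, 6, 2, 3, 4, 1⟩ :=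
  leaf_sound (S := T4.ds_mm) T4.ok_mm (w := 200) (c := ⟨⟨.negSucc 2060, .negSucc 453, .ofNat 1040, .negSucc 559, .ofNat 1635, .ofNat 1585⟩, ⟨.ofNat 1086, .ofNat 229, .negSucc 495, .ofNat 299, .negSucc 887, .negSucc 865⟩, ⟨.ofNat 1095, .ofNat 293, .negSucc 685, .ofNat 461, .negSucc 1238, .negSucc 1090⟩, ⟨.negSucc 3654, .negSucc 672, .ofNat 1473, .negSucc 913, .ofNat 2325, .ofNat 2182⟩, ⟨.negSucc 977, .ofNat 25, .negSucc 118, .negSucc 104, .negSucc 309, .negSucc 428⟩, .ofNat 1705, .ofNat 2574, .ofNat 0, .ofNat 2574, .ofNat 4977, .ofNat 0, .ofNat 76, .negSucc 264, .negSucc 875, .ofNat 0, .ofNat 151, .ofNat 469, .ofNat 0, .ofNat 0, .ofNat 654, .ofNat 303, .ofNat 0, .ofNat 0, .ofNat 0, .ofNat 0, .ofNat 0, .ofNat 0, .ofNat 0, .ofNat 0, .ofNat 0, .ofNat 0, .ofNat 0, .ofNat 0, .ofNat 0, .ofNat 0, .ofNat 451662583648713974462447773286400, .ofNat 0⟩)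
    (by decide +kernel)

end Crest.Agent.R097C4.N4mm
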