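import Crest.Agent.R097.T4

/-!
# Row 97, box cover in dimension n = 4 (generated)
-/

set_option autoImplicit false
set_option Elab.async false
set_option maxHeartbeats 0
set_option maxRecDepth 100000

open Crest.Agent.R097 Crest.Agent.R097.KA


namespace Crest.Agent.R097C4.N4mm

theorem L01718 : Good (Phi V4.P V4.D (-1) (-1)) ⟨6, 54, 4, 9, 3, 6, 2, 3, 4, 1⟩ :=
  out_sound (S := T4.ds_mm) T4.ok_mm (w := 72) (j := 3) (by decide +kernel)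
theorem L01719 : Good (Phi V4.P V4.D (-1) (-1)) ⟨6, 55, 5, 16, 3, 6, 2, 3, 4, 1⟩ :=
  out_sound (S := T4.ds_mm) T4.ok_mm (w := 72) (j := 3) (by decide +kernel)
theorem L01720 : Good (Phi V4.P V4.D (-1) (-1)) ⟨7, 110, 5, 17, 3, 6, 2, 3, 4, 1⟩ :=
  leaf_sound (S := T4.ds_mm) T4.ok_mm (w := 208) (c := ⟨⟨.negSucc 2397, .negSucc 529, .ofNat 1013, .negSucc 904, .ofNat 1941, .ofNat 1796⟩, ⟨.ofNat 1318, .ofNat 289, .negSucc 535, .ofNat 510, .negSucc 1094, .negSucc 1014⟩, ⟨.ofNat 1332, .ofNat 336, .negSucc 697, .ofNat 685, .negSucc 1442, .negSucc 1234⟩, ⟨.negSucc 4285, .negSucc 917, .ofNat 1604, .negSucc 1350, .ofNat 2746, .ofNat 2475⟩, ⟨.negSucc 1195, .negSucc 186, .ofNat 144, .ofNat 25, .negSucc 323, .negSucc 415⟩, .ofNat 4626, .ofNat 7656, .ofNat 0, .ofNat 7656, .ofNat 13805, .ofNat 0, .ofNat 44, .negSucc 268, .negSucc 955, .ofNat 0, .ofNat 154, .ofNat 537, .ofNat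 0, .ofNat 0, .ofNat 712, .ofNat 356, .ofNat 0, .ofNat 0, .ofNat 20168538591699494952921936691200, .ofNat 0, .ofNat 0, .ofNat 0, .ofNat 1928360023376793869594597208883200, .ofNat 0, .ofNat 0, .ofNat 356525805222493016077818896242597429248000, .ofNat 719165344710092542742221553664000, .ofNat 0, .ofNat 0, .ofNat 72967472403933364355567718345268946534400, .ofNat 1100628505289225609471402075750400, .ofNat 0⟩)
    (by decide +kernel)
theorem L01721 : Good (Phi V4.P V4.D (-1) (-1)) ⟨7, 111, 5, 17, 3, 6, 2, 3, 4, 1⟩ :=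
  out_sound (S := T4.ds_mm) T4.ok_mm (w := 80) (j := 3) (by decide +kernel)
theorem L01722 : Good (Phi V4.P V4.D (-1) (-1)) ⟨7, 110, 5, 18, 3, 6, 3, 6, 4, 1⟩ :=
  leaf_sound (S := T4.ds_mm) T4.ok_mm (w := 216) (c := ⟨⟨.negSucc 1789, .ofNat 450, .ofNat 103, .negSucc 885, .ofNat 977, .ofNat 1586⟩, ⟨.ofNat 1013, .negSucc 248, .negSucc 40, .ofNat 507, .negSucc 560, .negSucc 909⟩, ⟨.ofNat 889, .negSucc 276, .negSucc 94, .ofNat 668, .negSucc 721, .negSucc 1077⟩, ⟨.negSucc 3267, .ofNat 632, .ofNat 118, .negSucc 1299, .ofNat 1314, .ofNat 2068⟩, ⟨.negSucc 1024, .negSucc 56, .negSucc 50, .ofNat 59, .negSucc 269, .negSucc 549⟩, .ofNat 5794, .ofNat 9599, .ofNat 0, .ofNat 9599, .ofNat 17017, .ofNat 0, .ofNat 37, .negSucc 271, .negSucc 992, .ofNat 0, .ofNat 157, .ofNat 566, .ofNat 0, .ofNat 0, .ofNat 726, .ofNat 562, .ofNat 0, .ofNat 0, .ofNat 0, .ofNat 0, .ofNat 0, .ofNat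 0, .ofNat 0, .ofNat 0, .ofNat 0, .ofNat 0, .ofNat 0, .ofNat 0, .ofNat 0, .ofNat 0, .ofNat 0, .ofNat 0⟩)
    (by decide +kernel)
theorem L01723 : Good (Phi V4.P V4.D (-1) (-1)) ⟨7, 110, 5, 18, 3, 6, 3, 7, 5, 2⟩ :=
  leaf_sound (S := T4.ds_mm) T4.ok_mm (w := 224) (c := ⟨⟨.negSucc 838, .ofNat 233, .ofNat 293, .negSucc 1404, .ofNat 926, .ofNat 1322⟩, ⟨.ofNat 470, .negSucc 125, .negSucc 156, .ofNat 804, .negSucc 529, .negSucc 755⟩, ⟨.ofNat 194, .negSucc 187, .negSucc 161, .ofNat 1066, .negSucc 704, .negSucc 920⟩, ⟨.negSucc 2003, .ofNat 312, .ofNat 412, .negSucc 2123, .ofNat 1371, .ofNat 1892⟩, ⟨.negSucc 1315, .negSucc 46, .negSucc 25, .negSucc 19, .negSucc 36, .negSucc 165⟩, .ofNat 5811, .ofNat 9627, .ofNat 0, .ofNat 9627, .ofNat 17062, .ofNat 0, .ofNat 77, .negSucc 552, .negSucc 2121, .ofNat 0, .ofNat 319, .ofNat 1209, .ofNat 0, .ofNat 0, .ofNat 1556, .ofNat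 1463, .ofNat 0, .ofNat 0, .ofNat 0, .ofNat 0, .ofNat 0, .ofNat 0, .ofNat 0, .ofNat 0, .ofNat 0, .ofNat 0, .ofNat 0, .ofNat 0, .ofNat 0, .ofNat 0, .ofNat 0, .ofNat 0⟩)
    (by decide +kernel)
theorem L01724 : Good (Phi V4.P V4.D (-1) (-1)) ⟨7, 110, 5, 18, 3, 6, 3, 7, 5, 3⟩ :=
  leaf_sound (S := T4.ds_mm) T4.ok_mm (w := 224) (c := ⟨⟨.negSucc 435, .ofNat 484, .ofNat 324, .negSucc 402, .ofNat 1588, .ofNat 1423⟩, ⟨.ofNat 251, .negSucc 285, .negSucc 181, .ofNat 230, .negSucc 908, .negSucc 814⟩, ⟨.negSucc 181, .negSucc 343, .negSucc 209, .ofNat 504, .negSucc 1140, .negSucc 942⟩, ⟨.negSucc 1472, .ofNat 635, .ofNat 497, .negSucc 682, .ofNat 2449, .ofNat 2022⟩, ⟨.negSucc 1464, .negSucc 116, .ofNat 54, .negSucc 136, .ofNat 109, .negSucc 204⟩, .ofNat 5756, .ofNat 9536, .ofNat 0, .ofNat 9536, .ofNat 16911, .ofNat 0, .ofNat 76, .negSucc 551, .negSucc 1962, .ofNat 0, .ofNat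 319, .ofNat 1117, .ofNat 0, .ofNat 0, .ofNat 1438, .ofNat 923, .ofNat 0, .ofNat 466164952258789693104843783657692646604800, .ofNat 0, .ofNat 0, .ofNat 0, .ofNat 0, .ofNat 0, .ofNat 0, .ofNat 0, .ofNat 27236855645755657069298607115150583188684800, .ofNat 0, .ofNat 0, .ofNat 0, .ofNat 8307625082689658122849286507396090717798400, .ofNat 0, .ofNat 0⟩)
    (by decide +kernel)
theorem L01725 : Good (Phi V4.P V4.D (-1) (-1)) ⟨7, 111, 5, 18, 3, 6, 2, 3, 4, 1⟩ :=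
  out_sound (S := T4.ds_mm) T4.ok_mm (w := 24) (j := 4) (by decide +kernel)
theorem L01726 : Good (Phi V4.P V4.D (-1) (-1)) ⟨7, 110, 5, 19, 3, 6, 2, 3, 4, 1⟩ :=
  out_sound (S := T4.ds_mm) T4.ok_mm (w := 80) (j := 3) (by decide +kernel)
theorem L01727 : Good (Phi V4.P V4.D (-1) (-1)) ⟨7, 111, 5, 19, 3, 6, 2, 3, 4, 1⟩ :=
  out_sound (S := T4.ds_mm) T4.ok_mm (w := 24) (j := 4) (by decide +kernel)
theorem L01728 : Good (Phi V4.P V4.D (-1) (-1)) ⟨3, 7, 3, 4, 3, 6, 2, 3, 4, 1⟩ :=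
  out_sound (S := T4.ds_mm) T4.ok_mm (w := 16) (j := 4) (by decide +kernel)
theorem L01729 : Good (Phi V4.P V4.D (-1) (-1)) ⟨3, 6, 3, 5, 3, 6, 1, 1, 3, 0⟩ :=
  out_sound (S := T4.ds_mm) T4.ok_mm (w := 48) (j := 3) (by decide +kernel)
theorem L01730 : Good (Phi V4.P V4.D (-1) (-1)) ⟨3, 7, 3, 5, 3, 6, 1, 1, 3, 0⟩ :=
  out_sound (S := T4.ds_mm) T4.ok_mm (w := 16) (j := 4) (by decide +kernel)
theorem L01731 : Good (Phi V4.P V4.D (-1) (-1)) ⟨4, 12, 2, 2, 3, 6, 2, 2, 3, 1⟩ :=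
  out_sound (S := T4.ds_mm) T4.ok_mm (w := 56) (j := 3) (by decide +kernel)
theorem L01732 : Good (Phi V4.P V4.D (-1) (-1)) ⟨5, 26, 2, 2, 3, 6, 2, 2, 4, 2⟩ :=
  out_sound (S := T4.ds_mm) T4.ok_mm (w := 56) (j := 3) (by decide +kernel)
theorem L01733 : Good (Phi V4.P V4.D (-1) (-1)) ⟨6, 54, 3, 4, 3, 6, 2, 2, 4, 2⟩ :=
  leaf_sound (S := T4.ds_mm) T4.ok_mm (w := 200) (c := ⟨⟨.negSucc 2259, .negSucc 44, .ofNat 757, .negSucc 120, .ofNat 1311, .ofNat 989⟩, ⟨.ofNat 1190, .ofNat 14, .negSucc 258, .ofNat 59, .negSucc 714, .negSucc 539⟩, ⟨.ofNat 1354, .ofNat 50, .negSucc 521, .ofNat 101, .negSucc 1011, .negSucc 638⟩, ⟨.negSucc 3769, .negSucc 118, .ofNat 1054, .negSucc 302, .ofNat 1632, .ofNat 1172⟩, ⟨.negSucc 616, .negSucc 95, .negSucc 72, .negSucc 205, .negSucc 683, .negSucc 623⟩, .ofNat 1663, .ofNat 2509, .ofNat 0, .ofNat 2509, .ofNat 4883, .ofNat 0, .ofNat 142,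 .negSucc 501, .negSucc 1065, .ofNat 0, .ofNat 286, .ofNat 575, .ofNat 0, .ofNat 0, .ofNat 862, .ofNat 2044, .ofNat 0, .ofNat 0, .ofNat 0, .ofNat 0, .ofNat 0, .ofNat 0, .ofNat 0, .ofNat 0, .ofNat 0, .ofNat 0, .ofNat 470283081049902781448798286643200, .ofNat 0, .ofNat 0, .ofNat 0, .ofNat 697797958466182144300390180454400, .ofNat 0⟩)
    (by decide +kernel)
theorem L01734 : Good (Phi V4.P V4.D (-1) (-1)) ⟨6, 55, 4, 8, 3, 6, 2, 2, 4, 2⟩ :=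
  leaf_sound (S := T4.ds_mm) T4.ok_mm (w := 200) (c := ⟨⟨.negSucc 2148, .ofNat 96, .ofNat 4, .negSucc 132, .ofNat 1581, .ofNat 1044⟩, ⟨.ofNat 1161, .negSucc 42, .ofNat 47, .ofNat 74, .negSucc 893, .negSucc 590⟩, ⟨.ofNat 1269, .negSucc 26, .negSucc 7, .ofNat 121, .negSucc 1178, .negSucc 656⟩, ⟨.negSucc 3622, .ofNat 24, .ofNat 10, .negSucc 304, .ofNat 1952, .ofNat 1194⟩, ⟨.negSucc 701, .negSucc 179, .ofNat 36, .negSucc 184, .negSucc 770, .negSucc 678⟩, .ofNat 4672, .ofNat 7734, .ofNat 0, .ofNat 7734, .ofNat 13937, .ofNat 0, .ofNat 41, .negSucc 263, .negSucc 561, .ofNat 0, .ofNat 151, .ofNat 317, .ofNat 0, .ofNat 0, .ofNat 440, .ofNat 600, .ofNat 0, .ofNat 0, .ofNat 75880645323705361773286863667200, .ofNat 0, .ofNat 0, .ofNat 0, .ofNat 3205472015775271585184146155110400, .ofNat 0, .ofNat 0, .ofNat 0, .ofNat 2433721938763965264153854292787200, .ofNat 0, .ofNat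 0, .ofNat 0, .ofNat 1481357709277709948357490140774400, .ofNat 0⟩)
    (by decide +kernel)
theorem L01735 : Good (Phi V4.P V4.D (-1) (-1)) ⟨6, 55, 5, 18, 3, 6, 2, 2, 4, 2⟩ :=
  leaf_sound (S := T4.ds_mm) T4.ok_mm (w := 208) (c := ⟨⟨.negSucc 2230, .ofNat 248, .negSucc 25, .negSucc 93, .ofNat 1703, .ofNat 1074⟩, ⟨.ofNat 1268, .negSucc 137, .ofNat 39, .ofNat 54, .negSucc 974, .negSucc 614⟩, ⟨.ofNat 1302, .negSucc 87, .negSucc 23, .ofNat 125, .negSucc 1271, .negSucc 689⟩, ⟨.negSucc 3715, .ofNat 247, .negSucc 67, .negSucc 271, .ofNat 2125, .ofNat 1258⟩, ⟨.negSucc 646, .negSucc 191, .negSucc 21, .negSucc 228, .negSucc 760, .negSucc 623⟩, .ofNat 2229, .ofNat 3397, .ofNat 0, .ofNat 3397, .ofNat 6203, .ofNat 0, .ofNat 114, .negSucc 522, .negSucc 1221, .ofNat 0, .ofNat 307, .ofNat 694, .ofNat 0, .ofNat 0, .ofNat 940, .ofNat 1069, .ofNat 0, .ofNat 0, .ofNat 0, .ofNat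 0, .ofNat 0, .ofNat 0, .ofNat 18315783435290028002623643398963200, .ofNat 0, .ofNat 0, .ofNat 0, .ofNat 0, .ofNat 0, .ofNat 0, .ofNat 0, .ofNat 6141238689884962271607070182604800, .ofNat 0⟩)
    (by decide +kernel)
theorem L01736 : Good (Phi V4.P V4.D (-1) (-1)) ⟨7, 110, 5, 19, 3, 6, 2, 2, 4, 2⟩ :=
  out_sound (S := T4.ds_mm) T4.ok_mm (w := 80) (j := 3) (by decide +kernel)
theorem L01737 : Good (Phi V4.P V4.D (-1) (-1)) ⟨7, 111, 5, 19, 3, 6, 2, 2, 4, 2⟩ :=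
  out_sound (S := T4.ds_mm) T4.ok_mm (w := 24) (j := 4) (by decide +kernel)
theorem L01738 : Good (Phi V4.P V4.D (-1) (-1)) ⟨5, 27, 3, 5, 3, 6, 2, 2, 4, 2⟩ :=
  out_sound (S := T4.ds_mm) T4.ok_mm (w := 64) (j := 3) (by decide +kernel)
theorem L01739 : Good (Phi V4.P V4.D (-1) (-1)) ⟨4, 13, 2, 2, 3, 6, 2, 2, 4, 3⟩ :=
  leaf_sound (S := T4.ds_mm) T4.ok_mm (w := 184) (c := ⟨⟨.negSucc 1746, .ofNat 461, .ofNat 824, .ofNat 196, .ofNat 1457, .ofNat 539⟩, ⟨.ofNat 895, .negSucc 181, .negSucc 402, .negSucc 114, .negSucc 808, .negSucc 302⟩, ⟨.ofNat 1035, .negSucc 348, .negSucc 454, .negSucc 32, .negSucc 1139, .negSucc 341⟩, ⟨.negSucc 3156, .ofNat 506, .ofNat 859, .ofNat 19, .ofNat 1932, .ofNat 577⟩, ⟨.negSucc 1099, .negSucc 189, .negSucc 278, .negSucc 501, .negSucc 499, .negSucc 431⟩, .ofNat 769, .ofNat 902, .ofNat 0, .ofNat 902, .ofNat 1885, .ofNat 0, .ofNat 203, .negSucc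 452, .negSucc 766, .ofNat 0, .ofNat 281, .ofNat 416, .ofNat 0, .ofNat 0, .ofNat 689, .ofNat 797, .ofNat 0, .ofNat 0, .ofNat 135722798398670199675322525286400, .ofNat 0, .ofNat 0, .ofNat 0, .ofNat 8347739560567131851466591751372800, .ofNat 0, .ofNat 0, .ofNat 1908113249240001562058783060498841600, .ofNat 2099233072335608486878544658432000, .ofNat 0, .ofNat 0, .ofNat 0, .ofNat 1258857787393157932873521561600000, .ofNat 0⟩)
    (by decide +kernel)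
theorem L01740 : Good (Phi V4.P V4.D (-1) (-1)) ⟨4, 12, 2, 2, 3, 6, 2, 3, 3, 1⟩ :=
  out_sound (S := T4.ds_mm) T4.ok_mm (w := 56) (j := 3) (by decide +kernel)
theorem L01741 : Good (Phi V4.P V4.D (-1) (-1)) ⟨5, 26, 2, 2, 3, 6, 2, 3, 3, 1⟩ :=
  out_sound (S := T4.ds_mm) T4.ok_mm (w := 56) (j := 3) (by decide +kernel)
theorem L01742 : Good (Phi V4.P V4.D (-1) (-1)) ⟨6, 54, 4, 8, 3, 6, 3, 6, 4, 2⟩ :=
  leaf_sound (S := T4.ds_mm) T4.ok_mm (w := 208) (c := ⟨⟨.negSucc 1207, .ofNat 379, .ofNat 328, .ofNat 48, .ofNat 1251, .ofNat 1105⟩, ⟨.ofNat 639, .negSucc 259, .negSucc 111, .negSucc 28, .negSucc 680, .negSucc 603⟩, ⟨.ofNat 488, .negSucc 331, .negSucc 138, .ofNat 92, .negSucc 913, .negSucc 730⟩, ⟨.negSucc 2538, .ofNat 516, .ofNat 410, .negSucc 78, .ofNat 1825, .ofNat 1437⟩, ⟨.negSucc 1365, .negSucc 16, .negSucc 99, .negSucc 280, .negSucc 146, .negSucc 457⟩, .ofNat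 1701, .ofNat 2567, .ofNat 0, .ofNat 2567, .ofNat 4962, .ofNat 0, .ofNat 145, .negSucc 510, .negSucc 1265, .ofNat 0, .ofNat 292, .ofNat 680, .ofNat 0, .ofNat 0, .ofNat 995, .ofNat 1659, .ofNat 0, .ofNat 0, .ofNat 0, .ofNat 0, .ofNat 0, .ofNat 0, .ofNat 0, .ofNat 0, .ofNat 0, .ofNat 45801596821261513210338670749496324915200, .ofNat 13968700228587056777095838013849600, .ofNat 0, .ofNat 0, .ofNat 0, .ofNat 0, .ofNat 0⟩)
    (by decide +kernel)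
theorem L01743 : Good (Phi V4.P V4.D (-1) (-1)) ⟨6, 54, 4, 8, 3, 6, 3, 7, 4, 2⟩ :=
  leaf_sound (S := T4.ds_mm) T4.ok_mm (w := 208) (c := ⟨⟨.negSucc 226, .ofNat 320, .ofNat 730, .ofNat 122, .ofNat 1330, .ofNat 1407⟩, ⟨.ofNat 114, .negSucc 231, .negSucc 348, .negSucc 70, .negSucc 716, .negSucc 763⟩, ⟨.negSucc 299, .negSucc 245, .negSucc 441, .ofNat 108, .negSucc 931, .negSucc 913⟩, ⟨.negSucc 1139, .ofNat 460, .ofNat 973, .ofNat 35, .ofNat 2100, .ofNat 1970⟩, ⟨.negSucc 1549, .ofNat 37, .negSucc 155, .negSucc 274, .ofNat 138, .negSucc 322⟩, .ofNat 1703, .ofNat 2572, .ofNat 0, .ofNat 2572, .ofNat 4973, .ofNat 0, .ofNat 301, .negSucc 1064, .negSucc 2920, .ofNat 0, .ofNat 604, .ofNat 1560, .ofNat 0, .ofNat 0, .ofNat 2204, .ofNat 2051, .ofNat 0, .ofNat 13031869021663428202003306471429138022400, .ofNat 0, .ofNat 0, .ofNat 0, .ofNat 0, .ofNat 0, .ofNat 0, .ofNat 0,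 .ofNat 890986765840006980084445477051205419008000, .ofNat 0, .ofNat 0, .ofNat 0, .ofNat 521497999475141742048458459196693046886400, .ofNat 67005996048197495931451983947366400, .ofNat 0⟩)
    (by decide +kernel)
theorem L01744 : Good (Phi V4.P V4.D (-1) (-1)) ⟨6, 54, 4, 9, 3, 6, 2, 3, 4, 2⟩ :=
  out_sound (S := T4.ds_mm) T4.ok_mm (w := 72) (j := 3) (by decide +kernel)
theorem L01745 : Good (Phi V4.P V4.D (-1) (-1)) ⟨6, 55, 5, 16, 3, 6, 2, 3, 4, 2⟩ :=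
  out_sound (S := T4.ds_mm) T4.ok_mm (w := 72) (j := 3) (by decide +kernel)
theorem L01746 : Good (Phi V4.P V4.D (-1) (-1)) ⟨6, 55, 5, 17, 3, 6, 3, 6, 4, 2⟩ :=
  leaf_sound (S := T4.ds_mm) T4.ok_mm (w := 216) (c := ⟨⟨.negSucc 905, .ofNat 869, .ofNat 167, .ofNat 237, .ofNat 1551, .ofNat 1062⟩, ⟨.ofNat 499, .negSucc 507, .negSucc 88, .negSucc 135, .negSucc 873, .negSucc 598⟩, ⟨.ofNat 207, .negSucc 573, .negSucc 86, .ofNat 46, .negSucc 1103, .negSucc 692⟩, ⟨.negSucc 2165, .ofNat 1225, .ofNat 180, .ofNat 175, .ofNat 2291, .ofNat 1379⟩, ⟨.negSucc 1479, .negSucc 110, .negSucc 55, .negSucc 322, .negSucc 89, .negSucc 396⟩, .ofNat 8987, .ofNat 15347, .ofNat 0, .ofNat 15347, .ofNat 27378, .ofNat 0, .ofNat 133, .negSucc 1073, .negSucc 2675, .ofNat 0, .ofNat 613, .ofNat 1509, .ofNat 0, .ofNat 0, .ofNat 2048, .ofNat 640, .ofNat 0, .ofNat 621813622979902000560204589529510707200,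 .ofNat 1507537239791111172902759694336000, .ofNat 0, .ofNat 0, .ofNat 0, .ofNat 1182461071554816366401684913940070400, .ofNat 0, .ofNat 0, .ofNat 0, .ofNat 873976782131178122220958927709798400, .ofNat 0, .ofNat 0, .ofNat 0, .ofNat 582291093120308577482188064292864000, .ofNat 0⟩)
    (by decide +kernel)
theorem L01747 : Good (Phi V4.P V4.D (-1) (-1)) ⟨8, 220, 6, 34, 3, 6, 3, 7, 4, 2⟩ :=
  out_sound (S := T4.ds_mm) T4.ok_mm (w := 88) (j := 3) (by decide +kernel)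
theorem L01748 : Good (Phi V4.P V4.D (-1) (-1)) ⟨8, 220, 6, 35, 3, 6, 4, 14, 4, 2⟩ :=
  leaf_sound (S := T4.ds_mm) T4.ok_mm (w := 224) (c := ⟨⟨.ofNat 585, .ofNat 405, .negSucc 30, .ofNat 365, .ofNat 869, .ofNat 1225⟩, ⟨.negSucc 335, .negSucc 245, .ofNat 26, .negSucc 207, .negSucc 489, .negSucc 692⟩, ⟨.negSucc 889, .negSucc 292, .ofNat 53, .ofNat 20, .negSucc 615, .negSucc 781⟩, ⟨.negSucc 31, .ofNat 555, .negSucc 46, .ofNat 377, .ofNat 1364, .ofNat 1697⟩, ⟨.negSucc 1649, .negSucc 65, .ofNat 20, .negSucc 306, .ofNat 94, .negSucc 267⟩, .ofNat 4705, .ofNat 7785, .ofNat 0, .ofNat 7785, .ofNat 14016, .ofNat 0, .ofNat 173, .negSucc 1070, .negSucc 2962, .ofNat 0, .ofNat 614, .ofNat 1664, .ofNat 0, .ofNat 0, .ofNat 2256, .ofNat 3623, .ofNat 0, .ofNat 118841362674296134890470803881114405018009600, .ofNat 0, .ofNat 0, .ofNat 0, .ofNat 0, .ofNat 0, .ofNat 0, .ofNat 0,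 .ofNat 5701489081590263923042012713608204218741555200, .ofNat 0, .ofNat 0, .ofNat 0, .ofNat 0, .ofNat 0, .ofNat 0⟩)
    (by decide +kernel)
theorem L01749 : Good (Phi V4.P V4.D (-1) (-1)) ⟨8, 220, 6, 35, 3, 6, 4, 15, 4, 2⟩ :=
  leaf_sound (S := T4.ds_mm) T4.ok_mm (w := 232) (c := ⟨⟨.ofNat 1418, .ofNat 296, .ofNat 81, .ofNat 124, .ofNat 462, .ofNat 1365⟩, ⟨.negSucc 803, .negSucc 181, .negSucc 41, .negSucc 70, .negSucc 259, .negSucc 770⟩, ⟨.negSucc 1457, .negSucc 211, .negSucc 57, .ofNat 155, .negSucc 371, .negSucc 931⟩, ⟨.ofNat 1266, .ofNat 420, .ofNat 110, .ofNat 38, .ofNat 799, .ofNat 1985⟩, ⟨.negSucc 1574, .negSucc 18, .ofNat 0, .negSucc 264, .ofNat 180, .negSucc 133⟩, .ofNat 2057, .ofNat 3127, .ofNat 0, .ofNat 3127, .ofNat 5797, .ofNat 0, .ofNat 2091, .negSucc 8257, .negSucc 28319, .ofNat 0, .ofNat 4815, .ofNat 15674, .ofNat 0, .ofNat 0, .ofNat 21832,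 .ofNat 87677, .ofNat 0, .ofNat 18623800692745522466890717251462417936600268800, .ofNat 0, .ofNat 0, .ofNat 0, .ofNat 3603067592154812893768959323159822170143798067200, .ofNat 0, .ofNat 0, .ofNat 0, .ofNat 5692598659507577641388464263531130048914181324800, .ofNat 0, .ofNat 0, .ofNat 0, .ofNat 4517826751207246672209002621855235822662241484800, .ofNat 0, .ofNat 0⟩)
    (by decide +kernel)
theorem L01750 : Good (Phi V4.P V4.D (-1) (-1)) ⟨8, 221, 5, 17, 3, 6, 3, 7, 4, 2⟩ :=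
  out_sound (S := T4.ds_mm) T4.ok_mm (w := 80) (j := 3) (by decide +kernel)
theorem L01751 : Good (Phi V4.P V4.D (-1) (-1)) ⟨7, 111, 5, 17, 3, 6, 3, 7, 4, 2⟩ :=
  out_sound (S := T4.ds_mm) T4.ok_mm (w := 80) (j := 3) (by decide +kernel)
theorem L01752 : Good (Phi V4.P V4.D (-1) (-1)) ⟨7, 110, 5, 18, 3, 6, 3, 6, 4, 2⟩ :=
  leaf_sound (S := T4.ds_mm) T4.ok_mm (w := 216) (c := ⟨⟨.negSucc 794, .ofNat 456, .negSucc 16, .ofNat 79, .ofNat 1618, .ofNat 1199⟩, ⟨.ofNat 453, .negSucc 261, .ofNat 10, .negSucc 45, .negSucc 924, .negSucc 686⟩, ⟨.ofNat 130, .negSucc 296, .ofNat 17, .ofNat 150, .negSucc 1146, .negSucc 754⟩, ⟨.negSucc 1983, .ofNat 543, .ofNat 22, .negSucc 49, .ofNat 2356, .ofNat 1529⟩, ⟨.negSucc 1412, .negSucc 207, .ofNat 130, .negSucc 294, .negSucc 132, .negSucc 478⟩, .ofNat 5695, .ofNat 9434, .ofNat 0, .ofNat 9434, .ofNat 16743, .ofNat 0, .ofNat 74, .negSucc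 542, .negSucc 1408, .ofNat 0, .ofNat 314, .ofNat 803, .ofNat 0, .ofNat 0, .ofNat 1057, .ofNat 1935, .ofNat 0, .ofNat 0, .ofNat 0, .ofNat 0, .ofNat 0, .ofNat 0, .ofNat 81280694334562644980903078736691200, .ofNat 0, .ofNat 0, .ofNat 0, .ofNat 0, .ofNat 0, .ofNat 0, .ofNat 0, .ofNat 0, .ofNat 0⟩)
    (by decide +kernel)
theorem L01753 : Good (Phi V4.P V4.D (-1) (-1)) ⟨7, 110, 5, 18, 3, 6, 4, 14, 4, 2⟩ :=
  leaf_sound (S := T4.ds_mm) T4.ok_mm (w := 216) (c := ⟨⟨.ofNat 493, .ofNat 838, .negSucc 35, .ofNat 439, .ofNat 982, .ofNat 1142⟩, ⟨.negSucc 275, .negSucc 489, .ofNat 7, .negSucc 251, .negSucc 561, .negSucc 653⟩, ⟨.negSucc 808, .negSucc 599, .ofNat 69, .negSucc 3, .negSucc 702, .negSucc 729⟩, ⟨.negSucc 169, .ofNat 1152, .negSucc 62, .ofNat 488, .ofNat 1538, .ofNat 1575⟩, ⟨.negSucc 1637, .negSucc 137, .ofNat 49, .negSucc 298, .ofNat 110, .negSucc 247⟩, .ofNat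 5774, .ofNat 9566, .ofNat 0, .ofNat 9566, .ofNat 16963, .ofNat 0, .ofNat 74, .negSucc 539, .negSucc 1548, .ofNat 0, .ofNat 312, .ofNat 882, .ofNat 0, .ofNat 0, .ofNat 1168, .ofNat 1060, .ofNat 0, .ofNat 631546138718301190693407785719528056422400, .ofNat 0, .ofNat 0, .ofNat 0, .ofNat 0, .ofNat 0, .ofNat 0, .ofNat 0, .ofNat 10785281793007181296208621439027477322137600, .ofNat 0, .ofNat 0, .ofNat 0, .ofNat 0, .ofNat 0, .ofNat 0⟩)
    (by decide +kernel)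
theorem L01754 : Good (Phi V4.P V4.D (-1) (-1)) ⟨7, 110, 5, 18, 3, 6, 4, 15, 4, 2⟩ :=
  leaf_sound (S := T4.ds_mm) T4.ok_mm (w := 224) (c := ⟨⟨.ofNat 1521, .ofNat 444, .ofNat 424, .ofNat 286, .ofNat 608, .ofNat 1469⟩, ⟨.negSucc 861, .negSucc 269, .negSucc 255, .negSucc 163, .negSucc 346, .negSucc 838⟩, ⟨.negSucc 1538, .negSucc 319, .negSucc 297, .ofNat 81, .negSucc 471, .negSucc 990⟩, ⟨.ofNat 1409, .ofNat 622, .ofNat 596, .ofNat 275, .ofNat 1020, .ofNat 2129⟩, ⟨.negSucc 1579, .negSucc 24, .negSucc 19, .negSucc 269, .ofNat 185, .negSucc 139⟩, .ofNat 2234, .ofNat 3404, .ofNat 0, .ofNat 3404, .ofNat 6213, .ofNat 0, .ofNat 1960, .negSucc 8336, .negSucc 29866, .ofNat 0, .ofNat 4896, .ofNat 16769, .ofNat 0, .ofNat 0, .ofNat 22796, .ofNat 60735, .ofNat 0, .ofNat 163367432580443754689121717113814672998400000, .ofNat 0, .ofNat 0, .ofNat 0, .ofNat 39807741982771208446780034229142300508395929600,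 .ofNat 0, .ofNat 0, .ofNat 0, .ofNat 77262553800936022139795065336417527172536729600, .ofNat 0, .ofNat 0, .ofNat 0, .ofNat 49491328608168115755508007012524299047141376000, .ofNat 85623624164731736064809838712769740800, .ofNat 0⟩)
    (by decide +kernel)
theorem L01755 : Good (Phi V4.P V4.D (-1) (-1)) ⟨7, 111, 5, 18, 3, 6, 2, 3, 4, 2⟩ :=
  out_sound (S := T4.ds_mm) T4.ok_mm (w := 24) (j := 4) (by decide +kernel)
theorem L01756 : Good (Phi V4.P V4.D (-1) (-1)) ⟨7, 110, 5, 19, 3, 6, 2, 3, 4, 2⟩ :=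
  out_sound (S := T4.ds_mm) T4.ok_mm (w := 80) (j := 3) (by decide +kernel)
theorem L01757 : Good (Phi V4.P V4.D (-1) (-1)) ⟨7, 111, 5, 19, 3, 6, 2, 3, 4, 2⟩ :=
  out_sound (S := T4.ds_mm) T4.ok_mm (w := 24) (j := 4) (by decide +kernel)
theorem L01758 : Good (Phi V4.P V4.D (-1) (-1)) ⟨6, 54, 3, 4, 3, 6, 3, 6, 4, 3⟩ :=
  leaf_sound (S := T4.ds_mm) T4.ok_mm (w := 208) (c := ⟨⟨.negSucc 160, .ofNat 451, .ofNat 67, .ofNat 328, .ofNat 1133, .ofNat 452⟩, ⟨.ofNat 70, .negSucc 279, .ofNat 36, .negSucc 184, .negSucc 614, .negSucc 249⟩, ⟨.negSucc 239, .negSucc 275, .negSucc 67, .negSucc 61, .negSucc 831, .negSucc 289⟩, ⟨.negSucc 1128, .ofNat 542, .ofNat 52, .ofNat 217, .ofNat 1703, .ofNat 544⟩, ⟨.negSucc 1732, .negSucc 136, .ofNat 41, .negSucc 518, .negSucc 38, .negSucc 264⟩, .ofNat 749, .ofNat 872, .ofNat 0, .ofNat 872, .ofNat 1855, .ofNat 0, .ofNat 869, .negSucc 1858,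 .negSucc 3698, .ofNat 0, .ofNat 1136, .ofNat 1934, .ofNat 0, .ofNat 0, .ofNat 3120, .ofNat 5879, .ofNat 0, .ofNat 0, .ofNat 0, .ofNat 0, .ofNat 0, .ofNat 0, .ofNat 0, .ofNat 0, .ofNat 0, .ofNat 934475001478453952421236797273919402803200, .ofNat 0, .ofNat 0, .ofNat 0, .ofNat 467843188092082421573594893991185848729600, .ofNat 0, .ofNat 0⟩)
    (by decide +kernel)
theorem L01759 : Good (Phi V4.P V4.D (-1) (-1)) ⟨6, 54, 3, 4, 3, 6, 3, 7, 4, 3⟩ :=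
  out_sound (S := T4.ds_mm) T4.ok_mm (w := 40) (j := 2) (by decide +kernel)
theorem L01760 : Good (Phi V4.P V4.D (-1) (-1)) ⟨7, 110, 5, 16, 3, 6, 2, 3, 4, 3⟩ :=
  out_sound (S := T4.ds_mm) T4.ok_mm (w := 80) (j := 3) (by decide +kernel)
theorem L01761 : Good (Phi V4.P V4.D (-1) (-1)) ⟨7, 110, 5, 17, 3, 6, 3, 6, 4, 3⟩ :=
  leaf_sound (S := T4.ds_mm) T4.ok_mm (w := 216) (c := ⟨⟨.ofNat 147, .ofNat 106, .ofNat 194, .ofNat 395, .ofNat 1338, .ofNat 402⟩, ⟨.negSucc 98, .negSucc 75, .negSucc 97, .negSucc 224, .negSucc 753, .negSucc 226⟩, ⟨.negSucc 436, .negSucc 41, .negSucc 152, .negSucc 72, .negSucc 968, .negSucc 244⟩, ⟨.negSucc 801, .ofNat 111, .ofNat 260, .ofNat 301, .ofNat 2010, .ofNat 474⟩, ⟨.negSucc 1869, .negSucc 39, .negSucc 3, .negSucc 523, .negSucc 16, .negSucc 235⟩, .ofNat 8917, .ofNat 15226, .ofNat 0, .ofNat 15226, .ofNat 27173, .ofNat 0, .ofNat 256,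 .negSucc 1991, .negSucc 3587, .ofNat 0, .ofNat 1138, .ofNat 2023, .ofNat 0, .ofNat 0, .ofNat 3082, .ofNat 2787, .ofNat 0, .ofNat 439956914983896886946171983420549654118400, .ofNat 0, .ofNat 0, .ofNat 0, .ofNat 0, .ofNat 1444088515244232677248473832724889600, .ofNat 0, .ofNat 0, .ofNat 0, .ofNat 0, .ofNat 0, .ofNat 0, .ofNat 0, .ofNat 0, .ofNat 0⟩)
    (by decide +kernel)
theorem L01762 : Good (Phi V4.P V4.D (-1) (-1)) ⟨7, 110, 5, 17, 3, 6, 3, 7, 4, 3⟩ :=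
  out_sound (S := T4.ds_mm) T4.ok_mm (w := 40) (j := 2) (by decide +kernel)
theorem L01763 : Good (Phi V4.P V4.D (-1) (-1)) ⟨7, 110, 4, 9, 3, 6, 3, 6, 4, 3⟩ :=
  leaf_sound (S := T4.ds_mm) T4.ok_mm (w := 216) (c := ⟨⟨.ofNat 274, .ofNat 217, .ofNat 235, .ofNat 414, .ofNat 1406, .ofNat 373⟩, ⟨.negSucc 157, .negSucc 129, .negSucc 133, .negSucc 237, .negSucc 804, .negSucc 212⟩, ⟨.negSucc 533, .negSucc 162, .negSucc 100, .negSucc 70, .negSucc 1019, .negSucc 224⟩, ⟨.negSucc 619, .ofNat 255, .ofNat 282, .ofNat 309, .ofNat 2097, .ofNat 420⟩, ⟨.negSucc 1858, .negSucc 41, .negSucc 80, .negSucc 548, .negSucc 29, .negSucc 246⟩, .ofNat 5726, .ofNat 9487, .ofNat 0, .ofNat 9487, .ofNat 16830, .ofNat 0, .ofNat 281, .negSucc 2018, .negSucc 3739, .ofNat 0, .ofNat 1169, .ofNat 2133, .ofNat 0, .ofNat 0, .ofNat 3147, .ofNat 5867, .ofNat 0, .ofNat 252729259508856042735385876112365269811200,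 .ofNat 0, .ofNat 0, .ofNat 0, .ofNat 9372753101086997847310306866749996688998400, .ofNat 0, .ofNat 0, .ofNat 0, .ofNat 11609601740203660132972398152015327684198400, .ofNat 28531245383302393801151445624422400, .ofNat 0, .ofNat 0, .ofNat 0, .ofNat 0, .ofNat 0⟩)
    (by decide +kernel)
theorem L01764 : Good (Phi V4.P V4.D (-1) (-1)) ⟨7, 110, 4, 9, 3, 6, 3, 7, 4, 3⟩ :=
  out_sound (S := T4.ds_mm) T4.ok_mm (w := 40) (j := 2) (by decide +kernel)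
theorem L01765 : Good (Phi V4.P V4.D (-1) (-1)) ⟨7, 111, 3, 4, 3, 6, 2, 3, 4, 3⟩ :=
  out_sound (S := T4.ds_mm) T4.ok_mm (w := 24) (j := 4) (by decide +kernel)
theorem L01766 : Good (Phi V4.P V4.D (-1) (-1)) ⟨5, 27, 3, 5, 3, 6, 2, 3, 3, 1⟩ :=
  out_sound (S := T4.ds_mm) T4.ok_mm (w := 64) (j := 3) (by decide +kernel)
theorem L01767 : Good (Phi V4.P V4.D (-1) (-1)) ⟨3, 7, 2, 2, 3, 6, 1, 1, 3, 1⟩ :=
  out_sound (S := T4.ds_mm) T4.ok_mm (w := 16) (j := 4) (by decide +kernel)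
theorem L01768 : Good (Phi V4.P V4.D (-1) (-1)) ⟨4, 12, 3, 4, 3, 7, 1, 1, 3, 0⟩ :=
  out_sound (S := T4.ds_mm) T4.ok_mm (w := 56) (j := 3) (by decide +kernel)
theorem L01769 : Good (Phi V4.P V4.D (-1) (-1)) ⟨5, 26, 3, 4, 3, 7, 2, 2, 4, 0⟩ :=
  out_sound (S := T4.ds_mm) T4.ok_mm (w := 64) (j := 3) (by decide +kernel)
theorem L01770 : Good (Phi V4.P V4.D (-1) (-1)) ⟨6, 54, 4, 8, 3, 7, 2, 2, 4, 0⟩ :=
  leaf_sound (S := T4.ds_mm) T4.ok_mm (w := 200) (c := ⟨⟨.ofNat 166, .ofNat 121, .ofNat 3, .ofNat 27, .negSucc 841, .negSucc 1637⟩, ⟨.negSucc 114, .negSucc 75, .ofNat 66, .negSucc 3, .ofNat 449, .ofNat 879⟩, ⟨.negSucc 48, .negSucc 93, .ofNat 21, .ofNat 202, .ofNat 292, .ofNat 912⟩, ⟨.ofNat 30, .ofNat 123, .ofNat 41, .ofNat 240, .negSucc 1553, .negSucc 2619⟩, ⟨.negSucc 401, .negSucc 150, .ofNat 104, .ofNat 362, .negSucc 501, .negSucc 226⟩, .ofNat 1699, .ofNat 2565,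 .ofNat 0, .ofNat 2565, .ofNat 4964, .ofNat 0, .ofNat 76, .negSucc 304, .negSucc 668, .ofNat 0, .ofNat 170, .ofNat 358, .ofNat 0, .ofNat 0, .ofNat 459, .ofNat 603, .ofNat 0, .ofNat 0, .ofNat 0, .ofNat 0, .ofNat 0, .ofNat 0, .ofNat 0, .ofNat 0, .ofNat 0, .ofNat 0, .ofNat 0, .ofNat 0, .ofNat 0, .ofNat 0, .ofNat 0, .ofNat 0⟩)
    (by decide +kernel)
theorem L01771 : Good (Phi V4.P V4.D (-1) (-1)) ⟨6, 54, 4, 9, 3, 7, 2, 2, 4, 0⟩ :=
  out_sound (S := T4.ds_mm) T4.ok_mm (w := 72) (j := 3) (by decide +kernel)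
theorem L01772 : Good (Phi V4.P V4.D (-1) (-1)) ⟨6, 55, 4, 8, 3, 7, 2, 2, 5, 0⟩ :=
  leaf_sound (S := T4.ds_mm) T4.ok_mm (w := 208) (c := ⟨⟨.ofNat 330, .ofNat 188, .ofNat 33, .ofNat 129, .negSucc 1055, .negSucc 754⟩, ⟨.negSucc 212, .negSucc 101, .ofNat 7, .negSucc 69, .ofNat 593, .ofNat 425⟩, ⟨.negSucc 235, .negSucc 153, .ofNat 62, .ofNat 233, .ofNat 401, .ofNat 412⟩, ⟨.ofNat 166, .ofNat 223, .ofNat 130, .ofNat 486, .negSucc 1880, .negSucc 1247⟩, ⟨.negSucc 600, .negSucc 103, .ofNat 155, .ofNat 517, .negSucc 509, .negSucc 191⟩, .ofNat 4707, .ofNat 7789, .ofNat 0, .ofNat 7789, .ofNat 14023, .ofNat 0, .ofNat 44, .negSucc 307, .negSucc 617, .ofNat 0, .ofNat 175, .ofNat 347, .ofNat 0, .ofNat 0, .ofNat 432, .ofNat 756, .ofNat 0, .ofNat 0, .ofNat 0, .ofNat 0, .ofNat 0, .ofNat 0, .ofNat 49426921890797472485968490319052800, .ofNat 0, .ofNat 0, .ofNat 0, .ofNat 35422409070402777282050249667379200,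 .ofNat 0, .ofNat 0, .ofNat 0, .ofNat 32900796368583734407518068775321600, .ofNat 0⟩)
    (by decide +kernel)
theorem L01773 : Good (Phi V4.P V4.D (-1) (-1)) ⟨6, 55, 5, 18, 3, 7, 2, 2, 5, 0⟩ :=
  leaf_sound (S := T4.ds_mm) T4.ok_mm (w := 208) (c := ⟨⟨.ofNat 397, .ofNat 68, .ofNat 99, .ofNat 170, .negSucc 1137, .negSucc 755⟩, ⟨.negSucc 232, .negSucc 37, .negSucc 42, .negSucc 95, .ofNat 652, .ofNat 433⟩, ⟨.negSucc 237, .negSucc 28, .negSucc 40, .ofNat 232, .ofNat 454, .ofNat 440⟩, ⟨.ofNat 297, .ofNat 73, .ofNat 159, .ofNat 565, .negSucc 1985, .negSucc 1211⟩, ⟨.negSucc 524, .negSucc 47, .ofNat 29, .ofNat 541, .negSucc 482, .negSucc 131⟩, .ofNat 5856, .ofNat 9703, .ofNat 0, .ofNat 9703, .ofNat 17187, .ofNat 0, .ofNat 37, .negSucc 307, .negSucc 631, .ofNat 0, .ofNat 177, .ofNat 360, .ofNat 0, .ofNat 0, .ofNat 439, .ofNat 425, .ofNat 0, .ofNat 0, .ofNat 0, .ofNat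 0, .ofNat 0, .ofNat 0, .ofNat 78670182603723430442779115362713600, .ofNat 0, .ofNat 0, .ofNat 0, .ofNat 22687109343949124544262281835315200, .ofNat 0, .ofNat 0, .ofNat 0, .ofNat 33115621522771159885342910604902400, .ofNat 0⟩)
    (by decide +kernel)
theorem L01774 : Good (Phi V4.P V4.D (-1) (-1)) ⟨7, 110, 5, 19, 3, 7, 2, 2, 5, 0⟩ :=
  out_sound (S := T4.ds_mm) T4.ok_mm (w := 80) (j := 3) (by decide +kernel)
theorem L01775 : Good (Phi V4.P V4.D (-1) (-1)) ⟨7, 111, 5, 19, 3, 7, 2, 2, 5, 0⟩ :=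
  out_sound (S := T4.ds_mm) T4.ok_mm (w := 24) (j := 4) (by decide +kernel)
theorem L01776 : Good (Phi V4.P V4.D (-1) (-1)) ⟨6, 55, 4, 8, 3, 7, 2, 2, 5, 1⟩ :=
  leaf_sound (S := T4.ds_mm) T4.ok_mm (w := 208) (c := ⟨⟨.negSucc 885, .negSucc 167, .ofNat 353, .ofNat 170, .negSucc 762, .negSucc 914⟩, ⟨.ofNat 456, .ofNat 119, .negSucc 156, .negSucc 93, .ofNat 427, .ofNat 515⟩, ⟨.ofNat 696, .ofNat 188, .negSucc 374, .ofNat 110, .ofNat 241, .ofNat 519⟩, ⟨.negSucc 1587, .negSucc 227, .ofNat 454, .ofNat 421, .negSucc 1421, .negSucc 1409⟩, ⟨.negSucc 441, .ofNat 35, .negSucc 143, .ofNat 290, .negSucc 479, .negSucc 50⟩, .ofNat 4646, .ofNat 7686, .ofNat 0, .ofNat 7686, .ofNat 13850, .ofNat 0, .ofNat 44, .negSucc 321, .negSucc 776, .ofNat 0, .ofNat 183, .ofNat 437, .ofNat 0, .ofNat 0, .ofNat 503, .ofNat 630, .ofNat 0, .ofNat 0, .ofNat 1098378707564608178622790474137600,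 .ofNat 0, .ofNat 0, .ofNat 0, .ofNat 49475915322353511738227948519424000, .ofNat 0, .ofNat 0, .ofNat 0, .ofNat 32230389983196427308237236207616000, .ofNat 0, .ofNat 0, .ofNat 0, .ofNat 22210700410330768452695145578496000, .ofNat 0⟩)
    (by decide +kernel)
theorem L01777 : Good (Phi V4.P V4.D (-1) (-1)) ⟨7, 110, 4, 9, 3, 7, 2, 2, 5, 1⟩ :=
  leaf_sound (S := T4.ds_mm) T4.ok_mm (w := 216) (c := ⟨⟨.negSucc 529, .negSucc 19, .ofNat 225, .ofNat 221, .negSucc 817, .negSucc 1001⟩, ⟨.ofNat 285, .ofNat 37, .negSucc 115, .negSucc 126, .ofNat 467, .ofNat 574⟩, ⟨.ofNat 392, .negSucc 21, .negSucc 15, .ofNat 62, .ofNat 260, .ofNat 522⟩, ⟨.negSucc 1098, .negSucc 43, .ofNat 376, .ofNat 481, .negSucc 1510, .negSucc 1552⟩, ⟨.negSucc 524, .negSucc 29, .ofNat 66, .ofNat 260, .negSucc 490, .negSucc 81⟩, .ofNat 5723, .ofNat 9480, .ofNat 0, .ofNat 9480, .ofNat 16819, .ofNat 0,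 .ofNat 38, .negSucc 322, .negSucc 810, .ofNat 0, .ofNat 186, .ofNat 462, .ofNat 0, .ofNat 0, .ofNat 519, .ofNat 569, .ofNat 0, .ofNat 0, .ofNat 170364116361265161001674316185600, .ofNat 0, .ofNat 0, .ofNat 0, .ofNat 0, .ofNat 0, .ofNat 0, .ofNat 0, .ofNat 4639254492427719584842763993088000, .ofNat 0, .ofNat 0, .ofNat 0, .ofNat 3005509427438693698571392253952000, .ofNat 0⟩)
    (by decide +kernel)
theorem L01778 : Good (Phi V4.P V4.D (-1) (-1)) ⟨7, 111, 4, 9, 3, 7, 2, 2, 5, 1⟩ :=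
  out_sound (S := T4.ds_mm) T4.ok_mm (w := 24) (j := 4) (by decide +kernel)
theorem L01779 : Good (Phi V4.P V4.D (-1) (-1)) ⟨5, 26, 3, 4, 3, 7, 2, 3, 4, 0⟩ :=
  out_sound (S := T4.ds_mm) T4.ok_mm (w := 64) (j := 3) (by decide +kernel)
theorem L01780 : Good (Phi V4.P V4.D (-1) (-1)) ⟨6, 54, 5, 16, 3, 7, 2, 3, 4, 0⟩ :=
  leaf_sound (S := T4.ds_mm) T4.ok_mm (w := 208) (c := ⟨⟨.negSucc 938, .negSucc 104, .ofNat 87, .negSucc 6, .negSucc 675, .negSucc 886⟩, ⟨.ofNat 470, .ofNat 47, .ofNat 2, .ofNat 6, .ofNat 355, .ofNat 471⟩, ⟨.ofNat 523, .ofNat 69, .negSucc 53, .ofNat 4, .ofNat 267, .ofNat 440⟩, ⟨.negSucc 1877, .negSucc 94, .ofNat 99, .ofNat 62, .negSucc 1283, .negSucc 1496⟩, ⟨.negSucc 819, .ofNat 67, .negSucc 35, .ofNat 136, .negSucc 468, .negSucc 265⟩, .ofNat 2934, .ofNat 4836, .ofNat 0, .ofNat 4836, .ofNat 9180, .ofNat 0, .ofNat 63, .negSucc 301, .negSucc 680,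 .ofNat 0, .ofNat 166, .ofNat 364, .ofNat 0, .ofNat 0, .ofNat 475, .ofNat 372, .ofNat 0, .ofNat 0, .ofNat 0, .ofNat 0, .ofNat 0, .ofNat 0, .ofNat 3842292735609512641362364937011200, .ofNat 0, .ofNat 0, .ofNat 0, .ofNat 0, .ofNat 0, .ofNat 0, .ofNat 0, .ofNat 0, .ofNat 0⟩)
    (by decide +kernel)
theorem L01781 : Good (Phi V4.P V4.D (-1) (-1)) ⟨6, 54, 5, 17, 3, 7, 2, 3, 4, 0⟩ :=
  leaf_sound (S := T4.ds_mm) T4.ok_mm (w := 208) (c := ⟨⟨.negSucc 558, .negSucc 611, .ofNat 311, .negSucc 7, .negSucc 718, .negSucc 677⟩, ⟨.ofNat 298, .ofNat 322, .negSucc 119, .ofNat 6, .ofNat 394, .ofNat 373⟩, ⟨.ofNat 273, .ofNat 406, .negSucc 215, .ofNat 32, .ofNat 275, .ofNat 292⟩, ⟨.negSucc 1390, .negSucc 789, .ofNat 397, .ofNat 83, .negSucc 1355, .negSucc 1192⟩, ⟨.negSucc 958, .ofNat 217, .negSucc 116, .ofNat 172, .negSucc 482, .negSucc 297⟩, .ofNat 6422, .ofNat 10965, .ofNat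 0, .ofNat 10965, .ofNat 19920, .ofNat 0, .ofNat 44, .negSucc 309, .negSucc 705, .ofNat 0, .ofNat 173, .ofNat 390, .ofNat 0, .ofNat 0, .ofNat 482, .ofNat 396, .ofNat 0, .ofNat 0, .ofNat 0, .ofNat 0, .ofNat 0, .ofNat 0, .ofNat 0, .ofNat 0, .ofNat 0, .ofNat 0, .ofNat 0, .ofNat 0, .ofNat 0, .ofNat 5986569970952679240349839762858285465600, .ofNat 861168333313722681968207855616000, .ofNat 0⟩)
    (by decide +kernel)
theorem L01782 : Good (Phi V4.P V4.D (-1) (-1)) ⟨6, 55, 5, 16, 3, 7, 2, 3, 4, 0⟩ :=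
  out_sound (S := T4.ds_mm) T4.ok_mm (w := 72) (j := 3) (by decide +kernel)
theorem L01783 : Good (Phi V4.P V4.D (-1) (-1)) ⟨6, 55, 5, 17, 3, 7, 2, 3, 4, 0⟩ :=
  leaf_sound (S := T4.ds_mm) T4.ok_mm (w := 208) (c := ⟨⟨.negSucc 908, .negSucc 199, .negSucc 10, .negSucc 124, .negSucc 672, .negSucc 708⟩, ⟨.ofNat 474, .ofNat 118, .ofNat 47, .ofNat 71, .ofNat 378, .ofNat 399⟩, ⟨.ofNat 540, .ofNat 77, .negSucc 9, .ofNat 69, .ofNat 251, .ofNat 317⟩, ⟨.negSucc 1826, .negSucc 376, .negSucc 2, .negSucc 112, .negSucc 1280, .negSucc 1226⟩, ⟨.negSucc 811, .negSucc 144, .ofNat 28, .ofNat 134, .negSucc 469, .negSucc 277⟩, .ofNat 4707, .ofNat 7790, .ofNat 0, .ofNat 7790, .ofNat 14026, .ofNat 0, .ofNat 45, .negSucc 312, .negSucc 739, .ofNat 0, .ofNat 177, .ofNat 415, .ofNat 0, .ofNat 0, .ofNat 496, .ofNat 272, .ofNat 0, .ofNat 96946237494515736269617100854866739200, .ofNat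 29773035472271064952277355724800, .ofNat 0, .ofNat 0, .ofNat 0, .ofNat 8327245074835365604203573333196800, .ofNat 0, .ofNat 0, .ofNat 8354224007369415883932242799833697484800, .ofNat 2643805939848036827565797041766400, .ofNat 0, .ofNat 0, .ofNat 0, .ofNat 1843558697742502125541184136806400, .ofNat 0⟩)
    (by decide +kernel)
theorem L01784 : Good (Phi V4.P V4.D (-1) (-1)) ⟨6, 54, 4, 9, 3, 7, 2, 3, 4, 0⟩ :=
  out_sound (S := T4.ds_mm) T4.ok_mm (w := 72) (j := 3) (by decide +kernel)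
theorem L01785 : Good (Phi V4.P V4.D (-1) (-1)) ⟨7, 110, 6, 36, 3, 7, 2, 3, 4, 0⟩ :=
  leaf_sound (S := T4.ds_mm) T4.ok_mm (w := 216) (c := ⟨⟨.negSucc 787, .negSucc 172, .ofNat 29, .negSucc 71, .negSucc 835, .negSucc 763⟩, ⟨.ofNat 435, .ofNat 108, .ofNat 3, .ofNat 42, .ofNat 477, .ofNat 436⟩, ⟨.ofNat 461, .ofNat 60, .ofNat 5, .ofNat 50, .ofNat 357, .ofNat 350⟩, ⟨.negSucc 1647, .negSucc 240, .ofNat 30, .negSucc 28, .negSucc 1525, .negSucc 1309⟩, ⟨.negSucc 807, .ofNat 30, .negSucc 21, .ofNat 139, .negSucc 470, .negSucc 282⟩, .ofNat 14114, .ofNat 24115, .ofNat 0, .ofNat 24115, .ofNat 42352, .ofNat 0, .ofNat 26, .negSucc 313, .negSucc 779, .ofNat 0, .ofNat 180, .ofNat 446, .ofNat 0, .ofNat 0, .ofNat 520, .ofNat 240, .ofNat 0, .ofNat 4367274388808929255867674503348748288000, .ofNat 13089089783707929036670264934400, .ofNat 0, .ofNat 0, .ofNat 0, .ofNat 4941997059588051328461014512435200,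 .ofNat 0, .ofNat 0, .ofNat 0, .ofNat 0, .ofNat 0, .ofNat 0, .ofNat 0, .ofNat 0, .ofNat 0⟩)
    (by decide +kernel)
theorem L01786 : Good (Phi V4.P V4.D (-1) (-1)) ⟨8, 220, 6, 37, 3, 7, 2, 3, 4, 0⟩ :=
  out_sound (S := T4.ds_mm) T4.ok_mm (w := 88) (j := 3) (by decide +kernel)
theorem L01787 : Good (Phi V4.P V4.D (-1) (-1)) ⟨9, 442, 7, 74, 3, 7, 2, 3, 4, 0⟩ :=
  out_sound (S := T4.ds_mm) T4.ok_mm (w := 96) (j := 3) (by decide +kernel)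
theorem L01788 : Good (Phi V4.P V4.D (-1) (-1)) ⟨10, 886, 8, 148, 3, 7, 2, 3, 4, 0⟩ :=
  out_sound (S := T4.ds_mm) T4.ok_mm (w := 104) (j := 3) (by decide +kernel)
theorem L01789 : Good (Phi V4.P V4.D (-1) (-1)) ⟨10, 887, 8, 148, 3, 7, 2, 3, 4, 0⟩ :=
  out_sound (S := T4.ds_mm) T4.ok_mm (w := 32) (j := 4) (by decide +kernel)
theorem L01790 : Good (Phi V4.P V4.D (-1) (-1)) ⟨9, 443, 8, 149, 3, 7, 2, 3, 4, 0⟩ :=
  out_sound (S := T4.ds_mm) T4.ok_mm (w := 96) (j := 3) (by decide +kernel)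
theorem L01791 : Good (Phi V4.P V4.D (-1) (-1)) ⟨8, 221, 7, 75, 3, 7, 2, 3, 4, 0⟩ :=
  out_sound (S := T4.ds_mm) T4.ok_mm (w := 88) (j := 3) (by decide +kernel)
theorem L01792 : Good (Phi V4.P V4.D (-1) (-1)) ⟨7, 111, 5, 18, 3, 7, 2, 3, 4, 0⟩ :=
  out_sound (S := T4.ds_mm) T4.ok_mm (w := 24) (j := 4) (by decide +kernel)
theorem L01793 : Good (Phi V4.P V4.D (-1) (-1)) ⟨7, 110, 5, 19, 3, 7, 2, 3, 4, 0⟩ :=
  out_sound (S := T4.ds_mm) T4.ok_mm (w := 80) (j := 3) (by decide +kernel)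
theorem L01794 : Good (Phi V4.P V4.D (-1) (-1)) ⟨7, 111, 5, 19, 3, 7, 2, 3, 4, 0⟩ :=
  out_sound (S := T4.ds_mm) T4.ok_mm (w := 24) (j := 4) (by decide +kernel)
theorem L01795 : Good (Phi V4.P V4.D (-1) (-1)) ⟨5, 26, 4, 8, 3, 7, 2, 2, 4, 1⟩ :=
  out_sound (S := T4.ds_mm) T4.ok_mm (w := 64) (j := 3) (by decide +kernel)
theorem L01796 : Good (Phi V4.P V4.D (-1) (-1)) ⟨6, 54, 4, 8, 3, 7, 2, 2, 4, 1⟩ :=
  leaf_sound (S := T4.ds_mm) T4.ok_mm (w := 200) (c := ⟨⟨.negSucc 2560, .negSucc 730, .ofNat 810, .ofNat 498, .ofNat 525, .ofNat 335⟩, ⟨.ofNat 1347, .ofNat 401, .negSucc 346, .negSucc 271, .negSucc 294, .negSucc 187⟩, ⟨.ofNat 1537, .ofNat 349, .negSucc 387, .negSucc 188, .negSucc 491, .negSucc 219⟩, ⟨.negSucc 4065, .negSucc 998, .ofNat 1136, .ofNat 740, .ofNat 406, .ofNat 240⟩, ⟨.negSucc 282, .ofNat 145, .negSucc 137, .negSucc 28, .negSucc 725, .negSucc 500⟩,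 .ofNat 1700, .ofNat 2567, .ofNat 0, .ofNat 2567, .ofNat 4968, .ofNat 0, .ofNat 77, .negSucc 320, .negSucc 754, .ofNat 0, .ofNat 179, .ofNat 406, .ofNat 0, .ofNat 0, .ofNat 487, .ofNat 430, .ofNat 0, .ofNat 0, .ofNat 0, .ofNat 0, .ofNat 0, .ofNat 0, .ofNat 0, .ofNat 0, .ofNat 0, .ofNat 0, .ofNat 0, .ofNat 0, .ofNat 0, .ofNat 0, .ofNat 0, .ofNat 0⟩)
    (by decide +kernel)
theorem L01797 : Good (Phi V4.P V4.D (-1) (-1)) ⟨6, 55, 4, 8, 3, 7, 2, 2, 4, 1⟩ :=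
  leaf_sound (S := T4.ds_mm) T4.ok_mm (w := 208) (c := ⟨⟨.negSucc 2201, .ofNat 846, .negSucc 922, .ofNat 572, .ofNat 823, .ofNat 703⟩, ⟨.ofNat 1188, .negSucc 437, .ofNat 574, .negSucc 322, .negSucc 468, .negSucc 399⟩, ⟨.ofNat 1215, .negSucc 685, .ofNat 636, .negSucc 190, .negSucc 641, .negSucc 410⟩, ⟨.negSucc 3519, .ofNat 1171, .negSucc 1290, .ofNat 834, .ofNat 806, .ofNat 748⟩, ⟨.negSucc 354, .negSucc 219, .ofNat 189, .negSucc 51, .negSucc 773, .negSucc 552⟩, .ofNat 4693, .ofNat 7766, .ofNat 0, .ofNat 7766, .ofNat 13985, .ofNat 0, .ofNat 44, .negSucc 323, .negSucc 821, .ofNat 0, .ofNat 184, .ofNat 463, .ofNat 0, .ofNat 0, .ofNat 524, .ofNat 434, .ofNat 0, .ofNat 0, .ofNat 16999681292277188551569624268800, .ofNat 0, .ofNat 0, .ofNat 0, .ofNat 2778859487823869914842756494131200, .ofNat 0, .ofNat 0, .ofNat 0, .ofNat 2527292373951101140616606436556800, .ofNat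 0, .ofNat 0, .ofNat 0, .ofNat 1497105079455270577616024135270400, .ofNat 0⟩)
    (by decide +kernel)
theorem L01798 : Good (Phi V4.P V4.D (-1) (-1)) ⟨5, 26, 4, 8, 3, 7, 3, 6, 4, 1⟩ :=
  out_sound (S := T4.ds_mm) T4.ok_mm (w := 64) (j := 3) (by decide +kernel)
theorem L01799 : Good (Phi V4.P V4.D (-1) (-1)) ⟨6, 54, 5, 16, 3, 7, 3, 6, 4, 1⟩ :=
  leaf_sound (S := T4.ds_mm) T4.ok_mm (w := 208) (c := ⟨⟨.negSucc 2627, .negSucc 189, .ofNat 173, .ofNat 283, .ofNat 627, .ofNat 1509⟩, ⟨.ofNat 1377, .ofNat 74, .negSucc 37, .negSucc 150, .negSucc 339, .negSucc 816⟩, ⟨.ofNat 1435, .ofNat 42, .negSucc 61, .negSucc 120, .negSucc 458, .negSucc 922⟩, ⟨.negSucc 4526, .negSucc 222, .ofNat 216, .ofNat 433, .ofNat 813, .ofNat 1994⟩, ⟨.negSucc 961, .ofNat 100, .negSucc 61, .ofNat 0, .negSucc 270, .negSucc 582⟩, .ofNat 1632, .ofNat 2458, .ofNat 0, .ofNat 2458, .ofNat 4804, .ofNat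 0, .ofNat 81, .negSucc 313, .negSucc 813, .ofNat 0, .ofNat 173, .ofNat 432, .ofNat 0, .ofNat 0, .ofNat 529, .ofNat 446, .ofNat 0, .ofNat 0, .ofNat 0, .ofNat 0, .ofNat 0, .ofNat 0, .ofNat 0, .ofNat 0, .ofNat 0, .ofNat 0, .ofNat 9264859273085974835078063613542400, .ofNat 0, .ofNat 0, .ofNat 0, .ofNat 0, .ofNat 0⟩)
    (by decide +kernel)
theorem L01800 : Good (Phi V4.P V4.D (-1) (-1)) ⟨6, 54, 5, 17, 3, 7, 3, 6, 4, 1⟩ :=
  leaf_sound (S := T4.ds_mm) T4.ok_mm (w := 208) (c := ⟨⟨.negSucc 3338, .ofNat 905, .negSucc 428, .ofNat 360, .ofNat 753, .ofNat 1865⟩, ⟨.ofNat 1834, .negSucc 512, .ofNat 281, .negSucc 197, .negSucc 418, .negSucc 1036⟩, ⟨.ofNat 1862, .negSucc 591, .ofNat 268, .negSucc 141, .negSucc 519, .negSucc 1097⟩, ⟨.negSucc 5638, .ofNat 1460, .negSucc 717, .ofNat 551, .ofNat 997, .ofNat 2481⟩, ⟨.negSucc 1038, .ofNat 143, .negSucc 95, .ofNat 7, .negSucc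 261, .negSucc 624⟩, .ofNat 3863, .ofNat 6388, .ofNat 0, .ofNat 6388, .ofNat 11724, .ofNat 0, .ofNat 52, .negSucc 319, .negSucc 862, .ofNat 0, .ofNat 179, .ofNat 477, .ofNat 0, .ofNat 0, .ofNat 554, .ofNat 388, .ofNat 0, .ofNat 0, .ofNat 222551185240686071101158693273600, .ofNat 0, .ofNat 0, .ofNat 0, .ofNat 0, .ofNat 0, .ofNat 0, .ofNat 0, .ofNat 0, .ofNat 0, .ofNat 0, .ofNat 0, .ofNat 20790241793087792856355575536025600, .ofNat 0⟩)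
    (by decide +kernel)
theorem L01801 : Good (Phi V4.P V4.D (-1) (-1)) ⟨6, 55, 5, 16, 3, 7, 3, 6, 4, 1⟩ :=
  out_sound (S := T4.ds_mm) T4.ok_mm (w := 72) (j := 3) (by decide +kernel)
theorem L01802 : Good (Phi V4.P V4.D (-1) (-1)) ⟨7, 110, 5, 17, 3, 7, 3, 6, 4, 1⟩ :=
  leaf_sound (S := T4.ds_mm) T4.ok_mm (w := 216) (c := ⟨⟨.negSucc 3141, .ofNat 109, .ofNat 493, .ofNat 400, .ofNat 671, .ofNat 2089⟩, ⟨.ofNat 1737, .negSucc 60, .negSucc 241, .negSucc 224, .negSucc 380, .negSucc 1182⟩, ⟨.ofNat 1539, .negSucc 314, .negSucc 30, .negSucc 158, .negSucc 476, .negSucc 1227⟩, ⟨.negSucc 5225, .ofNat 213, .ofNat 671, .ofNat 620, .ofNat 858, .ofNat 2783⟩, ⟨.negSucc 878, .ofNat 90, .negSucc 110, .ofNat 29, .negSucc 269, .negSucc 651⟩, .ofNat 4730, .ofNat 7828, .ofNat 0, .ofNat 7828, .ofNat 14087, .ofNat 0, .ofNat 45, .negSucc 327, .negSucc 932, .ofNat 0, .ofNat 186, .ofNat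 524, .ofNat 0, .ofNat 0, .ofNat 581, .ofNat 368, .ofNat 0, .ofNat 0, .ofNat 98629232976269068346381146521600, .ofNat 0, .ofNat 0, .ofNat 0, .ofNat 20107362391592043007128676545331200, .ofNat 0, .ofNat 0, .ofNat 0, .ofNat 8794213834027578936072331906252800, .ofNat 0, .ofNat 0, .ofNat 0, .ofNat 7631861481943809128305754583859200, .ofNat 0⟩)
    (by decide +kernel)
theorem L01803 : Good (Phi V4.P V4.D (-1) (-1)) ⟨7, 111, 5, 17, 3, 7, 3, 6, 4, 1⟩ :=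
  out_sound (S := T4.ds_mm) T4.ok_mm (w := 80) (j := 3) (by decide +kernel)
theorem L01804 : Good (Phi V4.P V4.D (-1) (-1)) ⟨5, 26, 4, 8, 3, 7, 3, 7, 4, 1⟩ :=
  out_sound (S := T4.ds_mm) T4.ok_mm (w := 64) (j := 3) (by decide +kernel)
theorem L01805 : Good (Phi V4.P V4.D (-1) (-1)) ⟨7, 108, 5, 16, 3, 7, 3, 7, 4, 1⟩ :=
  leaf_sound (S := T4.ds_mm) T4.ok_mm (w := 216) (c := ⟨⟨.negSucc 2450, .ofNat 119, .ofNat 92, .ofNat 87, .ofNat 605, .ofNat 2312⟩, ⟨.ofNat 1277, .negSucc 81, .ofNat 5, .negSucc 45, .negSucc 324, .negSucc 1235⟩, ⟨.ofNat 1222, .negSucc 78, .negSucc 48, .negSucc 13, .negSucc 419, .negSucc 1360⟩, ⟨.negSucc 4409, .ofNat 169, .ofNat 150, .ofNat 138, .ofNat 826, .ofNat 3273⟩, ⟨.negSucc 1243, .negSucc 31, .ofNat 58, .ofNat 7, .negSucc 188, .negSucc 499⟩, .ofNat 4687, .ofNat 8092, .ofNat 0, .ofNat 8092, .ofNat 15248, .ofNat 0, .ofNat 60, .negSucc 320,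 .negSucc 812, .ofNat 0, .ofNat 175, .ofNat 433, .ofNat 0, .ofNat 0, .ofNat 531, .ofNat 376, .ofNat 0, .ofNat 0, .ofNat 0, .ofNat 0, .ofNat 0, .ofNat 0, .ofNat 0, .ofNat 0, .ofNat 0, .ofNat 2286145736663666217704787530782862003404800, .ofNat 0, .ofNat 0, .ofNat 0, .ofNat 440957300717989286682095348907811799040000, .ofNat 2654358530354676792930767103590400, .ofNat 0⟩)
    (by decide +kernel)
theorem L01806 : Good (Phi V4.P V4.D (-1) (-1)) ⟨7, 109, 5, 16, 3, 7, 3, 7, 4, 1⟩ :=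
  leaf_sound (S := T4.ds_mm) T4.ok_mm (w := 216) (c := ⟨⟨.negSucc 2481, .ofNat 107, .negSucc 9, .ofNat 133, .ofNat 731, .ofNat 2680⟩, ⟨.ofNat 1297, .negSucc 70, .ofNat 50, .negSucc 71, .negSucc 398, .negSucc 1460⟩, ⟨.ofNat 1186, .negSucc 107, .ofNat 60, .negSucc 0, .negSucc 516, .negSucc 1562⟩, ⟨.negSucc 4449, .ofNat 177, .negSucc 42, .ofNat 212, .ofNat 1038, .ofNat 3815⟩, ⟨.negSucc 1271, .ofNat 15, .negSucc 2, .ofNat 18, .negSucc 139, .negSucc 490⟩, .ofNat 4881, .ofNat 8316, .ofNat 0, .ofNat 8316, .ofNat 15394, .ofNat 0, .ofNat 53, .negSucc 323, .negSucc 869, .ofNat 0, .ofNat 179, .ofNat 473, .ofNat 0, .ofNat 0, .ofNat 559, .ofNat 371, .ofNat 0, .ofNat 0, .ofNat 0, .ofNat 0, .ofNat 0, .ofNat 337121186042992561075846747058576818176000, .ofNat 7092164522382836502431782246809600, .ofNat 0, .ofNat 0, .ofNat 2247134789568650867462028667043350315008000, .ofNat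 4370822869507993191960809570304000, .ofNat 0, .ofNat 0, .ofNat 658177415676192612288589026438253274726400, .ofNat 4620578235954518131860005978112000, .ofNat 0⟩)
    (by decide +kernel)
theorem L01807 : Good (Phi V4.P V4.D (-1) (-1)) ⟨7, 108, 5, 17, 3, 7, 3, 7, 4, 1⟩ :=
  out_sound (S := T4.ds_mm) T4.ok_mm (w := 80) (j := 3) (by decide +kernel)
theorem L01808 : Good (Phi V4.P V4.D (-1) (-1)) ⟨7, 109, 5, 17, 3, 7, 3, 7, 5, 2⟩ :=
  leaf_sound (S := T4.ds_mm) T4.ok_mm (w := 216) (c := ⟨⟨.negSucc 2296, .ofNat 352, .negSucc 271, .negSucc 119, .ofNat 580, .ofNat 1192⟩, ⟨.ofNat 1250, .negSucc 204, .ofNat 201, .ofNat 67, .negSucc 322, .negSucc 662⟩, ⟨.ofNat 1190, .negSucc 240, .ofNat 185, .ofNat 68, .negSucc 428, .negSucc 731⟩, ⟨.negSucc 4194, .ofNat 550, .negSucc 446, .negSucc 160, .ofNat 781, .ofNat 1699⟩, ⟨.negSucc 1292, .ofNat 19, .negSucc 29, .ofNat 37, .negSucc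 175, .negSucc 192⟩, .ofNat 3874, .ofNat 6406, .ofNat 0, .ofNat 6406, .ofNat 11753, .ofNat 0, .ofNat 106, .negSucc 647, .negSucc 1862, .ofNat 0, .ofNat 363, .ofNat 1026, .ofNat 0, .ofNat 0, .ofNat 1186, .ofNat 659, .ofNat 0, .ofNat 0, .ofNat 0, .ofNat 0, .ofNat 0, .ofNat 0, .ofNat 0, .ofNat 0, .ofNat 0, .ofNat 22086277704697860349626048840134971254374400, .ofNat 0, .ofNat 0, .ofNat 0, .ofNat 0, .ofNat 0, .ofNat 0⟩)
    (by decide +kernel)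
theorem L01809 : Good (Phi V4.P V4.D (-1) (-1)) ⟨7, 109, 5, 17, 3, 7, 3, 7, 5, 3⟩ :=
  leaf_sound (S := T4.ds_mm) T4.ok_mm (w := 224) (c := ⟨⟨.negSucc 1742, .ofNat 511, .ofNat 86, .ofNat 415, .ofNat 1309, .ofNat 1817⟩, ⟨.ofNat 955, .negSucc 306, .negSucc 11, .negSucc 229, .negSucc 724, .negSucc 1007⟩, ⟨.ofNat 667, .negSucc 231, .negSucc 80, .negSucc 7, .negSucc 828, .negSucc 1038⟩, ⟨.negSucc 3472, .ofNat 761, .ofNat 98, .ofNat 657, .ofNat 1965, .ofNat 2592⟩, ⟨.negSucc 1529, .negSucc 0, .negSucc 14, .ofNat 52, .negSucc 35, .negSucc 293⟩, .ofNat 6456, .ofNat 11023, .ofNat 0, .ofNat 11023, .ofNat 20021, .ofNat 0, .ofNat 89, .negSucc 661, .negSucc 1834, .ofNat 0, .ofNat 371, .ofNat 1015, .ofNat 0, .ofNat 0, .ofNat 1150, .ofNat 575, .ofNat 0, .ofNat 158764815023705766084388357878273854668800, .ofNat 0, .ofNat 0, .ofNat 0, .ofNat 0, .ofNat 0, .ofNat 0, .ofNat 0,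 .ofNat 42009328451949049604367785121316969277030400, .ofNat 0, .ofNat 0, .ofNat 0, .ofNat 10123792526545675604566637208976480429670400, .ofNat 0, .ofNat 0⟩)
    (by decide +kernel)
theorem L01810 : Good (Phi V4.P V4.D (-1) (-1)) ⟨6, 55, 5, 16, 3, 7, 3, 7, 4, 1⟩ :=
  out_sound (S := T4.ds_mm) T4.ok_mm (w := 72) (j := 3) (by decide +kernel)
theorem L01811 : Good (Phi V4.P V4.D (-1) (-1)) ⟨7, 110, 6, 34, 3, 7, 3, 7, 4, 1⟩ :=
  out_sound (S := T4.ds_mm) T4.ok_mm (w := 80) (j := 3) (by decide +kernel)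
theorem L01812 : Good (Phi V4.P V4.D (-1) (-1)) ⟨8, 220, 6, 35, 4, 14, 3, 7, 4, 1⟩ :=
  leaf_sound (S := T4.ds_mm) T4.ok_mm (w := 232) (c := ⟨⟨.negSucc 2604, .negSucc 789, .ofNat 878, .negSucc 242, .ofNat 908, .ofNat 3263⟩, ⟨.ofNat 1455, .ofNat 453, .negSucc 490, .ofNat 136, .negSucc 510, .negSucc 1839⟩, ⟨.ofNat 1295, .ofNat 345, .negSucc 386, .ofNat 191, .negSucc 618, .negSucc 1991⟩, ⟨.negSucc 4626, .negSucc 1195, .ofNat 1310, .negSucc 364, .ofNat 1288, .ofNat 4613⟩, ⟨.negSucc 1253, .negSucc 25, .ofNat 16, .ofNat 4, .negSucc 146, .negSucc 555⟩, .ofNat 4692, .ofNat 7765, .ofNat 0, .ofNat 7765, .ofNat 13985, .ofNat 0, .ofNat 91, .negSucc 625, .negSucc 2026, .ofNat 0, .ofNat 356, .ofNat 1137, .ofNat 0, .ofNat 0, .ofNat 1319, .ofNat 629, .ofNat 0, .ofNat 0, .ofNat 100484172235205380647392483318169600, .ofNat 0, .ofNat 0, .ofNat 0, .ofNat 0, .ofNat 0, .ofNat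 0, .ofNat 0, .ofNat 0, .ofNat 0, .ofNat 0, .ofNat 15295919063093075730740628454604919108167270400, .ofNat 0, .ofNat 0⟩)
    (by decide +kernel)

end Crest.Agent.R097C4.N4mm
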