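import Crest.Agent.R097.T4

/-!
# Row 97, box cover in dimension n = 4 (generated)
-/

set_option autoImplicit false
set_option Elab.async false
set_option maxHeartbeats 0
set_option maxRecDepth 100000

open Crest.Agent.R097 Crest.Agent.R097.KA


namespace Crest.Agent.R097C4.N4mm

theorem L01915 : Good (Phi V4.P V4.D (-1) (-1)) ⟨4, 13, 2, 2, 2, 3, 2, 3, 3, 2⟩ :=
  leaf_sound (S := T4.ds_mm) T4.ok_mm (w := 184) (c := ⟨⟨.negSucc 12, .ofNat 771, .ofNat 669, .ofNat 0, .ofNat 1300, .ofNat 0⟩, ⟨.ofNat 1, .negSucc 452, .negSucc 336, .ofNat 0, .negSucc 713, .ofNat 0⟩, ⟨.negSucc 281, .negSucc 547, .negSucc 449, .ofNat 0, .negSucc 1009, .ofNat 0⟩, ⟨.negSucc 887, .ofNat 864, .ofNat 693, .ofNat 0, .ofNat 1965, .ofNat 0⟩, ⟨.negSucc 1875, .negSucc 206, .negSucc 177, .ofNat 0, .negSucc 42, .ofNat 0⟩, .ofNat 766, .ofNat 897, .ofNat 0, .ofNat 897, .ofNat 1879, .ofNat 0, .ofNat 3160,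 .negSucc 6581, .negSucc 11445, .ofNat 0, .ofNat 4137, .ofNat 6070, .ofNat 0, .ofNat 0, .ofNat 10948, .ofNat 24484, .ofNat 0, .ofNat 237616035119335833206194475473305600, .ofNat 0, .ofNat 0, .ofNat 0, .ofNat 23303154123138874395582534136312627200, .ofNat 112232093636154777006547088179200, .ofNat 0, .ofNat 0, .ofNat 66059240675818195652996517946667827200, .ofNat 124494242304131674295262982963200, .ofNat 0, .ofNat 0, .ofNat 44373153695030004425785493454795571200, .ofNat 0, .ofNat 0⟩)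
    (by decide +kernel)
theorem L01916 : Good (Phi V4.P V4.D (-1) (-1)) ⟨4, 13, 2, 3, 2, 3, 1, 1, 3, 2⟩ :=
  out_sound (S := T4.ds_mm) T4.ok_mm (w := 56) (j := 3) (by decide +kernel)
theorem L01917 : Good (Phi V4.P V4.D (-1) (-1)) ⟨3, 6, 1, 1, 1, 1, 2, 2, 3, 3⟩ :=
  leaf_sound (S := T4.ds_mm) T4.ok_mm (w := 160) (c := ⟨⟨.negSucc 905, .ofNat 307, .ofNat 322, .ofNat 964, .ofNat 689, .ofNat 228⟩, ⟨.ofNat 393, .negSucc 65, .negSucc 45, .negSucc 550, .negSucc 383, .negSucc 124⟩, ⟨.ofNat 630, .negSucc 266, .negSucc 278, .negSucc 824, .negSucc 726, .negSucc 162⟩, ⟨.negSucc 1680, .ofNat 233, .ofNat 253, .ofNat 276, .ofNat 990, .ofNat 317⟩, ⟨.negSucc 819, .negSucc 141, .negSucc 121, .negSucc 2117, .negSucc 93, .negSucc 48⟩, .ofNat 780, .ofNat 918, .ofNat 0, .ofNat 918, .ofNat 1901, .ofNat 0, .ofNat 552, .negSucc 974, .negSucc 1126, .ofNat 0, .ofNat 667, .ofNat 611, .ofNat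 0, .ofNat 0, .ofNat 1848, .ofNat 2291, .ofNat 0, .ofNat 0, .ofNat 254556360261741092850892800, .ofNat 0, .ofNat 0, .ofNat 48363399528946099060351382323200, .ofNat 33673345374699539798792601600, .ofNat 0, .ofNat 0, .ofNat 42222513322533019858155601920000, .ofNat 23100590728370455504433971200, .ofNat 0, .ofNat 0, .ofNat 32032587953924790647339247206400, .ofNat 0, .ofNat 0⟩)
    (by decide +kernel)
theorem L01918 : Good (Phi V4.P V4.D (-1) (-1)) ⟨3, 6, 1, 1, 1, 1, 2, 3, 3, 3⟩ :=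
  leaf_sound (S := T4.ds_mm) T4.ok_mm (w := 168) (c := ⟨⟨.negSucc 291, .ofNat 500, .ofNat 486, .ofNat 0, .ofNat 854, .ofNat 0⟩, ⟨.ofNat 133, .negSucc 257, .negSucc 233, .ofNat 0, .negSucc 475, .ofNat 0⟩, ⟨.negSucc 6, .negSucc 449, .negSucc 435, .ofNat 0, .negSucc 786, .ofNat 0⟩, ⟨.negSucc 781, .ofNat 520, .ofNat 498, .ofNat 0, .ofNat 1328, .ofNat 0⟩, ⟨.negSucc 924, .negSucc 97, .negSucc 91, .ofNat 0, .ofNat 56, .ofNat 0⟩, .ofNat 366, .ofNat 261, .ofNat 0, .ofNat 261, .ofNat 688, .ofNat 0, .ofNat 3777, .negSucc 3654, .negSucc 8223, .ofNat 0, .ofNat 3334, .ofNat 3833, .ofNat 0, .ofNat 0, .ofNat 9706, .ofNat 30150, .ofNat 0, .ofNat 39076784548743633901588788019200, .ofNat 0, .ofNat 0, .ofNat 0, .ofNat 10280785004774339188015141119590400, .ofNat 225984200274362839948119244800, .ofNat 0, .ofNat 0, .ofNat 6007018842371541360572838287769600, .ofNat 515444630283133705498971340800,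 .ofNat 0, .ofNat 0, .ofNat 12825263295214503463097611164057600, .ofNat 0, .ofNat 0⟩)
    (by decide +kernel)
theorem L01919 : Good (Phi V4.P V4.D (-1) (-1)) ⟨3, 7, 1, 1, 1, 1, 1, 1, 2, 1⟩ :=
  out_sound (S := T4.ds_mm) T4.ok_mm (w := 16) (j := 4) (by decide +kernel)
theorem L01920 : Good (Phi V4.P V4.D (-1) (-1)) ⟨2, 2, 2, 0, 2, 0, 1, 0, 2, 2⟩ :=
  leaf_sound (S := T4.ds_mm) T4.ok_mm (w := 160) (c := ⟨⟨.negSucc 760, .negSucc 223, .negSucc 12, .ofNat 23, .ofNat 244, .ofNat 148⟩, ⟨.ofNat 37, .ofNat 104, .ofNat 134, .negSucc 11, .negSucc 36, .negSucc 23⟩, ⟨.ofNat 598, .ofNat 257, .ofNat 14, .ofNat 85, .negSucc 432, .negSucc 149⟩, ⟨.negSucc 1615, .negSucc 147, .negSucc 17, .ofNat 13, .ofNat 459, .ofNat 282⟩, ⟨.ofNat 24, .ofNat 1, .negSucc 1, .negSucc 286, .negSucc 11, .ofNat 0⟩, .ofNat 318, .ofNat 58, .ofNat 0, .ofNat 58, .ofNat 748, .ofNat 0, .ofNat 376, .negSucc 62,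 .negSucc 307, .ofNat 0, .ofNat 212, .ofNat 35, .ofNat 0, .ofNat 0, .ofNat 773, .ofNat 15102, .ofNat 3434449435619206743480021811200, .ofNat 0, .ofNat 0, .ofNat 0, .ofNat 166445108693505827463255765811200, .ofNat 0, .ofNat 0, .ofNat 0, .ofNat 0, .ofNat 0, .ofNat 0, .ofNat 0, .ofNat 202174554775112158956289523712000, .ofNat 0, .ofNat 0, .ofNat 0⟩)
    (by decide +kernel)
theorem L01921 : Good (Phi V4.P V4.D (-1) (-1)) ⟨2, 2, 2, 0, 2, 0, 1, 0, 2, 3⟩ :=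
  out_sound (S := T4.ds_mm) T4.ok_mm (w := 24) (j := 1) (by decide +kernel)
theorem L01922 : Good (Phi V4.P V4.D (-1) (-1)) ⟨3, 6, 2, 0, 2, 0, 1, 0, 2, 2⟩ :=
  leaf_sound (S := T4.ds_mm) T4.ok_mm (w := 168) (c := ⟨⟨.negSucc 1095, .negSucc 154, .ofNat 21, .ofNat 100, .ofNat 276, .ofNat 220⟩, ⟨.ofNat 238, .ofNat 94, .ofNat 116, .negSucc 51, .negSucc 89, .negSucc 70⟩, ⟨.ofNat 959, .ofNat 156, .negSucc 17, .ofNat 27, .negSucc 474, .negSucc 213⟩, ⟨.negSucc 1827, .negSucc 116, .ofNat 21, .ofNat 72, .ofNat 448, .ofNat 368⟩, ⟨.ofNat 63, .negSucc 35, .ofNat 5, .negSucc 298, .negSucc 47, .negSucc 0⟩, .ofNat 478, .ofNat 400, .ofNat 0, .ofNat 400, .ofNat 1467, .ofNat 0, .ofNat 314, .negSucc 221, .negSucc 321, .ofNat 0, .ofNat 198, .ofNat 100, .ofNat 0, .ofNat 0, .ofNat 779, .ofNat 19898, .ofNat 0, .ofNat 0, .ofNat 0, .ofNat 0, .ofNat 3239951598673542964498530513715200, .ofNat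 0, .ofNat 50771327839038929543941324800, .ofNat 0, .ofNat 3277264981167342867812554742169600, .ofNat 0, .ofNat 87055535457094612611288268800, .ofNat 0, .ofNat 4566285376246560502742868452966400, .ofNat 0, .ofNat 29511729872077248647921664000, .ofNat 0⟩)
    (by decide +kernel)
theorem L01923 : Good (Phi V4.P V4.D (-1) (-1)) ⟨3, 7, 2, 0, 2, 0, 1, 0, 2, 2⟩ :=
  out_sound (S := T4.ds_mm) T4.ok_mm (w := 48) (j := 3) (by decide +kernel)
theorem L01924 : Good (Phi V4.P V4.D (-1) (-1)) ⟨2, 3, 2, 0, 2, 0, 1, 0, 2, 3⟩ :=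
  out_sound (S := T4.ds_mm) T4.ok_mm (w := 24) (j := 1) (by decide +kernel)
theorem L01925 : Good (Phi V4.P V4.D (-1) (-1)) ⟨2, 2, 2, 0, 2, 0, 2, 2, 2, 2⟩ :=
  leaf_sound (S := T4.ds_mm) T4.ok_mm (w := 160) (c := ⟨⟨.negSucc 614, .negSucc 133, .negSucc 36, .ofNat 112, .ofNat 193, .ofNat 125⟩, ⟨.ofNat 34, .ofNat 64, .ofNat 108, .negSucc 25, .negSucc 22, .negSucc 18⟩, ⟨.ofNat 271, .ofNat 158, .ofNat 30, .negSucc 34, .negSucc 222, .negSucc 83⟩, ⟨.negSucc 1295, .negSucc 69, .negSucc 50, .ofNat 182, .ofNat 378, .ofNat 237⟩, ⟨.ofNat 17, .negSucc 18, .ofNat 15, .negSucc 290, .ofNat 14, .ofNat 5⟩, .ofNat 320, .ofNat 59, .ofNat 0, .ofNat 59, .ofNat 761, .ofNat 0, .ofNat 376, .negSucc 63, .negSucc 369, .ofNat 0, .ofNat 211, .ofNat 37, .ofNat 0, .ofNat 0, .ofNat 753, .ofNat 7721, .ofNat 5747102472825268051196982067200, .ofNat 0, .ofNat 0, .ofNat 0, .ofNat 0, .ofNat 0, .ofNat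 0, .ofNat 0, .ofNat 0, .ofNat 0, .ofNat 0, .ofNat 0, .ofNat 146286049135944831095614419763200, .ofNat 0, .ofNat 0, .ofNat 0⟩)
    (by decide +kernel)
theorem L01926 : Good (Phi V4.P V4.D (-1) (-1)) ⟨2, 2, 2, 0, 2, 0, 2, 2, 2, 3⟩ :=
  leaf_sound (S := T4.ds_mm) T4.ok_mm (w := 168) (c := ⟨⟨.negSucc 742, .negSucc 110, .ofNat 28, .ofNat 225, .ofNat 364, .ofNat 132⟩, ⟨.ofNat 77, .ofNat 48, .ofNat 61, .negSucc 46, .negSucc 54, .negSucc 39⟩, ⟨.ofNat 420, .ofNat 125, .negSucc 28, .negSucc 153, .negSucc 362, .negSucc 110⟩, ⟨.negSucc 1481, .negSucc 64, .ofNat 26, .ofNat 383, .ofNat 683, .ofNat 178⟩, ⟨.negSucc 64, .negSucc 29, .ofNat 3, .negSucc 271, .ofNat 101, .negSucc 209⟩, .ofNat 319, .ofNat 58, .ofNat 0, .ofNat 58, .ofNat 757, .ofNat 0, .ofNat 351, .negSucc 58, .negSucc 359, .ofNat 0, .ofNat 196, .ofNat 33, .ofNat 0, .ofNat 0, .ofNat 697, .ofNat 72418, .ofNat 1093108703112014175060089005670400,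 .ofNat 0, .ofNat 0, .ofNat 0, .ofNat 3307170555166459390631113811558400, .ofNat 0, .ofNat 0, .ofNat 0, .ofNat 1415544717280542661767974407372800, .ofNat 0, .ofNat 0, .ofNat 0, .ofNat 3661234151412788011344499782451200, .ofNat 0, .ofNat 0, .ofNat 0⟩)
    (by decide +kernel)
theorem L01927 : Good (Phi V4.P V4.D (-1) (-1)) ⟨3, 4, 2, 0, 2, 0, 2, 3, 2, 2⟩ :=
  leaf_sound (S := T4.ds_mm) T4.ok_mm (w := 168) (c := ⟨⟨.negSucc 429, .negSucc 43, .negSucc 54, .ofNat 133, .ofNat 406, .ofNat 77⟩, ⟨.ofNat 10, .ofNat 16, .ofNat 61, .negSucc 6, .negSucc 15, .negSucc 4⟩, ⟨.ofNat 63, .ofNat 52, .ofNat 38, .negSucc 73, .negSucc 400, .negSucc 20⟩, ⟨.negSucc 933, .negSucc 39, .negSucc 83, .ofNat 274, .ofNat 861, .ofNat 157⟩, ⟨.ofNat 8, .negSucc 12, .ofNat 33, .negSucc 241, .ofNat 43, .ofNat 2⟩, .ofNat 447, .ofNat 91, .ofNat 0, .ofNat 91, .ofNat 2343, .ofNat 0, .ofNat 374, .negSucc 46,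 .negSucc 378, .ofNat 0, .ofNat 129, .ofNat 16, .ofNat 0, .ofNat 0, .ofNat 741, .ofNat 2062, .ofNat 0, .ofNat 0, .ofNat 206097967392474718509465600, .ofNat 0, .ofNat 0, .ofNat 981116404590163474806860257689600, .ofNat 0, .ofNat 0, .ofNat 0, .ofNat 0, .ofNat 0, .ofNat 0, .ofNat 0, .ofNat 1107196521222249553519966578278400, .ofNat 0, .ofNat 0⟩)
    (by decide +kernel)
theorem L01928 : Good (Phi V4.P V4.D (-1) (-1)) ⟨4, 10, 3, 0, 2, 0, 3, 6, 2, 2⟩ :=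
  leaf_sound (S := T4.ds_mm) T4.ok_mm (w := 176) (c := ⟨⟨.negSucc 548, .negSucc 27, .ofNat 7, .ofNat 233, .ofNat 194, .ofNat 102⟩, ⟨.ofNat 54, .ofNat 16, .ofNat 29, .negSucc 37, .negSucc 23, .negSucc 11⟩, ⟨.ofNat 184, .ofNat 31, .negSucc 5, .negSucc 160, .negSucc 192, .negSucc 48⟩, ⟨.negSucc 1061, .negSucc 14, .ofNat 5, .ofNat 412, .ofNat 373, .ofNat 196⟩, ⟨.ofNat 3, .ofNat 2, .negSucc 0, .negSucc 251, .ofNat 21, .ofNat 2⟩, .ofNat 515, .ofNat 446, .ofNat 0, .ofNat 446, .ofNat 3665, .ofNat 0, .ofNat 352, .negSucc 146, .negSucc 398, .ofNat 0, .ofNat 125, .ofNat 50, .ofNat 0, .ofNat 0, .ofNat 753, .ofNat 6009, .ofNat 0, .ofNat 0, .ofNat 0, .ofNat 0, .ofNat 0, .ofNat 0, .ofNat 0, .ofNat 0, .ofNat 0, .ofNat 67678360284246016125957136868966400, .ofNat 0, .ofNat 0, .ofNat 0, .ofNat 0, .ofNat 0, .ofNat 0⟩)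
    (by decide +kernel)
theorem L01929 : Good (Phi V4.P V4.D (-1) (-1)) ⟨4, 10, 3, 0, 2, 0, 3, 7, 2, 2⟩ :=
  leaf_sound (S := T4.ds_mm) T4.ok_mm (w := 176) (c := ⟨⟨.negSucc 424, .ofNat 10, .ofNat 12, .ofNat 341, .ofNat 419, .ofNat 99⟩, ⟨.ofNat 54, .negSucc 2, .ofNat 9, .negSucc 53, .negSucc 54, .negSucc 11⟩, ⟨.ofNat 56, .negSucc 5, .negSucc 11, .negSucc 268, .negSucc 410, .negSucc 36⟩, ⟨.negSucc 805, .ofNat 23, .ofNat 16, .ofNat 618, .ofNat 804, .ofNat 189⟩, ⟨.ofNat 5, .negSucc 5, .negSucc 2, .negSucc 212, .ofNat 48, .ofNat 8⟩, .ofNat 519, .ofNat 470, .ofNat 0, .ofNat 470, .ofNat 3882, .ofNat 0, .ofNat 378, .negSucc 162, .negSucc 523, .ofNat 0, .ofNat 131, .ofNat 65, .ofNat 0, .ofNat 0, .ofNat 833, .ofNat 3385, .ofNat 0, .ofNat 0, .ofNat 0, .ofNat 0, .ofNat 0, .ofNat 202951426714097016320636932325376000, .ofNat 0, .ofNat 0, .ofNat 0, .ofNat 113842269284948186095408184819712000,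 .ofNat 0, .ofNat 0, .ofNat 0, .ofNat 201780302541079665283459211014963200, .ofNat 0, .ofNat 0⟩)
    (by decide +kernel)
theorem L01930 : Good (Phi V4.P V4.D (-1) (-1)) ⟨4, 10, 3, 1, 2, 0, 2, 3, 2, 2⟩ :=
  leaf_sound (S := T4.ds_mm) T4.ok_mm (w := 176) (c := ⟨⟨.negSucc 636, .ofNat 0, .ofNat 19, .ofNat 287, .ofNat 640, .ofNat 111⟩, ⟨.ofNat 129, .ofNat 0, .negSucc 4, .negSucc 64, .negSucc 127, .negSucc 22⟩, ⟨.ofNat 273, .ofNat 0, .negSucc 14, .negSucc 214, .negSucc 633, .negSucc 55⟩, ⟨.negSucc 1171, .ofNat 0, .ofNat 7, .ofNat 477, .ofNat 1191, .ofNat 205⟩, ⟨.ofNat 2, .ofNat 0, .negSucc 130, .negSucc 258, .ofNat 61, .negSucc 1⟩, .ofNat 807, .ofNat 1680, .ofNat 0, .ofNat 1680, .ofNat 8354, .ofNat 0, .ofNat 297, .negSucc 266, .negSucc 453, .ofNat 0, .ofNat 121, .ofNat 91, .ofNat 0, .ofNat 0, .ofNat 790, .ofNat 2732, .ofNat 0, .ofNat 0, .ofNat 2914055344944252883619020800,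 .ofNat 0, .ofNat 0, .ofNat 18471935550730776009538833639014400, .ofNat 3213044866128554800131656908800, .ofNat 0, .ofNat 0, .ofNat 18104321753571439943073529646284800, .ofNat 4960776173383414900945059840000, .ofNat 0, .ofNat 0, .ofNat 15636293045134967198781567664128000, .ofNat 34493975619407252376728371200, .ofNat 0⟩)
    (by decide +kernel)
theorem L01931 : Good (Phi V4.P V4.D (-1) (-1)) ⟨4, 11, 2, 0, 2, 0, 3, 6, 2, 2⟩ :=
  leaf_sound (S := T4.ds_mm) T4.ok_mm (w := 176) (c := ⟨⟨.negSucc 657, .negSucc 7, .negSucc 1, .ofNat 351, .ofNat 225, .ofNat 126⟩, ⟨.ofNat 116, .ofNat 1, .ofNat 67, .negSucc 95, .negSucc 48, .negSucc 28⟩, ⟨.ofNat 294, .ofNat 12, .ofNat 0, .negSucc 274, .negSucc 223, .negSucc 72⟩, ⟨.negSucc 1174, .ofNat 8, .negSucc 3, .ofNat 564, .ofNat 400, .ofNat 224⟩, ⟨.ofNat 5, .negSucc 4, .ofNat 3, .negSucc 259, .ofNat 17, .ofNat 4⟩, .ofNat 435, .ofNat 271,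 .ofNat 0, .ofNat 271, .ofNat 1487, .ofNat 0, .ofNat 363, .negSucc 167, .negSucc 469, .ofNat 0, .ofNat 189, .ofNat 93, .ofNat 0, .ofNat 0, .ofNat 799, .ofNat 5531, .ofNat 0, .ofNat 0, .ofNat 0, .ofNat 0, .ofNat 0, .ofNat 0, .ofNat 0, .ofNat 0, .ofNat 0, .ofNat 0, .ofNat 0, .ofNat 0, .ofNat 0, .ofNat 0, .ofNat 0, .ofNat 0⟩)
    (by decide +kernel)
theorem L01932 : Good (Phi V4.P V4.D (-1) (-1)) ⟨4, 11, 2, 0, 2, 0, 3, 7, 2, 2⟩ :=
  leaf_sound (S := T4.ds_mm) T4.ok_mm (w := 176) (c := ⟨⟨.negSucc 529, .negSucc 30, .ofNat 83, .ofNat 483, .ofNat 530, .ofNat 120⟩, ⟨.ofNat 110, .ofNat 7, .negSucc 4, .negSucc 120, .negSucc 115, .negSucc 25⟩, ⟨.ofNat 163, .ofNat 34, .negSucc 82, .negSucc 404, .negSucc 521, .negSucc 58⟩, ⟨.negSucc 940, .negSucc 48, .ofNat 131, .ofNat 813, .ofNat 947, .ofNat 219⟩, ⟨.negSucc 8, .negSucc 8, .ofNat 15, .negSucc 220, .ofNat 44, .ofNat 19⟩, .ofNat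 430, .ofNat 252, .ofNat 0, .ofNat 252, .ofNat 1456, .ofNat 0, .ofNat 386, .negSucc 167, .negSucc 593, .ofNat 0, .ofNat 200, .ofNat 110, .ofNat 0, .ofNat 0, .ofNat 878, .ofNat 1490, .ofNat 0, .ofNat 0, .ofNat 0, .ofNat 0, .ofNat 0, .ofNat 0, .ofNat 0, .ofNat 0, .ofNat 0, .ofNat 0, .ofNat 0, .ofNat 0, .ofNat 0, .ofNat 39664820727825342704031917880115200, .ofNat 0, .ofNat 0⟩)
    (by decide +kernel)
theorem L01933 : Good (Phi V4.P V4.D (-1) (-1)) ⟨3, 4, 2, 0, 2, 0, 3, 6, 3, 6⟩ :=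
  leaf_sound (S := T4.ds_mm) T4.ok_mm (w := 176) (c := ⟨⟨.negSucc 387, .negSucc 19, .negSucc 44, .ofNat 207, .ofNat 152, .ofNat 31⟩, ⟨.ofNat 8, .ofNat 13, .ofNat 48, .negSucc 9, .negSucc 4, .negSucc 1⟩, ⟨.ofNat 73, .ofNat 25, .ofNat 55, .negSucc 150, .negSucc 145, .negSucc 9⟩, ⟨.negSucc 844, .ofNat 3, .negSucc 94, .ofNat 429, .ofNat 328, .ofNat 61⟩, ⟨.negSucc 4, .negSucc 5, .negSucc 30, .negSucc 215, .ofNat 34, .negSucc 17⟩, .ofNat 448, .ofNat 90, .ofNat 0, .ofNat 90, .ofNat 2383, .ofNat 0, .ofNat 328, .negSucc 39, .negSucc 317, .ofNat 0, .ofNat 112, .ofNat 13, .ofNat 0, .ofNat 0, .ofNat 653, .ofNat 26929, .ofNat 13083748265659294954484856048844800, .ofNat 0, .ofNat 0, .ofNat 0, .ofNat 52834062986544214808699796769996800, .ofNat 1239496077010511753815772469657600, .ofNat 46146370120655647809366864691200, .ofNat 0, .ofNat 58540154931179357172494570304307200, .ofNat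 0, .ofNat 50849047534708564273663259443200, .ofNat 0, .ofNat 107386356599658106973083104863846400, .ofNat 4329097841753235177795580487270400, .ofNat 37219686319777799834018670182400, .ofNat 0⟩)
    (by decide +kernel)
theorem L01934 : Good (Phi V4.P V4.D (-1) (-1)) ⟨3, 4, 2, 0, 2, 0, 3, 7, 3, 6⟩ :=
  leaf_sound (S := T4.ds_mm) T4.ok_mm (w := 176) (c := ⟨⟨.negSucc 287, .ofNat 22, .negSucc 82, .ofNat 310, .ofNat 277, .ofNat 14⟩, ⟨.ofNat 12, .ofNat 2, .ofNat 18, .negSucc 16, .negSucc 12, .negSucc 1⟩, ⟨.negSucc 18, .negSucc 17, .ofNat 84, .negSucc 257, .negSucc 264, .ofNat 9⟩, ⟨.negSucc 606, .ofNat 56, .negSucc 160, .ofNat 637, .ofNat 580, .ofNat 23⟩, ⟨.ofNat 5, .negSucc 2, .negSucc 44, .negSucc 165, .ofNat 18, .negSucc 8⟩, .ofNat 331, .ofNat 22, .ofNat 0, .ofNat 22, .ofNat 829, .ofNat 0, .ofNat 372, .negSucc 21, .negSucc 512, .ofNat 0, .ofNat 197, .ofNat 13, .ofNat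 0, .ofNat 0, .ofNat 777, .ofNat 6743, .ofNat 1743787503299602883971473054105600, .ofNat 0, .ofNat 0, .ofNat 0, .ofNat 0, .ofNat 10056372833510852639016956932915200, .ofNat 0, .ofNat 0, .ofNat 0, .ofNat 0, .ofNat 0, .ofNat 0, .ofNat 0, .ofNat 17043106798590802157479957364736000, .ofNat 34009930644797018219630454374400, .ofNat 0⟩)
    (by decide +kernel)
theorem L01935 : Good (Phi V4.P V4.D (-1) (-1)) ⟨3, 5, 2, 0, 2, 0, 3, 6, 3, 6⟩ :=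
  leaf_sound (S := T4.ds_mm) T4.ok_mm (w := 176) (c := ⟨⟨.negSucc 546, .negSucc 13, .ofNat 5, .ofNat 371, .ofNat 226, .ofNat 50⟩, ⟨.ofNat 79, .ofNat 10, .ofNat 47, .negSucc 80, .negSucc 38, .negSucc 7⟩, ⟨.ofNat 233, .ofNat 21, .negSucc 5, .negSucc 302, .negSucc 219, .negSucc 31⟩, ⟨.negSucc 1019, .ofNat 15, .ofNat 2, .ofNat 636, .ofNat 416, .ofNat 96⟩, ⟨.negSucc 7, .ofNat 2, .negSucc 3, .negSucc 243, .ofNat 31, .ofNat 5⟩, .ofNat 434, .ofNat 247, .ofNat 0, .ofNat 247, .ofNat 1629, .ofNat 0, .ofNat 328, .negSucc 132, .negSucc 388, .ofNat 0, .ofNat 157, .ofNat 64, .ofNat 0, .ofNat 0, .ofNat 700, .ofNat 10366, .ofNat 5884791634814250235863506721177600, .ofNat 0, .ofNat 0, .ofNat 0, .ofNat 0, .ofNat 0, .ofNat 0, .ofNat 0, .ofNat 0, .ofNat 0, .ofNat 0, .ofNat 0, .ofNat 0, .ofNat 0, .ofNat 0, .ofNat 0⟩)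
    (by decide +kernel)
theorem L01936 : Good (Phi V4.P V4.D (-1) (-1)) ⟨3, 5, 2, 0, 2, 0, 3, 7, 3, 6⟩ :=
  leaf_sound (S := T4.ds_mm) T4.ok_mm (w := 176) (c := ⟨⟨.negSucc 416, .ofNat 44, .ofNat 1, .ofNat 572, .ofNat 419, .ofNat 5⟩, ⟨.ofNat 69, .negSucc 10, .ofNat 8, .negSucc 107, .negSucc 66, .ofNat 0⟩, ⟨.ofNat 110, .negSucc 38, .negSucc 0, .negSucc 508, .negSucc 407, .ofNat 17⟩, ⟨.negSucc 766, .ofNat 75, .negSucc 1, .ofNat 1024, .ofNat 779, .ofNat 10⟩, ⟨.negSucc 0, .negSucc 4, .negSucc 3, .negSucc 164, .ofNat 28, .negSucc 1⟩, .ofNat 429, .ofNat 215, .ofNat 0, .ofNat 215, .ofNat 1658, .ofNat 0, .ofNat 350, .negSucc 120, .negSucc 503, .ofNat 0, .ofNat 161, .ofNat 69, .ofNat 0, .ofNat 0, .ofNat 768, .ofNat 2825, .ofNat 1047139347924782643298759291699200, .ofNat 0, .ofNat 0, .ofNat 0, .ofNat 0, .ofNat 0, .ofNat 0, .ofNat 0, .ofNat 0, .ofNat 4022769824327920609780912934092800,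 .ofNat 0, .ofNat 0, .ofNat 0, .ofNat 12189781807390220872815262826496000, .ofNat 0, .ofNat 0⟩)
    (by decide +kernel)
theorem L01937 : Good (Phi V4.P V4.D (-1) (-1)) ⟨2, 2, 2, 0, 2, 0, 3, 6, 4, 14⟩ :=
  out_sound (S := T4.ds_mm) T4.ok_mm (w := 32) (j := 1) (by decide +kernel)
theorem L01938 : Good (Phi V4.P V4.D (-1) (-1)) ⟨2, 2, 3, 0, 2, 0, 4, 14, 5, 28⟩ :=
  out_sound (S := T4.ds_mm) T4.ok_mm (w := 32) (j := 1) (by decide +kernel)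
theorem L01939 : Good (Phi V4.P V4.D (-1) (-1)) ⟨2, 2, 3, 0, 3, 0, 4, 15, 5, 28⟩ :=
  out_sound (S := T4.ds_mm) T4.ok_mm (w := 32) (j := 1) (by decide +kernel)
theorem L01940 : Good (Phi V4.P V4.D (-1) (-1)) ⟨2, 2, 3, 0, 3, 1, 4, 15, 5, 28⟩ :=
  out_sound (S := T4.ds_mm) T4.ok_mm (w := 40) (j := 2) (by decide +kernel)
theorem L01941 : Good (Phi V4.P V4.D (-1) (-1)) ⟨3, 4, 3, 1, 2, 0, 3, 7, 5, 28⟩ :=
  out_sound (S := T4.ds_mm) T4.ok_mm (w := 48) (j := 3) (by decide +kernel)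
theorem L01942 : Good (Phi V4.P V4.D (-1) (-1)) ⟨5, 20, 4, 2, 2, 0, 3, 7, 5, 28⟩ :=
  out_sound (S := T4.ds_mm) T4.ok_mm (w := 64) (j := 3) (by decide +kernel)
theorem L01943 : Good (Phi V4.P V4.D (-1) (-1)) ⟨6, 42, 5, 4, 2, 0, 3, 7, 5, 28⟩ :=
  out_sound (S := T4.ds_mm) T4.ok_mm (w := 72) (j := 3) (by decide +kernel)
theorem L01944 : Good (Phi V4.P V4.D (-1) (-1)) ⟨7, 86, 6, 8, 2, 0, 3, 7, 5, 28⟩ :=
  out_sound (S := T4.ds_mm) T4.ok_mm (w := 80) (j := 3) (by decide +kernel)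
theorem L01945 : Good (Phi V4.P V4.D (-1) (-1)) ⟨8, 174, 7, 16, 2, 0, 3, 7, 5, 28⟩ :=
  out_sound (S := T4.ds_mm) T4.ok_mm (w := 88) (j := 3) (by decide +kernel)
theorem L01946 : Good (Phi V4.P V4.D (-1) (-1)) ⟨9, 350, 8, 32, 2, 0, 3, 7, 5, 28⟩ :=
  out_sound (S := T4.ds_mm) T4.ok_mm (w := 96) (j := 3) (by decide +kernel)
theorem L01947 : Good (Phi V4.P V4.D (-1) (-1)) ⟨9, 351, 8, 32, 2, 0, 4, 14, 5, 28⟩ :=
  out_sound (S := T4.ds_mm) T4.ok_mm (w := 32) (j := 1) (by decide +kernel)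
theorem L01948 : Good (Phi V4.P V4.D (-1) (-1)) ⟨9, 351, 8, 32, 3, 0, 4, 15, 5, 28⟩ :=
  out_sound (S := T4.ds_mm) T4.ok_mm (w := 32) (j := 1) (by decide +kernel)
theorem L01949 : Good (Phi V4.P V4.D (-1) (-1)) ⟨9, 351, 8, 32, 3, 1, 4, 15, 5, 28⟩ :=
  out_sound (S := T4.ds_mm) T4.ok_mm (w := 40) (j := 2) (by decide +kernel)
theorem L01950 : Good (Phi V4.P V4.D (-1) (-1)) ⟨8, 175, 8, 33, 2, 0, 3, 7, 5, 28⟩ :=
  out_sound (S := T4.ds_mm) T4.ok_mm (w := 88) (j := 3) (by decide +kernel)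
theorem L01951 : Good (Phi V4.P V4.D (-1) (-1)) ⟨7, 87, 7, 17, 2, 0, 3, 7, 5, 28⟩ :=
  out_sound (S := T4.ds_mm) T4.ok_mm (w := 80) (j := 3) (by decide +kernel)
theorem L01952 : Good (Phi V4.P V4.D (-1) (-1)) ⟨6, 43, 6, 9, 2, 0, 3, 7, 5, 28⟩ :=
  out_sound (S := T4.ds_mm) T4.ok_mm (w := 72) (j := 3) (by decide +kernel)
theorem L01953 : Good (Phi V4.P V4.D (-1) (-1)) ⟨5, 21, 5, 5, 2, 0, 3, 7, 5, 28⟩ :=
  out_sound (S := T4.ds_mm) T4.ok_mm (w := 64) (j := 3) (by decide +kernel)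
theorem L01954 : Good (Phi V4.P V4.D (-1) (-1)) ⟨4, 10, 4, 3, 2, 0, 3, 7, 5, 28⟩ :=
  out_sound (S := T4.ds_mm) T4.ok_mm (w := 56) (j := 3) (by decide +kernel)
theorem L01955 : Good (Phi V4.P V4.D (-1) (-1)) ⟨4, 11, 4, 2, 2, 0, 4, 14, 5, 28⟩ :=
  out_sound (S := T4.ds_mm) T4.ok_mm (w := 32) (j := 1) (by decide +kernel)
theorem L01956 : Good (Phi V4.P V4.D (-1) (-1)) ⟨4, 11, 4, 2, 3, 0, 4, 15, 5, 28⟩ :=
  out_sound (S := T4.ds_mm) T4.ok_mm (w := 32) (j := 1) (by decide +kernel)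
theorem L01957 : Good (Phi V4.P V4.D (-1) (-1)) ⟨4, 11, 4, 2, 3, 1, 4, 15, 5, 28⟩ :=
  out_sound (S := T4.ds_mm) T4.ok_mm (w := 40) (j := 2) (by decide +kernel)
theorem L01958 : Good (Phi V4.P V4.D (-1) (-1)) ⟨5, 22, 4, 3, 2, 0, 3, 7, 5, 28⟩ :=
  out_sound (S := T4.ds_mm) T4.ok_mm (w := 64) (j := 3) (by decide +kernel)
theorem L01959 : Good (Phi V4.P V4.D (-1) (-1)) ⟨6, 46, 5, 6, 2, 0, 4, 14, 5, 28⟩ :=
  out_sound (S := T4.ds_mm) T4.ok_mm (w := 32) (j := 1) (by decide +kernel)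
theorem L01960 : Good (Phi V4.P V4.D (-1) (-1)) ⟨6, 46, 5, 6, 3, 0, 4, 15, 5, 28⟩ :=
  out_sound (S := T4.ds_mm) T4.ok_mm (w := 32) (j := 1) (by decide +kernel)
theorem L01961 : Good (Phi V4.P V4.D (-1) (-1)) ⟨6, 46, 5, 6, 3, 1, 4, 15, 5, 28⟩ :=
  out_sound (S := T4.ds_mm) T4.ok_mm (w := 40) (j := 2) (by decide +kernel)
theorem L01962 : Good (Phi V4.P V4.D (-1) (-1)) ⟨6, 46, 5, 7, 2, 0, 3, 7, 5, 28⟩ :=
  out_sound (S := T4.ds_mm) T4.ok_mm (w := 72) (j := 3) (by decide +kernel)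
theorem L01963 : Good (Phi V4.P V4.D (-1) (-1)) ⟨6, 47, 4, 3, 2, 0, 4, 14, 5, 28⟩ :=
  out_sound (S := T4.ds_mm) T4.ok_mm (w := 32) (j := 1) (by decide +kernel)
theorem L01964 : Good (Phi V4.P V4.D (-1) (-1)) ⟨6, 47, 4, 3, 3, 0, 4, 15, 5, 28⟩ :=
  out_sound (S := T4.ds_mm) T4.ok_mm (w := 32) (j := 1) (by decide +kernel)
theorem L01965 : Good (Phi V4.P V4.D (-1) (-1)) ⟨6, 47, 4, 3, 3, 1, 4, 15, 5, 28⟩ :=
  out_sound (S := T4.ds_mm) T4.ok_mm (w := 40) (j := 2) (by decide +kernel)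
theorem L01966 : Good (Phi V4.P V4.D (-1) (-1)) ⟨2, 2, 2, 0, 2, 0, 3, 7, 5, 29⟩ :=
  out_sound (S := T4.ds_mm) T4.ok_mm (w := 32) (j := 1) (by decide +kernel)
theorem L01967 : Good (Phi V4.P V4.D (-1) (-1)) ⟨2, 2, 2, 0, 2, 0, 2, 3, 4, 15⟩ :=
  out_sound (S := T4.ds_mm) T4.ok_mm (w := 24) (j := 1) (by decide +kernel)
theorem L01968 : Good (Phi V4.P V4.D (-1) (-1)) ⟨2, 3, 2, 0, 2, 0, 2, 2, 2, 2⟩ :=
  leaf_sound (S := T4.ds_mm) T4.ok_mm (w := 160) (c := ⟨⟨.negSucc 924, .negSucc 265, .ofNat 48, .ofNat 278, .ofNat 219, .ofNat 160⟩, ⟨.ofNat 205, .ofNat 105, .ofNat 82, .negSucc 107, .negSucc 66, .negSucc 48⟩, ⟨.ofNat 594, .ofNat 276, .negSucc 43, .negSucc 189, .negSucc 251, .negSucc 118⟩, ⟨.negSucc 1555, .negSucc 271, .ofNat 69, .ofNat 373, .ofNat 374, .ofNat 268⟩, ⟨.ofNat 4, .ofNat 20, .ofNat 18, .negSucc 301, .ofNat 6, .negSucc 5⟩, .ofNat 474, .ofNat 391, .ofNat 0, .ofNat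 391, .ofNat 1447, .ofNat 0, .ofNat 313, .negSucc 217, .negSucc 381, .ofNat 0, .ofNat 197, .ofNat 114, .ofNat 0, .ofNat 0, .ofNat 753, .ofNat 6487, .ofNat 3219338858327623071855909273600, .ofNat 0, .ofNat 2249553459050209758884659200, .ofNat 0, .ofNat 150008513412609948599070385766400, .ofNat 0, .ofNat 1448266385435599237888239206400, .ofNat 0, .ofNat 37807835736957465971208801484800, .ofNat 0, .ofNat 2678487273864891550412675481600, .ofNat 0, .ofNat 36981246571212497440857705676800, .ofNat 0, .ofNat 824855782295314602358367846400, .ofNat 0⟩)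
    (by decide +kernel)
theorem L01969 : Good (Phi V4.P V4.D (-1) (-1)) ⟨2, 3, 2, 0, 2, 0, 2, 2, 2, 3⟩ :=
  leaf_sound (S := T4.ds_mm) T4.ok_mm (w := 168) (c := ⟨⟨.negSucc 990, .negSucc 100, .ofNat 24, .ofNat 381, .ofNat 415, .ofNat 127⟩, ⟨.ofNat 242, .ofNat 47, .ofNat 60, .negSucc 139, .negSucc 118, .negSucc 49⟩, ⟨.ofNat 680, .ofNat 120, .negSucc 24, .negSucc 300, .negSucc 416, .negSucc 119⟩, ⟨.negSucc 1697, .negSucc 33, .ofNat 13, .ofNat 550, .ofNat 753, .ofNat 138⟩, ⟨.negSucc 97, .ofNat 26, .negSucc 16, .negSucc 293, .ofNat 138, .negSucc 233⟩, .ofNat 476, .ofNat 394, .ofNat 0, .ofNat 394, .ofNat 1457, .ofNat 0, .ofNat 294, .negSucc 205, .negSucc 370, .ofNat 0, .ofNat 184, .ofNat 109, .ofNat 0, .ofNat 0, .ofNat 704, .ofNat 64496, .ofNat 1047982534377851181661354878566400, .ofNat 0, .ofNat 0, .ofNat 0, .ofNat 2589637936957893298983826096128000, .ofNat 0, .ofNat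 2989670437449873327939334963200, .ofNat 0, .ofNat 1588880060336354541889607486668800, .ofNat 0, .ofNat 4032764753088236151682105344000, .ofNat 0, .ofNat 3667961406229797066560846482636800, .ofNat 0, .ofNat 656025589476096455573766144000, .ofNat 0⟩)
    (by decide +kernel)
theorem L01970 : Good (Phi V4.P V4.D (-1) (-1)) ⟨4, 12, 3, 0, 2, 0, 3, 6, 1, 1⟩ :=
  out_sound (S := T4.ds_mm) T4.ok_mm (w := 56) (j := 3) (by decide +kernel)
theorem L01971 : Good (Phi V4.P V4.D (-1) (-1)) ⟨4, 12, 3, 1, 2, 0, 3, 6, 2, 2⟩ :=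
  leaf_sound (S := T4.ds_mm) T4.ok_mm (w := 176) (c := ⟨⟨.negSucc 744, .negSucc 67, .ofNat 17, .ofNat 441, .ofNat 257, .ofNat 143⟩, ⟨.ofNat 206, .ofNat 26, .ofNat 31, .negSucc 156, .negSucc 79, .negSucc 43⟩, ⟨.ofNat 381, .ofNat 70, .negSucc 14, .negSucc 360, .negSucc 255, .negSucc 90⟩, ⟨.negSucc 1263, .negSucc 86, .ofNat 32, .ofNat 655, .ofNat 439, .ofNat 245⟩, ⟨.negSucc 1, .negSucc 11, .ofNat 20, .negSucc 283, .ofNat 22, .ofNat 1⟩, .ofNat 643, .ofNat 773, .ofNat 0, .ofNat 773, .ofNat 2565, .ofNat 0, .ofNat 303, .negSucc 267, .negSucc 486, .ofNat 0, .ofNat 191, .ofNat 152, .ofNat 0, .ofNat 0, .ofNat 810, .ofNat 5198, .ofNat 0, .ofNat 0, .ofNat 0, .ofNat 0, .ofNat 0, .ofNat 24289183064991641526870427356364800, .ofNat 2839952621623503712686597734400, .ofNat 0, .ofNat 0, .ofNat 45731085727565889676415942944358400, .ofNat 3165962002515800770192028467200, .ofNat 0, .ofNat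 0, .ofNat 66264411386050264462731507243417600, .ofNat 0, .ofNat 0⟩)
    (by decide +kernel)
theorem L01972 : Good (Phi V4.P V4.D (-1) (-1)) ⟨4, 12, 3, 1, 2, 0, 3, 6, 2, 3⟩ :=
  leaf_sound (S := T4.ds_mm) T4.ok_mm (w := 176) (c := ⟨⟨.negSucc 661, .ofNat 19, .ofNat 9, .ofNat 509, .ofNat 279, .ofNat 137⟩, ⟨.ofNat 194, .negSucc 5, .ofNat 19, .negSucc 179, .negSucc 87, .negSucc 40⟩, ⟨.ofNat 349, .negSucc 14, .negSucc 8, .negSucc 431, .negSucc 274, .negSucc 98⟩, ⟨.negSucc 1106, .ofNat 52, .ofNat 3, .ofNat 770, .ofNat 479, .ofNat 239⟩, ⟨.ofNat 9, .ofNat 6, .negSucc 3, .negSucc 274, .ofNat 29, .ofNat 22⟩, .ofNat 647, .ofNat 784, .ofNat 0, .ofNat 784, .ofNat 2606, .ofNat 0, .ofNat 273, .negSucc 242, .negSucc 418, .ofNat 0, .ofNat 171, .ofNat 130, .ofNat 0, .ofNat 0, .ofNat 723, .ofNat 18361, .ofNat 213130353785178415501085114577715200, .ofNat 0, .ofNat 0, .ofNat 0, .ofNat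 730573614066139506156217830683443200, .ofNat 0, .ofNat 2074847959562943271254412492800, .ofNat 0, .ofNat 1062535958791595252307737990450380800, .ofNat 0, .ofNat 2953085423170553082753004339200, .ofNat 0, .ofNat 708609263023273314287014093887897600, .ofNat 0, .ofNat 2109906735267260126103758438400, .ofNat 0⟩)
    (by decide +kernel)
theorem L01973 : Good (Phi V4.P V4.D (-1) (-1)) ⟨4, 13, 2, 0, 2, 0, 3, 6, 1, 1⟩ :=
  out_sound (S := T4.ds_mm) T4.ok_mm (w := 56) (j := 3) (by decide +kernel)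
theorem L01974 : Good (Phi V4.P V4.D (-1) (-1)) ⟨3, 7, 2, 0, 2, 0, 3, 6, 1, 1⟩ :=
  out_sound (S := T4.ds_mm) T4.ok_mm (w := 48) (j := 3) (by decide +kernel)
theorem L01975 : Good (Phi V4.P V4.D (-1) (-1)) ⟨4, 12, 3, 0, 2, 0, 3, 7, 1, 1⟩ :=
  out_sound (S := T4.ds_mm) T4.ok_mm (w := 56) (j := 3) (by decide +kernel)
theorem L01976 : Good (Phi V4.P V4.D (-1) (-1)) ⟨4, 12, 3, 1, 2, 0, 4, 14, 2, 2⟩ :=
  leaf_sound (S := T4.ds_mm) T4.ok_mm (w := 176) (c := ⟨⟨.negSucc 563, .negSucc 47, .ofNat 5, .ofNat 648, .ofNat 234, .ofNat 147⟩, ⟨.ofNat 166, .ofNat 13, .ofNat 13, .negSucc 219, .negSucc 70, .negSucc 41⟩, ⟨.ofNat 195, .ofNat 50, .negSucc 3, .negSucc 563, .negSucc 229, .negSucc 85⟩, ⟨.negSucc 948, .negSucc 77, .ofNat 4, .ofNat 1019, .ofNat 401, .ofNat 256⟩, ⟨.ofNat 3, .negSucc 21, .ofNat 2, .negSucc 221, .ofNat 19, .ofNat 16⟩, .ofNat 644, .ofNat 774, .ofNat 0, .ofNat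 774, .ofNat 2566, .ofNat 0, .ofNat 323, .negSucc 285, .negSucc 634, .ofNat 0, .ofNat 204, .ofNat 197, .ofNat 0, .ofNat 0, .ofNat 915, .ofNat 5564, .ofNat 0, .ofNat 0, .ofNat 0, .ofNat 0, .ofNat 0, .ofNat 231719173146725210625467784521318400, .ofNat 20900233691586958184143021670400, .ofNat 0, .ofNat 0, .ofNat 345304105933908777123129060438835200, .ofNat 20207664445985142842394987724800, .ofNat 0, .ofNat 0, .ofNat 414406142375512774941308988319334400, .ofNat 10304584301955786319960473600000, .ofNat 0⟩)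
    (by decide +kernel)
theorem L01977 : Good (Phi V4.P V4.D (-1) (-1)) ⟨4, 12, 3, 1, 2, 0, 4, 15, 2, 2⟩ :=
  leaf_sound (S := T4.ds_mm) T4.ok_mm (w := 176) (c := ⟨⟨.negSucc 386, .negSucc 5, .ofNat 2, .ofNat 908, .ofNat 392, .ofNat 88⟩, ⟨.ofNat 122, .negSucc 2, .negSucc 0, .negSucc 297, .negSucc 122, .negSucc 23⟩, ⟨.ofNat 23, .ofNat 12, .negSucc 3, .negSucc 822, .negSucc 386, .negSucc 23⟩, ⟨.negSucc 647, .negSucc 20, .ofNat 2, .ofNat 1482, .ofNat 664, .ofNat 152⟩, ⟨.ofNat 2, .negSucc 8, .ofNat 0, .negSucc 138, .ofNat 12, .ofNat 4⟩, .ofNat 742, .ofNat 1021, .ofNat 0, .ofNat 1021, .ofNat 3278, .ofNat 0, .ofNat 322, .negSucc 300, .negSucc 764, .ofNat 0, .ofNat 204, .ofNat 240, .ofNat 0, .ofNat 0, .ofNat 1009, .ofNat 2559, .ofNat 0, .ofNat 0, .ofNat 0, .ofNat 0, .ofNat 0, .ofNat 418042047094189805855605636517068800, .ofNat 23603011274595444126356865024000, .ofNat 0,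 .ofNat 0, .ofNat 220119694604393282491735780569907200, .ofNat 34896932622120849343732776960000, .ofNat 0, .ofNat 0, .ofNat 779152142240683592185305712558080000, .ofNat 13500762023255804067431684505600, .ofNat 0⟩)
    (by decide +kernel)
theorem L01978 : Good (Phi V4.P V4.D (-1) (-1)) ⟨4, 12, 3, 1, 2, 0, 3, 7, 2, 3⟩ :=
  leaf_sound (S := T4.ds_mm) T4.ok_mm (w := 176) (c := ⟨⟨.negSucc 522, .ofNat 74, .negSucc 7, .ofNat 880, .ofNat 541, .ofNat 20⟩, ⟨.ofNat 165, .negSucc 29, .ofNat 7, .negSucc 292, .negSucc 170, .negSucc 6⟩, ⟨.ofNat 217, .negSucc 70, .ofNat 9, .negSucc 807, .negSucc 527, .ofNat 24⟩, ⟨.negSucc 877, .ofNat 118, .negSucc 17, .ofNat 1429, .ofNat 918, .ofNat 31⟩, ⟨.negSucc 0, .ofNat 0, .negSucc 4, .negSucc 161, .ofNat 26, .negSucc 5⟩, .ofNat 744, .ofNat 1029, .ofNat 0, .ofNat 1029, .ofNat 3303, .ofNat 0, .ofNat 281, .negSucc 262, .negSucc 584, .ofNat 0,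 .ofNat 178, .ofNat 183, .ofNat 0, .ofNat 0, .ofNat 829, .ofNat 3784, .ofNat 32853044024048166351160793156812800, .ofNat 0, .ofNat 0, .ofNat 0, .ofNat 258628659717916721485881845533900800, .ofNat 163458979745858078631778477670400000, .ofNat 3541291368257113801334194176000, .ofNat 0, .ofNat 338328282540319436037362269814784000, .ofNat 30785594828202258017852144694067200, .ofNat 4156808531592428650009460736000, .ofNat 0, .ofNat 569793038761454614899898501929369600, .ofNat 263788408767672109243428297611673600, .ofNat 1445318879323199938294815129600, .ofNat 0⟩)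
    (by decide +kernel)
theorem L01979 : Good (Phi V4.P V4.D (-1) (-1)) ⟨4, 13, 2, 0, 2, 0, 3, 7, 1, 1⟩ :=
  out_sound (S := T4.ds_mm) T4.ok_mm (w := 56) (j := 3) (by decide +kernel)
theorem L01980 : Good (Phi V4.P V4.D (-1) (-1)) ⟨3, 7, 2, 0, 2, 0, 3, 7, 1, 1⟩ :=
  out_sound (S := T4.ds_mm) T4.ok_mm (w := 48) (j := 3) (by decide +kernel)
theorem L01981 : Good (Phi V4.P V4.D (-1) (-1)) ⟨2, 2, 2, 0, 2, 1, 1, 0, 2, 2⟩ :=
  leaf_sound (S := T4.ds_mm) T4.ok_mm (w := 160) (c := ⟨⟨.negSucc 845, .negSucc 193, .ofNat 83, .negSucc 24, .ofNat 319, .ofNat 196⟩, ⟨.ofNat 44, .ofNat 61, .ofNat 129, .negSucc 12, .negSucc 35, .negSucc 22⟩, ⟨.ofNat 823, .ofNat 264, .negSucc 98, .ofNat 87, .negSucc 575, .negSucc 162⟩, ⟨.negSucc 1797, .negSucc 122, .ofNat 62, .negSucc 100, .ofNat 625, .ofNat 377⟩, ⟨.negSucc 181, .negSucc 41, .negSucc 20, .negSucc 466, .negSucc 72, .negSucc 10⟩, .ofNat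 318, .ofNat 61, .ofNat 0, .ofNat 61, .ofNat 749, .ofNat 0, .ofNat 387, .negSucc 70, .negSucc 287, .ofNat 0, .ofNat 217, .ofNat 48, .ofNat 0, .ofNat 0, .ofNat 776, .ofNat 12024, .ofNat 0, .ofNat 0, .ofNat 0, .ofNat 0, .ofNat 142976591165291531715050943283200, .ofNat 0, .ofNat 0, .ofNat 0, .ofNat 34841493849181733189201166336000, .ofNat 0, .ofNat 0, .ofNat 0, .ofNat 135906459349933267344439640064000, .ofNat 0, .ofNat 0, .ofNat 0⟩)
    (by decide +kernel)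
theorem L01982 : Good (Phi V4.P V4.D (-1) (-1)) ⟨2, 2, 2, 0, 2, 1, 1, 0, 2, 3⟩ :=
  out_sound (S := T4.ds_mm) T4.ok_mm (w := 24) (j := 1) (by decide +kernel)
theorem L01983 : Good (Phi V4.P V4.D (-1) (-1)) ⟨2, 2, 2, 0, 2, 1, 2, 2, 2, 2⟩ :=
  leaf_sound (S := T4.ds_mm) T4.ok_mm (w := 160) (c := ⟨⟨.negSucc 579, .negSucc 79, .ofNat 69, .ofNat 10, .ofNat 243, .ofNat 141⟩, ⟨.ofNat 31, .ofNat 20, .ofNat 88, .negSucc 17, .negSucc 28, .negSucc 11⟩, ⟨.ofNat 320, .ofNat 117, .negSucc 70, .ofNat 34, .negSucc 295, .negSucc 102⟩, ⟨.negSucc 1240, .negSucc 10, .ofNat 57, .negSucc 28, .ofNat 481, .ofNat 287⟩, ⟨.negSucc 253, .negSucc 65, .ofNat 0, .negSucc 479, .ofNat 9, .ofNat 9⟩, .ofNat 319, .ofNat 57, .ofNat 0, .ofNat 57, .ofNat 756, .ofNat 0, .ofNat 391, .negSucc 65, .negSucc 338, .ofNat 0, .ofNat 216, .ofNat 40, .ofNat 0, .ofNat 0, .ofNat 754, .ofNat 3490, .ofNat 0, .ofNat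 0, .ofNat 0, .ofNat 0, .ofNat 0, .ofNat 0, .ofNat 0, .ofNat 0, .ofNat 0, .ofNat 0, .ofNat 0, .ofNat 0, .ofNat 0, .ofNat 0, .ofNat 0, .ofNat 0⟩)
    (by decide +kernel)
theorem L01984 : Good (Phi V4.P V4.D (-1) (-1)) ⟨2, 2, 2, 0, 2, 1, 2, 2, 2, 3⟩ :=
  leaf_sound (S := T4.ds_mm) T4.ok_mm (w := 168) (c := ⟨⟨.negSucc 536, .negSucc 12, .ofNat 45, .ofNat 122, .ofNat 311, .ofNat 113⟩, ⟨.ofNat 40, .ofNat 7, .ofNat 53, .negSucc 37, .negSucc 36, .negSucc 15⟩, ⟨.ofNat 285, .ofNat 42, .negSucc 46, .negSucc 68, .negSucc 320, .negSucc 81⟩, ⟨.negSucc 1120, .ofNat 57, .ofNat 35, .ofNat 183, .ofNat 611, .ofNat 223⟩, ⟨.negSucc 297, .negSucc 47, .ofNat 1, .negSucc 355, .ofNat 53, .ofNat 7⟩, .ofNat 322, .ofNat 52, .ofNat 0, .ofNat 52, .ofNat 770, .ofNat 0, .ofNat 1398, .negSucc 208, .negSucc 1307, .ofNat 0, .ofNat 770, .ofNat 105, .ofNat 0, .ofNat 0, .ofNat 2706, .ofNat 35218, .ofNat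 481534464628143740811753396633600, .ofNat 0, .ofNat 0, .ofNat 0, .ofNat 0, .ofNat 0, .ofNat 0, .ofNat 0, .ofNat 1298504597787732294998111866060800, .ofNat 670939034029672656750340630118400, .ofNat 0, .ofNat 0, .ofNat 0, .ofNat 0, .ofNat 0, .ofNat 0⟩)
    (by decide +kernel)
theorem L01985 : Good (Phi V4.P V4.D (-1) (-1)) ⟨2, 2, 2, 0, 2, 1, 2, 3, 1, 1⟩ :=
  leaf_sound (S := T4.ds_mm) T4.ok_mm (w := 160) (c := ⟨⟨.negSucc 371, .negSucc 10, .ofNat 92, .ofNat 66, .ofNat 472, .ofNat 290⟩, ⟨.ofNat 21, .ofNat 3, .ofNat 38, .negSucc 16, .negSucc 52, .negSucc 29⟩, ⟨.ofNat 64, .ofNat 42, .negSucc 93, .negSucc 20, .negSucc 477, .negSucc 190⟩, ⟨.negSucc 787, .ofNat 53, .ofNat 99, .ofNat 73, .ofNat 935, .ofNat 565⟩, ⟨.negSucc 244, .negSucc 59, .negSucc 5, .negSucc 444, .ofNat 87, .ofNat 12⟩, .ofNat 321, .ofNat 55, .ofNat 0, .ofNat 55, .ofNat 765, .ofNat 0, .ofNat 427, .negSucc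 67, .negSucc 469, .ofNat 0, .ofNat 233, .ofNat 41, .ofNat 0, .ofNat 0, .ofNat 816, .ofNat 1629, .ofNat 0, .ofNat 0, .ofNat 0, .ofNat 0, .ofNat 0, .ofNat 29968518312982668130242055372800, .ofNat 0, .ofNat 0, .ofNat 0, .ofNat 15179811214207724099697062707200, .ofNat 0, .ofNat 0, .ofNat 0, .ofNat 32100600576725713469032523366400, .ofNat 0, .ofNat 0⟩)
    (by decide +kernel)
theorem L01986 : Good (Phi V4.P V4.D (-1) (-1)) ⟨4, 12, 3, 0, 2, 1, 0, 0, 1, 1⟩ :=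
  out_sound (S := T4.ds_mm) T4.ok_mm (w := 56) (j := 3) (by decide +kernel)
theorem L01987 : Good (Phi V4.P V4.D (-1) (-1)) ⟨4, 12, 3, 1, 2, 1, 1, 0, 2, 2⟩ :=
  leaf_sound (S := T4.ds_mm) T4.ok_mm (w := 168) (c := ⟨⟨.negSucc 1177, .negSucc 38, .ofNat 27, .ofNat 107, .ofNat 451, .ofNat 261⟩, ⟨.ofNat 302, .ofNat 1, .ofNat 72, .negSucc 69, .negSucc 149, .negSucc 83⟩, ⟨.ofNat 1239, .ofNat 54, .negSucc 33, .negSucc 54, .negSucc 730, .negSucc 222⟩, ⟨.negSucc 2019, .negSucc 11, .ofNat 8, .ofNat 2, .ofNat 721, .ofNat 433⟩, ⟨.negSucc 135, .negSucc 8, .negSucc 10, .negSucc 564, .negSucc 136, .negSucc 16⟩, .ofNat 475, .ofNat 394, .ofNat 0, .ofNat 394, .ofNat 1465, .ofNat 0, .ofNat 323, .negSucc 228, .negSucc 307, .ofNat 0, .ofNat 202, .ofNat 102, .ofNat 0, .ofNat 0, .ofNat 779, .ofNat 7886, .ofNat 0, .ofNat 0, .ofNat 0, .ofNat 0, .ofNat 91100040707804324232702127295692800,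 .ofNat 0, .ofNat 40171242391733591983993651200, .ofNat 0, .ofNat 53841317501538332686681396110950400, .ofNat 0, .ofNat 40020903545700535512544051200, .ofNat 0, .ofNat 158470519279676298696410517209088000, .ofNat 0, .ofNat 0, .ofNat 0⟩)
    (by decide +kernel)
theorem L01988 : Good (Phi V4.P V4.D (-1) (-1)) ⟨4, 12, 3, 1, 2, 1, 1, 0, 2, 3⟩ :=
  out_sound (S := T4.ds_mm) T4.ok_mm (w := 24) (j := 1) (by decide +kernel)
theorem L01989 : Good (Phi V4.P V4.D (-1) (-1)) ⟨4, 12, 3, 1, 2, 1, 2, 2, 1, 1⟩ :=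
  leaf_sound (S := T4.ds_mm) T4.ok_mm (w := 168) (c := ⟨⟨.negSucc 746, .negSucc 4, .ofNat 27, .ofNat 162, .ofNat 338, .ofNat 417⟩, ⟨.ofNat 168, .negSucc 14, .ofNat 60, .negSucc 87, .negSucc 106, .negSucc 129⟩, ⟨.ofNat 531, .ofNat 16, .negSucc 32, .negSucc 119, .negSucc 403, .negSucc 335⟩, ⟨.negSucc 1324, .ofNat 22, .ofNat 7, .ofNat 90, .ofNat 566, .ofNat 705⟩, ⟨.negSucc 270, .negSucc 13, .negSucc 7, .negSucc 579, .negSucc 12, .negSucc 1⟩, .ofNat 315, .ofNat 137, .ofNat 0, .ofNat 137, .ofNat 661, .ofNat 0, .ofNat 388, .negSucc 173, .negSucc 403, .ofNat 0, .ofNat 257, .ofNat 113, .ofNat 0, .ofNat 0, .ofNat 795, .ofNat 6654, .ofNat 4184494319260744107676007399424000, .ofNat 0, .ofNat 0, .ofNat 0, .ofNat 0, .ofNat 8930078017078736228299923102105600, .ofNat 0, .ofNat 0, .ofNat 34577394714377059468017454704230400, .ofNat 13028968275724484436763452270182400, .ofNat 14337746640177688044424396800,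 .ofNat 0, .ofNat 27100105470113268127412256768000000, .ofNat 9570693633612225452809339797504000, .ofNat 7610735535081513935280537600, .ofNat 0⟩)
    (by decide +kernel)
theorem L01990 : Good (Phi V4.P V4.D (-1) (-1)) ⟨4, 12, 3, 1, 2, 1, 2, 3, 1, 1⟩ :=
  leaf_sound (S := T4.ds_mm) T4.ok_mm (w := 168) (c := ⟨⟨.negSucc 423, .ofNat 31, .ofNat 28, .ofNat 296, .ofNat 742, .ofNat 443⟩, ⟨.ofNat 93, .negSucc 36, .ofNat 26, .negSucc 121, .negSucc 223, .negSucc 137⟩, ⟨.ofNat 140, .negSucc 21, .negSucc 29, .negSucc 236, .negSucc 738, .negSucc 331⟩, ⟨.negSucc 789, .ofNat 48, .ofNat 25, .ofNat 333, .ofNat 1276, .ofNat 745⟩, ⟨.negSucc 294, .negSucc 15, .negSucc 0, .negSucc 511, .ofNat 85, .ofNat 6⟩, .ofNat 641, .ofNat 767, .ofNat 0, .ofNat 767, .ofNat 2555, .ofNat 0, .ofNat 654, .negSucc 584, .negSucc 979, .ofNat 0, .ofNat 409, .ofNat 305, .ofNat 0, .ofNat 0, .ofNat 1662, .ofNat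 5640, .ofNat 0, .ofNat 0, .ofNat 0, .ofNat 0, .ofNat 0, .ofNat 142724234370006388211180910516633600, .ofNat 78787752267042095694977433600, .ofNat 0, .ofNat 0, .ofNat 104916304068426212206191714710323200, .ofNat 108038727371470931144736768000, .ofNat 0, .ofNat 0, .ofNat 176451238315241603391237000265728000, .ofNat 34975208318879768491170201600, .ofNat 0⟩)
    (by decide +kernel)
theorem L01991 : Good (Phi V4.P V4.D (-1) (-1)) ⟨4, 13, 2, 0, 2, 1, 0, 0, 1, 1⟩ :=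
  out_sound (S := T4.ds_mm) T4.ok_mm (w := 56) (j := 3) (by decide +kernel)
theorem L01992 : Good (Phi V4.P V4.D (-1) (-1)) ⟨3, 7, 2, 0, 2, 1, 0, 0, 1, 1⟩ :=
  out_sound (S := T4.ds_mm) T4.ok_mm (w := 48) (j := 3) (by decide +kernel)
theorem L01993 : Good (Phi V4.P V4.D (-1) (-1)) ⟨2, 2, 2, 0, 1, 1, 1, 0, 1, 1⟩ :=
  leaf_sound (S := T4.ds_mm) T4.ok_mm (w := 144) (c := ⟨⟨.negSucc 893, .negSucc 191, .ofNat 108, .negSucc 132, .ofNat 340, .ofNat 423⟩, ⟨.ofNat 33, .ofNat 44, .ofNat 170, .negSucc 34, .negSucc 33, .negSucc 59⟩, ⟨.ofNat 947, .ofNat 279, .negSucc 129, .ofNat 138, .negSucc 638, .negSucc 351⟩, ⟨.negSucc 1936, .negSucc 118, .ofNat 65, .negSucc 387, .ofNat 655, .ofNat 836⟩, ⟨.negSucc 570, .negSucc 105, .negSucc 41, .negSucc 1098, .negSucc 162, .negSucc 106⟩, .ofNat 170, .ofNat 10, .ofNat 0, .ofNat 10, .ofNat 246, .ofNat 0, .ofNat 1049, .negSucc 110, .negSucc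 985, .ofNat 0, .ofNat 773, .ofNat 294, .ofNat 0, .ofNat 0, .ofNat 1897, .ofNat 6891, .ofNat 10623255749573336673288192000, .ofNat 1695578539552960092202598400, .ofNat 0, .ofNat 0, .ofNat 703458428358325535723696947200, .ofNat 191043537839163243305002598400, .ofNat 0, .ofNat 0, .ofNat 0, .ofNat 391950224247057194875355136000, .ofNat 0, .ofNat 0, .ofNat 0, .ofNat 290270134129117291176001536000, .ofNat 0, .ofNat 0⟩)
    (by decide +kernel)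
theorem L01994 : Good (Phi V4.P V4.D (-1) (-1)) ⟨2, 2, 2, 0, 1, 1, 1, 1, 1, 1⟩ :=
  leaf_sound (S := T4.ds_mm) T4.ok_mm (w := 152) (c := ⟨⟨.negSucc 577, .negSucc 136, .ofNat 131, .ofNat 0, .ofNat 0, .ofNat 0⟩, ⟨.ofNat 16, .ofNat 10, .ofNat 138, .ofNat 0, .ofNat 0, .ofNat 0⟩, ⟨.ofNat 351, .ofNat 188, .negSucc 138, .ofNat 0, .ofNat 0, .ofNat 0⟩, ⟨.negSucc 1294, .negSucc 76, .ofNat 95, .ofNat 0, .ofNat 0, .ofNat 0⟩, ⟨.negSucc 719, .negSucc 131, .negSucc 31, .ofNat 0, .ofNat 0, .ofNat 0⟩, .ofNat 169, .ofNat 11, .ofNat 0, .ofNat 11, .ofNat 245, .ofNat 0, .ofNat 2258, .negSucc 233, .negSucc 2686, .ofNat 0, .ofNat 1625, .ofNat 573, .ofNat 0, .ofNat 0, .ofNat 4053, .ofNat 111320, .ofNat 182414121663494704461565132800, .ofNat 0, .ofNat 0, .ofNat 0, .ofNat 0, .ofNat 67389843943607143630761256550400, .ofNat 0, .ofNat 0, .ofNat 0, .ofNat 65061847833361692036579930931200, .ofNat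 379402064792894758610534400, .ofNat 0, .ofNat 0, .ofNat 153690253583672565977222165299200, .ofNat 558520613963246604858163200, .ofNat 0⟩)
    (by decide +kernel)
theorem L01995 : Good (Phi V4.P V4.D (-1) (-1)) ⟨4, 12, 2, 0, 1, 1, 0, 0, 3, 4⟩ :=
  leaf_sound (S := T4.ds_mm) T4.ok_mm (w := 160) (c := ⟨⟨.negSucc 1181, .negSucc 22, .ofNat 113, .ofNat 117, .ofNat 945, .ofNat 150⟩, ⟨.ofNat 144, .negSucc 30, .ofNat 187, .negSucc 126, .negSucc 333, .negSucc 49⟩, ⟨.ofNat 1323, .ofNat 35, .negSucc 120, .negSucc 57, .negSucc 1608, .negSucc 118⟩, ⟨.negSucc 2101, .ofNat 2, .ofNat 61, .negSucc 218, .ofNat 1453, .ofNat 242⟩, ⟨.negSucc 650, .negSucc 27, .negSucc 36, .negSucc 1294, .negSucc 408, .negSucc 29⟩, .ofNat 477, .ofNat 399, .ofNat 0, .ofNat 399, .ofNat 1475, .ofNat 0, .ofNat 1365, .negSucc 1006, .negSucc 1144, .ofNat 0, .ofNat 856, .ofNat 421, .ofNat 0, .ofNat 0, .ofNat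 3246, .ofNat 4555, .ofNat 0, .ofNat 1064414946112433446886100172800, .ofNat 1000549537064360769484800, .ofNat 0, .ofNat 0, .ofNat 2850066102605860246096661446656000, .ofNat 263579585389935454951833600, .ofNat 0, .ofNat 0, .ofNat 1449353458167042182539202946662400, .ofNat 1399166384271033143446732800, .ofNat 0, .ofNat 0, .ofNat 2300084263716919106919757302988800, .ofNat 0, .ofNat 0⟩)
    (by decide +kernel)
theorem L01996 : Good (Phi V4.P V4.D (-1) (-1)) ⟨4, 13, 2, 0, 1, 1, 0, 0, 3, 4⟩ :=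
  out_sound (S := T4.ds_mm) T4.ok_mm (w := 56) (j := 3) (by decide +kernel)
theorem L01997 : Good (Phi V4.P V4.D (-1) (-1)) ⟨3, 6, 2, 0, 1, 1, 0, 0, 3, 5⟩ :=
  out_sound (S := T4.ds_mm) T4.ok_mm (w := 24) (j := 2) (by decide +kernel)
theorem L01998 : Good (Phi V4.P V4.D (-1) (-1)) ⟨3, 6, 2, 0, 1, 1, 0, 0, 2, 3⟩ :=
  out_sound (S := T4.ds_mm) T4.ok_mm (w := 24) (j := 2) (by decide +kernel)
theorem L01999 : Good (Phi V4.P V4.D (-1) (-1)) ⟨3, 7, 2, 0, 1, 1, 0, 0, 1, 1⟩ :=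
  out_sound (S := T4.ds_mm) T4.ok_mm (w := 48) (j := 3) (by decide +kernel)
theorem L02000 : Good (Phi V4.P V4.D (-1) (-1)) ⟨2, 2, 2, 1, 1, 0, 1, 0, 2, 2⟩ :=
  out_sound (S := T4.ds_mm) T4.ok_mm (w := 40) (j := 3) (by decide +kernel)
theorem L02001 : Good (Phi V4.P V4.D (-1) (-1)) ⟨3, 6, 2, 1, 1, 0, 1, 0, 2, 2⟩ :=
  leaf_sound (S := T4.ds_mm) T4.ok_mm (w := 152) (c := ⟨⟨.negSucc 1169, .negSucc 155, .ofNat 44, .ofNat 285, .ofNat 329, .ofNat 289⟩, ⟨.ofNat 433, .ofNat 79, .ofNat 122, .negSucc 156, .negSucc 139, .negSucc 125⟩, ⟨.ofNat 1068, .ofNat 175, .negSucc 43, .negSucc 104, .negSucc 552, .negSucc 255⟩, ⟨.negSucc 1901, .negSucc 98, .ofNat 27, .ofNat 109, .ofNat 537, .ofNat 461⟩, ⟨.ofNat 99, .ofNat 3, .negSucc 1, .negSucc 854, .negSucc 24, .ofNat 33⟩, .ofNat 569, .ofNat 588, .ofNat 0, .ofNat 588, .ofNat 1623, .ofNat 0, .ofNat 279, .negSucc 290, .negSucc 343, .ofNat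 0, .ofNat 219, .ofNat 141, .ofNat 0, .ofNat 0, .ofNat 798, .ofNat 2938, .ofNat 70866659513654834915966976000, .ofNat 0, .ofNat 133518782730251372313600, .ofNat 0, .ofNat 9337100927220121320793571328000, .ofNat 18790387275963632261529600, .ofNat 113563693969694381408256000, .ofNat 0, .ofNat 4421657620539617335967534284800, .ofNat 415430628540842634026523033600, .ofNat 82492431361806412165939200, .ofNat 0, .ofNat 12884078809154891826927658598400, .ofNat 0, .ofNat 0, .ofNat 0⟩)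
    (by decide +kernel)
theorem L02002 : Good (Phi V4.P V4.D (-1) (-1)) ⟨3, 7, 2, 1, 1, 0, 1, 0, 2, 2⟩ :=
  out_sound (S := T4.ds_mm) T4.ok_mm (w := 48) (j := 3) (by decide +kernel)
theorem L02003 : Good (Phi V4.P V4.D (-1) (-1)) ⟨2, 2, 2, 1, 1, 0, 2, 2, 2, 2⟩ :=
  out_sound (S := T4.ds_mm) T4.ok_mm (w := 40) (j := 3) (by decide +kernel)
theorem L02004 : Good (Phi V4.P V4.D (-1) (-1)) ⟨5, 24, 3, 2, 1, 0, 2, 2, 3, 4⟩ :=
  leaf_sound (S := T4.ds_mm) T4.ok_mm (w := 168) (c := ⟨⟨.negSucc 882, .negSucc 55, .ofNat 44, .ofNat 404, .ofNat 278, .ofNat 110⟩, ⟨.ofNat 297, .ofNat 20, .ofNat 42, .negSucc 175, .negSucc 94, .negSucc 36⟩, ⟨.ofNat 563, .ofNat 53, .negSucc 44, .negSucc 241, .negSucc 320, .negSucc 83⟩, ⟨.negSucc 1477, .negSucc 77, .ofNat 49, .ofNat 401, .ofNat 476, .ofNat 196⟩, ⟨.ofNat 55, .negSucc 36, .negSucc 10, .negSucc 803, .ofNat 21, .ofNat 32⟩, .ofNat 510,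 .ofNat 484, .ofNat 0, .ofNat 484, .ofNat 1650, .ofNat 0, .ofNat 313, .negSucc 260, .negSucc 386, .ofNat 0, .ofNat 203, .ofNat 127, .ofNat 0, .ofNat 0, .ofNat 793, .ofNat 5724, .ofNat 0, .ofNat 0, .ofNat 0, .ofNat 0, .ofNat 0, .ofNat 0, .ofNat 0, .ofNat 0, .ofNat 0, .ofNat 16864133230019988360279840994099200, .ofNat 0, .ofNat 0, .ofNat 0, .ofNat 12089315290736275221829876973568000, .ofNat 0, .ofNat 0⟩)
    (by decide +kernel)
theorem L02005 : Good (Phi V4.P V4.D (-1) (-1)) ⟨5, 24, 3, 2, 1, 0, 2, 2, 3, 5⟩ :=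
  leaf_sound (S := T4.ds_mm) T4.ok_mm (w := 176) (c := ⟨⟨.negSucc 829, .negSucc 34, .ofNat 76, .ofNat 521, .ofNat 272, .ofNat 75⟩, ⟨.ofNat 278, .ofNat 12, .ofNat 22, .negSucc 207, .negSucc 90, .negSucc 26⟩, ⟨.ofNat 510, .ofNat 43, .negSucc 88, .negSucc 340, .negSucc 293, .negSucc 57⟩, ⟨.negSucc 1401, .negSucc 37, .ofNat 110, .ofNat 643, .ofNat 474, .ofNat 122⟩, ⟨.ofNat 8, .negSucc 1, .negSucc 10, .negSucc 681, .ofNat 49, .negSucc 10⟩, .ofNat 760, .ofNat 1076, .ofNat 0, .ofNat 1076, .ofNat 3309, .ofNat 0, .ofNat 244, .negSucc 272, .negSucc 344, .ofNat 0, .ofNat 165, .ofNat 117, .ofNat 0, .ofNat 0, .ofNat 718, .ofNat 7713, .ofNat 4025832445558895322594046220697600, .ofNat 0, .ofNat 0, .ofNat 0, .ofNat 0, .ofNat 9008224316754444398360030242406400, .ofNat 0, .ofNat 0, .ofNat 0, .ofNat 14095306071756633157430561420083200, .ofNat 0, .ofNat 0, .ofNat 0, .ofNat 3184415261448378236102495541657600,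 .ofNat 0, .ofNat 0⟩)
    (by decide +kernel)
theorem L02006 : Good (Phi V4.P V4.D (-1) (-1)) ⟨5, 25, 3, 2, 1, 0, 2, 2, 3, 4⟩ :=
  leaf_sound (S := T4.ds_mm) T4.ok_mm (w := 168) (c := ⟨⟨.negSucc 1003, .negSucc 63, .ofNat 37, .ofNat 560, .ofNat 313, .ofNat 114⟩, ⟨.ofNat 362, .ofNat 26, .ofNat 44, .negSucc 260, .negSucc 120, .negSucc 43⟩, ⟨.ofNat 683, .ofNat 58, .negSucc 29, .negSucc 399, .negSucc 356, .negSucc 86⟩, ⟨.negSucc 1629, .negSucc 84, .ofNat 46, .ofNat 598, .ofNat 521, .ofNat 196⟩, ⟨.ofNat 23, .negSucc 35, .ofNat 33, .negSucc 798, .ofNat 19, .ofNat 18⟩, .ofNat 1010, .ofNat 1545, .ofNat 0, .ofNat 1545, .ofNat 3978, .ofNat 0, .ofNat 249, .negSucc 333, .negSucc 413, .ofNat 0, .ofNat 205, .ofNat 165, .ofNat 0, .ofNat 0, .ofNat 807, .ofNat 3846, .ofNat 0, .ofNat 0, .ofNat 0, .ofNat 0, .ofNat 0, .ofNat 7163844587600148250901164641484800, .ofNat 5101867622060236625412096000,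 .ofNat 0, .ofNat 0, .ofNat 9298108757004518845796005498060800, .ofNat 3427195112475610104358502400, .ofNat 0, .ofNat 0, .ofNat 0, .ofNat 0, .ofNat 0⟩)
    (by decide +kernel)
theorem L02007 : Good (Phi V4.P V4.D (-1) (-1)) ⟨5, 25, 3, 2, 1, 0, 2, 2, 3, 5⟩ :=
  leaf_sound (S := T4.ds_mm) T4.ok_mm (w := 176) (c := ⟨⟨.negSucc 956, .negSucc 22, .ofNat 13, .ofNat 661, .ofNat 338, .ofNat 100⟩, ⟨.ofNat 353, .ofNat 11, .ofNat 40, .negSucc 299, .negSucc 130, .negSucc 38⟩, ⟨.ofNat 644, .ofNat 24, .negSucc 10, .negSucc 483, .negSucc 363, .negSucc 80⟩, ⟨.negSucc 1556, .negSucc 5, .negSucc 9, .ofNat 782, .ofNat 574, .ofNat 173⟩, ⟨.negSucc 2, .ofNat 11, .negSucc 19, .negSucc 730, .ofNat 56, .ofNat 32⟩, .ofNat 833, .ofNat 1149, .ofNat 0, .ofNat 1149, .ofNat 3026, .ofNat 0, .ofNat 232, .negSucc 293, .negSucc 365, .ofNat 0, .ofNat 187, .ofNat 145, .ofNat 0, .ofNat 0, .ofNat 730,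 .ofNat 4932, .ofNat 2639602398432368632550568807628800, .ofNat 0, .ofNat 0, .ofNat 0, .ofNat 114700321038965254227537608835072000, .ofNat 13471903203539000848699425502003200, .ofNat 2636223466925567049832857600, .ofNat 0, .ofNat 0, .ofNat 4544689610892370392801415161446400, .ofNat 2589821948933635809529036800, .ofNat 0, .ofNat 0, .ofNat 0, .ofNat 0, .ofNat 0⟩)
    (by decide +kernel)
theorem L02008 : Good (Phi V4.P V4.D (-1) (-1)) ⟨4, 12, 3, 3, 2, 0, 2, 2, 2, 2⟩ :=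
  leaf_sound (S := T4.ds_mm) T4.ok_mm (w := 176) (c := ⟨⟨.negSucc 946, .negSucc 68, .negSucc 5, .ofNat 350, .ofNat 264, .ofNat 190⟩, ⟨.ofNat 399, .ofNat 44, .ofNat 44, .negSucc 163, .negSucc 113, .negSucc 82⟩, ⟨.ofNat 614, .ofNat 77, .negSucc 4, .negSucc 251, .negSucc 301, .negSucc 150⟩, ⟨.negSucc 1555, .negSucc 56, .negSucc 35, .ofNat 423, .ofNat 427, .ofNat 300⟩, ⟨.ofNat 21, .ofNat 6, .negSucc 33, .negSucc 316, .ofNat 10, .negSucc 9⟩, .ofNat 1776, .ofNat 3135, .ofNat 0, .ofNat 3135, .ofNat 7194, .ofNat 0, .ofNat 186, .negSucc 341, .negSucc 395, .ofNat 0, .ofNat 193, .ofNat 173, .ofNat 0, .ofNat 0, .ofNat 770, .ofNat 6257, .ofNat 3949250313454022959652808740044800, .ofNat 0, .ofNat 0, .ofNat 0, .ofNat 0, .ofNat 0, .ofNat 0, .ofNat 0, .ofNat 159729485507641534955026483091865600, .ofNat 0, .ofNat 203967084594903496065338572800, .ofNat 0, .ofNat 211437624769928224292137091884646400,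 .ofNat 0, .ofNat 784910751933187440168350515200, .ofNat 0⟩)
    (by decide +kernel)
theorem L02009 : Good (Phi V4.P V4.D (-1) (-1)) ⟨4, 12, 3, 3, 2, 1, 2, 2, 2, 2⟩ :=
  leaf_sound (S := T4.ds_mm) T4.ok_mm (w := 176) (c := ⟨⟨.negSucc 841, .ofNat 71, .ofNat 55, .ofNat 298, .ofNat 426, .ofNat 236⟩, ⟨.ofNat 379, .negSucc 56, .ofNat 34, .negSucc 151, .negSucc 185, .negSucc 102⟩, ⟨.ofNat 604, .negSucc 50, .negSucc 45, .negSucc 249, .negSucc 484, .negSucc 192⟩, ⟨.negSucc 1484, .ofNat 123, .ofNat 67, .ofNat 214, .ofNat 680, .ofNat 377⟩, ⟨.negSucc 265, .negSucc 28, .ofNat 23, .negSucc 603, .negSucc 3, .negSucc 0⟩, .ofNat 1634, .ofNat 2828, .ofNat 0, .ofNat 2828, .ofNat 6524, .ofNat 0, .ofNat 197, .negSucc 364, .negSucc 386, .ofNat 0, .ofNat 205, .ofNat 170, .ofNat 0, .ofNat 0, .ofNat 782, .ofNat 3054, .ofNat 0, .ofNat 0, .ofNat 0, .ofNat 0, .ofNat 0, .ofNat 0, .ofNat 0,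 .ofNat 0, .ofNat 60732659981839234844694045052108800, .ofNat 189620261315777886503200358400, .ofNat 908040490662689469749211955200, .ofNat 0, .ofNat 0, .ofNat 0, .ofNat 0, .ofNat 0⟩)
    (by decide +kernel)
theorem L02010 : Good (Phi V4.P V4.D (-1) (-1)) ⟨4, 13, 3, 2, 1, 0, 2, 2, 3, 4⟩ :=
  leaf_sound (S := T4.ds_mm) T4.ok_mm (w := 168) (c := ⟨⟨.negSucc 963, .ofNat 82, .negSucc 37, .ofNat 562, .ofNat 321, .ofNat 98⟩, ⟨.ofNat 377, .negSucc 23, .ofNat 61, .negSucc 284, .negSucc 137, .negSucc 40⟩, ⟨.ofNat 682, .negSucc 15, .negSucc 1, .negSucc 394, .negSucc 367, .negSucc 70⟩, ⟨.negSucc 1414, .ofNat 257, .negSucc 170, .ofNat 533, .ofNat 520, .ofNat 169⟩, ⟨.ofNat 258, .ofNat 222, .negSucc 228, .negSucc 833, .ofNat 22, .ofNat 27⟩, .ofNat 1380, .ofNat 2239, .ofNat 0, .ofNat 2239, .ofNat 5157, .ofNat 0, .ofNat 222, .negSucc 347, .negSucc 403, .ofNat 0, .ofNat 212, .ofNat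 177, .ofNat 0, .ofNat 0, .ofNat 802, .ofNat 4124, .ofNat 0, .ofNat 0, .ofNat 702468357869394239422464000, .ofNat 0, .ofNat 774713709669362160579137608089600, .ofNat 0, .ofNat 159214590955574757246055219200, .ofNat 0, .ofNat 608863089483388167771301871616000, .ofNat 0, .ofNat 112182420334475574756193075200, .ofNat 0, .ofNat 0, .ofNat 447764370938585358365164673433600, .ofNat 106982418523673914383532032000, .ofNat 0⟩)
    (by decide +kernel)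
theorem L02011 : Good (Phi V4.P V4.D (-1) (-1)) ⟨5, 26, 3, 3, 1, 0, 2, 2, 3, 4⟩ :=
  leaf_sound (S := T4.ds_mm) T4.ok_mm (w := 168) (c := ⟨⟨.negSucc 1080, .negSucc 135, .ofNat 154, .ofNat 675, .ofNat 325, .ofNat 139⟩, ⟨.ofNat 491, .ofNat 57, .negSucc 5, .negSucc 351, .negSucc 153, .negSucc 65⟩, ⟨.ofNat 749, .ofNat 195, .negSucc 215, .negSucc 510, .negSucc 358, .negSucc 102⟩, ⟨.negSucc 1693, .negSucc 131, .ofNat 160, .ofNat 639, .ofNat 535, .ofNat 250⟩, ⟨.negSucc 6, .ofNat 132, .negSucc 137, .negSucc 865, .ofNat 61, .ofNat 69⟩, .ofNat 1205, .ofNat 1779, .ofNat 0, .ofNat 1779, .ofNat 3845, .ofNat 0, .ofNat 199, .negSucc 371, .negSucc 431, .ofNat 0, .ofNat 228, .ofNat 207, .ofNat 0, .ofNat 0, .ofNat 816, .ofNat 3194, .ofNat 258228545705503680981294592819200, .ofNat 0, .ofNat 5056546873278245695488000, .ofNat 0, .ofNat 66820490650140071373509730553036800, .ofNat 0,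 .ofNat 3666303427909288104611020800, .ofNat 0, .ofNat 0, .ofNat 8822912561894607909162889877913600, .ofNat 0, .ofNat 0, .ofNat 0, .ofNat 0, .ofNat 0, .ofNat 0⟩)
    (by decide +kernel)
theorem L02012 : Good (Phi V4.P V4.D (-1) (-1)) ⟨5, 27, 4, 6, 1, 0, 2, 2, 3, 4⟩ :=
  out_sound (S := T4.ds_mm) T4.ok_mm (w := 64) (j := 3) (by decide +kernel)
theorem L02013 : Good (Phi V4.P V4.D (-1) (-1)) ⟨5, 27, 4, 7, 1, 0, 2, 2, 3, 4⟩ :=
  leaf_sound (S := T4.ds_mm) T4.ok_mm (w := 176) (c := ⟨⟨.negSucc 1089, .negSucc 62, .negSucc 33, .ofNat 770, .ofNat 306, .ofNat 159⟩, ⟨.ofNat 541, .ofNat 32, .ofNat 49, .negSucc 418, .negSucc 159, .negSucc 82⟩, ⟨.ofNat 752, .ofNat 93, .ofNat 58, .negSucc 614, .negSucc 352, .negSucc 129⟩, ⟨.negSucc 1687, .negSucc 61, .negSucc 10, .ofNat 722, .ofNat 469, .ofNat 267⟩, ⟨.negSucc 35, .ofNat 31, .ofNat 94, .negSucc 882, .negSucc 2, .ofNat 42⟩, .ofNat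 3240, .ofNat 5488, .ofNat 0, .ofNat 5488, .ofNat 10571, .ofNat 0, .ofNat 136, .negSucc 401, .negSucc 438, .ofNat 0, .ofNat 234, .ofNat 230, .ofNat 0, .ofNat 0, .ofNat 823, .ofNat 3480, .ofNat 0, .ofNat 0, .ofNat 84609113308805177199820800, .ofNat 0, .ofNat 0, .ofNat 18035658925508310548221890920448000, .ofNat 45142880361202214062836940800, .ofNat 0, .ofNat 0, .ofNat 50173607024904910658955694099660800, .ofNat 22664514738884345414339788800, .ofNat 0, .ofNat 0, .ofNat 68769018331495619153794356687667200, .ofNat 6606558442241753098066329600, .ofNat 0⟩)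
    (by decide +kernel)
theorem L02014 : Good (Phi V4.P V4.D (-1) (-1)) ⟨4, 13, 3, 2, 2, 0, 2, 2, 3, 5⟩ :=
  leaf_sound (S := T4.ds_mm) T4.ok_mm (w := 176) (c := ⟨⟨.negSucc 972, .negSucc 35, .ofNat 25, .ofNat 382, .ofNat 290, .ofNat 68⟩, ⟨.ofNat 385, .ofNat 25, .ofNat 29, .negSucc 181, .negSucc 125, .negSucc 29⟩, ⟨.ofNat 658, .ofNat 37, .negSucc 21, .negSucc 286, .negSucc 318, .negSucc 47⟩, ⟨.negSucc 1536, .negSucc 25, .ofNat 33, .ofNat 476, .ofNat 469, .ofNat 106⟩, ⟨.ofNat 23, .negSucc 7, .negSucc 8, .negSucc 306, .ofNat 15, .negSucc 2⟩, .ofNat 1384, .ofNat 2245, .ofNat 0, .ofNat 2245, .ofNat 5160, .ofNat 0, .ofNat 202, .negSucc 314, .negSucc 380, .ofNat 0, .ofNat 193, .ofNat 166, .ofNat 0, .ofNat 0, .ofNat 739, .ofNat 7532, .ofNat 27539775265121577275196682587340800, .ofNat 0, .ofNat 0, .ofNat 0, .ofNat 803871677419781097750147200817561600, .ofNat 0, .ofNat 60622881261534424098518807347200,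 .ofNat 0, .ofNat 1414668601409365298995982312354611200, .ofNat 0, .ofNat 35719596970094950976376432230400, .ofNat 0, .ofNat 995455453268517035930535471140044800, .ofNat 0, .ofNat 0, .ofNat 0⟩)
    (by decide +kernel)
theorem L02015 : Good (Phi V4.P V4.D (-1) (-1)) ⟨4, 13, 3, 2, 2, 1, 2, 2, 3, 5⟩ :=
  leaf_sound (S := T4.ds_mm) T4.ok_mm (w := 176) (c := ⟨⟨.negSucc 692, .ofNat 111, .ofNat 48, .ofNat 312, .ofNat 425, .ofNat 75⟩, ⟨.ofNat 248, .negSucc 59, .ofNat 19, .negSucc 162, .negSucc 184, .negSucc 32⟩, ⟨.ofNat 466, .negSucc 97, .negSucc 26, .negSucc 245, .negSucc 469, .negSucc 61⟩, ⟨.negSucc 1216, .ofNat 195, .ofNat 53, .ofNat 259, .ofNat 681, .ofNat 119⟩, ⟨.negSucc 310, .ofNat 12, .negSucc 2, .negSucc 545, .ofNat 9, .ofNat 0⟩, .ofNat 1166, .ofNat 1786, .ofNat 0, .ofNat 1786, .ofNat 4170, .ofNat 0, .ofNat 207, .negSucc 317, .negSucc 347, .ofNat 0, .ofNat 196, .ofNat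 152, .ofNat 0, .ofNat 0, .ofNat 724, .ofNat 6876, .ofNat 0, .ofNat 0, .ofNat 0, .ofNat 0, .ofNat 796027510965705251488411921101619200, .ofNat 224166395954020598914840644707942400, .ofNat 58971642488136547916032298188800, .ofNat 0, .ofNat 104224846217969638458595927601971200, .ofNat 162191945111602154040561709036339200, .ofNat 27532308740356574852609684275200, .ofNat 0, .ofNat 0, .ofNat 0, .ofNat 0, .ofNat 0⟩)
    (by decide +kernel)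
theorem L02016 : Good (Phi V4.P V4.D (-1) (-1)) ⟨4, 13, 3, 3, 2, 0, 2, 2, 3, 5⟩ :=
  leaf_sound (S := T4.ds_mm) T4.ok_mm (w := 176) (c := ⟨⟨.negSucc 1021, .ofNat 0, .negSucc 5, .ofNat 455, .ofNat 318, .ofNat 97⟩, ⟨.ofNat 469, .ofNat 19, .ofNat 43, .negSucc 229, .negSucc 155, .negSucc 46⟩, ⟨.ofNat 708, .negSucc 5, .ofNat 9, .negSucc 360, .negSucc 340, .negSucc 80⟩, ⟨.negSucc 1597, .ofNat 81, .negSucc 28, .ofNat 561, .ofNat 492, .ofNat 149⟩, ⟨.ofNat 18, .ofNat 49, .negSucc 19, .negSucc 312, .ofNat 3, .negSucc 5⟩, .ofNat 638, .ofNat 702, .ofNat 0, .ofNat 702, .ofNat 1692, .ofNat 0, .ofNat 239, .negSucc 296, .negSucc 410, .ofNat 0, .ofNat 218, .ofNat 184, .ofNat 0, .ofNat 0, .ofNat 755, .ofNat 6850, .ofNat 25199193903362691909729421728153600, .ofNat 0, .ofNat 0, .ofNat 0, .ofNat 290039620127822462178649777058611200, .ofNat 0, .ofNat 0, .ofNat 0, .ofNat 0, .ofNat 0,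 .ofNat 0, .ofNat 0, .ofNat 1266726468878447090332461785992396800, .ofNat 0, .ofNat 0, .ofNat 0⟩)
    (by decide +kernel)
theorem L02017 : Good (Phi V4.P V4.D (-1) (-1)) ⟨4, 13, 3, 3, 2, 1, 2, 2, 3, 5⟩ :=
  leaf_sound (S := T4.ds_mm) T4.ok_mm (w := 176) (c := ⟨⟨.negSucc 662, .negSucc 4, .ofNat 41, .ofNat 354, .ofNat 441, .ofNat 82⟩, ⟨.ofNat 288, .negSucc 32, .ofNat 39, .negSucc 184, .negSucc 210, .negSucc 39⟩, ⟨.ofNat 458, .ofNat 10, .negSucc 39, .negSucc 289, .negSucc 487, .negSucc 67⟩, ⟨.negSucc 1176, .negSucc 16, .ofNat 45, .ofNat 284, .ofNat 693, .ofNat 128⟩, ⟨.negSucc 305, .negSucc 21, .negSucc 0, .negSucc 563, .ofNat 6, .ofNat 0⟩, .ofNat 344, .ofNat 220, .ofNat 0, .ofNat 220, .ofNat 676, .ofNat 0, .ofNat 330, .negSucc 241, .negSucc 427, .ofNat 0, .ofNat 264, .ofNat 169, .ofNat 0, .ofNat 0, .ofNat 775, .ofNat 8992, .ofNat 0, .ofNat 0, .ofNat 0, .ofNat 0, .ofNat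 0, .ofNat 0, .ofNat 0, .ofNat 0, .ofNat 0, .ofNat 292929247474505212789966853740953600, .ofNat 0, .ofNat 0, .ofNat 0, .ofNat 209263240428750919695368723418316800, .ofNat 0, .ofNat 0⟩)
    (by decide +kernel)
theorem L02018 : Good (Phi V4.P V4.D (-1) (-1)) ⟨3, 7, 2, 1, 1, 0, 2, 2, 2, 2⟩ :=
  out_sound (S := T4.ds_mm) T4.ok_mm (w := 48) (j := 3) (by decide +kernel)
theorem L02019 : Good (Phi V4.P V4.D (-1) (-1)) ⟨2, 2, 3, 2, 2, 0, 2, 3, 2, 2⟩ :=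
  out_sound (S := T4.ds_mm) T4.ok_mm (w := 40) (j := 3) (by decide +kernel)
theorem L02020 : Good (Phi V4.P V4.D (-1) (-1)) ⟨4, 12, 3, 2, 2, 0, 3, 6, 2, 2⟩ :=
  leaf_sound (S := T4.ds_mm) T4.ok_mm (w := 176) (c := ⟨⟨.negSucc 795, .negSucc 37, .ofNat 19, .ofNat 494, .ofNat 287, .ofNat 170⟩, ⟨.ofNat 286, .ofNat 14, .ofNat 26, .negSucc 199, .negSucc 104, .negSucc 64⟩, ⟨.ofNat 433, .ofNat 43, .negSucc 21, .negSucc 412, .negSucc 288, .negSucc 114⟩, ⟨.negSucc 1317, .negSucc 29, .ofNat 17, .ofNat 702, .ofNat 482, .ofNat 282⟩, ⟨.ofNat 17, .negSucc 3, .negSucc 0, .negSucc 295, .ofNat 20, .ofNat 8⟩, .ofNat 526, .ofNat 509, .ofNat 0, .ofNat 509, .ofNat 1586, .ofNat 0, .ofNat 317, .negSucc 282, .negSucc 536, .ofNat 0, .ofNat 222, .ofNat 187, .ofNat 0, .ofNat 0, .ofNat 856, .ofNat 5096, .ofNat 0, .ofNat 0, .ofNat 0, .ofNat 0, .ofNat 0, .ofNat 0, .ofNat 0, .ofNat 0, .ofNat 0,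 .ofNat 0, .ofNat 0, .ofNat 0, .ofNat 0, .ofNat 0, .ofNat 0, .ofNat 0⟩)
    (by decide +kernel)
theorem L02021 : Good (Phi V4.P V4.D (-1) (-1)) ⟨4, 12, 3, 2, 2, 0, 4, 14, 2, 2⟩ :=
  leaf_sound (S := T4.ds_mm) T4.ok_mm (w := 176) (c := ⟨⟨.negSucc 638, .negSucc 12, .negSucc 0, .ofNat 770, .ofNat 283, .ofNat 154⟩, ⟨.ofNat 245, .ofNat 4, .ofNat 12, .negSucc 315, .negSucc 107, .negSucc 60⟩, ⟨.ofNat 270, .ofNat 16, .ofNat 2, .negSucc 682, .negSucc 277, .negSucc 92⟩, ⟨.negSucc 1040, .negSucc 10, .negSucc 13, .ofNat 1160, .ofNat 472, .ofNat 255⟩, ⟨.ofNat 13, .negSucc 5, .negSucc 8, .negSucc 235, .ofNat 25, .ofNat 7⟩, .ofNat 535, .ofNat 526, .ofNat 0, .ofNat 526, .ofNat 1579, .ofNat 0, .ofNat 326, .negSucc 301, .negSucc 712, .ofNat 0, .ofNat 236, .ofNat 255, .ofNat 0, .ofNat 0, .ofNat 975, .ofNat 6196, .ofNat 0, .ofNat 0, .ofNat 0, .ofNat 0, .ofNat 0, .ofNat 0, .ofNat 0,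 .ofNat 0, .ofNat 0, .ofNat 0, .ofNat 0, .ofNat 0, .ofNat 0, .ofNat 160827787882481737241721125103206400, .ofNat 0, .ofNat 0⟩)
    (by decide +kernel)

end Crest.Agent.R097C4.N4mm
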