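import Crest.Agent.R097.T4

/-!
# Row 97, box cover in dimension n = 4 (generated)
-/

set_option autoImplicit false
set_option Elab.async false
set_option maxHeartbeats 0
set_option maxRecDepth 100000

open Crest.Agent.R097 Crest.Agent.R097.KA


namespace Crest.Agent.R097C4.N4mm

theorem L02022 : Good (Phi V4.P V4.D (-1) (-1)) ⟨4, 12, 3, 2, 2, 0, 4, 15, 2, 2⟩ :=
  leaf_sound (S := T4.ds_mm) T4.ok_mm (w := 176) (c := ⟨⟨.negSucc 456, .negSucc 40, .ofNat 63, .ofNat 1042, .ofNat 428, .ofNat 135⟩, ⟨.ofNat 184, .ofNat 16, .negSucc 33, .negSucc 409, .negSucc 165, .negSucc 54⟩, ⟨.ofNat 90, .ofNat 44, .negSucc 62, .negSucc 952, .negSucc 421, .negSucc 69⟩, ⟨.negSucc 738, .negSucc 73, .ofNat 97, .ofNat 1649, .ofNat 705, .ofNat 221⟩, ⟨.ofNat 2, .negSucc 8, .ofNat 3, .negSucc 144, .ofNat 9, .ofNat 10⟩, .ofNat 811, .ofNat 1129, .ofNat 0, .ofNat 1129, .ofNat 3113,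 .ofNat 0, .ofNat 142, .negSucc 172, .negSucc 418, .ofNat 0, .ofNat 109, .ofNat 156, .ofNat 0, .ofNat 0, .ofNat 534, .ofNat 987, .ofNat 0, .ofNat 0, .ofNat 0, .ofNat 0, .ofNat 0, .ofNat 69869328202143736677372348334080000, .ofNat 0, .ofNat 0, .ofNat 0, .ofNat 75099176164022504746260179504332800, .ofNat 0, .ofNat 0, .ofNat 0, .ofNat 135281160734629132160146509240729600, .ofNat 0, .ofNat 0⟩)
    (by decide +kernel)
theorem L02023 : Good (Phi V4.P V4.D (-1) (-1)) ⟨5, 26, 3, 2, 2, 0, 3, 6, 2, 2⟩ :=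
  leaf_sound (S := T4.ds_mm) T4.ok_mm (w := 184) (c := ⟨⟨.negSucc 839, .negSucc 108, .negSucc 28, .ofNat 587, .ofNat 297, .ofNat 184⟩, ⟨.ofNat 340, .ofNat 53, .ofNat 39, .negSucc 269, .negSucc 127, .negSucc 79⟩, ⟨.ofNat 470, .ofNat 121, .ofNat 39, .negSucc 503, .negSucc 296, .negSucc 133⟩, ⟨.negSucc 1319, .negSucc 133, .negSucc 63, .ofNat 808, .ofNat 482, .ofNat 299⟩, ⟨.ofNat 29, .ofNat 62, .negSucc 22, .negSucc 293, .ofNat 21, .ofNat 13⟩, .ofNat 1320, .ofNat 2111, .ofNat 0, .ofNat 2111, .ofNat 4875, .ofNat 0, .ofNat 221, .negSucc 345, .negSucc 515, .ofNat 0, .ofNat 212, .ofNat 224, .ofNat 0, .ofNat 0, .ofNat 827, .ofNat 8385, .ofNat 0, .ofNat 0, .ofNat 0, .ofNat 0, .ofNat 0, .ofNat 0, .ofNat 22706221388450445260638440652800, .ofNat 0, .ofNat 0, .ofNat 0, .ofNat 10159228355818550138209566720000, .ofNat 0, .ofNat 0, .ofNat 181180771523552952530960297597337600,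 .ofNat 2515357789854633277078162636800, .ofNat 0⟩)
    (by decide +kernel)
theorem L02024 : Good (Phi V4.P V4.D (-1) (-1)) ⟨5, 26, 3, 2, 2, 0, 3, 7, 2, 2⟩ :=
  leaf_sound (S := T4.ds_mm) T4.ok_mm (w := 184) (c := ⟨⟨.negSucc 776, .negSucc 246, .ofNat 102, .ofNat 871, .ofNat 765, .ofNat 150⟩, ⟨.ofNat 342, .ofNat 106, .negSucc 47, .negSucc 389, .negSucc 330, .negSucc 63⟩, ⟨.ofNat 398, .ofNat 235, .negSucc 88, .negSucc 778, .negSucc 755, .negSucc 88⟩, ⟨.negSucc 1207, .negSucc 391, .ofNat 130, .ofNat 1290, .ofNat 1236, .ofNat 247⟩, ⟨.ofNat 54, .ofNat 3, .negSucc 57, .negSucc 223, .ofNat 40, .ofNat 20⟩, .ofNat 1365, .ofNat 2204, .ofNat 0, .ofNat 2204, .ofNat 5073, .ofNat 0, .ofNat 240, .negSucc 374, .negSucc 723, .ofNat 0, .ofNat 230, .ofNat 314, .ofNat 0, .ofNat 0, .ofNat 980, .ofNat 1884, .ofNat 0, .ofNat 0, .ofNat 32131498606906762904312217600, .ofNat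 0, .ofNat 0, .ofNat 1987456164524025474040736627294208000, .ofNat 11165321735356071839237406720000, .ofNat 0, .ofNat 0, .ofNat 401335122239026086544260976764518400, .ofNat 10328873332768811113418588160000, .ofNat 0, .ofNat 0, .ofNat 4971519129347355543535639924310016000, .ofNat 1072610850413443487352068505600, .ofNat 0⟩)
    (by decide +kernel)
theorem L02025 : Good (Phi V4.P V4.D (-1) (-1)) ⟨5, 27, 3, 2, 2, 0, 2, 3, 2, 2⟩ :=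
  out_sound (S := T4.ds_mm) T4.ok_mm (w := 64) (j := 3) (by decide +kernel)
theorem L02026 : Good (Phi V4.P V4.D (-1) (-1)) ⟨3, 7, 3, 2, 2, 0, 2, 3, 2, 2⟩ :=
  out_sound (S := T4.ds_mm) T4.ok_mm (w := 48) (j := 3) (by decide +kernel)
theorem L02027 : Good (Phi V4.P V4.D (-1) (-1)) ⟨2, 2, 3, 3, 2, 0, 3, 6, 2, 2⟩ :=
  out_sound (S := T4.ds_mm) T4.ok_mm (w := 40) (j := 3) (by decide +kernel)
theorem L02028 : Good (Phi V4.P V4.D (-1) (-1)) ⟨4, 12, 3, 3, 2, 0, 3, 6, 2, 2⟩ :=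
  leaf_sound (S := T4.ds_mm) T4.ok_mm (w := 176) (c := ⟨⟨.negSucc 811, .negSucc 59, .ofNat 106, .ofNat 599, .ofNat 294, .ofNat 175⟩, ⟨.ofNat 352, .ofNat 27, .negSucc 17, .negSucc 270, .negSucc 126, .negSucc 74⟩, ⟨.ofNat 448, .ofNat 62, .negSucc 112, .negSucc 516, .negSucc 292, .negSucc 120⟩, ⟨.negSucc 1310, .negSucc 81, .ofNat 169, .ofNat 835, .ofNat 479, .ofNat 285⟩, ⟨.ofNat 33, .negSucc 27, .ofNat 13, .negSucc 286, .ofNat 19, .ofNat 12⟩, .ofNat 1408, .ofNat 2340, .ofNat 0, .ofNat 2340, .ofNat 5453, .ofNat 0, .ofNat 202, .negSucc 360, .negSucc 525, .ofNat 0, .ofNat 206, .ofNat 228, .ofNat 0, .ofNat 0, .ofNat 836, .ofNat 6295, .ofNat 0, .ofNat 0, .ofNat 0, .ofNat 0, .ofNat 0, .ofNat 0, .ofNat 0, .ofNat 0, .ofNat 0, .ofNat 0, .ofNat 13010706705521037915326722867200, .ofNat 0, .ofNat 0, .ofNat 0, .ofNat 8895421701146813850041765068800, .ofNat 0⟩)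
    (by decide +kernel)
theorem L02029 : Good (Phi V4.P V4.D (-1) (-1)) ⟨5, 26, 3, 3, 2, 0, 3, 6, 2, 2⟩ :=
  leaf_sound (S := T4.ds_mm) T4.ok_mm (w := 184) (c := ⟨⟨.negSucc 920, .negSucc 45, .ofNat 48, .ofNat 660, .ofNat 299, .ofNat 186⟩, ⟨.ofNat 429, .ofNat 19, .ofNat 12, .negSucc 326, .negSucc 142, .negSucc 90⟩, ⟨.ofNat 560, .ofNat 50, .negSucc 51, .negSucc 575, .negSucc 299, .negSucc 131⟩, ⟨.negSucc 1433, .negSucc 73, .ofNat 80, .ofNat 891, .ofNat 478, .ofNat 289⟩, ⟨.ofNat 12, .negSucc 23, .ofNat 23, .negSucc 289, .ofNat 22, .ofNat 2⟩, .ofNat 1174, .ofNat 1723, .ofNat 0, .ofNat 1723, .ofNat 3752, .ofNat 0, .ofNat 205, .negSucc 370, .negSucc 561, .ofNat 0, .ofNat 229, .ofNat 265, .ofNat 0, .ofNat 0, .ofNat 867, .ofNat 6373, .ofNat 0, .ofNat 0, .ofNat 0, .ofNat 0, .ofNat 0, .ofNat 635095327383112828942249928058470400, .ofNat 1250230126610533692147027148800,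 .ofNat 0, .ofNat 0, .ofNat 890717632856187677363732277834547200, .ofNat 0, .ofNat 0, .ofNat 0, .ofNat 796292578293608715134116799132467200, .ofNat 0, .ofNat 0⟩)
    (by decide +kernel)
theorem L02030 : Good (Phi V4.P V4.D (-1) (-1)) ⟨5, 27, 4, 6, 2, 0, 3, 6, 2, 2⟩ :=
  out_sound (S := T4.ds_mm) T4.ok_mm (w := 64) (j := 3) (by decide +kernel)
theorem L02031 : Good (Phi V4.P V4.D (-1) (-1)) ⟨5, 27, 4, 7, 2, 0, 3, 6, 2, 2⟩ :=
  leaf_sound (S := T4.ds_mm) T4.ok_mm (w := 184) (c := ⟨⟨.negSucc 1097, .negSucc 175, .ofNat 158, .ofNat 732, .ofNat 318, .ofNat 185⟩, ⟨.ofNat 556, .ofNat 91, .negSucc 63, .negSucc 387, .negSucc 165, .negSucc 96⟩, ⟨.ofNat 735, .ofNat 161, .negSucc 153, .negSucc 646, .negSucc 317, .negSucc 131⟩, ⟨.negSucc 1679, .negSucc 269, .ofNat 239, .ofNat 970, .ofNat 500, .ofNat 287⟩, ⟨.ofNat 15, .negSucc 22, .negSucc 4, .negSucc 295, .ofNat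 22, .ofNat 6⟩, .ofNat 2433, .ofNat 3982, .ofNat 0, .ofNat 3982, .ofNat 7753, .ofNat 0, .ofNat 146, .negSucc 397, .negSucc 567, .ofNat 0, .ofNat 235, .ofNat 295, .ofNat 0, .ofNat 0, .ofNat 870, .ofNat 5928, .ofNat 0, .ofNat 0, .ofNat 32807418902272387747676160000, .ofNat 0, .ofNat 0, .ofNat 0, .ofNat 10053184857727966413559588454400, .ofNat 0, .ofNat 0, .ofNat 5840036005374591934629680772651417600, .ofNat 5563475044827421298276066918400, .ofNat 0, .ofNat 0, .ofNat 2592604231283131719742976937689088000, .ofNat 3910582138623524385966784512000, .ofNat 0⟩)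
    (by decide +kernel)
theorem L02032 : Good (Phi V4.P V4.D (-1) (-1)) ⟨3, 7, 3, 3, 2, 0, 3, 6, 2, 2⟩ :=
  out_sound (S := T4.ds_mm) T4.ok_mm (w := 48) (j := 3) (by decide +kernel)
theorem L02033 : Good (Phi V4.P V4.D (-1) (-1)) ⟨2, 2, 3, 3, 2, 0, 3, 7, 2, 2⟩ :=
  out_sound (S := T4.ds_mm) T4.ok_mm (w := 40) (j := 3) (by decide +kernel)
theorem L02034 : Good (Phi V4.P V4.D (-1) (-1)) ⟨4, 12, 3, 3, 2, 0, 3, 7, 2, 2⟩ :=
  leaf_sound (S := T4.ds_mm) T4.ok_mm (w := 176) (c := ⟨⟨.negSucc 931, .ofNat 230, .ofNat 289, .ofNat 877, .ofNat 768, .ofNat 137⟩, ⟨.ofNat 411, .negSucc 104, .negSucc 127, .negSucc 390, .negSucc 334, .negSucc 59⟩, ⟨.ofNat 553, .negSucc 217, .negSucc 289, .negSucc 788, .negSucc 756, .negSucc 73⟩, ⟨.negSucc 1479, .ofNat 356, .ofNat 468, .ofNat 1308, .ofNat 1243, .ofNat 222⟩, ⟨.ofNat 36, .negSucc 36, .ofNat 36, .negSucc 219, .ofNat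 34, .ofNat 5⟩, .ofNat 1771, .ofNat 3118, .ofNat 0, .ofNat 3118, .ofNat 7141, .ofNat 0, .ofNat 214, .negSucc 394, .negSucc 766, .ofNat 0, .ofNat 223, .ofNat 334, .ofNat 0, .ofNat 0, .ofNat 1015, .ofNat 1446, .ofNat 0, .ofNat 0, .ofNat 10395474797780787173680742400, .ofNat 0, .ofNat 0, .ofNat 0, .ofNat 0, .ofNat 0, .ofNat 0, .ofNat 66565096427899048461349229376307200, .ofNat 14175114572992009027154293555200, .ofNat 0, .ofNat 0, .ofNat 0, .ofNat 6681476871716397559169679360000, .ofNat 0⟩)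
    (by decide +kernel)
theorem L02035 : Good (Phi V4.P V4.D (-1) (-1)) ⟨5, 26, 3, 3, 2, 0, 4, 14, 3, 4⟩ :=
  leaf_sound (S := T4.ds_mm) T4.ok_mm (w := 184) (c := ⟨⟨.negSucc 783, .negSucc 30, .ofNat 75, .ofNat 968, .ofNat 348, .ofNat 102⟩, ⟨.ofNat 373, .ofNat 2, .negSucc 12, .negSucc 474, .negSucc 167, .negSucc 50⟩, ⟨.ofNat 413, .ofNat 39, .negSucc 80, .negSucc 874, .negSucc 342, .negSucc 67⟩, ⟨.negSucc 1226, .negSucc 66, .ofNat 133, .ofNat 1403, .ofNat 562, .ofNat 162⟩, ⟨.negSucc 7, .negSucc 24, .ofNat 27, .negSucc 229, .ofNat 36, .ofNat 8⟩, .ofNat 637, .ofNat 701, .ofNat 0, .ofNat 701, .ofNat 1693, .ofNat 0, .ofNat 149, .negSucc 185, .negSucc 426, .ofNat 0, .ofNat 136, .ofNat 189, .ofNat 0, .ofNat 0, .ofNat 549, .ofNat 2066, .ofNat 0, .ofNat 0, .ofNat 0, .ofNat 0, .ofNat 0, .ofNat 0, .ofNat 0, .ofNat 0, .ofNat 0, .ofNat 0, .ofNat 0, .ofNat 0,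 .ofNat 0, .ofNat 0, .ofNat 0, .ofNat 0⟩)
    (by decide +kernel)
theorem L02036 : Good (Phi V4.P V4.D (-1) (-1)) ⟨5, 26, 3, 3, 2, 0, 4, 15, 3, 4⟩ :=
  leaf_sound (S := T4.ds_mm) T4.ok_mm (w := 184) (c := ⟨⟨.negSucc 622, .ofNat 44, .ofNat 25, .ofNat 1373, .ofNat 600, .ofNat 131⟩, ⟨.ofNat 302, .negSucc 23, .negSucc 20, .negSucc 658, .negSucc 283, .negSucc 65⟩, ⟨.ofNat 255, .negSucc 41, .negSucc 26, .negSucc 1272, .negSucc 592, .negSucc 94⟩, ⟨.negSucc 978, .ofNat 66, .ofNat 33, .ofNat 2090, .ofNat 954, .ofNat 209⟩, ⟨.negSucc 15, .ofNat 2, .ofNat 4, .negSucc 132, .ofNat 26, .ofNat 14⟩, .ofNat 636, .ofNat 699, .ofNat 0, .ofNat 699, .ofNat 1693, .ofNat 0, .ofNat 152, .negSucc 187, .negSucc 539, .ofNat 0, .ofNat 138, .ofNat 239, .ofNat 0, .ofNat 0, .ofNat 641, .ofNat 679, .ofNat 0, .ofNat 151774003316960757396771493537382400, .ofNat 0, .ofNat 0, .ofNat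 0, .ofNat 0, .ofNat 0, .ofNat 0, .ofNat 0, .ofNat 0, .ofNat 0, .ofNat 0, .ofNat 0, .ofNat 0, .ofNat 0, .ofNat 0⟩)
    (by decide +kernel)
theorem L02037 : Good (Phi V4.P V4.D (-1) (-1)) ⟨5, 26, 3, 3, 2, 0, 4, 14, 3, 5⟩ :=
  leaf_sound (S := T4.ds_mm) T4.ok_mm (w := 184) (c := ⟨⟨.negSucc 713, .ofNat 97, .negSucc 91, .ofNat 1095, .ofNat 316, .ofNat 81⟩, ⟨.ofNat 339, .negSucc 59, .ofNat 67, .negSucc 533, .negSucc 148, .negSucc 36⟩, ⟨.ofNat 380, .negSucc 90, .ofNat 88, .negSucc 1005, .negSucc 309, .negSucc 53⟩, ⟨.negSucc 1115, .ofNat 137, .negSucc 134, .ofNat 1611, .ofNat 507, .ofNat 130⟩, ⟨.negSucc 1, .ofNat 3, .negSucc 5, .negSucc 208, .ofNat 25, .ofNat 3⟩, .ofNat 639, .ofNat 704, .ofNat 0, .ofNat 704, .ofNat 1692, .ofNat 0, .ofNat 269, .negSucc 335, .negSucc 715, .ofNat 0, .ofNat 247, .ofNat 318, .ofNat 0, .ofNat 0, .ofNat 958, .ofNat 7413, .ofNat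 0, .ofNat 0, .ofNat 0, .ofNat 0, .ofNat 0, .ofNat 0, .ofNat 0, .ofNat 0, .ofNat 0, .ofNat 0, .ofNat 0, .ofNat 0, .ofNat 0, .ofNat 0, .ofNat 91695440922943372759229320396800, .ofNat 0⟩)
    (by decide +kernel)
theorem L02038 : Good (Phi V4.P V4.D (-1) (-1)) ⟨5, 26, 3, 3, 2, 0, 4, 15, 3, 5⟩ :=
  leaf_sound (S := T4.ds_mm) T4.ok_mm (w := 184) (c := ⟨⟨.negSucc 559, .negSucc 34, .ofNat 103, .ofNat 1544, .ofNat 636, .ofNat 65⟩, ⟨.ofNat 274, .ofNat 1, .negSucc 40, .negSucc 743, .negSucc 308, .negSucc 27⟩, ⟨.ofNat 231, .ofNat 35, .negSucc 101, .negSucc 1453, .negSucc 630, .negSucc 37⟩, ⟨.negSucc 874, .negSucc 73, .ofNat 173, .ofNat 2361, .ofNat 1005, .ofNat 106⟩, ⟨.negSucc 5, .negSucc 7, .ofNat 9, .negSucc 117, .ofNat 24, .ofNat 4⟩, .ofNat 634, .ofNat 695, .ofNat 0, .ofNat 695, .ofNat 1680, .ofNat 0, .ofNat 140, .negSucc 171, .negSucc 478, .ofNat 0, .ofNat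 127, .ofNat 212, .ofNat 0, .ofNat 0, .ofNat 577, .ofNat 1146, .ofNat 0, .ofNat 138972342975667580547775836507340800, .ofNat 0, .ofNat 0, .ofNat 0, .ofNat 0, .ofNat 0, .ofNat 0, .ofNat 0, .ofNat 0, .ofNat 0, .ofNat 0, .ofNat 0, .ofNat 0, .ofNat 0, .ofNat 0⟩)
    (by decide +kernel)
theorem L02039 : Good (Phi V4.P V4.D (-1) (-1)) ⟨5, 27, 4, 6, 2, 0, 3, 7, 2, 2⟩ :=
  out_sound (S := T4.ds_mm) T4.ok_mm (w := 64) (j := 3) (by decide +kernel)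
theorem L02040 : Good (Phi V4.P V4.D (-1) (-1)) ⟨5, 27, 4, 7, 2, 0, 4, 14, 2, 2⟩ :=
  leaf_sound (S := T4.ds_mm) T4.ok_mm (w := 192) (c := ⟨⟨.negSucc 850, .ofNat 96, .ofNat 46, .ofNat 1089, .ofNat 336, .ofNat 196⟩, ⟨.ofNat 439, .negSucc 47, .negSucc 18, .negSucc 572, .negSucc 174, .negSucc 101⟩, ⟨.ofNat 480, .negSucc 92, .negSucc 42, .negSucc 996, .negSucc 330, .negSucc 132⟩, ⟨.negSucc 1315, .ofNat 169, .ofNat 79, .ofNat 1555, .ofNat 529, .ofNat 307⟩, ⟨.negSucc 22, .ofNat 27, .ofNat 23, .negSucc 226, .ofNat 25, .ofNat 11⟩, .ofNat 3308, .ofNat 5616, .ofNat 0, .ofNat 5616, .ofNat 10816, .ofNat 0, .ofNat 145, .negSucc 429, .negSucc 770, .ofNat 0, .ofNat 250, .ofNat 402, .ofNat 0, .ofNat 0, .ofNat 1023, .ofNat 3038, .ofNat 0, .ofNat 0, .ofNat 0, .ofNat 0, .ofNat 0, .ofNat 6670082705529090989174024141851852800, .ofNat 94036740268083176600405803008000,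 .ofNat 0, .ofNat 0, .ofNat 3651267389929414292708907126305587200, .ofNat 95705852415121216430125822771200, .ofNat 0, .ofNat 0, .ofNat 0, .ofNat 63307839043700891419342484275200, .ofNat 0⟩)
    (by decide +kernel)
theorem L02041 : Good (Phi V4.P V4.D (-1) (-1)) ⟨5, 27, 4, 7, 2, 0, 4, 15, 2, 2⟩ :=
  leaf_sound (S := T4.ds_mm) T4.ok_mm (w := 184) (c := ⟨⟨.negSucc 688, .ofNat 142, .ofNat 30, .ofNat 1698, .ofNat 704, .ofNat 144⟩, ⟨.ofNat 361, .negSucc 81, .negSucc 16, .negSucc 887, .negSucc 366, .negSucc 73⟩, ⟨.ofNat 314, .negSucc 139, .negSucc 19, .negSucc 1594, .negSucc 694, .negSucc 80⟩, ⟨.negSucc 1069, .ofNat 195, .ofNat 54, .ofNat 2546, .ofNat 1096, .ofNat 224⟩, ⟨.negSucc 20, .negSucc 13, .ofNat 13, .negSucc 118, .ofNat 29, .ofNat 6⟩, .ofNat 3302, .ofNat 5606, .ofNat 0, .ofNat 5606, .ofNat 10801, .ofNat 0, .ofNat 74, .negSucc 218, .negSucc 489,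 .ofNat 0, .ofNat 127, .ofNat 255, .ofNat 0, .ofNat 0, .ofNat 592, .ofNat 983, .ofNat 0, .ofNat 177888337668880749746288554357555200, .ofNat 0, .ofNat 0, .ofNat 0, .ofNat 4015057631683870338627576222292377600, .ofNat 23686809991669590253951883673600, .ofNat 0, .ofNat 0, .ofNat 3741475808029238381903462917786828800, .ofNat 23979604729702492885658841907200, .ofNat 0, .ofNat 0, .ofNat 8745070449430829855563226597346508800, .ofNat 6766191900612041233070555136000, .ofNat 0⟩)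
    (by decide +kernel)
theorem L02042 : Good (Phi V4.P V4.D (-1) (-1)) ⟨3, 7, 3, 3, 2, 0, 3, 7, 2, 2⟩ :=
  out_sound (S := T4.ds_mm) T4.ok_mm (w := 48) (j := 3) (by decide +kernel)
theorem L02043 : Good (Phi V4.P V4.D (-1) (-1)) ⟨2, 2, 2, 1, 2, 1, 2, 3, 2, 2⟩ :=
  out_sound (S := T4.ds_mm) T4.ok_mm (w := 40) (j := 3) (by decide +kernel)
theorem L02044 : Good (Phi V4.P V4.D (-1) (-1)) ⟨4, 12, 2, 1, 2, 1, 2, 3, 2, 2⟩ :=
  leaf_sound (S := T4.ds_mm) T4.ok_mm (w := 168) (c := ⟨⟨.negSucc 416, .ofNat 25, .ofNat 99, .ofNat 383, .ofNat 801, .ofNat 231⟩, ⟨.ofNat 145, .negSucc 31, .ofNat 24, .negSucc 177, .negSucc 300, .negSucc 88⟩, ⟨.ofNat 130, .negSucc 15, .negSucc 103, .negSucc 318, .negSucc 794, .negSucc 176⟩, ⟨.negSucc 783, .ofNat 35, .ofNat 112, .ofNat 434, .ofNat 1346, .ofNat 379⟩, ⟨.negSucc 292, .negSucc 22, .ofNat 15, .negSucc 515, .ofNat 82, .ofNat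 4⟩, .ofNat 526, .ofNat 512, .ofNat 0, .ofNat 512, .ofNat 1599, .ofNat 0, .ofNat 653, .negSucc 593, .negSucc 1014, .ofNat 0, .ofNat 455, .ofNat 353, .ofNat 0, .ofNat 0, .ofNat 1676, .ofNat 2673, .ofNat 0, .ofNat 372669130118151045865683497779200, .ofNat 0, .ofNat 0, .ofNat 0, .ofNat 103392176284730146777669282509619200, .ofNat 0, .ofNat 0, .ofNat 0, .ofNat 90389082632270033976902369987788800, .ofNat 0, .ofNat 0, .ofNat 0, .ofNat 135337275117941934361711339162828800, .ofNat 0, .ofNat 0⟩)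
    (by decide +kernel)
theorem L02045 : Good (Phi V4.P V4.D (-1) (-1)) ⟨4, 13, 2, 1, 2, 1, 2, 3, 2, 2⟩ :=
  leaf_sound (S := T4.ds_mm) T4.ok_mm (w := 168) (c := ⟨⟨.negSucc 457, .ofNat 62, .ofNat 120, .ofNat 542, .ofNat 930, .ofNat 246⟩, ⟨.ofNat 166, .negSucc 70, .ofNat 14, .negSucc 272, .negSucc 444, .negSucc 114⟩, ⟨.ofNat 170, .negSucc 63, .negSucc 110, .negSucc 468, .negSucc 918, .negSucc 188⟩, ⟨.negSucc 820, .ofNat 79, .ofNat 133, .ofNat 583, .ofNat 1501, .ofNat 391⟩, ⟨.negSucc 306, .negSucc 20, .ofNat 2, .negSucc 546, .ofNat 90, .ofNat 6⟩, .ofNat 646, .ofNat 715, .ofNat 0, .ofNat 715, .ofNat 1703, .ofNat 0, .ofNat 559, .negSucc 723, .negSucc 1133, .ofNat 0, .ofNat 522, .ofNat 513, .ofNat 0, .ofNat 0, .ofNat 1759, .ofNat 1742, .ofNat 0, .ofNat 400748544754991737115693285376000, .ofNat 0, .ofNat 0, .ofNat 0, .ofNat 77053326881930732069276529092198400,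 .ofNat 761299235879919206869971763200, .ofNat 0, .ofNat 0, .ofNat 59414283186842741128415335887667200, .ofNat 733258148757037046525067264000, .ofNat 0, .ofNat 0, .ofNat 138218636487293006535567810861465600, .ofNat 0, .ofNat 0⟩)
    (by decide +kernel)
theorem L02046 : Good (Phi V4.P V4.D (-1) (-1)) ⟨3, 7, 2, 1, 2, 1, 2, 3, 2, 2⟩ :=
  out_sound (S := T4.ds_mm) T4.ok_mm (w := 48) (j := 3) (by decide +kernel)
theorem L02047 : Good (Phi V4.P V4.D (-1) (-1)) ⟨2, 2, 2, 1, 2, 0, 0, 0, 3, 6⟩ :=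
  out_sound (S := T4.ds_mm) T4.ok_mm (w := 40) (j := 3) (by decide +kernel)
theorem L02048 : Good (Phi V4.P V4.D (-1) (-1)) ⟨2, 3, 2, 1, 2, 0, 1, 0, 3, 6⟩ :=
  out_sound (S := T4.ds_mm) T4.ok_mm (w := 24) (j := 1) (by decide +kernel)
theorem L02049 : Good (Phi V4.P V4.D (-1) (-1)) ⟨2, 3, 2, 1, 2, 0, 2, 2, 3, 6⟩ :=
  leaf_sound (S := T4.ds_mm) T4.ok_mm (w := 168) (c := ⟨⟨.negSucc 1217, .negSucc 166, .ofNat 36, .ofNat 487, .ofNat 624, .ofNat 18⟩, ⟨.ofNat 535, .ofNat 95, .ofNat 53, .negSucc 220, .negSucc 320, .ofNat 19⟩, ⟨.ofNat 896, .ofNat 178, .negSucc 34, .negSucc 401, .negSucc 617, .negSucc 20⟩, ⟨.negSucc 1928, .negSucc 123, .ofNat 39, .ofNat 660, .ofNat 953, .ofNat 10⟩, ⟨.negSucc 113, .negSucc 16, .ofNat 4, .negSucc 282, .ofNat 134, .negSucc 179⟩, .ofNat 331, .ofNat 188, .ofNat 0, .ofNat 188, .ofNat 678, .ofNat 0, .ofNat 328, .negSucc 198, .negSucc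 458, .ofNat 0, .ofNat 241, .ofNat 149, .ofNat 0, .ofNat 0, .ofNat 764, .ofNat 17626, .ofNat 1380840319780649133424586942054400, .ofNat 0, .ofNat 0, .ofNat 0, .ofNat 7872710713830177815565295209676800, .ofNat 0, .ofNat 0, .ofNat 0, .ofNat 2550867772626528327348129261158400, .ofNat 0, .ofNat 9387980667865152987289406668800, .ofNat 0, .ofNat 7841165328705548267821213522329600, .ofNat 0, .ofNat 11252280713022288824015152742400, .ofNat 0⟩)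
    (by decide +kernel)
theorem L02050 : Good (Phi V4.P V4.D (-1) (-1)) ⟨3, 6, 2, 1, 2, 0, 3, 6, 3, 6⟩ :=
  leaf_sound (S := T4.ds_mm) T4.ok_mm (w := 176) (c := ⟨⟨.negSucc 729, .negSucc 65, .ofNat 59, .ofNat 645, .ofNat 307, .ofNat 31⟩, ⟨.ofNat 288, .ofNat 77, .negSucc 12, .negSucc 283, .negSucc 128, .negSucc 27⟩, ⟨.ofNat 416, .ofNat 72, .negSucc 59, .negSucc 566, .negSucc 301, .negSucc 8⟩, ⟨.negSucc 1187, .negSucc 7, .ofNat 42, .ofNat 929, .ofNat 508, .ofNat 24⟩, ⟨.negSucc 1, .ofNat 28, .negSucc 17, .negSucc 269, .ofNat 36, .negSucc 20⟩, .ofNat 332, .ofNat 191, .ofNat 0, .ofNat 191, .ofNat 679, .ofNat 0, .ofNat 337, .negSucc 206, .negSucc 575, .ofNat 0, .ofNat 249, .ofNat 187, .ofNat 0, .ofNat 0, .ofNat 834, .ofNat 7242, .ofNat 4892268778243389815006273155891200, .ofNat 0, .ofNat 0, .ofNat 0, .ofNat 0, .ofNat 0, .ofNat 0, .ofNat 0, .ofNat 0, .ofNat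 0, .ofNat 0, .ofNat 0, .ofNat 0, .ofNat 0, .ofNat 0, .ofNat 0⟩)
    (by decide +kernel)
theorem L02051 : Good (Phi V4.P V4.D (-1) (-1)) ⟨4, 12, 3, 2, 2, 0, 3, 7, 3, 6⟩ :=
  leaf_sound (S := T4.ds_mm) T4.ok_mm (w := 184) (c := ⟨⟨.negSucc 618, .negSucc 18, .ofNat 53, .ofNat 1046, .ofNat 675, .negSucc 9⟩, ⟨.ofNat 232, .ofNat 12, .negSucc 24, .negSucc 402, .negSucc 254, .ofNat 5⟩, ⟨.ofNat 312, .ofNat 22, .negSucc 53, .negSucc 971, .negSucc 661, .ofNat 32⟩, ⟨.negSucc 1020, .negSucc 27, .ofNat 79, .ofNat 1658, .ofNat 1125, .negSucc 17⟩, ⟨.negSucc 8, .negSucc 5, .ofNat 7, .negSucc 165, .ofNat 42, .negSucc 8⟩, .ofNat 812, .ofNat 1131, .ofNat 0, .ofNat 1131, .ofNat 3117, .ofNat 0, .ofNat 246, .negSucc 299, .negSucc 608, .ofNat 0, .ofNat 188, .ofNat 227, .ofNat 0, .ofNat 0, .ofNat 847, .ofNat 3895, .ofNat 132035503523353242828261015158784000, .ofNat 0, .ofNat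 0, .ofNat 0, .ofNat 0, .ofNat 440763985097054999798753903247360000, .ofNat 0, .ofNat 0, .ofNat 0, .ofNat 331340334707346789496546155036672000, .ofNat 0, .ofNat 0, .ofNat 0, .ofNat 861429667678977313591572412602777600, .ofNat 0, .ofNat 0⟩)
    (by decide +kernel)
theorem L02052 : Good (Phi V4.P V4.D (-1) (-1)) ⟨4, 12, 3, 3, 2, 0, 3, 7, 3, 6⟩ :=
  leaf_sound (S := T4.ds_mm) T4.ok_mm (w := 184) (c := ⟨⟨.negSucc 498, .negSucc 149, .negSucc 51, .ofNat 1176, .ofNat 689, .ofNat 7⟩, ⟨.ofNat 220, .ofNat 63, .ofNat 29, .negSucc 518, .negSucc 298, .negSucc 2⟩, ⟨.ofNat 194, .ofNat 149, .ofNat 52, .negSucc 1098, .negSucc 675, .ofNat 16⟩, ⟨.negSucc 788, .negSucc 255, .negSucc 81, .ofNat 1814, .ofNat 1116, .ofNat 12⟩, ⟨.ofNat 24, .negSucc 34, .ofNat 0, .negSucc 158, .ofNat 29, .ofNat 1⟩, .ofNat 1745, .ofNat 3058, .ofNat 0, .ofNat 3058, .ofNat 7002, .ofNat 0, .ofNat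 189, .negSucc 342, .negSucc 638, .ofNat 0, .ofNat 195, .ofNat 278, .ofNat 0, .ofNat 0, .ofNat 870, .ofNat 3511, .ofNat 127746251562610102913684230216089600, .ofNat 0, .ofNat 614622565513373554615674470400, .ofNat 0, .ofNat 0, .ofNat 0, .ofNat 0, .ofNat 0, .ofNat 0, .ofNat 539484287800585249145111664446668800, .ofNat 229449802592753644316757118156800, .ofNat 0, .ofNat 0, .ofNat 1080126063579101001474991564888473600, .ofNat 135190535305283195296150034841600, .ofNat 0⟩)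
    (by decide +kernel)
theorem L02053 : Good (Phi V4.P V4.D (-1) (-1)) ⟨4, 13, 3, 2, 2, 0, 4, 14, 3, 6⟩ :=
  leaf_sound (S := T4.ds_mm) T4.ok_mm (w := 184) (c := ⟨⟨.negSucc 841, .negSucc 69, .ofNat 248, .ofNat 1069, .ofNat 288, .ofNat 56⟩, ⟨.ofNat 360, .ofNat 27, .negSucc 100, .negSucc 474, .negSucc 123, .negSucc 23⟩, ⟨.ofNat 534, .ofNat 66, .negSucc 244, .negSucc 989, .negSucc 281, .negSucc 33⟩, ⟨.negSucc 1353, .negSucc 112, .ofNat 407, .ofNat 1621, .ofNat 469, .ofNat 89⟩, ⟨.negSucc 42, .negSucc 12, .ofNat 41, .negSucc 186, .ofNat 23, .negSucc 1⟩, .ofNat 1169, .ofNat 1792, .ofNat 0, .ofNat 1792, .ofNat 4182, .ofNat 0, .ofNat 214, .negSucc 325, .negSucc 591, .ofNat 0, .ofNat 202, .ofNat 256, .ofNat 0, .ofNat 0, .ofNat 837, .ofNat 13502, .ofNat 1987978223550517863406912381177036800, .ofNat 0, .ofNat 0, .ofNat 0, .ofNat 10419324866395042362204296233510502400,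 .ofNat 674384535639052136212672195382476800, .ofNat 2152954599141645782138942285414400, .ofNat 0, .ofNat 49868700459311053763045297901010944000, .ofNat 449204822153121191264037429785395200, .ofNat 5444618957602110885285722691993600, .ofNat 0, .ofNat 36175569872743949178360793404329164800, .ofNat 295888508843904932094785353678848000, .ofNat 1471857454333965194327760253747200, .ofNat 0⟩)
    (by decide +kernel)
theorem L02054 : Good (Phi V4.P V4.D (-1) (-1)) ⟨4, 13, 3, 2, 2, 0, 4, 15, 3, 6⟩ :=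
  leaf_sound (S := T4.ds_mm) T4.ok_mm (w := 184) (c := ⟨⟨.negSucc 349, .negSucc 82, .negSucc 77, .ofNat 1511, .ofNat 447, .ofNat 34⟩, ⟨.ofNat 160, .ofNat 32, .ofNat 27, .negSucc 663, .negSucc 193, .negSucc 14⟩, ⟨.ofNat 47, .ofNat 91, .ofNat 81, .negSucc 1432, .negSucc 439, .negSucc 11⟩, ⟨.negSucc 554, .negSucc 145, .negSucc 127, .ofNat 2358, .ofNat 718, .ofNat 56⟩, ⟨.ofNat 0, .negSucc 9, .negSucc 2, .negSucc 110, .ofNat 14, .ofNat 3⟩, .ofNat 1391, .ofNat 2260, .ofNat 0, .ofNat 2260, .ofNat 5193, .ofNat 0, .ofNat 217, .negSucc 337, .negSucc 736, .ofNat 0, .ofNat 208, .ofNat 320, .ofNat 0, .ofNat 0, .ofNat 948, .ofNat 9327, .ofNat 0, .ofNat 0, .ofNat 0, .ofNat 0, .ofNat 0, .ofNat 2131909533493108696820981854686412800, .ofNat 13240592287311249393213407389286400, .ofNat 0, .ofNat 0, .ofNat 2461374957965944777454595596510822400, .ofNat 7625912820351427209109232104243200,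 .ofNat 0, .ofNat 0, .ofNat 5927960524097175272585187782610124800, .ofNat 1129974517741673221373757594009600, .ofNat 0⟩)
    (by decide +kernel)
theorem L02055 : Good (Phi V4.P V4.D (-1) (-1)) ⟨5, 26, 3, 3, 2, 0, 4, 14, 3, 6⟩ :=
  leaf_sound (S := T4.ds_mm) T4.ok_mm (w := 192) (c := ⟨⟨.negSucc 646, .negSucc 8, .ofNat 22, .ofNat 1206, .ofNat 308, .ofNat 12⟩, ⟨.ofNat 306, .ofNat 19, .negSucc 14, .negSucc 585, .negSucc 148, .negSucc 2⟩, ⟨.ofNat 341, .ofNat 10, .negSucc 21, .negSucc 1125, .negSucc 300, .ofNat 10⟩, ⟨.negSucc 1015, .ofNat 3, .ofNat 18, .ofNat 1801, .ofNat 491, .ofNat 17⟩, ⟨.negSucc 4, .ofNat 1, .negSucc 0, .negSucc 179, .ofNat 22, .negSucc 6⟩, .ofNat 1175, .ofNat 1728, .ofNat 0, .ofNat 1728, .ofNat 3767, .ofNat 0, .ofNat 191, .negSucc 343, .negSucc 614, .ofNat 0, .ofNat 212, .ofNat 290, .ofNat 0, .ofNat 0, .ofNat 856, .ofNat 10675, .ofNat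 23218095333181108200727091701874688000, .ofNat 0, .ofNat 0, .ofNat 0, .ofNat 57613829045765105095848690255396864000, .ofNat 0, .ofNat 82444748808430917348633870336000, .ofNat 0, .ofNat 0, .ofNat 0, .ofNat 0, .ofNat 0, .ofNat 0, .ofNat 0, .ofNat 0, .ofNat 0⟩)
    (by decide +kernel)
theorem L02056 : Good (Phi V4.P V4.D (-1) (-1)) ⟨5, 26, 3, 3, 2, 0, 4, 15, 3, 6⟩ :=
  leaf_sound (S := T4.ds_mm) T4.ok_mm (w := 184) (c := ⟨⟨.negSucc 496, .negSucc 70, .ofNat 109, .ofNat 1733, .ofNat 534, .ofNat 12⟩, ⟨.ofNat 244, .ofNat 35, .negSucc 58, .negSucc 844, .negSucc 257, .negSucc 4⟩, ⟨.ofNat 197, .ofNat 72, .negSucc 108, .negSucc 1651, .negSucc 526, .ofNat 11⟩, ⟨.negSucc 775, .negSucc 118, .ofNat 175, .ofNat 2657, .ofNat 842, .ofNat 19⟩, ⟨.negSucc 3, .negSucc 10, .ofNat 13, .negSucc 103, .ofNat 14, .negSucc 0⟩, .ofNat 636, .ofNat 700, .ofNat 0, .ofNat 700, .ofNat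 1692, .ofNat 0, .ofNat 129, .negSucc 159, .negSucc 426, .ofNat 0, .ofNat 118, .ofNat 189, .ofNat 0, .ofNat 0, .ofNat 522, .ofNat 2027, .ofNat 0, .ofNat 0, .ofNat 0, .ofNat 0, .ofNat 0, .ofNat 0, .ofNat 0, .ofNat 0, .ofNat 0, .ofNat 0, .ofNat 0, .ofNat 0, .ofNat 4855577785572408524301793484183961600, .ofNat 15027019205845121110003565462342860800, .ofNat 0, .ofNat 0⟩)
    (by decide +kernel)
theorem L02057 : Good (Phi V4.P V4.D (-1) (-1)) ⟨5, 27, 4, 6, 2, 0, 3, 7, 3, 6⟩ :=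
  out_sound (S := T4.ds_mm) T4.ok_mm (w := 64) (j := 3) (by decide +kernel)
theorem L02058 : Good (Phi V4.P V4.D (-1) (-1)) ⟨5, 27, 4, 7, 2, 0, 3, 7, 3, 6⟩ :=
  leaf_sound (S := T4.ds_mm) T4.ok_mm (w := 192) (c := ⟨⟨.negSucc 794, .ofNat 3, .ofNat 92, .ofNat 1387, .ofNat 795, .ofNat 11⟩, ⟨.ofNat 415, .negSucc 4, .negSucc 47, .negSucc 727, .negSucc 414, .negSucc 4⟩, ⟨.ofNat 488, .negSucc 4, .negSucc 91, .negSucc 1303, .negSucc 780, .ofNat 10⟩, ⟨.negSucc 1226, .negSucc 5, .ofNat 145, .ofNat 2044, .ofNat 1237, .ofNat 19⟩, ⟨.negSucc 14, .negSucc 11, .ofNat 9, .negSucc 166, .ofNat 31, .ofNat 4⟩, .ofNat 3279, .ofNat 5557, .ofNat 0, .ofNat 5557, .ofNat 10695, .ofNat 0, .ofNat 130, .negSucc 380, .negSucc 710, .ofNat 0, .ofNat 222, .ofNat 370, .ofNat 0, .ofNat 0, .ofNat 929, .ofNat 3933, .ofNat 7233744329351167831440829763184230400, .ofNat 0, .ofNat 388859409943235180677929369600,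 .ofNat 0, .ofNat 34083410911835086003873146450267340800, .ofNat 25564898836150869502515194429335142400, .ofNat 162396270839761717642321408819200, .ofNat 0, .ofNat 0, .ofNat 22196350309185388838304847826937446400, .ofNat 136812181510799958148458636902400, .ofNat 0, .ofNat 0, .ofNat 94702129681525515584648319801596313600, .ofNat 19999246756900899374575386624000, .ofNat 0⟩)
    (by decide +kernel)
theorem L02059 : Good (Phi V4.P V4.D (-1) (-1)) ⟨3, 7, 2, 1, 2, 0, 2, 3, 3, 6⟩ :=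
  out_sound (S := T4.ds_mm) T4.ok_mm (w := 48) (j := 3) (by decide +kernel)
theorem L02060 : Good (Phi V4.P V4.D (-1) (-1)) ⟨2, 2, 2, 1, 2, 1, 0, 0, 3, 6⟩ :=
  out_sound (S := T4.ds_mm) T4.ok_mm (w := 40) (j := 3) (by decide +kernel)
theorem L02061 : Good (Phi V4.P V4.D (-1) (-1)) ⟨2, 3, 2, 1, 2, 1, 1, 0, 3, 6⟩ :=
  out_sound (S := T4.ds_mm) T4.ok_mm (w := 24) (j := 1) (by decide +kernel)
theorem L02062 : Good (Phi V4.P V4.D (-1) (-1)) ⟨4, 12, 2, 1, 2, 1, 2, 2, 3, 6⟩ :=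
  leaf_sound (S := T4.ds_mm) T4.ok_mm (w := 176) (c := ⟨⟨.negSucc 635, .ofNat 14, .ofNat 59, .ofNat 277, .ofNat 460, .ofNat 82⟩, ⟨.ofNat 210, .negSucc 21, .ofNat 42, .negSucc 115, .negSucc 161, .negSucc 28⟩, ⟨.ofNat 414, .negSucc 5, .negSucc 62, .negSucc 216, .negSucc 473, .negSucc 66⟩, ⟨.negSucc 1180, .ofNat 27, .ofNat 53, .ofNat 330, .ofNat 786, .ofNat 139⟩, ⟨.negSucc 346, .negSucc 13, .ofNat 4, .negSucc 379, .ofNat 56, .ofNat 4⟩, .ofNat 523, .ofNat 505, .ofNat 0, .ofNat 505, .ofNat 1595, .ofNat 0, .ofNat 1090, .negSucc 965, .negSucc 1434, .ofNat 0, .ofNat 753, .ofNat 491, .ofNat 0, .ofNat 0, .ofNat 2779, .ofNat 53031, .ofNat 0, .ofNat 0, .ofNat 0, .ofNat 0, .ofNat 8188652753098182234367617914634240000, .ofNat 0, .ofNat 0, .ofNat 0, .ofNat 5893283809132413183180552128377651200, .ofNat 1248142115016854410343257958724403200, .ofNat 0, .ofNat 0,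 .ofNat 2372378559844885436461794902566502400, .ofNat 93881917104807375686838080294092800, .ofNat 0, .ofNat 0⟩)
    (by decide +kernel)
theorem L02063 : Good (Phi V4.P V4.D (-1) (-1)) ⟨4, 12, 2, 1, 2, 1, 2, 3, 3, 6⟩ :=
  leaf_sound (S := T4.ds_mm) T4.ok_mm (w := 176) (c := ⟨⟨.negSucc 169, .ofNat 17, .ofNat 68, .ofNat 0, .ofNat 297, .ofNat 21⟩, ⟨.ofNat 48, .negSucc 25, .ofNat 34, .ofNat 0, .negSucc 112, .negSucc 6⟩, ⟨.negSucc 65, .negSucc 9, .negSucc 71, .ofNat 0, .negSucc 299, .negSucc 4⟩, ⟨.negSucc 383, .ofNat 27, .ofNat 71, .ofNat 0, .ofNat 496, .ofNat 34⟩, ⟨.negSucc 291, .negSucc 11, .ofNat 1, .ofNat 0, .ofNat 24, .negSucc 1⟩, .ofNat 532, .ofNat 523, .ofNat 0, .ofNat 523, .ofNat 1595, .ofNat 0, .ofNat 2179, .negSucc 2008, .negSucc 3032, .ofNat 0, .ofNat 1552, .ofNat 1071, .ofNat 0, .ofNat 0, .ofNat 5651, .ofNat 312291, .ofNat 0, .ofNat 0, .ofNat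 0, .ofNat 0, .ofNat 0, .ofNat 126159487166024882212916821195594137600, .ofNat 0, .ofNat 0, .ofNat 0, .ofNat 117579615392336869325262247178954342400, .ofNat 0, .ofNat 0, .ofNat 0, .ofNat 132100217147569737961779828718200422400, .ofNat 93986219728476823318482124800000, .ofNat 0⟩)
    (by decide +kernel)
theorem L02064 : Good (Phi V4.P V4.D (-1) (-1)) ⟨4, 13, 3, 2, 2, 1, 2, 2, 3, 6⟩ :=
  leaf_sound (S := T4.ds_mm) T4.ok_mm (w := 184) (c := ⟨⟨.negSucc 661, .ofNat 14, .ofNat 33, .ofNat 341, .ofNat 499, .ofNat 89⟩, ⟨.ofNat 241, .negSucc 20, .ofNat 15, .negSucc 166, .negSucc 212, .negSucc 38⟩, ⟨.ofNat 448, .negSucc 8, .negSucc 33, .negSucc 278, .negSucc 514, .negSucc 73⟩, ⟨.negSucc 1196, .ofNat 17, .ofNat 34, .ofNat 375, .ofNat 824, .ofNat 145⟩, ⟨.negSucc 366, .negSucc 13, .negSucc 1, .negSucc 387, .ofNat 67, .ofNat 5⟩, .ofNat 911, .ofNat 1257, .ofNat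 0, .ofNat 1257, .ofNat 3030, .ofNat 0, .ofNat 1700, .negSucc 2394, .negSucc 2924, .ofNat 0, .ofNat 1542, .ofNat 1252, .ofNat 0, .ofNat 0, .ofNat 5597, .ofNat 210637, .ofNat 0, .ofNat 0, .ofNat 0, .ofNat 0, .ofNat 439464781311334600156317961759280332800, .ofNat 44942286078731653250501294275166208000, .ofNat 1962102010932005090242708950220800, .ofNat 0, .ofNat 764208700452989074922274275156243251200, .ofNat 39224210810303483280115671774737203200, .ofNat 3895232005422518232988043653939200, .ofNat 0, .ofNat 349236341851188763300324119194212761600, .ofNat 14951426113751931854484129558665625600, .ofNat 508396473986642757607760068608000, .ofNat 0⟩)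
    (by decide +kernel)
theorem L02065 : Good (Phi V4.P V4.D (-1) (-1)) ⟨4, 13, 3, 3, 2, 1, 2, 2, 3, 6⟩ :=
  leaf_sound (S := T4.ds_mm) T4.ok_mm (w := 184) (c := ⟨⟨.negSucc 647, .ofNat 28, .ofNat 30, .ofNat 387, .ofNat 518, .ofNat 92⟩, ⟨.ofNat 290, .negSucc 40, .ofNat 21, .negSucc 205, .negSucc 247, .negSucc 47⟩, ⟨.ofNat 433, .negSucc 19, .negSucc 31, .negSucc 324, .negSucc 533, .negSucc 76⟩, ⟨.negSucc 1183, .ofNat 41, .ofNat 25, .ofNat 418, .ofNat 845, .ofNat 149⟩, ⟨.negSucc 376, .negSucc 12, .ofNat 1, .negSucc 383, .ofNat 74, .ofNat 10⟩, .ofNat 642, .ofNat 709, .ofNat 0, .ofNat 709, .ofNat 1699, .ofNat 0, .ofNat 927, .negSucc 1172, .negSucc 1539, .ofNat 0, .ofNat 855, .ofNat 691, .ofNat 0, .ofNat 0, .ofNat 2849, .ofNat 56143, .ofNat 0, .ofNat 0, .ofNat 0, .ofNat 0, .ofNat 15244591884198612814486382558419353600, .ofNat 2329214229575805198382280212060569600,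 .ofNat 0, .ofNat 0, .ofNat 25104876640298823098257726654277222400, .ofNat 3799361271187194708984058963663257600, .ofNat 85789932365144065393965190348800, .ofNat 0, .ofNat 10090884759145169167523276244438220800, .ofNat 734334275766069337601028700451635200, .ofNat 0, .ofNat 0⟩)
    (by decide +kernel)
theorem L02066 : Good (Phi V4.P V4.D (-1) (-1)) ⟨4, 13, 2, 1, 2, 1, 2, 3, 3, 6⟩ :=
  leaf_sound (S := T4.ds_mm) T4.ok_mm (w := 176) (c := ⟨⟨.negSucc 159, .ofNat 27, .ofNat 74, .ofNat 0, .ofNat 404, .ofNat 35⟩, ⟨.ofNat 31, .negSucc 35, .ofNat 20, .ofNat 0, .negSucc 191, .negSucc 15⟩, ⟨.negSucc 68, .negSucc 20, .negSucc 76, .ofNat 0, .negSucc 405, .negSucc 18⟩, ⟨.negSucc 366, .ofNat 30, .ofNat 80, .ofNat 0, .ofNat 646, .ofNat 55⟩, ⟨.negSucc 302, .negSucc 10, .ofNat 1, .ofNat 0, .ofNat 30, .ofNat 0⟩, .ofNat 642, .ofNat 709, .ofNat 0, .ofNat 709, .ofNat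 1696, .ofNat 0, .ofNat 1887, .negSucc 2391, .negSucc 3287, .ofNat 0, .ofNat 1744, .ofNat 1473, .ofNat 0, .ofNat 0, .ofNat 5819, .ofNat 171938, .ofNat 0, .ofNat 0, .ofNat 0, .ofNat 0, .ofNat 0, .ofNat 96420794429391643300691757214413619200, .ofNat 118755095718756501485289839001600, .ofNat 0, .ofNat 0, .ofNat 59056849303870858409501273292904857600, .ofNat 451846358429892951729749203353600, .ofNat 0, .ofNat 0, .ofNat 145628651677747523098189012908009062400, .ofNat 0, .ofNat 0⟩)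
    (by decide +kernel)
theorem L02067 : Good (Phi V4.P V4.D (-1) (-1)) ⟨3, 7, 2, 1, 2, 1, 1, 1, 3, 6⟩ :=
  out_sound (S := T4.ds_mm) T4.ok_mm (w := 48) (j := 3) (by decide +kernel)
theorem L02068 : Good (Phi V4.P V4.D (-1) (-1)) ⟨1, 1, 2, 1, 1, 0, 1, 0, 3, 7⟩ :=
  out_sound (S := T4.ds_mm) T4.ok_mm (w := 24) (j := 1) (by decide +kernel)
theorem L02069 : Good (Phi V4.P V4.D (-1) (-1)) ⟨2, 2, 2, 1, 1, 0, 1, 1, 3, 7⟩ :=
  out_sound (S := T4.ds_mm) T4.ok_mm (w := 40) (j := 3) (by decide +kernel)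
theorem L02070 : Good (Phi V4.P V4.D (-1) (-1)) ⟨8, 192, 6, 16, 1, 0, 1, 1, 3, 7⟩ :=
  out_sound (S := T4.ds_mm) T4.ok_mm (w := 88) (j := 3) (by decide +kernel)
theorem L02071 : Good (Phi V4.P V4.D (-1) (-1)) ⟨8, 193, 7, 32, 2, 0, 2, 2, 3, 7⟩ :=
  out_sound (S := T4.ds_mm) T4.ok_mm (w := 24) (j := 1) (by decide +kernel)
theorem L02072 : Good (Phi V4.P V4.D (-1) (-1)) ⟨8, 193, 7, 32, 2, 0, 3, 6, 4, 14⟩ :=
  out_sound (S := T4.ds_mm) T4.ok_mm (w := 32) (j := 1) (by decide +kernel)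
theorem L02073 : Good (Phi V4.P V4.D (-1) (-1)) ⟨8, 193, 7, 32, 2, 0, 4, 14, 5, 28⟩ :=
  out_sound (S := T4.ds_mm) T4.ok_mm (w := 32) (j := 1) (by decide +kernel)
theorem L02074 : Good (Phi V4.P V4.D (-1) (-1)) ⟨8, 193, 7, 32, 3, 0, 4, 15, 5, 28⟩ :=
  out_sound (S := T4.ds_mm) T4.ok_mm (w := 32) (j := 1) (by decide +kernel)
theorem L02075 : Good (Phi V4.P V4.D (-1) (-1)) ⟨8, 193, 7, 32, 3, 1, 4, 15, 5, 28⟩ :=
  out_sound (S := T4.ds_mm) T4.ok_mm (w := 40) (j := 2) (by decide +kernel)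
theorem L02076 : Good (Phi V4.P V4.D (-1) (-1)) ⟨8, 193, 7, 32, 2, 0, 3, 7, 5, 29⟩ :=
  out_sound (S := T4.ds_mm) T4.ok_mm (w := 32) (j := 1) (by decide +kernel)
theorem L02077 : Good (Phi V4.P V4.D (-1) (-1)) ⟨8, 193, 7, 32, 2, 0, 2, 3, 4, 15⟩ :=
  out_sound (S := T4.ds_mm) T4.ok_mm (w := 24) (j := 1) (by decide +kernel)
theorem L02078 : Good (Phi V4.P V4.D (-1) (-1)) ⟨8, 193, 7, 32, 4, 4, 2, 2, 3, 7⟩ :=
  out_sound (S := T4.ds_mm) T4.ok_mm (w := 32) (j := 1) (by decide +kernel)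
theorem L02079 : Good (Phi V4.P V4.D (-1) (-1)) ⟨8, 193, 7, 32, 4, 4, 2, 3, 3, 7⟩ :=
  out_sound (S := T4.ds_mm) T4.ok_mm (w := 32) (j := 2) (by decide +kernel)
theorem L02080 : Good (Phi V4.P V4.D (-1) (-1)) ⟨8, 193, 7, 32, 4, 5, 1, 1, 3, 7⟩ :=
  out_sound (S := T4.ds_mm) T4.ok_mm (w := 32) (j := 2) (by decide +kernel)
theorem L02081 : Good (Phi V4.P V4.D (-1) (-1)) ⟨8, 193, 7, 32, 3, 3, 1, 1, 3, 7⟩ :=
  out_sound (S := T4.ds_mm) T4.ok_mm (w := 32) (j := 2) (by decide +kernel)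
theorem L02082 : Good (Phi V4.P V4.D (-1) (-1)) ⟨8, 193, 7, 33, 1, 0, 1, 1, 3, 7⟩ :=
  out_sound (S := T4.ds_mm) T4.ok_mm (w := 88) (j := 3) (by decide +kernel)
theorem L02083 : Good (Phi V4.P V4.D (-1) (-1)) ⟨7, 96, 6, 17, 1, 0, 1, 1, 3, 7⟩ :=
  out_sound (S := T4.ds_mm) T4.ok_mm (w := 80) (j := 3) (by decide +kernel)
theorem L02084 : Good (Phi V4.P V4.D (-1) (-1)) ⟨7, 97, 5, 8, 2, 0, 2, 2, 3, 7⟩ :=
  out_sound (S := T4.ds_mm) T4.ok_mm (w := 24) (j := 1) (by decide +kernel)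
theorem L02085 : Good (Phi V4.P V4.D (-1) (-1)) ⟨7, 97, 5, 8, 2, 0, 3, 6, 4, 14⟩ :=
  out_sound (S := T4.ds_mm) T4.ok_mm (w := 32) (j := 1) (by decide +kernel)
theorem L02086 : Good (Phi V4.P V4.D (-1) (-1)) ⟨7, 97, 5, 8, 2, 0, 4, 14, 5, 28⟩ :=
  out_sound (S := T4.ds_mm) T4.ok_mm (w := 32) (j := 1) (by decide +kernel)
theorem L02087 : Good (Phi V4.P V4.D (-1) (-1)) ⟨7, 97, 5, 8, 3, 0, 4, 15, 5, 28⟩ :=
  out_sound (S := T4.ds_mm) T4.ok_mm (w := 32) (j := 1) (by decide +kernel)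
theorem L02088 : Good (Phi V4.P V4.D (-1) (-1)) ⟨7, 97, 5, 8, 3, 1, 4, 15, 5, 28⟩ :=
  out_sound (S := T4.ds_mm) T4.ok_mm (w := 40) (j := 2) (by decide +kernel)
theorem L02089 : Good (Phi V4.P V4.D (-1) (-1)) ⟨7, 97, 5, 8, 2, 0, 3, 7, 5, 29⟩ :=
  out_sound (S := T4.ds_mm) T4.ok_mm (w := 32) (j := 1) (by decide +kernel)
theorem L02090 : Good (Phi V4.P V4.D (-1) (-1)) ⟨7, 97, 5, 8, 2, 0, 2, 3, 4, 15⟩ :=
  out_sound (S := T4.ds_mm) T4.ok_mm (w := 24) (j := 1) (by decide +kernel)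
theorem L02091 : Good (Phi V4.P V4.D (-1) (-1)) ⟨7, 97, 5, 8, 4, 4, 2, 2, 3, 7⟩ :=
  out_sound (S := T4.ds_mm) T4.ok_mm (w := 32) (j := 1) (by decide +kernel)
theorem L02092 : Good (Phi V4.P V4.D (-1) (-1)) ⟨7, 97, 5, 8, 4, 4, 2, 3, 3, 7⟩ :=
  out_sound (S := T4.ds_mm) T4.ok_mm (w := 32) (j := 2) (by decide +kernel)
theorem L02093 : Good (Phi V4.P V4.D (-1) (-1)) ⟨7, 97, 5, 8, 4, 5, 1, 1, 3, 7⟩ :=
  out_sound (S := T4.ds_mm) T4.ok_mm (w := 32) (j := 2) (by decide +kernel)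
theorem L02094 : Good (Phi V4.P V4.D (-1) (-1)) ⟨7, 97, 5, 8, 3, 3, 1, 1, 3, 7⟩ :=
  out_sound (S := T4.ds_mm) T4.ok_mm (w := 32) (j := 2) (by decide +kernel)
theorem L02095 : Good (Phi V4.P V4.D (-1) (-1)) ⟨6, 48, 5, 9, 1, 0, 1, 1, 3, 7⟩ :=
  out_sound (S := T4.ds_mm) T4.ok_mm (w := 72) (j := 3) (by decide +kernel)
theorem L02096 : Good (Phi V4.P V4.D (-1) (-1)) ⟨6, 49, 4, 4, 2, 0, 2, 2, 3, 7⟩ :=
  out_sound (S := T4.ds_mm) T4.ok_mm (w := 24) (j := 1) (by decide +kernel)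
theorem L02097 : Good (Phi V4.P V4.D (-1) (-1)) ⟨6, 49, 4, 4, 2, 0, 3, 6, 4, 14⟩ :=
  out_sound (S := T4.ds_mm) T4.ok_mm (w := 32) (j := 1) (by decide +kernel)
theorem L02098 : Good (Phi V4.P V4.D (-1) (-1)) ⟨6, 49, 4, 4, 2, 0, 4, 14, 5, 28⟩ :=
  out_sound (S := T4.ds_mm) T4.ok_mm (w := 32) (j := 1) (by decide +kernel)
theorem L02099 : Good (Phi V4.P V4.D (-1) (-1)) ⟨6, 49, 4, 4, 3, 0, 4, 15, 5, 28⟩ :=
  out_sound (S := T4.ds_mm) T4.ok_mm (w := 32) (j := 1) (by decide +kernel)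
theorem L02100 : Good (Phi V4.P V4.D (-1) (-1)) ⟨6, 49, 4, 4, 3, 1, 4, 15, 5, 28⟩ :=
  out_sound (S := T4.ds_mm) T4.ok_mm (w := 40) (j := 2) (by decide +kernel)
theorem L02101 : Good (Phi V4.P V4.D (-1) (-1)) ⟨6, 49, 4, 4, 2, 0, 3, 7, 5, 29⟩ :=
  out_sound (S := T4.ds_mm) T4.ok_mm (w := 32) (j := 1) (by decide +kernel)
theorem L02102 : Good (Phi V4.P V4.D (-1) (-1)) ⟨6, 49, 4, 4, 2, 0, 2, 3, 4, 15⟩ :=
  out_sound (S := T4.ds_mm) T4.ok_mm (w := 24) (j := 1) (by decide +kernel)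
theorem L02103 : Good (Phi V4.P V4.D (-1) (-1)) ⟨6, 49, 4, 4, 4, 4, 2, 2, 3, 7⟩ :=
  out_sound (S := T4.ds_mm) T4.ok_mm (w := 32) (j := 1) (by decide +kernel)
theorem L02104 : Good (Phi V4.P V4.D (-1) (-1)) ⟨6, 49, 4, 4, 4, 4, 2, 3, 3, 7⟩ :=
  out_sound (S := T4.ds_mm) T4.ok_mm (w := 32) (j := 2) (by decide +kernel)
theorem L02105 : Good (Phi V4.P V4.D (-1) (-1)) ⟨6, 49, 4, 4, 4, 5, 1, 1, 3, 7⟩ :=
  out_sound (S := T4.ds_mm) T4.ok_mm (w := 32) (j := 2) (by decide +kernel)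
theorem L02106 : Good (Phi V4.P V4.D (-1) (-1)) ⟨6, 49, 4, 4, 3, 3, 1, 1, 3, 7⟩ :=
  out_sound (S := T4.ds_mm) T4.ok_mm (w := 32) (j := 2) (by decide +kernel)
theorem L02107 : Good (Phi V4.P V4.D (-1) (-1)) ⟨5, 24, 4, 5, 1, 0, 1, 1, 3, 7⟩ :=
  out_sound (S := T4.ds_mm) T4.ok_mm (w := 64) (j := 3) (by decide +kernel)
theorem L02108 : Good (Phi V4.P V4.D (-1) (-1)) ⟨5, 25, 3, 2, 2, 0, 2, 2, 3, 7⟩ :=
  out_sound (S := T4.ds_mm) T4.ok_mm (w := 24) (j := 1) (by decide +kernel)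
theorem L02109 : Good (Phi V4.P V4.D (-1) (-1)) ⟨5, 25, 3, 2, 2, 0, 3, 6, 4, 14⟩ :=
  out_sound (S := T4.ds_mm) T4.ok_mm (w := 32) (j := 1) (by decide +kernel)
theorem L02110 : Good (Phi V4.P V4.D (-1) (-1)) ⟨5, 25, 3, 2, 2, 0, 4, 14, 5, 28⟩ :=
  out_sound (S := T4.ds_mm) T4.ok_mm (w := 32) (j := 1) (by decide +kernel)
theorem L02111 : Good (Phi V4.P V4.D (-1) (-1)) ⟨5, 25, 3, 2, 3, 0, 4, 15, 5, 28⟩ :=
  out_sound (S := T4.ds_mm) T4.ok_mm (w := 32) (j := 1) (by decide +kernel)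
theorem L02112 : Good (Phi V4.P V4.D (-1) (-1)) ⟨5, 25, 3, 2, 3, 1, 4, 15, 5, 28⟩ :=
  out_sound (S := T4.ds_mm) T4.ok_mm (w := 40) (j := 2) (by decide +kernel)
theorem L02113 : Good (Phi V4.P V4.D (-1) (-1)) ⟨5, 25, 3, 2, 2, 0, 3, 7, 5, 29⟩ :=
  out_sound (S := T4.ds_mm) T4.ok_mm (w := 32) (j := 1) (by decide +kernel)
theorem L02114 : Good (Phi V4.P V4.D (-1) (-1)) ⟨5, 25, 3, 2, 2, 0, 2, 3, 4, 15⟩ :=
  out_sound (S := T4.ds_mm) T4.ok_mm (w := 24) (j := 1) (by decide +kernel)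
theorem L02115 : Good (Phi V4.P V4.D (-1) (-1)) ⟨5, 25, 3, 2, 4, 4, 2, 2, 3, 7⟩ :=
  out_sound (S := T4.ds_mm) T4.ok_mm (w := 32) (j := 1) (by decide +kernel)
theorem L02116 : Good (Phi V4.P V4.D (-1) (-1)) ⟨5, 25, 3, 2, 4, 4, 2, 3, 3, 7⟩ :=
  out_sound (S := T4.ds_mm) T4.ok_mm (w := 32) (j := 2) (by decide +kernel)
theorem L02117 : Good (Phi V4.P V4.D (-1) (-1)) ⟨5, 25, 3, 2, 4, 5, 1, 1, 3, 7⟩ :=
  out_sound (S := T4.ds_mm) T4.ok_mm (w := 32) (j := 2) (by decide +kernel)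
theorem L02118 : Good (Phi V4.P V4.D (-1) (-1)) ⟨5, 25, 3, 2, 3, 3, 1, 1, 3, 7⟩ :=
  out_sound (S := T4.ds_mm) T4.ok_mm (w := 32) (j := 2) (by decide +kernel)
theorem L02119 : Good (Phi V4.P V4.D (-1) (-1)) ⟨5, 24, 3, 3, 1, 0, 1, 1, 3, 7⟩ :=
  out_sound (S := T4.ds_mm) T4.ok_mm (w := 64) (j := 3) (by decide +kernel)
theorem L02120 : Good (Phi V4.P V4.D (-1) (-1)) ⟨6, 50, 4, 6, 1, 0, 1, 1, 3, 7⟩ :=
  out_sound (S := T4.ds_mm) T4.ok_mm (w := 72) (j := 3) (by decide +kernel)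
theorem L02121 : Good (Phi V4.P V4.D (-1) (-1)) ⟨7, 102, 5, 12, 1, 0, 1, 1, 3, 7⟩ :=
  out_sound (S := T4.ds_mm) T4.ok_mm (w := 80) (j := 3) (by decide +kernel)
theorem L02122 : Good (Phi V4.P V4.D (-1) (-1)) ⟨7, 103, 6, 24, 2, 0, 2, 2, 3, 7⟩ :=
  out_sound (S := T4.ds_mm) T4.ok_mm (w := 24) (j := 1) (by decide +kernel)
theorem L02123 : Good (Phi V4.P V4.D (-1) (-1)) ⟨7, 103, 6, 24, 2, 0, 3, 6, 4, 14⟩ :=
  out_sound (S := T4.ds_mm) T4.ok_mm (w := 32) (j := 1) (by decide +kernel)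
theorem L02124 : Good (Phi V4.P V4.D (-1) (-1)) ⟨7, 103, 6, 24, 2, 0, 4, 14, 5, 28⟩ :=
  out_sound (S := T4.ds_mm) T4.ok_mm (w := 32) (j := 1) (by decide +kernel)
theorem L02125 : Good (Phi V4.P V4.D (-1) (-1)) ⟨7, 103, 6, 24, 3, 0, 4, 15, 5, 28⟩ :=
  out_sound (S := T4.ds_mm) T4.ok_mm (w := 32) (j := 1) (by decide +kernel)
theorem L02126 : Good (Phi V4.P V4.D (-1) (-1)) ⟨7, 103, 6, 24, 3, 1, 4, 15, 5, 28⟩ :=
  out_sound (S := T4.ds_mm) T4.ok_mm (w := 40) (j := 2) (by decide +kernel)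
theorem L02127 : Good (Phi V4.P V4.D (-1) (-1)) ⟨7, 103, 6, 24, 2, 0, 3, 7, 5, 29⟩ :=
  out_sound (S := T4.ds_mm) T4.ok_mm (w := 32) (j := 1) (by decide +kernel)
theorem L02128 : Good (Phi V4.P V4.D (-1) (-1)) ⟨7, 103, 6, 24, 2, 0, 2, 3, 4, 15⟩ :=
  out_sound (S := T4.ds_mm) T4.ok_mm (w := 24) (j := 1) (by decide +kernel)
theorem L02129 : Good (Phi V4.P V4.D (-1) (-1)) ⟨7, 103, 6, 24, 4, 4, 2, 2, 3, 7⟩ :=
  out_sound (S := T4.ds_mm) T4.ok_mm (w := 32) (j := 1) (by decide +kernel)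
theorem L02130 : Good (Phi V4.P V4.D (-1) (-1)) ⟨7, 103, 6, 24, 4, 4, 2, 3, 3, 7⟩ :=
  out_sound (S := T4.ds_mm) T4.ok_mm (w := 32) (j := 2) (by decide +kernel)
theorem L02131 : Good (Phi V4.P V4.D (-1) (-1)) ⟨7, 103, 6, 24, 4, 5, 1, 1, 3, 7⟩ :=
  out_sound (S := T4.ds_mm) T4.ok_mm (w := 32) (j := 2) (by decide +kernel)
theorem L02132 : Good (Phi V4.P V4.D (-1) (-1)) ⟨7, 103, 6, 24, 3, 3, 1, 1, 3, 7⟩ :=
  out_sound (S := T4.ds_mm) T4.ok_mm (w := 32) (j := 2) (by decide +kernel)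
theorem L02133 : Good (Phi V4.P V4.D (-1) (-1)) ⟨8, 206, 6, 25, 1, 0, 1, 1, 3, 7⟩ :=
  out_sound (S := T4.ds_mm) T4.ok_mm (w := 88) (j := 3) (by decide +kernel)
theorem L02134 : Good (Phi V4.P V4.D (-1) (-1)) ⟨10, 828, 8, 100, 1, 0, 1, 1, 3, 7⟩ :=
  out_sound (S := T4.ds_mm) T4.ok_mm (w := 104) (j := 3) (by decide +kernel)
theorem L02135 : Good (Phi V4.P V4.D (-1) (-1)) ⟨11, 1658, 9, 200, 1, 0, 1, 1, 3, 7⟩ :=
  out_sound (S := T4.ds_mm) T4.ok_mm (w := 112) (j := 3) (by decide +kernel)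
theorem L02136 : Good (Phi V4.P V4.D (-1) (-1)) ⟨12, 3318, 10, 400, 1, 0, 1, 1, 3, 7⟩ :=
  out_sound (S := T4.ds_mm) T4.ok_mm (w := 120) (j := 3) (by decide +kernel)
theorem L02137 : Good (Phi V4.P V4.D (-1) (-1)) ⟨13, 6638, 11, 800, 1, 0, 1, 1, 3, 7⟩ :=
  out_sound (S := T4.ds_mm) T4.ok_mm (w := 128) (j := 3) (by decide +kernel)
theorem L02138 : Good (Phi V4.P V4.D (-1) (-1)) ⟨14, 13278, 12, 1600, 1, 0, 1, 1, 3, 7⟩ :=
  out_sound (S := T4.ds_mm) T4.ok_mm (w := 136) (j := 3) (by decide +kernel)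
theorem L02139 : Good (Phi V4.P V4.D (-1) (-1)) ⟨15, 26558, 13, 3200, 1, 0, 1, 1, 3, 7⟩ :=
  out_sound (S := T4.ds_mm) T4.ok_mm (w := 144) (j := 3) (by decide +kernel)
theorem L02140 : Good (Phi V4.P V4.D (-1) (-1)) ⟨15, 26559, 14, 6400, 2, 0, 2, 2, 3, 7⟩ :=
  out_sound (S := T4.ds_mm) T4.ok_mm (w := 24) (j := 1) (by decide +kernel)
theorem L02141 : Good (Phi V4.P V4.D (-1) (-1)) ⟨15, 26559, 14, 6400, 2, 0, 3, 6, 4, 14⟩ :=
  out_sound (S := T4.ds_mm) T4.ok_mm (w := 32) (j := 1) (by decide +kernel)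
theorem L02142 : Good (Phi V4.P V4.D (-1) (-1)) ⟨15, 26559, 14, 6400, 2, 0, 4, 14, 5, 28⟩ :=
  out_sound (S := T4.ds_mm) T4.ok_mm (w := 32) (j := 1) (by decide +kernel)
theorem L02143 : Good (Phi V4.P V4.D (-1) (-1)) ⟨15, 26559, 14, 6400, 3, 0, 4, 15, 5, 28⟩ :=
  out_sound (S := T4.ds_mm) T4.ok_mm (w := 32) (j := 1) (by decide +kernel)
theorem L02144 : Good (Phi V4.P V4.D (-1) (-1)) ⟨15, 26559, 14, 6400, 3, 1, 4, 15, 5, 28⟩ :=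
  out_sound (S := T4.ds_mm) T4.ok_mm (w := 40) (j := 2) (by decide +kernel)
theorem L02145 : Good (Phi V4.P V4.D (-1) (-1)) ⟨15, 26559, 14, 6400, 2, 0, 3, 7, 5, 29⟩ :=
  out_sound (S := T4.ds_mm) T4.ok_mm (w := 32) (j := 1) (by decide +kernel)
theorem L02146 : Good (Phi V4.P V4.D (-1) (-1)) ⟨15, 26559, 14, 6400, 2, 0, 2, 3, 4, 15⟩ :=
  out_sound (S := T4.ds_mm) T4.ok_mm (w := 24) (j := 1) (by decide +kernel)
theorem L02147 : Good (Phi V4.P V4.D (-1) (-1)) ⟨15, 26559, 14, 6400, 4, 4, 2, 2, 3, 7⟩ :=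
  out_sound (S := T4.ds_mm) T4.ok_mm (w := 32) (j := 1) (by decide +kernel)
theorem L02148 : Good (Phi V4.P V4.D (-1) (-1)) ⟨15, 26559, 14, 6400, 4, 4, 2, 3, 3, 7⟩ :=
  out_sound (S := T4.ds_mm) T4.ok_mm (w := 32) (j := 2) (by decide +kernel)
theorem L02149 : Good (Phi V4.P V4.D (-1) (-1)) ⟨15, 26559, 14, 6400, 4, 5, 1, 1, 3, 7⟩ :=
  out_sound (S := T4.ds_mm) T4.ok_mm (w := 32) (j := 2) (by decide +kernel)
theorem L02150 : Good (Phi V4.P V4.D (-1) (-1)) ⟨15, 26559, 14, 6400, 3, 3, 1, 1, 3, 7⟩ :=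
  out_sound (S := T4.ds_mm) T4.ok_mm (w := 32) (j := 2) (by decide +kernel)
theorem L02151 : Good (Phi V4.P V4.D (-1) (-1)) ⟨15, 26559, 14, 6401, 1, 0, 1, 1, 3, 7⟩ :=
  out_sound (S := T4.ds_mm) T4.ok_mm (w := 144) (j := 3) (by decide +kernel)
theorem L02152 : Good (Phi V4.P V4.D (-1) (-1)) ⟨14, 13279, 13, 3201, 1, 0, 1, 1, 3, 7⟩ :=
  out_sound (S := T4.ds_mm) T4.ok_mm (w := 136) (j := 3) (by decide +kernel)
theorem L02153 : Good (Phi V4.P V4.D (-1) (-1)) ⟨13, 6639, 12, 1601, 1, 0, 1, 1, 3, 7⟩ :=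
  out_sound (S := T4.ds_mm) T4.ok_mm (w := 128) (j := 3) (by decide +kernel)
theorem L02154 : Good (Phi V4.P V4.D (-1) (-1)) ⟨12, 3319, 11, 801, 1, 0, 1, 1, 3, 7⟩ :=
  out_sound (S := T4.ds_mm) T4.ok_mm (w := 120) (j := 3) (by decide +kernel)
theorem L02155 : Good (Phi V4.P V4.D (-1) (-1)) ⟨11, 1659, 10, 401, 1, 0, 1, 1, 3, 7⟩ :=
  out_sound (S := T4.ds_mm) T4.ok_mm (w := 112) (j := 3) (by decide +kernel)
theorem L02156 : Good (Phi V4.P V4.D (-1) (-1)) ⟨10, 829, 9, 201, 1, 0, 1, 1, 3, 7⟩ :=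
  out_sound (S := T4.ds_mm) T4.ok_mm (w := 104) (j := 3) (by decide +kernel)
theorem L02157 : Good (Phi V4.P V4.D (-1) (-1)) ⟨9, 414, 8, 101, 1, 0, 1, 1, 3, 7⟩ :=
  out_sound (S := T4.ds_mm) T4.ok_mm (w := 96) (j := 3) (by decide +kernel)
theorem L02158 : Good (Phi V4.P V4.D (-1) (-1)) ⟨9, 415, 7, 50, 2, 0, 2, 2, 3, 7⟩ :=
  out_sound (S := T4.ds_mm) T4.ok_mm (w := 24) (j := 1) (by decide +kernel)
theorem L02159 : Good (Phi V4.P V4.D (-1) (-1)) ⟨9, 415, 7, 50, 2, 0, 3, 6, 4, 14⟩ :=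
  out_sound (S := T4.ds_mm) T4.ok_mm (w := 32) (j := 1) (by decide +kernel)
theorem L02160 : Good (Phi V4.P V4.D (-1) (-1)) ⟨9, 415, 7, 50, 2, 0, 4, 14, 5, 28⟩ :=
  out_sound (S := T4.ds_mm) T4.ok_mm (w := 32) (j := 1) (by decide +kernel)
theorem L02161 : Good (Phi V4.P V4.D (-1) (-1)) ⟨9, 415, 7, 50, 3, 0, 4, 15, 5, 28⟩ :=
  out_sound (S := T4.ds_mm) T4.ok_mm (w := 32) (j := 1) (by decide +kernel)
theorem L02162 : Good (Phi V4.P V4.D (-1) (-1)) ⟨9, 415, 7, 50, 3, 1, 4, 15, 5, 28⟩ :=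
  out_sound (S := T4.ds_mm) T4.ok_mm (w := 40) (j := 2) (by decide +kernel)
theorem L02163 : Good (Phi V4.P V4.D (-1) (-1)) ⟨9, 415, 7, 50, 2, 0, 3, 7, 5, 29⟩ :=
  out_sound (S := T4.ds_mm) T4.ok_mm (w := 32) (j := 1) (by decide +kernel)
theorem L02164 : Good (Phi V4.P V4.D (-1) (-1)) ⟨9, 415, 7, 50, 2, 0, 2, 3, 4, 15⟩ :=
  out_sound (S := T4.ds_mm) T4.ok_mm (w := 24) (j := 1) (by decide +kernel)
theorem L02165 : Good (Phi V4.P V4.D (-1) (-1)) ⟨9, 415, 7, 50, 4, 4, 2, 2, 3, 7⟩ :=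
  out_sound (S := T4.ds_mm) T4.ok_mm (w := 32) (j := 1) (by decide +kernel)
theorem L02166 : Good (Phi V4.P V4.D (-1) (-1)) ⟨9, 415, 7, 50, 4, 4, 2, 3, 3, 7⟩ :=
  out_sound (S := T4.ds_mm) T4.ok_mm (w := 32) (j := 2) (by decide +kernel)
theorem L02167 : Good (Phi V4.P V4.D (-1) (-1)) ⟨9, 415, 7, 50, 4, 5, 1, 1, 3, 7⟩ :=
  out_sound (S := T4.ds_mm) T4.ok_mm (w := 32) (j := 2) (by decide +kernel)
theorem L02168 : Good (Phi V4.P V4.D (-1) (-1)) ⟨9, 415, 7, 50, 3, 3, 1, 1, 3, 7⟩ :=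
  out_sound (S := T4.ds_mm) T4.ok_mm (w := 32) (j := 2) (by decide +kernel)
theorem L02169 : Good (Phi V4.P V4.D (-1) (-1)) ⟨8, 207, 7, 51, 1, 0, 1, 1, 3, 7⟩ :=
  out_sound (S := T4.ds_mm) T4.ok_mm (w := 88) (j := 3) (by decide +kernel)
theorem L02170 : Good (Phi V4.P V4.D (-1) (-1)) ⟨6, 51, 5, 13, 1, 0, 1, 1, 3, 7⟩ :=
  out_sound (S := T4.ds_mm) T4.ok_mm (w := 72) (j := 3) (by decide +kernel)
theorem L02171 : Good (Phi V4.P V4.D (-1) (-1)) ⟨5, 25, 4, 7, 1, 0, 1, 1, 3, 7⟩ :=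
  out_sound (S := T4.ds_mm) T4.ok_mm (w := 64) (j := 3) (by decide +kernel)
theorem L02172 : Good (Phi V4.P V4.D (-1) (-1)) ⟨5, 26, 4, 4, 1, 0, 1, 1, 3, 7⟩ :=
  out_sound (S := T4.ds_mm) T4.ok_mm (w := 64) (j := 3) (by decide +kernel)
theorem L02173 : Good (Phi V4.P V4.D (-1) (-1)) ⟨6, 52, 5, 10, 1, 0, 1, 1, 3, 7⟩ :=
  out_sound (S := T4.ds_mm) T4.ok_mm (w := 72) (j := 3) (by decide +kernel)
theorem L02174 : Good (Phi V4.P V4.D (-1) (-1)) ⟨7, 104, 6, 22, 1, 0, 1, 1, 3, 7⟩ :=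
  out_sound (S := T4.ds_mm) T4.ok_mm (w := 80) (j := 3) (by decide +kernel)
theorem L02175 : Good (Phi V4.P V4.D (-1) (-1)) ⟨8, 208, 6, 23, 2, 0, 2, 2, 3, 7⟩ :=
  out_sound (S := T4.ds_mm) T4.ok_mm (w := 24) (j := 1) (by decide +kernel)
theorem L02176 : Good (Phi V4.P V4.D (-1) (-1)) ⟨8, 208, 6, 23, 2, 0, 3, 6, 4, 14⟩ :=
  out_sound (S := T4.ds_mm) T4.ok_mm (w := 32) (j := 1) (by decide +kernel)
theorem L02177 : Good (Phi V4.P V4.D (-1) (-1)) ⟨8, 208, 6, 23, 2, 0, 4, 14, 5, 28⟩ :=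
  out_sound (S := T4.ds_mm) T4.ok_mm (w := 32) (j := 1) (by decide +kernel)
theorem L02178 : Good (Phi V4.P V4.D (-1) (-1)) ⟨8, 208, 6, 23, 3, 0, 4, 15, 5, 28⟩ :=
  out_sound (S := T4.ds_mm) T4.ok_mm (w := 32) (j := 1) (by decide +kernel)
theorem L02179 : Good (Phi V4.P V4.D (-1) (-1)) ⟨8, 208, 6, 23, 3, 1, 4, 15, 5, 28⟩ :=
  out_sound (S := T4.ds_mm) T4.ok_mm (w := 40) (j := 2) (by decide +kernel)
theorem L02180 : Good (Phi V4.P V4.D (-1) (-1)) ⟨8, 208, 6, 23, 2, 0, 3, 7, 5, 29⟩ :=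
  out_sound (S := T4.ds_mm) T4.ok_mm (w := 32) (j := 1) (by decide +kernel)
theorem L02181 : Good (Phi V4.P V4.D (-1) (-1)) ⟨8, 208, 6, 23, 2, 0, 2, 3, 4, 15⟩ :=
  out_sound (S := T4.ds_mm) T4.ok_mm (w := 24) (j := 1) (by decide +kernel)
theorem L02182 : Good (Phi V4.P V4.D (-1) (-1)) ⟨8, 208, 6, 23, 4, 4, 2, 2, 3, 7⟩ :=
  out_sound (S := T4.ds_mm) T4.ok_mm (w := 32) (j := 1) (by decide +kernel)
theorem L02183 : Good (Phi V4.P V4.D (-1) (-1)) ⟨8, 208, 6, 23, 4, 4, 2, 3, 3, 7⟩ :=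
  out_sound (S := T4.ds_mm) T4.ok_mm (w := 32) (j := 2) (by decide +kernel)
theorem L02184 : Good (Phi V4.P V4.D (-1) (-1)) ⟨8, 208, 6, 23, 4, 5, 1, 1, 3, 7⟩ :=
  out_sound (S := T4.ds_mm) T4.ok_mm (w := 32) (j := 2) (by decide +kernel)
theorem L02185 : Good (Phi V4.P V4.D (-1) (-1)) ⟨8, 208, 6, 23, 3, 3, 1, 1, 3, 7⟩ :=
  out_sound (S := T4.ds_mm) T4.ok_mm (w := 32) (j := 2) (by decide +kernel)
theorem L02186 : Good (Phi V4.P V4.D (-1) (-1)) ⟨8, 209, 6, 23, 1, 0, 1, 1, 3, 7⟩ :=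
  out_sound (S := T4.ds_mm) T4.ok_mm (w := 88) (j := 3) (by decide +kernel)
theorem L02187 : Good (Phi V4.P V4.D (-1) (-1)) ⟨7, 105, 5, 11, 1, 0, 1, 1, 3, 7⟩ :=
  out_sound (S := T4.ds_mm) T4.ok_mm (w := 80) (j := 3) (by decide +kernel)
theorem L02188 : Good (Phi V4.P V4.D (-1) (-1)) ⟨6, 53, 4, 5, 1, 0, 1, 1, 3, 7⟩ :=
  out_sound (S := T4.ds_mm) T4.ok_mm (w := 72) (j := 3) (by decide +kernel)
theorem L02189 : Good (Phi V4.P V4.D (-1) (-1)) ⟨5, 27, 3, 2, 1, 0, 1, 1, 3, 7⟩ :=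
  out_sound (S := T4.ds_mm) T4.ok_mm (w := 64) (j := 3) (by decide +kernel)
theorem L02190 : Good (Phi V4.P V4.D (-1) (-1)) ⟨5, 26, 3, 3, 2, 0, 2, 2, 3, 7⟩ :=
  out_sound (S := T4.ds_mm) T4.ok_mm (w := 24) (j := 1) (by decide +kernel)
theorem L02191 : Good (Phi V4.P V4.D (-1) (-1)) ⟨5, 26, 3, 3, 2, 0, 3, 6, 4, 14⟩ :=
  out_sound (S := T4.ds_mm) T4.ok_mm (w := 32) (j := 1) (by decide +kernel)
theorem L02192 : Good (Phi V4.P V4.D (-1) (-1)) ⟨5, 26, 3, 3, 2, 0, 4, 14, 5, 28⟩ :=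
  out_sound (S := T4.ds_mm) T4.ok_mm (w := 32) (j := 1) (by decide +kernel)
theorem L02193 : Good (Phi V4.P V4.D (-1) (-1)) ⟨5, 26, 3, 3, 3, 0, 4, 15, 5, 28⟩ :=
  out_sound (S := T4.ds_mm) T4.ok_mm (w := 32) (j := 1) (by decide +kernel)
theorem L02194 : Good (Phi V4.P V4.D (-1) (-1)) ⟨5, 26, 3, 3, 3, 1, 4, 15, 5, 28⟩ :=
  out_sound (S := T4.ds_mm) T4.ok_mm (w := 40) (j := 2) (by decide +kernel)
theorem L02195 : Good (Phi V4.P V4.D (-1) (-1)) ⟨5, 26, 3, 3, 2, 0, 3, 7, 5, 29⟩ :=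
  out_sound (S := T4.ds_mm) T4.ok_mm (w := 32) (j := 1) (by decide +kernel)
theorem L02196 : Good (Phi V4.P V4.D (-1) (-1)) ⟨5, 26, 3, 3, 2, 0, 2, 3, 4, 15⟩ :=
  out_sound (S := T4.ds_mm) T4.ok_mm (w := 24) (j := 1) (by decide +kernel)
theorem L02197 : Good (Phi V4.P V4.D (-1) (-1)) ⟨5, 26, 3, 3, 4, 4, 2, 2, 3, 7⟩ :=
  out_sound (S := T4.ds_mm) T4.ok_mm (w := 32) (j := 1) (by decide +kernel)
theorem L02198 : Good (Phi V4.P V4.D (-1) (-1)) ⟨5, 26, 3, 3, 4, 4, 2, 3, 3, 7⟩ :=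
  out_sound (S := T4.ds_mm) T4.ok_mm (w := 32) (j := 2) (by decide +kernel)
theorem L02199 : Good (Phi V4.P V4.D (-1) (-1)) ⟨5, 26, 3, 3, 4, 5, 1, 1, 3, 7⟩ :=
  out_sound (S := T4.ds_mm) T4.ok_mm (w := 32) (j := 2) (by decide +kernel)
theorem L02200 : Good (Phi V4.P V4.D (-1) (-1)) ⟨5, 26, 3, 3, 3, 3, 1, 1, 3, 7⟩ :=
  out_sound (S := T4.ds_mm) T4.ok_mm (w := 32) (j := 2) (by decide +kernel)
theorem L02201 : Good (Phi V4.P V4.D (-1) (-1)) ⟨5, 27, 4, 6, 1, 0, 1, 1, 3, 7⟩ :=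
  out_sound (S := T4.ds_mm) T4.ok_mm (w := 64) (j := 3) (by decide +kernel)
theorem L02202 : Good (Phi V4.P V4.D (-1) (-1)) ⟨6, 54, 5, 14, 1, 0, 1, 1, 3, 7⟩ :=
  out_sound (S := T4.ds_mm) T4.ok_mm (w := 72) (j := 3) (by decide +kernel)
theorem L02203 : Good (Phi V4.P V4.D (-1) (-1)) ⟨7, 108, 6, 30, 1, 0, 1, 1, 3, 7⟩ :=
  out_sound (S := T4.ds_mm) T4.ok_mm (w := 80) (j := 3) (by decide +kernel)
theorem L02204 : Good (Phi V4.P V4.D (-1) (-1)) ⟨10, 864, 9, 248, 1, 0, 1, 1, 3, 7⟩ :=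
  out_sound (S := T4.ds_mm) T4.ok_mm (w := 104) (j := 3) (by decide +kernel)
theorem L02205 : Good (Phi V4.P V4.D (-1) (-1)) ⟨10, 864, 9, 249, 2, 0, 2, 2, 3, 7⟩ :=
  out_sound (S := T4.ds_mm) T4.ok_mm (w := 24) (j := 1) (by decide +kernel)
theorem L02206 : Good (Phi V4.P V4.D (-1) (-1)) ⟨10, 864, 9, 249, 2, 0, 3, 6, 4, 14⟩ :=
  out_sound (S := T4.ds_mm) T4.ok_mm (w := 32) (j := 1) (by decide +kernel)
theorem L02207 : Good (Phi V4.P V4.D (-1) (-1)) ⟨10, 864, 9, 249, 2, 0, 4, 14, 5, 28⟩ :=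
  out_sound (S := T4.ds_mm) T4.ok_mm (w := 32) (j := 1) (by decide +kernel)
theorem L02208 : Good (Phi V4.P V4.D (-1) (-1)) ⟨10, 864, 9, 249, 3, 0, 4, 15, 5, 28⟩ :=
  out_sound (S := T4.ds_mm) T4.ok_mm (w := 32) (j := 1) (by decide +kernel)
theorem L02209 : Good (Phi V4.P V4.D (-1) (-1)) ⟨10, 864, 9, 249, 3, 1, 4, 15, 5, 28⟩ :=
  out_sound (S := T4.ds_mm) T4.ok_mm (w := 40) (j := 2) (by decide +kernel)
theorem L02210 : Good (Phi V4.P V4.D (-1) (-1)) ⟨10, 864, 9, 249, 2, 0, 3, 7, 5, 29⟩ :=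
  out_sound (S := T4.ds_mm) T4.ok_mm (w := 32) (j := 1) (by decide +kernel)
theorem L02211 : Good (Phi V4.P V4.D (-1) (-1)) ⟨10, 864, 9, 249, 2, 0, 2, 3, 4, 15⟩ :=
  out_sound (S := T4.ds_mm) T4.ok_mm (w := 24) (j := 1) (by decide +kernel)
theorem L02212 : Good (Phi V4.P V4.D (-1) (-1)) ⟨10, 864, 9, 249, 4, 4, 2, 2, 3, 7⟩ :=
  out_sound (S := T4.ds_mm) T4.ok_mm (w := 32) (j := 1) (by decide +kernel)
theorem L02213 : Good (Phi V4.P V4.D (-1) (-1)) ⟨10, 864, 9, 249, 4, 4, 2, 3, 3, 7⟩ :=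
  out_sound (S := T4.ds_mm) T4.ok_mm (w := 32) (j := 2) (by decide +kernel)
theorem L02214 : Good (Phi V4.P V4.D (-1) (-1)) ⟨10, 864, 9, 249, 4, 5, 1, 1, 3, 7⟩ :=
  out_sound (S := T4.ds_mm) T4.ok_mm (w := 32) (j := 2) (by decide +kernel)
theorem L02215 : Good (Phi V4.P V4.D (-1) (-1)) ⟨10, 864, 9, 249, 3, 3, 1, 1, 3, 7⟩ :=
  out_sound (S := T4.ds_mm) T4.ok_mm (w := 32) (j := 2) (by decide +kernel)
theorem L02216 : Good (Phi V4.P V4.D (-1) (-1)) ⟨10, 865, 8, 124, 1, 0, 1, 1, 3, 7⟩ :=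
  out_sound (S := T4.ds_mm) T4.ok_mm (w := 104) (j := 3) (by decide +kernel)
theorem L02217 : Good (Phi V4.P V4.D (-1) (-1)) ⟨9, 432, 8, 125, 2, 0, 2, 2, 3, 7⟩ :=
  out_sound (S := T4.ds_mm) T4.ok_mm (w := 24) (j := 1) (by decide +kernel)
theorem L02218 : Good (Phi V4.P V4.D (-1) (-1)) ⟨9, 432, 8, 125, 2, 0, 3, 6, 4, 14⟩ :=
  out_sound (S := T4.ds_mm) T4.ok_mm (w := 32) (j := 1) (by decide +kernel)
theorem L02219 : Good (Phi V4.P V4.D (-1) (-1)) ⟨9, 432, 8, 125, 2, 0, 4, 14, 5, 28⟩ :=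
  out_sound (S := T4.ds_mm) T4.ok_mm (w := 32) (j := 1) (by decide +kernel)
theorem L02220 : Good (Phi V4.P V4.D (-1) (-1)) ⟨9, 432, 8, 125, 3, 0, 4, 15, 5, 28⟩ :=
  out_sound (S := T4.ds_mm) T4.ok_mm (w := 32) (j := 1) (by decide +kernel)
theorem L02221 : Good (Phi V4.P V4.D (-1) (-1)) ⟨9, 432, 8, 125, 3, 1, 4, 15, 5, 28⟩ :=
  out_sound (S := T4.ds_mm) T4.ok_mm (w := 40) (j := 2) (by decide +kernel)
theorem L02222 : Good (Phi V4.P V4.D (-1) (-1)) ⟨9, 432, 8, 125, 2, 0, 3, 7, 5, 29⟩ :=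
  out_sound (S := T4.ds_mm) T4.ok_mm (w := 32) (j := 1) (by decide +kernel)
theorem L02223 : Good (Phi V4.P V4.D (-1) (-1)) ⟨9, 432, 8, 125, 2, 0, 2, 3, 4, 15⟩ :=
  out_sound (S := T4.ds_mm) T4.ok_mm (w := 24) (j := 1) (by decide +kernel)
theorem L02224 : Good (Phi V4.P V4.D (-1) (-1)) ⟨9, 432, 8, 125, 4, 4, 2, 2, 3, 7⟩ :=
  out_sound (S := T4.ds_mm) T4.ok_mm (w := 32) (j := 1) (by decide +kernel)
theorem L02225 : Good (Phi V4.P V4.D (-1) (-1)) ⟨9, 432, 8, 125, 4, 4, 2, 3, 3, 7⟩ :=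
  out_sound (S := T4.ds_mm) T4.ok_mm (w := 32) (j := 2) (by decide +kernel)
theorem L02226 : Good (Phi V4.P V4.D (-1) (-1)) ⟨9, 432, 8, 125, 4, 5, 1, 1, 3, 7⟩ :=
  out_sound (S := T4.ds_mm) T4.ok_mm (w := 32) (j := 2) (by decide +kernel)
theorem L02227 : Good (Phi V4.P V4.D (-1) (-1)) ⟨9, 432, 8, 125, 3, 3, 1, 1, 3, 7⟩ :=
  out_sound (S := T4.ds_mm) T4.ok_mm (w := 32) (j := 2) (by decide +kernel)
theorem L02228 : Good (Phi V4.P V4.D (-1) (-1)) ⟨9, 433, 7, 62, 1, 0, 1, 1, 3, 7⟩ :=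
  out_sound (S := T4.ds_mm) T4.ok_mm (w := 96) (j := 3) (by decide +kernel)
theorem L02229 : Good (Phi V4.P V4.D (-1) (-1)) ⟨9, 432, 7, 63, 2, 0, 2, 2, 3, 7⟩ :=
  out_sound (S := T4.ds_mm) T4.ok_mm (w := 24) (j := 1) (by decide +kernel)
theorem L02230 : Good (Phi V4.P V4.D (-1) (-1)) ⟨9, 432, 7, 63, 2, 0, 3, 6, 4, 14⟩ :=
  out_sound (S := T4.ds_mm) T4.ok_mm (w := 32) (j := 1) (by decide +kernel)
theorem L02231 : Good (Phi V4.P V4.D (-1) (-1)) ⟨9, 432, 7, 63, 2, 0, 4, 14, 5, 28⟩ :=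
  out_sound (S := T4.ds_mm) T4.ok_mm (w := 32) (j := 1) (by decide +kernel)
theorem L02232 : Good (Phi V4.P V4.D (-1) (-1)) ⟨9, 432, 7, 63, 3, 0, 4, 15, 5, 28⟩ :=
  out_sound (S := T4.ds_mm) T4.ok_mm (w := 32) (j := 1) (by decide +kernel)
theorem L02233 : Good (Phi V4.P V4.D (-1) (-1)) ⟨9, 432, 7, 63, 3, 1, 4, 15, 5, 28⟩ :=
  out_sound (S := T4.ds_mm) T4.ok_mm (w := 40) (j := 2) (by decide +kernel)
theorem L02234 : Good (Phi V4.P V4.D (-1) (-1)) ⟨9, 432, 7, 63, 2, 0, 3, 7, 5, 29⟩ :=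
  out_sound (S := T4.ds_mm) T4.ok_mm (w := 32) (j := 1) (by decide +kernel)
theorem L02235 : Good (Phi V4.P V4.D (-1) (-1)) ⟨9, 432, 7, 63, 2, 0, 2, 3, 4, 15⟩ :=
  out_sound (S := T4.ds_mm) T4.ok_mm (w := 24) (j := 1) (by decide +kernel)
theorem L02236 : Good (Phi V4.P V4.D (-1) (-1)) ⟨9, 432, 7, 63, 4, 4, 2, 2, 3, 7⟩ :=
  out_sound (S := T4.ds_mm) T4.ok_mm (w := 32) (j := 1) (by decide +kernel)
theorem L02237 : Good (Phi V4.P V4.D (-1) (-1)) ⟨9, 432, 7, 63, 4, 4, 2, 3, 3, 7⟩ :=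
  out_sound (S := T4.ds_mm) T4.ok_mm (w := 32) (j := 2) (by decide +kernel)
theorem L02238 : Good (Phi V4.P V4.D (-1) (-1)) ⟨9, 432, 7, 63, 4, 5, 1, 1, 3, 7⟩ :=
  out_sound (S := T4.ds_mm) T4.ok_mm (w := 32) (j := 2) (by decide +kernel)
theorem L02239 : Good (Phi V4.P V4.D (-1) (-1)) ⟨9, 432, 7, 63, 3, 3, 1, 1, 3, 7⟩ :=
  out_sound (S := T4.ds_mm) T4.ok_mm (w := 32) (j := 2) (by decide +kernel)
theorem L02240 : Good (Phi V4.P V4.D (-1) (-1)) ⟨10, 866, 9, 252, 1, 0, 1, 1, 3, 7⟩ :=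
  out_sound (S := T4.ds_mm) T4.ok_mm (w := 104) (j := 3) (by decide +kernel)
theorem L02241 : Good (Phi V4.P V4.D (-1) (-1)) ⟨11, 1732, 9, 253, 2, 0, 2, 2, 3, 7⟩ :=
  out_sound (S := T4.ds_mm) T4.ok_mm (w := 24) (j := 1) (by decide +kernel)
theorem L02242 : Good (Phi V4.P V4.D (-1) (-1)) ⟨11, 1732, 9, 253, 2, 0, 3, 6, 4, 14⟩ :=
  out_sound (S := T4.ds_mm) T4.ok_mm (w := 32) (j := 1) (by decide +kernel)
theorem L02243 : Good (Phi V4.P V4.D (-1) (-1)) ⟨11, 1732, 9, 253, 2, 0, 4, 14, 5, 28⟩ :=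
  out_sound (S := T4.ds_mm) T4.ok_mm (w := 32) (j := 1) (by decide +kernel)
theorem L02244 : Good (Phi V4.P V4.D (-1) (-1)) ⟨11, 1732, 9, 253, 3, 0, 4, 15, 5, 28⟩ :=
  out_sound (S := T4.ds_mm) T4.ok_mm (w := 32) (j := 1) (by decide +kernel)
theorem L02245 : Good (Phi V4.P V4.D (-1) (-1)) ⟨11, 1732, 9, 253, 3, 1, 4, 15, 5, 28⟩ :=
  out_sound (S := T4.ds_mm) T4.ok_mm (w := 40) (j := 2) (by decide +kernel)
theorem L02246 : Good (Phi V4.P V4.D (-1) (-1)) ⟨11, 1732, 9, 253, 2, 0, 3, 7, 5, 29⟩ :=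
  out_sound (S := T4.ds_mm) T4.ok_mm (w := 32) (j := 1) (by decide +kernel)
theorem L02247 : Good (Phi V4.P V4.D (-1) (-1)) ⟨11, 1732, 9, 253, 2, 0, 2, 3, 4, 15⟩ :=
  out_sound (S := T4.ds_mm) T4.ok_mm (w := 24) (j := 1) (by decide +kernel)
theorem L02248 : Good (Phi V4.P V4.D (-1) (-1)) ⟨11, 1732, 9, 253, 4, 4, 2, 2, 3, 7⟩ :=
  out_sound (S := T4.ds_mm) T4.ok_mm (w := 32) (j := 1) (by decide +kernel)
theorem L02249 : Good (Phi V4.P V4.D (-1) (-1)) ⟨11, 1732, 9, 253, 4, 4, 2, 3, 3, 7⟩ :=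
  out_sound (S := T4.ds_mm) T4.ok_mm (w := 32) (j := 2) (by decide +kernel)
theorem L02250 : Good (Phi V4.P V4.D (-1) (-1)) ⟨11, 1732, 9, 253, 4, 5, 1, 1, 3, 7⟩ :=
  out_sound (S := T4.ds_mm) T4.ok_mm (w := 32) (j := 2) (by decide +kernel)
theorem L02251 : Good (Phi V4.P V4.D (-1) (-1)) ⟨11, 1732, 9, 253, 3, 3, 1, 1, 3, 7⟩ :=
  out_sound (S := T4.ds_mm) T4.ok_mm (w := 32) (j := 2) (by decide +kernel)
theorem L02252 : Good (Phi V4.P V4.D (-1) (-1)) ⟨11, 1733, 9, 253, 1, 0, 1, 1, 3, 7⟩ :=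
  out_sound (S := T4.ds_mm) T4.ok_mm (w := 112) (j := 3) (by decide +kernel)
theorem L02253 : Good (Phi V4.P V4.D (-1) (-1)) ⟨10, 867, 8, 126, 1, 0, 1, 1, 3, 7⟩ :=
  out_sound (S := T4.ds_mm) T4.ok_mm (w := 104) (j := 3) (by decide +kernel)
theorem L02254 : Good (Phi V4.P V4.D (-1) (-1)) ⟨10, 866, 8, 127, 2, 0, 2, 2, 3, 7⟩ :=
  out_sound (S := T4.ds_mm) T4.ok_mm (w := 24) (j := 1) (by decide +kernel)
theorem L02255 : Good (Phi V4.P V4.D (-1) (-1)) ⟨10, 866, 8, 127, 2, 0, 3, 6, 4, 14⟩ :=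
  out_sound (S := T4.ds_mm) T4.ok_mm (w := 32) (j := 1) (by decide +kernel)
theorem L02256 : Good (Phi V4.P V4.D (-1) (-1)) ⟨10, 866, 8, 127, 2, 0, 4, 14, 5, 28⟩ :=
  out_sound (S := T4.ds_mm) T4.ok_mm (w := 32) (j := 1) (by decide +kernel)
theorem L02257 : Good (Phi V4.P V4.D (-1) (-1)) ⟨10, 866, 8, 127, 3, 0, 4, 15, 5, 28⟩ :=
  out_sound (S := T4.ds_mm) T4.ok_mm (w := 32) (j := 1) (by decide +kernel)
theorem L02258 : Good (Phi V4.P V4.D (-1) (-1)) ⟨10, 866, 8, 127, 3, 1, 4, 15, 5, 28⟩ :=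
  out_sound (S := T4.ds_mm) T4.ok_mm (w := 40) (j := 2) (by decide +kernel)
theorem L02259 : Good (Phi V4.P V4.D (-1) (-1)) ⟨10, 866, 8, 127, 2, 0, 3, 7, 5, 29⟩ :=
  out_sound (S := T4.ds_mm) T4.ok_mm (w := 32) (j := 1) (by decide +kernel)
theorem L02260 : Good (Phi V4.P V4.D (-1) (-1)) ⟨10, 866, 8, 127, 2, 0, 2, 3, 4, 15⟩ :=
  out_sound (S := T4.ds_mm) T4.ok_mm (w := 24) (j := 1) (by decide +kernel)
theorem L02261 : Good (Phi V4.P V4.D (-1) (-1)) ⟨10, 866, 8, 127, 4, 4, 2, 2, 3, 7⟩ :=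
  out_sound (S := T4.ds_mm) T4.ok_mm (w := 32) (j := 1) (by decide +kernel)
theorem L02262 : Good (Phi V4.P V4.D (-1) (-1)) ⟨10, 866, 8, 127, 4, 4, 2, 3, 3, 7⟩ :=
  out_sound (S := T4.ds_mm) T4.ok_mm (w := 32) (j := 2) (by decide +kernel)
theorem L02263 : Good (Phi V4.P V4.D (-1) (-1)) ⟨10, 866, 8, 127, 4, 5, 1, 1, 3, 7⟩ :=
  out_sound (S := T4.ds_mm) T4.ok_mm (w := 32) (j := 2) (by decide +kernel)
theorem L02264 : Good (Phi V4.P V4.D (-1) (-1)) ⟨10, 866, 8, 127, 3, 3, 1, 1, 3, 7⟩ :=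
  out_sound (S := T4.ds_mm) T4.ok_mm (w := 32) (j := 2) (by decide +kernel)
theorem L02265 : Good (Phi V4.P V4.D (-1) (-1)) ⟨10, 867, 9, 254, 1, 0, 1, 1, 3, 7⟩ :=
  out_sound (S := T4.ds_mm) T4.ok_mm (w := 104) (j := 3) (by decide +kernel)
theorem L02266 : Good (Phi V4.P V4.D (-1) (-1)) ⟨11, 1734, 9, 255, 2, 0, 2, 2, 3, 7⟩ :=
  out_sound (S := T4.ds_mm) T4.ok_mm (w := 24) (j := 1) (by decide +kernel)
theorem L02267 : Good (Phi V4.P V4.D (-1) (-1)) ⟨11, 1734, 9, 255, 2, 0, 3, 6, 4, 14⟩ :=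
  out_sound (S := T4.ds_mm) T4.ok_mm (w := 32) (j := 1) (by decide +kernel)
theorem L02268 : Good (Phi V4.P V4.D (-1) (-1)) ⟨11, 1734, 9, 255, 2, 0, 4, 14, 5, 28⟩ :=
  out_sound (S := T4.ds_mm) T4.ok_mm (w := 32) (j := 1) (by decide +kernel)
theorem L02269 : Good (Phi V4.P V4.D (-1) (-1)) ⟨11, 1734, 9, 255, 3, 0, 4, 15, 5, 28⟩ :=
  out_sound (S := T4.ds_mm) T4.ok_mm (w := 32) (j := 1) (by decide +kernel)
theorem L02270 : Good (Phi V4.P V4.D (-1) (-1)) ⟨11, 1734, 9, 255, 3, 1, 4, 15, 5, 28⟩ :=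
  out_sound (S := T4.ds_mm) T4.ok_mm (w := 40) (j := 2) (by decide +kernel)
theorem L02271 : Good (Phi V4.P V4.D (-1) (-1)) ⟨11, 1734, 9, 255, 2, 0, 3, 7, 5, 29⟩ :=
  out_sound (S := T4.ds_mm) T4.ok_mm (w := 32) (j := 1) (by decide +kernel)
theorem L02272 : Good (Phi V4.P V4.D (-1) (-1)) ⟨11, 1734, 9, 255, 2, 0, 2, 3, 4, 15⟩ :=
  out_sound (S := T4.ds_mm) T4.ok_mm (w := 24) (j := 1) (by decide +kernel)
theorem L02273 : Good (Phi V4.P V4.D (-1) (-1)) ⟨11, 1734, 9, 255, 4, 4, 2, 2, 3, 7⟩ :=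
  out_sound (S := T4.ds_mm) T4.ok_mm (w := 32) (j := 1) (by decide +kernel)
theorem L02274 : Good (Phi V4.P V4.D (-1) (-1)) ⟨11, 1734, 9, 255, 4, 4, 2, 3, 3, 7⟩ :=
  out_sound (S := T4.ds_mm) T4.ok_mm (w := 32) (j := 2) (by decide +kernel)
theorem L02275 : Good (Phi V4.P V4.D (-1) (-1)) ⟨11, 1734, 9, 255, 4, 5, 1, 1, 3, 7⟩ :=
  out_sound (S := T4.ds_mm) T4.ok_mm (w := 32) (j := 2) (by decide +kernel)
theorem L02276 : Good (Phi V4.P V4.D (-1) (-1)) ⟨11, 1734, 9, 255, 3, 3, 1, 1, 3, 7⟩ :=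
  out_sound (S := T4.ds_mm) T4.ok_mm (w := 32) (j := 2) (by decide +kernel)
theorem L02277 : Good (Phi V4.P V4.D (-1) (-1)) ⟨11, 1735, 9, 255, 1, 0, 1, 1, 3, 7⟩ :=
  out_sound (S := T4.ds_mm) T4.ok_mm (w := 112) (j := 3) (by decide +kernel)
theorem L02278 : Good (Phi V4.P V4.D (-1) (-1)) ⟨8, 217, 6, 31, 1, 0, 1, 1, 3, 7⟩ :=
  out_sound (S := T4.ds_mm) T4.ok_mm (w := 88) (j := 3) (by decide +kernel)
theorem L02279 : Good (Phi V4.P V4.D (-1) (-1)) ⟨7, 109, 5, 15, 1, 0, 1, 1, 3, 7⟩ :=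
  out_sound (S := T4.ds_mm) T4.ok_mm (w := 80) (j := 3) (by decide +kernel)
theorem L02280 : Good (Phi V4.P V4.D (-1) (-1)) ⟨6, 55, 4, 7, 1, 0, 1, 1, 3, 7⟩ :=
  out_sound (S := T4.ds_mm) T4.ok_mm (w := 72) (j := 3) (by decide +kernel)
theorem L02281 : Good (Phi V4.P V4.D (-1) (-1)) ⟨3, 7, 2, 1, 1, 0, 1, 1, 3, 7⟩ :=
  out_sound (S := T4.ds_mm) T4.ok_mm (w := 48) (j := 3) (by decide +kernel)
theorem L02282 : Good (Phi V4.P V4.D (-1) (-1)) ⟨2, 2, 2, 1, 1, 1, 0, 0, 3, 4⟩ :=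
  out_sound (S := T4.ds_mm) T4.ok_mm (w := 40) (j := 3) (by decide +kernel)
theorem L02283 : Good (Phi V4.P V4.D (-1) (-1)) ⟨3, 6, 2, 1, 1, 1, 1, 0, 3, 4⟩ :=
  leaf_sound (S := T4.ds_mm) T4.ok_mm (w := 160) (c := ⟨⟨.negSucc 1141, .negSucc 38, .ofNat 131, .ofNat 306, .ofNat 568, .ofNat 159⟩, ⟨.ofNat 397, .negSucc 67, .ofNat 157, .negSucc 206, .negSucc 253, .negSucc 68⟩, ⟨.ofNat 1274, .ofNat 33, .negSucc 125, .negSucc 264, .negSucc 891, .negSucc 123⟩, ⟨.negSucc 2104, .negSucc 7, .ofNat 67, .negSucc 127, .ofNat 820, .ofNat 244⟩, ⟨.negSucc 671, .negSucc 95, .negSucc 28, .negSucc 1441, .negSucc 214, .negSucc 25⟩, .ofNat 164, .ofNat 37, .ofNat 0, .ofNat 37, .ofNat 230, .ofNat 0, .ofNat 1058, .negSucc 350, .negSucc 1127, .ofNat 0, .ofNat 845, .ofNat 511, .ofNat 0, .ofNat 0, .ofNat 1904, .ofNat 6351, .ofNat 0, .ofNat 0, .ofNat 0, .ofNat 0, .ofNat 218884369601671716800509142630400,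 .ofNat 52641361616181312050526840422400, .ofNat 1150921292356908440616960000, .ofNat 0, .ofNat 0, .ofNat 142233133051358978420785545216000, .ofNat 0, .ofNat 0, .ofNat 136645871653509962414820006297600, .ofNat 78825206093760529879282797772800, .ofNat 4118771110151987986327142400, .ofNat 0⟩)
    (by decide +kernel)
theorem L02284 : Good (Phi V4.P V4.D (-1) (-1)) ⟨3, 6, 2, 1, 1, 1, 1, 1, 3, 4⟩ :=
  leaf_sound (S := T4.ds_mm) T4.ok_mm (w := 168) (c := ⟨⟨.negSucc 581, .ofNat 2, .ofNat 162, .ofNat 0, .ofNat 0, .ofNat 0⟩, ⟨.ofNat 165, .negSucc 97, .ofNat 117, .ofNat 0, .ofNat 0, .ofNat 0⟩, ⟨.ofNat 399, .negSucc 1, .negSucc 153, .ofNat 0, .ofNat 0, .ofNat 0⟩, ⟨.negSucc 1276, .ofNat 23, .ofNat 105, .ofNat 0, .ofNat 0, .ofNat 0⟩, ⟨.negSucc 884, .negSucc 82, .negSucc 37, .ofNat 0, .ofNat 0, .ofNat 0⟩, .ofNat 164, .ofNat 37, .ofNat 0, .ofNat 37, .ofNat 231,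 .ofNat 0, .ofNat 9159, .negSucc 2967, .negSucc 12874, .ofNat 0, .ofNat 7080, .ofNat 4636, .ofNat 0, .ofNat 0, .ofNat 17072, .ofNat 312739, .ofNat 0, .ofNat 0, .ofNat 0, .ofNat 0, .ofNat 0, .ofNat 237619707522347824027250428005580800, .ofNat 0, .ofNat 0, .ofNat 0, .ofNat 274531604482392212096061621770649600, .ofNat 827448726884018279601615667200, .ofNat 0, .ofNat 0, .ofNat 573231944358642269118028554908467200, .ofNat 0, .ofNat 0⟩)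
    (by decide +kernel)
theorem L02285 : Good (Phi V4.P V4.D (-1) (-1)) ⟨3, 7, 2, 1, 1, 1, 0, 0, 3, 4⟩ :=
  out_sound (S := T4.ds_mm) T4.ok_mm (w := 48) (j := 3) (by decide +kernel)
theorem L02286 : Good (Phi V4.P V4.D (-1) (-1)) ⟨1, 1, 2, 1, 1, 1, 0, 0, 3, 5⟩ :=
  out_sound (S := T4.ds_mm) T4.ok_mm (w := 24) (j := 2) (by decide +kernel)
theorem L02287 : Good (Phi V4.P V4.D (-1) (-1)) ⟨1, 1, 2, 1, 1, 1, 0, 0, 2, 3⟩ :=
  out_sound (S := T4.ds_mm) T4.ok_mm (w := 24) (j := 2) (by decide +kernel)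
theorem L02288 : Good (Phi V4.P V4.D (-1) (-1)) ⟨2, 2, 1, 1, 2, 0, 0, 0, 1, 1⟩ :=
  out_sound (S := T4.ds_mm) T4.ok_mm (w := 40) (j := 3) (by decide +kernel)
theorem L02289 : Good (Phi V4.P V4.D (-1) (-1)) ⟨4, 12, 1, 1, 3, 0, 0, 0, 1, 1⟩ :=
  out_sound (S := T4.ds_mm) T4.ok_mm (w := 48) (j := 3) (by decide +kernel)
theorem L02290 : Good (Phi V4.P V4.D (-1) (-1)) ⟨5, 26, 1, 1, 3, 0, 0, 0, 1, 1⟩ :=
  out_sound (S := T4.ds_mm) T4.ok_mm (w := 56) (j := 3) (by decide +kernel)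

end Crest.Agent.R097C4.N4mm
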