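import Crest.Agent.R097.T4

/-!
# Row 97, box cover in dimension n = 4 (generated)
-/

set_option autoImplicit false
set_option Elab.async false
set_option maxHeartbeats 0
set_option maxRecDepth 100000

open Crest.Agent.R097 Crest.Agent.R097.KA


namespace Crest.Agent.R097C4.N4mm

theorem L02291 : Good (Phi V4.P V4.D (-1) (-1)) ⟨5, 27, 1, 1, 5, 0, 1, 0, 1, 1⟩ :=
  leaf_sound (S := T4.ds_mm) T4.ok_mm (w := 192) (c := ⟨⟨.negSucc 1103, .negSucc 57, .negSucc 10, .ofNat 21, .ofNat 133, .ofNat 506⟩, ⟨.ofNat 580, .ofNat 100, .ofNat 44, .negSucc 11, .negSucc 73, .negSucc 276⟩, ⟨.ofNat 919, .ofNat 59, .ofNat 27, .ofNat 4, .negSucc 277, .negSucc 542⟩, ⟨.negSucc 1693, .negSucc 39, .negSucc 4, .ofNat 20, .ofNat 199, .ofNat 767⟩, ⟨.ofNat 3, .ofNat 0, .ofNat 1, .negSucc 22, .negSucc 2, .negSucc 2⟩, .ofNat 365, .ofNat 259, .ofNat 0, .ofNat 259, .ofNat 687, .ofNat 0, .ofNat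 651, .negSucc 557, .negSucc 860, .ofNat 0, .ofNat 578, .ofNat 379, .ofNat 0, .ofNat 0, .ofNat 1715, .ofNat 36871, .ofNat 5507832408739156055930858813350792396800, .ofNat 0, .ofNat 0, .ofNat 0, .ofNat 296502916181655482558529809480740660838400, .ofNat 0, .ofNat 74414216565669220862529444721459200, .ofNat 0, .ofNat 170856779963157390025641240778051996876800, .ofNat 0, .ofNat 66695770703158783435750876014182400, .ofNat 0, .ofNat 475203002651348828464729172621607410073600, .ofNat 0, .ofNat 0, .ofNat 0⟩)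
    (by decide +kernel)
theorem L02292 : Good (Phi V4.P V4.D (-1) (-1)) ⟨5, 27, 3, 4, 5, 0, 2, 2, 2, 2⟩ :=
  leaf_sound (S := T4.ds_mm) T4.ok_mm (w := 208) (c := ⟨⟨.negSucc 983, .ofNat 18, .negSucc 89, .ofNat 54, .ofNat 111, .ofNat 193⟩, ⟨.ofNat 519, .ofNat 14, .ofNat 93, .negSucc 28, .negSucc 60, .negSucc 105⟩, ⟨.ofNat 644, .negSucc 21, .ofNat 97, .negSucc 36, .negSucc 132, .negSucc 154⟩, ⟨.negSucc 1508, .ofNat 60, .negSucc 124, .ofNat 69, .ofNat 168, .ofNat 293⟩, ⟨.ofNat 0, .ofNat 1, .negSucc 0, .negSucc 22, .ofNat 0, .ofNat 0⟩, .ofNat 365, .ofNat 259, .ofNat 0, .ofNat 259, .ofNat 688, .ofNat 0, .ofNat 322, .negSucc 275, .negSucc 535, .ofNat 0, .ofNat 286, .ofNat 235, .ofNat 0, .ofNat 0, .ofNat 872, .ofNat 10241, .ofNat 169533815946477723695043157221104733388800, .ofNat 0, .ofNat 0, .ofNat 0, .ofNat 0, .ofNat 0, .ofNat 0, .ofNat 0, .ofNat 0, .ofNat 0, .ofNat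 0, .ofNat 0, .ofNat 4770613662552924219190755410387122991923200, .ofNat 0, .ofNat 4882009200809435126798122172075212800, .ofNat 0⟩)
    (by decide +kernel)
theorem L02293 : Good (Phi V4.P V4.D (-1) (-1)) ⟨5, 27, 3, 4, 5, 0, 2, 2, 2, 3⟩ :=
  leaf_sound (S := T4.ds_mm) T4.ok_mm (w := 216) (c := ⟨⟨.negSucc 697, .negSucc 38, .negSucc 18, .ofNat 78, .ofNat 1, .ofNat 0⟩, ⟨.ofNat 366, .ofNat 41, .ofNat 48, .negSucc 42, .negSucc 0, .ofNat 0⟩, ⟨.ofNat 382, .ofNat 39, .ofNat 19, .negSucc 63, .negSucc 0, .ofNat 0⟩, ⟨.negSucc 1071, .negSucc 33, .negSucc 16, .ofNat 105, .ofNat 1, .ofNat 0⟩, ⟨.ofNat 0, .negSucc 0, .ofNat 1, .negSucc 21, .ofNat 0, .ofNat 0⟩, .ofNat 365, .ofNat 260, .ofNat 0, .ofNat 260, .ofNat 687, .ofNat 0, .ofNat 598, .negSucc 513, .negSucc 1098, .ofNat 0, .ofNat 532, .ofNat 483, .ofNat 0, .ofNat 0, .ofNat 1663, .ofNat 145508297, .ofNat 842282572690031559927958718168439817293004800000,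 .ofNat 0, .ofNat 0, .ofNat 0, .ofNat 2870192531599708711035566283930485729840332800, .ofNat 0, .ofNat 150011569455284691706965434015573606400, .ofNat 0, .ofNat 22503908235879925281410948176378337427456000000, .ofNat 0, .ofNat 0, .ofNat 0, .ofNat 3948510916268864553575216465718405621822259200, .ofNat 0, .ofNat 132148232058467319228671767327486771200, .ofNat 0⟩)
    (by decide +kernel)
theorem L02294 : Good (Phi V4.P V4.D (-1) (-1)) ⟨5, 27, 3, 5, 5, 0, 2, 2, 1, 1⟩ :=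
  out_sound (S := T4.ds_mm) T4.ok_mm (w := 64) (j := 3) (by decide +kernel)
theorem L02295 : Good (Phi V4.P V4.D (-1) (-1)) ⟨5, 27, 2, 3, 5, 0, 2, 2, 1, 1⟩ :=
  out_sound (S := T4.ds_mm) T4.ok_mm (w := 56) (j := 3) (by decide +kernel)
theorem L02296 : Good (Phi V4.P V4.D (-1) (-1)) ⟨5, 27, 1, 1, 5, 0, 3, 6, 2, 2⟩ :=
  leaf_sound (S := T4.ds_mm) T4.ok_mm (w := 200) (c := ⟨⟨.negSucc 877, .negSucc 86, .ofNat 15, .ofNat 103, .ofNat 149, .ofNat 168⟩, ⟨.ofNat 463, .ofNat 97, .ofNat 20, .negSucc 56, .negSucc 81, .negSucc 92⟩, ⟨.ofNat 513, .ofNat 87, .negSucc 12, .negSucc 90, .negSucc 146, .negSucc 109⟩, ⟨.negSucc 1346, .negSucc 97, .ofNat 35, .ofNat 145, .ofNat 226, .ofNat 254⟩, ⟨.negSucc 0, .ofNat 0, .ofNat 0, .negSucc 20, .ofNat 1, .ofNat 1⟩, .ofNat 771, .ofNat 905, .ofNat 0, .ofNat 905, .ofNat 1888, .ofNat 0, .ofNat 232, .negSucc 366, .negSucc 666, .ofNat 0, .ofNat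 263, .ofNat 342, .ofNat 0, .ofNat 0, .ofNat 949, .ofNat 4133, .ofNat 0, .ofNat 0, .ofNat 77526745066284878987797401383731200, .ofNat 0, .ofNat 0, .ofNat 0, .ofNat 0, .ofNat 0, .ofNat 0, .ofNat 0, .ofNat 14536534905948277314279525340466380800, .ofNat 0, .ofNat 0, .ofNat 0, .ofNat 11538481682895584414019099845197824000, .ofNat 0⟩)
    (by decide +kernel)
theorem L02297 : Good (Phi V4.P V4.D (-1) (-1)) ⟨5, 27, 1, 1, 5, 0, 3, 6, 2, 3⟩ :=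
  leaf_sound (S := T4.ds_mm) T4.ok_mm (w := 208) (c := ⟨⟨.negSucc 728, .negSucc 62, .ofNat 20, .ofNat 123, .ofNat 138, .ofNat 125⟩, ⟨.ofNat 384, .ofNat 77, .ofNat 14, .negSucc 67, .negSucc 75, .negSucc 69⟩, ⟨.ofNat 415, .ofNat 64, .negSucc 20, .negSucc 111, .negSucc 128, .negSucc 79⟩, ⟨.negSucc 1118, .negSucc 66, .ofNat 39, .ofNat 176, .ofNat 210, .ofNat 191⟩, ⟨.negSucc 0, .ofNat 0, .ofNat 1, .negSucc 19, .ofNat 1, .ofNat 2⟩, .ofNat 1822, .ofNat 2759, .ofNat 0, .ofNat 2759, .ofNat 5250, .ofNat 0, .ofNat 136, .negSucc 359, .negSucc 547, .ofNat 0, .ofNat 222, .ofNat 295, .ofNat 0, .ofNat 0, .ofNat 818, .ofNat 14934, .ofNat 254075479430392322383186628747388046540800, .ofNat 0, .ofNat 248084912879695944380208801801830400, .ofNat 0, .ofNat 1158660559665290455888281195346394716569600, .ofNat 0, .ofNat 63841197975822525295543351333670092800, .ofNat 0, .ofNat 778096014749216065289091864706660329062400,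 .ofNat 0, .ofNat 23085411902831617855703250147842457600, .ofNat 0, .ofNat 281218232232568683073391151325328179200000, .ofNat 0, .ofNat 13239442767223506216446363503794585600, .ofNat 0⟩)
    (by decide +kernel)
theorem L02298 : Good (Phi V4.P V4.D (-1) (-1)) ⟨6, 54, 5, 16, 5, 0, 4, 14, 2, 2⟩ :=
  leaf_sound (S := T4.ds_mm) T4.ok_mm (w := 224) (c := ⟨⟨.negSucc 745, .negSucc 31, .negSucc 2, .ofNat 166, .ofNat 199, .ofNat 133⟩, ⟨.ofNat 393, .ofNat 21, .ofNat 10, .negSucc 88, .negSucc 106, .negSucc 70⟩, ⟨.ofNat 380, .ofNat 28, .ofNat 6, .negSucc 154, .negSucc 195, .negSucc 69⟩, ⟨.negSucc 1144, .negSucc 37, .negSucc 2, .ofNat 245, .ofNat 305, .ofNat 203⟩, ⟨.negSucc 0, .negSucc 0, .ofNat 1, .negSucc 16, .ofNat 2, .ofNat 1⟩, .ofNat 1631, .ofNat 2457, .ofNat 0, .ofNat 2457, .ofNat 4803, .ofNat 0, .ofNat 340, .negSucc 819, .negSucc 1626, .ofNat 0, .ofNat 504, .ofNat 853,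 .ofNat 0, .ofNat 0, .ofNat 2110, .ofNat 50646, .ofNat 0, .ofNat 0, .ofNat 0, .ofNat 0, .ofNat 0, .ofNat 0, .ofNat 0, .ofNat 0, .ofNat 0, .ofNat 0, .ofNat 0, .ofNat 0, .ofNat 0, .ofNat 0, .ofNat 0, .ofNat 0⟩)
    (by decide +kernel)
theorem L02299 : Good (Phi V4.P V4.D (-1) (-1)) ⟨6, 54, 5, 16, 5, 0, 4, 15, 2, 2⟩ :=
  leaf_sound (S := T4.ds_mm) T4.ok_mm (w := 224) (c := ⟨⟨.negSucc 680, .ofNat 302, .negSucc 156, .ofNat 331, .ofNat 594, .ofNat 62⟩, ⟨.ofNat 363, .negSucc 159, .ofNat 87, .negSucc 176, .negSucc 317, .negSucc 32⟩, ⟨.ofNat 316, .negSucc 295, .ofNat 154, .negSucc 320, .negSucc 587, .ofNat 4⟩, ⟨.negSucc 1042, .ofNat 466, .negSucc 239, .ofNat 502, .ofNat 910, .ofNat 94⟩, ⟨.negSucc 3, .ofNat 5, .negSucc 2, .negSucc 8, .ofNat 6, .ofNat 0⟩, .ofNat 2961, .ofNat 4878, .ofNat 0, .ofNat 4878, .ofNat 9239, .ofNat 0, .ofNat 139, .negSucc 436, .negSucc 1107, .ofNat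 0, .ofNat 257, .ofNat 591, .ofNat 0, .ofNat 0, .ofNat 1296, .ofNat 6461, .ofNat 0, .ofNat 0, .ofNat 0, .ofNat 0, .ofNat 0, .ofNat 0, .ofNat 4235684405707052690006051105297714380800, .ofNat 0, .ofNat 0, .ofNat 0, .ofNat 0, .ofNat 0, .ofNat 0, .ofNat 0, .ofNat 1040876642699915423813041285777430937600, .ofNat 0⟩)
    (by decide +kernel)
theorem L02300 : Good (Phi V4.P V4.D (-1) (-1)) ⟨6, 54, 5, 17, 5, 0, 3, 7, 2, 2⟩ :=
  leaf_sound (S := T4.ds_mm) T4.ok_mm (w := 216) (c := ⟨⟨.negSucc 436, .negSucc 652, .ofNat 354, .ofNat 288, .ofNat 874, .ofNat 36⟩, ⟨.ofNat 232, .ofNat 372, .negSucc 196, .negSucc 158, .negSucc 482, .negSucc 19⟩, ⟨.ofNat 82, .ofNat 635, .negSucc 343, .negSucc 275, .negSucc 865, .ofNat 29⟩, ⟨.negSucc 671, .negSucc 981, .ofNat 536, .ofNat 431, .ofNat 1330, .ofNat 55⟩, ⟨.ofNat 0, .negSucc 5, .ofNat 3, .negSucc 9, .ofNat 9, .negSucc 0⟩, .ofNat 3786,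 .ofNat 6257, .ofNat 0, .ofNat 6257, .ofNat 11505, .ofNat 0, .ofNat 59, .negSucc 221, .negSucc 501, .ofNat 0, .ofNat 130, .ofNat 276, .ofNat 0, .ofNat 0, .ofNat 606, .ofNat 1276, .ofNat 0, .ofNat 0, .ofNat 912506416264051980306435189139046400, .ofNat 0, .ofNat 0, .ofNat 0, .ofNat 0, .ofNat 0, .ofNat 0, .ofNat 0, .ofNat 146980279480186480738727789322043392000, .ofNat 0, .ofNat 0, .ofNat 0, .ofNat 40078505491691896756650554692101734400, .ofNat 0⟩)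
    (by decide +kernel)
theorem L02301 : Good (Phi V4.P V4.D (-1) (-1)) ⟨6, 55, 5, 16, 5, 0, 3, 7, 2, 2⟩ :=
  out_sound (S := T4.ds_mm) T4.ok_mm (w := 72) (j := 3) (by decide +kernel)
theorem L02302 : Good (Phi V4.P V4.D (-1) (-1)) ⟨6, 55, 5, 17, 5, 0, 3, 7, 2, 2⟩ :=
  leaf_sound (S := T4.ds_mm) T4.ok_mm (w := 216) (c := ⟨⟨.negSucc 782, .ofNat 655, .negSucc 223, .ofNat 227, .ofNat 817, .ofNat 133⟩, ⟨.ofNat 435, .negSucc 369, .ofNat 135, .negSucc 127, .negSucc 460, .negSucc 74⟩, ⟨.ofNat 416, .negSucc 645, .ofNat 223, .negSucc 215, .negSucc 806, .negSucc 67⟩, ⟨.negSucc 1184, .ofNat 996, .negSucc 336, .ofNat 334, .ofNat 1237, .ofNat 201⟩, ⟨.ofNat 0, .ofNat 13, .negSucc 4, .negSucc 14, .ofNat 9, .ofNat 1⟩, .ofNat 4723, .ofNat 7815, .ofNat 0, .ofNat 7815, .ofNat 14065, .ofNat 0, .ofNat 50, .negSucc 221, .negSucc 471, .ofNat 0, .ofNat 131, .ofNat 264, .ofNat 0, .ofNat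 0, .ofNat 581, .ofNat 943, .ofNat 0, .ofNat 0, .ofNat 1578475666281657318002506283876352000, .ofNat 0, .ofNat 0, .ofNat 0, .ofNat 237776471539373486019784754924303155200, .ofNat 0, .ofNat 0, .ofNat 0, .ofNat 207378740374245044370676338304588185600, .ofNat 0, .ofNat 0, .ofNat 0, .ofNat 16828231712036360559620407050004070400, .ofNat 0⟩)
    (by decide +kernel)
theorem L02303 : Good (Phi V4.P V4.D (-1) (-1)) ⟨6, 54, 4, 9, 5, 0, 3, 7, 2, 2⟩ :=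
  out_sound (S := T4.ds_mm) T4.ok_mm (w := 72) (j := 3) (by decide +kernel)
theorem L02304 : Good (Phi V4.P V4.D (-1) (-1)) ⟨6, 55, 4, 9, 5, 0, 4, 14, 2, 2⟩ :=
  leaf_sound (S := T4.ds_mm) T4.ok_mm (w := 216) (c := ⟨⟨.negSucc 822, .negSucc 0, .negSucc 30, .ofNat 190, .ofNat 202, .ofNat 158⟩, ⟨.ofNat 466, .ofNat 11, .ofNat 29, .negSucc 108, .negSucc 114, .negSucc 90⟩, ⟨.ofNat 456, .ofNat 3, .ofNat 27, .negSucc 177, .negSucc 197, .negSucc 94⟩, ⟨.negSucc 1239, .ofNat 6, .negSucc 38, .ofNat 275, .ofNat 304, .ofNat 238⟩, ⟨.negSucc 0, .negSucc 0, .ofNat 1, .negSucc 16, .ofNat 2, .ofNat 1⟩, .ofNat 2246, .ofNat 3423, .ofNat 0, .ofNat 3423, .ofNat 6241, .ofNat 0, .ofNat 137, .negSucc 431, .negSucc 880, .ofNat 0, .ofNat 267, .ofNat 494, .ofNat 0, .ofNat 0, .ofNat 1114, .ofNat 16098, .ofNat 0, .ofNat 0, .ofNat 0, .ofNat 0, .ofNat 0, .ofNat 0, .ofNat 0, .ofNat 0, .ofNat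 0, .ofNat 0, .ofNat 0, .ofNat 0, .ofNat 0, .ofNat 0, .ofNat 0, .ofNat 0⟩)
    (by decide +kernel)
theorem L02305 : Good (Phi V4.P V4.D (-1) (-1)) ⟨7, 110, 4, 9, 5, 0, 4, 15, 2, 2⟩ :=
  leaf_sound (S := T4.ds_mm) T4.ok_mm (w := 224) (c := ⟨⟨.negSucc 705, .ofNat 28, .negSucc 96, .ofNat 322, .ofNat 672, .ofNat 101⟩, ⟨.ofNat 402, .negSucc 12, .ofNat 59, .negSucc 184, .negSucc 384, .negSucc 57⟩, ⟨.ofNat 342, .negSucc 26, .ofNat 95, .negSucc 310, .negSucc 666, .negSucc 33⟩, ⟨.negSucc 1065, .ofNat 46, .negSucc 145, .ofNat 478, .ofNat 1014, .ofNat 152⟩, ⟨.negSucc 4, .ofNat 2, .negSucc 2, .negSucc 9, .ofNat 6, .ofNat 1⟩, .ofNat 5699, .ofNat 9441, .ofNat 0, .ofNat 9441, .ofNat 16754, .ofNat 0, .ofNat 45, .negSucc 228, .negSucc 589, .ofNat 0, .ofNat 135, .ofNat 335, .ofNat 0, .ofNat 0, .ofNat 682, .ofNat 1259, .ofNat 0, .ofNat 0, .ofNat 0, .ofNat 0, .ofNat 0, .ofNat 0,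 .ofNat 0, .ofNat 0, .ofNat 0, .ofNat 0, .ofNat 0, .ofNat 0, .ofNat 0, .ofNat 12663736601076786443252067844199830579367116800, .ofNat 36018587447524884467140448512219545600, .ofNat 0⟩)
    (by decide +kernel)
theorem L02306 : Good (Phi V4.P V4.D (-1) (-1)) ⟨7, 111, 4, 9, 5, 0, 4, 15, 2, 2⟩ :=
  out_sound (S := T4.ds_mm) T4.ok_mm (w := 24) (j := 4) (by decide +kernel)
theorem L02307 : Good (Phi V4.P V4.D (-1) (-1)) ⟨5, 27, 3, 4, 5, 0, 4, 14, 3, 6⟩ :=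
  leaf_sound (S := T4.ds_mm) T4.ok_mm (w := 216) (c := ⟨⟨.negSucc 622, .negSucc 119, .ofNat 65, .ofNat 196, .ofNat 174, .ofNat 46⟩, ⟨.ofNat 330, .ofNat 83, .negSucc 15, .negSucc 107, .negSucc 94, .negSucc 23⟩, ⟨.ofNat 318, .ofNat 122, .negSucc 66, .negSucc 186, .negSucc 168, .negSucc 21⟩, ⟨.negSucc 955, .negSucc 162, .ofNat 103, .ofNat 289, .ofNat 266, .ofNat 71⟩, ⟨.negSucc 0, .negSucc 2, .ofNat 3, .negSucc 16, .ofNat 2, .ofNat 0⟩, .ofNat 757, .ofNat 884, .ofNat 0, .ofNat 884, .ofNat 1864, .ofNat 0, .ofNat 218, .negSucc 337, .negSucc 736, .ofNat 0, .ofNat 243, .ofNat 373, .ofNat 0, .ofNat 0, .ofNat 956, .ofNat 42403, .ofNat 199548293477166970846827416427915568270540800, .ofNat 0, .ofNat 0, .ofNat 0, .ofNat 0, .ofNat 0, .ofNat 0, .ofNat 0, .ofNat 0, .ofNat 0, .ofNat 0, .ofNat 0, .ofNat 4671317751118894511661293602731192641126400, .ofNat 0, .ofNat 13606036389971086504521668944243300761600,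 .ofNat 0⟩)
    (by decide +kernel)
theorem L02308 : Good (Phi V4.P V4.D (-1) (-1)) ⟨5, 27, 3, 4, 5, 0, 4, 15, 3, 6⟩ :=
  leaf_sound (S := T4.ds_mm) T4.ok_mm (w := 216) (c := ⟨⟨.negSucc 567, .negSucc 224, .ofNat 225, .ofNat 367, .ofNat 594, .negSucc 19⟩, ⟨.ofNat 313, .ofNat 108, .negSucc 103, .negSucc 200, .negSucc 327, .ofNat 13⟩, ⟨.ofNat 269, .ofNat 225, .negSucc 223, .negSucc 356, .negSucc 586, .ofNat 44⟩, ⟨.negSucc 864, .negSucc 358, .ofNat 361, .ofNat 553, .ofNat 904, .negSucc 28⟩, ⟨.negSucc 2, .negSucc 13, .ofNat 14, .negSucc 6, .ofNat 6, .ofNat 0⟩, .ofNat 771, .ofNat 905, .ofNat 0, .ofNat 905, .ofNat 1888, .ofNat 0, .ofNat 113, .negSucc 177, .negSucc 554, .ofNat 0, .ofNat 128, .ofNat 284, .ofNat 0, .ofNat 0, .ofNat 635, .ofNat 1046, .ofNat 6499384976011743764277273689475901921689600, .ofNat 0, .ofNat 28177930539357610223473260317009510400, .ofNat 0, .ofNat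 0, .ofNat 0, .ofNat 0, .ofNat 0, .ofNat 0, .ofNat 0, .ofNat 0, .ofNat 0, .ofNat 0, .ofNat 0, .ofNat 0, .ofNat 0⟩)
    (by decide +kernel)
theorem L02309 : Good (Phi V4.P V4.D (-1) (-1)) ⟨5, 27, 3, 4, 5, 0, 3, 7, 3, 7⟩ :=
  out_sound (S := T4.ds_mm) T4.ok_mm (w := 32) (j := 1) (by decide +kernel)
theorem L02310 : Good (Phi V4.P V4.D (-1) (-1)) ⟨5, 27, 3, 5, 5, 0, 3, 7, 1, 1⟩ :=
  out_sound (S := T4.ds_mm) T4.ok_mm (w := 64) (j := 3) (by decide +kernel)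
theorem L02311 : Good (Phi V4.P V4.D (-1) (-1)) ⟨5, 27, 2, 3, 5, 0, 3, 7, 1, 1⟩ :=
  out_sound (S := T4.ds_mm) T4.ok_mm (w := 56) (j := 3) (by decide +kernel)
theorem L02312 : Good (Phi V4.P V4.D (-1) (-1)) ⟨7, 108, 4, 8, 5, 1, 1, 0, 1, 1⟩ :=
  leaf_sound (S := T4.ds_mm) T4.ok_mm (w := 208) (c := ⟨⟨.negSucc 1114, .negSucc 14, .ofNat 4, .ofNat 20, .ofNat 167, .ofNat 513⟩, ⟨.ofNat 584, .ofNat 14, .ofNat 24, .negSucc 10, .negSucc 87, .negSucc 272⟩, ⟨.ofNat 961, .ofNat 14, .ofNat 3, .ofNat 1, .negSucc 318, .negSucc 547⟩, ⟨.negSucc 1723, .negSucc 10, .ofNat 5, .ofNat 17, .ofNat 252, .ofNat 780⟩, ⟨.negSucc 16, .ofNat 0, .ofNat 0, .negSucc 26, .negSucc 5, .negSucc 9⟩, .ofNat 726, .ofNat 839, .ofNat 0, .ofNat 839, .ofNat 1822, .ofNat 0, .ofNat 456, .negSucc 671, .negSucc 745, .ofNat 0, .ofNat 484, .ofNat 370, .ofNat 0, .ofNat 0, .ofNat 1635, .ofNat 77541, .ofNat 238999268938343805322484076281708518205030400,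 .ofNat 0, .ofNat 0, .ofNat 0, .ofNat 8281844131458189535433957016447261371006976000, .ofNat 0, .ofNat 0, .ofNat 0, .ofNat 9356404642279977754028704814603702494455398400, .ofNat 0, .ofNat 0, .ofNat 0, .ofNat 11902606408546822140666689790306709370044416000, .ofNat 0, .ofNat 0, .ofNat 0⟩)
    (by decide +kernel)
theorem L02313 : Good (Phi V4.P V4.D (-1) (-1)) ⟨7, 108, 4, 8, 5, 1, 2, 2, 2, 2⟩ :=
  leaf_sound (S := T4.ds_mm) T4.ok_mm (w := 216) (c := ⟨⟨.negSucc 969, .ofNat 5, .negSucc 4, .ofNat 53, .ofNat 153, .ofNat 202⟩, ⟨.ofNat 509, .ofNat 1, .ofNat 26, .negSucc 28, .negSucc 81, .negSucc 106⟩, ⟨.ofNat 652, .negSucc 2, .negSucc 3, .negSucc 35, .negSucc 177, .negSucc 167⟩, ⟨.negSucc 1503, .ofNat 17, .negSucc 8, .ofNat 67, .ofNat 235, .ofNat 310⟩, ⟨.negSucc 23, .ofNat 0, .ofNat 0, .negSucc 26, .ofNat 2, .ofNat 0⟩, .ofNat 1577, .ofNat 2372, .ofNat 0, .ofNat 2372,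 .ofNat 4679, .ofNat 0, .ofNat 155, .negSucc 361, .negSucc 434, .ofNat 0, .ofNat 223, .ofNat 227, .ofNat 0, .ofNat 0, .ofNat 792, .ofNat 13787, .ofNat 0, .ofNat 0, .ofNat 0, .ofNat 0, .ofNat 0, .ofNat 0, .ofNat 0, .ofNat 0, .ofNat 0, .ofNat 0, .ofNat 0, .ofNat 0, .ofNat 0, .ofNat 0, .ofNat 0, .ofNat 0⟩)
    (by decide +kernel)
theorem L02314 : Good (Phi V4.P V4.D (-1) (-1)) ⟨7, 108, 4, 8, 5, 1, 2, 2, 2, 3⟩ :=
  leaf_sound (S := T4.ds_mm) T4.ok_mm (w := 224) (c := ⟨⟨.negSucc 638, .negSucc 10, .ofNat 0, .ofNat 75, .ofNat 18, .ofNat 0⟩, ⟨.ofNat 335, .ofNat 9, .ofNat 19, .negSucc 39, .negSucc 9, .ofNat 0⟩, ⟨.ofNat 338, .ofNat 11, .ofNat 0, .negSucc 61, .negSucc 17, .ofNat 0⟩, ⟨.negSucc 993, .negSucc 8, .negSucc 0, .ofNat 100, .ofNat 28, .ofNat 0⟩, ⟨.negSucc 21, .ofNat 0, .ofNat 0, .negSucc 26, .ofNat 0, .ofNat 0⟩, .ofNat 727, .ofNat 840, .ofNat 0, .ofNat 840, .ofNat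 1822, .ofNat 0, .ofNat 843, .negSucc 1241, .negSucc 1821, .ofNat 0, .ofNat 896, .ofNat 900, .ofNat 0, .ofNat 0, .ofNat 3053, .ofNat 120461995, .ofNat 277518233787670698981986853354291801887576634163200, .ofNat 0, .ofNat 0, .ofNat 0, .ofNat 27893295051663787563014358919118540216872206336000, .ofNat 0, .ofNat 0, .ofNat 0, .ofNat 33234289270690818439686122333699703214476519014400, .ofNat 0, .ofNat 0, .ofNat 0, .ofNat 28274525405629905109592099421429227889059325542400, .ofNat 0, .ofNat 0, .ofNat 0⟩)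
    (by decide +kernel)
theorem L02315 : Good (Phi V4.P V4.D (-1) (-1)) ⟨7, 108, 4, 8, 5, 1, 3, 6, 2, 2⟩ :=
  leaf_sound (S := T4.ds_mm) T4.ok_mm (w := 216) (c := ⟨⟨.negSucc 810, .negSucc 13, .negSucc 1, .ofNat 91, .ofNat 196, .ofNat 178⟩, ⟨.ofNat 426, .ofNat 10, .ofNat 21, .negSucc 48, .negSucc 103, .negSucc 94⟩, ⟨.ofNat 461, .ofNat 12, .ofNat 5, .negSucc 78, .negSucc 196, .negSucc 125⟩, ⟨.negSucc 1258, .negSucc 13, .negSucc 1, .ofNat 126, .ofNat 303, .ofNat 274⟩, ⟨.negSucc 23, .ofNat 0, .ofNat 0, .negSucc 24, .ofNat 5, .ofNat 1⟩, .ofNat 2799, .ofNat 4614, .ofNat 0, .ofNat 4614, .ofNat 8825, .ofNat 0, .ofNat 131, .negSucc 393, .negSucc 566, .ofNat 0, .ofNat 231, .ofNat 299, .ofNat 0, .ofNat 0, .ofNat 869, .ofNat 18919, .ofNat 0, .ofNat 0, .ofNat 0, .ofNat 0, .ofNat 0, .ofNat 0, .ofNat 0, .ofNat 0, .ofNat 0, .ofNat 0, .ofNat 0, .ofNat 0, .ofNat 0, .ofNat 0,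 .ofNat 0, .ofNat 0⟩)
    (by decide +kernel)
theorem L02316 : Good (Phi V4.P V4.D (-1) (-1)) ⟨7, 108, 4, 8, 5, 1, 3, 6, 2, 3⟩ :=
  leaf_sound (S := T4.ds_mm) T4.ok_mm (w := 224) (c := ⟨⟨.negSucc 651, .negSucc 42, .ofNat 73, .ofNat 122, .ofNat 216, .ofNat 51⟩, ⟨.ofNat 342, .ofNat 25, .negSucc 24, .negSucc 65, .negSucc 113, .negSucc 26⟩, ⟨.ofNat 352, .ofNat 43, .negSucc 72, .negSucc 111, .negSucc 210, .negSucc 8⟩, ⟨.negSucc 1014, .negSucc 59, .ofNat 112, .ofNat 174, .ofNat 334, .ofNat 76⟩, ⟨.negSucc 22, .negSucc 1, .ofNat 3, .negSucc 23, .ofNat 6, .negSucc 1⟩, .ofNat 4017, .ofNat 6860, .ofNat 0, .ofNat 6860, .ofNat 12973, .ofNat 0, .ofNat 110, .negSucc 365, .negSucc 524, .ofNat 0, .ofNat 212, .ofNat 279, .ofNat 0, .ofNat 0, .ofNat 801, .ofNat 64231, .ofNat 30110331300971750284466041841536598544482304000, .ofNat 0, .ofNat 0, .ofNat 0, .ofNat 34097579440265913515156944713827281210756300800,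 .ofNat 0, .ofNat 0, .ofNat 0, .ofNat 68743732832725490043686498837883322360450252800, .ofNat 0, .ofNat 108255551355071423272168383506389401600, .ofNat 0, .ofNat 125465572231506656245950665708685233858229043200, .ofNat 0, .ofNat 55629391679958713188680774042255360000, .ofNat 0⟩)
    (by decide +kernel)
theorem L02317 : Good (Phi V4.P V4.D (-1) (-1)) ⟨7, 108, 4, 8, 5, 1, 4, 14, 1, 1⟩ :=
  leaf_sound (S := T4.ds_mm) T4.ok_mm (w := 224) (c := ⟨⟨.negSucc 619, .negSucc 30, .ofNat 40, .ofNat 169, .ofNat 259, .ofNat 289⟩, ⟨.ofNat 327, .ofNat 19, .negSucc 11, .negSucc 89, .negSucc 137, .negSucc 153⟩, ⟨.ofNat 267, .ofNat 34, .negSucc 41, .negSucc 159, .negSucc 256, .negSucc 172⟩, ⟨.negSucc 962, .negSucc 42, .ofNat 60, .ofNat 249, .ofNat 400, .ofNat 445⟩, ⟨.negSucc 21, .negSucc 0, .ofNat 2, .negSucc 18, .ofNat 7, .ofNat 5⟩, .ofNat 3999, .ofNat 6826, .ofNat 0, .ofNat 6826,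 .ofNat 12912, .ofNat 0, .ofNat 124, .negSucc 412, .negSucc 768, .ofNat 0, .ofNat 239, .ofNat 408, .ofNat 0, .ofNat 0, .ofNat 1007, .ofNat 7681, .ofNat 1970258399337072119648224502745618174915379200, .ofNat 0, .ofNat 0, .ofNat 0, .ofNat 0, .ofNat 0, .ofNat 0, .ofNat 0, .ofNat 0, .ofNat 0, .ofNat 0, .ofNat 0, .ofNat 0, .ofNat 0, .ofNat 0, .ofNat 0⟩)
    (by decide +kernel)
theorem L02318 : Good (Phi V4.P V4.D (-1) (-1)) ⟨7, 108, 4, 8, 5, 1, 4, 15, 1, 1⟩ :=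
  leaf_sound (S := T4.ds_mm) T4.ok_mm (w := 216) (c := ⟨⟨.negSucc 438, .ofNat 76, .negSucc 131, .ofNat 245, .ofNat 705, .ofNat 234⟩, ⟨.ofNat 235, .negSucc 44, .ofNat 74, .negSucc 130, .negSucc 373, .negSucc 124⟩, ⟨.ofNat 87, .negSucc 74, .ofNat 130, .negSucc 233, .negSucc 696, .negSucc 113⟩, ⟨.negSucc 681, .ofNat 114, .negSucc 200, .ofNat 370, .ofNat 1091, .ofNat 362⟩, ⟨.negSucc 21, .ofNat 3, .negSucc 4, .negSucc 9, .ofNat 21, .ofNat 6⟩, .ofNat 2811, .ofNat 4637, .ofNat 0, .ofNat 4637, .ofNat 8868, .ofNat 0, .ofNat 70, .negSucc 211, .negSucc 500, .ofNat 0, .ofNat 125, .ofNat 264, .ofNat 0, .ofNat 0, .ofNat 598, .ofNat 1424, .ofNat 346020361833291814674654271312288406726246400, .ofNat 0, .ofNat 0, .ofNat 0, .ofNat 0, .ofNat 0, .ofNat 0, .ofNat 0, .ofNat 0, .ofNat 0, .ofNat 0, .ofNat 0, .ofNat 0, .ofNat 2217818165582989287955006558102995656402534400, .ofNat 2832048796881896478603748766121984000,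 .ofNat 0⟩)
    (by decide +kernel)
theorem L02319 : Good (Phi V4.P V4.D (-1) (-1)) ⟨7, 108, 4, 9, 5, 1, 0, 0, 1, 1⟩ :=
  out_sound (S := T4.ds_mm) T4.ok_mm (w := 72) (j := 3) (by decide +kernel)
theorem L02320 : Good (Phi V4.P V4.D (-1) (-1)) ⟨7, 108, 3, 5, 5, 1, 0, 0, 1, 1⟩ :=
  out_sound (S := T4.ds_mm) T4.ok_mm (w := 72) (j := 3) (by decide +kernel)
theorem L02321 : Good (Phi V4.P V4.D (-1) (-1)) ⟨7, 109, 2, 2, 5, 1, 1, 0, 1, 1⟩ :=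
  leaf_sound (S := T4.ds_mm) T4.ok_mm (w := 208) (c := ⟨⟨.negSucc 1132, .negSucc 11, .negSucc 11, .ofNat 20, .ofNat 171, .ofNat 520⟩, ⟨.ofNat 610, .ofNat 23, .ofNat 30, .negSucc 11, .negSucc 92, .negSucc 285⟩, ⟨.ofNat 996, .ofNat 13, .negSucc 3, .ofNat 1, .negSucc 337, .negSucc 555⟩, ⟨.negSucc 1734, .negSucc 6, .negSucc 17, .ofNat 16, .ofNat 255, .ofNat 784⟩, ⟨.negSucc 13, .ofNat 0, .ofNat 1, .negSucc 26, .negSucc 7, .negSucc 9⟩, .ofNat 764, .ofNat 894, .ofNat 0, .ofNat 894, .ofNat 1876, .ofNat 0, .ofNat 443, .negSucc 692, .negSucc 766, .ofNat 0, .ofNat 497, .ofNat 394, .ofNat 0, .ofNat 0, .ofNat 1653, .ofNat 41849, .ofNat 7827821956101263411182268008392131661004800, .ofNat 0, .ofNat 0, .ofNat 0, .ofNat 271632621670001415203157704330355454613913600, .ofNat 0, .ofNat 20311457282180247259514086096896000, .ofNat 0, .ofNat 265801424439109497092432877973262525949542400,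 .ofNat 0, .ofNat 17158404219193166898313851568128000, .ofNat 0, .ofNat 516844476248240053806175026015808421206425600, .ofNat 0, .ofNat 0, .ofNat 0⟩)
    (by decide +kernel)
theorem L02322 : Good (Phi V4.P V4.D (-1) (-1)) ⟨7, 109, 2, 2, 5, 1, 2, 2, 2, 2⟩ :=
  leaf_sound (S := T4.ds_mm) T4.ok_mm (w := 208) (c := ⟨⟨.negSucc 984, .negSucc 11, .negSucc 3, .ofNat 58, .ofNat 155, .ofNat 213⟩, ⟨.ofNat 532, .ofNat 21, .ofNat 19, .negSucc 31, .negSucc 84, .negSucc 116⟩, ⟨.ofNat 665, .ofNat 13, .ofNat 23, .negSucc 38, .negSucc 182, .negSucc 176⟩, ⟨.negSucc 1513, .negSucc 9, .negSucc 1, .ofNat 73, .ofNat 236, .ofNat 323⟩, ⟨.negSucc 23, .ofNat 0, .ofNat 0, .negSucc 26, .ofNat 1, .ofNat 0⟩, .ofNat 1830, .ofNat 2773, .ofNat 0, .ofNat 2773, .ofNat 5272, .ofNat 0, .ofNat 140, .negSucc 372, .negSucc 442, .ofNat 0, .ofNat 229, .ofNat 239, .ofNat 0, .ofNat 0, .ofNat 801, .ofNat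 10104, .ofNat 0, .ofNat 0, .ofNat 0, .ofNat 0, .ofNat 0, .ofNat 0, .ofNat 945811857282455621533435597475020800, .ofNat 0, .ofNat 190665998444287158749702713876027494157516800, .ofNat 0, .ofNat 513778598297066746474853304788582400, .ofNat 0, .ofNat 0, .ofNat 0, .ofNat 0, .ofNat 0⟩)
    (by decide +kernel)
theorem L02323 : Good (Phi V4.P V4.D (-1) (-1)) ⟨7, 109, 2, 2, 5, 1, 2, 2, 2, 3⟩ :=
  leaf_sound (S := T4.ds_mm) T4.ok_mm (w := 224) (c := ⟨⟨.negSucc 649, .negSucc 11, .ofNat 4, .ofNat 78, .ofNat 16, .ofNat 0⟩, ⟨.ofNat 348, .ofNat 17, .ofNat 16, .negSucc 42, .negSucc 7, .ofNat 0⟩, ⟨.ofNat 349, .ofNat 12, .negSucc 3, .negSucc 64, .negSucc 15, .ofNat 0⟩, ⟨.negSucc 1002, .negSucc 9, .ofNat 6, .ofNat 104, .ofNat 25, .ofNat 0⟩, ⟨.negSucc 21, .ofNat 0, .negSucc 0, .negSucc 26, .ofNat 1, .ofNat 0⟩, .ofNat 365, .ofNat 259, .ofNat 0, .ofNat 259, .ofNat 687, .ofNat 0,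 .ofNat 1197, .negSucc 1025, .negSucc 2181, .ofNat 0, .ofNat 1062, .ofNat 957, .ofNat 0, .ofNat 0, .ofNat 3315, .ofNat 20560209, .ofNat 2961477107833498568144312616510522090280766668800, .ofNat 0, .ofNat 0, .ofNat 0, .ofNat 887445093638755965116018971714739417429468774400, .ofNat 0, .ofNat 16451103400882563414351255008654131200, .ofNat 0, .ofNat 155721419410875628959649748411956979609842483200, .ofNat 0, .ofNat 14460766443697069100941467110395084800, .ofNat 0, .ofNat 1395673819706677734638101445683565337526665216000, .ofNat 0, .ofNat 0, .ofNat 0⟩)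
    (by decide +kernel)
theorem L02324 : Good (Phi V4.P V4.D (-1) (-1)) ⟨7, 109, 4, 8, 5, 1, 3, 6, 2, 2⟩ :=
  leaf_sound (S := T4.ds_mm) T4.ok_mm (w := 224) (c := ⟨⟨.negSucc 807, .ofNat 29, .negSucc 89, .ofNat 102, .ofNat 209, .ofNat 186⟩, ⟨.ofNat 432, .negSucc 10, .ofNat 65, .negSucc 55, .negSucc 114, .negSucc 101⟩, ⟨.ofNat 460, .negSucc 26, .ofNat 86, .negSucc 90, .negSucc 208, .negSucc 132⟩, ⟨.negSucc 1243, .ofNat 51, .negSucc 136, .ofNat 141, .ofNat 320, .ofNat 284⟩, ⟨.negSucc 23, .negSucc 0, .ofNat 1, .negSucc 24, .ofNat 5, .ofNat 1⟩, .ofNat 3655, .ofNat 6039, .ofNat 0, .ofNat 6039, .ofNat 11147, .ofNat 0, .ofNat 111, .negSucc 408, .negSucc 603, .ofNat 0, .ofNat 240, .ofNat 330, .ofNat 0, .ofNat 0, .ofNat 899, .ofNat 17532, .ofNat 0, .ofNat 0, .ofNat 0, .ofNat 0, .ofNat 0, .ofNat 0, .ofNat 72324338051478916368886454283770265600, .ofNat 0, .ofNat 0, .ofNat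 0, .ofNat 53232475546107763668040897687191552000, .ofNat 0, .ofNat 0, .ofNat 0, .ofNat 44542654098790774396976892849055334400, .ofNat 0⟩)
    (by decide +kernel)
theorem L02325 : Good (Phi V4.P V4.D (-1) (-1)) ⟨7, 109, 4, 8, 5, 1, 3, 6, 2, 3⟩ :=
  leaf_sound (S := T4.ds_mm) T4.ok_mm (w := 224) (c := ⟨⟨.negSucc 652, .ofNat 22, .negSucc 59, .ofNat 122, .ofNat 213, .ofNat 89⟩, ⟨.ofNat 349, .negSucc 8, .ofNat 47, .negSucc 67, .negSucc 116, .negSucc 47⟩, ⟨.ofNat 354, .negSucc 20, .ofNat 57, .negSucc 111, .negSucc 206, .negSucc 46⟩, ⟨.negSucc 1006, .ofNat 40, .negSucc 91, .ofNat 172, .ofNat 326, .ofNat 135⟩, ⟨.negSucc 22, .ofNat 1, .negSucc 1, .negSucc 23, .ofNat 6, .negSucc 0⟩, .ofNat 1826, .ofNat 2764, .ofNat 0, .ofNat 2764, .ofNat 5255, .ofNat 0, .ofNat 135, .negSucc 359, .negSucc 536, .ofNat 0, .ofNat 221, .ofNat 289, .ofNat 0, .ofNat 0, .ofNat 810, .ofNat 68328,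 .ofNat 32067725353397682487987952320157170176255590400, .ofNat 0, .ofNat 0, .ofNat 0, .ofNat 0, .ofNat 0, .ofNat 0, .ofNat 0, .ofNat 75594574675326350292179229488028218661273600000, .ofNat 0, .ofNat 0, .ofNat 0, .ofNat 109104006900874549285561856821813507678588108800, .ofNat 0, .ofNat 33817163275604992365643549540928716800, .ofNat 0⟩)
    (by decide +kernel)
theorem L02326 : Good (Phi V4.P V4.D (-1) (-1)) ⟨7, 109, 4, 9, 5, 1, 3, 6, 1, 1⟩ :=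
  out_sound (S := T4.ds_mm) T4.ok_mm (w := 72) (j := 3) (by decide +kernel)
theorem L02327 : Good (Phi V4.P V4.D (-1) (-1)) ⟨7, 109, 3, 5, 5, 1, 3, 6, 1, 1⟩ :=
  out_sound (S := T4.ds_mm) T4.ok_mm (w := 72) (j := 3) (by decide +kernel)
theorem L02328 : Good (Phi V4.P V4.D (-1) (-1)) ⟨7, 109, 4, 8, 5, 1, 4, 14, 1, 1⟩ :=
  leaf_sound (S := T4.ds_mm) T4.ok_mm (w := 216) (c := ⟨⟨.negSucc 679, .negSucc 68, .ofNat 88, .ofNat 185, .ofNat 268, .ofNat 317⟩, ⟨.ofNat 367, .ofNat 42, .negSucc 42, .negSucc 100, .negSucc 146, .negSucc 173⟩, ⟨.ofNat 330, .ofNat 74, .negSucc 98, .negSucc 173, .negSucc 265, .negSucc 198⟩, ⟨.negSucc 1045, .negSucc 100, .ofNat 133, .ofNat 272, .ofNat 411, .ofNat 483⟩, ⟨.negSucc 22, .negSucc 2, .ofNat 4, .negSucc 18, .ofNat 7, .ofNat 4⟩, .ofNat 1803, .ofNat 2727, .ofNat 0, .ofNat 2727, .ofNat 5196, .ofNat 0, .ofNat 79, .negSucc 207, .negSucc 413,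 .ofNat 0, .ofNat 128, .ofNat 222, .ofNat 0, .ofNat 0, .ofNat 531, .ofNat 3717, .ofNat 986777761807295375925588888488957200406937600, .ofNat 0, .ofNat 0, .ofNat 0, .ofNat 0, .ofNat 0, .ofNat 0, .ofNat 0, .ofNat 0, .ofNat 0, .ofNat 0, .ofNat 0, .ofNat 0, .ofNat 0, .ofNat 0, .ofNat 0⟩)
    (by decide +kernel)
theorem L02329 : Good (Phi V4.P V4.D (-1) (-1)) ⟨7, 109, 4, 8, 5, 1, 4, 15, 1, 1⟩ :=
  leaf_sound (S := T4.ds_mm) T4.ok_mm (w := 216) (c := ⟨⟨.negSucc 506, .ofNat 37, .ofNat 65, .ofNat 291, .ofNat 829, .ofNat 184⟩, ⟨.ofNat 287, .negSucc 10, .negSucc 60, .negSucc 158, .negSucc 455, .negSucc 99⟩, ⟨.ofNat 151, .negSucc 38, .negSucc 56, .negSucc 278, .negSucc 819, .negSucc 63⟩, ⟨.negSucc 775, .ofNat 61, .ofNat 83, .ofNat 437, .ofNat 1271, .ofNat 284⟩, ⟨.negSucc 21, .ofNat 2, .negSucc 1, .negSucc 8, .ofNat 24, .ofNat 5⟩, .ofNat 3571, .ofNat 5899, .ofNat 0, .ofNat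 5899, .ofNat 10916, .ofNat 0, .ofNat 61, .negSucc 218, .negSucc 533, .ofNat 0, .ofNat 129, .ofNat 291, .ofNat 0, .ofNat 0, .ofNat 628, .ofNat 2703, .ofNat 676523083349379194611075579034029087575244800, .ofNat 0, .ofNat 0, .ofNat 0, .ofNat 725154799301833113044801652518407284719616000, .ofNat 0, .ofNat 9657176706553688360430917331714048000, .ofNat 0, .ofNat 0, .ofNat 0, .ofNat 0, .ofNat 0, .ofNat 0, .ofNat 0, .ofNat 0, .ofNat 0⟩)
    (by decide +kernel)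
theorem L02330 : Good (Phi V4.P V4.D (-1) (-1)) ⟨7, 109, 4, 9, 5, 1, 3, 7, 1, 1⟩ :=
  out_sound (S := T4.ds_mm) T4.ok_mm (w := 72) (j := 3) (by decide +kernel)
theorem L02331 : Good (Phi V4.P V4.D (-1) (-1)) ⟨7, 109, 3, 5, 5, 1, 3, 7, 1, 1⟩ :=
  out_sound (S := T4.ds_mm) T4.ok_mm (w := 72) (j := 3) (by decide +kernel)
theorem L02332 : Good (Phi V4.P V4.D (-1) (-1)) ⟨6, 55, 2, 2, 5, 1, 1, 0, 1, 1⟩ :=
  leaf_sound (S := T4.ds_mm) T4.ok_mm (w := 200) (c := ⟨⟨.negSucc 1150, .negSucc 28, .negSucc 2, .ofNat 22, .ofNat 171, .ofNat 542⟩, ⟨.ofNat 644, .ofNat 54, .ofNat 12, .negSucc 11, .negSucc 96, .negSucc 307⟩, ⟨.ofNat 1013, .ofNat 34, .negSucc 0, .ofNat 2, .negSucc 341, .negSucc 576⟩, ⟨.negSucc 1745, .negSucc 19, .ofNat 1, .ofNat 18, .ofNat 252, .ofNat 809⟩, ⟨.negSucc 12, .ofNat 1, .ofNat 0, .negSucc 25, .negSucc 9, .negSucc 11⟩, .ofNat 372, .ofNat 271, .ofNat 0,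 .ofNat 271, .ofNat 692, .ofNat 0, .ofNat 646, .negSucc 579, .negSucc 885, .ofNat 0, .ofNat 591, .ofNat 410, .ofNat 0, .ofNat 0, .ofNat 1739, .ofNat 42898, .ofNat 497387051569030069426334185174050275328000, .ofNat 0, .ofNat 0, .ofNat 0, .ofNat 22739197579198496419134265588685026728345600, .ofNat 0, .ofNat 0, .ofNat 0, .ofNat 14308432003221632290585152363744038014156800, .ofNat 0, .ofNat 0, .ofNat 0, .ofNat 34950014987901283286131431129605588857651200, .ofNat 0, .ofNat 0, .ofNat 0⟩)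
    (by decide +kernel)
theorem L02333 : Good (Phi V4.P V4.D (-1) (-1)) ⟨6, 55, 2, 2, 5, 1, 2, 2, 2, 2⟩ :=
  leaf_sound (S := T4.ds_mm) T4.ok_mm (w := 208) (c := ⟨⟨.negSucc 996, .negSucc 28, .negSucc 14, .ofNat 61, .ofNat 154, .ofNat 217⟩, ⟨.ofNat 558, .ofNat 47, .ofNat 18, .negSucc 34, .negSucc 87, .negSucc 123⟩, ⟨.ofNat 677, .ofNat 31, .ofNat 15, .negSucc 42, .negSucc 182, .negSucc 176⟩, ⟨.negSucc 1519, .negSucc 23, .negSucc 17, .ofNat 76, .ofNat 233, .ofNat 327⟩, ⟨.negSucc 23, .ofNat 0, .ofNat 0, .negSucc 26, .ofNat 1, .ofNat 0⟩, .ofNat 810, .ofNat 962, .ofNat 0, .ofNat 962, .ofNat 1947, .ofNat 0, .ofNat 210, .negSucc 351, .negSucc 476, .ofNat 0, .ofNat 251, .ofNat 252, .ofNat 0, .ofNat 0, .ofNat 828, .ofNat 13568, .ofNat 0, .ofNat 0, .ofNat 0, .ofNat 0, .ofNat 8866852062443570167822463028571986827673600, .ofNat 0, .ofNat 2240436742385460991927973118266572800,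 .ofNat 0, .ofNat 5180444897636323008349664361076588806144000, .ofNat 0, .ofNat 1566611684216386741550808202582425600, .ofNat 0, .ofNat 0, .ofNat 0, .ofNat 0, .ofNat 0⟩)
    (by decide +kernel)
theorem L02334 : Good (Phi V4.P V4.D (-1) (-1)) ⟨6, 55, 2, 2, 5, 1, 2, 2, 2, 3⟩ :=
  leaf_sound (S := T4.ds_mm) T4.ok_mm (w := 216) (c := ⟨⟨.negSucc 663, .negSucc 20, .negSucc 4, .ofNat 81, .ofNat 19, .ofNat 0⟩, ⟨.ofNat 371, .ofNat 36, .ofNat 10, .negSucc 45, .negSucc 10, .ofNat 0⟩, ⟨.ofNat 363, .ofNat 22, .ofNat 5, .negSucc 67, .negSucc 18, .ofNat 0⟩, ⟨.negSucc 1016, .negSucc 17, .negSucc 3, .ofNat 106, .ofNat 29, .ofNat 0⟩, ⟨.negSucc 21, .ofNat 0, .negSucc 0, .negSucc 26, .ofNat 0, .ofNat 0⟩, .ofNat 372, .ofNat 271, .ofNat 0, .ofNat 271, .ofNat 692, .ofNat 0, .ofNat 1177, .negSucc 1057, .negSucc 2214, .ofNat 0, .ofNat 1076, .ofNat 1007, .ofNat 0, .ofNat 0, .ofNat 3340,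 .ofNat 18573887, .ofNat 167283661236675280492557131758520476799651020800, .ofNat 0, .ofNat 0, .ofNat 0, .ofNat 8150029774359852649632725028357777139118899200, .ofNat 0, .ofNat 42136384226323462366882728788361216000, .ofNat 0, .ofNat 8671782528913515833522043333372339102626611200, .ofNat 0, .ofNat 45056605628170235704156288435460505600, .ofNat 0, .ofNat 106281718273298041411516877692426170202796851200, .ofNat 0, .ofNat 0, .ofNat 0⟩)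
    (by decide +kernel)
theorem L02335 : Good (Phi V4.P V4.D (-1) (-1)) ⟨6, 55, 2, 2, 5, 1, 3, 6, 2, 2⟩ :=
  leaf_sound (S := T4.ds_mm) T4.ok_mm (w := 208) (c := ⟨⟨.negSucc 853, .negSucc 27, .ofNat 3, .ofNat 85, .ofNat 201, .ofNat 210⟩, ⟨.ofNat 479, .ofNat 40, .ofNat 5, .negSucc 48, .negSucc 114, .negSucc 118⟩, ⟨.ofNat 504, .ofNat 25, .ofNat 0, .negSucc 73, .negSucc 200, .negSucc 156⟩, ⟨.negSucc 1301, .negSucc 27, .ofNat 8, .ofNat 113, .ofNat 306, .ofNat 316⟩, ⟨.negSucc 23, .ofNat 0, .ofNat 0, .negSucc 25, .ofNat 5, .ofNat 2⟩, .ofNat 2180, .ofNat 3321, .ofNat 0, .ofNat 3321, .ofNat 6088, .ofNat 0, .ofNat 130, .negSucc 401, .negSucc 601, .ofNat 0, .ofNat 248, .ofNat 336, .ofNat 0, .ofNat 0, .ofNat 896, .ofNat 4842, .ofNat 0, .ofNat 0, .ofNat 0, .ofNat 0, .ofNat 0, .ofNat 0, .ofNat 33801041970248170918103459124844953600, .ofNat 0, .ofNat 0, .ofNat 0, .ofNat 14239619938636921033817774781313843200,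 .ofNat 0, .ofNat 0, .ofNat 0, .ofNat 0, .ofNat 0⟩)
    (by decide +kernel)
theorem L02336 : Good (Phi V4.P V4.D (-1) (-1)) ⟨6, 55, 2, 2, 5, 1, 3, 6, 2, 3⟩ :=
  leaf_sound (S := T4.ds_mm) T4.ok_mm (w := 208) (c := ⟨⟨.negSucc 697, .negSucc 27, .negSucc 17, .ofNat 131, .ofNat 237, .ofNat 74⟩, ⟨.ofNat 391, .ofNat 34, .ofNat 16, .negSucc 73, .negSucc 133, .negSucc 41⟩, ⟨.ofNat 397, .ofNat 28, .ofNat 18, .negSucc 120, .negSucc 230, .negSucc 31⟩, ⟨.negSucc 1066, .negSucc 31, .negSucc 24, .ofNat 184, .ofNat 360, .ofNat 111⟩, ⟨.negSucc 23, .negSucc 0, .negSucc 0, .negSucc 23, .ofNat 7, .negSucc 1⟩, .ofNat 2150, .ofNat 3272, .ofNat 0, .ofNat 3272, .ofNat 6013, .ofNat 0, .ofNat 121, .negSucc 367, .negSucc 559, .ofNat 0, .ofNat 227, .ofNat 311, .ofNat 0, .ofNat 0, .ofNat 825, .ofNat 16152, .ofNat 30097810408328210934571887277480510016716800, .ofNat 0, .ofNat 0, .ofNat 0,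 .ofNat 75647101535453095855548176285125854835507200, .ofNat 0, .ofNat 30319093709814004368542788157964288000, .ofNat 0, .ofNat 0, .ofNat 0, .ofNat 0, .ofNat 0, .ofNat 0, .ofNat 0, .ofNat 0, .ofNat 0⟩)
    (by decide +kernel)
theorem L02337 : Good (Phi V4.P V4.D (-1) (-1)) ⟨6, 55, 5, 16, 5, 1, 3, 7, 1, 1⟩ :=
  out_sound (S := T4.ds_mm) T4.ok_mm (w := 72) (j := 3) (by decide +kernel)
theorem L02338 : Good (Phi V4.P V4.D (-1) (-1)) ⟨7, 110, 6, 34, 5, 1, 3, 7, 1, 1⟩ :=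
  out_sound (S := T4.ds_mm) T4.ok_mm (w := 80) (j := 3) (by decide +kernel)
theorem L02339 : Good (Phi V4.P V4.D (-1) (-1)) ⟨7, 110, 6, 35, 5, 1, 4, 14, 1, 1⟩ :=
  leaf_sound (S := T4.ds_mm) T4.ok_mm (w := 224) (c := ⟨⟨.negSucc 674, .negSucc 95, .ofNat 31, .ofNat 182, .ofNat 272, .ofNat 336⟩, ⟨.ofNat 378, .ofNat 55, .negSucc 13, .negSucc 102, .negSucc 152, .negSucc 189⟩, ⟨.ofNat 319, .ofNat 71, .negSucc 17, .negSucc 171, .negSucc 269, .negSucc 219⟩, ⟨.negSucc 1031, .negSucc 143, .ofNat 48, .ofNat 264, .ofNat 415, .ofNat 510⟩, ⟨.negSucc 22, .negSucc 3, .ofNat 2, .negSucc 18, .ofNat 7, .ofNat 4⟩, .ofNat 9230, .ofNat 15764, .ofNat 0, .ofNat 15764, .ofNat 28096, .ofNat 0, .ofNat 75, .negSucc 433, .negSucc 802, .ofNat 0, .ofNat 251, .ofNat 452, .ofNat 0, .ofNat 0, .ofNat 1041, .ofNat 9649, .ofNat 41332559787907896824847014944347496750723891200, .ofNat 0, .ofNat 0,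 .ofNat 0, .ofNat 231151174408960874340242515674993761345077248000, .ofNat 0, .ofNat 176554521351456729346096771933981900800, .ofNat 0, .ofNat 105094958702725955764452499906838673510472089600, .ofNat 0, .ofNat 232248801753482312089268216729174016000, .ofNat 0, .ofNat 0, .ofNat 0, .ofNat 0, .ofNat 0⟩)
    (by decide +kernel)
theorem L02340 : Good (Phi V4.P V4.D (-1) (-1)) ⟨7, 110, 6, 35, 5, 1, 4, 15, 2, 2⟩ :=
  leaf_sound (S := T4.ds_mm) T4.ok_mm (w := 232) (c := ⟨⟨.negSucc 449, .ofNat 575, .negSucc 235, .ofNat 288, .ofNat 847, .ofNat 172⟩, ⟨.ofNat 254, .negSucc 323, .ofNat 132, .negSucc 162, .negSucc 476, .negSucc 95⟩, ⟨.ofNat 98, .negSucc 549, .ofNat 224, .negSucc 275, .negSucc 838, .negSucc 105⟩, ⟨.negSucc 688, .ofNat 884, .negSucc 362, .ofNat 429, .ofNat 1291, .ofNat 262⟩, ⟨.negSucc 18, .ofNat 31, .negSucc 12, .negSucc 9, .ofNat 23, .ofNat 4⟩, .ofNat 4661,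 .ofNat 7713, .ofNat 0, .ofNat 7713, .ofNat 13898, .ofNat 0, .ofNat 104, .negSucc 458, .negSucc 1140, .ofNat 0, .ofNat 270, .ofNat 639, .ofNat 0, .ofNat 0, .ofNat 1330, .ofNat 4239, .ofNat 0, .ofNat 0, .ofNat 0, .ofNat 0, .ofNat 0, .ofNat 0, .ofNat 5745880823825659348756817135026569216000, .ofNat 0, .ofNat 0, .ofNat 0, .ofNat 4753810824297091920390598271092496793600, .ofNat 0, .ofNat 0, .ofNat 0, .ofNat 1294077252467199727768109094446668185600, .ofNat 0⟩)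
    (by decide +kernel)
theorem L02341 : Good (Phi V4.P V4.D (-1) (-1)) ⟨7, 110, 6, 35, 5, 1, 4, 15, 2, 3⟩ :=
  leaf_sound (S := T4.ds_mm) T4.ok_mm (w := 224) (c := ⟨⟨.negSucc 346, .ofNat 62, .ofNat 44, .ofNat 279, .ofNat 734, .ofNat 76⟩, ⟨.ofNat 197, .negSucc 32, .negSucc 27, .negSucc 157, .negSucc 413, .negSucc 41⟩, ⟨.ofNat 56, .negSucc 60, .negSucc 43, .negSucc 268, .negSucc 725, .negSucc 29⟩, ⟨.negSucc 532, .ofNat 99, .ofNat 64, .ofNat 417, .ofNat 1120, .ofNat 116⟩, ⟨.negSucc 19, .ofNat 8, .negSucc 0, .negSucc 7, .ofNat 22, .ofNat 2⟩, .ofNat 4663, .ofNat 7717, .ofNat 0, .ofNat 7717, .ofNat 13905, .ofNat 0, .ofNat 46, .negSucc 200, .negSucc 456, .ofNat 0, .ofNat 119, .ofNat 256, .ofNat 0, .ofNat 0, .ofNat 547, .ofNat 5508, .ofNat 125408748607021359966456713363657109709573324800, .ofNat 0, .ofNat 0, .ofNat 0, .ofNat 0, .ofNat 0, .ofNat 0, .ofNat 0, .ofNat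 0, .ofNat 0, .ofNat 0, .ofNat 0, .ofNat 0, .ofNat 120726084225086843139730614886704839914212556800, .ofNat 0, .ofNat 0⟩)
    (by decide +kernel)
theorem L02342 : Good (Phi V4.P V4.D (-1) (-1)) ⟨7, 111, 5, 17, 5, 1, 3, 7, 1, 1⟩ :=
  out_sound (S := T4.ds_mm) T4.ok_mm (w := 80) (j := 3) (by decide +kernel)
theorem L02343 : Good (Phi V4.P V4.D (-1) (-1)) ⟨7, 110, 6, 36, 5, 1, 4, 14, 2, 2⟩ :=
  leaf_sound (S := T4.ds_mm) T4.ok_mm (w := 232) (c := ⟨⟨.negSucc 675, .negSucc 15, .negSucc 6, .ofNat 191, .ofNat 274, .ofNat 175⟩, ⟨.ofNat 384, .ofNat 11, .ofNat 7, .negSucc 108, .negSucc 156, .negSucc 99⟩, ⟨.ofNat 322, .ofNat 17, .ofNat 6, .negSucc 178, .negSucc 271, .negSucc 113⟩, ⟨.negSucc 1030, .negSucc 20, .negSucc 9, .ofNat 276, .ofNat 416, .ofNat 265⟩, ⟨.negSucc 21, .ofNat 1, .negSucc 0, .negSucc 18, .ofNat 7, .ofNat 2⟩, .ofNat 5789, .ofNat 9590, .ofNat 0, .ofNat 9590,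 .ofNat 17000, .ofNat 0, .ofNat 170, .negSucc 880, .negSucc 1689, .ofNat 0, .ofNat 520, .ofNat 961, .ofNat 0, .ofNat 0, .ofNat 2159, .ofNat 48991, .ofNat 0, .ofNat 0, .ofNat 0, .ofNat 0, .ofNat 0, .ofNat 0, .ofNat 0, .ofNat 0, .ofNat 0, .ofNat 0, .ofNat 0, .ofNat 0, .ofNat 0, .ofNat 0, .ofNat 0, .ofNat 0⟩)
    (by decide +kernel)
theorem L02344 : Good (Phi V4.P V4.D (-1) (-1)) ⟨7, 110, 6, 36, 5, 1, 4, 15, 2, 2⟩ :=
  leaf_sound (S := T4.ds_mm) T4.ok_mm (w := 232) (c := ⟨⟨.negSucc 385, .negSucc 178, .ofNat 86, .ofNat 299, .ofNat 870, .ofNat 96⟩, ⟨.ofNat 223, .ofNat 98, .negSucc 47, .negSucc 171, .negSucc 498, .negSucc 53⟩, ⟨.ofNat 31, .ofNat 184, .negSucc 88, .negSucc 286, .negSucc 862, .negSucc 30⟩, ⟨.negSucc 589, .negSucc 271, .ofNat 131, .ofNat 444, .ofNat 1321, .ofNat 145⟩, ⟨.negSucc 20, .ofNat 0, .ofNat 1, .negSucc 7, .ofNat 23, .ofNat 2⟩, .ofNat 5912, .ofNat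 9795, .ofNat 0, .ofNat 9795, .ofNat 17341, .ofNat 0, .ofNat 43, .negSucc 228, .negSucc 570, .ofNat 0, .ofNat 135, .ofNat 325, .ofNat 0, .ofNat 0, .ofNat 663, .ofNat 2178, .ofNat 0, .ofNat 0, .ofNat 0, .ofNat 0, .ofNat 0, .ofNat 0, .ofNat 0, .ofNat 0, .ofNat 0, .ofNat 0, .ofNat 0, .ofNat 0, .ofNat 0, .ofNat 49173148449061113012534094805245108672266240000, .ofNat 0, .ofNat 0⟩)
    (by decide +kernel)
theorem L02345 : Good (Phi V4.P V4.D (-1) (-1)) ⟨7, 110, 6, 36, 5, 1, 3, 7, 3, 6⟩ :=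
  leaf_sound (S := T4.ds_mm) T4.ok_mm (w := 232) (c := ⟨⟨.negSucc 723, .ofNat 116, .negSucc 32, .ofNat 216, .ofNat 1112, .negSucc 41⟩, ⟨.ofNat 417, .negSucc 67, .ofNat 17, .negSucc 123, .negSucc 636, .ofNat 25⟩, ⟨.ofNat 427, .negSucc 111, .ofNat 32, .negSucc 204, .negSucc 1096, .ofNat 64⟩, ⟨.negSucc 1103, .ofNat 172, .negSucc 49, .ofNat 318, .ofNat 1690, .negSucc 63⟩, ⟨.negSucc 28, .negSucc 1, .ofNat 2, .negSucc 10, .ofNat 34, .negSucc 1⟩, .ofNat 5778, .ofNat 9572, .ofNat 0, .ofNat 9572, .ofNat 16971, .ofNat 0, .ofNat 39, .negSucc 202, .negSucc 444, .ofNat 0, .ofNat 120, .ofNat 253, .ofNat 0, .ofNat 0, .ofNat 539, .ofNat 3663, .ofNat 88395512512078390581981837852576277580690227200, .ofNat 0, .ofNat 0, .ofNat 0, .ofNat 0, .ofNat 0, .ofNat 0, .ofNat 0, .ofNat 0, .ofNat 0, .ofNat 0, .ofNat 0, .ofNat 0, .ofNat 0, .ofNat 0, .ofNat 0⟩)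
    (by decide +kernel)
theorem L02346 : Good (Phi V4.P V4.D (-1) (-1)) ⟨7, 110, 6, 36, 5, 1, 3, 7, 3, 7⟩ :=
  out_sound (S := T4.ds_mm) T4.ok_mm (w := 32) (j := 1) (by decide +kernel)
theorem L02347 : Good (Phi V4.P V4.D (-1) (-1)) ⟨8, 220, 6, 37, 5, 1, 3, 7, 1, 1⟩ :=
  out_sound (S := T4.ds_mm) T4.ok_mm (w := 88) (j := 3) (by decide +kernel)
theorem L02348 : Good (Phi V4.P V4.D (-1) (-1)) ⟨9, 442, 7, 74, 5, 1, 3, 7, 1, 1⟩ :=
  out_sound (S := T4.ds_mm) T4.ok_mm (w := 96) (j := 3) (by decide +kernel)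
theorem L02349 : Good (Phi V4.P V4.D (-1) (-1)) ⟨10, 886, 8, 148, 5, 1, 3, 7, 1, 1⟩ :=
  out_sound (S := T4.ds_mm) T4.ok_mm (w := 104) (j := 3) (by decide +kernel)
theorem L02350 : Good (Phi V4.P V4.D (-1) (-1)) ⟨10, 887, 8, 148, 5, 1, 3, 7, 1, 1⟩ :=
  out_sound (S := T4.ds_mm) T4.ok_mm (w := 32) (j := 4) (by decide +kernel)
theorem L02351 : Good (Phi V4.P V4.D (-1) (-1)) ⟨9, 443, 8, 149, 5, 1, 3, 7, 1, 1⟩ :=
  out_sound (S := T4.ds_mm) T4.ok_mm (w := 96) (j := 3) (by decide +kernel)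
theorem L02352 : Good (Phi V4.P V4.D (-1) (-1)) ⟨8, 221, 7, 75, 5, 1, 3, 7, 1, 1⟩ :=
  out_sound (S := T4.ds_mm) T4.ok_mm (w := 88) (j := 3) (by decide +kernel)
theorem L02353 : Good (Phi V4.P V4.D (-1) (-1)) ⟨7, 111, 5, 18, 5, 1, 3, 7, 1, 1⟩ :=
  out_sound (S := T4.ds_mm) T4.ok_mm (w := 24) (j := 4) (by decide +kernel)
theorem L02354 : Good (Phi V4.P V4.D (-1) (-1)) ⟨7, 110, 5, 19, 5, 1, 3, 7, 1, 1⟩ :=
  out_sound (S := T4.ds_mm) T4.ok_mm (w := 80) (j := 3) (by decide +kernel)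
theorem L02355 : Good (Phi V4.P V4.D (-1) (-1)) ⟨7, 111, 5, 19, 5, 1, 3, 7, 1, 1⟩ :=
  out_sound (S := T4.ds_mm) T4.ok_mm (w := 24) (j := 4) (by decide +kernel)
theorem L02356 : Good (Phi V4.P V4.D (-1) (-1)) ⟨6, 55, 3, 5, 5, 1, 3, 7, 1, 1⟩ :=
  out_sound (S := T4.ds_mm) T4.ok_mm (w := 64) (j := 3) (by decide +kernel)
theorem L02357 : Good (Phi V4.P V4.D (-1) (-1)) ⟨5, 27, 2, 3, 5, 1, 0, 0, 1, 1⟩ :=
  out_sound (S := T4.ds_mm) T4.ok_mm (w := 56) (j := 3) (by decide +kernel)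
theorem L02358 : Good (Phi V4.P V4.D (-1) (-1)) ⟨5, 27, 1, 1, 4, 1, 1, 0, 2, 2⟩ :=
  leaf_sound (S := T4.ds_mm) T4.ok_mm (w := 192) (c := ⟨⟨.negSucc 1162, .negSucc 45, .negSucc 24, .ofNat 48, .ofNat 235, .ofNat 273⟩, ⟨.ofNat 611, .ofNat 91, .ofNat 53, .negSucc 26, .negSucc 128, .negSucc 149⟩, ⟨.ofNat 1056, .ofNat 47, .ofNat 28, .negSucc 8, .negSucc 415, .negSucc 279⟩, ⟨.negSucc 1797, .negSucc 28, .negSucc 26, .ofNat 37, .ofNat 346, .ofNat 410⟩, ⟨.negSucc 26, .ofNat 1, .ofNat 5, .negSucc 65, .negSucc 21, .negSucc 9⟩, .ofNat 764, .ofNat 895, .ofNat 0, .ofNat 895, .ofNat 1877, .ofNat 0, .ofNat 439, .negSucc 687, .negSucc 763, .ofNat 0, .ofNat 493, .ofNat 394, .ofNat 0, .ofNat 0, .ofNat 1640, .ofNat 22250, .ofNat 0, .ofNat 0, .ofNat 0, .ofNat 0, .ofNat 8147034907603927895788050922602076569600, .ofNat 0, .ofNat 2763425866382375236827499148083200, .ofNat 0, .ofNat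 2480820248218676843800274854474049126400, .ofNat 0, .ofNat 2212506772799906784640714879795200, .ofNat 0, .ofNat 9997966062350350832605481405683177881600, .ofNat 0, .ofNat 0, .ofNat 0⟩)
    (by decide +kernel)

end Crest.Agent.R097C4.N4mm
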