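import Crest.Agent.R097.T4

/-!
# Row 97, box cover in dimension n = 4 (generated)
-/

set_option autoImplicit false
set_option Elab.async false
set_option maxHeartbeats 0
set_option maxRecDepth 100000

open Crest.Agent.R097 Crest.Agent.R097.KA


namespace Crest.Agent.R097C4.N4mm

theorem L02359 : Good (Phi V4.P V4.D (-1) (-1)) ⟨5, 27, 1, 1, 4, 1, 2, 2, 2, 2⟩ :=
  leaf_sound (S := T4.ds_mm) T4.ok_mm (w := 192) (c := ⟨⟨.negSucc 953, .negSucc 70, .ofNat 51, .ofNat 109, .ofNat 215, .ofNat 221⟩, ⟨.ofNat 501, .ofNat 91, .ofNat 3, .negSucc 56, .negSucc 118, .negSucc 119⟩, ⟨.ofNat 658, .ofNat 76, .negSucc 61, .negSucc 79, .negSucc 255, .negSucc 182⟩, ⟨.negSucc 1488, .negSucc 78, .ofNat 88, .ofNat 130, .ofNat 328, .ofNat 336⟩, ⟨.negSucc 49, .negSucc 0, .ofNat 0, .negSucc 66, .ofNat 1, .ofNat 0⟩, .ofNat 770, .ofNat 903, .ofNat 0, .ofNat 903, .ofNat 1884, .ofNat 0, .ofNat 217,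 .negSucc 342, .negSucc 461, .ofNat 0, .ofNat 246, .ofNat 237, .ofNat 0, .ofNat 0, .ofNat 816, .ofNat 6811, .ofNat 0, .ofNat 0, .ofNat 0, .ofNat 0, .ofNat 0, .ofNat 0, .ofNat 4676828082736088158230209259110400, .ofNat 0, .ofNat 4863426700101005299058665811922124800, .ofNat 0, .ofNat 4610070813030880830849931227955200, .ofNat 0, .ofNat 0, .ofNat 0, .ofNat 0, .ofNat 0⟩)
    (by decide +kernel)
theorem L02360 : Good (Phi V4.P V4.D (-1) (-1)) ⟨5, 27, 1, 1, 4, 1, 3, 6, 2, 2⟩ :=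
  leaf_sound (S := T4.ds_mm) T4.ok_mm (w := 192) (c := ⟨⟨.negSucc 784, .negSucc 39, .ofNat 76, .ofNat 197, .ofNat 300, .ofNat 205⟩, ⟨.ofNat 416, .ofNat 55, .negSucc 19, .negSucc 108, .negSucc 164, .negSucc 110⟩, ⟨.ofNat 449, .ofNat 38, .negSucc 63, .negSucc 175, .negSucc 300, .negSucc 155⟩, ⟨.negSucc 1227, .negSucc 43, .ofNat 120, .ofNat 265, .ofNat 463, .ofNat 314⟩, ⟨.negSucc 51, .negSucc 1, .ofNat 6, .negSucc 62, .ofNat 13, .ofNat 2⟩, .ofNat 1827, .ofNat 2768, .ofNat 0, .ofNat 2768, .ofNat 5262, .ofNat 0, .ofNat 147, .negSucc 392, .negSucc 577, .ofNat 0, .ofNat 241, .ofNat 311, .ofNat 0, .ofNat 0, .ofNat 876, .ofNat 2653, .ofNat 0, .ofNat 0, .ofNat 279648313182383224084367199436800, .ofNat 0, .ofNat 0, .ofNat 0, .ofNat 102600848134772132512514829189120000, .ofNat 0, .ofNat 0, .ofNat 0, .ofNat 31314423477686749383783656875622400, .ofNat 0, .ofNat 0, .ofNat 0, .ofNat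 18701557955788933805966264107008000, .ofNat 0⟩)
    (by decide +kernel)
theorem L02361 : Good (Phi V4.P V4.D (-1) (-1)) ⟨5, 27, 3, 4, 4, 1, 4, 14, 2, 2⟩ :=
  leaf_sound (S := T4.ds_mm) T4.ok_mm (w := 200) (c := ⟨⟨.negSucc 567, .ofNat 62, .negSucc 56, .ofNat 336, .ofNat 367, .ofNat 217⟩, ⟨.ofNat 309, .negSucc 40, .ofNat 48, .negSucc 185, .negSucc 201, .negSucc 117⟩, ⟨.ofNat 224, .negSucc 56, .ofNat 53, .negSucc 312, .negSucc 362, .negSucc 156⟩, ⟨.negSucc 888, .ofNat 92, .negSucc 82, .ofNat 484, .ofNat 568, .ofNat 334⟩, ⟨.negSucc 49, .ofNat 4, .negSucc 3, .negSucc 45, .ofNat 19, .ofNat 8⟩, .ofNat 769, .ofNat 901, .ofNat 0, .ofNat 901, .ofNat 1883, .ofNat 0, .ofNat 241, .negSucc 381, .negSucc 847, .ofNat 0, .ofNat 273, .ofNat 432, .ofNat 0, .ofNat 0, .ofNat 1078, .ofNat 7161, .ofNat 0, .ofNat 0, .ofNat 0, .ofNat 0, .ofNat 0, .ofNat 0, .ofNat 0, .ofNat 0, .ofNat 0, .ofNat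 0, .ofNat 0, .ofNat 0, .ofNat 0, .ofNat 0, .ofNat 0, .ofNat 0⟩)
    (by decide +kernel)
theorem L02362 : Good (Phi V4.P V4.D (-1) (-1)) ⟨5, 27, 4, 8, 4, 1, 4, 15, 2, 2⟩ :=
  leaf_sound (S := T4.ds_mm) T4.ok_mm (w := 208) (c := ⟨⟨.negSucc 243, .ofNat 119, .ofNat 13, .ofNat 368, .ofNat 843, .ofNat 179⟩, ⟨.ofNat 140, .negSucc 76, .negSucc 15, .negSucc 200, .negSucc 459, .negSucc 95⟩, ⟨.negSucc 99, .negSucc 109, .negSucc 15, .negSucc 340, .negSucc 832, .negSucc 115⟩, ⟨.negSucc 385, .ofNat 169, .ofNat 14, .ofNat 544, .ofNat 1305, .ofNat 279⟩, ⟨.negSucc 39, .ofNat 6, .negSucc 1, .negSucc 28, .ofNat 41, .ofNat 9⟩, .ofNat 1769, .ofNat 2674, .ofNat 0, .ofNat 2674, .ofNat 5121, .ofNat 0, .ofNat 167, .negSucc 432, .negSucc 1006, .ofNat 0, .ofNat 266, .ofNat 538, .ofNat 0, .ofNat 0, .ofNat 1205, .ofNat 2198, .ofNat 0, .ofNat 0, .ofNat 0, .ofNat 0, .ofNat 0, .ofNat 18813770840184219679547405187327983616000,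 .ofNat 7974725405153934753370347826839552000, .ofNat 0, .ofNat 0, .ofNat 0, .ofNat 0, .ofNat 0, .ofNat 0, .ofNat 859513885510196319767034693515597787955200, .ofNat 2184940400433096400983502757874892800, .ofNat 0⟩)
    (by decide +kernel)
theorem L02363 : Good (Phi V4.P V4.D (-1) (-1)) ⟨5, 27, 4, 9, 4, 1, 4, 15, 2, 2⟩ :=
  leaf_sound (S := T4.ds_mm) T4.ok_mm (w := 208) (c := ⟨⟨.negSucc 301, .ofNat 81, .ofNat 21, .ofNat 446, .ofNat 925, .ofNat 210⟩, ⟨.ofNat 178, .negSucc 52, .negSucc 25, .negSucc 255, .negSucc 529, .negSucc 119⟩, ⟨.negSucc 43, .negSucc 75, .negSucc 17, .negSucc 418, .negSucc 912, .negSucc 146⟩, ⟨.negSucc 475, .ofNat 120, .ofNat 24, .ofNat 655, .ofNat 1417, .ofNat 322⟩, ⟨.negSucc 45, .ofNat 6, .ofNat 5, .negSucc 26, .ofNat 45, .ofNat 10⟩, .ofNat 2232, .ofNat 3401, .ofNat 0, .ofNat 3401, .ofNat 6208, .ofNat 0, .ofNat 141, .negSucc 445, .negSucc 1071, .ofNat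 0, .ofNat 275, .ofNat 600, .ofNat 0, .ofNat 0, .ofNat 1261, .ofNat 961, .ofNat 0, .ofNat 4182612887963715726772126963204934860800, .ofNat 0, .ofNat 0, .ofNat 0, .ofNat 0, .ofNat 0, .ofNat 0, .ofNat 0, .ofNat 0, .ofNat 0, .ofNat 0, .ofNat 0, .ofNat 1207890789377433458563938190304036782080000, .ofNat 2492887476745202601403240760003788800, .ofNat 0⟩)
    (by decide +kernel)
theorem L02364 : Good (Phi V4.P V4.D (-1) (-1)) ⟨5, 27, 3, 5, 4, 1, 3, 7, 2, 2⟩ :=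
  out_sound (S := T4.ds_mm) T4.ok_mm (w := 64) (j := 3) (by decide +kernel)
theorem L02365 : Good (Phi V4.P V4.D (-1) (-1)) ⟨5, 27, 2, 3, 4, 1, 3, 7, 2, 2⟩ :=
  out_sound (S := T4.ds_mm) T4.ok_mm (w := 56) (j := 3) (by decide +kernel)
theorem L02366 : Good (Phi V4.P V4.D (-1) (-1)) ⟨5, 27, 1, 1, 4, 1, 1, 0, 2, 3⟩ :=
  out_sound (S := T4.ds_mm) T4.ok_mm (w := 24) (j := 1) (by decide +kernel)
theorem L02367 : Good (Phi V4.P V4.D (-1) (-1)) ⟨5, 27, 2, 2, 4, 1, 2, 2, 2, 3⟩ :=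
  leaf_sound (S := T4.ds_mm) T4.ok_mm (w := 200) (c := ⟨⟨.negSucc 769, .negSucc 27, .ofNat 9, .ofNat 156, .ofNat 220, .ofNat 0⟩, ⟨.ofNat 406, .ofNat 40, .ofNat 31, .negSucc 85, .negSucc 118, .ofNat 0⟩, ⟨.ofNat 485, .ofNat 29, .negSucc 7, .negSucc 133, .negSucc 222, .ofNat 0⟩, ⟨.negSucc 1204, .negSucc 24, .ofNat 18, .ofNat 201, .ofNat 336, .ofNat 0⟩, ⟨.negSucc 53, .negSucc 1, .ofNat 4, .negSucc 66, .ofNat 7, .ofNat 0⟩, .ofNat 364, .ofNat 257, .ofNat 0, .ofNat 257, .ofNat 687, .ofNat 0, .ofNat 601, .negSucc 510, .negSucc 1070, .ofNat 0, .ofNat 530, .ofNat 465, .ofNat 0, .ofNat 0, .ofNat 1641, .ofNat 2481359, .ofNat 5537824094421351845582842749061527345561600, .ofNat 0, .ofNat 0, .ofNat 0, .ofNat 1582835153989019489995507678324535486054400, .ofNat 0, .ofNat 0, .ofNat 0, .ofNat 1008868850959789892712941320993214614732800, .ofNat 0, .ofNat 62634524815696857611441587775078400,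 .ofNat 0, .ofNat 2954688789235279632937462480752298111795200, .ofNat 0, .ofNat 0, .ofNat 0⟩)
    (by decide +kernel)
theorem L02368 : Good (Phi V4.P V4.D (-1) (-1)) ⟨5, 27, 2, 2, 4, 1, 3, 6, 3, 6⟩ :=
  leaf_sound (S := T4.ds_mm) T4.ok_mm (w := 200) (c := ⟨⟨.negSucc 650, .ofNat 18, .negSucc 28, .ofNat 251, .ofNat 336, .ofNat 75⟩, ⟨.ofNat 349, .ofNat 0, .ofNat 38, .negSucc 137, .negSucc 183, .negSucc 39⟩, ⟨.ofNat 362, .negSucc 16, .ofNat 28, .negSucc 230, .negSucc 331, .negSucc 53⟩, ⟨.negSucc 1021, .ofNat 32, .negSucc 40, .ofNat 348, .ofNat 520, .ofNat 115⟩, ⟨.negSucc 54, .ofNat 1, .negSucc 3, .negSucc 57, .ofNat 16, .ofNat 2⟩, .ofNat 1789, .ofNat 2708, .ofNat 0, .ofNat 2708, .ofNat 5175, .ofNat 0, .ofNat 138, .negSucc 360, .negSucc 544, .ofNat 0, .ofNat 222, .ofNat 292, .ofNat 0, .ofNat 0, .ofNat 811, .ofNat 30743, .ofNat 107409575741965227889634351153312641843200, .ofNat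 0, .ofNat 0, .ofNat 0, .ofNat 200933328201950746295016783217564424601600, .ofNat 0, .ofNat 1957493083750750389868688764934553600, .ofNat 0, .ofNat 0, .ofNat 0, .ofNat 1744523427165631218219229266522931200, .ofNat 0, .ofNat 33955811930392757725882097622197049753600, .ofNat 0, .ofNat 1210685081447232848226308428136448000, .ofNat 0⟩)
    (by decide +kernel)
theorem L02369 : Good (Phi V4.P V4.D (-1) (-1)) ⟨5, 27, 3, 4, 4, 1, 4, 14, 3, 6⟩ :=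
  leaf_sound (S := T4.ds_mm) T4.ok_mm (w := 208) (c := ⟨⟨.negSucc 377, .ofNat 35, .negSucc 24, .ofNat 355, .ofNat 368, .ofNat 78⟩, ⟨.ofNat 207, .negSucc 23, .ofNat 17, .negSucc 195, .negSucc 200, .negSucc 39⟩, ⟨.ofNat 91, .negSucc 33, .ofNat 25, .negSucc 332, .negSucc 360, .negSucc 55⟩, ⟨.negSucc 595, .ofNat 52, .negSucc 45, .ofNat 514, .ofNat 571, .ofNat 122⟩, ⟨.negSucc 45, .ofNat 7, .negSucc 9, .negSucc 44, .ofNat 22, .ofNat 4⟩, .ofNat 1853, .ofNat 2808, .ofNat 0, .ofNat 2808, .ofNat 5323, .ofNat 0, .ofNat 139, .negSucc 375, .negSucc 661, .ofNat 0, .ofNat 231, .ofNat 357, .ofNat 0, .ofNat 0, .ofNat 893, .ofNat 16632, .ofNat 0, .ofNat 0, .ofNat 0, .ofNat 0, .ofNat 2151709753469548405790733926595055268659200, .ofNat 0, .ofNat 57388170910389096092481195077114265600, .ofNat 0, .ofNat 0, .ofNat 0, .ofNat 0, .ofNat 0, .ofNat 0, .ofNat 0, .ofNat 0, .ofNat 0⟩)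
    (by decide +kernel)
theorem L02370 : Good (Phi V4.P V4.D (-1) (-1)) ⟨5, 27, 3, 4, 4, 1, 4, 15, 3, 6⟩ :=
  leaf_sound (S := T4.ds_mm) T4.ok_mm (w := 208) (c := ⟨⟨.negSucc 80, .negSucc 39, .ofNat 150, .ofNat 471, .ofNat 741, .ofNat 52⟩, ⟨.ofNat 57, .ofNat 7, .negSucc 97, .negSucc 262, .negSucc 411, .negSucc 28⟩, ⟨.negSucc 200, .ofNat 42, .negSucc 149, .negSucc 444, .negSucc 728, .negSucc 29⟩, ⟨.negSucc 131, .negSucc 80, .ofNat 228, .ofNat 699, .ofNat 1144, .ofNat 79⟩, ⟨.negSucc 33, .negSucc 8, .ofNat 14, .negSucc 24, .ofNat 40, .ofNat 1⟩, .ofNat 773, .ofNat 907, .ofNat 0, .ofNat 907, .ofNat 1889, .ofNat 0, .ofNat 223, .negSucc 353, .negSucc 895, .ofNat 0, .ofNat 254, .ofNat 457, .ofNat 0, .ofNat 0, .ofNat 1079, .ofNat 2760, .ofNat 0, .ofNat 0, .ofNat 0, .ofNat 0, .ofNat 0, .ofNat 0, .ofNat 0, .ofNat 0, .ofNat 0, .ofNat 0, .ofNat 0, .ofNat 0, .ofNat 0, .ofNat 1271738277119575396306665381553719843225600,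 .ofNat 0, .ofNat 0⟩)
    (by decide +kernel)
theorem L02371 : Good (Phi V4.P V4.D (-1) (-1)) ⟨5, 27, 3, 5, 4, 1, 3, 7, 3, 6⟩ :=
  out_sound (S := T4.ds_mm) T4.ok_mm (w := 64) (j := 3) (by decide +kernel)
theorem L02372 : Good (Phi V4.P V4.D (-1) (-1)) ⟨5, 27, 2, 2, 4, 1, 2, 3, 3, 7⟩ :=
  out_sound (S := T4.ds_mm) T4.ok_mm (w := 32) (j := 1) (by decide +kernel)
theorem L02373 : Good (Phi V4.P V4.D (-1) (-1)) ⟨5, 27, 2, 3, 4, 1, 1, 1, 2, 3⟩ :=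
  out_sound (S := T4.ds_mm) T4.ok_mm (w := 56) (j := 3) (by decide +kernel)
theorem L02374 : Good (Phi V4.P V4.D (-1) (-1)) ⟨3, 7, 1, 1, 3, 0, 0, 0, 1, 1⟩ :=
  out_sound (S := T4.ds_mm) T4.ok_mm (w := 16) (j := 4) (by decide +kernel)
theorem L02375 : Good (Phi V4.P V4.D (-1) (-1)) ⟨3, 6, 1, 1, 3, 1, 1, 0, 1, 1⟩ :=
  leaf_sound (S := T4.ds_mm) T4.ok_mm (w := 168) (c := ⟨⟨.negSucc 1224, .negSucc 44, .negSucc 68, .ofNat 122, .ofNat 369, .ofNat 615⟩, ⟨.ofNat 547, .ofNat 160, .ofNat 189, .negSucc 68, .negSucc 201, .negSucc 338⟩, ⟨.ofNat 1194, .ofNat 42, .ofNat 82, .negSucc 67, .negSucc 591, .negSucc 598⟩, ⟨.negSucc 1931, .negSucc 19, .negSucc 44, .ofNat 82, .ofNat 527, .ofNat 905⟩, ⟨.negSucc 42, .negSucc 4, .ofNat 4, .negSucc 185, .negSucc 63, .negSucc 50⟩, .ofNat 771, .ofNat 904, .ofNat 0, .ofNat 904, .ofNat 1887, .ofNat 0, .ofNat 438, .negSucc 697, .negSucc 775, .ofNat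 0, .ofNat 498, .ofNat 406, .ofNat 0, .ofNat 0, .ofNat 1638, .ofNat 20679, .ofNat 1447919118834837164857207082188800, .ofNat 0, .ofNat 0, .ofNat 0, .ofNat 68648348915723849381715949859635200, .ofNat 0, .ofNat 5329380854561436002768073523200, .ofNat 0, .ofNat 84171062529148939826432632160256000, .ofNat 0, .ofNat 2688180756659793244267846041600, .ofNat 0, .ofNat 104922368377919223484714155874713600, .ofNat 0, .ofNat 2014641901119431745979652505600, .ofNat 0⟩)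
    (by decide +kernel)
theorem L02376 : Good (Phi V4.P V4.D (-1) (-1)) ⟨3, 7, 1, 1, 3, 1, 1, 0, 1, 1⟩ :=
  out_sound (S := T4.ds_mm) T4.ok_mm (w := 16) (j := 4) (by decide +kernel)
theorem L02377 : Good (Phi V4.P V4.D (-1) (-1)) ⟨4, 12, 2, 2, 3, 1, 1, 1, 1, 1⟩ :=
  out_sound (S := T4.ds_mm) T4.ok_mm (w := 56) (j := 3) (by decide +kernel)
theorem L02378 : Good (Phi V4.P V4.D (-1) (-1)) ⟨4, 13, 2, 2, 3, 1, 2, 2, 1, 1⟩ :=
  leaf_sound (S := T4.ds_mm) T4.ok_mm (w := 176) (c := ⟨⟨.negSucc 925, .negSucc 46, .negSucc 25, .ofNat 238, .ofNat 346, .ofNat 493⟩, ⟨.ofNat 474, .ofNat 61, .ofNat 78, .negSucc 131, .negSucc 189, .negSucc 270⟩, ⟨.ofNat 667, .ofNat 50, .ofNat 17, .negSucc 199, .negSucc 396, .negSucc 420⟩, ⟨.negSucc 1471, .negSucc 61, .negSucc 38, .ofNat 251, .ofNat 528, .ofNat 740⟩, ⟨.negSucc 104, .negSucc 3, .negSucc 15, .negSucc 198, .ofNat 2, .negSucc 11⟩, .ofNat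 1838, .ofNat 2782, .ofNat 0, .ofNat 2782, .ofNat 5278, .ofNat 0, .ofNat 140, .negSucc 375, .negSucc 431, .ofNat 0, .ofNat 231, .ofNat 234, .ofNat 0, .ofNat 0, .ofNat 789, .ofNat 3679, .ofNat 57294205927279977284316360710553600, .ofNat 0, .ofNat 15415350493962160674806169600, .ofNat 0, .ofNat 1587180268842800803531692043979980800, .ofNat 0, .ofNat 10552073240036804083153108992000, .ofNat 0, .ofNat 1249564869521021250353146745585664000, .ofNat 0, .ofNat 1574167080503143145702581862400, .ofNat 0, .ofNat 0, .ofNat 0, .ofNat 0, .ofNat 0⟩)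
    (by decide +kernel)
theorem L02379 : Good (Phi V4.P V4.D (-1) (-1)) ⟨5, 26, 3, 4, 3, 1, 2, 3, 2, 2⟩ :=
  out_sound (S := T4.ds_mm) T4.ok_mm (w := 64) (j := 3) (by decide +kernel)
theorem L02380 : Good (Phi V4.P V4.D (-1) (-1)) ⟨5, 27, 4, 8, 3, 1, 3, 6, 2, 2⟩ :=
  leaf_sound (S := T4.ds_mm) T4.ok_mm (w := 192) (c := ⟨⟨.negSucc 674, .negSucc 133, .ofNat 95, .ofNat 381, .ofNat 442, .ofNat 236⟩, ⟨.ofNat 362, .ofNat 77, .negSucc 42, .negSucc 209, .negSucc 241, .negSucc 127⟩, ⟨.ofNat 359, .ofNat 104, .negSucc 76, .negSucc 338, .negSucc 441, .negSucc 181⟩, ⟨.negSucc 1092, .negSucc 191, .ofNat 136, .ofNat 478, .ofNat 689, .ofNat 362⟩, ⟨.negSucc 119, .negSucc 13, .ofNat 8, .negSucc 186, .ofNat 33, .ofNat 4⟩, .ofNat 755, .ofNat 881, .ofNat 0, .ofNat 881, .ofNat 1862, .ofNat 0, .ofNat 239, .negSucc 371, .negSucc 620, .ofNat 0, .ofNat 266, .ofNat 314, .ofNat 0, .ofNat 0, .ofNat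 910, .ofNat 6474, .ofNat 0, .ofNat 0, .ofNat 0, .ofNat 0, .ofNat 0, .ofNat 0, .ofNat 0, .ofNat 0, .ofNat 0, .ofNat 835544036693292154857369919967094374400, .ofNat 1179849856518505086262003630080000, .ofNat 0, .ofNat 0, .ofNat 842170900926967496227176012689965056000, .ofNat 535005821658439422607757200588800, .ofNat 0⟩)
    (by decide +kernel)
theorem L02381 : Good (Phi V4.P V4.D (-1) (-1)) ⟨5, 27, 4, 8, 3, 1, 3, 7, 2, 2⟩ :=
  leaf_sound (S := T4.ds_mm) T4.ok_mm (w := 192) (c := ⟨⟨.negSucc 299, .negSucc 106, .ofNat 116, .ofNat 507, .ofNat 1017, .ofNat 226⟩, ⟨.ofNat 169, .ofNat 52, .negSucc 70, .negSucc 278, .negSucc 554, .negSucc 122⟩, ⟨.negSucc 25, .ofNat 109, .negSucc 114, .negSucc 452, .negSucc 993, .negSucc 164⟩, ⟨.negSucc 503, .negSucc 190, .ofNat 177, .ofNat 688, .ofNat 1593, .ofNat 350⟩, ⟨.negSucc 104, .negSucc 23, .ofNat 13, .negSucc 152, .ofNat 87, .ofNat 14⟩,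 .ofNat 1757, .ofNat 2657, .ofNat 0, .ofNat 2657, .ofNat 5099, .ofNat 0, .ofNat 166, .negSucc 432, .negSucc 781, .ofNat 0, .ofNat 265, .ofNat 416, .ofNat 0, .ofNat 0, .ofNat 1024, .ofNat 1270, .ofNat 0, .ofNat 19313371243317035222655109034095411200, .ofNat 0, .ofNat 0, .ofNat 0, .ofNat 164978738817610475523095191844447846400, .ofNat 1732386307590730231297692873523200, .ofNat 0, .ofNat 0, .ofNat 1474689386614799552707208559987995443200, .ofNat 0, .ofNat 0, .ofNat 0, .ofNat 3346080475757256948636775625532427468800, .ofNat 276297343490035508387904906854400, .ofNat 0⟩)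
    (by decide +kernel)
theorem L02382 : Good (Phi V4.P V4.D (-1) (-1)) ⟨6, 54, 4, 9, 3, 1, 2, 3, 2, 2⟩ :=
  out_sound (S := T4.ds_mm) T4.ok_mm (w := 72) (j := 3) (by decide +kernel)
theorem L02383 : Good (Phi V4.P V4.D (-1) (-1)) ⟨7, 110, 5, 18, 3, 1, 3, 6, 2, 2⟩ :=
  leaf_sound (S := T4.ds_mm) T4.ok_mm (w := 208) (c := ⟨⟨.negSucc 679, .negSucc 61, .ofNat 94, .ofNat 431, .ofNat 468, .ofNat 235⟩, ⟨.ofNat 387, .ofNat 39, .negSucc 53, .negSucc 246, .negSucc 267, .negSucc 134⟩, ⟨.ofNat 362, .ofNat 60, .negSucc 91, .negSucc 386, .negSucc 465, .negSucc 181⟩, ⟨.negSucc 1085, .negSucc 107, .ofNat 155, .ofNat 540, .ofNat 723, .ofNat 356⟩, ⟨.negSucc 110, .negSucc 25, .ofNat 30, .negSucc 187, .ofNat 33, .ofNat 4⟩, .ofNat 5722, .ofNat 9479, .ofNat 0, .ofNat 9479, .ofNat 16817, .ofNat 0, .ofNat 81, .negSucc 422, .negSucc 577, .ofNat 0, .ofNat 249, .ofNat 328, .ofNat 0, .ofNat 0,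 .ofNat 872, .ofNat 9636, .ofNat 0, .ofNat 0, .ofNat 0, .ofNat 0, .ofNat 0, .ofNat 0, .ofNat 0, .ofNat 0, .ofNat 0, .ofNat 658214667195450985394141655636890143948800, .ofNat 402834700324691699778252177408000, .ofNat 0, .ofNat 0, .ofNat 492415573034465008761711398063179825152000, .ofNat 214940307250722783578682713702400, .ofNat 0⟩)
    (by decide +kernel)
theorem L02384 : Good (Phi V4.P V4.D (-1) (-1)) ⟨7, 110, 5, 18, 3, 1, 3, 7, 2, 2⟩ :=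
  leaf_sound (S := T4.ds_mm) T4.ok_mm (w := 208) (c := ⟨⟨.negSucc 306, .negSucc 11, .ofNat 77, .ofNat 569, .ofNat 1110, .ofNat 246⟩, ⟨.ofNat 178, .ofNat 3, .negSucc 44, .negSucc 325, .negSucc 635, .negSucc 139⟩, ⟨.negSucc 17, .ofNat 10, .negSucc 73, .negSucc 512, .negSucc 1084, .negSucc 184⟩, ⟨.negSucc 516, .negSucc 27, .ofNat 120, .ofNat 770, .ofNat 1719, .ofNat 378⟩, ⟨.negSucc 102, .negSucc 9, .ofNat 11, .negSucc 147, .ofNat 88, .ofNat 14⟩, .ofNat 15174, .ofNat 25929, .ofNat 0, .ofNat 25929, .ofNat 45453, .ofNat 0, .ofNat 56, .negSucc 458, .negSucc 782, .ofNat 0, .ofNat 267, .ofNat 448, .ofNat 0, .ofNat 0, .ofNat 1023, .ofNat 1086, .ofNat 0, .ofNat 20850474677975184195335601573927793459200, .ofNat 0, .ofNat 0, .ofNat 0, .ofNat 0, .ofNat 1339998447126391690602834454118400, .ofNat 0, .ofNat 0, .ofNat 0, .ofNat 0, .ofNat 0, .ofNat 0, .ofNat 2716831451162352299830824818490890570956800,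 .ofNat 0, .ofNat 0⟩)
    (by decide +kernel)
theorem L02385 : Good (Phi V4.P V4.D (-1) (-1)) ⟨7, 111, 5, 18, 3, 1, 2, 3, 2, 2⟩ :=
  out_sound (S := T4.ds_mm) T4.ok_mm (w := 24) (j := 4) (by decide +kernel)
theorem L02386 : Good (Phi V4.P V4.D (-1) (-1)) ⟨7, 110, 5, 19, 3, 1, 2, 3, 2, 2⟩ :=
  out_sound (S := T4.ds_mm) T4.ok_mm (w := 80) (j := 3) (by decide +kernel)
theorem L02387 : Good (Phi V4.P V4.D (-1) (-1)) ⟨7, 111, 5, 19, 3, 1, 2, 3, 2, 2⟩ :=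
  out_sound (S := T4.ds_mm) T4.ok_mm (w := 24) (j := 4) (by decide +kernel)
theorem L02388 : Good (Phi V4.P V4.D (-1) (-1)) ⟨4, 13, 3, 4, 3, 1, 3, 6, 2, 3⟩ :=
  leaf_sound (S := T4.ds_mm) T4.ok_mm (w := 184) (c := ⟨⟨.negSucc 550, .ofNat 100, .negSucc 22, .ofNat 435, .ofNat 471, .ofNat 147⟩, ⟨.ofNat 302, .negSucc 55, .ofNat 17, .negSucc 240, .negSucc 256, .negSucc 84⟩, ⟨.ofNat 278, .negSucc 95, .ofNat 22, .negSucc 391, .negSucc 463, .negSucc 110⟩, ⟨.negSucc 905, .ofNat 160, .negSucc 55, .ofNat 566, .ofNat 737, .ofNat 222⟩, ⟨.negSucc 139, .ofNat 26, .negSucc 17, .negSucc 169, .ofNat 40, .ofNat 3⟩, .ofNat 767, .ofNat 898, .ofNat 0, .ofNat 898, .ofNat 1880, .ofNat 0, .ofNat 209, .negSucc 330, .negSucc 524, .ofNat 0, .ofNat 236, .ofNat 267, .ofNat 0, .ofNat 0, .ofNat 793, .ofNat 18342, .ofNat 44432758044678335976671839098450739200, .ofNat 0, .ofNat 0, .ofNat 0, .ofNat 0,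 .ofNat 0, .ofNat 0, .ofNat 0, .ofNat 0, .ofNat 0, .ofNat 0, .ofNat 0, .ofNat 124456865420358156728192100324920524800, .ofNat 0, .ofNat 1217544711650358875418355826688000, .ofNat 0⟩)
    (by decide +kernel)
theorem L02389 : Good (Phi V4.P V4.D (-1) (-1)) ⟨4, 13, 3, 4, 3, 1, 3, 7, 2, 3⟩ :=
  leaf_sound (S := T4.ds_mm) T4.ok_mm (w := 184) (c := ⟨⟨.negSucc 17, .negSucc 69, .ofNat 113, .ofNat 537, .ofNat 847, .ofNat 115⟩, ⟨.ofNat 18, .ofNat 28, .negSucc 73, .negSucc 292, .negSucc 462, .negSucc 63⟩, ⟨.negSucc 246, .ofNat 69, .negSucc 109, .negSucc 488, .negSucc 826, .negSucc 75⟩, ⟨.negSucc 61, .negSucc 129, .ofNat 161, .ofNat 746, .ofNat 1324, .ofNat 178⟩, ⟨.negSucc 88, .negSucc 13, .ofNat 8, .negSucc 129, .ofNat 67, .ofNat 4⟩, .ofNat 762, .ofNat 892, .ofNat 0, .ofNat 892, .ofNat 1873, .ofNat 0, .ofNat 437, .negSucc 686, .negSucc 1312, .ofNat 0, .ofNat 491, .ofNat 663, .ofNat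 0, .ofNat 0, .ofNat 1774, .ofNat 6158, .ofNat 0, .ofNat 0, .ofNat 0, .ofNat 0, .ofNat 0, .ofNat 0, .ofNat 0, .ofNat 0, .ofNat 92685715963190480673876267296096256000, .ofNat 199108675483750567034040296540838297600, .ofNat 0, .ofNat 0, .ofNat 187678377896538984493155950066348851200, .ofNat 334069987480031434000973847191145676800, .ofNat 0, .ofNat 0⟩)
    (by decide +kernel)
theorem L02390 : Good (Phi V4.P V4.D (-1) (-1)) ⟨4, 13, 3, 5, 3, 1, 2, 3, 1, 1⟩ :=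
  out_sound (S := T4.ds_mm) T4.ok_mm (w := 56) (j := 3) (by decide +kernel)
theorem L02391 : Good (Phi V4.P V4.D (-1) (-1)) ⟨3, 6, 2, 3, 3, 1, 1, 1, 1, 1⟩ :=
  out_sound (S := T4.ds_mm) T4.ok_mm (w := 48) (j := 3) (by decide +kernel)
theorem L02392 : Good (Phi V4.P V4.D (-1) (-1)) ⟨3, 7, 1, 1, 3, 1, 1, 1, 1, 1⟩ :=
  out_sound (S := T4.ds_mm) T4.ok_mm (w := 16) (j := 4) (by decide +kernel)
theorem L02393 : Good (Phi V4.P V4.D (-1) (-1)) ⟨2, 2, 1, 1, 2, 1, 0, 0, 1, 1⟩ :=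
  out_sound (S := T4.ds_mm) T4.ok_mm (w := 40) (j := 3) (by decide +kernel)
theorem L02394 : Good (Phi V4.P V4.D (-1) (-1)) ⟨4, 12, 2, 2, 2, 1, 0, 0, 1, 1⟩ :=
  out_sound (S := T4.ds_mm) T4.ok_mm (w := 56) (j := 3) (by decide +kernel)
theorem L02395 : Good (Phi V4.P V4.D (-1) (-1)) ⟨5, 26, 3, 4, 2, 1, 0, 0, 1, 1⟩ :=
  out_sound (S := T4.ds_mm) T4.ok_mm (w := 64) (j := 3) (by decide +kernel)
theorem L02396 : Good (Phi V4.P V4.D (-1) (-1)) ⟨5, 27, 3, 4, 2, 1, 1, 0, 2, 2⟩ :=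
  leaf_sound (S := T4.ds_mm) T4.ok_mm (w := 176) (c := ⟨⟨.negSucc 1389, .negSucc 31, .ofNat 75, .ofNat 331, .ofNat 630, .ofNat 288⟩, ⟨.ofNat 742, .ofNat 24, .ofNat 22, .negSucc 188, .negSucc 347, .negSucc 157⟩, ⟨.ofNat 1438, .ofNat 22, .negSucc 65, .negSucc 284, .negSucc 890, .negSucc 246⟩, ⟨.negSucc 2172, .negSucc 76, .ofNat 119, .ofNat 140, .ofNat 867, .ofNat 442⟩, ⟨.negSucc 130, .negSucc 68, .ofNat 51, .negSucc 657, .negSucc 149, .ofNat 0⟩, .ofNat 1849, .ofNat 2801, .ofNat 0, .ofNat 2801, .ofNat 5310, .ofNat 0, .ofNat 142, .negSucc 390, .negSucc 358, .ofNat 0, .ofNat 239, .ofNat 197, .ofNat 0, .ofNat 0, .ofNat 793, .ofNat 3224, .ofNat 0, .ofNat 0, .ofNat 0, .ofNat 0, .ofNat 1251646009853246331405663344158310400, .ofNat 55619713680362956921172944276684800, .ofNat 25797981500120099426874163200, .ofNat 0, .ofNat 1075244979696299814698477314847539200, .ofNat 0, .ofNat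 0, .ofNat 0, .ofNat 2313585661058418304932395566812364800, .ofNat 0, .ofNat 0, .ofNat 0⟩)
    (by decide +kernel)
theorem L02397 : Good (Phi V4.P V4.D (-1) (-1)) ⟨5, 27, 4, 8, 2, 1, 2, 2, 2, 2⟩ :=
  leaf_sound (S := T4.ds_mm) T4.ok_mm (w := 176) (c := ⟨⟨.negSucc 828, .ofNat 174, .negSucc 81, .ofNat 450, .ofNat 522, .ofNat 241⟩, ⟨.ofNat 441, .negSucc 124, .ofNat 83, .negSucc 252, .negSucc 283, .negSucc 131⟩, ⟨.ofNat 610, .negSucc 181, .ofNat 85, .negSucc 400, .negSucc 575, .negSucc 196⟩, ⟨.negSucc 1408, .ofNat 245, .negSucc 139, .ofNat 323, .ofNat 794, .ofNat 365⟩, ⟨.negSucc 289, .ofNat 0, .negSucc 18, .negSucc 654, .ofNat 1, .ofNat 1⟩, .ofNat 1788, .ofNat 2707, .ofNat 0, .ofNat 2707, .ofNat 5175, .ofNat 0, .ofNat 150, .negSucc 400, .negSucc 427, .ofNat 0, .ofNat 245, .ofNat 231, .ofNat 0, .ofNat 0, .ofNat 801, .ofNat 4815, .ofNat 0, .ofNat 0, .ofNat 0, .ofNat 0, .ofNat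 6600939463309133542678032344835686400, .ofNat 3394521606836149673587606549639987200, .ofNat 198664124924554553569207910400, .ofNat 0, .ofNat 0, .ofNat 2097792664957197135689457638729318400, .ofNat 171960389404841843439855206400, .ofNat 0, .ofNat 3441709907743436653799188931700326400, .ofNat 0, .ofNat 0, .ofNat 0⟩)
    (by decide +kernel)
theorem L02398 : Good (Phi V4.P V4.D (-1) (-1)) ⟨5, 27, 4, 8, 2, 1, 2, 3, 2, 2⟩ :=
  leaf_sound (S := T4.ds_mm) T4.ok_mm (w := 184) (c := ⟨⟨.negSucc 353, .negSucc 31, .ofNat 55, .ofNat 698, .ofNat 1074, .ofNat 259⟩, ⟨.ofNat 188, .negSucc 7, .negSucc 11, .negSucc 387, .negSucc 582, .negSucc 140⟩, ⟨.ofNat 72, .ofNat 32, .negSucc 53, .negSucc 616, .negSucc 1055, .negSucc 201⟩, ⟨.negSucc 700, .negSucc 62, .ofNat 72, .ofNat 761, .ofNat 1686, .ofNat 397⟩, ⟨.negSucc 312, .negSucc 20, .ofNat 4, .negSucc 546, .ofNat 95, .ofNat 7⟩, .ofNat 1747,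 .ofNat 2639, .ofNat 0, .ofNat 2639, .ofNat 5069, .ofNat 0, .ofNat 324, .negSucc 847, .negSucc 1135, .ofNat 0, .ofNat 518, .ofNat 606, .ofNat 0, .ofNat 0, .ofNat 1753, .ofNat 2752, .ofNat 0, .ofNat 159652021953549030627139646599987200, .ofNat 0, .ofNat 0, .ofNat 0, .ofNat 10110362205937257544126041300978892800, .ofNat 1536858472315411754030569881600, .ofNat 0, .ofNat 0, .ofNat 28415548587168664470973917647024947200, .ofNat 0, .ofNat 0, .ofNat 0, .ofNat 38442508022445397265946386378627481600, .ofNat 0, .ofNat 0⟩)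
    (by decide +kernel)
theorem L02399 : Good (Phi V4.P V4.D (-1) (-1)) ⟨5, 27, 4, 9, 2, 1, 2, 2, 2, 2⟩ :=
  leaf_sound (S := T4.ds_mm) T4.ok_mm (w := 184) (c := ⟨⟨.negSucc 834, .ofNat 31, .ofNat 51, .ofNat 492, .ofNat 527, .ofNat 246⟩, ⟨.ofNat 469, .negSucc 8, .negSucc 11, .negSucc 282, .negSucc 300, .negSucc 139⟩, ⟨.ofNat 616, .negSucc 27, .negSucc 58, .negSucc 437, .negSucc 584, .negSucc 203⟩, ⟨.negSucc 1431, .ofNat 56, .ofNat 71, .ofNat 367, .ofNat 790, .ofNat 368⟩, ⟨.negSucc 316, .ofNat 27, .ofNat 6, .negSucc 649, .negSucc 1, .negSucc 2⟩, .ofNat 5786, .ofNat 9585, .ofNat 0, .ofNat 9585, .ofNat 16993, .ofNat 0, .ofNat 79, .negSucc 416, .negSucc 421, .ofNat 0, .ofNat 245, .ofNat 240, .ofNat 0, .ofNat 0, .ofNat 800, .ofNat 4318, .ofNat 0, .ofNat 0, .ofNat 0, .ofNat 0, .ofNat 1118944224479555523811905345316454400, .ofNat 2082098054810198128360093808748134400, .ofNat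 650521125840858813419854233600, .ofNat 0, .ofNat 0, .ofNat 2091696979162728591000709976870092800, .ofNat 206105053144144052716830720000, .ofNat 0, .ofNat 0, .ofNat 0, .ofNat 0, .ofNat 0⟩)
    (by decide +kernel)
theorem L02400 : Good (Phi V4.P V4.D (-1) (-1)) ⟨5, 27, 4, 9, 2, 1, 2, 3, 2, 2⟩ :=
  leaf_sound (S := T4.ds_mm) T4.ok_mm (w := 184) (c := ⟨⟨.negSucc 299, .negSucc 17, .negSucc 9, .ofNat 716, .ofNat 1107, .ofNat 259⟩, ⟨.ofNat 169, .ofNat 12, .ofNat 10, .negSucc 410, .negSucc 633, .negSucc 148⟩, ⟨.ofNat 23, .ofNat 15, .ofNat 10, .negSucc 637, .negSucc 1090, .negSucc 202⟩, ⟨.negSucc 622, .negSucc 39, .negSucc 35, .ofNat 757, .ofNat 1719, .ofNat 396⟩, ⟨.negSucc 311, .negSucc 10, .negSucc 14, .negSucc 554, .ofNat 97, .ofNat 11⟩, .ofNat 5935, .ofNat 9834, .ofNat 0, .ofNat 9834, .ofNat 17405, .ofNat 0, .ofNat 165, .negSucc 895, .negSucc 1136, .ofNat 0, .ofNat 528,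 .ofNat 647, .ofNat 0, .ofNat 0, .ofNat 1757, .ofNat 1949, .ofNat 0, .ofNat 112584841405934482351829481947136000, .ofNat 0, .ofNat 0, .ofNat 0, .ofNat 3285861771986145292114638560821248000, .ofNat 2709020411838212094839645798400, .ofNat 0, .ofNat 0, .ofNat 23310892610480871552745764604713369600, .ofNat 0, .ofNat 0, .ofNat 0, .ofNat 30395900225319666451159160082294374400, .ofNat 0, .ofNat 0⟩)
    (by decide +kernel)
theorem L02401 : Good (Phi V4.P V4.D (-1) (-1)) ⟨5, 27, 3, 4, 2, 1, 1, 0, 2, 3⟩ :=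
  out_sound (S := T4.ds_mm) T4.ok_mm (w := 24) (j := 1) (by decide +kernel)
theorem L02402 : Good (Phi V4.P V4.D (-1) (-1)) ⟨5, 27, 3, 4, 3, 2, 3, 4, 4, 12⟩ :=
  out_sound (S := T4.ds_mm) T4.ok_mm (w := 32) (j := 1) (by decide +kernel)
theorem L02403 : Good (Phi V4.P V4.D (-1) (-1)) ⟨5, 27, 3, 4, 3, 3, 3, 4, 4, 12⟩ :=
  out_sound (S := T4.ds_mm) T4.ok_mm (w := 40) (j := 2) (by decide +kernel)
theorem L02404 : Good (Phi V4.P V4.D (-1) (-1)) ⟨5, 27, 3, 4, 2, 1, 3, 4, 4, 13⟩ :=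
  out_sound (S := T4.ds_mm) T4.ok_mm (w := 32) (j := 1) (by decide +kernel)
theorem L02405 : Good (Phi V4.P V4.D (-1) (-1)) ⟨5, 27, 3, 4, 2, 1, 3, 5, 3, 6⟩ :=
  leaf_sound (S := T4.ds_mm) T4.ok_mm (w := 192) (c := ⟨⟨.negSucc 385, .ofNat 14, .ofNat 35, .ofNat 516, .ofNat 306, .ofNat 86⟩, ⟨.ofNat 205, .negSucc 14, .ofNat 6, .negSucc 287, .negSucc 168, .negSucc 44⟩, ⟨.ofNat 164, .negSucc 12, .negSucc 33, .negSucc 450, .negSucc 311, .negSucc 69⟩, ⟨.negSucc 765, .ofNat 15, .ofNat 34, .ofNat 554, .ofNat 481, .ofNat 133⟩, ⟨.negSucc 341, .ofNat 7, .negSucc 11, .negSucc 411, .ofNat 33, .ofNat 5⟩, .ofNat 366, .ofNat 261, .ofNat 0, .ofNat 261, .ofNat 688, .ofNat 0, .ofNat 2399, .negSucc 2097, .negSucc 3782, .ofNat 0, .ofNat 2133, .ofNat 1664, .ofNat 0, .ofNat 0, .ofNat 6160, .ofNat 192016, .ofNat 0, .ofNat 0, .ofNat 0, .ofNat 0, .ofNat 4553127700716359911239920235710722867200,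 .ofNat 899949310918179232101531178818443673600, .ofNat 0, .ofNat 0, .ofNat 5756702473095167131846169273601255014400, .ofNat 1352792527420983113950046597225329459200, .ofNat 0, .ofNat 0, .ofNat 237601394008416727334836818315470438400, .ofNat 798742583438503899699841701616445030400, .ofNat 0, .ofNat 0⟩)
    (by decide +kernel)
theorem L02406 : Good (Phi V4.P V4.D (-1) (-1)) ⟨5, 27, 3, 4, 2, 1, 2, 2, 3, 7⟩ :=
  out_sound (S := T4.ds_mm) T4.ok_mm (w := 24) (j := 1) (by decide +kernel)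
theorem L02407 : Good (Phi V4.P V4.D (-1) (-1)) ⟨5, 27, 3, 4, 2, 1, 2, 3, 2, 3⟩ :=
  leaf_sound (S := T4.ds_mm) T4.ok_mm (w := 184) (c := ⟨⟨.negSucc 73, .ofNat 5, .ofNat 49, .ofNat 0, .ofNat 493, .ofNat 0⟩, ⟨.ofNat 34, .negSucc 7, .negSucc 8, .ofNat 0, .negSucc 270, .ofNat 0⟩, ⟨.negSucc 154, .negSucc 2, .negSucc 49, .ofNat 0, .negSucc 492, .ofNat 0⟩, ⟨.negSucc 273, .negSucc 2, .ofNat 59, .ofNat 0, .ofNat 768, .ofNat 0⟩, ⟨.negSucc 307, .negSucc 5, .ofNat 0, .ofNat 0, .ofNat 36, .ofNat 0⟩, .ofNat 765, .ofNat 897, .ofNat 0, .ofNat 897, .ofNat 1879, .ofNat 0, .ofNat 1654, .negSucc 2630, .negSucc 3482, .ofNat 0, .ofNat 1873, .ofNat 1773, .ofNat 0, .ofNat 0, .ofNat 5955, .ofNat 196852, .ofNat 0, .ofNat 0, .ofNat 0, .ofNat 0, .ofNat 0, .ofNat 1133149883824626837800795008380017049600, .ofNat 0, .ofNat 0, .ofNat 0, .ofNat 1229099515879502770060017700720292659200, .ofNat 13187758878358392822471799603200,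 .ofNat 0, .ofNat 0, .ofNat 2025934157411878799200911391336484044800, .ofNat 0, .ofNat 0⟩)
    (by decide +kernel)
theorem L02408 : Good (Phi V4.P V4.D (-1) (-1)) ⟨4, 13, 3, 5, 2, 1, 0, 0, 1, 1⟩ :=
  out_sound (S := T4.ds_mm) T4.ok_mm (w := 56) (j := 3) (by decide +kernel)
theorem L02409 : Good (Phi V4.P V4.D (-1) (-1)) ⟨3, 6, 2, 3, 2, 1, 0, 0, 1, 1⟩ :=
  out_sound (S := T4.ds_mm) T4.ok_mm (w := 48) (j := 3) (by decide +kernel)
theorem L02410 : Good (Phi V4.P V4.D (-1) (-1)) ⟨3, 7, 1, 1, 2, 1, 0, 0, 1, 1⟩ :=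
  out_sound (S := T4.ds_mm) T4.ok_mm (w := 16) (j := 4) (by decide +kernel)
theorem L02411 : Good (Phi V4.P V4.D (-1) (-1)) ⟨2, 2, 1, 1, 1, 1, 0, 0, 1, 1⟩ :=
  out_sound (S := T4.ds_mm) T4.ok_mm (w := 40) (j := 3) (by decide +kernel)
theorem L02412 : Good (Phi V4.P V4.D (-1) (-1)) ⟨3, 6, 1, 1, 1, 1, 1, 0, 2, 2⟩ :=
  leaf_sound (S := T4.ds_mm) T4.ok_mm (w := 152) (c := ⟨⟨.negSucc 1212, .ofNat 127, .ofNat 155, .ofNat 527, .ofNat 681, .ofNat 317⟩, ⟨.ofNat 526, .ofNat 77, .ofNat 77, .negSucc 309, .negSucc 379, .negSucc 172⟩, ⟨.ofNat 1332, .negSucc 122, .negSucc 137, .negSucc 468, .negSucc 990, .negSucc 243⟩, ⟨.negSucc 2144, .ofNat 60, .ofNat 100, .negSucc 104, .ofNat 902, .ofNat 455⟩, ⟨.negSucc 695, .negSucc 82, .negSucc 68, .negSucc 1654, .negSucc 238, .negSucc 46⟩, .ofNat 365, .ofNat 260, .ofNat 0, .ofNat 260, .ofNat 688, .ofNat 0, .ofNat 700, .negSucc 640, .negSucc 747,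 .ofNat 0, .ofNat 630, .ofNat 406, .ofNat 0, .ofNat 0, .ofNat 1649, .ofNat 6605, .ofNat 0, .ofNat 0, .ofNat 0, .ofNat 0, .ofNat 12987777800565059904196942233600, .ofNat 3811927508777545566534814924800, .ofNat 161984205070874469531648000, .ofNat 0, .ofNat 0, .ofNat 5806740534650003146937676595200, .ofNat 137201280664945614992179200, .ofNat 0, .ofNat 0, .ofNat 5110305886960302788391311769600, .ofNat 195528204477982921457664000, .ofNat 0⟩)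
    (by decide +kernel)
theorem L02413 : Good (Phi V4.P V4.D (-1) (-1)) ⟨4, 12, 1, 1, 2, 2, 2, 2, 3, 4⟩ :=
  out_sound (S := T4.ds_mm) T4.ok_mm (w := 48) (j := 3) (by decide +kernel)
theorem L02414 : Good (Phi V4.P V4.D (-1) (-1)) ⟨4, 13, 2, 2, 2, 2, 2, 2, 3, 4⟩ :=
  leaf_sound (S := T4.ds_mm) T4.ok_mm (w := 184) (c := ⟨⟨.negSucc 462, .ofNat 94, .ofNat 111, .ofNat 0, .ofNat 0, .ofNat 0⟩, ⟨.ofNat 206, .negSucc 13, .ofNat 19, .ofNat 0, .ofNat 0, .ofNat 0⟩, ⟨.ofNat 285, .negSucc 88, .negSucc 100, .ofNat 0, .ofNat 0, .ofNat 0⟩, ⟨.negSucc 1185, .ofNat 66, .ofNat 72, .ofNat 0, .ofNat 0, .ofNat 0⟩, ⟨.negSucc 962, .negSucc 45, .negSucc 41, .ofNat 0, .ofNat 0, .ofNat 0⟩, .ofNat 165, .ofNat 50, .ofNat 0, .ofNat 50, .ofNat 226, .ofNat 0, .ofNat 18064, .negSucc 7964, .negSucc 27552, .ofNat 0, .ofNat 14890, .ofNat 11948, .ofNat 0, .ofNat 0, .ofNat 34631, .ofNat 723725, .ofNat 0,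 .ofNat 0, .ofNat 0, .ofNat 0, .ofNat 0, .ofNat 2074766169038039693351006674703980953600, .ofNat 4865136859036180671853806747648000, .ofNat 0, .ofNat 0, .ofNat 3839480710313562016048683239214573158400, .ofNat 5732838570077261446055209205760000, .ofNat 0, .ofNat 0, .ofNat 6555384166228479757347160200959125094400, .ofNat 0, .ofNat 0⟩)
    (by decide +kernel)
theorem L02415 : Good (Phi V4.P V4.D (-1) (-1)) ⟨4, 13, 2, 3, 2, 2, 2, 2, 3, 4⟩ :=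
  out_sound (S := T4.ds_mm) T4.ok_mm (w := 56) (j := 3) (by decide +kernel)
theorem L02416 : Good (Phi V4.P V4.D (-1) (-1)) ⟨3, 6, 1, 1, 2, 3, 2, 2, 3, 4⟩ :=
  out_sound (S := T4.ds_mm) T4.ok_mm (w := 32) (j := 2) (by decide +kernel)
theorem L02417 : Good (Phi V4.P V4.D (-1) (-1)) ⟨3, 6, 1, 1, 1, 1, 2, 2, 3, 5⟩ :=
  out_sound (S := T4.ds_mm) T4.ok_mm (w := 32) (j := 2) (by decide +kernel)
theorem L02418 : Good (Phi V4.P V4.D (-1) (-1)) ⟨3, 6, 1, 1, 1, 1, 2, 3, 2, 2⟩ :=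
  out_sound (S := T4.ds_mm) T4.ok_mm (w := 24) (j := 2) (by decide +kernel)
theorem L02419 : Good (Phi V4.P V4.D (-1) (-1)) ⟨3, 7, 1, 1, 1, 1, 0, 0, 2, 2⟩ :=
  out_sound (S := T4.ds_mm) T4.ok_mm (w := 16) (j := 4) (by decide +kernel)
theorem L02420 : Good (Phi V4.P V4.D (-1) (-1)) ⟨2, 3, 1, 1, 1, 1, 0, 0, 2, 3⟩ :=
  out_sound (S := T4.ds_mm) T4.ok_mm (w := 24) (j := 2) (by decide +kernel)

end Crest.Agent.R097C4.N4mm
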