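import Crest.Agent.R097C4.N4mm_000
import Crest.Agent.R097C4.N4mm_001
import Crest.Agent.R097C4.N4mm_002
import Crest.Agent.R097C4.N4mm_003
import Crest.Agent.R097C4.N4mm_004
import Crest.Agent.R097C4.N4mm_005
import Crest.Agent.R097C4.N4mm_006
import Crest.Agent.R097C4.N4mm_007
import Crest.Agent.R097C4.N4mm_008
import Crest.Agent.R097C4.N4mm_009
import Crest.Agent.R097C4.N4mm_010
import Crest.Agent.R097C4.N4mm_011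
import Crest.Agent.R097C4.N4mm_012
import Crest.Agent.R097C4.N4mm_013
import Crest.Agent.R097C4.N4mm_014
import Crest.Agent.R097C4.N4mm_015
import Crest.Agent.R097C4.N4mm_016
import Crest.Agent.R097C4.N4mm_017
import Crest.Agent.R097C4.N4mm_018
import Crest.Agent.R097C4.N4mm_019
import Crest.Agent.R097C4.N4mm_020
import Crest.Agent.R097C4.N4mm_021
import Crest.Agent.R097C4.N4mm_022
import Crest.Agent.R097C4.N4mm_023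
import Crest.Agent.R097C4.N4mm_024
import Crest.Agent.R097C4.N4mm_025
import Crest.Agent.R097C4.N4mm_026
import Crest.Agent.R097C4.N4mm_027

/-!
# Row 97, box cover in dimension n = 4 (generated)
-/

set_option autoImplicit false
set_option Elab.async false
set_option maxHeartbeats 0
set_option maxRecDepth 100000

open Crest.Agent.R097 Crest.Agent.R097.KA


namespace Crest.Agent.R097C4.N4mm

theorem g00000 : Good (Phi V4.P V4.D (-1) (-1)) ⟨1, 0, 1, 0, 0, 0, 2, 0, 3, 0⟩ :=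
  Good.n2 L00000 (Good.n2 (Good.n0 L00001 L00002) (Good.n2 L00003 (Good.n0 (Good.n1 L00004 L00005) L00006)))
theorem g00001 : Good (Phi V4.P V4.D (-1) (-1)) ⟨1, 0, 1, 0, 0, 0, 2, 0, 1, 0⟩ :=
  Good.n4 (Good.n4 g00000 (Good.n2 L00007 (Good.n2 L00008 (Good.n0 (Good.n1 L00009 L00010) L00011)))) (Good.n2 L00012 (Good.n4 (Good.n2 L00013 (Good.n0 L00014 L00015)) L00016))
theorem g00002 : Good (Phi V4.P V4.D (-1) (-1)) ⟨1, 0, 1, 0, 0, 0, 2, 1, 2, 0⟩ :=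
  Good.n4 (Good.n2 L00017 (Good.n2 L00018 (Good.n0 L00019 L00020))) (Good.n2 L00021 (Good.n0 (Good.n2 L00022 L00023) L00024))
theorem g00003 : Good (Phi V4.P V4.D (-1) (-1)) ⟨1, 0, 1, 0, 1, 0, 1, 1, 2, 0⟩ :=
  Good.n4 (Good.n3 L00029 (Good.n0 (Good.n3 L00030 (Good.n1 L00031 L00032)) L00033)) (Good.n0 (Good.n1 (Good.n3 L00034 L00035) (Good.n0 L00036 L00037)) (Good.n3 L00038 L00039))
theorem g00004 : Good (Phi V4.P V4.D (-1) (-1)) ⟨1, 0, 1, 0, 1, 0, 1, 1, 2, 1⟩ :=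
  Good.n0 (Good.n3 L00040 (Good.n4 (Good.n1 L00041 L00042) L00043)) (Good.n3 L00044 (Good.n1 (Good.n3 L00045 L00046) L00047))
theorem g00005 : Good (Phi V4.P V4.D (-1) (-1)) ⟨2, 0, 1, 0, 1, 1, 1, 1, 3, 0⟩ :=
  Good.n2 (Good.n1 L00048 L00049) (Good.n1 (Good.n3 L00050 (Good.n4 L00051 L00052)) (Good.n0 L00053 L00054))
theorem g00006 : Good (Phi V4.P V4.D (-1) (-1)) ⟨3, 2, 2, 0, 3, 7, 2, 3, 4, 1⟩ :=
  Good.n3 L00065 (Good.n4 (Good.n0 L00066 (Good.n1 L00067 L00068)) (Good.n0 L00069 (Good.n1 L00070 L00071)))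
theorem g00007 : Good (Phi V4.P V4.D (-1) (-1)) ⟨2, 1, 2, 0, 2, 3, 2, 3, 3, 0⟩ :=
  Good.n4 (Good.n0 (Good.n4 L00059 (Good.n2 L00060 (Good.n3 L00061 L00062))) L00063) (Good.n0 (Good.n2 L00064 g00006) (Good.n3 L00072 (Good.n2 L00073 (Good.n1 L00074 L00075))))
theorem g00008 : Good (Phi V4.P V4.D (-1) (-1)) ⟨1, 0, 1, 0, 1, 1, 1, 1, 3, 0⟩ :=
  Good.n0 g00005 (Good.n2 (Good.n3 L00055 L00056) (Good.n1 (Good.n3 (Good.n4 L00057 L00058) g00007) L00076))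
theorem g00009 : Good (Phi V4.P V4.D (-1) (-1)) ⟨2, 1, 1, 0, 2, 3, 2, 3, 3, 1⟩ :=
  Good.n1 (Good.n0 (Good.n4 (Good.n4 (Good.n2 L00085 L00086) L00087) L00088) (Good.n4 L00089 L00090)) L00091
theorem g00010 : Good (Phi V4.P V4.D (-1) (-1)) ⟨1, 0, 1, 0, 1, 1, 1, 1, 3, 1⟩ :=
  Good.n3 (Good.n0 (Good.n2 L00077 L00078) (Good.n1 L00079 L00080)) (Good.n2 (Good.n0 L00081 L00082) (Good.n0 (Good.n1 L00083 L00084) g00009))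
theorem g00011 : Good (Phi V4.P V4.D (-1) (-1)) ⟨1, 0, 1, 0, 0, 0, 1, 1, 1, 0⟩ :=
  Good.n2 (Good.n4 g00003 g00004) (Good.n4 (Good.n4 g00008 g00010) (Good.n3 (Good.n4 (Good.n2 L00092 L00093) L00094) L00095))
theorem g00012 : Good (Phi V4.P V4.D (-1) (-1)) ⟨1, 0, 1, 0, 0, 0, 0, 0, 1, 0⟩ :=
  Good.n3 (Good.n3 g00001 (Good.n4 g00002 (Good.n2 L00025 (Good.n4 (Good.n2 L00026 L00027) L00028)))) g00011
theorem g00013 : Good (Phi V4.P V4.D (-1) (-1)) ⟨1, 0, 1, 0, 1, 0, 2, 3, 3, 7⟩ :=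
  Good.n2 (Good.n4 (Good.n3 L00109 (Good.n4 (Good.n3 L00110 (Good.n2 L00111 L00112)) L00113)) L00114) L00115
theorem g00014 : Good (Phi V4.P V4.D (-1) (-1)) ⟨1, 0, 1, 0, 0, 0, 1, 1, 1, 1⟩ :=
  Good.n4 (Good.n2 (Good.n0 (Good.n3 L00100 L00101) (Good.n3 (Good.n2 L00102 L00103) L00104)) L00105) (Good.n2 (Good.n3 L00106 (Good.n4 (Good.n2 L00107 L00108) g00013)) L00116)
theorem g00015 : Good (Phi V4.P V4.D (-1) (-1)) ⟨1, 0, 0, 0, 0, 0, 0, 0, 0, 0⟩ :=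
  Good.n1 (Good.n4 g00012 (Good.n3 (Good.n4 (Good.n2 L00096 L00097) (Good.n2 L00098 L00099)) g00014)) L00117
theorem g00016 : Good (Phi V4.P V4.D (-1) (-1)) ⟨2, 2, 3, 0, 1, 0, 1, 0, 2, 0⟩ :=
  Good.n3 (Good.n4 (Good.n0 L00118 (Good.n2 L00119 L00120)) L00121) (Good.n4 (Good.n0 L00122 L00123) L00124)
theorem g00017 : Good (Phi V4.P V4.D (-1) (-1)) ⟨2, 2, 4, 0, 1, 0, 2, 3, 1, 0⟩ :=
  Good.n4 (Good.n4 (Good.n0 L00133 (Good.n0 L00134 L00135)) (Good.n0 L00136 L00137)) (Good.n4 (Good.n0 L00138 L00139) (Good.n3 L00140 L00141))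
theorem g00018 : Good (Phi V4.P V4.D (-1) (-1)) ⟨2, 2, 4, 1, 1, 0, 2, 3, 1, 0⟩ :=
  Good.n4 (Good.n0 L00142 (Good.n4 L00143 L00144)) (Good.n0 L00145 (Good.n4 L00146 (Good.n3 L00147 L00148)))
theorem g00019 : Good (Phi V4.P V4.D (-1) (-1)) ⟨1, 1, 3, 0, 1, 0, 1, 1, 1, 0⟩ :=
  Good.n0 (Good.n3 (Good.n4 (Good.n4 (Good.n0 L00129 L00130) L00131) L00132) (Good.n1 g00017 g00018)) L00149
theorem g00020 : Good (Phi V4.P V4.D (-1) (-1)) ⟨3, 5, 3, 1, 1, 0, 1, 0, 2, 0⟩ :=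
  Good.n4 (Good.n2 (Good.n3 L00151 L00152) (Good.n3 (Good.n4 L00153 L00154) L00155)) (Good.n0 L00156 (Good.n3 L00157 L00158))
theorem g00021 : Good (Phi V4.P V4.D (-1) (-1)) ⟨3, 5, 3, 1, 1, 0, 0, 0, 1, 0⟩ :=
  Good.n4 (Good.n3 g00020 (Good.n4 (Good.n0 L00159 (Good.n3 L00160 L00161)) (Good.n3 L00162 L00163))) (Good.n3 L00164 (Good.n3 L00165 (Good.n0 L00166 (Good.n3 L00167 L00168))))
theorem g00022 : Good (Phi V4.P V4.D (-1) (-1)) ⟨4, 12, 3, 1, 1, 0, 2, 0, 3, 0⟩ :=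
  Good.n2 (Good.n0 (Good.n4 L00169 L00170) (Good.n4 L00171 L00172)) (Good.n0 L00173 (Good.n1 L00174 (Good.n4 L00175 L00176)))
theorem g00023 : Good (Phi V4.P V4.D (-1) (-1)) ⟨4, 12, 3, 1, 1, 0, 1, 0, 3, 1⟩ :=
  Good.n0 (Good.n1 (Good.n3 L00181 L00182) (Good.n3 L00183 L00184)) (Good.n1 L00185 (Good.n3 L00186 L00187))
theorem g00024 : Good (Phi V4.P V4.D (-1) (-1)) ⟨3, 6, 3, 1, 1, 0, 1, 0, 2, 0⟩ :=
  Good.n4 (Good.n3 (Good.n0 g00022 L00177) (Good.n0 (Good.n4 L00178 L00179) L00180)) (Good.n0 g00023 L00188)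
theorem g00025 : Good (Phi V4.P V4.D (-1) (-1)) ⟨3, 6, 3, 1, 1, 0, 1, 1, 1, 0⟩ :=
  Good.n3 (Good.n0 (Good.n4 (Good.n4 L00192 L00193) L00194) L00195) (Good.n0 (Good.n4 (Good.n3 L00196 L00197) (Good.n4 L00198 (Good.n3 L00199 L00200))) L00201)
theorem g00026 : Good (Phi V4.P V4.D (-1) (-1)) ⟨1, 1, 3, 1, 1, 0, 0, 0, 1, 0⟩ :=
  Good.n0 (Good.n0 L00150 g00021) (Good.n3 (Good.n0 (Good.n4 g00024 (Good.n3 L00189 L00190)) L00191) (Good.n0 g00025 L00202))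
theorem g00027 : Good (Phi V4.P V4.D (-1) (-1)) ⟨1, 1, 2, 0, 1, 0, 0, 0, 1, 0⟩ :=
  Good.n1 (Good.n3 (Good.n4 (Good.n0 g00016 L00125) (Good.n0 (Good.n4 L00126 L00127) L00128)) g00019) g00026
theorem g00028 : Good (Phi V4.P V4.D (-1) (-1)) ⟨1, 1, 3, 0, 2, 2, 1, 0, 2, 0⟩ :=
  Good.n4 (Good.n0 (Good.n0 (Good.n3 L00203 L00204) (Good.n4 (Good.n3 L00205 L00206) L00207)) L00208) (Good.n0 (Good.n4 L00209 L00210) L00211)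
theorem g00029 : Good (Phi V4.P V4.D (-1) (-1)) ⟨1, 1, 4, 0, 2, 3, 1, 0, 3, 0⟩ :=
  Good.n0 (Good.n3 (Good.n0 L00212 (Good.n4 L00213 L00214)) (Good.n0 L00215 (Good.n0 L00216 L00217))) L00218
theorem g00030 : Good (Phi V4.P V4.D (-1) (-1)) ⟨1, 1, 3, 0, 2, 3, 1, 0, 3, 0⟩ :=
  Good.n1 g00029 (Good.n0 (Good.n0 L00219 (Good.n4 L00220 (Good.n0 L00221 (Good.n0 L00222 L00223)))) L00224)
theorem g00031 : Good (Phi V4.P V4.D (-1) (-1)) ⟨1, 1, 3, 0, 3, 7, 1, 0, 3, 1⟩ :=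
  Good.n0 (Good.n4 (Good.n2 (Good.n0 L00230 L00231) (Good.n0 L00232 L00233)) (Good.n0 L00234 L00235)) L00236
theorem g00032 : Good (Phi V4.P V4.D (-1) (-1)) ⟨1, 1, 3, 0, 2, 3, 1, 0, 2, 0⟩ :=
  Good.n4 g00030 (Good.n2 (Good.n0 (Good.n0 L00225 (Good.n0 L00226 (Good.n4 L00227 L00228))) L00229) g00031)
theorem g00033 : Good (Phi V4.P V4.D (-1) (-1)) ⟨2, 2, 3, 0, 1, 1, 1, 0, 2, 1⟩ :=
  Good.n4 (Good.n0 L00237 (Good.n0 (Good.n2 L00238 L00239) (Good.n2 L00240 (Good.n3 L00241 L00242)))) L00243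
theorem g00034 : Good (Phi V4.P V4.D (-1) (-1)) ⟨1, 1, 3, 1, 1, 1, 2, 0, 4, 0⟩ :=
  Good.n0 (Good.n0 L00245 (Good.n0 L00246 (Good.n2 L00247 L00248))) (Good.n0 (Good.n0 (Good.n2 L00249 L00250) L00251) L00252)
theorem g00035 : Good (Phi V4.P V4.D (-1) (-1)) ⟨1, 1, 3, 1, 2, 2, 1, 0, 4, 1⟩ :=
  Good.n0 (Good.n0 L00258 (Good.n0 L00259 (Good.n0 (Good.n3 L00260 L00261) L00262))) (Good.n0 (Good.n0 (Good.n0 (Good.n2 L00263 L00264) L00265) L00266) L00267)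
theorem g00036 : Good (Phi V4.P V4.D (-1) (-1)) ⟨3, 6, 3, 1, 2, 3, 1, 0, 4, 1⟩ :=
  Good.n0 (Good.n0 (Good.n3 L00272 L00273) (Good.n1 L00274 (Good.n0 (Good.n3 L00275 L00276) L00277))) L00278
theorem g00037 : Good (Phi V4.P V4.D (-1) (-1)) ⟨1, 1, 3, 1, 1, 1, 1, 0, 4, 1⟩ :=
  Good.n2 g00035 (Good.n0 (Good.n0 L00268 (Good.n0 L00269 (Good.n2 L00270 L00271))) (Good.n0 g00036 L00279))
theorem g00038 : Good (Phi V4.P V4.D (-1) (-1)) ⟨1, 1, 3, 1, 1, 1, 1, 0, 3, 0⟩ :=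
  Good.n4 (Good.n3 g00034 (Good.n0 L00253 (Good.n0 (Good.n0 (Good.n2 L00254 L00255) L00256) L00257))) g00037
theorem g00039 : Good (Phi V4.P V4.D (-1) (-1)) ⟨4, 12, 3, 1, 2, 3, 1, 0, 4, 2⟩ :=
  Good.n0 (Good.n3 (Good.n2 L00287 L00288) L00289) (Good.n0 (Good.n1 L00290 (Good.n3 L00291 L00292)) L00293)
theorem g00040 : Good (Phi V4.P V4.D (-1) (-1)) ⟨1, 1, 3, 1, 1, 1, 1, 0, 4, 2⟩ :=
  Good.n2 (Good.n0 (Good.n0 L00280 L00281) (Good.n0 (Good.n0 L00282 L00283) L00284)) (Good.n0 (Good.n0 L00285 L00286) (Good.n0 (Good.n0 g00039 L00294) L00295))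
theorem g00041 : Good (Phi V4.P V4.D (-1) (-1)) ⟨4, 12, 3, 1, 1, 1, 1, 0, 4, 3⟩ :=
  Good.n0 (Good.n2 L00300 (Good.n3 (Good.n2 L00301 L00302) L00303)) (Good.n0 (Good.n2 L00304 (Good.n1 L00305 (Good.n3 (Good.n2 L00306 L00307) L00308))) L00309)
theorem g00042 : Good (Phi V4.P V4.D (-1) (-1)) ⟨1, 1, 3, 1, 1, 1, 1, 0, 4, 3⟩ :=
  Good.n0 (Good.n0 L00296 (Good.n2 L00297 (Good.n3 L00298 L00299))) (Good.n0 (Good.n0 g00041 L00310) L00311)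
theorem g00043 : Good (Phi V4.P V4.D (-1) (-1)) ⟨4, 12, 3, 1, 1, 1, 1, 0, 3, 2⟩ :=
  Good.n0 (Good.n2 L00315 L00316) (Good.n1 L00317 (Good.n0 (Good.n2 L00318 (Good.n4 L00319 L00320)) L00321))
theorem g00044 : Good (Phi V4.P V4.D (-1) (-1)) ⟨1, 1, 3, 1, 1, 1, 1, 0, 2, 1⟩ :=
  Good.n0 (Good.n4 (Good.n2 L00312 L00313) L00314) (Good.n0 (Good.n0 (Good.n4 g00043 L00322) L00323) L00324)
theorem g00045 : Good (Phi V4.P V4.D (-1) (-1)) ⟨1, 1, 2, 0, 1, 1, 1, 0, 1, 0⟩ :=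
  Good.n1 (Good.n4 (Good.n2 g00028 g00032) (Good.n0 g00033 L00244)) (Good.n4 (Good.n4 g00038 (Good.n4 g00040 g00042)) g00044)
theorem g00046 : Good (Phi V4.P V4.D (-1) (-1)) ⟨2, 2, 3, 0, 1, 1, 2, 2, 3, 0⟩ :=
  Good.n2 (Good.n0 L00325 L00326) (Good.n0 L00327 (Good.n0 L00328 (Good.n0 (Good.n2 L00329 L00330) (Good.n4 L00331 L00332))))
theorem g00047 : Good (Phi V4.P V4.D (-1) (-1)) ⟨1, 1, 3, 0, 1, 1, 2, 2, 2, 0⟩ :=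
  Good.n4 (Good.n0 g00046 L00333) (Good.n0 (Good.n2 (Good.n0 L00334 L00335) (Good.n4 (Good.n0 L00336 L00337) L00338)) L00339)
theorem g00048 : Good (Phi V4.P V4.D (-1) (-1)) ⟨3, 5, 3, 0, 1, 1, 2, 3, 2, 0⟩ :=
  Good.n4 (Good.n2 L00343 (Good.n0 L00344 (Good.n2 L00345 (Good.n4 L00346 L00347)))) (Good.n2 L00348 (Good.n0 L00349 L00350))
theorem g00049 : Good (Phi V4.P V4.D (-1) (-1)) ⟨4, 11, 3, 1, 2, 3, 1, 1, 3, 0⟩ :=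
  Good.n0 (Good.n4 L00357 L00358) (Good.n3 (Good.n4 L00359 L00360) (Good.n1 (Good.n4 L00361 L00362) (Good.n4 L00363 L00364)))
theorem g00050 : Good (Phi V4.P V4.D (-1) (-1)) ⟨4, 12, 3, 1, 1, 1, 1, 1, 4, 1⟩ :=
  Good.n2 L00371 (Good.n0 (Good.n3 L00372 (Good.n1 L00373 L00374)) (Good.n1 L00375 (Good.n3 L00376 L00377)))
theorem g00051 : Good (Phi V4.P V4.D (-1) (-1)) ⟨2, 3, 3, 1, 1, 1, 1, 1, 3, 0⟩ :=
  Good.n4 (Good.n0 (Good.n0 (Good.n2 L00365 (Good.n0 (Good.n3 L00366 L00367) L00368)) L00369) L00370) (Good.n0 (Good.n0 g00050 L00378) L00379)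
theorem g00052 : Good (Phi V4.P V4.D (-1) (-1)) ⟨1, 1, 3, 1, 1, 1, 1, 1, 3, 0⟩ :=
  Good.n0 (Good.n0 L00352 (Good.n2 (Good.n3 L00353 L00354) (Good.n0 (Good.n1 L00355 L00356) g00049))) g00051
theorem g00053 : Good (Phi V4.P V4.D (-1) (-1)) ⟨1, 1, 3, 1, 2, 2, 1, 1, 3, 1⟩ :=
  Good.n0 (Good.n0 L00380 (Good.n3 L00381 L00382)) (Good.n0 (Good.n0 (Good.n0 (Good.n3 L00383 L00384) (Good.n3 L00385 L00386)) L00387) L00388)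
theorem g00054 : Good (Phi V4.P V4.D (-1) (-1)) ⟨2, 2, 3, 1, 2, 3, 1, 1, 3, 1⟩ :=
  Good.n0 L00389 (Good.n0 (Good.n1 (Good.n1 (Good.n3 L00390 L00391) L00392) L00393) (Good.n3 L00394 L00395))
theorem g00055 : Good (Phi V4.P V4.D (-1) (-1)) ⟨1, 1, 3, 1, 1, 1, 1, 1, 3, 1⟩ :=
  Good.n2 g00053 (Good.n0 g00054 (Good.n0 (Good.n0 (Good.n3 (Good.n4 L00396 L00397) L00398) L00399) L00400))
theorem g00056 : Good (Phi V4.P V4.D (-1) (-1)) ⟨1, 1, 2, 0, 1, 1, 1, 1, 2, 0⟩ :=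
  Good.n1 (Good.n3 g00047 (Good.n0 (Good.n0 (Good.n4 (Good.n2 L00340 L00341) L00342) g00048) L00351)) (Good.n4 g00052 g00055)
theorem g00057 : Good (Phi V4.P V4.D (-1) (-1)) ⟨1, 1, 2, 0, 1, 1, 1, 1, 2, 1⟩ :=
  Good.n0 (Good.n4 (Good.n3 (Good.n2 L00401 L00402) L00403) L00404) (Good.n0 (Good.n3 L00405 L00406) L00407)
theorem g00058 : Good (Phi V4.P V4.D (-1) (-1)) ⟨4, 13, 2, 1, 2, 0, 2, 0, 3, 0⟩ :=
  Good.n0 (Good.n1 (Good.n4 L00413 L00414) (Good.n4 (Good.n3 L00415 L00416) (Good.n3 L00417 L00418))) (Good.n1 L00419 (Good.n4 (Good.n1 L00420 (Good.n2 L00421 L00422)) (Good.n1 L00423 L00424)))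
theorem g00059 : Good (Phi V4.P V4.D (-1) (-1)) ⟨1, 1, 2, 1, 2, 0, 2, 0, 3, 0⟩ :=
  Good.n0 L00408 (Good.n0 (Good.n0 (Good.n4 (Good.n1 L00409 (Good.n0 L00410 L00411)) L00412) g00058) L00425)
theorem g00060 : Good (Phi V4.P V4.D (-1) (-1)) ⟨3, 6, 2, 1, 2, 0, 1, 0, 3, 1⟩ :=
  Good.n0 (Good.n3 (Good.n4 (Good.n1 L00431 L00432) L00433) L00434) (Good.n1 L00435 (Good.n3 L00436 L00437))
theorem g00061 : Good (Phi V4.P V4.D (-1) (-1)) ⟨1, 1, 2, 1, 2, 0, 1, 0, 2, 0⟩ :=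
  Good.n4 (Good.n3 g00059 (Good.n0 L00426 (Good.n0 (Good.n4 L00427 L00428) L00429))) (Good.n0 L00430 (Good.n0 g00060 L00438))
theorem g00062 : Good (Phi V4.P V4.D (-1) (-1)) ⟨3, 6, 2, 1, 2, 1, 2, 0, 4, 0⟩ :=
  Good.n2 (Good.n0 L00445 (Good.n0 L00446 (Good.n1 L00447 (Good.n1 L00448 L00449)))) (Good.n0 L00450 (Good.n0 L00451 L00452))
theorem g00063 : Good (Phi V4.P V4.D (-1) (-1)) ⟨4, 13, 2, 1, 2, 1, 2, 0, 4, 1⟩ :=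
  Good.n0 (Good.n1 L00455 (Good.n3 L00456 L00457)) (Good.n1 L00458 (Good.n1 L00459 (Good.n3 (Good.n0 L00460 L00461) L00462)))
theorem g00064 : Good (Phi V4.P V4.D (-1) (-1)) ⟨4, 13, 2, 1, 2, 1, 2, 1, 3, 0⟩ :=
  Good.n0 (Good.n1 L00466 (Good.n4 L00467 L00468)) (Good.n1 L00469 (Good.n1 L00470 (Good.n4 L00471 L00472)))
theorem g00065 : Good (Phi V4.P V4.D (-1) (-1)) ⟨2, 3, 2, 1, 2, 1, 1, 0, 3, 0⟩ :=
  Good.n3 (Good.n0 (Good.n4 g00062 (Good.n0 (Good.n3 L00453 L00454) g00063)) L00463) (Good.n0 (Good.n0 (Good.n1 L00464 L00465) g00064) L00473)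
theorem g00066 : Good (Phi V4.P V4.D (-1) (-1)) ⟨4, 12, 3, 2, 2, 1, 1, 0, 3, 1⟩ :=
  Good.n0 (Good.n3 L00474 L00475) (Good.n1 (Good.n3 L00476 L00477) (Good.n0 (Good.n3 L00478 L00479) (Good.n3 L00480 L00481)))
theorem g00067 : Good (Phi V4.P V4.D (-1) (-1)) ⟨5, 26, 2, 1, 2, 1, 1, 0, 3, 1⟩ :=
  Good.n1 (Good.n3 L00484 L00485) (Good.n1 (Good.n3 L00486 L00487) (Good.n0 (Good.n3 L00488 L00489) (Good.n4 L00490 L00491)))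
theorem g00068 : Good (Phi V4.P V4.D (-1) (-1)) ⟨3, 6, 2, 1, 2, 1, 1, 0, 3, 1⟩ :=
  Good.n0 (Good.n1 g00066 (Good.n3 L00482 L00483)) (Good.n0 g00067 (Good.n1 L00492 (Good.n1 L00493 (Good.n0 (Good.n3 L00494 L00495) L00496))))
theorem g00069 : Good (Phi V4.P V4.D (-1) (-1)) ⟨1, 1, 2, 1, 2, 1, 1, 0, 1, 0⟩ :=
  Good.n4 (Good.n0 L00444 (Good.n4 g00065 (Good.n0 g00068 L00497))) (Good.n0 L00498 (Good.n0 (Good.n0 L00499 (Good.n4 L00500 L00501)) L00502))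
theorem g00070 : Good (Phi V4.P V4.D (-1) (-1)) ⟨1, 1, 2, 1, 1, 0, 1, 0, 1, 0⟩ :=
  Good.n2 (Good.n4 g00061 (Good.n0 L00439 (Good.n0 (Good.n0 L00440 (Good.n3 L00441 L00442)) L00443))) g00069
theorem g00071 : Good (Phi V4.P V4.D (-1) (-1)) ⟨1, 1, 3, 2, 1, 0, 2, 2, 2, 0⟩ :=
  Good.n0 L00503 (Good.n0 (Good.n0 (Good.n4 L00504 L00505) (Good.n0 (Good.n4 L00506 L00507) L00508)) L00509)
theorem g00072 : Good (Phi V4.P V4.D (-1) (-1)) ⟨3, 6, 3, 2, 1, 0, 2, 3, 2, 0⟩ :=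
  Good.n0 (Good.n4 (Good.n3 L00511 L00512) (Good.n0 L00513 L00514)) (Good.n0 (Good.n1 L00515 L00516) L00517)
theorem g00073 : Good (Phi V4.P V4.D (-1) (-1)) ⟨3, 6, 3, 3, 1, 0, 2, 2, 2, 0⟩ :=
  Good.n4 (Good.n0 L00520 (Good.n2 L00521 (Good.n0 (Good.n4 L00522 L00523) (Good.n1 L00524 L00525)))) (Good.n0 L00526 L00527)
theorem g00074 : Good (Phi V4.P V4.D (-1) (-1)) ⟨3, 6, 3, 3, 1, 0, 2, 3, 3, 0⟩ :=
  Good.n3 (Good.n0 L00528 (Good.n0 L00529 L00530)) (Good.n0 L00531 (Good.n0 (Good.n1 L00532 L00533) (Good.n1 L00534 L00535)))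
theorem g00075 : Good (Phi V4.P V4.D (-1) (-1)) ⟨3, 6, 3, 3, 1, 0, 2, 3, 3, 1⟩ :=
  Good.n0 L00536 (Good.n0 (Good.n3 L00537 L00538) (Good.n1 L00539 (Good.n0 (Good.n3 L00540 L00541) L00542)))
theorem g00076 : Good (Phi V4.P V4.D (-1) (-1)) ⟨1, 1, 2, 1, 1, 0, 1, 1, 2, 0⟩ :=
  Good.n1 (Good.n3 g00071 (Good.n0 L00510 (Good.n0 g00072 L00518))) (Good.n0 L00519 (Good.n0 (Good.n3 g00073 (Good.n4 g00074 g00075)) L00543))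
theorem g00077 : Good (Phi V4.P V4.D (-1) (-1)) ⟨3, 6, 2, 1, 1, 0, 2, 2, 2, 1⟩ :=
  Good.n0 L00545 (Good.n1 L00546 (Good.n4 L00547 (Good.n0 L00548 (Good.n1 L00549 (Good.n2 L00550 L00551)))))
theorem g00078 : Good (Phi V4.P V4.D (-1) (-1)) ⟨4, 13, 3, 3, 2, 0, 3, 7, 2, 1⟩ :=
  Good.n4 (Good.n0 L00559 (Good.n1 L00560 L00561)) (Good.n0 (Good.n1 L00562 L00563) (Good.n1 L00564 L00565))
theorem g00079 : Good (Phi V4.P V4.D (-1) (-1)) ⟨2, 3, 2, 1, 2, 0, 2, 3, 2, 1⟩ :=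
  Good.n3 (Good.n0 L00554 L00555) (Good.n0 (Good.n0 (Good.n1 L00556 L00557) (Good.n1 L00558 g00078)) L00566)
theorem g00080 : Good (Phi V4.P V4.D (-1) (-1)) ⟨4, 13, 2, 1, 2, 1, 2, 3, 2, 1⟩ :=
  Good.n1 L00571 (Good.n4 (Good.n3 L00572 (Good.n0 L00573 (Good.n1 L00574 L00575))) (Good.n3 L00576 L00577))
theorem g00081 : Good (Phi V4.P V4.D (-1) (-1)) ⟨1, 1, 2, 1, 1, 0, 2, 3, 2, 1⟩ :=
  Good.n2 (Good.n0 L00553 g00079) (Good.n0 L00567 (Good.n0 (Good.n0 (Good.n1 (Good.n3 L00568 L00569) L00570) g00080) L00578))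
theorem g00082 : Good (Phi V4.P V4.D (-1) (-1)) ⟨3, 6, 3, 2, 2, 2, 1, 0, 4, 0⟩ :=
  Good.n0 (Good.n0 (Good.n1 L00580 L00581) (Good.n2 L00582 L00583)) (Good.n0 (Good.n3 L00584 L00585) L00586)
theorem g00083 : Good (Phi V4.P V4.D (-1) (-1)) ⟨4, 13, 3, 2, 2, 2, 1, 0, 4, 1⟩ :=
  Good.n0 (Good.n0 (Good.n1 L00593 (Good.n0 (Good.n1 L00594 (Good.n2 L00595 L00596)) L00597)) L00598) L00599
theorem g00084 : Good (Phi V4.P V4.D (-1) (-1)) ⟨3, 6, 3, 2, 2, 2, 1, 0, 4, 1⟩ :=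
  Good.n0 (Good.n0 (Good.n1 (Good.n2 L00587 (Good.n3 L00588 L00589)) L00590) (Good.n3 L00591 L00592)) g00083
theorem g00085 : Good (Phi V4.P V4.D (-1) (-1)) ⟨3, 6, 3, 2, 2, 3, 2, 0, 3, 0⟩ :=
  Good.n0 (Good.n4 L00600 (Good.n0 (Good.n2 L00601 L00602) (Good.n2 L00603 L00604))) (Good.n0 (Good.n0 (Good.n1 L00605 (Good.n4 L00606 L00607)) L00608) L00609)
theorem g00086 : Good (Phi V4.P V4.D (-1) (-1)) ⟨3, 6, 3, 2, 2, 3, 2, 1, 3, 0⟩ :=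
  Good.n0 (Good.n4 L00610 L00611) (Good.n0 (Good.n0 (Good.n1 L00612 (Good.n4 L00613 L00614)) L00615) L00616)
theorem g00087 : Good (Phi V4.P V4.D (-1) (-1)) ⟨3, 6, 3, 2, 2, 2, 1, 0, 3, 1⟩ :=
  Good.n0 (Good.n0 (Good.n3 L00617 L00618) (Good.n4 (Good.n3 L00619 L00620) (Good.n3 L00621 L00622))) (Good.n0 (Good.n0 (Good.n1 L00623 (Good.n3 L00624 L00625)) L00626) L00627)
theorem g00088 : Good (Phi V4.P V4.D (-1) (-1)) ⟨3, 6, 3, 2, 2, 3, 2, 0, 4, 2⟩ :=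
  Good.n4 (Good.n0 (Good.n2 L00628 L00629) (Good.n0 L00630 L00631)) (Good.n2 (Good.n0 L00632 L00633) (Good.n0 L00634 L00635))
theorem g00089 : Good (Phi V4.P V4.D (-1) (-1)) ⟨5, 25, 3, 2, 2, 3, 2, 0, 4, 3⟩ :=
  Good.n1 (Good.n0 (Good.n2 L00642 L00643) (Good.n2 L00644 L00645)) (Good.n0 (Good.n2 L00646 L00647) (Good.n2 L00648 L00649))
theorem g00090 : Good (Phi V4.P V4.D (-1) (-1)) ⟨3, 6, 3, 2, 2, 3, 1, 0, 4, 3⟩ :=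
  Good.n0 (Good.n0 (Good.n3 (Good.n1 (Good.n2 L00638 L00639) L00640) L00641) (Good.n3 g00089 L00650)) (Good.n2 L00651 (Good.n0 (Good.n1 L00652 (Good.n0 (Good.n1 L00653 L00654) L00655)) L00656))
theorem g00091 : Good (Phi V4.P V4.D (-1) (-1)) ⟨3, 6, 3, 2, 1, 1, 1, 0, 2, 0⟩ :=
  Good.n4 (Good.n2 (Good.n4 g00082 g00084) (Good.n3 g00085 g00086)) (Good.n2 g00087 (Good.n4 (Good.n3 g00088 (Good.n0 L00636 L00637)) g00090))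
theorem g00092 : Good (Phi V4.P V4.D (-1) (-1)) ⟨4, 13, 3, 3, 3, 5, 2, 0, 3, 0⟩ :=
  Good.n0 (Good.n4 L00664 (Good.n0 L00665 L00666)) (Good.n0 (Good.n1 L00667 (Good.n4 L00668 L00669)) L00670)
theorem g00093 : Good (Phi V4.P V4.D (-1) (-1)) ⟨4, 13, 3, 3, 2, 2, 2, 0, 3, 1⟩ :=
  Good.n0 (Good.n4 L00672 L00673) (Good.n0 (Good.n1 L00674 (Good.n1 L00675 (Good.n4 L00676 L00677))) L00678)
theorem g00094 : Good (Phi V4.P V4.D (-1) (-1)) ⟨3, 6, 3, 3, 2, 2, 2, 0, 2, 0⟩ :=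
  Good.n4 (Good.n2 (Good.n0 L00659 (Good.n4 L00660 (Good.n0 L00661 L00662))) (Good.n0 L00663 g00092)) (Good.n0 L00671 g00093)
theorem g00095 : Good (Phi V4.P V4.D (-1) (-1)) ⟨5, 26, 3, 3, 2, 3, 2, 0, 4, 1⟩ :=
  Good.n2 (Good.n0 L00687 (Good.n1 (Good.n4 L00688 L00689) (Good.n4 L00690 L00691))) (Good.n0 (Good.n4 L00692 L00693) (Good.n4 (Good.n1 L00694 L00695) (Good.n1 L00696 L00697)))
theorem g00096 : Good (Phi V4.P V4.D (-1) (-1)) ⟨6, 54, 4, 7, 2, 3, 2, 0, 4, 1⟩ :=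
  Good.n0 (Good.n1 L00702 (Good.n2 (Good.n0 (Good.n1 L00703 L00704) L00705) (Good.n0 L00706 L00707))) L00708
theorem g00097 : Good (Phi V4.P V4.D (-1) (-1)) ⟨4, 13, 3, 3, 2, 3, 2, 0, 3, 0⟩ :=
  Good.n0 (Good.n4 (Good.n2 L00685 L00686) g00095) (Good.n1 L00698 (Good.n0 (Good.n4 (Good.n1 L00699 (Good.n2 L00700 L00701)) g00096) L00709))
theorem g00098 : Good (Phi V4.P V4.D (-1) (-1)) ⟨3, 6, 3, 3, 2, 3, 2, 0, 3, 0⟩ :=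
  Good.n0 (Good.n0 L00679 (Good.n1 (Good.n0 L00680 (Good.n4 L00681 (Good.n2 L00682 L00683))) L00684)) g00097
theorem g00099 : Good (Phi V4.P V4.D (-1) (-1)) ⟨4, 13, 3, 3, 2, 3, 3, 0, 3, 1⟩ :=
  Good.n0 (Good.n4 (Good.n2 L00712 (Good.n1 L00713 L00714)) L00715) (Good.n1 L00716 (Good.n4 (Good.n0 (Good.n2 L00717 L00718) L00719) L00720))
theorem g00100 : Good (Phi V4.P V4.D (-1) (-1)) ⟨3, 6, 3, 3, 2, 3, 3, 1, 3, 1⟩ :=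
  Good.n0 L00721 (Good.n4 (Good.n2 L00722 L00723) (Good.n0 L00724 (Good.n1 L00725 (Good.n0 L00726 L00727))))
theorem g00101 : Good (Phi V4.P V4.D (-1) (-1)) ⟨5, 27, 3, 3, 2, 2, 2, 1, 3, 0⟩ :=
  Good.n0 (Good.n1 L00734 (Good.n1 L00735 (Good.n0 (Good.n0 (Good.n4 L00736 L00737) L00738) L00739))) L00740
theorem g00102 : Good (Phi V4.P V4.D (-1) (-1)) ⟨3, 6, 3, 3, 2, 2, 2, 1, 3, 0⟩ :=
  Good.n0 (Good.n0 L00728 (Good.n4 L00729 L00730)) (Good.n0 (Good.n4 L00731 (Good.n4 L00732 L00733)) g00101)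
theorem g00103 : Good (Phi V4.P V4.D (-1) (-1)) ⟨4, 13, 3, 3, 2, 3, 2, 1, 3, 0⟩ :=
  Good.n0 (Good.n4 (Good.n0 L00746 L00747) (Good.n0 L00748 (Good.n1 L00749 L00750))) (Good.n0 (Good.n1 L00751 (Good.n1 L00752 (Good.n4 L00753 L00754))) L00755)
theorem g00104 : Good (Phi V4.P V4.D (-1) (-1)) ⟨3, 6, 3, 3, 1, 1, 2, 1, 3, 0⟩ :=
  Good.n2 g00102 (Good.n0 (Good.n0 L00741 (Good.n1 (Good.n0 L00742 (Good.n4 L00743 L00744)) L00745)) g00103)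
theorem g00105 : Good (Phi V4.P V4.D (-1) (-1)) ⟨4, 13, 3, 3, 2, 3, 2, 1, 3, 1⟩ :=
  Good.n0 (Good.n4 (Good.n0 L00763 (Good.n1 L00764 L00765)) L00766) (Good.n0 (Good.n1 L00767 (Good.n1 L00768 L00769)) L00770)
theorem g00106 : Good (Phi V4.P V4.D (-1) (-1)) ⟨3, 6, 3, 3, 1, 1, 2, 1, 3, 1⟩ :=
  Good.n2 (Good.n0 L00756 (Good.n0 (Good.n4 L00757 L00758) (Good.n0 (Good.n1 L00759 L00760) L00761))) (Good.n0 L00762 g00105)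
theorem g00107 : Good (Phi V4.P V4.D (-1) (-1)) ⟨3, 6, 3, 3, 1, 1, 1, 0, 2, 0⟩ :=
  Good.n3 (Good.n2 g00094 (Good.n4 g00098 (Good.n3 (Good.n0 (Good.n2 L00710 L00711) g00099) g00100))) (Good.n4 g00104 g00106)
theorem g00108 : Good (Phi V4.P V4.D (-1) (-1)) ⟨4, 13, 2, 1, 2, 2, 1, 0, 2, 1⟩ :=
  Good.n4 (Good.n0 (Good.n3 L00776 L00777) (Good.n1 L00778 (Good.n1 L00779 (Good.n3 L00780 L00781)))) L00782
theorem g00109 : Good (Phi V4.P V4.D (-1) (-1)) ⟨4, 12, 2, 1, 2, 3, 1, 0, 4, 4⟩ :=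
  Good.n1 (Good.n0 (Good.n1 L00784 L00785) (Good.n1 (Good.n2 L00786 L00787) (Good.n3 L00788 L00789))) (Good.n1 (Good.n0 L00790 (Good.n0 L00791 (Good.n2 L00792 L00793))) L00794)
theorem g00110 : Good (Phi V4.P V4.D (-1) (-1)) ⟨5, 26, 3, 3, 2, 3, 1, 0, 4, 4⟩ :=
  Good.n1 (Good.n2 L00798 L00799) (Good.n0 (Good.n0 L00800 (Good.n2 L00801 L00802)) (Good.n3 (Good.n2 L00803 L00804) L00805))
theorem g00111 : Good (Phi V4.P V4.D (-1) (-1)) ⟨4, 13, 2, 1, 2, 3, 1, 0, 4, 4⟩ :=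
  Good.n1 (Good.n0 (Good.n1 L00795 L00796) L00797) (Good.n0 g00110 (Good.n1 L00806 (Good.n3 (Good.n2 L00807 L00808) L00809)))
theorem g00112 : Good (Phi V4.P V4.D (-1) (-1)) ⟨2, 3, 2, 1, 2, 3, 1, 0, 2, 1⟩ :=
  Good.n0 (Good.n4 (Good.n4 (Good.n0 g00109 g00111) (Good.n3 (Good.n0 L00810 L00811) L00812)) L00813) L00814
theorem g00113 : Good (Phi V4.P V4.D (-1) (-1)) ⟨1, 1, 2, 1, 1, 1, 1, 0, 2, 1⟩ :=
  Good.n0 L00772 (Good.n2 (Good.n0 (Good.n0 (Good.n4 (Good.n1 L00773 L00774) L00775) g00108) L00783) g00112)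
theorem g00114 : Good (Phi V4.P V4.D (-1) (-1)) ⟨1, 1, 2, 1, 1, 1, 1, 0, 1, 0⟩ :=
  Good.n4 (Good.n1 (Good.n0 L00579 (Good.n0 g00091 L00657)) (Good.n0 L00658 (Good.n0 g00107 L00771))) g00113
theorem g00115 : Good (Phi V4.P V4.D (-1) (-1)) ⟨3, 6, 3, 2, 1, 1, 2, 2, 4, 1⟩ :=
  Good.n1 (Good.n0 (Good.n0 L00821 (Good.n2 L00822 L00823)) L00824) (Good.n0 (Good.n2 L00825 L00826) (Good.n2 L00827 L00828))
theorem g00116 : Good (Phi V4.P V4.D (-1) (-1)) ⟨2, 3, 3, 2, 1, 1, 2, 2, 3, 0⟩ :=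
  Good.n0 (Good.n4 (Good.n0 (Good.n2 L00816 (Good.n0 L00817 L00818)) (Good.n0 L00819 L00820)) g00115) L00829
theorem g00117 : Good (Phi V4.P V4.D (-1) (-1)) ⟨4, 12, 3, 2, 2, 3, 2, 3, 3, 0⟩ :=
  Good.n0 (Good.n1 (Good.n4 L00833 L00834) L00835) (Good.n2 (Good.n1 L00836 L00837) (Good.n4 L00838 L00839))
theorem g00118 : Good (Phi V4.P V4.D (-1) (-1)) ⟨4, 13, 3, 2, 2, 3, 2, 3, 3, 0⟩ :=
  Good.n0 (Good.n1 L00840 (Good.n0 (Good.n1 L00841 (Good.n2 L00842 (Good.n4 L00843 L00844))) L00845)) L00846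
theorem g00119 : Good (Phi V4.P V4.D (-1) (-1)) ⟨2, 3, 3, 2, 1, 1, 1, 1, 3, 0⟩ :=
  Good.n3 g00116 (Good.n2 (Good.n0 (Good.n0 L00830 L00831) L00832) (Good.n0 (Good.n0 g00117 g00118) L00847))
theorem g00120 : Good (Phi V4.P V4.D (-1) (-1)) ⟨3, 6, 3, 2, 1, 1, 2, 3, 4, 2⟩ :=
  Good.n0 (Good.n2 L00853 (Good.n0 L00854 L00855)) (Good.n0 (Good.n1 L00856 (Good.n2 L00857 L00858)) L00859)
theorem g00121 : Good (Phi V4.P V4.D (-1) (-1)) ⟨2, 3, 3, 2, 1, 1, 1, 1, 4, 2⟩ :=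
  Good.n3 (Good.n0 (Good.n0 (Good.n2 L00848 L00849) (Good.n2 L00850 L00851)) L00852) (Good.n0 g00120 L00860)
theorem g00122 : Good (Phi V4.P V4.D (-1) (-1)) ⟨3, 6, 3, 2, 1, 1, 1, 1, 4, 3⟩ :=
  Good.n0 (Good.n2 (Good.n3 L00861 L00862) (Good.n0 L00863 (Good.n3 L00864 L00865))) (Good.n0 (Good.n0 (Good.n1 L00866 (Good.n2 L00867 (Good.n3 L00868 L00869))) L00870) L00871)
theorem g00123 : Good (Phi V4.P V4.D (-1) (-1)) ⟨3, 6, 4, 6, 2, 3, 1, 1, 4, 0⟩ :=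
  Good.n0 (Good.n0 L00878 (Good.n0 L00879 (Good.n1 (Good.n3 L00880 L00881) L00882))) (Good.n0 (Good.n0 (Good.n2 L00883 L00884) (Good.n3 L00885 L00886)) L00887)
theorem g00124 : Good (Phi V4.P V4.D (-1) (-1)) ⟨3, 6, 4, 6, 1, 1, 2, 3, 4, 1⟩ :=
  Good.n2 (Good.n0 L00894 (Good.n0 L00895 L00896)) (Good.n0 L00897 (Good.n0 (Good.n0 (Good.n4 L00898 L00899) L00900) L00901))
theorem g00125 : Good (Phi V4.P V4.D (-1) (-1)) ⟨2, 3, 4, 6, 1, 1, 1, 1, 4, 1⟩ :=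
  Good.n0 (Good.n3 (Good.n0 (Good.n2 L00889 L00890) (Good.n0 (Good.n2 L00891 L00892) L00893)) g00124) L00902
theorem g00126 : Good (Phi V4.P V4.D (-1) (-1)) ⟨2, 3, 4, 6, 1, 1, 1, 1, 3, 0⟩ :=
  Good.n4 (Good.n2 (Good.n0 (Good.n0 L00874 (Good.n0 L00875 L00876)) L00877) (Good.n0 g00123 L00888)) g00125
theorem g00127 : Good (Phi V4.P V4.D (-1) (-1)) ⟨3, 6, 4, 6, 2, 2, 1, 1, 3, 1⟩ :=
  Good.n0 (Good.n0 L00903 (Good.n0 L00904 (Good.n1 (Good.n3 L00905 L00906) L00907))) (Good.n0 (Good.n0 (Good.n3 L00908 L00909) (Good.n3 L00910 L00911)) L00912)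
theorem g00128 : Good (Phi V4.P V4.D (-1) (-1)) ⟨5, 26, 4, 6, 2, 3, 1, 1, 3, 1⟩ :=
  Good.n0 (Good.n4 (Good.n3 L00919 (Good.n3 L00920 L00921)) (Good.n3 L00922 L00923)) (Good.n1 L00924 (Good.n4 (Good.n0 (Good.n3 L00925 L00926) L00927) (Good.n3 L00928 L00929)))
theorem g00129 : Good (Phi V4.P V4.D (-1) (-1)) ⟨3, 6, 4, 6, 2, 3, 1, 1, 3, 1⟩ :=
  Good.n0 (Good.n0 L00914 (Good.n0 L00915 (Good.n3 L00916 (Good.n3 L00917 L00918)))) (Good.n0 g00128 L00930)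
theorem g00130 : Good (Phi V4.P V4.D (-1) (-1)) ⟨4, 13, 4, 7, 2, 2, 2, 2, 3, 0⟩ :=
  Good.n0 (Good.n0 L00934 (Good.n4 L00935 L00936)) (Good.n0 (Good.n1 L00937 (Good.n0 (Good.n4 L00938 L00939) L00940)) L00941)
theorem g00131 : Good (Phi V4.P V4.D (-1) (-1)) ⟨5, 26, 4, 7, 2, 3, 2, 2, 3, 0⟩ :=
  Good.n0 (Good.n0 L00942 (Good.n1 (Good.n4 L00943 L00944) L00945)) (Good.n4 (Good.n2 L00946 L00947) L00948)
theorem g00132 : Good (Phi V4.P V4.D (-1) (-1)) ⟨4, 13, 4, 7, 2, 3, 2, 2, 3, 0⟩ :=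
  Good.n0 g00131 (Good.n0 (Good.n0 (Good.n1 L00949 (Good.n4 (Good.n2 L00950 L00951) L00952)) L00953) L00954)
theorem g00133 : Good (Phi V4.P V4.D (-1) (-1)) ⟨4, 13, 4, 7, 1, 1, 2, 2, 3, 1⟩ :=
  Good.n0 (Good.n2 L00956 L00957) (Good.n0 (Good.n1 L00958 (Good.n0 (Good.n2 L00959 L00960) L00961)) L00962)
theorem g00134 : Good (Phi V4.P V4.D (-1) (-1)) ⟨1, 1, 4, 7, 1, 1, 2, 2, 2, 0⟩ :=
  Good.n0 L00932 (Good.n0 (Good.n4 (Good.n0 L00933 (Good.n2 g00130 g00132)) (Good.n0 L00955 g00133)) L00963)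
theorem g00135 : Good (Phi V4.P V4.D (-1) (-1)) ⟨4, 13, 4, 7, 2, 2, 2, 3, 2, 0⟩ :=
  Good.n0 (Good.n4 (Good.n0 L00966 (Good.n1 L00967 L00968)) (Good.n3 L00969 L00970)) (Good.n0 (Good.n4 (Good.n1 L00971 L00972) (Good.n1 L00973 (Good.n3 L00974 L00975))) L00976)
theorem g00136 : Good (Phi V4.P V4.D (-1) (-1)) ⟨5, 26, 4, 7, 2, 3, 2, 3, 3, 0⟩ :=
  Good.n4 (Good.n0 L00979 (Good.n2 L00980 L00981)) (Good.n4 (Good.n0 L00982 (Good.n2 L00983 L00984)) (Good.n0 L00985 (Good.n2 L00986 L00987)))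
theorem g00137 : Good (Phi V4.P V4.D (-1) (-1)) ⟨5, 27, 4, 7, 2, 3, 2, 3, 3, 0⟩ :=
  Good.n1 L00988 (Good.n0 (Good.n0 (Good.n2 (Good.n4 L00989 L00990) (Good.n4 L00991 L00992)) L00993) L00994)
theorem g00138 : Good (Phi V4.P V4.D (-1) (-1)) ⟨4, 13, 4, 7, 2, 3, 2, 3, 3, 1⟩ :=
  Good.n0 (Good.n0 (Good.n3 L00995 L00996) (Good.n3 L00997 (Good.n4 (Good.n2 L00998 L00999) L01000))) (Good.n0 (Good.n1 L01001 (Good.n0 (Good.n3 L01002 (Good.n4 L01003 L01004)) L01005)) L01006)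
theorem g00139 : Good (Phi V4.P V4.D (-1) (-1)) ⟨2, 3, 4, 7, 1, 1, 2, 3, 2, 0⟩ :=
  Good.n2 (Good.n0 (Good.n0 L00965 g00135) L00977) (Good.n0 (Good.n0 L00978 (Good.n4 (Good.n0 g00136 g00137) g00138)) L01007)
theorem g00140 : Good (Phi V4.P V4.D (-1) (-1)) ⟨1, 1, 3, 3, 1, 1, 1, 1, 2, 0⟩ :=
  Good.n1 (Good.n0 L00873 (Good.n4 g00126 (Good.n2 (Good.n0 g00127 L00913) (Good.n0 g00129 L00931)))) (Good.n3 g00134 (Good.n0 L00964 g00139))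
theorem g00141 : Good (Phi V4.P V4.D (-1) (-1)) ⟨4, 13, 2, 1, 2, 2, 1, 1, 3, 2⟩ :=
  Good.n0 (Good.n1 L01014 (Good.n1 (Good.n3 L01015 L01016) (Good.n3 L01017 L01018))) (Good.n1 L01019 (Good.n1 L01020 (Good.n3 L01021 L01022)))
theorem g00142 : Good (Phi V4.P V4.D (-1) (-1)) ⟨3, 6, 2, 1, 1, 1, 1, 1, 2, 1⟩ :=
  Good.n0 (Good.n4 (Good.n2 (Good.n3 L01009 L01010) (Good.n3 L01011 L01012)) L01013) (Good.n4 (Good.n2 g00141 (Good.n3 L01023 L01024)) (Good.n3 L01025 L01026))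
theorem g00143 : Good (Phi V4.P V4.D (-1) (-1)) ⟨1, 1, 2, 1, 1, 1, 1, 1, 1, 0⟩ :=
  Good.n4 (Good.n1 (Good.n0 L00815 (Good.n4 g00119 (Good.n4 g00121 (Good.n0 g00122 L00872)))) g00140) (Good.n0 L01008 (Good.n0 g00142 L01027))
theorem g00144 : Good (Phi V4.P V4.D (-1) (-1)) ⟨1, 1, 2, 1, 0, 0, 0, 0, 1, 0⟩ :=
  Good.n2 (Good.n3 g00070 (Good.n4 g00076 (Good.n3 (Good.n0 L00544 (Good.n0 g00077 L00552)) g00081))) (Good.n3 g00114 g00143)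
theorem g00145 : Good (Phi V4.P V4.D (-1) (-1)) ⟨7, 110, 5, 18, 2, 0, 3, 0, 4, 0⟩ :=
  Good.n1 L01034 (Good.n0 L01035 (Good.n1 (Good.n0 L01036 (Good.n1 (Good.n0 L01037 L01038) L01039)) L01040))
theorem g00146 : Good (Phi V4.P V4.D (-1) (-1)) ⟨5, 27, 3, 4, 2, 0, 3, 0, 4, 0⟩ :=
  Good.n1 (Good.n0 L01031 L01032) (Good.n0 L01033 (Good.n1 (Good.n0 g00145 L01041) (Good.n0 L01042 L01043)))
theorem g00147 : Good (Phi V4.P V4.D (-1) (-1)) ⟨1, 1, 3, 4, 2, 0, 2, 0, 4, 0⟩ :=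
  Good.n0 L01028 (Good.n0 (Good.n0 L01029 (Good.n0 L01030 (Good.n3 g00146 (Good.n0 L01044 L01045)))) L01046)
theorem g00148 : Good (Phi V4.P V4.D (-1) (-1)) ⟨1, 1, 3, 4, 2, 0, 2, 0, 4, 1⟩ :=
  Good.n0 L01047 (Good.n0 (Good.n0 L01048 (Good.n0 L01049 (Good.n2 L01050 (Good.n3 L01051 L01052)))) L01053)
theorem g00149 : Good (Phi V4.P V4.D (-1) (-1)) ⟨6, 54, 3, 4, 2, 1, 2, 0, 4, 0⟩ :=
  Good.n1 (Good.n1 (Good.n0 L01057 (Good.n3 L01058 L01059)) (Good.n0 L01060 (Good.n3 L01061 L01062))) L01063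
theorem g00150 : Good (Phi V4.P V4.D (-1) (-1)) ⟨2, 3, 3, 4, 2, 1, 2, 0, 4, 0⟩ :=
  Good.n0 (Good.n0 L01055 (Good.n0 L01056 (Good.n0 g00149 (Good.n0 (Good.n2 L01064 L01065) L01066)))) L01067
theorem g00151 : Good (Phi V4.P V4.D (-1) (-1)) ⟨5, 27, 3, 4, 3, 2, 2, 0, 5, 2⟩ :=
  Good.n0 (Good.n1 L01071 L01072) (Good.n1 (Good.n1 L01073 L01074) (Good.n1 L01075 (Good.n0 L01076 L01077)))
theorem g00152 : Good (Phi V4.P V4.D (-1) (-1)) ⟨5, 27, 3, 4, 2, 1, 2, 0, 4, 1⟩ :=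
  Good.n2 (Good.n4 g00151 L01078) (Good.n0 (Good.n1 (Good.n3 L01079 L01080) L01081) (Good.n4 L01082 L01083))
theorem g00153 : Good (Phi V4.P V4.D (-1) (-1)) ⟨1, 1, 3, 4, 2, 1, 2, 0, 3, 0⟩ :=
  Good.n4 (Good.n0 L01054 g00150) (Good.n0 L01068 (Good.n0 (Good.n0 L01069 (Good.n0 L01070 g00152)) L01084))
theorem g00154 : Good (Phi V4.P V4.D (-1) (-1)) ⟨7, 109, 5, 17, 1, 0, 2, 0, 3, 1⟩ :=
  Good.n1 (Good.n2 L01093 L01094) (Good.n4 (Good.n0 L01095 (Good.n2 L01096 L01097)) (Good.n2 L01098 L01099))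
theorem g00155 : Good (Phi V4.P V4.D (-1) (-1)) ⟨7, 110, 6, 35, 1, 0, 2, 0, 3, 1⟩ :=
  Good.n0 (Good.n1 (Good.n2 L01102 (Good.n4 L01103 L01104)) (Good.n2 L01105 (Good.n4 L01106 L01107))) L01108
theorem g00156 : Good (Phi V4.P V4.D (-1) (-1)) ⟨5, 27, 4, 8, 1, 0, 2, 0, 3, 1⟩ :=
  Good.n0 (Good.n1 (Good.n4 (Good.n2 L01088 L01089) (Good.n2 L01090 L01091)) (Good.n0 L01092 g00154)) (Good.n1 L01100 (Good.n0 (Good.n1 L01101 g00155) L01109))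
theorem g00157 : Good (Phi V4.P V4.D (-1) (-1)) ⟨8, 221, 6, 36, 1, 0, 2, 0, 3, 1⟩ :=
  Good.n1 (Good.n2 L01114 (Good.n0 (Good.n4 L01115 L01116) L01117)) (Good.n2 L01118 (Good.n0 (Good.n4 (Good.n3 L01119 L01120) L01121) (Good.n4 L01122 L01123)))
theorem g00158 : Good (Phi V4.P V4.D (-1) (-1)) ⟨7, 110, 5, 18, 1, 0, 2, 0, 3, 1⟩ :=
  Good.n1 (Good.n0 (Good.n2 L01111 (Good.n4 L01112 L01113)) g00157) (Good.n0 L01124 (Good.n1 (Good.n0 L01125 (Good.n1 (Good.n0 L01126 L01127) L01128)) L01129))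
theorem g00159 : Good (Phi V4.P V4.D (-1) (-1)) ⟨4, 13, 3, 4, 1, 0, 2, 0, 3, 1⟩ :=
  Good.n0 L01087 (Good.n1 g00156 (Good.n0 L01110 (Good.n1 (Good.n0 g00158 L01130) (Good.n0 L01131 L01132))))
theorem g00160 : Good (Phi V4.P V4.D (-1) (-1)) ⟨1, 1, 3, 4, 1, 0, 2, 0, 2, 0⟩ :=
  Good.n4 (Good.n2 (Good.n4 g00147 g00148) g00153) (Good.n0 L01085 (Good.n0 (Good.n0 L01086 g00159) L01133))
theorem g00161 : Good (Phi V4.P V4.D (-1) (-1)) ⟨5, 27, 3, 4, 2, 0, 2, 1, 3, 0⟩ :=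
  Good.n1 (Good.n0 L01141 (Good.n1 L01142 (Good.n4 L01143 L01144))) (Good.n0 L01145 (Good.n0 L01146 L01147))
theorem g00162 : Good (Phi V4.P V4.D (-1) (-1)) ⟨7, 110, 5, 18, 2, 1, 2, 1, 3, 0⟩ :=
  Good.n1 (Good.n4 L01154 L01155) (Good.n0 L01156 (Good.n1 (Good.n0 L01157 (Good.n1 (Good.n0 L01158 L01159) L01160)) L01161))
theorem g00163 : Good (Phi V4.P V4.D (-1) (-1)) ⟨5, 27, 3, 4, 2, 1, 2, 1, 3, 0⟩ :=
  Good.n1 (Good.n4 L01151 L01152) (Good.n0 L01153 (Good.n1 (Good.n0 g00162 L01162) (Good.n0 L01163 L01164)))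
theorem g00164 : Good (Phi V4.P V4.D (-1) (-1)) ⟨2, 3, 3, 4, 1, 0, 2, 1, 3, 0⟩ :=
  Good.n2 (Good.n0 (Good.n0 L01139 (Good.n0 L01140 g00161)) L01148) (Good.n0 (Good.n0 L01149 (Good.n0 L01150 g00163)) L01165)
theorem g00165 : Good (Phi V4.P V4.D (-1) (-1)) ⟨2, 3, 3, 4, 1, 0, 2, 1, 3, 1⟩ :=
  Good.n0 (Good.n0 L01166 (Good.n0 L01167 (Good.n2 L01168 (Good.n3 (Good.n1 L01169 L01170) L01171)))) L01172
theorem g00166 : Good (Phi V4.P V4.D (-1) (-1)) ⟨2, 3, 3, 4, 1, 0, 2, 1, 1, 0⟩ :=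
  Good.n4 (Good.n4 g00164 g00165) (Good.n0 (Good.n0 L01173 (Good.n4 (Good.n2 L01174 L01175) L01176)) L01177)
theorem g00167 : Good (Phi V4.P V4.D (-1) (-1)) ⟨1, 1, 3, 4, 1, 0, 1, 0, 1, 0⟩ :=
  Good.n3 (Good.n4 g00160 (Good.n0 L01134 (Good.n0 (Good.n4 L01135 L01136) L01137))) (Good.n0 L01138 g00166)
theorem g00168 : Good (Phi V4.P V4.D (-1) (-1)) ⟨1, 1, 1, 1, 1, 0, 1, 0, 1, 0⟩ :=
  Good.n1 (Good.n1 g00167 (Good.n0 L01178 (Good.n0 L01179 L01180))) (Good.n0 L01181 (Good.n0 L01182 L01183))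
theorem g00169 : Good (Phi V4.P V4.D (-1) (-1)) ⟨6, 55, 3, 4, 2, 1, 2, 2, 3, 0⟩ :=
  Good.n1 (Good.n1 L01190 (Good.n0 (Good.n0 L01191 L01192) L01193)) (Good.n1 (Good.n0 L01194 L01195) (Good.n0 L01196 L01197))
theorem g00170 : Good (Phi V4.P V4.D (-1) (-1)) ⟨3, 6, 2, 2, 1, 0, 2, 2, 3, 0⟩ :=
  Good.n0 L01185 (Good.n0 L01186 (Good.n1 (Good.n2 L01187 (Good.n0 (Good.n4 L01188 L01189) g00169)) L01198))
theorem g00171 : Good (Phi V4.P V4.D (-1) (-1)) ⟨3, 6, 2, 2, 1, 0, 2, 2, 3, 1⟩ :=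
  Good.n0 L01203 (Good.n1 (Good.n0 L01204 (Good.n2 L01205 (Good.n1 L01206 (Good.n0 L01207 L01208)))) L01209)
theorem g00172 : Good (Phi V4.P V4.D (-1) (-1)) ⟨1, 1, 1, 1, 1, 0, 2, 2, 2, 0⟩ :=
  Good.n4 (Good.n0 L01184 (Good.n1 (Good.n0 g00170 L01199) (Good.n0 L01200 L01201))) (Good.n0 L01202 (Good.n0 (Good.n1 g00171 L01210) L01211))
theorem g00173 : Good (Phi V4.P V4.D (-1) (-1)) ⟨5, 27, 3, 4, 2, 1, 3, 6, 3, 0⟩ :=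
  Good.n1 (Good.n0 L01216 L01217) (Good.n0 L01218 (Good.n1 (Good.n0 L01219 L01220) (Good.n0 L01221 L01222)))
theorem g00174 : Good (Phi V4.P V4.D (-1) (-1)) ⟨4, 13, 3, 4, 1, 0, 3, 6, 2, 0⟩ :=
  Good.n4 (Good.n0 L01214 (Good.n2 L01215 g00173)) (Good.n0 L01223 (Good.n2 L01224 (Good.n1 L01225 L01226)))
theorem g00175 : Good (Phi V4.P V4.D (-1) (-1)) ⟨6, 55, 3, 4, 2, 0, 3, 7, 3, 0⟩ :=
  Good.n1 (Good.n1 L01234 (Good.n0 (Good.n3 L01235 L01236) L01237)) (Good.n0 (Good.n1 L01238 L01239) L01240)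
theorem g00176 : Good (Phi V4.P V4.D (-1) (-1)) ⟨5, 27, 3, 4, 2, 1, 3, 7, 3, 0⟩ :=
  Good.n0 (Good.n4 L01241 L01242) (Good.n1 L01243 (Good.n1 (Good.n0 L01244 L01245) (Good.n0 L01246 L01247)))
theorem g00177 : Good (Phi V4.P V4.D (-1) (-1)) ⟨5, 27, 3, 4, 2, 0, 3, 7, 3, 1⟩ :=
  Good.n0 (Good.n1 L01249 L01250) (Good.n1 (Good.n1 L01251 L01252) (Good.n1 (Good.n0 L01253 L01254) (Good.n0 L01255 L01256)))
theorem g00178 : Good (Phi V4.P V4.D (-1) (-1)) ⟨5, 27, 2, 2, 1, 0, 3, 7, 3, 1⟩ :=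
  Good.n1 (Good.n2 g00177 (Good.n1 L01257 (Good.n0 L01258 (Good.n1 L01259 (Good.n0 L01260 L01261))))) L01262
theorem g00179 : Good (Phi V4.P V4.D (-1) (-1)) ⟨4, 13, 2, 2, 1, 0, 3, 7, 2, 0⟩ :=
  Good.n0 L01231 (Good.n4 (Good.n1 (Good.n2 (Good.n0 (Good.n1 L01232 L01233) g00175) g00176) L01248) g00178)
theorem g00180 : Good (Phi V4.P V4.D (-1) (-1)) ⟨1, 1, 2, 2, 1, 0, 2, 3, 2, 0⟩ :=
  Good.n3 (Good.n0 L01212 (Good.n0 (Good.n0 L01213 (Good.n1 g00174 L01227)) L01228)) (Good.n0 L01229 (Good.n0 (Good.n0 L01230 g00179) L01263))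
theorem g00181 : Good (Phi V4.P V4.D (-1) (-1)) ⟨5, 27, 3, 4, 1, 0, 2, 2, 4, 6⟩ :=
  Good.n1 (Good.n0 L01272 (Good.n1 L01273 (Good.n0 L01274 L01275))) (Good.n0 L01276 (Good.n1 (Good.n0 (Good.n3 L01277 L01278) L01279) (Good.n0 L01280 L01281)))
theorem g00182 : Good (Phi V4.P V4.D (-1) (-1)) ⟨3, 6, 2, 2, 1, 0, 2, 2, 2, 1⟩ :=
  Good.n0 L01268 (Good.n1 (Good.n4 (Good.n2 L01269 L01270) (Good.n0 L01271 (Good.n4 g00181 L01282))) L01283)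
theorem g00183 : Good (Phi V4.P V4.D (-1) (-1)) ⟨6, 55, 4, 9, 1, 0, 4, 15, 2, 1⟩ :=
  Good.n4 (Good.n1 (Good.n0 L01297 L01298) (Good.n0 L01299 L01300)) (Good.n1 (Good.n0 L01301 L01302) (Good.n0 L01303 L01304))
theorem g00184 : Good (Phi V4.P V4.D (-1) (-1)) ⟨4, 13, 2, 2, 1, 0, 3, 7, 2, 1⟩ :=
  Good.n1 (Good.n0 L01292 (Good.n3 L01293 (Good.n1 (Good.n0 L01294 L01295) (Good.n0 L01296 g00183)))) L01305
theorem g00185 : Good (Phi V4.P V4.D (-1) (-1)) ⟨2, 3, 1, 1, 1, 0, 2, 3, 2, 1⟩ :=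
  Good.n3 (Good.n0 (Good.n1 (Good.n0 L01287 L01288) L01289) L01290) (Good.n1 (Good.n0 (Good.n0 L01291 g00184) L01306) (Good.n0 L01307 L01308))
theorem g00186 : Good (Phi V4.P V4.D (-1) (-1)) ⟨1, 1, 1, 1, 1, 0, 1, 1, 1, 0⟩ :=
  Good.n4 (Good.n3 g00172 (Good.n1 g00180 (Good.n0 L01264 (Good.n0 L01265 L01266)))) (Good.n3 (Good.n0 L01267 (Good.n0 (Good.n1 g00182 L01284) L01285)) (Good.n0 L01286 g00185))
theorem g00187 : Good (Phi V4.P V4.D (-1) (-1)) ⟨6, 55, 4, 8, 3, 4, 1, 0, 3, 0⟩ :=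
  Good.n1 L01316 (Good.n1 L01317 (Good.n0 (Good.n0 (Good.n4 L01318 (Good.n3 L01319 L01320)) L01321) L01322))
theorem g00188 : Good (Phi V4.P V4.D (-1) (-1)) ⟨6, 55, 4, 9, 3, 4, 1, 0, 3, 0⟩ :=
  Good.n4 (Good.n0 (Good.n3 L01323 L01324) L01325) (Good.n0 (Good.n1 (Good.n3 L01326 L01327) L01328) L01329)
theorem g00189 : Good (Phi V4.P V4.D (-1) (-1)) ⟨4, 13, 3, 4, 3, 4, 1, 0, 3, 0⟩ :=
  Good.n0 L01311 (Good.n0 (Good.n1 (Good.n4 L01312 (Good.n3 L01313 L01314)) L01315) (Good.n1 g00187 g00188))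
theorem g00190 : Good (Phi V4.P V4.D (-1) (-1)) ⟨6, 55, 3, 4, 3, 5, 1, 0, 4, 0⟩ :=
  Good.n1 (Good.n3 L01336 L01337) (Good.n1 (Good.n3 L01338 (Good.n0 L01339 L01340)) (Good.n0 L01341 L01342))
theorem g00191 : Good (Phi V4.P V4.D (-1) (-1)) ⟨7, 110, 5, 18, 3, 5, 2, 0, 4, 1⟩ :=
  Good.n1 L01352 (Good.n0 L01353 (Good.n1 (Good.n0 L01354 (Good.n1 (Good.n0 L01355 L01356) L01357)) L01358))
theorem g00192 : Good (Phi V4.P V4.D (-1) (-1)) ⟨7, 110, 3, 4, 3, 5, 1, 0, 4, 1⟩ :=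
  Good.n1 (Good.n1 L01347 (Good.n0 (Good.n1 L01348 (Good.n3 L01349 L01350)) L01351)) (Good.n1 (Good.n3 g00191 L01359) L01360)
theorem g00193 : Good (Phi V4.P V4.D (-1) (-1)) ⟨5, 27, 3, 4, 3, 5, 1, 0, 3, 0⟩ :=
  Good.n4 (Good.n0 (Good.n3 L01334 L01335) g00190) (Good.n0 (Good.n3 (Good.n1 (Good.n4 L01343 L01344) L01345) L01346) (Good.n0 g00192 L01361))
theorem g00194 : Good (Phi V4.P V4.D (-1) (-1)) ⟨3, 6, 1, 1, 2, 2, 1, 0, 3, 0⟩ :=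
  Good.n2 (Good.n0 L01310 (Good.n1 (Good.n1 g00189 L01330) L01331)) (Good.n0 L01332 (Good.n1 (Good.n1 (Good.n0 L01333 g00193) L01362) L01363))
theorem g00195 : Good (Phi V4.P V4.D (-1) (-1)) ⟨5, 27, 3, 4, 2, 2, 1, 0, 4, 2⟩ :=
  Good.n2 (Good.n3 L01366 L01367) (Good.n0 (Good.n1 L01368 L01369) (Good.n1 (Good.n1 L01370 L01371) (Good.n0 L01372 L01373)))
theorem g00196 : Good (Phi V4.P V4.D (-1) (-1)) ⟨3, 6, 1, 1, 2, 2, 1, 0, 3, 1⟩ :=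
  Good.n1 (Good.n0 L01364 (Good.n1 (Good.n0 L01365 (Good.n4 g00195 (Good.n3 L01374 L01375))) L01376)) L01377
theorem g00197 : Good (Phi V4.P V4.D (-1) (-1)) ⟨5, 27, 3, 4, 3, 7, 3, 0, 4, 0⟩ :=
  Good.n4 (Good.n2 L01387 (Good.n1 L01388 L01389)) (Good.n0 L01390 (Good.n1 (Good.n1 L01391 L01392) (Good.n0 L01393 L01394)))
theorem g00198 : Good (Phi V4.P V4.D (-1) (-1)) ⟨5, 27, 2, 2, 2, 3, 3, 0, 4, 0⟩ :=
  Good.n2 (Good.n1 (Good.n4 L01382 (Good.n0 L01383 (Good.n0 L01384 L01385))) L01386) (Good.n1 g00197 L01395)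
theorem g00199 : Good (Phi V4.P V4.D (-1) (-1)) ⟨5, 27, 3, 4, 3, 6, 3, 0, 4, 1⟩ :=
  Good.n0 (Good.n4 L01397 L01398) (Good.n0 (Good.n1 (Good.n4 L01399 L01400) (Good.n4 L01401 L01402)) L01403)
theorem g00200 : Good (Phi V4.P V4.D (-1) (-1)) ⟨5, 27, 3, 4, 3, 7, 3, 0, 5, 2⟩ :=
  Good.n2 (Good.n0 L01405 (Good.n0 (Good.n1 L01406 L01407) L01408)) (Good.n0 L01409 (Good.n0 (Good.n1 L01410 L01411) L01412))
theorem g00201 : Good (Phi V4.P V4.D (-1) (-1)) ⟨5, 27, 2, 2, 2, 3, 3, 0, 4, 1⟩ :=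
  Good.n2 (Good.n1 g00199 L01404) (Good.n1 (Good.n4 g00200 (Good.n0 L01413 (Good.n0 (Good.n1 L01414 L01415) L01416))) L01417)
theorem g00202 : Good (Phi V4.P V4.D (-1) (-1)) ⟨2, 3, 1, 1, 2, 3, 3, 0, 3, 0⟩ :=
  Good.n0 (Good.n0 L01380 (Good.n1 (Good.n4 (Good.n0 L01381 g00198) (Good.n0 L01396 g00201)) L01418)) L01419
theorem g00203 : Good (Phi V4.P V4.D (-1) (-1)) ⟨5, 27, 3, 4, 3, 7, 3, 0, 4, 2⟩ :=
  Good.n1 (Good.n0 L01427 (Good.n1 L01428 (Good.n0 L01429 L01430))) (Good.n0 L01431 (Good.n1 L01432 (Good.n0 L01433 L01434)))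
theorem g00204 : Good (Phi V4.P V4.D (-1) (-1)) ⟨5, 27, 3, 4, 2, 3, 3, 0, 3, 1⟩ :=
  Good.n4 (Good.n2 (Good.n4 (Good.n0 L01423 (Good.n0 L01424 L01425)) L01426) g00203) (Good.n2 L01435 L01436)
theorem g00205 : Good (Phi V4.P V4.D (-1) (-1)) ⟨1, 1, 1, 1, 2, 3, 3, 0, 3, 1⟩ :=
  Good.n0 L01420 (Good.n0 (Good.n1 (Good.n0 L01421 (Good.n0 L01422 (Good.n1 g00204 L01437))) L01438) L01439)
theorem g00206 : Good (Phi V4.P V4.D (-1) (-1)) ⟨6, 55, 4, 9, 3, 7, 3, 1, 4, 0⟩ :=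
  Good.n4 (Good.n1 (Good.n0 L01447 L01448) (Good.n0 L01449 L01450)) (Good.n1 (Good.n0 L01451 L01452) (Good.n0 L01453 L01454))
theorem g00207 : Good (Phi V4.P V4.D (-1) (-1)) ⟨5, 27, 3, 4, 3, 7, 3, 1, 4, 1⟩ :=
  Good.n4 (Good.n0 L01458 (Good.n0 L01459 L01460)) (Good.n0 L01461 (Good.n0 (Good.n1 L01462 L01463) L01464))
theorem g00208 : Good (Phi V4.P V4.D (-1) (-1)) ⟨5, 27, 3, 4, 2, 3, 3, 1, 3, 0⟩ :=
  Good.n4 (Good.n2 L01443 (Good.n0 (Good.n1 L01444 L01445) (Good.n1 L01446 g00206))) (Good.n2 (Good.n0 L01455 (Good.n4 L01456 L01457)) g00207)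
theorem g00209 : Good (Phi V4.P V4.D (-1) (-1)) ⟨1, 1, 1, 1, 2, 3, 3, 1, 3, 0⟩ :=
  Good.n0 L01440 (Good.n0 (Good.n0 L01441 (Good.n1 (Good.n0 L01442 (Good.n1 g00208 L01465)) L01466)) L01467)
theorem g00210 : Good (Phi V4.P V4.D (-1) (-1)) ⟨4, 13, 2, 2, 2, 3, 3, 1, 3, 1⟩ :=
  Good.n4 (Good.n0 L01470 (Good.n1 (Good.n2 L01471 (Good.n2 L01472 L01473)) L01474)) (Good.n2 L01475 L01476)
theorem g00211 : Good (Phi V4.P V4.D (-1) (-1)) ⟨1, 1, 1, 1, 2, 3, 2, 0, 2, 0⟩ :=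
  Good.n3 (Good.n4 (Good.n0 L01379 g00202) g00205) (Good.n4 g00209 (Good.n0 L01468 (Good.n0 (Good.n1 (Good.n0 L01469 g00210) L01477) L01478)))
theorem g00212 : Good (Phi V4.P V4.D (-1) (-1)) ⟨6, 55, 3, 4, 3, 7, 2, 1, 4, 0⟩ :=
  Good.n4 (Good.n0 (Good.n1 L01488 (Good.n2 L01489 (Good.n1 L01490 L01491))) L01492) (Good.n1 L01493 (Good.n1 (Good.n2 L01494 (Good.n0 L01495 L01496)) (Good.n0 L01497 L01498)))
theorem g00213 : Good (Phi V4.P V4.D (-1) (-1)) ⟨5, 27, 3, 4, 2, 3, 2, 1, 4, 0⟩ :=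
  Good.n2 (Good.n0 L01482 (Good.n4 L01483 (Good.n0 L01484 L01485))) (Good.n0 (Good.n1 L01486 L01487) g00212)
theorem g00214 : Good (Phi V4.P V4.D (-1) (-1)) ⟨5, 27, 3, 4, 3, 7, 2, 1, 4, 1⟩ :=
  Good.n4 (Good.n0 L01506 (Good.n0 (Good.n2 L01507 L01508) L01509)) (Good.n0 L01510 (Good.n0 (Good.n1 L01511 L01512) L01513))
theorem g00215 : Good (Phi V4.P V4.D (-1) (-1)) ⟨5, 27, 2, 2, 2, 3, 2, 1, 4, 1⟩ :=
  Good.n2 (Good.n1 (Good.n0 L01500 (Good.n4 (Good.n0 L01501 L01502) (Good.n0 L01503 L01504))) L01505) (Good.n1 g00214 L01514)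
theorem g00216 : Good (Phi V4.P V4.D (-1) (-1)) ⟨2, 3, 1, 1, 2, 3, 2, 1, 3, 0⟩ :=
  Good.n1 (Good.n0 (Good.n0 L01480 (Good.n0 L01481 (Good.n4 (Good.n1 g00213 L01499) g00215))) L01515) (Good.n0 L01516 L01517)
theorem g00217 : Good (Phi V4.P V4.D (-1) (-1)) ⟨6, 55, 3, 4, 2, 3, 2, 1, 4, 2⟩ :=
  Good.n1 (Good.n1 L01523 (Good.n0 (Good.n1 L01524 L01525) L01526)) (Good.n0 (Good.n2 L01527 L01528) L01529)
theorem g00218 : Good (Phi V4.P V4.D (-1) (-1)) ⟨5, 27, 3, 4, 2, 3, 2, 1, 3, 1⟩ :=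
  Good.n4 (Good.n0 (Good.n1 (Good.n1 L01520 L01521) L01522) g00217) (Good.n1 L01530 (Good.n0 L01531 L01532))
theorem g00219 : Good (Phi V4.P V4.D (-1) (-1)) ⟨2, 3, 1, 1, 2, 3, 2, 1, 2, 0⟩ :=
  Good.n4 g00216 (Good.n0 (Good.n0 L01518 (Good.n1 (Good.n1 (Good.n0 L01519 g00218) L01533) L01534)) L01535)
theorem g00220 : Good (Phi V4.P V4.D (-1) (-1)) ⟨1, 1, 1, 1, 1, 1, 1, 0, 2, 0⟩ :=
  Good.n2 (Good.n0 L01309 (Good.n0 (Good.n4 g00194 g00196) L01378)) (Good.n3 g00211 (Good.n0 L01479 g00219))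
theorem g00221 : Good (Phi V4.P V4.D (-1) (-1)) ⟨3, 6, 1, 1, 2, 2, 1, 0, 2, 1⟩ :=
  Good.n1 (Good.n0 L01537 (Good.n1 (Good.n0 L01538 (Good.n4 (Good.n3 L01539 L01540) L01541)) L01542)) L01543
theorem g00222 : Good (Phi V4.P V4.D (-1) (-1)) ⟨6, 54, 4, 8, 2, 3, 1, 0, 4, 4⟩ :=
  Good.n1 (Good.n0 (Good.n2 L01547 L01548) (Good.n1 L01549 (Good.n2 L01550 L01551))) (Good.n0 L01552 (Good.n2 L01553 (Good.n1 L01554 L01555)))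
theorem g00223 : Good (Phi V4.P V4.D (-1) (-1)) ⟨6, 55, 5, 17, 2, 3, 1, 0, 3, 2⟩ :=
  Good.n0 (Good.n1 L01558 (Good.n0 (Good.n4 (Good.n3 (Good.n2 L01559 L01560) L01561) L01562) L01563)) L01564
theorem g00224 : Good (Phi V4.P V4.D (-1) (-1)) ⟨8, 221, 6, 36, 2, 3, 1, 0, 3, 2⟩ :=
  Good.n1 (Good.n4 (Good.n3 (Good.n0 L01570 L01571) L01572) L01573) (Good.n4 (Good.n3 (Good.n0 L01574 L01575) L01576) L01577)
theorem g00225 : Good (Phi V4.P V4.D (-1) (-1)) ⟨7, 110, 5, 18, 2, 3, 1, 0, 3, 2⟩ :=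
  Good.n1 (Good.n0 (Good.n1 (Good.n3 (Good.n0 L01566 L01567) L01568) L01569) g00224) (Good.n0 L01578 (Good.n1 (Good.n0 L01579 (Good.n1 (Good.n0 L01580 L01581) L01582)) L01583))
theorem g00226 : Good (Phi V4.P V4.D (-1) (-1)) ⟨5, 27, 3, 4, 2, 3, 1, 0, 3, 2⟩ :=
  Good.n1 (Good.n0 (Good.n4 g00222 L01556) (Good.n1 L01557 g00223)) (Good.n0 L01565 (Good.n1 (Good.n0 g00225 L01584) (Good.n0 L01585 L01586)))
theorem g00227 : Good (Phi V4.P V4.D (-1) (-1)) ⟨3, 6, 2, 2, 2, 3, 1, 0, 2, 1⟩ :=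
  Good.n0 L01545 (Good.n1 (Good.n0 L01546 (Good.n4 g00226 (Good.n4 (Good.n3 L01587 L01588) L01589))) L01590)
theorem g00228 : Good (Phi V4.P V4.D (-1) (-1)) ⟨1, 1, 1, 1, 1, 1, 1, 0, 1, 0⟩ :=
  Good.n4 g00220 (Good.n0 L01536 (Good.n2 (Good.n0 g00221 L01544) (Good.n0 (Good.n1 g00227 L01591) L01592)))
theorem g00229 : Good (Phi V4.P V4.D (-1) (-1)) ⟨7, 110, 5, 18, 2, 2, 2, 2, 4, 0⟩ :=
  Good.n1 (Good.n0 L01599 (Good.n2 L01600 L01601)) (Good.n0 L01602 (Good.n1 (Good.n0 L01603 (Good.n1 (Good.n0 L01604 L01605) L01606)) L01607))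
theorem g00230 : Good (Phi V4.P V4.D (-1) (-1)) ⟨5, 27, 3, 4, 2, 2, 2, 2, 4, 1⟩ :=
  Good.n0 (Good.n1 L01610 L01611) (Good.n1 L01612 (Good.n1 (Good.n0 L01613 L01614) (Good.n0 L01615 L01616)))
theorem g00231 : Good (Phi V4.P V4.D (-1) (-1)) ⟨5, 27, 3, 4, 2, 2, 2, 2, 3, 0⟩ :=
  Good.n4 (Good.n0 (Good.n2 L01596 L01597) (Good.n0 (Good.n1 L01598 (Good.n1 g00229 L01608)) L01609)) g00230
theorem g00232 : Good (Phi V4.P V4.D (-1) (-1)) ⟨5, 27, 3, 4, 2, 2, 3, 6, 3, 0⟩ :=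
  Good.n4 (Good.n2 (Good.n0 L01621 (Good.n0 L01622 L01623)) (Good.n0 L01624 (Good.n0 L01625 L01626))) (Good.n2 (Good.n0 L01627 (Good.n0 L01628 L01629)) (Good.n0 L01630 (Good.n0 L01631 L01632)))
theorem g00233 : Good (Phi V4.P V4.D (-1) (-1)) ⟨7, 110, 5, 18, 2, 2, 3, 7, 3, 0⟩ :=
  Good.n1 (Good.n0 (Good.n0 L01640 L01641) (Good.n4 L01642 L01643)) (Good.n0 L01644 (Good.n1 (Good.n0 L01645 (Good.n1 (Good.n0 L01646 L01647) L01648)) L01649))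
theorem g00234 : Good (Phi V4.P V4.D (-1) (-1)) ⟨5, 27, 3, 4, 2, 2, 3, 7, 3, 0⟩ :=
  Good.n0 (Good.n1 (Good.n1 (Good.n0 L01633 L01634) L01635) L01636) (Good.n1 (Good.n1 L01637 (Good.n0 L01638 L01639)) (Good.n0 (Good.n1 g00233 L01650) L01651))
theorem g00235 : Good (Phi V4.P V4.D (-1) (-1)) ⟨2, 3, 2, 2, 2, 2, 1, 1, 3, 0⟩ :=
  Good.n3 (Good.n0 (Good.n0 L01594 (Good.n0 L01595 (Good.n1 g00231 L01617))) L01618) (Good.n0 (Good.n1 (Good.n0 L01619 (Good.n0 L01620 (Good.n3 g00232 g00234))) L01652) L01653)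
theorem g00236 : Good (Phi V4.P V4.D (-1) (-1)) ⟨6, 54, 4, 8, 2, 2, 1, 1, 3, 1⟩ :=
  Good.n4 (Good.n3 L01657 (Good.n1 (Good.n3 L01658 L01659) (Good.n0 L01660 (Good.n3 L01661 L01662)))) (Good.n3 L01663 (Good.n3 L01664 L01665))
theorem g00237 : Good (Phi V4.P V4.D (-1) (-1)) ⟨6, 55, 4, 9, 2, 2, 1, 1, 4, 2⟩ :=
  Good.n3 (Good.n1 L01673 (Good.n0 L01674 L01675)) (Good.n1 (Good.n0 (Good.n3 L01676 (Good.n3 L01677 L01678)) L01679) (Good.n0 L01680 L01681))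
theorem g00238 : Good (Phi V4.P V4.D (-1) (-1)) ⟨6, 55, 3, 4, 2, 2, 1, 1, 4, 2⟩ :=
  Good.n1 (Good.n0 (Good.n1 L01667 (Good.n1 L01668 (Good.n3 L01669 (Good.n3 L01670 L01671)))) L01672) g00237
theorem g00239 : Good (Phi V4.P V4.D (-1) (-1)) ⟨6, 55, 3, 4, 2, 2, 1, 1, 3, 1⟩ :=
  Good.n4 g00238 (Good.n3 L01682 (Good.n3 L01683 (Good.n3 (Good.n1 L01684 (Good.n0 L01685 L01686)) L01687)))
theorem g00240 : Good (Phi V4.P V4.D (-1) (-1)) ⟨2, 3, 2, 2, 2, 2, 1, 1, 3, 1⟩ :=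
  Good.n0 (Good.n0 L01655 (Good.n0 L01656 (Good.n1 (Good.n0 (Good.n1 g00236 L01666) g00239) L01688))) L01689
theorem g00241 : Good (Phi V4.P V4.D (-1) (-1)) ⟨1, 1, 1, 1, 2, 2, 1, 1, 2, 0⟩ :=
  Good.n1 (Good.n4 (Good.n0 L01593 g00235) (Good.n0 L01654 g00240)) (Good.n0 L01690 (Good.n0 L01691 L01692))
theorem g00242 : Good (Phi V4.P V4.D (-1) (-1)) ⟨5, 27, 3, 4, 3, 6, 2, 2, 3, 0⟩ :=
  Good.n4 (Good.n0 L01696 (Good.n1 L01697 (Good.n0 L01698 L01699))) (Good.n0 L01700 (Good.n1 (Good.n1 L01701 L01702) (Good.n0 L01703 L01704)))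
theorem g00243 : Good (Phi V4.P V4.D (-1) (-1)) ⟨4, 13, 3, 4, 3, 6, 2, 3, 4, 0⟩ :=
  Good.n0 L01707 (Good.n0 (Good.n1 L01708 L01709) (Good.n1 L01710 (Good.n0 (Good.n1 L01711 L01712) L01713)))
theorem g00244 : Good (Phi V4.P V4.D (-1) (-1)) ⟨6, 55, 3, 4, 3, 6, 2, 3, 4, 1⟩ :=
  Good.n1 (Good.n1 L01719 (Good.n0 L01720 L01721)) (Good.n1 (Good.n0 (Good.n3 L01722 (Good.n4 L01723 L01724)) L01725) (Good.n0 L01726 L01727))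
theorem g00245 : Good (Phi V4.P V4.D (-1) (-1)) ⟨2, 3, 3, 4, 3, 6, 2, 3, 3, 0⟩ :=
  Good.n4 (Good.n0 (Good.n0 L01706 g00243) L01714) (Good.n0 (Good.n0 L01715 (Good.n0 L01716 (Good.n0 (Good.n1 L01717 L01718) g00244))) L01728)
theorem g00246 : Good (Phi V4.P V4.D (-1) (-1)) ⟨2, 3, 2, 2, 3, 6, 1, 1, 3, 0⟩ :=
  Good.n1 (Good.n3 (Good.n0 (Good.n0 L01694 (Good.n0 L01695 g00242)) L01705) g00245) (Good.n0 L01729 L01730)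
theorem g00247 : Good (Phi V4.P V4.D (-1) (-1)) ⟨4, 13, 2, 2, 3, 6, 2, 2, 4, 2⟩ :=
  Good.n0 L01732 (Good.n1 (Good.n0 L01733 (Good.n1 L01734 (Good.n1 L01735 (Good.n0 L01736 L01737)))) L01738)
theorem g00248 : Good (Phi V4.P V4.D (-1) (-1)) ⟨6, 55, 4, 8, 3, 6, 2, 3, 4, 2⟩ :=
  Good.n1 L01745 (Good.n3 L01746 (Good.n0 (Good.n0 (Good.n1 L01747 (Good.n3 L01748 L01749)) L01750) L01751))
theorem g00249 : Good (Phi V4.P V4.D (-1) (-1)) ⟨6, 55, 3, 4, 3, 6, 2, 3, 4, 2⟩ :=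
  Good.n1 g00248 (Good.n1 (Good.n0 (Good.n3 L01752 (Good.n3 L01753 L01754)) L01755) (Good.n0 L01756 L01757))
theorem g00250 : Good (Phi V4.P V4.D (-1) (-1)) ⟨5, 27, 3, 4, 3, 6, 2, 3, 4, 3⟩ :=
  Good.n0 (Good.n3 L01758 L01759) (Good.n0 (Good.n1 (Good.n1 L01760 (Good.n3 L01761 L01762)) (Good.n3 L01763 L01764)) L01765)
theorem g00251 : Good (Phi V4.P V4.D (-1) (-1)) ⟨4, 13, 2, 2, 3, 6, 2, 3, 3, 1⟩ :=
  Good.n0 L01741 (Good.n1 (Good.n4 (Good.n0 (Good.n1 (Good.n3 L01742 L01743) L01744) g00249) g00250) L01766)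
theorem g00252 : Good (Phi V4.P V4.D (-1) (-1)) ⟨2, 3, 2, 2, 3, 6, 1, 1, 2, 0⟩ :=
  Good.n4 g00246 (Good.n0 (Good.n3 (Good.n0 L01731 (Good.n4 g00247 L01739)) (Good.n0 L01740 g00251)) L01767)
theorem g00253 : Good (Phi V4.P V4.D (-1) (-1)) ⟨6, 55, 3, 4, 3, 7, 2, 2, 4, 0⟩ :=
  Good.n4 (Good.n1 L01772 (Good.n1 L01773 (Good.n0 L01774 L01775))) (Good.n1 L01776 (Good.n0 L01777 L01778))
theorem g00254 : Good (Phi V4.P V4.D (-1) (-1)) ⟨7, 110, 5, 18, 3, 7, 2, 3, 4, 0⟩ :=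
  Good.n1 L01785 (Good.n0 L01786 (Good.n1 (Good.n0 L01787 (Good.n1 (Good.n0 L01788 L01789) L01790)) L01791))
theorem g00255 : Good (Phi V4.P V4.D (-1) (-1)) ⟨5, 27, 3, 4, 3, 7, 2, 3, 4, 0⟩ :=
  Good.n1 (Good.n0 (Good.n1 L01780 L01781) (Good.n1 L01782 L01783)) (Good.n0 L01784 (Good.n1 (Good.n0 g00254 L01792) (Good.n0 L01793 L01794)))
theorem g00256 : Good (Phi V4.P V4.D (-1) (-1)) ⟨6, 55, 4, 8, 3, 7, 3, 7, 4, 1⟩ :=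
  Good.n1 L01810 (Good.n0 (Good.n1 L01811 (Good.n0 (Good.n2 L01812 (Good.n4 L01813 L01814)) L01815)) L01816)
theorem g00257 : Good (Phi V4.P V4.D (-1) (-1)) ⟨4, 13, 4, 8, 3, 7, 3, 7, 4, 1⟩ :=
  Good.n0 L01804 (Good.n0 (Good.n1 (Good.n0 L01805 L01806) (Good.n0 L01807 (Good.n4 L01808 L01809))) g00256)
theorem g00258 : Good (Phi V4.P V4.D (-1) (-1)) ⟨4, 13, 4, 8, 3, 7, 2, 3, 4, 1⟩ :=
  Good.n3 (Good.n0 L01798 (Good.n0 (Good.n1 L01799 L01800) (Good.n1 L01801 (Good.n0 L01802 L01803)))) g00257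
theorem g00259 : Good (Phi V4.P V4.D (-1) (-1)) ⟨7, 110, 5, 18, 4, 14, 2, 3, 5, 3⟩ :=
  Good.n1 (Good.n3 L01825 L01826) (Good.n0 L01827 (Good.n1 (Good.n0 L01828 (Good.n1 (Good.n0 L01829 L01830) L01831)) L01832))
theorem g00260 : Good (Phi V4.P V4.D (-1) (-1)) ⟨7, 110, 5, 18, 4, 15, 3, 7, 5, 2⟩ :=
  Good.n1 L01834 (Good.n0 L01835 (Good.n1 (Good.n0 L01836 (Good.n1 (Good.n0 L01837 L01838) L01839)) L01840))
theorem g00261 : Good (Phi V4.P V4.D (-1) (-1)) ⟨7, 110, 5, 18, 4, 15, 2, 3, 5, 3⟩ :=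
  Good.n1 (Good.n3 L01841 (Good.n0 L01842 (Good.n3 L01843 L01844))) (Good.n0 L01845 (Good.n1 (Good.n0 L01846 (Good.n1 (Good.n0 L01847 L01848) L01849)) L01850))
theorem g00262 : Good (Phi V4.P V4.D (-1) (-1)) ⟨7, 110, 4, 9, 3, 7, 2, 3, 4, 1⟩ :=
  Good.n1 (Good.n2 (Good.n4 (Good.n3 L01823 L01824) g00259) (Good.n4 (Good.n3 L01833 g00260) g00261)) L01851
theorem g00263 : Good (Phi V4.P V4.D (-1) (-1)) ⟨5, 27, 4, 9, 3, 7, 1, 1, 4, 1⟩ :=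
  Good.n0 L01818 (Good.n3 (Good.n1 (Good.n0 L01819 L01820) (Good.n0 L01821 L01822)) (Good.n0 g00262 L01852))
theorem g00264 : Good (Phi V4.P V4.D (-1) (-1)) ⟨4, 13, 3, 4, 3, 7, 1, 1, 3, 0⟩ :=
  Good.n4 (Good.n3 (Good.n0 L01769 (Good.n0 (Good.n1 L01770 L01771) g00253)) (Good.n0 L01779 g00255)) (Good.n1 (Good.n3 (Good.n0 L01795 (Good.n0 L01796 L01797)) g00258) (Good.n0 L01817 g00263))
theorem g00265 : Good (Phi V4.P V4.D (-1) (-1)) ⟨7, 110, 6, 36, 3, 7, 2, 3, 4, 2⟩ :=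
  Good.n3 L01873 (Good.n0 (Good.n3 L01874 L01875) (Good.n1 (Good.n3 L01876 L01877) (Good.n3 L01878 L01879)))
theorem g00266 : Good (Phi V4.P V4.D (-1) (-1)) ⟨7, 110, 5, 18, 3, 7, 2, 3, 4, 2⟩ :=
  Good.n1 g00265 (Good.n0 L01880 (Good.n1 (Good.n0 L01881 (Good.n1 (Good.n0 L01882 L01883) L01884)) L01885))
theorem g00267 : Good (Phi V4.P V4.D (-1) (-1)) ⟨6, 55, 3, 4, 3, 7, 2, 3, 4, 2⟩ :=
  Good.n1 (Good.n3 L01869 (Good.n1 L01870 (Good.n3 L01871 L01872))) (Good.n1 (Good.n0 g00266 L01886) (Good.n0 L01887 L01888))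
theorem g00268 : Good (Phi V4.P V4.D (-1) (-1)) ⟨5, 27, 3, 4, 3, 7, 2, 3, 4, 2⟩ :=
  Good.n0 (Good.n1 (Good.n1 (Good.n3 L01863 L01864) (Good.n3 L01865 (Good.n3 L01866 L01867))) L01868) g00267
theorem g00269 : Good (Phi V4.P V4.D (-1) (-1)) ⟨5, 27, 3, 4, 3, 7, 1, 1, 3, 1⟩ :=
  Good.n4 (Good.n3 (Good.n0 L01858 (Good.n1 L01859 (Good.n1 L01860 (Good.n0 L01861 L01862)))) g00268) (Good.n3 L01889 (Good.n3 (Good.n0 L01890 L01891) L01892))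
theorem g00270 : Good (Phi V4.P V4.D (-1) (-1)) ⟨2, 3, 2, 2, 3, 7, 1, 1, 2, 0⟩ :=
  Good.n4 (Good.n1 (Good.n0 (Good.n0 L01768 g00264) L01853) (Good.n0 L01854 L01855)) (Good.n0 (Good.n1 (Good.n0 L01856 (Good.n0 L01857 g00269)) L01893) L01894)
theorem g00271 : Good (Phi V4.P V4.D (-1) (-1)) ⟨5, 27, 4, 8, 2, 2, 1, 1, 3, 2⟩ :=
  Good.n0 (Good.n3 L01900 L01901) (Good.n1 L01902 (Good.n0 (Good.n1 L01903 (Good.n3 L01904 L01905)) L01906))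
theorem g00272 : Good (Phi V4.P V4.D (-1) (-1)) ⟨4, 13, 2, 2, 2, 2, 1, 1, 3, 2⟩ :=
  Good.n1 (Good.n0 L01899 (Good.n1 g00271 (Good.n0 L01907 (Good.n3 L01908 (Good.n3 L01909 L01910))))) L01911
theorem g00273 : Good (Phi V4.P V4.D (-1) (-1)) ⟨3, 6, 1, 1, 1, 1, 1, 1, 3, 2⟩ :=
  Good.n2 (Good.n1 (Good.n0 L01898 g00272) L01912) (Good.n0 L01913 (Good.n1 (Good.n3 L01914 L01915) L01916))
theorem g00274 : Good (Phi V4.P V4.D (-1) (-1)) ⟨1, 1, 1, 1, 1, 1, 1, 1, 1, 0⟩ :=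
  Good.n4 (Good.n2 g00241 (Good.n0 L01693 (Good.n1 (Good.n2 g00252 g00270) (Good.n0 L01895 L01896)))) (Good.n0 L01897 (Good.n0 (Good.n4 g00273 (Good.n3 L01917 L01918)) L01919))
theorem g00275 : Good (Phi V4.P V4.D (-1) (-1)) ⟨1, 1, 0, 0, 0, 0, 0, 0, 1, 0⟩ :=
  Good.n1 (Good.n1 (Good.n2 g00027 (Good.n3 g00045 (Good.n4 g00056 g00057))) g00144) (Good.n2 (Good.n3 g00168 g00186) (Good.n3 g00228 g00274))
theorem g00276 : Good (Phi V4.P V4.D (-1) (-1)) ⟨7, 87, 6, 8, 2, 0, 3, 7, 5, 28⟩ :=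
  Good.n1 (Good.n0 L01945 (Good.n1 (Good.n0 L01946 (Good.n3 L01947 (Good.n2 L01948 L01949))) L01950)) L01951
theorem g00277 : Good (Phi V4.P V4.D (-1) (-1)) ⟨4, 10, 3, 1, 2, 0, 3, 7, 5, 28⟩ :=
  Good.n1 (Good.n0 L01942 (Good.n1 (Good.n0 L01943 (Good.n1 (Good.n0 L01944 g00276) L01952)) L01953)) L01954
theorem g00278 : Good (Phi V4.P V4.D (-1) (-1)) ⟨5, 23, 4, 3, 2, 0, 3, 7, 5, 28⟩ :=
  Good.n0 (Good.n1 (Good.n3 L01959 (Good.n2 L01960 L01961)) L01962) (Good.n3 L01963 (Good.n2 L01964 L01965))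
theorem g00279 : Good (Phi V4.P V4.D (-1) (-1)) ⟨2, 2, 3, 1, 2, 0, 3, 7, 5, 28⟩ :=
  Good.n0 L01941 (Good.n0 g00277 (Good.n1 (Good.n3 L01955 (Good.n2 L01956 L01957)) (Good.n0 L01958 g00278)))
theorem g00280 : Good (Phi V4.P V4.D (-1) (-1)) ⟨2, 2, 2, 0, 2, 0, 2, 3, 3, 7⟩ :=
  Good.n4 (Good.n3 L01937 (Good.n4 (Good.n1 (Good.n3 L01938 (Good.n2 L01939 L01940)) g00279) L01966)) L01967
theorem g00281 : Good (Phi V4.P V4.D (-1) (-1)) ⟨2, 2, 2, 0, 2, 0, 2, 3, 1, 1⟩ :=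
  Good.n4 (Good.n0 L01927 (Good.n0 (Good.n1 (Good.n3 L01928 L01929) L01930) (Good.n3 L01931 L01932))) (Good.n4 (Good.n0 (Good.n3 L01933 L01934) (Good.n3 L01935 L01936)) g00280)
theorem g00282 : Good (Phi V4.P V4.D (-1) (-1)) ⟨2, 3, 2, 0, 2, 0, 2, 3, 1, 1⟩ :=
  Good.n3 (Good.n0 (Good.n0 (Good.n1 L01970 (Good.n4 L01971 L01972)) L01973) L01974) (Good.n0 (Good.n0 (Good.n1 L01975 (Good.n4 (Good.n3 L01976 L01977) L01978)) L01979) L01980)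
theorem g00283 : Good (Phi V4.P V4.D (-1) (-1)) ⟨1, 1, 2, 0, 2, 0, 0, 0, 1, 1⟩ :=
  Good.n3 (Good.n0 (Good.n4 L01920 L01921) (Good.n4 (Good.n0 L01922 L01923) L01924)) (Good.n0 (Good.n3 (Good.n4 L01925 L01926) g00281) (Good.n3 (Good.n4 L01968 L01969) g00282))
theorem g00284 : Good (Phi V4.P V4.D (-1) (-1)) ⟨2, 3, 2, 0, 2, 1, 0, 0, 1, 1⟩ :=
  Good.n0 (Good.n0 (Good.n1 L01986 (Good.n3 (Good.n4 L01987 L01988) (Good.n3 L01989 L01990))) L01991) L01992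
theorem g00285 : Good (Phi V4.P V4.D (-1) (-1)) ⟨1, 1, 2, 0, 1, 0, 0, 0, 1, 1⟩ :=
  Good.n2 g00283 (Good.n0 (Good.n3 (Good.n4 L01981 L01982) (Good.n3 (Good.n4 L01983 L01984) L01985)) g00284)
theorem g00286 : Good (Phi V4.P V4.D (-1) (-1)) ⟨1, 1, 2, 0, 1, 1, 0, 0, 1, 1⟩ :=
  Good.n0 (Good.n3 L01993 L01994) (Good.n0 (Good.n4 (Good.n4 (Good.n0 L01995 L01996) L01997) L01998) L01999)
theorem g00287 : Good (Phi V4.P V4.D (-1) (-1)) ⟨4, 13, 2, 1, 1, 0, 2, 2, 2, 2⟩ :=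
  Good.n4 (Good.n1 L02010 (Good.n0 L02011 (Good.n1 L02012 L02013))) (Good.n1 (Good.n2 L02014 L02015) (Good.n2 L02016 L02017))
theorem g00288 : Good (Phi V4.P V4.D (-1) (-1)) ⟨3, 6, 2, 1, 1, 0, 2, 2, 2, 2⟩ :=
  Good.n0 (Good.n1 (Good.n0 (Good.n4 L02004 L02005) (Good.n4 L02006 L02007)) (Good.n2 L02008 L02009)) g00287
theorem g00289 : Good (Phi V4.P V4.D (-1) (-1)) ⟨2, 3, 3, 2, 2, 0, 2, 3, 2, 2⟩ :=
  Good.n0 (Good.n0 (Good.n3 L02020 (Good.n3 L02021 L02022)) (Good.n0 (Good.n3 L02023 L02024) L02025)) L02026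
theorem g00290 : Good (Phi V4.P V4.D (-1) (-1)) ⟨4, 13, 3, 3, 2, 0, 3, 7, 2, 2⟩ :=
  Good.n0 (Good.n4 (Good.n3 L02035 L02036) (Good.n3 L02037 L02038)) (Good.n1 L02039 (Good.n3 L02040 L02041))
theorem g00291 : Good (Phi V4.P V4.D (-1) (-1)) ⟨1, 1, 3, 3, 2, 0, 2, 3, 2, 2⟩ :=
  Good.n3 (Good.n0 L02027 (Good.n0 (Good.n0 L02028 (Good.n0 L02029 (Good.n1 L02030 L02031))) L02032)) (Good.n0 L02033 (Good.n0 (Good.n0 L02034 g00290) L02042))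
theorem g00292 : Good (Phi V4.P V4.D (-1) (-1)) ⟨1, 1, 2, 1, 1, 0, 2, 3, 2, 2⟩ :=
  Good.n2 (Good.n1 (Good.n0 L02019 g00289) g00291) (Good.n0 L02043 (Good.n0 (Good.n0 L02044 L02045) L02046))
theorem g00293 : Good (Phi V4.P V4.D (-1) (-1)) ⟨1, 1, 2, 1, 1, 0, 0, 0, 2, 2⟩ :=
  Good.n3 (Good.n0 L02000 (Good.n0 L02001 L02002)) (Good.n3 (Good.n0 L02003 (Good.n0 g00288 L02018)) g00292)
theorem g00294 : Good (Phi V4.P V4.D (-1) (-1)) ⟨3, 6, 2, 1, 2, 0, 3, 7, 3, 6⟩ :=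
  Good.n0 (Good.n1 L02051 L02052) (Good.n1 (Good.n3 L02053 L02054) (Good.n0 (Good.n3 L02055 L02056) (Good.n1 L02057 L02058)))
theorem g00295 : Good (Phi V4.P V4.D (-1) (-1)) ⟨2, 3, 2, 1, 2, 1, 0, 0, 3, 6⟩ :=
  Good.n3 L02061 (Good.n0 (Good.n0 (Good.n3 L02062 L02063) (Good.n3 (Good.n1 L02064 L02065) L02066)) L02067)
theorem g00296 : Good (Phi V4.P V4.D (-1) (-1)) ⟨1, 1, 2, 1, 1, 0, 0, 0, 3, 6⟩ :=
  Good.n2 (Good.n0 L02047 (Good.n3 L02048 (Good.n3 L02049 (Good.n0 (Good.n3 L02050 g00294) L02059)))) (Good.n0 L02060 g00295)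
theorem g00297 : Good (Phi V4.P V4.D (-1) (-1)) ⟨8, 193, 7, 32, 2, 0, 1, 1, 3, 7⟩ :=
  Good.n3 L02071 (Good.n4 (Good.n3 L02072 (Good.n4 (Good.n3 L02073 (Good.n2 L02074 L02075)) L02076)) L02077)
theorem g00298 : Good (Phi V4.P V4.D (-1) (-1)) ⟨7, 96, 6, 16, 1, 0, 1, 1, 3, 7⟩ :=
  Good.n0 L02070 (Good.n1 (Good.n2 g00297 (Good.n2 (Good.n2 (Good.n3 L02078 L02079) L02080) L02081)) L02082)
theorem g00299 : Good (Phi V4.P V4.D (-1) (-1)) ⟨7, 97, 5, 8, 2, 0, 1, 1, 3, 7⟩ :=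
  Good.n3 L02084 (Good.n4 (Good.n3 L02085 (Good.n4 (Good.n3 L02086 (Good.n2 L02087 L02088)) L02089)) L02090)
theorem g00300 : Good (Phi V4.P V4.D (-1) (-1)) ⟨6, 48, 5, 8, 1, 0, 1, 1, 3, 7⟩ :=
  Good.n0 (Good.n1 g00298 L02083) (Good.n2 g00299 (Good.n2 (Good.n2 (Good.n3 L02091 L02092) L02093) L02094))
theorem g00301 : Good (Phi V4.P V4.D (-1) (-1)) ⟨6, 49, 4, 4, 2, 0, 1, 1, 3, 7⟩ :=
  Good.n3 L02096 (Good.n4 (Good.n3 L02097 (Good.n4 (Good.n3 L02098 (Good.n2 L02099 L02100)) L02101)) L02102)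
theorem g00302 : Good (Phi V4.P V4.D (-1) (-1)) ⟨5, 24, 4, 4, 1, 0, 1, 1, 3, 7⟩ :=
  Good.n0 (Good.n1 g00300 L02095) (Good.n2 g00301 (Good.n2 (Good.n2 (Good.n3 L02103 L02104) L02105) L02106))
theorem g00303 : Good (Phi V4.P V4.D (-1) (-1)) ⟨5, 25, 3, 2, 2, 0, 1, 1, 3, 7⟩ :=
  Good.n3 L02108 (Good.n4 (Good.n3 L02109 (Good.n4 (Good.n3 L02110 (Good.n2 L02111 L02112)) L02113)) L02114)
theorem g00304 : Good (Phi V4.P V4.D (-1) (-1)) ⟨4, 12, 3, 2, 1, 0, 1, 1, 3, 7⟩ :=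
  Good.n0 (Good.n1 g00302 L02107) (Good.n2 g00303 (Good.n2 (Good.n2 (Good.n3 L02115 L02116) L02117) L02118))
theorem g00305 : Good (Phi V4.P V4.D (-1) (-1)) ⟨7, 103, 6, 24, 2, 0, 1, 1, 3, 7⟩ :=
  Good.n3 L02122 (Good.n4 (Good.n3 L02123 (Good.n4 (Good.n3 L02124 (Good.n2 L02125 L02126)) L02127)) L02128)
theorem g00306 : Good (Phi V4.P V4.D (-1) (-1)) ⟨15, 26559, 14, 6400, 2, 0, 1, 1, 3, 7⟩ :=
  Good.n3 L02140 (Good.n4 (Good.n3 L02141 (Good.n4 (Good.n3 L02142 (Good.n2 L02143 L02144)) L02145)) L02146)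
theorem g00307 : Good (Phi V4.P V4.D (-1) (-1)) ⟨14, 13279, 13, 3200, 1, 0, 1, 1, 3, 7⟩ :=
  Good.n0 L02139 (Good.n1 (Good.n2 g00306 (Good.n2 (Good.n2 (Good.n3 L02147 L02148) L02149) L02150)) L02151)
theorem g00308 : Good (Phi V4.P V4.D (-1) (-1)) ⟨11, 1659, 10, 400, 1, 0, 1, 1, 3, 7⟩ :=
  Good.n0 L02136 (Good.n1 (Good.n0 L02137 (Good.n1 (Good.n0 L02138 (Good.n1 g00307 L02152)) L02153)) L02154)
theorem g00309 : Good (Phi V4.P V4.D (-1) (-1)) ⟨9, 415, 7, 50, 2, 0, 1, 1, 3, 7⟩ :=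
  Good.n3 L02158 (Good.n4 (Good.n3 L02159 (Good.n4 (Good.n3 L02160 (Good.n2 L02161 L02162)) L02163)) L02164)
theorem g00310 : Good (Phi V4.P V4.D (-1) (-1)) ⟨8, 207, 7, 50, 1, 0, 1, 1, 3, 7⟩ :=
  Good.n0 (Good.n1 (Good.n0 L02134 (Good.n1 (Good.n0 L02135 (Good.n1 g00308 L02155)) L02156)) L02157) (Good.n2 g00309 (Good.n2 (Good.n2 (Good.n3 L02165 L02166) L02167) L02168))
theorem g00311 : Good (Phi V4.P V4.D (-1) (-1)) ⟨7, 103, 5, 12, 1, 0, 1, 1, 3, 7⟩ :=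
  Good.n1 (Good.n2 g00305 (Good.n2 (Good.n2 (Good.n3 L02129 L02130) L02131) L02132)) (Good.n0 L02133 (Good.n1 g00310 L02169))
theorem g00312 : Good (Phi V4.P V4.D (-1) (-1)) ⟨4, 12, 2, 1, 1, 0, 1, 1, 3, 7⟩ :=
  Good.n1 g00304 (Good.n0 L02119 (Good.n1 (Good.n0 L02120 (Good.n1 (Good.n0 L02121 g00311) L02170)) L02171))
theorem g00313 : Good (Phi V4.P V4.D (-1) (-1)) ⟨8, 208, 6, 23, 2, 0, 1, 1, 3, 7⟩ :=
  Good.n3 L02175 (Good.n4 (Good.n3 L02176 (Good.n4 (Good.n3 L02177 (Good.n2 L02178 L02179)) L02180)) L02181)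
theorem g00314 : Good (Phi V4.P V4.D (-1) (-1)) ⟨7, 104, 5, 11, 1, 0, 1, 1, 3, 7⟩ :=
  Good.n1 L02174 (Good.n0 (Good.n2 g00313 (Good.n2 (Good.n2 (Good.n3 L02182 L02183) L02184) L02185)) L02186)
theorem g00315 : Good (Phi V4.P V4.D (-1) (-1)) ⟨5, 26, 3, 3, 2, 0, 1, 1, 3, 7⟩ :=
  Good.n3 L02190 (Good.n4 (Good.n3 L02191 (Good.n4 (Good.n3 L02192 (Good.n2 L02193 L02194)) L02195)) L02196)
theorem g00316 : Good (Phi V4.P V4.D (-1) (-1)) ⟨10, 864, 9, 249, 2, 0, 1, 1, 3, 7⟩ :=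
  Good.n3 L02205 (Good.n4 (Good.n3 L02206 (Good.n4 (Good.n3 L02207 (Good.n2 L02208 L02209)) L02210)) L02211)
theorem g00317 : Good (Phi V4.P V4.D (-1) (-1)) ⟨9, 432, 8, 124, 1, 0, 1, 1, 3, 7⟩ :=
  Good.n0 (Good.n1 L02204 (Good.n2 g00316 (Good.n2 (Good.n2 (Good.n3 L02212 L02213) L02214) L02215))) L02216
theorem g00318 : Good (Phi V4.P V4.D (-1) (-1)) ⟨9, 432, 8, 125, 2, 0, 1, 1, 3, 7⟩ :=
  Good.n3 L02217 (Good.n4 (Good.n3 L02218 (Good.n4 (Good.n3 L02219 (Good.n2 L02220 L02221)) L02222)) L02223)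
theorem g00319 : Good (Phi V4.P V4.D (-1) (-1)) ⟨8, 216, 7, 62, 1, 0, 1, 1, 3, 7⟩ :=
  Good.n0 (Good.n1 g00317 (Good.n2 g00318 (Good.n2 (Good.n2 (Good.n3 L02224 L02225) L02226) L02227))) L02228
theorem g00320 : Good (Phi V4.P V4.D (-1) (-1)) ⟨9, 432, 7, 63, 2, 0, 1, 1, 3, 7⟩ :=
  Good.n3 L02229 (Good.n4 (Good.n3 L02230 (Good.n4 (Good.n3 L02231 (Good.n2 L02232 L02233)) L02234)) L02235)
theorem g00321 : Good (Phi V4.P V4.D (-1) (-1)) ⟨11, 1732, 9, 253, 2, 0, 1, 1, 3, 7⟩ :=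
  Good.n3 L02241 (Good.n4 (Good.n3 L02242 (Good.n4 (Good.n3 L02243 (Good.n2 L02244 L02245)) L02246)) L02247)
theorem g00322 : Good (Phi V4.P V4.D (-1) (-1)) ⟨10, 866, 8, 126, 1, 0, 1, 1, 3, 7⟩ :=
  Good.n1 L02240 (Good.n0 (Good.n2 g00321 (Good.n2 (Good.n2 (Good.n3 L02248 L02249) L02250) L02251)) L02252)
theorem g00323 : Good (Phi V4.P V4.D (-1) (-1)) ⟨10, 866, 8, 127, 2, 0, 1, 1, 3, 7⟩ :=
  Good.n3 L02254 (Good.n4 (Good.n3 L02255 (Good.n4 (Good.n3 L02256 (Good.n2 L02257 L02258)) L02259)) L02260)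
theorem g00324 : Good (Phi V4.P V4.D (-1) (-1)) ⟨11, 1734, 9, 255, 2, 0, 1, 1, 3, 7⟩ :=
  Good.n3 L02266 (Good.n4 (Good.n3 L02267 (Good.n4 (Good.n3 L02268 (Good.n2 L02269 L02270)) L02271)) L02272)
theorem g00325 : Good (Phi V4.P V4.D (-1) (-1)) ⟨10, 867, 8, 127, 1, 0, 1, 1, 3, 7⟩ :=
  Good.n1 L02265 (Good.n0 (Good.n2 g00324 (Good.n2 (Good.n2 (Good.n3 L02273 L02274) L02275) L02276)) L02277)
theorem g00326 : Good (Phi V4.P V4.D (-1) (-1)) ⟨9, 433, 7, 63, 1, 0, 1, 1, 3, 7⟩ :=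
  Good.n1 (Good.n0 g00322 L02253) (Good.n0 (Good.n2 g00323 (Good.n2 (Good.n2 (Good.n3 L02261 L02262) L02263) L02264)) g00325)
theorem g00327 : Good (Phi V4.P V4.D (-1) (-1)) ⟨8, 216, 6, 31, 1, 0, 1, 1, 3, 7⟩ :=
  Good.n1 g00319 (Good.n0 (Good.n2 g00320 (Good.n2 (Good.n2 (Good.n3 L02236 L02237) L02238) L02239)) g00326)
theorem g00328 : Good (Phi V4.P V4.D (-1) (-1)) ⟨5, 27, 3, 3, 1, 0, 1, 1, 3, 7⟩ :=
  Good.n1 L02201 (Good.n0 (Good.n1 L02202 (Good.n0 (Good.n1 L02203 (Good.n0 g00327 L02278)) L02279)) L02280)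
theorem g00329 : Good (Phi V4.P V4.D (-1) (-1)) ⟨4, 13, 2, 1, 1, 0, 1, 1, 3, 7⟩ :=
  Good.n1 (Good.n0 (Good.n1 L02172 (Good.n0 (Good.n1 L02173 (Good.n0 g00314 L02187)) L02188)) L02189) (Good.n0 (Good.n2 g00315 (Good.n2 (Good.n2 (Good.n3 L02197 L02198) L02199) L02200)) g00328)
theorem g00330 : Good (Phi V4.P V4.D (-1) (-1)) ⟨1, 1, 2, 1, 1, 0, 0, 0, 1, 1⟩ :=
  Good.n4 g00293 (Good.n4 g00296 (Good.n3 L02068 (Good.n0 L02069 (Good.n0 (Good.n0 g00312 g00329) L02281))))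
theorem g00331 : Good (Phi V4.P V4.D (-1) (-1)) ⟨1, 1, 2, 1, 0, 0, 0, 0, 1, 1⟩ :=
  Good.n2 g00330 (Good.n4 (Good.n4 (Good.n0 L02282 (Good.n0 (Good.n3 L02283 L02284) L02285)) L02286) L02287)
theorem g00332 : Good (Phi V4.P V4.D (-1) (-1)) ⟨5, 27, 3, 4, 5, 0, 3, 7, 2, 2⟩ :=
  Good.n1 (Good.n0 (Good.n1 (Good.n3 L02298 L02299) L02300) (Good.n1 L02301 L02302)) (Good.n0 L02303 (Good.n3 L02304 (Good.n0 L02305 L02306)))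
theorem g00333 : Good (Phi V4.P V4.D (-1) (-1)) ⟨5, 27, 1, 1, 5, 0, 2, 3, 1, 1⟩ :=
  Good.n3 (Good.n4 L02296 L02297) (Good.n1 (Good.n1 (Good.n4 g00332 (Good.n4 (Good.n3 L02307 L02308) L02309)) L02310) L02311)
theorem g00334 : Good (Phi V4.P V4.D (-1) (-1)) ⟨7, 108, 4, 8, 5, 1, 0, 0, 1, 1⟩ :=
  Good.n3 L02312 (Good.n3 (Good.n4 L02313 L02314) (Good.n3 (Good.n4 L02315 L02316) (Good.n3 L02317 L02318)))
theorem g00335 : Good (Phi V4.P V4.D (-1) (-1)) ⟨7, 109, 2, 2, 5, 1, 2, 3, 1, 1⟩ :=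
  Good.n3 (Good.n1 (Good.n1 (Good.n4 L02324 L02325) L02326) L02327) (Good.n1 (Good.n1 (Good.n3 L02328 L02329) L02330) L02331)
theorem g00336 : Good (Phi V4.P V4.D (-1) (-1)) ⟨6, 54, 2, 2, 5, 1, 0, 0, 1, 1⟩ :=
  Good.n0 (Good.n1 (Good.n1 g00334 L02319) L02320) (Good.n3 L02321 (Good.n3 (Good.n4 L02322 L02323) g00335))
theorem g00337 : Good (Phi V4.P V4.D (-1) (-1)) ⟨7, 110, 5, 18, 5, 1, 3, 7, 1, 1⟩ :=
  Good.n1 (Good.n4 (Good.n3 L02343 L02344) (Good.n4 L02345 L02346)) (Good.n0 L02347 (Good.n1 (Good.n0 L02348 (Good.n1 (Good.n0 L02349 L02350) L02351)) L02352))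
theorem g00338 : Good (Phi V4.P V4.D (-1) (-1)) ⟨6, 55, 3, 4, 5, 1, 3, 7, 1, 1⟩ :=
  Good.n1 (Good.n1 L02337 (Good.n0 (Good.n1 L02338 (Good.n3 L02339 (Good.n4 L02340 L02341))) L02342)) (Good.n1 (Good.n0 g00337 L02353) (Good.n0 L02354 L02355))
theorem g00339 : Good (Phi V4.P V4.D (-1) (-1)) ⟨6, 55, 2, 2, 5, 1, 0, 0, 1, 1⟩ :=
  Good.n3 L02332 (Good.n3 (Good.n4 L02333 L02334) (Good.n3 (Good.n4 L02335 L02336) (Good.n1 g00338 L02356)))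
theorem g00340 : Good (Phi V4.P V4.D (-1) (-1)) ⟨5, 27, 1, 1, 4, 0, 0, 0, 1, 1⟩ :=
  Good.n2 (Good.n3 L02291 (Good.n3 (Good.n1 (Good.n1 (Good.n4 L02292 L02293) L02294) L02295) g00333)) (Good.n1 (Good.n0 g00336 g00339) L02357)
theorem g00341 : Good (Phi V4.P V4.D (-1) (-1)) ⟨5, 27, 1, 1, 4, 1, 1, 1, 2, 2⟩ :=
  Good.n3 L02359 (Good.n3 L02360 (Good.n1 (Good.n1 (Good.n3 L02361 (Good.n1 L02362 L02363)) L02364) L02365))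
theorem g00342 : Good (Phi V4.P V4.D (-1) (-1)) ⟨5, 27, 1, 1, 4, 1, 1, 1, 2, 3⟩ :=
  Good.n1 (Good.n3 L02367 (Good.n4 (Good.n3 L02368 (Good.n1 (Good.n3 L02369 L02370) L02371)) L02372)) L02373
theorem g00343 : Good (Phi V4.P V4.D (-1) (-1)) ⟨3, 6, 1, 1, 3, 0, 0, 0, 1, 1⟩ :=
  Good.n0 L02289 (Good.n0 L02290 (Good.n2 g00340 (Good.n4 (Good.n3 L02358 g00341) (Good.n3 L02366 g00342))))
theorem g00344 : Good (Phi V4.P V4.D (-1) (-1)) ⟨5, 27, 3, 4, 3, 1, 2, 3, 2, 2⟩ :=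
  Good.n1 (Good.n3 L02380 L02381) (Good.n0 L02382 (Good.n1 (Good.n0 (Good.n3 L02383 L02384) L02385) (Good.n0 L02386 L02387)))
theorem g00345 : Good (Phi V4.P V4.D (-1) (-1)) ⟨3, 6, 2, 2, 3, 1, 1, 1, 1, 1⟩ :=
  Good.n0 L02377 (Good.n3 L02378 (Good.n1 (Good.n4 (Good.n0 L02379 g00344) (Good.n3 L02388 L02389)) L02390))
theorem g00346 : Good (Phi V4.P V4.D (-1) (-1)) ⟨2, 3, 1, 1, 2, 0, 0, 0, 1, 1⟩ :=
  Good.n2 (Good.n0 g00343 L02374) (Good.n3 (Good.n0 L02375 L02376) (Good.n0 (Good.n1 g00345 L02391) L02392))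
theorem g00347 : Good (Phi V4.P V4.D (-1) (-1)) ⟨5, 27, 3, 4, 2, 1, 0, 0, 2, 3⟩ :=
  Good.n3 L02401 (Good.n3 (Good.n4 (Good.n3 (Good.n4 (Good.n2 L02402 L02403) L02404) L02405) L02406) L02407)
theorem g00348 : Good (Phi V4.P V4.D (-1) (-1)) ⟨4, 13, 3, 4, 2, 1, 0, 0, 1, 1⟩ :=
  Good.n0 L02395 (Good.n4 (Good.n3 L02396 (Good.n1 (Good.n3 L02397 L02398) (Good.n3 L02399 L02400))) g00347)
theorem g00349 : Good (Phi V4.P V4.D (-1) (-1)) ⟨1, 1, 1, 1, 1, 0, 0, 0, 1, 1⟩ :=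
  Good.n2 (Good.n0 L02288 g00346) (Good.n0 L02393 (Good.n0 (Good.n1 (Good.n0 L02394 (Good.n1 g00348 L02408)) L02409) L02410))
theorem g00350 : Good (Phi V4.P V4.D (-1) (-1)) ⟨3, 6, 1, 1, 1, 1, 0, 0, 2, 2⟩ :=
  Good.n3 L02412 (Good.n3 (Good.n4 (Good.n2 (Good.n0 L02413 (Good.n1 L02414 L02415)) L02416) L02417) L02418)
theorem g00351 : Good (Phi V4.P V4.D (-1) (-1)) ⟨1, 1, 0, 0, 0, 0, 0, 0, 1, 1⟩ :=
  Good.n1 (Good.n1 (Good.n2 g00285 g00286) g00331) (Good.n2 g00349 (Good.n0 L02411 (Good.n4 (Good.n0 g00350 L02419) L02420)))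
theorem all : Good (Phi V4.P V4.D (-1) (-1)) ⟨0, 0, 0, 0, 0, 0, 0, 0, 0, 0⟩ :=
  Good.n0 g00015 (Good.n4 g00275 g00351)

end Crest.Agent.R097C4.N4mm
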