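import Crest.Agent.R097.T4

/-!
# Row 97, box cover in dimension n = 4 (generated)
-/

set_option autoImplicit false
set_option Elab.async false
set_option maxHeartbeats 0
set_option maxRecDepth 100000

open Crest.Agent.R097 Crest.Agent.R097.KA


namespace Crest.Agent.R097C4.N4mp

theorem L00060 : Good (Phi V4.P V4.D (-1) 1) ⟨2, 1, 1, 0, 1, 0, 3, 6, 3, 2⟩ :=
  leaf_sound (S := T4.ds_mp) T4.ok_mp (w := 160) (c := ⟨⟨.negSucc 276, .negSucc 82, .negSucc 63, .negSucc 214, .ofNat 121, .ofNat 60⟩, ⟨.negSucc 8, .ofNat 26, .negSucc 171, .negSucc 77, .ofNat 28, .ofNat 10⟩, ⟨.negSucc 168, .ofNat 108, .ofNat 58, .ofNat 260, .negSucc 139, .negSucc 6⟩, ⟨.negSucc 821, .negSucc 63, .negSucc 62, .negSucc 382, .ofNat 309, .ofNat 149⟩, ⟨.negSucc 5, .negSucc 27, .ofNat 21, .negSucc 594, .ofNat 35, .ofNat 31⟩, .ofNat 382, .negSucc 109, .ofNat 0, .negSucc 109,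 .ofNat 724, .ofNat 0, .ofNat 487, .ofNat 151, .negSucc 541, .ofNat 0, .ofNat 323, .negSucc 92, .ofNat 0, .ofNat 0, .ofNat 974, .ofNat 5475, .ofNat 0, .ofNat 0, .ofNat 0, .ofNat 0, .ofNat 0, .ofNat 0, .ofNat 0, .ofNat 0, .ofNat 0, .ofNat 0, .ofNat 0, .ofNat 0, .ofNat 0, .ofNat 0, .ofNat 50744675697389027139885465600, .ofNat 0⟩)
    (by decide +kernel)
theorem L00061 : Good (Phi V4.P V4.D (-1) 1) ⟨2, 1, 1, 0, 2, 0, 3, 7, 3, 2⟩ :=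
  leaf_sound (S := T4.ds_mp) T4.ok_mp (w := 168) (c := ⟨⟨.negSucc 224, .negSucc 39, .negSucc 25, .negSucc 41, .ofNat 246, .ofNat 45⟩, ⟨.negSucc 28, .ofNat 3, .negSucc 65, .negSucc 25, .ofNat 61, .ofNat 10⟩, ⟨.negSucc 254, .ofNat 52, .ofNat 24, .ofNat 87, .negSucc 254, .ofNat 22⟩, ⟨.negSucc 606, .negSucc 20, .negSucc 30, .negSucc 52, .ofNat 585, .ofNat 102⟩, ⟨.negSucc 13, .negSucc 5, .negSucc 6, .negSucc 189, .ofNat 42, .ofNat 21⟩, .ofNat 382, .negSucc 109, .ofNat 0, .negSucc 109, .ofNat 724, .ofNat 0, .ofNat 249, .ofNat 75, .negSucc 343, .ofNat 0, .ofNat 167, .negSucc 64, .ofNat 0, .ofNat 0, .ofNat 533, .ofNat 3443, .ofNat 0, .ofNat 0, .ofNat 0, .ofNat 0, .ofNat 0, .ofNat 32292342939511659933989653708800, .ofNat 0, .ofNat 0, .ofNat 0, .ofNat 0, .ofNat 0, .ofNat 0, .ofNat 0, .ofNat 0, .ofNat 0, .ofNat 0⟩)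
    (by decide +kernel)
theorem L00062 : Good (Phi V4.P V4.D (-1) 1) ⟨2, 1, 1, 0, 2, 1, 3, 7, 3, 2⟩ :=
  leaf_sound (S := T4.ds_mp) T4.ok_mp (w := 168) (c := ⟨⟨.negSucc 222, .negSucc 61, .negSucc 105, .negSucc 168, .ofNat 188, .ofNat 94⟩, ⟨.negSucc 24, .ofNat 17, .negSucc 147, .negSucc 63, .ofNat 55, .ofNat 28⟩, ⟨.negSucc 215, .ofNat 95, .ofNat 101, .ofNat 188, .negSucc 190, .negSucc 30⟩, ⟨.negSucc 620, .negSucc 31, .negSucc 127, .negSucc 349, .ofNat 454, .ofNat 216⟩, ⟨.negSucc 208, .negSucc 67, .ofNat 4, .negSucc 317, .ofNat 78, .ofNat 40⟩, .ofNat 382, .negSucc 104, .ofNat 0, .negSucc 104, .ofNat 727, .ofNat 0, .ofNat 522, .ofNat 158, .negSucc 627, .ofNat 0, .ofNat 338, .negSucc 110, .ofNat 0, .ofNat 0, .ofNat 1012, .ofNat 6804, .ofNat 0, .ofNat 0, .ofNat 0, .ofNat 0, .ofNat 0, .ofNat 333841944312711138039105060864000, .ofNat 0, .ofNat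 0, .ofNat 0, .ofNat 217326898760759944894176716390400, .ofNat 0, .ofNat 0, .ofNat 0, .ofNat 281116737638988837388808513126400, .ofNat 0, .ofNat 0⟩)
    (by decide +kernel)
theorem L00063 : Good (Phi V4.P V4.D (-1) 1) ⟨2, 0, 1, 0, 1, 0, 3, 6, 3, 3⟩ :=
  leaf_sound (S := T4.ds_mp) T4.ok_mp (w := 160) (c := ⟨⟨.negSucc 223, .negSucc 23, .negSucc 44, .negSucc 137, .ofNat 103, .ofNat 27⟩, ⟨.negSucc 0, .negSucc 21, .negSucc 126, .negSucc 72, .ofNat 31, .ofNat 10⟩, ⟨.negSucc 175, .ofNat 49, .ofNat 35, .ofNat 144, .negSucc 111, .ofNat 7⟩, ⟨.negSucc 753, .ofNat 25, .negSucc 34, .negSucc 270, .ofNat 290, .ofNat 81⟩, ⟨.negSucc 2, .negSucc 48, .negSucc 2, .negSucc 420, .ofNat 50, .ofNat 25⟩, .ofNat 412, .negSucc 96, .ofNat 0, .negSucc 96, .ofNat 652, .ofNat 0, .ofNat 411, .ofNat 111, .negSucc 378, .ofNat 0, .ofNat 306, .negSucc 66, .ofNat 0, .ofNat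 0, .ofNat 814, .ofNat 6610, .ofNat 0, .ofNat 0, .ofNat 0, .ofNat 0, .ofNat 0, .ofNat 0, .ofNat 0, .ofNat 0, .ofNat 0, .ofNat 0, .ofNat 0, .ofNat 0, .ofNat 0, .ofNat 0, .ofNat 0, .ofNat 0⟩)
    (by decide +kernel)
theorem L00064 : Good (Phi V4.P V4.D (-1) 1) ⟨2, 0, 2, 0, 2, 0, 3, 7, 3, 3⟩ :=
  leaf_sound (S := T4.ds_mp) T4.ok_mp (w := 168) (c := ⟨⟨.negSucc 160, .ofNat 3, .negSucc 4, .negSucc 28, .ofNat 160, .ofNat 11⟩, ⟨.negSucc 12, .negSucc 1, .negSucc 25, .negSucc 15, .ofNat 26, .ofNat 2⟩, ⟨.negSucc 257, .ofNat 9, .ofNat 4, .ofNat 46, .negSucc 157, .ofNat 34⟩, ⟨.negSucc 491, .ofNat 40, .negSucc 0, .negSucc 64, .ofNat 466, .ofNat 34⟩, ⟨.negSucc 6, .negSucc 13, .negSucc 0, .negSucc 135, .ofNat 31, .ofNat 11⟩, .ofNat 403, .negSucc 47, .ofNat 0, .negSucc 47, .ofNat 643, .ofNat 0, .ofNat 428, .ofNat 57, .negSucc 469, .ofNat 0, .ofNat 312,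 .negSucc 47, .ofNat 0, .ofNat 0, .ofNat 854, .ofNat 12213, .ofNat 0, .ofNat 0, .ofNat 0, .ofNat 0, .ofNat 0, .ofNat 796561524091581323455095216537600, .ofNat 0, .ofNat 0, .ofNat 0, .ofNat 0, .ofNat 0, .ofNat 0, .ofNat 0, .ofNat 0, .ofNat 0, .ofNat 0⟩)
    (by decide +kernel)
theorem L00065 : Good (Phi V4.P V4.D (-1) 1) ⟨2, 0, 2, 0, 2, 1, 3, 7, 3, 3⟩ :=
  leaf_sound (S := T4.ds_mp) T4.ok_mp (w := 168) (c := ⟨⟨.negSucc 193, .ofNat 13, .negSucc 21, .negSucc 77, .ofNat 138, .ofNat 27⟩, ⟨.negSucc 20, .negSucc 4, .negSucc 44, .negSucc 35, .ofNat 23, .ofNat 6⟩, ⟨.negSucc 212, .ofNat 19, .ofNat 16, .ofNat 93, .negSucc 135, .ofNat 16⟩, ⟨.negSucc 594, .ofNat 99, .negSucc 21, .negSucc 182, .ofNat 396, .ofNat 77⟩, ⟨.negSucc 147, .negSucc 52, .ofNat 0, .negSucc 183, .ofNat 83, .ofNat 22⟩, .ofNat 404, .negSucc 54, .ofNat 0, .negSucc 54, .ofNat 644,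 .ofNat 0, .ofNat 438, .ofNat 68, .negSucc 433, .ofNat 0, .ofNat 314, .negSucc 50, .ofNat 0, .ofNat 0, .ofNat 835, .ofNat 16195, .ofNat 0, .ofNat 0, .ofNat 0, .ofNat 0, .ofNat 0, .ofNat 2051100611622734118240872772403200, .ofNat 0, .ofNat 0, .ofNat 0, .ofNat 1916095195721589847496472290918400, .ofNat 0, .ofNat 0, .ofNat 0, .ofNat 1936087975677505330084480391577600, .ofNat 0, .ofNat 0⟩)
    (by decide +kernel)
theorem L00066 : Good (Phi V4.P V4.D (-1) 1) ⟨2, 0, 2, 1, 3, 0, 4, 14, 3, 3⟩ :=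
  leaf_sound (S := T4.ds_mp) T4.ok_mp (w := 184) (c := ⟨⟨.negSucc 161, .negSucc 7, .negSucc 4, .negSucc 9, .ofNat 74, .ofNat 14⟩, ⟨.negSucc 47, .negSucc 6, .negSucc 30, .negSucc 8, .ofNat 30, .ofNat 6⟩, ⟨.negSucc 253, .ofNat 16, .ofNat 4, .ofNat 16, .negSucc 74, .ofNat 33⟩, ⟨.negSucc 488, .ofNat 9, .negSucc 7, .negSucc 1, .ofNat 209, .ofNat 34⟩, ⟨.negSucc 5, .negSucc 3, .negSucc 0, .negSucc 66, .ofNat 12, .ofNat 8⟩, .ofNat 430, .negSucc 144, .ofNat 0, .negSucc 144, .ofNat 664, .ofNat 0, .ofNat 400, .ofNat 158, .negSucc 467, .ofNat 0, .ofNat 320, .negSucc 129, .ofNat 0, .ofNat 0, .ofNat 859, .ofNat 31809, .ofNat 0, .ofNat 0, .ofNat 0, .ofNat 0, .ofNat 0, .ofNat 0, .ofNat 0, .ofNat 0, .ofNat 0, .ofNat 0, .ofNat 0, .ofNat 0, .ofNat 0, .ofNat 0, .ofNat 0, .ofNat 0⟩)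
    (by decide +kernel)
theorem L00067 : Good (Phi V4.P V4.D (-1) 1) ⟨3, 0, 2, 1, 3, 0, 4, 15, 3, 3⟩ :=
  leaf_sound (S := T4.ds_mp) T4.ok_mp (w := 184) (c := ⟨⟨.negSucc 95, .ofNat 5, .ofNat 0, .negSucc 9, .ofNat 92, .ofNat 7⟩, ⟨.negSucc 29, .ofNat 0, .negSucc 11, .negSucc 4, .ofNat 36, .ofNat 2⟩, ⟨.negSucc 321, .ofNat 0, .negSucc 0, .ofNat 13, .negSucc 90, .ofNat 43⟩, ⟨.negSucc 285, .ofNat 20, .ofNat 5, .negSucc 13, .ofNat 269, .ofNat 20⟩, ⟨.negSucc 9, .negSucc 2, .ofNat 3, .negSucc 41, .ofNat 16, .ofNat 6⟩, .ofNat 426, .negSucc 123, .ofNat 0, .negSucc 123, .ofNat 651, .ofNat 0, .ofNat 415, .ofNat 140, .negSucc 513, .ofNat 0, .ofNat 328, .negSucc 126, .ofNat 0, .ofNat 0, .ofNat 883, .ofNat 29993, .ofNat 0, .ofNat 66902591806689719113059665549721600, .ofNat 0, .ofNat 0, .ofNat 0, .ofNat 0, .ofNat 0, .ofNat 0, .ofNat 0, .ofNat 0, .ofNat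 0, .ofNat 0, .ofNat 0, .ofNat 0, .ofNat 0, .ofNat 0⟩)
    (by decide +kernel)
theorem L00068 : Good (Phi V4.P V4.D (-1) 1) ⟨3, 1, 2, 1, 3, 0, 4, 15, 3, 3⟩ :=
  leaf_sound (S := T4.ds_mp) T4.ok_mp (w := 184) (c := ⟨⟨.negSucc 100, .ofNat 5, .negSucc 2, .negSucc 1, .ofNat 103, .ofNat 12⟩, ⟨.negSucc 36, .ofNat 1, .negSucc 11, .negSucc 4, .ofNat 44, .ofNat 8⟩, ⟨.negSucc 315, .negSucc 0, .ofNat 2, .ofNat 12, .negSucc 102, .ofNat 40⟩, ⟨.negSucc 293, .ofNat 21, .negSucc 3, .ofNat 15, .ofNat 288, .ofNat 30⟩, ⟨.negSucc 4, .negSucc 1, .negSucc 0, .negSucc 46, .ofNat 14, .ofNat 6⟩, .ofNat 430, .negSucc 153, .ofNat 0, .negSucc 153, .ofNat 673, .ofNat 0, .ofNat 410, .ofNat 173, .negSucc 546, .ofNat 0, .ofNat 329, .negSucc 159, .ofNat 0, .ofNat 0, .ofNat 906, .ofNat 30423, .ofNat 0, .ofNat 68699447481942180525189957156864000, .ofNat 0, .ofNat 0, .ofNat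 0, .ofNat 0, .ofNat 0, .ofNat 0, .ofNat 0, .ofNat 0, .ofNat 0, .ofNat 0, .ofNat 0, .ofNat 0, .ofNat 0, .ofNat 0⟩)
    (by decide +kernel)
theorem L00069 : Good (Phi V4.P V4.D (-1) 1) ⟨2, 0, 2, 1, 3, 1, 4, 14, 3, 3⟩ :=
  leaf_sound (S := T4.ds_mp) T4.ok_mp (w := 184) (c := ⟨⟨.negSucc 179, .ofNat 2, .negSucc 9, .negSucc 28, .ofNat 75, .ofNat 19⟩, ⟨.negSucc 59, .negSucc 2, .negSucc 34, .negSucc 14, .ofNat 31, .ofNat 9⟩, ⟨.negSucc 237, .ofNat 20, .ofNat 7, .ofNat 38, .negSucc 72, .ofNat 26⟩, ⟨.negSucc 525, .ofNat 53, .negSucc 5, .negSucc 54, .ofNat 208, .ofNat 52⟩, ⟨.negSucc 76, .negSucc 21, .ofNat 1, .negSucc 78, .ofNat 29, .ofNat 16⟩, .ofNat 427, .negSucc 137, .ofNat 0, .negSucc 137, .ofNat 662, .ofNat 0, .ofNat 406, .ofNat 155, .negSucc 459, .ofNat 0, .ofNat 320, .negSucc 123, .ofNat 0, .ofNat 0, .ofNat 849, .ofNat 32007, .ofNat 0, .ofNat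 0, .ofNat 0, .ofNat 0, .ofNat 0, .ofNat 0, .ofNat 0, .ofNat 0, .ofNat 0, .ofNat 0, .ofNat 0, .ofNat 0, .ofNat 0, .ofNat 0, .ofNat 0, .ofNat 0⟩)
    (by decide +kernel)
theorem L00070 : Good (Phi V4.P V4.D (-1) 1) ⟨2, 0, 2, 1, 3, 1, 4, 15, 3, 3⟩ :=
  leaf_sound (S := T4.ds_mp) T4.ok_mp (w := 184) (c := ⟨⟨.negSucc 110, .ofNat 14, .negSucc 11, .negSucc 27, .ofNat 95, .ofNat 23⟩, ⟨.negSucc 36, .ofNat 2, .negSucc 23, .negSucc 13, .ofNat 35, .ofNat 10⟩, ⟨.negSucc 307, .ofNat 8, .ofNat 10, .ofNat 39, .negSucc 89, .ofNat 26⟩, ⟨.negSucc 329, .ofNat 77, .negSucc 12, .negSucc 52, .ofNat 272, .ofNat 60⟩, ⟨.negSucc 51, .negSucc 21, .negSucc 1, .negSucc 65, .ofNat 31, .ofNat 15⟩, .ofNat 426, .negSucc 137, .ofNat 0, .negSucc 137, .ofNat 663, .ofNat 0, .ofNat 417, .ofNat 159, .negSucc 509, .ofNat 0, .ofNat 329, .negSucc 139, .ofNat 0, .ofNat 0, .ofNat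 880, .ofNat 22701, .ofNat 0, .ofNat 4352449651727091951112591874457600, .ofNat 0, .ofNat 0, .ofNat 0, .ofNat 394502931831054459051660051637862400, .ofNat 0, .ofNat 0, .ofNat 0, .ofNat 609758633741502123382573816086528000, .ofNat 0, .ofNat 0, .ofNat 0, .ofNat 495121122740382314620830892425216000, .ofNat 0, .ofNat 0⟩)
    (by decide +kernel)
theorem L00071 : Good (Phi V4.P V4.D (-1) 1) ⟨2, 0, 2, 1, 2, 1, 3, 7, 3, 3⟩ :=
  leaf_sound (S := T4.ds_mp) T4.ok_mp (w := 168) (c := ⟨⟨.negSucc 209, .ofNat 2, .negSucc 20, .negSucc 91, .ofNat 144, .ofNat 30⟩, ⟨.negSucc 71, .negSucc 5, .negSucc 47, .negSucc 44, .ofNat 62, .ofNat 13⟩, ⟨.negSucc 204, .ofNat 33, .ofNat 15, .ofNat 105, .negSucc 137, .ofNat 14⟩, ⟨.negSucc 599, .ofNat 76, .negSucc 16, .negSucc 205, .ofNat 395, .ofNat 79⟩, ⟨.negSucc 149, .negSucc 50, .ofNat 0, .negSucc 185, .ofNat 79, .ofNat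 23⟩, .ofNat 425, .negSucc 131, .ofNat 0, .negSucc 131, .ofNat 661, .ofNat 0, .ofNat 422, .ofNat 156, .negSucc 446, .ofNat 0, .ofNat 327, .negSucc 115, .ofNat 0, .ofNat 0, .ofNat 848, .ofNat 15433, .ofNat 0, .ofNat 0, .ofNat 0, .ofNat 0, .ofNat 0, .ofNat 2035567935649804404239011676160000, .ofNat 0, .ofNat 0, .ofNat 0, .ofNat 2127397265693561519807253184512000, .ofNat 0, .ofNat 0, .ofNat 0, .ofNat 2031852859370878501912055906304000, .ofNat 0, .ofNat 0⟩)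
    (by decide +kernel)
theorem L00072 : Good (Phi V4.P V4.D (-1) 1) ⟨3, 2, 2, 0, 2, 0, 2, 3, 3, 3⟩ :=
  leaf_sound (S := T4.ds_mp) T4.ok_mp (w := 168) (c := ⟨⟨.negSucc 304, .negSucc 25, .negSucc 1, .negSucc 19, .ofNat 311, .ofNat 18⟩, ⟨.negSucc 38, .ofNat 2, .negSucc 37, .negSucc 12, .ofNat 59, .ofNat 6⟩, ⟨.negSucc 98, .ofNat 33, .ofNat 3, .ofNat 54, .negSucc 319, .ofNat 21⟩, ⟨.negSucc 844, .negSucc 14, .ofNat 16, .negSucc 18, .ofNat 813, .ofNat 48⟩, ⟨.negSucc 15, .negSucc 12, .ofNat 0, .negSucc 201, .ofNat 67, .ofNat 9⟩, .ofNat 384, .negSucc 65, .ofNat 0, .negSucc 65, .ofNat 724, .ofNat 0, .ofNat 430, .ofNat 77, .negSucc 468, .ofNat 0, .ofNat 281, .negSucc 52, .ofNat 0, .ofNat 0, .ofNat 862, .ofNat 4926, .ofNat 0, .ofNat 0, .ofNat 0, .ofNat 0, .ofNat 0, .ofNat 3267712657326066504658275690086400, .ofNat 0, .ofNat 0, .ofNat 0, .ofNat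 0, .ofNat 0, .ofNat 0, .ofNat 0, .ofNat 0, .ofNat 0, .ofNat 0⟩)
    (by decide +kernel)
theorem L00073 : Good (Phi V4.P V4.D (-1) 1) ⟨3, 2, 2, 0, 2, 1, 2, 3, 3, 3⟩ :=
  leaf_sound (S := T4.ds_mp) T4.ok_mp (w := 168) (c := ⟨⟨.negSucc 313, .negSucc 22, .negSucc 42, .negSucc 77, .ofNat 278, .ofNat 55⟩, ⟨.negSucc 34, .ofNat 11, .negSucc 78, .negSucc 31, .ofNat 67, .ofNat 7⟩, ⟨.negSucc 57, .ofNat 41, .ofNat 38, .ofNat 93, .negSucc 283, .negSucc 18⟩, ⟨.negSucc 858, .ofNat 6, .negSucc 36, .negSucc 155, .ofNat 698, .ofNat 142⟩, ⟨.negSucc 232, .negSucc 38, .ofNat 4, .negSucc 318, .ofNat 113, .ofNat 21⟩, .ofNat 384, .negSucc 67, .ofNat 0, .negSucc 67, .ofNat 724, .ofNat 0, .ofNat 439, .ofNat 83, .negSucc 404, .ofNat 0, .ofNat 280, .negSucc 41, .ofNat 0, .ofNat 0, .ofNat 826, .ofNat 5690, .ofNat 0, .ofNat 0, .ofNat 0, .ofNat 0, .ofNat 0, .ofNat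 8085273153520662421085951203737600, .ofNat 0, .ofNat 0, .ofNat 0, .ofNat 5624696244044920662031455800524800, .ofNat 0, .ofNat 0, .ofNat 0, .ofNat 6415966385230410835501652744601600, .ofNat 0, .ofNat 0⟩)
    (by decide +kernel)
theorem L00074 : Good (Phi V4.P V4.D (-1) 1) ⟨3, 3, 2, 0, 1, 0, 2, 3, 3, 3⟩ :=
  leaf_sound (S := T4.ds_mp) T4.ok_mp (w := 160) (c := ⟨⟨.negSucc 347, .negSucc 30, .negSucc 36, .negSucc 64, .ofNat 353, .ofNat 76⟩, ⟨.negSucc 25, .ofNat 17, .negSucc 64, .negSucc 19, .ofNat 50, .ofNat 11⟩, ⟨.negSucc 57, .ofNat 44, .ofNat 37, .ofNat 144, .negSucc 358, .negSucc 31⟩, ⟨.negSucc 884, .negSucc 15, .negSucc 36, .negSucc 82, .ofNat 838, .ofNat 169⟩, ⟨.negSucc 7, .negSucc 22, .ofNat 7, .negSucc 579, .ofNat 77, .ofNat 45⟩, .ofNat 511, .negSucc 200, .ofNat 0, .negSucc 200, .ofNat 2028, .ofNat 0, .ofNat 415, .ofNat 117, .negSucc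 395, .ofNat 0, .ofNat 175, .negSucc 41, .ofNat 0, .ofNat 0, .ofNat 818, .ofNat 3034, .ofNat 0, .ofNat 0, .ofNat 0, .ofNat 0, .ofNat 0, .ofNat 33151567396406403750090611097600, .ofNat 0, .ofNat 0, .ofNat 0, .ofNat 0, .ofNat 0, .ofNat 0, .ofNat 0, .ofNat 0, .ofNat 0, .ofNat 0⟩)
    (by decide +kernel)
theorem L00075 : Good (Phi V4.P V4.D (-1) 1) ⟨3, 2, 2, 1, 2, 0, 2, 3, 3, 3⟩ :=
  leaf_sound (S := T4.ds_mp) T4.ok_mp (w := 168) (c := ⟨⟨.negSucc 302, .negSucc 13, .negSucc 10, .negSucc 44, .ofNat 304, .ofNat 24⟩, ⟨.negSucc 110, .ofNat 8, .negSucc 44, .negSucc 20, .ofNat 122, .ofNat 14⟩, ⟨.negSucc 101, .ofNat 22, .ofNat 9, .ofNat 75, .negSucc 311, .ofNat 15⟩, ⟨.negSucc 830, .ofNat 9, .negSucc 9, .negSucc 43, .ofNat 787, .ofNat 62⟩, ⟨.negSucc 19, .negSucc 0, .ofNat 3, .negSucc 199, .ofNat 57, .ofNat 10⟩, .ofNat 706, .negSucc 534, .ofNat 0, .negSucc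 534, .ofNat 1713, .ofNat 0, .ofNat 318, .ofNat 240, .negSucc 356, .ofNat 0, .ofNat 232, .negSucc 124, .ofNat 0, .ofNat 0, .ofNat 790, .ofNat 5463, .ofNat 0, .ofNat 13038610648626637709923005235200, .ofNat 0, .ofNat 0, .ofNat 0, .ofNat 3681406346406446753803377259315200, .ofNat 0, .ofNat 0, .ofNat 0, .ofNat 0, .ofNat 0, .ofNat 0, .ofNat 0, .ofNat 0, .ofNat 0, .ofNat 0⟩)
    (by decide +kernel)
theorem L00076 : Good (Phi V4.P V4.D (-1) 1) ⟨3, 2, 2, 1, 2, 1, 2, 3, 3, 3⟩ :=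
  leaf_sound (S := T4.ds_mp) T4.ok_mp (w := 168) (c := ⟨⟨.negSucc 334, .negSucc 34, .negSucc 41, .negSucc 126, .ofNat 271, .ofNat 56⟩, ⟨.negSucc 114, .ofNat 5, .negSucc 77, .negSucc 57, .ofNat 103, .ofNat 20⟩, ⟨.negSucc 43, .ofNat 56, .ofNat 38, .ofNat 138, .negSucc 272, .negSucc 16⟩, ⟨.negSucc 865, .negSucc 6, .negSucc 41, .negSucc 221, .ofNat 679, .ofNat 142⟩, ⟨.negSucc 229, .negSucc 36, .ofNat 1, .negSucc 317, .ofNat 111, .ofNat 16⟩, .ofNat 409, .negSucc 147, .ofNat 0, .negSucc 147, .ofNat 707, .ofNat 0, .ofNat 420, .ofNat 175, .negSucc 421, .ofNat 0, .ofNat 306, .negSucc 103, .ofNat 0, .ofNat 0, .ofNat 844, .ofNat 6172, .ofNat 0, .ofNat 0, .ofNat 0, .ofNat 0, .ofNat 0, .ofNat 8224251006282476007898257083596800, .ofNat 0, .ofNat 0, .ofNat 0, .ofNat 7148282079912911277812121128140800, .ofNat 0, .ofNat 0, .ofNat 0, .ofNat 8518602761766172747222951447756800,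 .ofNat 0, .ofNat 0⟩)
    (by decide +kernel)
theorem L00077 : Good (Phi V4.P V4.D (-1) 1) ⟨3, 3, 2, 1, 1, 0, 2, 3, 3, 3⟩ :=
  leaf_sound (S := T4.ds_mp) T4.ok_mp (w := 160) (c := ⟨⟨.negSucc 349, .negSucc 10, .negSucc 15, .negSucc 166, .ofNat 370, .ofNat 63⟩, ⟨.negSucc 98, .ofNat 13, .negSucc 56, .negSucc 65, .ofNat 120, .ofNat 23⟩, ⟨.negSucc 58, .ofNat 25, .ofNat 17, .ofNat 246, .negSucc 376, .negSucc 16⟩, ⟨.negSucc 877, .ofNat 31, .negSucc 0, .negSucc 225, .ofNat 854, .ofNat 148⟩, ⟨.ofNat 6, .negSucc 17, .ofNat 23, .negSucc 581, .ofNat 70, .ofNat 19⟩, .ofNat 605, .negSucc 443, .ofNat 0, .negSucc 443, .ofNat 1767, .ofNat 0, .ofNat 362, .ofNat 236, .negSucc 403, .ofNat 0, .ofNat 221, .negSucc 111, .ofNat 0, .ofNat 0, .ofNat 825, .ofNat 2857, .ofNat 0, .ofNat 0, .ofNat 0, .ofNat 0, .ofNat 0, .ofNat 27906411754894285167276117196800, .ofNat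 0, .ofNat 0, .ofNat 0, .ofNat 27824441218770360467367080755200, .ofNat 0, .ofNat 0, .ofNat 0, .ofNat 0, .ofNat 0, .ofNat 0⟩)
    (by decide +kernel)
theorem L00078 : Good (Phi V4.P V4.D (-1) 1) ⟨2, 0, 4, 8, 1, 0, 2, 2, 3, 2⟩ :=
  leaf_sound (S := T4.ds_mp) T4.ok_mp (w := 160) (c := ⟨⟨.negSucc 342, .negSucc 77, .negSucc 2, .negSucc 233, .ofNat 117, .ofNat 31⟩, ⟨.negSucc 186, .negSucc 32, .negSucc 23, .negSucc 137, .ofNat 64, .ofNat 18⟩, ⟨.ofNat 11, .ofNat 110, .negSucc 2, .ofNat 202, .negSucc 210, .negSucc 28⟩, ⟨.negSucc 1105, .negSucc 51, .ofNat 2, .negSucc 380, .ofNat 325, .ofNat 86⟩, ⟨.ofNat 18, .negSucc 43, .ofNat 5, .negSucc 527, .ofNat 17, .ofNat 9⟩, .ofNat 1778, .negSucc 2180, .ofNat 0, .negSucc 2180, .ofNat 4324, .ofNat 0, .ofNat 206, .ofNat 345, .negSucc 254, .ofNat 0, .ofNat 247, .negSucc 130, .ofNat 0, .ofNat 0, .ofNat 831,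 .ofNat 12633, .ofNat 0, .ofNat 0, .ofNat 0, .ofNat 0, .ofNat 0, .ofNat 0, .ofNat 13179406876962924730200883200, .ofNat 0, .ofNat 0, .ofNat 0, .ofNat 0, .ofNat 0, .ofNat 0, .ofNat 0, .ofNat 0, .ofNat 0⟩)
    (by decide +kernel)
theorem L00079 : Good (Phi V4.P V4.D (-1) 1) ⟨2, 0, 4, 8, 1, 0, 3, 6, 3, 2⟩ :=
  leaf_sound (S := T4.ds_mp) T4.ok_mp (w := 168) (c := ⟨⟨.negSucc 234, .negSucc 57, .negSucc 8, .negSucc 242, .ofNat 115, .ofNat 37⟩, ⟨.negSucc 128, .negSucc 23, .negSucc 19, .negSucc 143, .ofNat 64, .ofNat 21⟩, ⟨.negSucc 220, .ofNat 81, .ofNat 6, .ofNat 247, .negSucc 128, .ofNat 12⟩, ⟨.negSucc 757, .negSucc 42, .negSucc 8, .negSucc 426, .ofNat 298, .ofNat 97⟩, ⟨.ofNat 9, .negSucc 40, .negSucc 5, .negSucc 486, .ofNat 52, .ofNat 23⟩, .ofNat 895, .negSucc 761, .ofNat 0, .negSucc 761, .ofNat 1786, .ofNat 0, .ofNat 302, .ofNat 321, .negSucc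 349, .ofNat 0, .ofNat 290, .negSucc 164, .ofNat 0, .ofNat 0, .ofNat 853, .ofNat 11501, .ofNat 0, .ofNat 0, .ofNat 0, .ofNat 0, .ofNat 0, .ofNat 10739540105105027517581466009600, .ofNat 77157194186394516121347686400, .ofNat 0, .ofNat 0, .ofNat 0, .ofNat 0, .ofNat 0, .ofNat 0, .ofNat 0, .ofNat 0, .ofNat 0⟩)
    (by decide +kernel)
theorem L00080 : Good (Phi V4.P V4.D (-1) 1) ⟨2, 0, 4, 8, 2, 0, 4, 14, 3, 2⟩ :=
  leaf_sound (S := T4.ds_mp) T4.ok_mp (w := 176) (c := ⟨⟨.negSucc 175, .negSucc 19, .ofNat 0, .negSucc 73, .ofNat 78, .ofNat 31⟩, ⟨.negSucc 95, .negSucc 6, .negSucc 8, .negSucc 43, .ofNat 43, .ofNat 17⟩, ⟨.negSucc 300, .ofNat 31, .ofNat 0, .ofNat 88, .negSucc 83, .ofNat 29⟩, ⟨.negSucc 529, .negSucc 1, .ofNat 3, .negSucc 118, .ofNat 214, .ofNat 74⟩, ⟨.negSucc 17, .negSucc 9, .ofNat 2, .negSucc 174, .ofNat 20, .ofNat 23⟩, .ofNat 1725,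 .negSucc 2099, .ofNat 0, .negSucc 2099, .ofNat 4211, .ofNat 0, .ofNat 227, .ofNat 365, .negSucc 379, .ofNat 0, .ofNat 265, .negSucc 198, .ofNat 0, .ofNat 0, .ofNat 855, .ofNat 22501, .ofNat 0, .ofNat 0, .ofNat 0, .ofNat 0, .ofNat 0, .ofNat 0, .ofNat 609604071811257007201729904640000, .ofNat 0, .ofNat 0, .ofNat 0, .ofNat 0, .ofNat 0, .ofNat 0, .ofNat 0, .ofNat 0, .ofNat 0⟩)
    (by decide +kernel)
theorem L00081 : Good (Phi V4.P V4.D (-1) 1) ⟨3, 0, 4, 8, 3, 0, 4, 15, 3, 2⟩ :=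
  leaf_sound (S := T4.ds_mp) T4.ok_mp (w := 192) (c := ⟨⟨.negSucc 105, .negSucc 2, .ofNat 7, .negSucc 18, .ofNat 97, .ofNat 17⟩, ⟨.negSucc 54, .negSucc 2, .ofNat 1, .negSucc 11, .ofNat 52, .ofNat 9⟩, ⟨.negSucc 381, .ofNat 11, .negSucc 8, .ofNat 23, .negSucc 99, .ofNat 51⟩, ⟨.negSucc 317, .ofNat 4, .ofNat 13, .negSucc 25, .ofNat 278, .ofNat 46⟩, ⟨.negSucc 0, .negSucc 9, .ofNat 15, .negSucc 58, .ofNat 13, .ofNat 8⟩, .ofNat 1594, .negSucc 1846, .ofNat 0, .negSucc 1846, .ofNat 3787, .ofNat 0, .ofNat 247, .ofNat 356, .negSucc 405, .ofNat 0, .ofNat 270, .negSucc 208, .ofNat 0, .ofNat 0, .ofNat 865, .ofNat 45519, .ofNat 0, .ofNat 2219882989457958829824441876008140800, .ofNat 584935416059886255039029497036800, .ofNat 0, .ofNat 0, .ofNat 0, .ofNat 0, .ofNat 0, .ofNat 0, .ofNat 0, .ofNat 252343018574054660623024298498457600, .ofNat 0, .ofNat 0,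 .ofNat 0, .ofNat 249974235215495488036634055671808000, .ofNat 0⟩)
    (by decide +kernel)
theorem L00082 : Good (Phi V4.P V4.D (-1) 1) ⟨3, 0, 4, 8, 3, 1, 4, 15, 3, 2⟩ :=
  leaf_sound (S := T4.ds_mp) T4.ok_mp (w := 192) (c := ⟨⟨.negSucc 135, .ofNat 2, .negSucc 1, .negSucc 47, .ofNat 96, .ofNat 31⟩, ⟨.negSucc 72, .negSucc 0, .negSucc 5, .negSucc 27, .ofNat 52, .ofNat 17⟩, ⟨.negSucc 352, .ofNat 12, .ofNat 2, .ofNat 59, .negSucc 96, .ofNat 34⟩, ⟨.negSucc 367, .ofNat 20, .ofNat 1, .negSucc 103, .ofNat 263, .ofNat 76⟩, ⟨.negSucc 86, .negSucc 2, .negSucc 1, .negSucc 71, .ofNat 39, .ofNat 29⟩, .ofNat 868, .negSucc 693, .ofNat 0, .negSucc 693, .ofNat 1690, .ofNat 0, .ofNat 325, .ofNat 313, .negSucc 427, .ofNat 0, .ofNat 301, .negSucc 199, .ofNat 0, .ofNat 0, .ofNat 880, .ofNat 34038, .ofNat 0, .ofNat 1531008821430266675262710830910668800, .ofNat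 0, .ofNat 0, .ofNat 0, .ofNat 0, .ofNat 0, .ofNat 0, .ofNat 0, .ofNat 68635357514210165770870611074718105600, .ofNat 0, .ofNat 0, .ofNat 0, .ofNat 0, .ofNat 0, .ofNat 0⟩)
    (by decide +kernel)
theorem L00083 : Good (Phi V4.P V4.D (-1) 1) ⟨3, 1, 4, 8, 3, 0, 4, 15, 3, 2⟩ :=
  leaf_sound (S := T4.ds_mp) T4.ok_mp (w := 192) (c := ⟨⟨.negSucc 113, .negSucc 0, .negSucc 1, .negSucc 20, .ofNat 104, .ofNat 22⟩, ⟨.negSucc 61, .ofNat 1, .negSucc 4, .negSucc 12, .ofNat 58, .ofNat 12⟩, ⟨.negSucc 368, .ofNat 3, .ofNat 2, .ofNat 30, .negSucc 106, .ofNat 47⟩, ⟨.negSucc 325, .ofNat 10, .negSucc 1, .negSucc 26, .ofNat 288, .ofNat 57⟩, ⟨.negSucc 9, .ofNat 0, .negSucc 1, .negSucc 61, .ofNat 14, .ofNat 11⟩, .ofNat 901, .negSucc 771, .ofNat 0, .negSucc 771, .ofNat 1797, .ofNat 0, .ofNat 311, .ofNat 329, .negSucc 459, .ofNat 0, .ofNat 301, .negSucc 221, .ofNat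 0, .ofNat 0, .ofNat 903, .ofNat 37969, .ofNat 0, .ofNat 1915212062271211811693539695054028800, .ofNat 289573616698005967325504313753600, .ofNat 0, .ofNat 0, .ofNat 0, .ofNat 0, .ofNat 0, .ofNat 0, .ofNat 0, .ofNat 0, .ofNat 0, .ofNat 0, .ofNat 0, .ofNat 0, .ofNat 0⟩)
    (by decide +kernel)
theorem L00084 : Good (Phi V4.P V4.D (-1) 1) ⟨3, 1, 4, 8, 3, 1, 4, 15, 3, 2⟩ :=
  leaf_sound (S := T4.ds_mp) T4.ok_mp (w := 192) (c := ⟨⟨.negSucc 138, .negSucc 6, .negSucc 1, .negSucc 51, .ofNat 100, .ofNat 41⟩, ⟨.negSucc 76, .negSucc 0, .negSucc 5, .negSucc 29, .ofNat 56, .ofNat 23⟩, ⟨.negSucc 338, .ofNat 19, .ofNat 1, .ofNat 66, .negSucc 100, .ofNat 26⟩, ⟨.negSucc 360, .ofNat 7, .negSucc 0, .negSucc 106, .ofNat 267, .ofNat 101⟩, ⟨.negSucc 84, .negSucc 10, .ofNat 0, .negSucc 79, .ofNat 36, .ofNat 28⟩, .ofNat 1785, .negSucc 2203, .ofNat 0, .negSucc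 2203, .ofNat 4373, .ofNat 0, .ofNat 229, .ofNat 386, .negSucc 420, .ofNat 0, .ofNat 276, .negSucc 222, .ofNat 0, .ofNat 0, .ofNat 878, .ofNat 27145, .ofNat 0, .ofNat 1281731909528623832105386302347673600, .ofNat 0, .ofNat 0, .ofNat 0, .ofNat 0, .ofNat 0, .ofNat 0, .ofNat 0, .ofNat 80959819965500398317309358951838515200, .ofNat 0, .ofNat 0, .ofNat 0, .ofNat 0, .ofNat 0, .ofNat 0⟩)
    (by decide +kernel)
theorem L00085 : Good (Phi V4.P V4.D (-1) 1) ⟨2, 0, 4, 8, 2, 1, 3, 7, 3, 2⟩ :=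
  leaf_sound (S := T4.ds_mp) T4.ok_mp (w := 176) (c := ⟨⟨.negSucc 239, .negSucc 46, .negSucc 10, .negSucc 162, .ofNat 163, .ofNat 52⟩, ⟨.negSucc 136, .negSucc 18, .negSucc 18, .negSucc 93, .ofNat 91, .ofNat 29⟩, ⟨.negSucc 242, .ofNat 89, .ofNat 10, .ofNat 172, .negSucc 159, .ofNat 8⟩, ⟨.negSucc 664, .negSucc 12, .negSucc 13, .negSucc 337, .ofNat 418, .ofNat 126⟩, ⟨.negSucc 171, .negSucc 67, .negSucc 0, .negSucc 227, .ofNat 94, .ofNat 40⟩, .ofNat 455, .negSucc 203, .ofNat 0, .negSucc 203, .ofNat 694, .ofNat 0, .ofNat 446, .ofNat 258, .negSucc 537, .ofNat 0, .ofNat 379, .negSucc 195, .ofNat 0, .ofNat 0, .ofNat 953, .ofNat 13632, .ofNat 0, .ofNat 0, .ofNat 0, .ofNat 0, .ofNat 0, .ofNat 22680064999092557238827538500812800, .ofNat 0, .ofNat 0, .ofNat 0, .ofNat 24340437049221562749779280553574400, .ofNat 0, .ofNat 0, .ofNat 0, .ofNat 16579970669240040610573347874406400,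 .ofNat 0, .ofNat 0⟩)
    (by decide +kernel)
theorem L00086 : Good (Phi V4.P V4.D (-1) 1) ⟨3, 0, 4, 9, 1, 0, 1, 1, 3, 2⟩ :=
  out_sound (S := T4.ds_mp) T4.ok_mp (w := 48) (j := 3) (by decide +kernel)
theorem L00087 : Good (Phi V4.P V4.D (-1) 1) ⟨3, 1, 4, 9, 1, 0, 2, 2, 3, 2⟩ :=
  leaf_sound (S := T4.ds_mp) T4.ok_mp (w := 168) (c := ⟨⟨.negSucc 322, .negSucc 100, .ofNat 56, .negSucc 261, .ofNat 120, .ofNat 30⟩, ⟨.negSucc 199, .negSucc 44, .ofNat 12, .negSucc 154, .ofNat 70, .ofNat 17⟩, ⟨.ofNat 21, .ofNat 90, .negSucc 38, .ofNat 235, .negSucc 215, .negSucc 22⟩, ⟨.negSucc 993, .negSucc 175, .ofNat 157, .negSucc 409, .ofNat 330, .ofNat 79⟩, ⟨.ofNat 25, .negSucc 35, .ofNat 20, .negSucc 551, .ofNat 12, .ofNat 10⟩, .ofNat 5221, .negSucc 7956, .ofNat 0, .negSucc 7956, .ofNat 13998, .ofNat 0, .ofNat 115, .ofNat 390, .negSucc 262, .ofNat 0, .ofNat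 245, .negSucc 150, .ofNat 0, .ofNat 0, .ofNat 835, .ofNat 9871, .ofNat 0, .ofNat 0, .ofNat 0, .ofNat 0, .ofNat 0, .ofNat 0, .ofNat 33518272053456900585632563200, .ofNat 0, .ofNat 0, .ofNat 0, .ofNat 17880214236439330726871040000, .ofNat 0, .ofNat 0, .ofNat 0, .ofNat 26129876087435400640777420800, .ofNat 0⟩)
    (by decide +kernel)
theorem L00088 : Good (Phi V4.P V4.D (-1) 1) ⟨3, 1, 4, 9, 2, 0, 3, 6, 3, 2⟩ :=
  leaf_sound (S := T4.ds_mp) T4.ok_mp (w := 176) (c := ⟨⟨.negSucc 279, .negSucc 31, .ofNat 15, .negSucc 85, .ofNat 113, .ofNat 32⟩, ⟨.negSucc 169, .negSucc 10, .negSucc 3, .negSucc 51, .ofNat 66, .ofNat 19⟩, ⟨.negSucc 167, .ofNat 41, .negSucc 2, .ofNat 99, .negSucc 132, .ofNat 16⟩, ⟨.negSucc 817, .negSucc 34, .ofNat 37, .negSucc 106, .ofNat 300, .ofNat 76⟩, ⟨.negSucc 19, .negSucc 3, .ofNat 23, .negSucc 231, .ofNat 27, .ofNat 23⟩,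 .ofNat 966, .negSucc 888, .ofNat 0, .negSucc 888, .ofNat 1946, .ofNat 0, .ofNat 275, .ofNat 332, .negSucc 363, .ofNat 0, .ofNat 285, .negSucc 183, .ofNat 0, .ofNat 0, .ofNat 859, .ofNat 26041, .ofNat 0, .ofNat 0, .ofNat 0, .ofNat 0, .ofNat 0, .ofNat 0, .ofNat 90856154334728397026770078924800, .ofNat 0, .ofNat 0, .ofNat 0, .ofNat 93747443291956175066607963340800, .ofNat 0, .ofNat 0, .ofNat 0, .ofNat 63050460494800995036964690329600, .ofNat 0⟩)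
    (by decide +kernel)
theorem L00089 : Good (Phi V4.P V4.D (-1) 1) ⟨3, 1, 4, 9, 2, 0, 4, 14, 3, 2⟩ :=
  leaf_sound (S := T4.ds_mp) T4.ok_mp (w := 184) (c := ⟨⟨.negSucc 175, .negSucc 21, .ofNat 19, .negSucc 78, .ofNat 80, .ofNat 31⟩, ⟨.negSucc 106, .negSucc 7, .ofNat 3, .negSucc 46, .ofNat 47, .ofNat 18⟩, ⟨.negSucc 297, .ofNat 25, .negSucc 17, .ofNat 100, .negSucc 84, .ofNat 31⟩, ⟨.negSucc 521, .negSucc 16, .ofNat 43, .negSucc 110, .ofNat 214, .ofNat 74⟩, ⟨.ofNat 0, .negSucc 17, .ofNat 26, .negSucc 186, .ofNat 18, .ofNat 20⟩, .ofNat 5221, .negSucc 7948, .ofNat 0, .negSucc 7948, .ofNat 13973, .ofNat 0, .ofNat 123, .ofNat 414, .negSucc 383, .ofNat 0, .ofNat 261, .negSucc 221, .ofNat 0, .ofNat 0, .ofNat 859, .ofNat 30704, .ofNat 0, .ofNat 0, .ofNat 0, .ofNat 0, .ofNat 0, .ofNat 0, .ofNat 941044168462608743687416656691200, .ofNat 0, .ofNat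 0, .ofNat 0, .ofNat 639194660203767705298592700825600, .ofNat 0, .ofNat 0, .ofNat 0, .ofNat 453038391432076745549440194969600, .ofNat 0⟩)
    (by decide +kernel)
theorem L00090 : Good (Phi V4.P V4.D (-1) 1) ⟨3, 1, 4, 9, 2, 0, 4, 15, 3, 2⟩ :=
  leaf_sound (S := T4.ds_mp) T4.ok_mp (w := 184) (c := ⟨⟨.negSucc 137, .ofNat 30, .negSucc 53, .negSucc 73, .ofNat 109, .ofNat 30⟩, ⟨.negSucc 82, .ofNat 21, .negSucc 35, .negSucc 43, .ofNat 64, .ofNat 18⟩, ⟨.negSucc 346, .negSucc 24, .ofNat 56, .ofNat 103, .negSucc 110, .ofNat 37⟩, ⟨.negSucc 389, .ofNat 90, .negSucc 122, .negSucc 118, .ofNat 293, .ofNat 77⟩, ⟨.negSucc 20, .ofNat 18, .negSucc 38, .negSucc 151, .ofNat 20, .ofNat 12⟩, .ofNat 2343, .negSucc 3118, .ofNat 0, .negSucc 3118, .ofNat 5785, .ofNat 0, .ofNat 184, .ofNat 406, .negSucc 430, .ofNat 0, .ofNat 275, .negSucc 241, .ofNat 0, .ofNat 0,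 .ofNat 880, .ofNat 20530, .ofNat 0, .ofNat 8707131571319985601197294118502400, .ofNat 2906802516151553097588749107200, .ofNat 0, .ofNat 0, .ofNat 0, .ofNat 0, .ofNat 0, .ofNat 0, .ofNat 78626391359189027502342503242137600, .ofNat 403062757617861153333151845580800, .ofNat 0, .ofNat 0, .ofNat 0, .ofNat 455854300084725183807882264576000, .ofNat 0⟩)
    (by decide +kernel)
theorem L00091 : Good (Phi V4.P V4.D (-1) 1) ⟨3, 1, 4, 9, 2, 1, 2, 3, 3, 2⟩ :=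
  leaf_sound (S := T4.ds_mp) T4.ok_mp (w := 184) (c := ⟨⟨.negSucc 369, .negSucc 47, .negSucc 16, .negSucc 181, .ofNat 257, .ofNat 59⟩, ⟨.negSucc 226, .negSucc 15, .negSucc 24, .negSucc 107, .ofNat 151, .ofNat 35⟩, ⟨.negSucc 84, .ofNat 72, .ofNat 23, .ofNat 179, .negSucc 263, .negSucc 4⟩, ⟨.negSucc 948, .negSucc 45, .negSucc 34, .negSucc 348, .ofNat 641, .ofNat 143⟩, ⟨.negSucc 240, .negSucc 44, .ofNat 10, .negSucc 275, .ofNat 135, .ofNat 36⟩, .ofNat 10339, .negSucc 16611, .ofNat 0, .negSucc 16611, .ofNat 28665, .ofNat 0, .ofNat 95, .ofNat 435, .negSucc 333, .ofNat 0, .ofNat 265, .negSucc 193, .ofNat 0, .ofNat 0, .ofNat 838, .ofNat 6246, .ofNat 0, .ofNat 74021741434964916579838250188800, .ofNat 17347821824865440096059392000, .ofNat 0, .ofNat 0, .ofNat 0, .ofNat 16883729783625744364873973760000, .ofNat 0, .ofNat 0, .ofNat 85048040123445688518923633295360000,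 .ofNat 0, .ofNat 0, .ofNat 0, .ofNat 0, .ofNat 0, .ofNat 0⟩)
    (by decide +kernel)
theorem L00092 : Good (Phi V4.P V4.D (-1) 1) ⟨2, 0, 3, 5, 1, 0, 1, 1, 3, 2⟩ :=
  out_sound (S := T4.ds_mp) T4.ok_mp (w := 40) (j := 3) (by decide +kernel)
theorem L00093 : Good (Phi V4.P V4.D (-1) 1) ⟨2, 0, 3, 4, 1, 0, 2, 2, 3, 3⟩ :=
  leaf_sound (S := T4.ds_mp) T4.ok_mp (w := 160) (c := ⟨⟨.negSucc 340, .negSucc 53, .negSucc 22, .negSucc 208, .ofNat 117, .ofNat 39⟩, ⟨.negSucc 184, .negSucc 21, .negSucc 52, .negSucc 125, .ofNat 64, .ofNat 21⟩, ⟨.negSucc 23, .ofNat 98, .ofNat 14, .ofNat 189, .negSucc 163, .negSucc 25⟩, ⟨.negSucc 1082, .negSucc 4, .negSucc 27, .negSucc 312, .ofNat 316, .ofNat 101⟩, ⟨.ofNat 11, .negSucc 30, .negSucc 9, .negSucc 519, .ofNat 28, .ofNat 15⟩, .ofNat 896, .negSucc 762, .ofNat 0, .negSucc 762, .ofNat 1785, .ofNat 0, .ofNat 250,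 .ofNat 264, .negSucc 227, .ofNat 0, .ofNat 240, .negSucc 103, .ofNat 0, .ofNat 0, .ofNat 762, .ofNat 12276, .ofNat 0, .ofNat 0, .ofNat 0, .ofNat 0, .ofNat 0, .ofNat 0, .ofNat 0, .ofNat 0, .ofNat 0, .ofNat 0, .ofNat 0, .ofNat 0, .ofNat 0, .ofNat 0, .ofNat 0, .ofNat 0⟩)
    (by decide +kernel)
theorem L00094 : Good (Phi V4.P V4.D (-1) 1) ⟨2, 0, 3, 4, 1, 0, 3, 6, 3, 3⟩ :=
  leaf_sound (S := T4.ds_mp) T4.ok_mp (w := 160) (c := ⟨⟨.negSucc 261, .negSucc 15, .negSucc 16, .negSucc 179, .ofNat 113, .ofNat 45⟩, ⟨.negSucc 143, .negSucc 2, .negSucc 36, .negSucc 107, .ofNat 63, .ofNat 25⟩, ⟨.negSucc 164, .ofNat 49, .ofNat 18, .ofNat 190, .negSucc 112, .negSucc 3⟩, ⟨.negSucc 815, .ofNat 47, .negSucc 21, .negSucc 274, .ofNat 307, .ofNat 117⟩, ⟨.negSucc 2, .negSucc 9, .negSucc 4, .negSucc 447, .ofNat 35, .ofNat 18⟩, .ofNat 897, .negSucc 764, .ofNat 0,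 .negSucc 764, .ofNat 1788, .ofNat 0, .ofNat 266, .ofNat 282, .negSucc 301, .ofNat 0, .ofNat 256, .negSucc 143, .ofNat 0, .ofNat 0, .ofNat 765, .ofNat 11303, .ofNat 0, .ofNat 0, .ofNat 0, .ofNat 0, .ofNat 0, .ofNat 13467722344976509640433362534400, .ofNat 0, .ofNat 0, .ofNat 0, .ofNat 0, .ofNat 87268272084695490666430464000, .ofNat 0, .ofNat 0, .ofNat 0, .ofNat 0, .ofNat 0⟩)
    (by decide +kernel)
theorem L00095 : Good (Phi V4.P V4.D (-1) 1) ⟨2, 0, 3, 4, 2, 0, 4, 14, 3, 3⟩ :=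
  leaf_sound (S := T4.ds_mp) T4.ok_mp (w := 176) (c := ⟨⟨.negSucc 156, .negSucc 16, .ofNat 1, .negSucc 51, .ofNat 76, .ofNat 20⟩, ⟨.negSucc 85, .negSucc 5, .negSucc 14, .negSucc 30, .ofNat 42, .ofNat 11⟩, ⟨.negSucc 268, .ofNat 33, .negSucc 2, .ofNat 70, .negSucc 74, .ofNat 26⟩, ⟨.negSucc 489, .ofNat 12, .ofNat 8, .negSucc 61, .ofNat 207, .ofNat 52⟩, ⟨.ofNat 7, .negSucc 21, .ofNat 6, .negSucc 156, .ofNat 18, .ofNat 10⟩, .ofNat 893, .negSucc 758, .ofNat 0, .negSucc 758, .ofNat 1784, .ofNat 0, .ofNat 273, .ofNat 285, .negSucc 355, .ofNat 0, .ofNat 261, .negSucc 170, .ofNat 0, .ofNat 0, .ofNat 781, .ofNat 20821, .ofNat 0, .ofNat 0, .ofNat 0, .ofNat 0, .ofNat 0, .ofNat 4212231317544581991621436479897600, .ofNat 0, .ofNat 0, .ofNat 0, .ofNat 0, .ofNat 0, .ofNat 0, .ofNat 0, .ofNat 0, .ofNat 0, .ofNat 0⟩)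
    (by decide +kernel)
theorem L00096 : Good (Phi V4.P V4.D (-1) 1) ⟨3, 0, 3, 4, 3, 0, 4, 15, 3, 3⟩ :=
  leaf_sound (S := T4.ds_mp) T4.ok_mp (w := 192) (c := ⟨⟨.negSucc 94, .negSucc 0, .ofNat 10, .negSucc 7, .ofNat 94, .ofNat 9⟩, ⟨.negSucc 49, .negSucc 1, .negSucc 1, .negSucc 5, .ofNat 50, .ofNat 5⟩, ⟨.negSucc 320, .ofNat 2, .negSucc 12, .ofNat 12, .negSucc 91, .ofNat 40⟩, ⟨.negSucc 283, .ofNat 5, .ofNat 28, .negSucc 0, .ofNat 272, .ofNat 25⟩, ⟨.negSucc 3, .negSucc 4, .ofNat 11, .negSucc 43, .ofNat 12, .ofNat 5⟩, .ofNat 865, .negSucc 689, .ofNat 0, .negSucc 689, .ofNat 1686, .ofNat 0, .ofNat 288, .ofNat 273, .negSucc 382, .ofNat 0, .ofNat 266, .negSucc 177, .ofNat 0, .ofNat 0, .ofNat 791, .ofNat 58701, .ofNat 0, .ofNat 817914682882106734473316385213644800, .ofNat 841488177397274730650669993164800, .ofNat 0, .ofNat 0, .ofNat 45089213771796766120751937554586009600,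 .ofNat 131420540837590535834644423429324800, .ofNat 0, .ofNat 0, .ofNat 9613527849689882237770668236498534400, .ofNat 98303193235935095557117599704678400, .ofNat 0, .ofNat 0, .ofNat 0, .ofNat 173943605842384935873152841626419200, .ofNat 0⟩)
    (by decide +kernel)
theorem L00097 : Good (Phi V4.P V4.D (-1) 1) ⟨3, 1, 3, 4, 3, 0, 4, 15, 3, 3⟩ :=
  leaf_sound (S := T4.ds_mp) T4.ok_mp (w := 192) (c := ⟨⟨.negSucc 102, .ofNat 3, .negSucc 3, .negSucc 3, .ofNat 104, .ofNat 12⟩, ⟨.negSucc 56, .ofNat 2, .negSucc 6, .negSucc 2, .ofNat 58, .ofNat 7⟩, ⟨.negSucc 313, .ofNat 1, .ofNat 5, .ofNat 13, .negSucc 102, .ofNat 38⟩, ⟨.negSucc 295, .ofNat 17, .negSucc 7, .ofNat 14, .ofNat 290, .ofNat 30⟩, ⟨.negSucc 6, .negSucc 0, .negSucc 1, .negSucc 47, .ofNat 13, .ofNat 5⟩, .ofNat 905, .negSucc 778, .ofNat 0, .negSucc 778, .ofNat 1806, .ofNat 0, .ofNat 278,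 .ofNat 296, .negSucc 406, .ofNat 0, .ofNat 269, .negSucc 197, .ofNat 0, .ofNat 0, .ofNat 810, .ofNat 20879, .ofNat 0, .ofNat 293695471473565268165658698317824000, .ofNat 198204858948104991613955919052800, .ofNat 0, .ofNat 0, .ofNat 0, .ofNat 0, .ofNat 0, .ofNat 0, .ofNat 0, .ofNat 0, .ofNat 0, .ofNat 0, .ofNat 0, .ofNat 0, .ofNat 0⟩)
    (by decide +kernel)
theorem L00098 : Good (Phi V4.P V4.D (-1) 1) ⟨2, 0, 3, 4, 3, 1, 4, 15, 3, 3⟩ :=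
  leaf_sound (S := T4.ds_mp) T4.ok_mp (w := 184) (c := ⟨⟨.negSucc 114, .ofNat 4, .negSucc 5, .negSucc 32, .ofNat 103, .ofNat 26⟩, ⟨.negSucc 64, .ofNat 5, .negSucc 11, .negSucc 18, .ofNat 58, .ofNat 14⟩, ⟨.negSucc 308, .ofNat 21, .ofNat 4, .ofNat 46, .negSucc 99, .ofNat 22⟩, ⟨.negSucc 330, .ofNat 60, .negSucc 6, .negSucc 53, .ofNat 278, .ofNat 64⟩, ⟨.negSucc 46, .negSucc 25, .ofNat 0, .negSucc 71, .ofNat 32, .ofNat 15⟩, .ofNat 895, .negSucc 762, .ofNat 0, .negSucc 762, .ofNat 1789, .ofNat 0, .ofNat 282, .ofNat 297, .negSucc 391, .ofNat 0, .ofNat 270, .negSucc 189, .ofNat 0, .ofNat 0, .ofNat 801, .ofNat 29395, .ofNat 0, .ofNat 25710041652678024775730183798784000, .ofNat 899711835158139845687691234508800, .ofNat 0, .ofNat 0, .ofNat 0, .ofNat 0, .ofNat 0, .ofNat 0, .ofNat 2531392144829904377872621216412467200, .ofNat 0, .ofNat 0, .ofNat 0,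 .ofNat 1361489080292577371589206253502464000, .ofNat 0, .ofNat 0⟩)
    (by decide +kernel)
theorem L00099 : Good (Phi V4.P V4.D (-1) 1) ⟨2, 0, 3, 4, 2, 1, 3, 7, 3, 3⟩ :=
  leaf_sound (S := T4.ds_mp) T4.ok_mp (w := 168) (c := ⟨⟨.negSucc 220, .negSucc 15, .negSucc 13, .negSucc 119, .ofNat 159, .ofNat 36⟩, ⟨.negSucc 124, .negSucc 2, .negSucc 27, .negSucc 69, .ofNat 89, .ofNat 20⟩, ⟨.negSucc 203, .ofNat 54, .ofNat 12, .ofNat 136, .negSucc 149, .ofNat 10⟩, ⟨.negSucc 609, .ofNat 51, .negSucc 11, .negSucc 220, .ofNat 419, .ofNat 93⟩, ⟨.negSucc 142, .negSucc 52, .negSucc 3, .negSucc 212, .ofNat 78, .ofNat 20⟩, .ofNat 892, .negSucc 756, .ofNat 0, .negSucc 756, .ofNat 1781, .ofNat 0, .ofNat 280, .ofNat 297, .negSucc 345, .ofNat 0, .ofNat 268, .negSucc 165, .ofNat 0, .ofNat 0, .ofNat 781, .ofNat 12923, .ofNat 0, .ofNat 0, .ofNat 0, .ofNat 0, .ofNat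 0, .ofNat 6636226376721038247187878563020800, .ofNat 0, .ofNat 0, .ofNat 0, .ofNat 8488451355299565201227908959436800, .ofNat 0, .ofNat 0, .ofNat 0, .ofNat 6811886617080691198642602010214400, .ofNat 0, .ofNat 0⟩)
    (by decide +kernel)
theorem L00100 : Good (Phi V4.P V4.D (-1) 1) ⟨2, 0, 3, 5, 1, 0, 1, 1, 3, 3⟩ :=
  out_sound (S := T4.ds_mp) T4.ok_mp (w := 40) (j := 3) (by decide +kernel)
theorem L00101 : Good (Phi V4.P V4.D (-1) 1) ⟨2, 0, 2, 3, 1, 0, 1, 1, 2, 1⟩ :=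
  out_sound (S := T4.ds_mp) T4.ok_mp (w := 40) (j := 3) (by decide +kernel)
theorem L00102 : Good (Phi V4.P V4.D (-1) 1) ⟨2, 1, 3, 4, 1, 0, 2, 2, 2, 1⟩ :=
  leaf_sound (S := T4.ds_mp) T4.ok_mp (w := 152) (c := ⟨⟨.negSucc 439, .negSucc 126, .negSucc 0, .negSucc 247, .ofNat 143, .ofNat 93⟩, ⟨.negSucc 231, .negSucc 3, .negSucc 49, .negSucc 131, .ofNat 71, .ofNat 46⟩, ⟨.ofNat 82, .ofNat 167, .ofNat 19, .ofNat 280, .negSucc 207, .negSucc 59⟩, ⟨.negSucc 1227, .negSucc 98, .ofNat 17, .negSucc 334, .ofNat 359, .ofNat 228⟩, ⟨.ofNat 13, .negSucc 26, .ofNat 7, .negSucc 600, .ofNat 15, .ofNat 14⟩, .ofNat 818, .negSucc 748, .ofNat 0, .negSucc 748, .ofNat 1893, .ofNat 0, .ofNat 276, .ofNat 293, .negSucc 284, .ofNat 0, .ofNat 243, .negSucc 119, .ofNat 0, .ofNat 0, .ofNat 811, .ofNat 3942, .ofNat 0, .ofNat 0, .ofNat 832019837582013161472000, .ofNat 0,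 .ofNat 0, .ofNat 0, .ofNat 0, .ofNat 0, .ofNat 0, .ofNat 0, .ofNat 0, .ofNat 0, .ofNat 0, .ofNat 0, .ofNat 0, .ofNat 0⟩)
    (by decide +kernel)
theorem L00103 : Good (Phi V4.P V4.D (-1) 1) ⟨2, 1, 3, 4, 2, 0, 3, 6, 2, 1⟩ :=
  leaf_sound (S := T4.ds_mp) T4.ok_mp (w := 168) (c := ⟨⟨.negSucc 326, .negSucc 77, .negSucc 6, .negSucc 65, .ofNat 129, .ofNat 69⟩, ⟨.negSucc 171, .ofNat 0, .negSucc 30, .negSucc 37, .ofNat 65, .ofNat 34⟩, ⟨.negSucc 120, .ofNat 98, .ofNat 6, .ofNat 94, .negSucc 142, .ofNat 16⟩, ⟨.negSucc 887, .negSucc 56, .negSucc 4, .negSucc 55, .ofNat 319, .ofNat 159⟩, ⟨.negSucc 16, .negSucc 1, .ofNat 3, .negSucc 230, .ofNat 23, .ofNat 22⟩, .ofNat 836, .negSucc 770, .ofNat 0, .negSucc 770, .ofNat 1911, .ofNat 0, .ofNat 284, .ofNat 306, .negSucc 368, .ofNat 0, .ofNat 255, .negSucc 163, .ofNat 0, .ofNat 0, .ofNat 828, .ofNat 9971,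 .ofNat 0, .ofNat 0, .ofNat 0, .ofNat 0, .ofNat 0, .ofNat 0, .ofNat 4725341991224818401771572428800, .ofNat 0, .ofNat 0, .ofNat 0, .ofNat 0, .ofNat 0, .ofNat 0, .ofNat 0, .ofNat 0, .ofNat 0⟩)
    (by decide +kernel)
theorem L00104 : Good (Phi V4.P V4.D (-1) 1) ⟨3, 2, 3, 4, 2, 0, 3, 7, 2, 1⟩ :=
  leaf_sound (S := T4.ds_mp) T4.ok_mp (w := 168) (c := ⟨⟨.negSucc 221, .negSucc 8, .negSucc 9, .negSucc 46, .ofNat 205, .ofNat 59⟩, ⟨.negSucc 118, .ofNat 3, .negSucc 16, .negSucc 25, .ofNat 109, .ofNat 32⟩, ⟨.negSucc 251, .ofNat 17, .ofNat 10, .ofNat 80, .negSucc 204, .ofNat 49⟩, ⟨.negSucc 596, .ofNat 10, .negSucc 17, .negSucc 34, .ofNat 523, .ofNat 147⟩, ⟨.negSucc 21, .negSucc 5, .ofNat 0, .negSucc 168, .ofNat 43, .ofNat 20⟩, .ofNat 874, .negSucc 804, .ofNat 0, .negSucc 804, .ofNat 1927, .ofNat 0, .ofNat 288, .ofNat 320, .negSucc 430, .ofNat 0,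 .ofNat 269, .negSucc 200, .ofNat 0, .ofNat 0, .ofNat 846, .ofNat 10950, .ofNat 0, .ofNat 103588429950796995340047640166400, .ofNat 0, .ofNat 0, .ofNat 0, .ofNat 0, .ofNat 0, .ofNat 0, .ofNat 0, .ofNat 4160540141025147563803831959552000, .ofNat 658712714042455781263854796800, .ofNat 0, .ofNat 0, .ofNat 0, .ofNat 0, .ofNat 0⟩)
    (by decide +kernel)
theorem L00105 : Good (Phi V4.P V4.D (-1) 1) ⟨3, 3, 3, 4, 2, 0, 3, 7, 2, 1⟩ :=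
  leaf_sound (S := T4.ds_mp) T4.ok_mp (w := 168) (c := ⟨⟨.negSucc 265, .negSucc 13, .negSucc 4, .negSucc 53, .ofNat 234, .ofNat 92⟩, ⟨.negSucc 121, .ofNat 4, .negSucc 14, .negSucc 28, .ofNat 106, .ofNat 41⟩, ⟨.negSucc 207, .ofNat 22, .ofNat 2, .ofNat 102, .negSucc 233, .ofNat 16⟩, ⟨.negSucc 648, .negSucc 1, .negSucc 10, .negSucc 45, .ofNat 555, .ofNat 211⟩, ⟨.negSucc 19, .negSucc 2, .ofNat 11, .negSucc 190, .ofNat 36, .ofNat 29⟩, .ofNat 1396, .negSucc 1910, .ofNat 0, .negSucc 1910, .ofNat 4494, .ofNat 0, .ofNat 241, .ofNat 369, .negSucc 456, .ofNat 0, .ofNat 234, .negSucc 202, .ofNat 0, .ofNat 0, .ofNat 869, .ofNat 6447, .ofNat 0, .ofNat 0, .ofNat 0, .ofNat 0, .ofNat 0, .ofNat 7328397902480924603094692108697600, .ofNat 2175396412025501024342822092800, .ofNat 0, .ofNat 0, .ofNat 7111310156937044728896479979110400, .ofNat 1391139930632274292502849126400,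 .ofNat 0, .ofNat 0, .ofNat 5650238845588825219202596365926400, .ofNat 0, .ofNat 0⟩)
    (by decide +kernel)
theorem L00106 : Good (Phi V4.P V4.D (-1) 1) ⟨2, 1, 3, 4, 2, 1, 2, 3, 2, 1⟩ :=
  leaf_sound (S := T4.ds_mp) T4.ok_mp (w := 160) (c := ⟨⟨.negSucc 394, .negSucc 137, .negSucc 39, .negSucc 201, .ofNat 277, .ofNat 130⟩, ⟨.negSucc 215, .negSucc 11, .negSucc 55, .negSucc 107, .ofNat 147, .ofNat 68⟩, ⟨.negSucc 33, .ofNat 180, .ofNat 32, .ofNat 208, .negSucc 284, .negSucc 33⟩, ⟨.negSucc 981, .negSucc 126, .negSucc 61, .negSucc 354, .ofNat 671, .ofNat 322⟩, ⟨.negSucc 229, .negSucc 89, .negSucc 2, .negSucc 337, .ofNat 113, .ofNat 29⟩, .ofNat 834, .negSucc 764, .ofNat 0, .negSucc 764, .ofNat 1901, .ofNat 0, .ofNat 310, .ofNat 343, .negSucc 376, .ofNat 0, .ofNat 279, .negSucc 164, .ofNat 0, .ofNat 0, .ofNat 855, .ofNat 3155, .ofNat 0, .ofNat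 0, .ofNat 0, .ofNat 0, .ofNat 0, .ofNat 232294911859426593486952149811200, .ofNat 0, .ofNat 0, .ofNat 0, .ofNat 303767094755628266067227521843200, .ofNat 0, .ofNat 0, .ofNat 0, .ofNat 282027382305492145028808572928000, .ofNat 0, .ofNat 0⟩)
    (by decide +kernel)
theorem L00107 : Good (Phi V4.P V4.D (-1) 1) ⟨2, 1, 3, 5, 1, 0, 1, 1, 2, 1⟩ :=
  out_sound (S := T4.ds_mp) T4.ok_mp (w := 40) (j := 3) (by decide +kernel)
theorem L00108 : Good (Phi V4.P V4.D (-1) 1) ⟨2, 1, 2, 3, 1, 0, 1, 1, 2, 1⟩ :=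
  out_sound (S := T4.ds_mp) T4.ok_mp (w := 40) (j := 3) (by decide +kernel)
theorem L00109 : Good (Phi V4.P V4.D (-1) 1) ⟨2, 0, 2, 0, 2, 2, 1, 0, 3, 0⟩ :=
  leaf_sound (S := T4.ds_mp) T4.ok_mp (w := 160) (c := ⟨⟨.ofNat 32, .negSucc 17, .negSucc 37, .ofNat 7, .negSucc 234, .negSucc 402⟩, ⟨.ofNat 49, .negSucc 22, .negSucc 78, .ofNat 0, .negSucc 89, .negSucc 70⟩, ⟨.ofNat 359, .negSucc 61, .ofNat 60, .negSucc 27, .negSucc 287, .ofNat 226⟩, ⟨.negSucc 4, .ofNat 63, .negSucc 21, .ofNat 30, .negSucc 602, .negSucc 1160⟩, ⟨.ofNat 58, .negSucc 145, .ofNat 31, .negSucc 79, .negSucc 548, .negSucc 74⟩, .ofNat 599, .negSucc 154, .ofNat 0, .negSucc 154, .ofNat 1298, .ofNat 0, .ofNat 539, .ofNat 125, .negSucc 347, .ofNat 0, .ofNat 303, .ofNat 0, .ofNat 0, .ofNat 0, .ofNat 915, .ofNat 4275, .ofNat 0, .ofNat 0, .ofNat 0, .ofNat 0, .ofNat 0, .ofNat 0, .ofNat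 0, .ofNat 0, .ofNat 0, .ofNat 0, .ofNat 0, .ofNat 0, .ofNat 0, .ofNat 0, .ofNat 0, .ofNat 0⟩)
    (by decide +kernel)
theorem L00110 : Good (Phi V4.P V4.D (-1) 1) ⟨2, 0, 3, 2, 2, 2, 1, 0, 3, 0⟩ :=
  leaf_sound (S := T4.ds_mp) T4.ok_mp (w := 160) (c := ⟨⟨.negSucc 11, .negSucc 5, .negSucc 13, .ofNat 16, .negSucc 249, .negSucc 387⟩, ⟨.ofNat 25, .negSucc 16, .negSucc 40, .negSucc 0, .negSucc 124, .negSucc 137⟩, ⟨.ofNat 441, .negSucc 82, .ofNat 22, .negSucc 40, .negSucc 306, .ofNat 232⟩, ⟨.negSucc 112, .ofNat 117, .negSucc 14, .ofNat 61, .negSucc 555, .negSucc 1110⟩, ⟨.ofNat 54, .negSucc 126, .ofNat 20, .negSucc 75, .negSucc 523, .negSucc 55⟩, .ofNat 675, .negSucc 363, .ofNat 0, .negSucc 363, .ofNat 1403, .ofNat 0, .ofNat 467, .ofNat 262, .negSucc 328, .ofNat 0, .ofNat 311, .negSucc 56, .ofNat 0, .ofNat 0, .ofNat 913, .ofNat 4536, .ofNat 0,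 .ofNat 0, .ofNat 0, .ofNat 0, .ofNat 0, .ofNat 0, .ofNat 0, .ofNat 0, .ofNat 0, .ofNat 0, .ofNat 0, .ofNat 0, .ofNat 0, .ofNat 0, .ofNat 0, .ofNat 0⟩)
    (by decide +kernel)
theorem L00111 : Good (Phi V4.P V4.D (-1) 1) ⟨2, 0, 3, 3, 2, 2, 2, 0, 3, 0⟩ :=
  leaf_sound (S := T4.ds_mp) T4.ok_mp (w := 168) (c := ⟨⟨.ofNat 55, .negSucc 20, .negSucc 16, .ofNat 73, .negSucc 204, .negSucc 500⟩, ⟨.ofNat 45, .negSucc 15, .negSucc 35, .ofNat 25, .negSucc 103, .negSucc 235⟩, ⟨.ofNat 422, .negSucc 101, .ofNat 34, .negSucc 82, .negSucc 94, .ofNat 325⟩, ⟨.ofNat 67, .ofNat 68, .negSucc 37, .ofNat 249, .negSucc 469, .negSucc 1410⟩, ⟨.ofNat 90, .negSucc 131, .ofNat 12, .negSucc 57, .negSucc 273, .negSucc 88⟩, .ofNat 1248, .negSucc 1327, .ofNat 0, .negSucc 1327, .ofNat 3136, .ofNat 0, .ofNat 327, .ofNat 395, .negSucc 288, .ofNat 0, .ofNat 293, .negSucc 111,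 .ofNat 0, .ofNat 0, .ofNat 874, .ofNat 6869, .ofNat 0, .ofNat 0, .ofNat 0, .ofNat 0, .ofNat 0, .ofNat 0, .ofNat 0, .ofNat 0, .ofNat 0, .ofNat 0, .ofNat 0, .ofNat 0, .ofNat 0, .ofNat 0, .ofNat 0, .ofNat 0⟩)
    (by decide +kernel)
theorem L00112 : Good (Phi V4.P V4.D (-1) 1) ⟨2, 0, 3, 3, 2, 2, 2, 1, 3, 0⟩ :=
  leaf_sound (S := T4.ds_mp) T4.ok_mp (w := 168) (c := ⟨⟨.negSucc 130, .negSucc 78, .negSucc 17, .negSucc 5, .negSucc 143, .negSucc 352⟩, ⟨.negSucc 45, .negSucc 45, .negSucc 46, .negSucc 7, .negSucc 77, .negSucc 164⟩, ⟨.ofNat 294, .negSucc 10, .ofNat 26, .negSucc 12, .negSucc 154, .ofNat 196⟩, ⟨.negSucc 375, .negSucc 53, .negSucc 8, .ofNat 24, .negSucc 296, .negSucc 1012⟩, ⟨.negSucc 189, .negSucc 132, .ofNat 17, .negSucc 92, .negSucc 262, .negSucc 37⟩, .ofNat 775, .negSucc 555, .ofNat 0, .negSucc 555, .ofNat 1570, .ofNat 0, .ofNat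 425, .ofNat 365, .negSucc 351, .ofNat 0, .ofNat 340, .negSucc 100, .ofNat 0, .ofNat 0, .ofNat 979, .ofNat 5784, .ofNat 0, .ofNat 0, .ofNat 0, .ofNat 0, .ofNat 0, .ofNat 0, .ofNat 0, .ofNat 0, .ofNat 0, .ofNat 0, .ofNat 0, .ofNat 0, .ofNat 0, .ofNat 0, .ofNat 0, .ofNat 0⟩)
    (by decide +kernel)
theorem L00113 : Good (Phi V4.P V4.D (-1) 1) ⟨3, 2, 2, 0, 2, 2, 1, 0, 3, 0⟩ :=
  leaf_sound (S := T4.ds_mp) T4.ok_mp (w := 168) (c := ⟨⟨.ofNat 113, .negSucc 41, .negSucc 83, .negSucc 2, .negSucc 305, .negSucc 470⟩, ⟨.ofNat 33, .ofNat 10, .negSucc 93, .negSucc 6, .negSucc 65, .negSucc 67⟩, ⟨.ofNat 172, .ofNat 0, .ofNat 80, .negSucc 24, .negSucc 189, .ofNat 348⟩, ⟨.ofNat 227, .negSucc 18, .negSucc 115, .ofNat 10, .negSucc 736, .negSucc 1239⟩, ⟨.negSucc 82, .negSucc 29, .ofNat 28, .negSucc 119, .negSucc 520, .negSucc 65⟩, .ofNat 564, .negSucc 216,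 .ofNat 0, .negSucc 216, .ofNat 1703, .ofNat 0, .ofNat 555, .ofNat 178, .negSucc 394, .ofNat 0, .ofNat 256, .negSucc 22, .ofNat 0, .ofNat 0, .ofNat 931, .ofNat 2829, .ofNat 0, .ofNat 0, .ofNat 0, .ofNat 0, .ofNat 0, .ofNat 0, .ofNat 0, .ofNat 0, .ofNat 0, .ofNat 0, .ofNat 0, .ofNat 0, .ofNat 0, .ofNat 0, .ofNat 0, .ofNat 0⟩)
    (by decide +kernel)
theorem L00114 : Good (Phi V4.P V4.D (-1) 1) ⟨3, 3, 3, 0, 2, 2, 1, 0, 3, 0⟩ :=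
  leaf_sound (S := T4.ds_mp) T4.ok_mp (w := 168) (c := ⟨⟨.ofNat 256, .negSucc 95, .negSucc 37, .ofNat 2, .negSucc 407, .negSucc 649⟩, ⟨.ofNat 33, .ofNat 15, .negSucc 43, .negSucc 5, .negSucc 46, .negSucc 49⟩, ⟨.ofNat 19, .ofNat 30, .ofNat 32, .negSucc 28, .negSucc 89, .ofNat 506⟩, ⟨.ofNat 567, .negSucc 162, .negSucc 48, .ofNat 15, .negSucc 945, .negSucc 1547⟩, ⟨.negSucc 89, .negSucc 50, .ofNat 10, .negSucc 119, .negSucc 524, .negSucc 75⟩, .ofNat 501, .negSucc 132, .ofNat 0, .negSucc 132, .ofNat 2170, .ofNat 0, .ofNat 616, .ofNat 113, .negSucc 471, .ofNat 0, .ofNat 209, .negSucc 7, .ofNat 0, .ofNat 0, .ofNat 951, .ofNat 3311, .ofNat 0, .ofNat 0, .ofNat 0, .ofNat 0, .ofNat 0, .ofNat 0, .ofNat 0, .ofNat 0, .ofNat 0, .ofNat 0, .ofNat 0, .ofNat 0, .ofNat 0, .ofNat 0, .ofNat 0, .ofNat 0⟩)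
    (by decide +kernel)
theorem L00115 : Good (Phi V4.P V4.D (-1) 1) ⟨3, 3, 3, 1, 2, 2, 1, 0, 3, 0⟩ :=
  leaf_sound (S := T4.ds_mp) T4.ok_mp (w := 168) (c := ⟨⟨.ofNat 222, .negSucc 30, .negSucc 1, .negSucc 7, .negSucc 502, .negSucc 665⟩, ⟨.ofNat 33, .ofNat 28, .negSucc 50, .negSucc 1, .negSucc 96, .negSucc 109⟩, ⟨.ofNat 38, .ofNat 4, .ofNat 13, .negSucc 26, .negSucc 16, .ofNat 525⟩, ⟨.ofNat 482, .ofNat 6, .ofNat 32, .negSucc 7, .negSucc 1101, .negSucc 1560⟩, ⟨.negSucc 109, .negSucc 3, .ofNat 28, .negSucc 109, .negSucc 528, .negSucc 70⟩, .ofNat 527, .negSucc 259, .ofNat 0, .negSucc 259, .ofNat 1930, .ofNat 0, .ofNat 591, .ofNat 235, .negSucc 481, .ofNat 0, .ofNat 242, .negSucc 41, .ofNat 0, .ofNat 0, .ofNat 978, .ofNat 3831, .ofNat 0, .ofNat 0, .ofNat 0, .ofNat 0, .ofNat 0, .ofNat 0, .ofNat 0, .ofNat 0, .ofNat 0, .ofNat 0, .ofNat 0, .ofNat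 0, .ofNat 0, .ofNat 0, .ofNat 0, .ofNat 0⟩)
    (by decide +kernel)
theorem L00116 : Good (Phi V4.P V4.D (-1) 1) ⟨3, 2, 2, 1, 2, 2, 2, 0, 3, 0⟩ :=
  leaf_sound (S := T4.ds_mp) T4.ok_mp (w := 168) (c := ⟨⟨.ofNat 134, .negSucc 22, .negSucc 37, .ofNat 89, .negSucc 258, .negSucc 636⟩, ⟨.ofNat 80, .negSucc 9, .negSucc 66, .ofNat 41, .negSucc 115, .negSucc 258⟩, ⟨.ofNat 211, .negSucc 33, .ofNat 70, .negSucc 116, .negSucc 36, .ofNat 468⟩, ⟨.ofNat 315, .ofNat 13, .negSucc 43, .ofNat 262, .negSucc 576, .negSucc 1662⟩, ⟨.negSucc 41, .negSucc 50, .ofNat 35, .negSucc 66, .negSucc 279, .negSucc 102⟩, .ofNat 700, .negSucc 524, .ofNat 0, .negSucc 524, .ofNat 1708, .ofNat 0, .ofNat 440, .ofNat 357, .negSucc 366, .ofNat 0, .ofNat 298, .negSucc 98, .ofNat 0, .ofNat 0, .ofNat 909, .ofNat 7900, .ofNat 0, .ofNat 0, .ofNat 0, .ofNat 0, .ofNat 0, .ofNat 0,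 .ofNat 0, .ofNat 0, .ofNat 0, .ofNat 0, .ofNat 0, .ofNat 0, .ofNat 0, .ofNat 0, .ofNat 0, .ofNat 0⟩)
    (by decide +kernel)
theorem L00117 : Good (Phi V4.P V4.D (-1) 1) ⟨3, 2, 2, 1, 2, 2, 2, 1, 3, 0⟩ :=
  leaf_sound (S := T4.ds_mp) T4.ok_mp (w := 168) (c := ⟨⟨.negSucc 75, .negSucc 93, .negSucc 68, .negSucc 31, .negSucc 157, .negSucc 461⟩, ⟨.negSucc 9, .negSucc 10, .negSucc 107, .negSucc 22, .negSucc 73, .negSucc 180⟩, ⟨.ofNat 129, .ofNat 43, .ofNat 77, .negSucc 8, .negSucc 98, .ofNat 333⟩, ⟨.negSucc 183, .negSucc 137, .negSucc 89, .negSucc 24, .negSucc 320, .negSucc 1206⟩, ⟨.negSucc 318, .negSucc 37, .ofNat 40, .negSucc 132, .negSucc 239, .negSucc 41⟩, .ofNat 411, .negSucc 152, .ofNat 0, .negSucc 152, .ofNat 707, .ofNat 0, .ofNat 301, .ofNat 140, .negSucc 298, .ofNat 0, .ofNat 201, .negSucc 33, .ofNat 0, .ofNat 0, .ofNat 554, .ofNat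 2644, .ofNat 0, .ofNat 0, .ofNat 0, .ofNat 0, .ofNat 0, .ofNat 0, .ofNat 0, .ofNat 0, .ofNat 0, .ofNat 0, .ofNat 0, .ofNat 0, .ofNat 0, .ofNat 0, .ofNat 0, .ofNat 0⟩)
    (by decide +kernel)
theorem L00118 : Good (Phi V4.P V4.D (-1) 1) ⟨3, 3, 3, 2, 2, 2, 1, 0, 3, 0⟩ :=
  leaf_sound (S := T4.ds_mp) T4.ok_mp (w := 168) (c := ⟨⟨.ofNat 215, .negSucc 56, .negSucc 75, .negSucc 6, .negSucc 484, .negSucc 656⟩, ⟨.ofNat 63, .ofNat 3, .negSucc 59, .negSucc 10, .negSucc 147, .negSucc 175⟩, ⟨.ofNat 61, .ofNat 7, .ofNat 68, .negSucc 40, .negSucc 40, .ofNat 545⟩, ⟨.ofNat 478, .negSucc 47, .negSucc 136, .ofNat 17, .negSucc 1016, .negSucc 1553⟩, ⟨.negSucc 124, .negSucc 20, .ofNat 13, .negSucc 89, .negSucc 503, .negSucc 31⟩, .ofNat 580, .negSucc 396, .ofNat 0, .negSucc 396, .ofNat 1783, .ofNat 0, .ofNat 523, .ofNat 332, .negSucc 468, .ofNat 0, .ofNat 274,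 .negSucc 83, .ofNat 0, .ofNat 0, .ofNat 972, .ofNat 3592, .ofNat 0, .ofNat 0, .ofNat 0, .ofNat 0, .ofNat 0, .ofNat 0, .ofNat 0, .ofNat 0, .ofNat 0, .ofNat 0, .ofNat 0, .ofNat 0, .ofNat 0, .ofNat 0, .ofNat 0, .ofNat 0⟩)
    (by decide +kernel)
theorem L00119 : Good (Phi V4.P V4.D (-1) 1) ⟨3, 3, 3, 3, 2, 2, 2, 0, 3, 0⟩ :=
  leaf_sound (S := T4.ds_mp) T4.ok_mp (w := 168) (c := ⟨⟨.ofNat 183, .negSucc 47, .negSucc 17, .ofNat 25, .negSucc 257, .negSucc 752⟩, ⟨.ofNat 76, .ofNat 9, .negSucc 38, .ofNat 3, .negSucc 110, .negSucc 286⟩, ⟨.ofNat 112, .negSucc 5, .ofNat 26, .negSucc 88, .negSucc 13, .ofNat 614⟩, ⟨.ofNat 436, .negSucc 26, .negSucc 19, .ofNat 89, .negSucc 537, .negSucc 1786⟩, ⟨.negSucc 109, .negSucc 22, .ofNat 19, .negSucc 86, .negSucc 245, .negSucc 42⟩, .ofNat 657, .negSucc 531, .ofNat 0, .negSucc 531, .ofNat 1774, .ofNat 0, .ofNat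 454, .ofNat 388, .negSucc 445, .ofNat 0, .ofNat 296, .negSucc 118, .ofNat 0, .ofNat 0, .ofNat 959, .ofNat 7343, .ofNat 0, .ofNat 0, .ofNat 0, .ofNat 0, .ofNat 0, .ofNat 0, .ofNat 0, .ofNat 0, .ofNat 0, .ofNat 0, .ofNat 0, .ofNat 0, .ofNat 0, .ofNat 0, .ofNat 0, .ofNat 0⟩)
    (by decide +kernel)

end Crest.Agent.R097C4.N4mp
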