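import Crest.Agent.R097.T4

/-!
# Row 97, box cover in dimension n = 4 (generated)
-/

set_option autoImplicit false
set_option Elab.async false
set_option maxHeartbeats 0
set_option maxRecDepth 100000

open Crest.Agent.R097 Crest.Agent.R097.KA


namespace Crest.Agent.R097C4.N4mp

theorem L00120 : Good (Phi V4.P V4.D (-1) 1) ⟨3, 3, 3, 3, 2, 2, 2, 1, 3, 0⟩ :=
  leaf_sound (S := T4.ds_mp) T4.ok_mp (w := 168) (c := ⟨⟨.negSucc 43, .negSucc 129, .negSucc 53, .negSucc 128, .negSucc 210, .negSucc 555⟩, ⟨.negSucc 26, .negSucc 10, .negSucc 78, .negSucc 49, .negSucc 78, .negSucc 203⟩, ⟨.ofNat 50, .ofNat 82, .ofNat 55, .ofNat 40, .negSucc 30, .ofNat 471⟩, ⟨.negSucc 59, .negSucc 188, .negSucc 76, .negSucc 251, .negSucc 414, .negSucc 1331⟩, ⟨.negSucc 357, .negSucc 12, .ofNat 14, .negSucc 142, .negSucc 231, .ofNat 9⟩, .ofNat 647, .negSucc 521, .ofNat 0,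 .negSucc 521, .ofNat 1752, .ofNat 0, .ofNat 239, .ofNat 205, .negSucc 246, .ofNat 0, .ofNat 157, .negSucc 62, .ofNat 0, .ofNat 0, .ofNat 526, .ofNat 2412, .ofNat 0, .ofNat 0, .ofNat 0, .ofNat 0, .ofNat 0, .ofNat 0, .ofNat 0, .ofNat 0, .ofNat 0, .ofNat 0, .ofNat 0, .ofNat 0, .ofNat 0, .ofNat 0, .ofNat 0, .ofNat 0⟩)
    (by decide +kernel)
theorem L00121 : Good (Phi V4.P V4.D (-1) 1) ⟨2, 0, 2, 2, 2, 2, 2, 0, 3, 0⟩ :=
  leaf_sound (S := T4.ds_mp) T4.ok_mp (w := 168) (c := ⟨⟨.ofNat 41, .negSucc 1, .ofNat 41, .ofNat 54, .negSucc 212, .negSucc 528⟩, ⟨.ofNat 22, .ofNat 9, .negSucc 25, .ofNat 29, .negSucc 123, .negSucc 294⟩, ⟨.ofNat 448, .negSucc 132, .ofNat 6, .negSucc 72, .negSucc 71, .ofNat 374⟩, ⟨.ofNat 6, .ofNat 140, .ofNat 120, .ofNat 188, .negSucc 457, .negSucc 1468⟩, ⟨.ofNat 85, .negSucc 123, .ofNat 45, .negSucc 59, .negSucc 265, .negSucc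 73⟩, .ofNat 897, .negSucc 761, .ofNat 0, .negSucc 761, .ofNat 1784, .ofNat 0, .ofNat 352, .ofNat 404, .negSucc 327, .ofNat 0, .ofNat 333, .negSucc 133, .ofNat 0, .ofNat 0, .ofNat 895, .ofNat 9625, .ofNat 0, .ofNat 0, .ofNat 118649448934842935730084249600, .ofNat 0, .ofNat 0, .ofNat 0, .ofNat 0, .ofNat 0, .ofNat 0, .ofNat 0, .ofNat 8006093291658644921125542297600, .ofNat 0, .ofNat 0, .ofNat 0, .ofNat 0, .ofNat 0⟩)
    (by decide +kernel)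
theorem L00122 : Good (Phi V4.P V4.D (-1) 1) ⟨2, 0, 2, 2, 2, 2, 2, 1, 3, 0⟩ :=
  leaf_sound (S := T4.ds_mp) T4.ok_mp (w := 168) (c := ⟨⟨.negSucc 141, .negSucc 75, .negSucc 82, .negSucc 21, .negSucc 141, .negSucc 367⟩, ⟨.negSucc 88, .negSucc 24, .negSucc 124, .negSucc 13, .negSucc 81, .negSucc 201⟩, ⟨.ofNat 312, .negSucc 20, .ofNat 94, .negSucc 4, .negSucc 148, .ofNat 226⟩, ⟨.negSucc 414, .negSucc 20, .negSucc 147, .ofNat 0, .negSucc 267, .negSucc 1033⟩, ⟨.negSucc 186, .negSucc 103, .ofNat 7, .negSucc 109, .negSucc 251, .negSucc 35⟩, .ofNat 2918, .negSucc 4149, .ofNat 0, .negSucc 4149, .ofNat 7805, .ofNat 0, .ofNat 214, .ofNat 495, .negSucc 304, .ofNat 0, .ofNat 318, .negSucc 155, .ofNat 0, .ofNat 0, .ofNat 953, .ofNat 3163, .ofNat 0, .ofNat 0, .ofNat 0, .ofNat 0, .ofNat 0, .ofNat 0, .ofNat 0, .ofNat 0, .ofNat 0, .ofNat 0, .ofNat 10081706787683271417138669158400,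 .ofNat 0, .ofNat 0, .ofNat 0, .ofNat 0, .ofNat 0⟩)
    (by decide +kernel)
theorem L00123 : Good (Phi V4.P V4.D (-1) 1) ⟨2, 1, 2, 2, 2, 2, 3, 0, 3, 0⟩ :=
  leaf_sound (S := T4.ds_mp) T4.ok_mp (w := 168) (c := ⟨⟨.ofNat 144, .negSucc 48, .negSucc 34, .ofNat 114, .negSucc 127, .negSucc 735⟩, ⟨.ofNat 61, .ofNat 12, .negSucc 60, .ofNat 55, .negSucc 64, .negSucc 365⟩, ⟨.ofNat 223, .negSucc 64, .ofNat 59, .negSucc 145, .negSucc 16, .ofNat 589⟩, ⟨.ofNat 328, .ofNat 38, .negSucc 78, .ofNat 322, .negSucc 267, .negSucc 1832⟩, ⟨.negSucc 40, .negSucc 75, .ofNat 42, .negSucc 58, .negSucc 126, .negSucc 75⟩, .ofNat 817, .negSucc 747, .ofNat 0, .negSucc 747, .ofNat 1892, .ofNat 0, .ofNat 368, .ofNat 428, .negSucc 385, .ofNat 0, .ofNat 318, .negSucc 147, .ofNat 0, .ofNat 0, .ofNat 913, .ofNat 20049, .ofNat 0, .ofNat 0, .ofNat 2114188027935818785397460172800,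 .ofNat 0, .ofNat 0, .ofNat 0, .ofNat 108693009091142608719552970752000, .ofNat 0, .ofNat 0, .ofNat 0, .ofNat 57315340455556943435875850649600, .ofNat 0, .ofNat 0, .ofNat 0, .ofNat 31301501199689598355618607923200, .ofNat 0⟩)
    (by decide +kernel)
theorem L00124 : Good (Phi V4.P V4.D (-1) 1) ⟨2, 1, 2, 2, 2, 2, 3, 1, 3, 0⟩ :=
  leaf_sound (S := T4.ds_mp) T4.ok_mp (w := 168) (c := ⟨⟨.negSucc 6, .negSucc 46, .negSucc 60, .ofNat 45, .negSucc 146, .negSucc 632⟩, ⟨.negSucc 17, .ofNat 22, .negSucc 101, .ofNat 17, .negSucc 70, .negSucc 312⟩, ⟨.ofNat 232, .negSucc 58, .ofNat 84, .negSucc 100, .ofNat 1, .ofNat 498⟩, ⟨.ofNat 0, .ofNat 55, .negSucc 129, .ofNat 152, .negSucc 305, .negSucc 1588⟩, ⟨.negSucc 169, .negSucc 66, .ofNat 38, .negSucc 92, .negSucc 124, .negSucc 46⟩, .ofNat 815, .negSucc 744, .ofNat 0, .negSucc 744, .ofNat 1889, .ofNat 0, .ofNat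 379, .ofNat 442, .negSucc 406, .ofNat 0, .ofNat 329, .negSucc 150, .ofNat 0, .ofNat 0, .ofNat 966, .ofNat 10536, .ofNat 0, .ofNat 0, .ofNat 0, .ofNat 0, .ofNat 0, .ofNat 0, .ofNat 62301232578348022460229196185600, .ofNat 0, .ofNat 0, .ofNat 0, .ofNat 52083206528830964482392981504000, .ofNat 0, .ofNat 0, .ofNat 0, .ofNat 15102469532587134027539939328000, .ofNat 0⟩)
    (by decide +kernel)
theorem L00125 : Good (Phi V4.P V4.D (-1) 1) ⟨2, 1, 2, 2, 2, 2, 2, 1, 3, 0⟩ :=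
  leaf_sound (S := T4.ds_mp) T4.ok_mp (w := 168) (c := ⟨⟨.negSucc 108, .negSucc 173, .negSucc 15, .negSucc 72, .negSucc 205, .negSucc 469⟩, ⟨.negSucc 74, .negSucc 22, .negSucc 111, .negSucc 36, .negSucc 102, .negSucc 236⟩, ⟨.ofNat 170, .ofNat 83, .ofNat 30, .ofNat 10, .negSucc 65, .ofNat 369⟩, ⟨.negSucc 223, .negSucc 211, .ofNat 42, .negSucc 117, .negSucc 404, .negSucc 1207⟩, ⟨.negSucc 301, .negSucc 47, .ofNat 35, .negSucc 138, .negSucc 235, .negSucc 11⟩, .ofNat 818, .negSucc 748, .ofNat 0, .negSucc 748, .ofNat 1893, .ofNat 0, .ofNat 194, .ofNat 227, .negSucc 212, .ofNat 0, .ofNat 171, .negSucc 77, .ofNat 0, .ofNat 0, .ofNat 512, .ofNat 2454, .ofNat 0, .ofNat 0, .ofNat 0, .ofNat 0, .ofNat 0, .ofNat 0, .ofNat 0, .ofNat 0, .ofNat 0, .ofNat 0, .ofNat 2065418077434340018752376012800, .ofNat 0, .ofNat 0, .ofNat 0, .ofNat 1878887542714400693656800460800,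 .ofNat 0⟩)
    (by decide +kernel)
theorem L00126 : Good (Phi V4.P V4.D (-1) 1) ⟨1, 0, 2, 3, 2, 2, 1, 0, 3, 0⟩ :=
  out_sound (S := T4.ds_mp) T4.ok_mp (w := 32) (j := 3) (by decide +kernel)
theorem L00127 : Good (Phi V4.P V4.D (-1) 1) ⟨1, 0, 1, 0, 3, 6, 2, 0, 3, 0⟩ :=
  leaf_sound (S := T4.ds_mp) T4.ok_mp (w := 168) (c := ⟨⟨.ofNat 399, .negSucc 40, .negSucc 38, .negSucc 22, .negSucc 251, .negSucc 916⟩, ⟨.ofNat 93, .ofNat 17, .negSucc 90, .ofNat 42, .negSucc 65, .negSucc 239⟩, ⟨.ofNat 133, .negSucc 157, .ofNat 47, .negSucc 0, .negSucc 63, .ofNat 579⟩, ⟨.ofNat 886, .ofNat 107, .negSucc 16, .negSucc 50, .negSucc 616, .negSucc 2353⟩, ⟨.ofNat 47, .negSucc 151, .ofNat 65, .ofNat 60, .negSucc 335, .negSucc 214⟩, .ofNat 394, .negSucc 100, .ofNat 0, .negSucc 100, .ofNat 694, .ofNat 0, .ofNat 744, .ofNat 184, .negSucc 555, .ofNat 0, .ofNat 388, .negSucc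 55, .ofNat 0, .ofNat 0, .ofNat 960, .ofNat 4653, .ofNat 0, .ofNat 0, .ofNat 41676522705157330713878043033600, .ofNat 0, .ofNat 0, .ofNat 0, .ofNat 0, .ofNat 0, .ofNat 0, .ofNat 0, .ofNat 0, .ofNat 0, .ofNat 0, .ofNat 0, .ofNat 0, .ofNat 0⟩)
    (by decide +kernel)
theorem L00128 : Good (Phi V4.P V4.D (-1) 1) ⟨2, 0, 3, 4, 3, 6, 3, 0, 3, 0⟩ :=
  leaf_sound (S := T4.ds_mp) T4.ok_mp (w := 184) (c := ⟨⟨.ofNat 320, .negSucc 23, .negSucc 34, .ofNat 3, .negSucc 134, .negSucc 822⟩, ⟨.ofNat 180, .negSucc 11, .negSucc 43, .negSucc 1, .negSucc 73, .negSucc 454⟩, ⟨.ofNat 250, .negSucc 112, .ofNat 32, .negSucc 36, .negSucc 24, .ofNat 522⟩, ⟨.ofNat 801, .ofNat 66, .negSucc 68, .ofNat 9, .negSucc 307, .negSucc 2260⟩, ⟨.ofNat 93, .negSucc 110, .negSucc 12, .ofNat 19, .negSucc 140, .negSucc 182⟩, .ofNat 890, .negSucc 751, .ofNat 0, .negSucc 751, .ofNat 1772,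 .ofNat 0, .ofNat 387, .ofNat 455, .negSucc 321, .ofNat 0, .ofNat 353, .negSucc 143, .ofNat 0, .ofNat 0, .ofNat 885, .ofNat 17249, .ofNat 0, .ofNat 0, .ofNat 1058017389466955216571225184665600, .ofNat 0, .ofNat 0, .ofNat 0, .ofNat 0, .ofNat 0, .ofNat 0, .ofNat 0, .ofNat 39025977221770546397789776615833600, .ofNat 0, .ofNat 0, .ofNat 0, .ofNat 0, .ofNat 0⟩)
    (by decide +kernel)
theorem L00129 : Good (Phi V4.P V4.D (-1) 1) ⟨2, 0, 3, 4, 3, 6, 3, 1, 3, 0⟩ :=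
  leaf_sound (S := T4.ds_mp) T4.ok_mp (w := 184) (c := ⟨⟨.ofNat 133, .negSucc 68, .ofNat 10, .ofNat 4, .negSucc 116, .negSucc 704⟩, ⟨.ofNat 73, .negSucc 31, .negSucc 26, .ofNat 5, .negSucc 65, .negSucc 394⟩, ⟨.ofNat 263, .negSucc 78, .ofNat 17, .negSucc 41, .negSucc 36, .ofNat 433⟩, ⟨.ofNat 338, .negSucc 20, .ofNat 54, .ofNat 2, .negSucc 262, .negSucc 1949⟩, ⟨.negSucc 69, .negSucc 138, .ofNat 35, .ofNat 15, .negSucc 139, .negSucc 122⟩, .ofNat 1835, .negSucc 2275, .ofNat 0, .negSucc 2275, .ofNat 4467, .ofNat 0, .ofNat 262, .ofNat 521, .negSucc 306, .ofNat 0, .ofNat 343, .negSucc 155, .ofNat 0, .ofNat 0, .ofNat 911, .ofNat 8520, .ofNat 0, .ofNat 0, .ofNat 0, .ofNat 0, .ofNat 0, .ofNat 0, .ofNat 0, .ofNat 0, .ofNat 0, .ofNat 0, .ofNat 27872883891389568142429214736384000, .ofNat 0, .ofNat 0, .ofNat 0, .ofNat 0, .ofNat 0⟩)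
    (by decide +kernel)
theorem L00130 : Good (Phi V4.P V4.D (-1) 1) ⟨2, 1, 3, 4, 3, 6, 2, 0, 4, 0⟩ :=
  leaf_sound (S := T4.ds_mp) T4.ok_mp (w := 184) (c := ⟨⟨.ofNat 401, .ofNat 92, .negSucc 24, .ofNat 117, .negSucc 431, .negSucc 589⟩, ⟨.ofNat 201, .ofNat 39, .negSucc 16, .ofNat 53, .negSucc 217, .negSucc 293⟩, ⟨.ofNat 29, .negSucc 214, .ofNat 16, .negSucc 102, .ofNat 81, .ofNat 415⟩, ⟨.ofNat 1044, .ofNat 216, .negSucc 41, .ofNat 233, .negSucc 933, .negSucc 1441⟩, ⟨.negSucc 31, .negSucc 4, .ofNat 3, .ofNat 125, .negSucc 345, .negSucc 139⟩, .ofNat 834, .negSucc 761, .ofNat 0, .negSucc 761, .ofNat 1897, .ofNat 0, .ofNat 406, .ofNat 518, .negSucc 442, .ofNat 0, .ofNat 360, .negSucc 186, .ofNat 0, .ofNat 0, .ofNat 926, .ofNat 11165, .ofNat 0, .ofNat 0, .ofNat 1641556009670008249126585840435200, .ofNat 0, .ofNat 0, .ofNat 0, .ofNat 98225879820228372247433787211776000,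 .ofNat 0, .ofNat 0, .ofNat 0, .ofNat 58629284015120318702739407870361600, .ofNat 0, .ofNat 0, .ofNat 0, .ofNat 0, .ofNat 0⟩)
    (by decide +kernel)
theorem L00131 : Good (Phi V4.P V4.D (-1) 1) ⟨2, 1, 3, 4, 3, 6, 2, 0, 4, 1⟩ :=
  leaf_sound (S := T4.ds_mp) T4.ok_mp (w := 184) (c := ⟨⟨.negSucc 32, .negSucc 225, .negSucc 25, .negSucc 55, .negSucc 311, .negSucc 433⟩, ⟨.negSucc 38, .negSucc 39, .negSucc 62, .negSucc 24, .negSucc 156, .negSucc 216⟩, ⟨.ofNat 342, .ofNat 51, .ofNat 33, .negSucc 32, .ofNat 3, .ofNat 296⟩, ⟨.negSucc 137, .negSucc 310, .negSucc 31, .negSucc 147, .negSucc 653, .negSucc 1074⟩, ⟨.negSucc 136, .negSucc 30, .ofNat 11, .ofNat 29, .negSucc 279, .negSucc 71⟩, .ofNat 803, .negSucc 732, .ofNat 0, .negSucc 732, .ofNat 1882, .ofNat 0, .ofNat 420, .ofNat 509, .negSucc 398, .ofNat 0, .ofNat 350, .negSucc 155, .ofNat 0, .ofNat 0,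 .ofNat 940, .ofNat 13939, .ofNat 149193749945277543068235724750848000, .ofNat 0, .ofNat 1325195287112766133904737724006400, .ofNat 0, .ofNat 0, .ofNat 0, .ofNat 0, .ofNat 0, .ofNat 0, .ofNat 0, .ofNat 0, .ofNat 0, .ofNat 0, .ofNat 0, .ofNat 0, .ofNat 0⟩)
    (by decide +kernel)
theorem L00132 : Good (Phi V4.P V4.D (-1) 1) ⟨1, 0, 3, 5, 3, 6, 2, 0, 3, 0⟩ :=
  out_sound (S := T4.ds_mp) T4.ok_mp (w := 40) (j := 3) (by decide +kernel)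
theorem L00133 : Good (Phi V4.P V4.D (-1) 1) ⟨1, 0, 2, 3, 3, 6, 2, 0, 3, 0⟩ :=
  out_sound (S := T4.ds_mp) T4.ok_mp (w := 32) (j := 3) (by decide +kernel)
theorem L00134 : Good (Phi V4.P V4.D (-1) 1) ⟨2, 0, 1, 0, 3, 7, 2, 0, 3, 0⟩ :=
  leaf_sound (S := T4.ds_mp) T4.ok_mp (w := 168) (c := ⟨⟨.ofNat 322, .ofNat 5, .ofNat 12, .negSucc 18, .negSucc 230, .negSucc 883⟩, ⟨.ofNat 108, .ofNat 27, .negSucc 67, .ofNat 12, .negSucc 80, .negSucc 251⟩, ⟨.ofNat 197, .negSucc 61, .ofNat 0, .ofNat 21, .negSucc 76, .ofNat 456⟩, ⟨.ofNat 862, .ofNat 89, .ofNat 82, .negSucc 87, .negSucc 598, .negSucc 2520⟩, ⟨.ofNat 199, .negSucc 143, .ofNat 22, .ofNat 110, .negSucc 326, .negSucc 337⟩, .ofNat 412, .negSucc 89, .ofNat 0, .negSucc 89, .ofNat 649, .ofNat 0, .ofNat 795, .ofNat 143, .negSucc 460, .ofNat 0, .ofNat 429, .negSucc 94, .ofNat 0, .ofNat 0, .ofNat 922, .ofNat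 3380, .ofNat 0, .ofNat 0, .ofNat 0, .ofNat 0, .ofNat 0, .ofNat 0, .ofNat 0, .ofNat 0, .ofNat 0, .ofNat 0, .ofNat 0, .ofNat 0, .ofNat 0, .ofNat 0, .ofNat 0, .ofNat 0⟩)
    (by decide +kernel)
theorem L00135 : Good (Phi V4.P V4.D (-1) 1) ⟨2, 1, 2, 0, 3, 7, 2, 0, 3, 0⟩ :=
  leaf_sound (S := T4.ds_mp) T4.ok_mp (w := 176) (c := ⟨⟨.ofNat 601, .negSucc 29, .negSucc 30, .negSucc 28, .negSucc 368, .negSucc 1272⟩, ⟨.ofNat 105, .ofNat 34, .negSucc 65, .ofNat 2, .negSucc 56, .negSucc 201⟩, ⟨.negSucc 18, .negSucc 32, .negSucc 36, .ofNat 55, .negSucc 9, .ofNat 737⟩, ⟨.ofNat 1397, .ofNat 14, .negSucc 57, .negSucc 135, .negSucc 828, .negSucc 3077⟩, ⟨.ofNat 168, .ofNat 115, .ofNat 11, .ofNat 260, .negSucc 421, .negSucc 589⟩, .ofNat 372, .negSucc 66, .ofNat 0, .negSucc 66, .ofNat 747, .ofNat 0, .ofNat 900, .ofNat 81, .negSucc 590, .ofNat 0, .ofNat 387, .negSucc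 66, .ofNat 0, .ofNat 0, .ofNat 963, .ofNat 3943, .ofNat 0, .ofNat 0, .ofNat 0, .ofNat 0, .ofNat 0, .ofNat 0, .ofNat 0, .ofNat 0, .ofNat 0, .ofNat 0, .ofNat 0, .ofNat 0, .ofNat 0, .ofNat 0, .ofNat 0, .ofNat 0⟩)
    (by decide +kernel)
theorem L00136 : Good (Phi V4.P V4.D (-1) 1) ⟨2, 1, 2, 1, 3, 7, 2, 0, 3, 0⟩ :=
  leaf_sound (S := T4.ds_mp) T4.ok_mp (w := 176) (c := ⟨⟨.ofNat 672, .negSucc 203, .negSucc 23, .negSucc 26, .negSucc 363, .negSucc 1291⟩, ⟨.ofNat 285, .negSucc 24, .negSucc 71, .negSucc 26, .negSucc 159, .negSucc 488⟩, ⟨.negSucc 37, .ofNat 14, .negSucc 58, .negSucc 32, .ofNat 4, .ofNat 724⟩, ⟨.ofNat 1581, .negSucc 380, .negSucc 40, .negSucc 181, .negSucc 798, .negSucc 3092⟩, ⟨.ofNat 203, .ofNat 127, .ofNat 27, .ofNat 254, .negSucc 412, .negSucc 574⟩, .ofNat 397, .negSucc 143, .ofNat 0, .negSucc 143, .ofNat 714, .ofNat 0, .ofNat 836,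 .ofNat 333, .negSucc 556, .ofNat 0, .ofNat 417, .negSucc 153, .ofNat 0, .ofNat 0, .ofNat 938, .ofNat 5500, .ofNat 0, .ofNat 0, .ofNat 0, .ofNat 0, .ofNat 0, .ofNat 0, .ofNat 0, .ofNat 0, .ofNat 0, .ofNat 0, .ofNat 965160233708544257702044159180800, .ofNat 0, .ofNat 0, .ofNat 0, .ofNat 0, .ofNat 0⟩)
    (by decide +kernel)
theorem L00137 : Good (Phi V4.P V4.D (-1) 1) ⟨2, 0, 3, 4, 3, 7, 3, 0, 3, 0⟩ :=
  leaf_sound (S := T4.ds_mp) T4.ok_mp (w := 184) (c := ⟨⟨.ofNat 423, .ofNat 16, .negSucc 80, .ofNat 12, .negSucc 133, .negSucc 1026⟩, ⟨.ofNat 245, .ofNat 2, .negSucc 60, .ofNat 5, .negSucc 77, .negSucc 571⟩, ⟨.ofNat 224, .negSucc 167, .ofNat 36, .negSucc 65, .negSucc 27, .ofNat 559⟩, ⟨.ofNat 1109, .ofNat 73, .negSucc 136, .negSucc 44, .negSucc 319, .negSucc 2749⟩, ⟨.ofNat 140, .negSucc 14, .negSucc 71, .ofNat 176, .negSucc 124, .negSucc 378⟩, .ofNat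 2838, .negSucc 3986, .ofNat 0, .negSucc 3986, .ofNat 7493, .ofNat 0, .ofNat 233, .ofNat 565, .negSucc 285, .ofNat 0, .ofNat 352, .negSucc 159, .ofNat 0, .ofNat 0, .ofNat 851, .ofNat 14317, .ofNat 129726074413809018574699052924928000, .ofNat 0, .ofNat 989020340351055940204236688588800, .ofNat 0, .ofNat 0, .ofNat 0, .ofNat 0, .ofNat 0, .ofNat 0, .ofNat 0, .ofNat 43280817473392831451326999796121600, .ofNat 0, .ofNat 0, .ofNat 0, .ofNat 0, .ofNat 0⟩)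
    (by decide +kernel)
theorem L00138 : Good (Phi V4.P V4.D (-1) 1) ⟨2, 0, 3, 4, 3, 7, 3, 1, 3, 0⟩ :=
  leaf_sound (S := T4.ds_mp) T4.ok_mp (w := 184) (c := ⟨⟨.ofNat 256, .negSucc 37, .negSucc 37, .ofNat 25, .negSucc 151, .negSucc 941⟩, ⟨.ofNat 137, .negSucc 7, .negSucc 58, .ofNat 16, .negSucc 85, .negSucc 522⟩, ⟨.ofNat 214, .negSucc 108, .ofNat 10, .negSucc 89, .negSucc 17, .ofNat 493⟩, ⟨.ofNat 657, .ofNat 7, .negSucc 72, .negSucc 16, .negSucc 329, .negSucc 2510⟩, ⟨.ofNat 3, .negSucc 33, .negSucc 26, .ofNat 161, .negSucc 186, .negSucc 341⟩, .ofNat 1793, .negSucc 2206, .ofNat 0, .negSucc 2206, .ofNat 4367, .ofNat 0, .ofNat 285, .ofNat 565, .negSucc 297, .ofNat 0, .ofNat 367, .negSucc 158, .ofNat 0, .ofNat 0, .ofNat 880, .ofNat 10805, .ofNat 0, .ofNat 0, .ofNat 0, .ofNat 0, .ofNat 0, .ofNat 0, .ofNat 0, .ofNat 0, .ofNat 0, .ofNat 0, .ofNat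 43198069064455850097226657510195200, .ofNat 0, .ofNat 0, .ofNat 0, .ofNat 0, .ofNat 0⟩)
    (by decide +kernel)
theorem L00139 : Good (Phi V4.P V4.D (-1) 1) ⟨2, 0, 3, 5, 3, 7, 2, 0, 3, 0⟩ :=
  out_sound (S := T4.ds_mp) T4.ok_mp (w := 40) (j := 3) (by decide +kernel)
theorem L00140 : Good (Phi V4.P V4.D (-1) 1) ⟨3, 2, 3, 4, 3, 7, 3, 0, 4, 0⟩ :=
  leaf_sound (S := T4.ds_mp) T4.ok_mp (w := 192) (c := ⟨⟨.ofNat 604, .ofNat 51, .ofNat 11, .ofNat 43, .negSucc 240, .negSucc 764⟩, ⟨.ofNat 324, .ofNat 21, .ofNat 15, .ofNat 24, .negSucc 129, .negSucc 410⟩, ⟨.negSucc 69, .negSucc 104, .negSucc 32, .negSucc 63, .ofNat 38, .ofNat 451⟩, ⟨.ofNat 1531, .ofNat 51, .ofNat 5, .negSucc 88, .negSucc 525, .negSucc 1812⟩, ⟨.ofNat 175, .ofNat 97, .ofNat 12, .ofNat 374, .negSucc 218, .negSucc 401⟩, .ofNat 880, .negSucc 816, .ofNat 0, .negSucc 816, .ofNat 1940, .ofNat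 0, .ofNat 416, .ofNat 575, .negSucc 387, .ofNat 0, .ofNat 386, .negSucc 198, .ofNat 0, .ofNat 0, .ofNat 860, .ofNat 37655, .ofNat 29422252691575169793871057131877171200, .ofNat 0, .ofNat 10487019184279991045393959039795200, .ofNat 0, .ofNat 0, .ofNat 0, .ofNat 0, .ofNat 0, .ofNat 0, .ofNat 0, .ofNat 45972815446305022197918412151193600, .ofNat 0, .ofNat 0, .ofNat 0, .ofNat 0, .ofNat 0⟩)
    (by decide +kernel)
theorem L00141 : Good (Phi V4.P V4.D (-1) 1) ⟨3, 2, 3, 4, 3, 7, 3, 0, 4, 1⟩ :=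
  leaf_sound (S := T4.ds_mp) T4.ok_mp (w := 192) (c := ⟨⟨.negSucc 74, .negSucc 99, .negSucc 3, .negSucc 65, .negSucc 149, .negSucc 515⟩, ⟨.negSucc 36, .negSucc 22, .negSucc 54, .negSucc 36, .negSucc 80, .negSucc 275⟩, ⟨.ofNat 376, .negSucc 11, .negSucc 26, .negSucc 87, .negSucc 16, .ofNat 293⟩, ⟨.negSucc 205, .negSucc 164, .negSucc 10, .negSucc 260, .negSucc 312, .negSucc 1282⟩, ⟨.negSucc 88, .ofNat 33, .ofNat 36, .ofNat 153, .negSucc 158, .negSucc 169⟩, .ofNat 872, .negSucc 805, .ofNat 0, .negSucc 805, .ofNat 1932, .ofNat 0, .ofNat 411, .ofNat 536, .negSucc 307, .ofNat 0, .ofNat 365, .negSucc 150, .ofNat 0, .ofNat 0, .ofNat 870, .ofNat 45357, .ofNat 57885588501145178909781036481118208000, .ofNat 0, .ofNat 10479797418731155950993883634073600, .ofNat 0, .ofNat 0, .ofNat 0, .ofNat 0, .ofNat 0, .ofNat 459782210058564543193491083828291174400,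 .ofNat 0, .ofNat 68844065468908372725757160875622400, .ofNat 0, .ofNat 0, .ofNat 0, .ofNat 0, .ofNat 0⟩)
    (by decide +kernel)
theorem L00142 : Good (Phi V4.P V4.D (-1) 1) ⟨3, 2, 3, 4, 3, 7, 3, 1, 3, 0⟩ :=
  leaf_sound (S := T4.ds_mp) T4.ok_mp (w := 184) (c := ⟨⟨.ofNat 307, .negSucc 59, .ofNat 17, .negSucc 36, .negSucc 166, .negSucc 1077⟩, ⟨.ofNat 163, .negSucc 6, .negSucc 25, .negSucc 19, .negSucc 91, .negSucc 576⟩, ⟨.ofNat 24, .negSucc 37, .negSucc 33, .negSucc 73, .ofNat 5, .ofNat 634⟩, ⟨.ofNat 793, .negSucc 86, .ofNat 56, .negSucc 193, .negSucc 349, .negSucc 2667⟩, ⟨.negSucc 71, .ofNat 35, .ofNat 26, .ofNat 177, .negSucc 177, .negSucc 344⟩, .ofNat 880, .negSucc 815, .ofNat 0, .negSucc 815, .ofNat 1937, .ofNat 0, .ofNat 416, .ofNat 566, .negSucc 380, .ofNat 0, .ofNat 389, .negSucc 175, .ofNat 0, .ofNat 0, .ofNat 911, .ofNat 10366, .ofNat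 0, .ofNat 0, .ofNat 0, .ofNat 0, .ofNat 0, .ofNat 0, .ofNat 0, .ofNat 0, .ofNat 0, .ofNat 0, .ofNat 6966517301211599150559410729779200, .ofNat 0, .ofNat 0, .ofNat 0, .ofNat 0, .ofNat 0⟩)
    (by decide +kernel)
theorem L00143 : Good (Phi V4.P V4.D (-1) 1) ⟨3, 3, 3, 4, 3, 7, 2, 0, 3, 0⟩ :=
  leaf_sound (S := T4.ds_mp) T4.ok_mp (w := 184) (c := ⟨⟨.ofNat 725, .negSucc 34, .ofNat 13, .negSucc 114, .negSucc 471, .negSucc 1457⟩, ⟨.ofNat 326, .ofNat 1, .negSucc 39, .negSucc 39, .negSucc 219, .negSucc 662⟩, ⟨.negSucc 195, .negSucc 72, .negSucc 27, .negSucc 21, .ofNat 80, .ofNat 876⟩, ⟨.ofNat 1640, .negSucc 74, .ofNat 14, .negSucc 393, .negSucc 940, .negSucc 3324⟩, ⟨.ofNat 241, .ofNat 64, .negSucc 44, .ofNat 278, .negSucc 450, .negSucc 486⟩, .ofNat 1366, .negSucc 1861, .ofNat 0, .negSucc 1861, .ofNat 4422, .ofNat 0, .ofNat 341, .ofNat 642, .negSucc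 399, .ofNat 0, .ofNat 351, .negSucc 178, .ofNat 0, .ofNat 0, .ofNat 894, .ofNat 6086, .ofNat 0, .ofNat 0, .ofNat 20618686474559733427980573081600, .ofNat 0, .ofNat 0, .ofNat 0, .ofNat 0, .ofNat 0, .ofNat 0, .ofNat 0, .ofNat 1808483299168382747702238117888000, .ofNat 0, .ofNat 0, .ofNat 0, .ofNat 0, .ofNat 0⟩)
    (by decide +kernel)
theorem L00144 : Good (Phi V4.P V4.D (-1) 1) ⟨2, 1, 3, 5, 3, 7, 2, 0, 3, 0⟩ :=
  out_sound (S := T4.ds_mp) T4.ok_mp (w := 40) (j := 3) (by decide +kernel)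
theorem L00145 : Good (Phi V4.P V4.D (-1) 1) ⟨1, 0, 2, 3, 3, 7, 2, 0, 3, 0⟩ :=
  out_sound (S := T4.ds_mp) T4.ok_mp (w := 32) (j := 3) (by decide +kernel)
theorem L00146 : Good (Phi V4.P V4.D (-1) 1) ⟨2, 0, 1, 0, 2, 3, 2, 1, 4, 0⟩ :=
  leaf_sound (S := T4.ds_mp) T4.ok_mp (w := 168) (c := ⟨⟨.ofNat 66, .negSucc 39, .negSucc 97, .ofNat 14, .negSucc 210, .negSucc 349⟩, ⟨.ofNat 49, .negSucc 26, .negSucc 140, .ofNat 24, .negSucc 82, .negSucc 98⟩, ⟨.ofNat 121, .negSucc 65, .ofNat 98, .ofNat 5, .negSucc 62, .ofNat 193⟩, ⟨.ofNat 104, .ofNat 8, .negSucc 72, .ofNat 10, .negSucc 534, .negSucc 983⟩, ⟨.negSucc 275, .negSucc 158, .ofNat 51, .ofNat 169, .negSucc 278, .negSucc 91⟩, .ofNat 411, .negSucc 92, .ofNat 0, .negSucc 92, .ofNat 651, .ofNat 0, .ofNat 372, .ofNat 110, .negSucc 289, .ofNat 0, .ofNat 222, .negSucc 14, .ofNat 0, .ofNat 0, .ofNat 514, .ofNat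 772, .ofNat 0, .ofNat 0, .ofNat 0, .ofNat 0, .ofNat 0, .ofNat 0, .ofNat 0, .ofNat 0, .ofNat 0, .ofNat 0, .ofNat 0, .ofNat 0, .ofNat 0, .ofNat 0, .ofNat 0, .ofNat 0⟩)
    (by decide +kernel)
theorem L00147 : Good (Phi V4.P V4.D (-1) 1) ⟨2, 0, 1, 0, 2, 3, 2, 1, 4, 1⟩ :=
  leaf_sound (S := T4.ds_mp) T4.ok_mp (w := 168) (c := ⟨⟨.negSucc 217, .negSucc 114, .negSucc 121, .negSucc 133, .negSucc 105, .negSucc 241⟩, ⟨.ofNat 24, .negSucc 62, .negSucc 270, .negSucc 18, .negSucc 46, .negSucc 55⟩, ⟨.ofNat 266, .ofNat 12, .ofNat 116, .ofNat 59, .negSucc 105, .ofNat 109⟩, ⟨.negSucc 780, .negSucc 99, .negSucc 109, .negSucc 402, .negSucc 237, .negSucc 692⟩, ⟨.negSucc 338, .negSucc 226, .ofNat 80, .ofNat 78, .negSucc 222, .negSucc 28⟩, .ofNat 410, .negSucc 87, .ofNat 0, .negSucc 87, .ofNat 649, .ofNat 0, .ofNat 733, .ofNat 175, .negSucc 519, .ofNat 0, .ofNat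 433, .ofNat 0, .ofNat 0, .ofNat 0, .ofNat 1010, .ofNat 5085, .ofNat 0, .ofNat 0, .ofNat 0, .ofNat 0, .ofNat 0, .ofNat 0, .ofNat 0, .ofNat 0, .ofNat 0, .ofNat 0, .ofNat 0, .ofNat 0, .ofNat 0, .ofNat 0, .ofNat 0, .ofNat 0⟩)
    (by decide +kernel)
theorem L00148 : Good (Phi V4.P V4.D (-1) 1) ⟨2, 1, 2, 0, 3, 6, 2, 1, 3, 0⟩ :=
  leaf_sound (S := T4.ds_mp) T4.ok_mp (w := 176) (c := ⟨⟨.ofNat 167, .negSucc 187, .negSucc 95, .negSucc 38, .negSucc 239, .negSucc 735⟩, ⟨.ofNat 24, .ofNat 43, .negSucc 128, .negSucc 7, .negSucc 49, .negSucc 95⟩, ⟨.negSucc 76, .ofNat 79, .ofNat 55, .ofNat 37, .negSucc 7, .ofNat 500⟩, ⟨.ofNat 265, .negSucc 246, .negSucc 105, .negSucc 90, .negSucc 550, .negSucc 1779⟩, ⟨.negSucc 405, .negSucc 50, .ofNat 32, .ofNat 46, .negSucc 308, .negSucc 163⟩, .ofNat 533, .negSucc 218, .ofNat 0, .negSucc 218, .ofNat 1880, .ofNat 0, .ofNat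 675, .ofNat 237, .negSucc 489, .ofNat 0, .ofNat 262, .negSucc 30, .ofNat 0, .ofNat 0, .ofNat 986, .ofNat 3758, .ofNat 0, .ofNat 0, .ofNat 0, .ofNat 0, .ofNat 0, .ofNat 0, .ofNat 0, .ofNat 0, .ofNat 0, .ofNat 0, .ofNat 0, .ofNat 0, .ofNat 0, .ofNat 0, .ofNat 0, .ofNat 0⟩)
    (by decide +kernel)
theorem L00149 : Good (Phi V4.P V4.D (-1) 1) ⟨2, 1, 2, 1, 3, 6, 2, 1, 3, 0⟩ :=
  leaf_sound (S := T4.ds_mp) T4.ok_mp (w := 176) (c := ⟨⟨.ofNat 93, .negSucc 169, .negSucc 80, .ofNat 14, .negSucc 306, .negSucc 788⟩, ⟨.ofNat 8, .ofNat 10, .negSucc 124, .ofNat 26, .negSucc 102, .negSucc 257⟩, ⟨.negSucc 6, .ofNat 42, .ofNat 60, .negSucc 33, .ofNat 30, .ofNat 553⟩, ⟨.ofNat 222, .negSucc 229, .negSucc 113, .ofNat 29, .negSucc 656, .negSucc 1921⟩, ⟨.negSucc 389, .negSucc 29, .ofNat 38, .ofNat 38, .negSucc 327, .negSucc 119⟩, .ofNat 637, .negSucc 462, .ofNat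 0, .negSucc 462, .ofNat 1722, .ofNat 0, .ofNat 553, .ofNat 440, .negSucc 491, .ofNat 0, .ofNat 330, .negSucc 113, .ofNat 0, .ofNat 0, .ofNat 1009, .ofNat 3578, .ofNat 0, .ofNat 0, .ofNat 0, .ofNat 0, .ofNat 0, .ofNat 0, .ofNat 0, .ofNat 0, .ofNat 0, .ofNat 0, .ofNat 0, .ofNat 0, .ofNat 0, .ofNat 0, .ofNat 0, .ofNat 0⟩)
    (by decide +kernel)
theorem L00150 : Good (Phi V4.P V4.D (-1) 1) ⟨2, 1, 2, 0, 3, 7, 2, 1, 3, 0⟩ :=
  leaf_sound (S := T4.ds_mp) T4.ok_mp (w := 176) (c := ⟨⟨.ofNat 187, .negSucc 263, .negSucc 39, .negSucc 80, .negSucc 229, .negSucc 882⟩, ⟨.ofNat 77, .ofNat 58, .negSucc 155, .negSucc 7, .negSucc 50, .negSucc 181⟩, ⟨.ofNat 14, .ofNat 118, .negSucc 34, .ofNat 49, .negSucc 26, .ofNat 503⟩, ⟨.ofNat 295, .negSucc 360, .ofNat 1, .negSucc 216, .negSucc 499, .negSucc 2154⟩, ⟨.negSucc 260, .ofNat 3, .ofNat 43, .ofNat 111, .negSucc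 364, .negSucc 367⟩, .ofNat 373, .negSucc 69, .ofNat 0, .negSucc 69, .ofNat 747, .ofNat 0, .ofNat 443, .ofNat 90, .negSucc 335, .ofNat 0, .ofNat 205, .negSucc 10, .ofNat 0, .ofNat 0, .ofNat 516, .ofNat 1661, .ofNat 0, .ofNat 0, .ofNat 0, .ofNat 0, .ofNat 0, .ofNat 0, .ofNat 0, .ofNat 0, .ofNat 0, .ofNat 0, .ofNat 0, .ofNat 0, .ofNat 0, .ofNat 0, .ofNat 0, .ofNat 0⟩)
    (by decide +kernel)
theorem L00151 : Good (Phi V4.P V4.D (-1) 1) ⟨2, 1, 2, 1, 3, 7, 2, 1, 3, 0⟩ :=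
  leaf_sound (S := T4.ds_mp) T4.ok_mp (w := 176) (c := ⟨⟨.ofNat 195, .negSucc 270, .negSucc 103, .negSucc 54, .negSucc 272, .negSucc 942⟩, ⟨.ofNat 75, .negSucc 23, .negSucc 158, .negSucc 5, .negSucc 109, .negSucc 330⟩, ⟨.negSucc 21, .ofNat 87, .ofNat 28, .negSucc 43, .ofNat 12, .ofNat 565⟩, ⟨.ofNat 339, .negSucc 382, .negSucc 126, .negSucc 164, .negSucc 540, .negSucc 2230⟩, ⟨.negSucc 249, .ofNat 1, .ofNat 36, .ofNat 91, .negSucc 379, .negSucc 290⟩, .ofNat 394, .negSucc 139, .ofNat 0, .negSucc 139, .ofNat 713, .ofNat 0, .ofNat 401, .ofNat 189, .negSucc 348, .ofNat 0, .ofNat 224, .negSucc 51, .ofNat 0, .ofNat 0, .ofNat 534, .ofNat 1268, .ofNat 0, .ofNat 0, .ofNat 0, .ofNat 0, .ofNat 0, .ofNat 0, .ofNat 0, .ofNat 0, .ofNat 0, .ofNat 0, .ofNat 0, .ofNat 0, .ofNat 0, .ofNat 0, .ofNat 0, .ofNat 0⟩)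
    (by decide +kernel)
theorem L00152 : Good (Phi V4.P V4.D (-1) 1) ⟨1, 0, 2, 2, 2, 3, 2, 1, 4, 0⟩ :=
  leaf_sound (S := T4.ds_mp) T4.ok_mp (w := 168) (c := ⟨⟨.ofNat 129, .negSucc 208, .negSucc 59, .ofNat 34, .negSucc 341, .negSucc 472⟩, ⟨.ofNat 25, .negSucc 43, .negSucc 100, .ofNat 24, .negSucc 180, .negSucc 238⟩, ⟨.ofNat 159, .negSucc 122, .ofNat 26, .negSucc 97, .ofNat 27, .ofNat 300⟩, ⟨.ofNat 325, .negSucc 237, .negSucc 97, .ofNat 8, .negSucc 737, .negSucc 1200⟩, ⟨.negSucc 264, .negSucc 149, .ofNat 26, .ofNat 176, .negSucc 343, .negSucc 101⟩, .ofNat 847, .negSucc 749, .ofNat 0, .negSucc 749, .ofNat 1841, .ofNat 0, .ofNat 436, .ofNat 557, .negSucc 455, .ofNat 0, .ofNat 402, .negSucc 184, .ofNat 0, .ofNat 0, .ofNat 993, .ofNat 6058, .ofNat 0, .ofNat 0, .ofNat 7568618472862353879323797094400, .ofNat 0, .ofNat 0, .ofNat 0, .ofNat 764927578725996541724434051891200,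 .ofNat 0, .ofNat 0, .ofNat 0, .ofNat 469525178765835637694143030886400, .ofNat 0, .ofNat 0, .ofNat 0, .ofNat 316087759696896441039259592294400, .ofNat 0⟩)
    (by decide +kernel)
theorem L00153 : Good (Phi V4.P V4.D (-1) 1) ⟨1, 0, 2, 2, 2, 3, 2, 1, 4, 1⟩ :=
  leaf_sound (S := T4.ds_mp) T4.ok_mp (w := 168) (c := ⟨⟨.negSucc 165, .negSucc 558, .ofNat 54, .negSucc 148, .negSucc 181, .negSucc 256⟩, ⟨.negSucc 150, .negSucc 141, .negSucc 160, .negSucc 73, .negSucc 101, .negSucc 137⟩, ⟨.ofNat 332, .ofNat 182, .negSucc 19, .negSucc 88, .negSucc 67, .ofNat 165⟩, ⟨.negSucc 611, .negSucc 797, .ofNat 149, .negSucc 418, .negSucc 345, .negSucc 681⟩, ⟨.negSucc 297, .negSucc 156, .negSucc 40, .ofNat 39, .negSucc 296, .negSucc 45⟩, .ofNat 853, .negSucc 758, .ofNat 0, .negSucc 758, .ofNat 1850, .ofNat 0, .ofNat 424, .ofNat 528, .negSucc 388, .ofNat 0, .ofNat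 386, .negSucc 152, .ofNat 0, .ofNat 0, .ofNat 978, .ofNat 4650, .ofNat 0, .ofNat 0, .ofNat 3935577354548546099017993420800, .ofNat 0, .ofNat 0, .ofNat 0, .ofNat 360469771421031552144145121280000, .ofNat 0, .ofNat 0, .ofNat 0, .ofNat 462225914682752454069100688179200, .ofNat 0, .ofNat 0, .ofNat 0, .ofNat 498611703442379761324706601369600, .ofNat 0⟩)
    (by decide +kernel)
theorem L00154 : Good (Phi V4.P V4.D (-1) 1) ⟨1, 0, 2, 3, 2, 3, 2, 1, 3, 0⟩ :=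
  out_sound (S := T4.ds_mp) T4.ok_mp (w := 32) (j := 3) (by decide +kernel)
theorem L00155 : Good (Phi V4.P V4.D (-1) 1) ⟨2, 0, 1, 0, 2, 2, 2, 2, 3, 0⟩ :=
  leaf_sound (S := T4.ds_mp) T4.ok_mp (w := 160) (c := ⟨⟨.negSucc 174, .negSucc 112, .negSucc 146, .negSucc 104, .negSucc 57, .negSucc 183⟩, ⟨.ofNat 3, .negSucc 38, .negSucc 239, .negSucc 44, .negSucc 20, .negSucc 38⟩, ⟨.ofNat 7, .ofNat 57, .ofNat 99, .ofNat 93, .negSucc 142, .ofNat 121⟩, ⟨.negSucc 610, .negSucc 139, .negSucc 120, .negSucc 255, .negSucc 123, .negSucc 559⟩, ⟨.negSucc 510, .negSucc 147, .ofNat 49, .negSucc 129, .negSucc 124, .ofNat 55⟩, .ofNat 415, .negSucc 104, .ofNat 0, .negSucc 104, .ofNat 653, .ofNat 0, .ofNat 318, .ofNat 105, .negSucc 293, .ofNat 0, .ofNat 218, .negSucc 7, .ofNat 0, .ofNat 0, .ofNat 565, .ofNat 2086, .ofNat 0, .ofNat 0, .ofNat 0, .ofNat 0, .ofNat 0, .ofNat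 0, .ofNat 0, .ofNat 0, .ofNat 0, .ofNat 0, .ofNat 0, .ofNat 0, .ofNat 0, .ofNat 0, .ofNat 0, .ofNat 0⟩)
    (by decide +kernel)
theorem L00156 : Good (Phi V4.P V4.D (-1) 1) ⟨2, 0, 2, 0, 2, 3, 2, 2, 3, 0⟩ :=
  leaf_sound (S := T4.ds_mp) T4.ok_mp (w := 168) (c := ⟨⟨.negSucc 138, .negSucc 126, .negSucc 83, .negSucc 74, .negSucc 116, .negSucc 370⟩, ⟨.ofNat 0, .negSucc 56, .negSucc 142, .ofNat 1, .negSucc 17, .negSucc 68⟩, ⟨.ofNat 47, .ofNat 3, .ofNat 26, .ofNat 101, .negSucc 43, .ofNat 207⟩, ⟨.negSucc 469, .negSucc 173, .negSucc 80, .negSucc 244, .negSucc 328, .negSucc 1094⟩, ⟨.negSucc 533, .negSucc 314, .negSucc 37, .ofNat 179, .negSucc 71, .ofNat 9⟩, .ofNat 603, .negSucc 173, .ofNat 0, .negSucc 173, .ofNat 1312, .ofNat 0, .ofNat 664, .ofNat 222, .negSucc 406, .ofNat 0, .ofNat 364, .ofNat 2, .ofNat 0, .ofNat 0, .ofNat 986, .ofNat 2625, .ofNat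 0, .ofNat 0, .ofNat 0, .ofNat 0, .ofNat 0, .ofNat 0, .ofNat 0, .ofNat 0, .ofNat 0, .ofNat 0, .ofNat 0, .ofNat 0, .ofNat 0, .ofNat 0, .ofNat 0, .ofNat 0⟩)
    (by decide +kernel)
theorem L00157 : Good (Phi V4.P V4.D (-1) 1) ⟨2, 0, 2, 1, 2, 3, 2, 2, 3, 0⟩ :=
  leaf_sound (S := T4.ds_mp) T4.ok_mp (w := 168) (c := ⟨⟨.negSucc 206, .negSucc 137, .negSucc 85, .negSucc 79, .negSucc 118, .negSucc 378⟩, ⟨.negSucc 49, .negSucc 76, .negSucc 152, .negSucc 22, .negSucc 57, .negSucc 154⟩, ⟨.ofNat 91, .ofNat 15, .ofNat 42, .ofNat 60, .negSucc 63, .ofNat 208⟩, ⟨.negSucc 556, .negSucc 128, .negSucc 87, .negSucc 283, .negSucc 295, .negSucc 1098⟩, ⟨.negSucc 529, .negSucc 273, .ofNat 0, .ofNat 123, .negSucc 120, .negSucc 3⟩, .ofNat 719, .negSucc 455, .ofNat 0, .negSucc 455, .ofNat 1478, .ofNat 0, .ofNat 548, .ofNat 439, .negSucc 413, .ofNat 0, .ofNat 405, .negSucc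 90, .ofNat 0, .ofNat 0, .ofNat 1020, .ofNat 3688, .ofNat 0, .ofNat 0, .ofNat 0, .ofNat 0, .ofNat 0, .ofNat 0, .ofNat 0, .ofNat 0, .ofNat 0, .ofNat 0, .ofNat 0, .ofNat 0, .ofNat 0, .ofNat 0, .ofNat 0, .ofNat 0⟩)
    (by decide +kernel)
theorem L00158 : Good (Phi V4.P V4.D (-1) 1) ⟨2, 0, 3, 4, 2, 2, 2, 2, 3, 0⟩ :=
  leaf_sound (S := T4.ds_mp) T4.ok_mp (w := 168) (c := ⟨⟨.negSucc 278, .negSucc 155, .negSucc 61, .negSucc 119, .negSucc 80, .negSucc 175⟩, ⟨.negSucc 168, .negSucc 67, .negSucc 84, .negSucc 68, .negSucc 45, .negSucc 92⟩, ⟨.ofNat 70, .ofNat 106, .ofNat 48, .ofNat 100, .negSucc 143, .ofNat 124⟩, ⟨.negSucc 680, .negSucc 201, .negSucc 96, .negSucc 271, .negSucc 145, .negSucc 540⟩, ⟨.negSucc 478, .negSucc 112, .ofNat 14, .negSucc 140, .negSucc 151, .ofNat 61⟩, .ofNat 1761, .negSucc 2150, .ofNat 0, .negSucc 2150, .ofNat 4275, .ofNat 0, .ofNat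 285, .ofNat 519, .negSucc 361, .ofNat 0, .ofNat 356, .negSucc 174, .ofNat 0, .ofNat 0, .ofNat 1022, .ofNat 4532, .ofNat 0, .ofNat 0, .ofNat 8455128042723190043679129600, .ofNat 0, .ofNat 0, .ofNat 0, .ofNat 0, .ofNat 0, .ofNat 0, .ofNat 0, .ofNat 6534656289575670112740546969600, .ofNat 0, .ofNat 0, .ofNat 0, .ofNat 0, .ofNat 0⟩)
    (by decide +kernel)
theorem L00159 : Good (Phi V4.P V4.D (-1) 1) ⟨3, 0, 4, 8, 2, 3, 2, 2, 3, 0⟩ :=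
  leaf_sound (S := T4.ds_mp) T4.ok_mp (w := 176) (c := ⟨⟨.negSucc 341, .ofNat 11, .ofNat 48, .negSucc 96, .negSucc 157, .negSucc 350⟩, ⟨.negSucc 190, .negSucc 1, .negSucc 1, .negSucc 48, .negSucc 87, .negSucc 185⟩, ⟨.ofNat 180, .negSucc 25, .negSucc 49, .ofNat 53, .negSucc 74, .ofNat 190⟩, ⟨.negSucc 781, .ofNat 155, .ofNat 214, .negSucc 331, .negSucc 382, .negSucc 1057⟩, ⟨.negSucc 560, .negSucc 89, .negSucc 55, .ofNat 88, .negSucc 154, .ofNat 43⟩, .ofNat 3148, .negSucc 4511, .ofNat 0, .negSucc 4511, .ofNat 8504, .ofNat 0, .ofNat 286, .ofNat 616, .negSucc 356, .ofNat 0, .ofNat 400, .negSucc 173, .ofNat 0, .ofNat 0, .ofNat 1004, .ofNat 4887, .ofNat 0, .ofNat 0, .ofNat 0, .ofNat 0, .ofNat 0, .ofNat 0, .ofNat 0, .ofNat 0, .ofNat 0, .ofNat 0, .ofNat 3857479656677418017202005606400, .ofNat 0, .ofNat 0, .ofNat 0, .ofNat 0, .ofNat 0⟩)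
    (by decide +kernel)
theorem L00160 : Good (Phi V4.P V4.D (-1) 1) ⟨3, 1, 4, 8, 2, 3, 2, 2, 3, 0⟩ :=
  leaf_sound (S := T4.ds_mp) T4.ok_mp (w := 176) (c := ⟨⟨.negSucc 342, .negSucc 84, .negSucc 9, .negSucc 66, .negSucc 176, .negSucc 402⟩, ⟨.negSucc 194, .negSucc 32, .negSucc 35, .negSucc 35, .negSucc 101, .negSucc 220⟩, ⟨.ofNat 165, .ofNat 19, .ofNat 2, .negSucc 22, .negSucc 39, .ofNat 236⟩, ⟨.negSucc 720, .negSucc 72, .ofNat 11, .negSucc 213, .negSucc 393, .negSucc 1138⟩, ⟨.negSucc 608, .negSucc 108, .ofNat 6, .ofNat 34, .negSucc 195, .negSucc 0⟩, .ofNat 1814, .negSucc 2258, .ofNat 0, .negSucc 2258, .ofNat 4469, .ofNat 0, .ofNat 309, .ofNat 636, .negSucc 384, .ofNat 0, .ofNat 419, .negSucc 185, .ofNat 0, .ofNat 0, .ofNat 1018, .ofNat 5199, .ofNat 0, .ofNat 0, .ofNat 0, .ofNat 0, .ofNat 0, .ofNat 0, .ofNat 0, .ofNat 0, .ofNat 0, .ofNat 0,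 .ofNat 0, .ofNat 0, .ofNat 0, .ofNat 0, .ofNat 0, .ofNat 0⟩)
    (by decide +kernel)
theorem L00161 : Good (Phi V4.P V4.D (-1) 1) ⟨3, 0, 4, 9, 2, 3, 2, 2, 3, 0⟩ :=
  out_sound (S := T4.ds_mp) T4.ok_mp (w := 48) (j := 3) (by decide +kernel)
theorem L00162 : Good (Phi V4.P V4.D (-1) 1) ⟨3, 1, 4, 9, 2, 3, 2, 2, 3, 0⟩ :=
  leaf_sound (S := T4.ds_mp) T4.ok_mp (w := 184) (c := ⟨⟨.negSucc 357, .negSucc 53, .negSucc 181, .negSucc 103, .negSucc 186, .negSucc 387⟩, ⟨.negSucc 230, .negSucc 7, .negSucc 134, .negSucc 60, .negSucc 109, .negSucc 226⟩, ⟨.ofNat 150, .ofNat 33, .ofNat 106, .negSucc 19, .negSucc 37, .ofNat 247⟩, ⟨.negSucc 749, .ofNat 4, .negSucc 404, .negSucc 281, .negSucc 398, .negSucc 1099⟩, ⟨.negSucc 619, .negSucc 49, .negSucc 92, .negSucc 18, .negSucc 214, .ofNat 21⟩, .ofNat 10593, .negSucc 17036, .ofNat 0, .negSucc 17036, .ofNat 29372,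 .ofNat 0, .ofNat 126, .ofNat 686, .negSucc 382, .ofNat 0, .ofNat 414, .negSucc 219, .ofNat 0, .ofNat 0, .ofNat 1019, .ofNat 4142, .ofNat 0, .ofNat 0, .ofNat 11208281535105374429695180800, .ofNat 0, .ofNat 0, .ofNat 0, .ofNat 0, .ofNat 0, .ofNat 0, .ofNat 0, .ofNat 7038488655860103773934531379200, .ofNat 0, .ofNat 0, .ofNat 0, .ofNat 18277879807940660944654093516800, .ofNat 0⟩)
    (by decide +kernel)
theorem L00163 : Good (Phi V4.P V4.D (-1) 1) ⟨2, 0, 3, 5, 1, 1, 2, 2, 3, 0⟩ :=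
  out_sound (S := T4.ds_mp) T4.ok_mp (w := 40) (j := 3) (by decide +kernel)
theorem L00164 : Good (Phi V4.P V4.D (-1) 1) ⟨2, 0, 2, 3, 1, 1, 2, 2, 3, 0⟩ :=
  out_sound (S := T4.ds_mp) T4.ok_mp (w := 40) (j := 3) (by decide +kernel)
theorem L00165 : Good (Phi V4.P V4.D (-1) 1) ⟨2, 0, 2, 0, 2, 2, 2, 3, 3, 0⟩ :=
  leaf_sound (S := T4.ds_mp) T4.ok_mp (w := 168) (c := ⟨⟨.negSucc 263, .negSucc 133, .negSucc 61, .negSucc 154, .negSucc 37, .negSucc 62⟩, ⟨.negSucc 51, .negSucc 34, .negSucc 123, .negSucc 31, .ofNat 13, .ofNat 7⟩, ⟨.negSucc 162, .ofNat 83, .ofNat 14, .ofNat 202, .negSucc 60, .ofNat 76⟩, ⟨.negSucc 810, .negSucc 206, .negSucc 19, .negSucc 437, .negSucc 137, .negSucc 218⟩, ⟨.negSucc 677, .negSucc 206, .negSucc 9, .negSucc 77, .ofNat 168, .ofNat 172⟩, .ofNat 600, .negSucc 159, .ofNat 0, .negSucc 159, .ofNat 1301, .ofNat 0, .ofNat 314, .ofNat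 91, .negSucc 248, .ofNat 0, .ofNat 184, .negSucc 14, .ofNat 0, .ofNat 0, .ofNat 536, .ofNat 1658, .ofNat 0, .ofNat 0, .ofNat 0, .ofNat 0, .ofNat 0, .ofNat 0, .ofNat 0, .ofNat 0, .ofNat 0, .ofNat 0, .ofNat 0, .ofNat 0, .ofNat 0, .ofNat 0, .ofNat 0, .ofNat 0⟩)
    (by decide +kernel)
theorem L00166 : Good (Phi V4.P V4.D (-1) 1) ⟨2, 0, 2, 1, 2, 2, 2, 3, 3, 0⟩ :=
  leaf_sound (S := T4.ds_mp) T4.ok_mp (w := 168) (c := ⟨⟨.negSucc 328, .negSucc 171, .negSucc 56, .negSucc 175, .negSucc 8, .negSucc 44⟩, ⟨.negSucc 121, .negSucc 83, .negSucc 126, .negSucc 74, .ofNat 9, .negSucc 3⟩, ⟨.negSucc 143, .ofNat 140, .ofNat 28, .ofNat 185, .negSucc 97, .ofNat 76⟩, ⟨.negSucc 853, .negSucc 271, .negSucc 6, .negSucc 454, .negSucc 78, .negSucc 203⟩, ⟨.negSucc 667, .negSucc 198, .ofNat 6, .negSucc 120, .ofNat 144, .ofNat 187⟩, .ofNat 427, .negSucc 137, .ofNat 0, .negSucc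 137, .ofNat 662, .ofNat 0, .ofNat 337, .ofNat 157, .negSucc 358, .ofNat 0, .ofNat 250, .negSucc 60, .ofNat 0, .ofNat 0, .ofNat 598, .ofNat 2256, .ofNat 0, .ofNat 0, .ofNat 0, .ofNat 0, .ofNat 0, .ofNat 0, .ofNat 0, .ofNat 0, .ofNat 0, .ofNat 0, .ofNat 0, .ofNat 0, .ofNat 0, .ofNat 0, .ofNat 0, .ofNat 0⟩)
    (by decide +kernel)
theorem L00167 : Good (Phi V4.P V4.D (-1) 1) ⟨2, 0, 2, 2, 2, 2, 2, 3, 3, 0⟩ :=
  leaf_sound (S := T4.ds_mp) T4.ok_mp (w := 168) (c := ⟨⟨.negSucc 351, .negSucc 230, .negSucc 53, .negSucc 199, .negSucc 32, .negSucc 11⟩, ⟨.negSucc 210, .negSucc 109, .negSucc 132, .negSucc 112, .negSucc 14, .negSucc 3⟩, ⟨.negSucc 150, .ofNat 212, .ofNat 8, .ofNat 177, .negSucc 81, .ofNat 61⟩, ⟨.negSucc 822, .negSucc 353, .ofNat 6, .negSucc 488, .negSucc 144, .negSucc 139⟩, ⟨.negSucc 621, .negSucc 200, .ofNat 36, .negSucc 161, .ofNat 97,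 .ofNat 184⟩, .ofNat 1784, .negSucc 2188, .ofNat 0, .negSucc 2188, .ofNat 4331, .ofNat 0, .ofNat 156, .ofNat 292, .negSucc 231, .ofNat 0, .ofNat 200, .negSucc 116, .ofNat 0, .ofNat 0, .ofNat 534, .ofNat 2040, .ofNat 0, .ofNat 13461167609511495296090112000, .ofNat 6160618585260281774997504000, .ofNat 0, .ofNat 0, .ofNat 0, .ofNat 0, .ofNat 0, .ofNat 0, .ofNat 0, .ofNat 1693107981019128867856161177600, .ofNat 0, .ofNat 0, .ofNat 0, .ofNat 0, .ofNat 0⟩)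
    (by decide +kernel)
theorem L00168 : Good (Phi V4.P V4.D (-1) 1) ⟨2, 0, 2, 3, 2, 2, 2, 3, 3, 0⟩ :=
  out_sound (S := T4.ds_mp) T4.ok_mp (w := 40) (j := 3) (by decide +kernel)
theorem L00169 : Good (Phi V4.P V4.D (-1) 1) ⟨2, 0, 2, 0, 2, 3, 2, 3, 3, 0⟩ :=
  leaf_sound (S := T4.ds_mp) T4.ok_mp (w := 168) (c := ⟨⟨.negSucc 326, .negSucc 139, .negSucc 77, .negSucc 65, .negSucc 122, .negSucc 190⟩, ⟨.negSucc 33, .negSucc 64, .negSucc 151, .ofNat 4, .ofNat 7, .negSucc 29⟩, ⟨.ofNat 22, .ofNat 23, .negSucc 1, .ofNat 142, .ofNat 42, .ofNat 113⟩, ⟨.negSucc 998, .negSucc 164, .negSucc 69, .negSucc 257, .negSucc 402, .negSucc 583⟩, ⟨.negSucc 677, .negSucc 408, .negSucc 35, .ofNat 315, .ofNat 271, .ofNat 91⟩, .ofNat 599, .negSucc 152, .ofNat 0, .negSucc 152, .ofNat 1299, .ofNat 0, .ofNat 351, .ofNat 121, .negSucc 234, .ofNat 0, .ofNat 197, .ofNat 1, .ofNat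 0, .ofNat 0, .ofNat 516, .ofNat 1583, .ofNat 0, .ofNat 0, .ofNat 0, .ofNat 0, .ofNat 0, .ofNat 0, .ofNat 0, .ofNat 0, .ofNat 0, .ofNat 38511073416357864350633322086400, .ofNat 0, .ofNat 0, .ofNat 0, .ofNat 0, .ofNat 0, .ofNat 0⟩)
    (by decide +kernel)
theorem L00170 : Good (Phi V4.P V4.D (-1) 1) ⟨2, 0, 2, 1, 2, 3, 2, 3, 4, 0⟩ :=
  leaf_sound (S := T4.ds_mp) T4.ok_mp (w := 168) (c := ⟨⟨.negSucc 384, .negSucc 197, .negSucc 111, .negSucc 72, .negSucc 110, .negSucc 90⟩, ⟨.negSucc 125, .negSucc 113, .negSucc 185, .negSucc 8, .negSucc 30, .negSucc 30⟩, ⟨.ofNat 25, .ofNat 61, .ofNat 19, .ofNat 127, .ofNat 1, .ofNat 65⟩, ⟨.negSucc 1013, .negSucc 233, .negSucc 116, .negSucc 312, .negSucc 414, .negSucc 301⟩, ⟨.negSucc 720, .negSucc 406, .negSucc 97, .ofNat 277, .ofNat 240, .ofNat 108⟩, .ofNat 728, .negSucc 473, .ofNat 0, .negSucc 473, .ofNat 1498,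 .ofNat 0, .ofNat 295, .ofNat 266, .negSucc 253, .ofNat 0, .ofNat 236, .negSucc 60, .ofNat 0, .ofNat 0, .ofNat 545, .ofNat 2036, .ofNat 0, .ofNat 0, .ofNat 0, .ofNat 0, .ofNat 0, .ofNat 0, .ofNat 0, .ofNat 0, .ofNat 0, .ofNat 0, .ofNat 0, .ofNat 0, .ofNat 0, .ofNat 0, .ofNat 0, .ofNat 0⟩)
    (by decide +kernel)
theorem L00171 : Good (Phi V4.P V4.D (-1) 1) ⟨2, 0, 2, 1, 2, 3, 2, 3, 4, 1⟩ :=
  leaf_sound (S := T4.ds_mp) T4.ok_mp (w := 168) (c := ⟨⟨.negSucc 517, .negSucc 179, .negSucc 77, .negSucc 142, .negSucc 7, .negSucc 52⟩, ⟨.negSucc 162, .negSucc 108, .negSucc 184, .negSucc 44, .ofNat 12, .negSucc 9⟩, ⟨.ofNat 125, .ofNat 55, .ofNat 7, .ofNat 130, .negSucc 55, .ofNat 40⟩, ⟨.negSucc 1429, .negSucc 165, .negSucc 64, .negSucc 491, .negSucc 129, .negSucc 181⟩, ⟨.negSucc 598, .negSucc 440, .negSucc 14, .ofNat 200, .ofNat 257, .ofNat 60⟩, .ofNat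 713, .negSucc 447, .ofNat 0, .negSucc 447, .ofNat 1481, .ofNat 0, .ofNat 295, .ofNat 246, .negSucc 234, .ofNat 0, .ofNat 223, .negSucc 52, .ofNat 0, .ofNat 0, .ofNat 524, .ofNat 2235, .ofNat 0, .ofNat 0, .ofNat 0, .ofNat 0, .ofNat 0, .ofNat 0, .ofNat 0, .ofNat 0, .ofNat 0, .ofNat 205509298545551651419166500454400, .ofNat 0, .ofNat 0, .ofNat 0, .ofNat 0, .ofNat 0, .ofNat 0⟩)
    (by decide +kernel)
theorem L00172 : Good (Phi V4.P V4.D (-1) 1) ⟨2, 0, 3, 4, 2, 3, 2, 3, 4, 0⟩ :=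
  leaf_sound (S := T4.ds_mp) T4.ok_mp (w := 176) (c := ⟨⟨.negSucc 404, .negSucc 319, .negSucc 52, .negSucc 91, .negSucc 125, .negSucc 74⟩, ⟨.negSucc 241, .negSucc 154, .negSucc 100, .negSucc 48, .negSucc 67, .negSucc 38⟩, ⟨.ofNat 19, .ofNat 159, .ofNat 11, .ofNat 65, .negSucc 18, .ofNat 53⟩, ⟨.negSucc 990, .negSucc 452, .negSucc 32, .negSucc 304, .negSucc 415, .negSucc 275⟩, ⟨.negSucc 670, .negSucc 394, .negSucc 35, .ofNat 82, .ofNat 107, .ofNat 116⟩, .ofNat 3103, .negSucc 4440, .ofNat 0, .negSucc 4440, .ofNat 8245, .ofNat 0, .ofNat 139, .ofNat 376, .negSucc 232, .ofNat 0, .ofNat 238, .negSucc 120, .ofNat 0, .ofNat 0, .ofNat 538, .ofNat 2315, .ofNat 0, .ofNat 2377082269996829431027885670400, .ofNat 153095172706222285478952960000, .ofNat 0, .ofNat 0, .ofNat 214354161768251917217283283353600, .ofNat 34989158934719517178042358169600, .ofNat 0,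 .ofNat 0, .ofNat 0, .ofNat 0, .ofNat 0, .ofNat 0, .ofNat 0, .ofNat 0, .ofNat 0⟩)
    (by decide +kernel)
theorem L00173 : Good (Phi V4.P V4.D (-1) 1) ⟨2, 0, 3, 4, 2, 3, 2, 3, 4, 1⟩ :=
  leaf_sound (S := T4.ds_mp) T4.ok_mp (w := 176) (c := ⟨⟨.negSucc 541, .negSucc 271, .negSucc 74, .negSucc 144, .negSucc 5, .negSucc 37⟩, ⟨.negSucc 313, .negSucc 130, .negSucc 117, .negSucc 77, .ofNat 2, .negSucc 20⟩, ⟨.ofNat 98, .ofNat 152, .ofNat 31, .ofNat 79, .negSucc 73, .ofNat 30⟩, ⟨.negSucc 1431, .negSucc 310, .negSucc 105, .negSucc 460, .negSucc 116, .negSucc 131⟩, ⟨.negSucc 579, .negSucc 390, .negSucc 38, .ofNat 79, .ofNat 184, .ofNat 38⟩, .ofNat 2758, .negSucc 3862, .ofNat 0, .negSucc 3862, .ofNat 7306, .ofNat 0, .ofNat 143, .ofNat 343, .negSucc 210, .ofNat 0, .ofNat 219, .negSucc 106, .ofNat 0, .ofNat 0, .ofNat 516, .ofNat 2265, .ofNat 0, .ofNat 453697063382632351946873241600,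 .ofNat 95129972430151356682076160000, .ofNat 0, .ofNat 0, .ofNat 90191078947974157834687768166400, .ofNat 38540335817915556175384097587200, .ofNat 0, .ofNat 0, .ofNat 739920485409584979940558346649600, .ofNat 24572135819469089081585251123200, .ofNat 0, .ofNat 0, .ofNat 0, .ofNat 0, .ofNat 0⟩)
    (by decide +kernel)
theorem L00174 : Good (Phi V4.P V4.D (-1) 1) ⟨2, 0, 3, 5, 2, 3, 2, 3, 3, 0⟩ :=
  out_sound (S := T4.ds_mp) T4.ok_mp (w := 40) (j := 3) (by decide +kernel)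
theorem L00175 : Good (Phi V4.P V4.D (-1) 1) ⟨2, 0, 2, 3, 2, 3, 2, 3, 3, 0⟩ :=
  out_sound (S := T4.ds_mp) T4.ok_mp (w := 40) (j := 3) (by decide +kernel)
theorem L00176 : Good (Phi V4.P V4.D (-1) 1) ⟨3, 2, 1, 0, 2, 2, 2, 2, 3, 0⟩ :=
  leaf_sound (S := T4.ds_mp) T4.ok_mp (w := 168) (c := ⟨⟨.negSucc 205, .negSucc 96, .negSucc 172, .negSucc 99, .negSucc 126, .negSucc 258⟩, ⟨.ofNat 2, .ofNat 6, .negSucc 285, .negSucc 18, .negSucc 44, .negSucc 56⟩, ⟨.negSucc 48, .ofNat 72, .ofNat 140, .ofNat 81, .negSucc 59, .ofNat 226⟩, ⟨.negSucc 596, .negSucc 131, .negSucc 143, .negSucc 217, .negSucc 291, .negSucc 703⟩, ⟨.negSucc 618, .negSucc 34, .ofNat 68, .negSucc 186, .negSucc 141, .ofNat 37⟩, .ofNat 392, .negSucc 103, .ofNat 0, .negSucc 103, .ofNat 714, .ofNat 0, .ofNat 335, .ofNat 111, .negSucc 335, .ofNat 0, .ofNat 205, .negSucc 12, .ofNat 0, .ofNat 0,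 .ofNat 586, .ofNat 2527, .ofNat 0, .ofNat 0, .ofNat 0, .ofNat 0, .ofNat 0, .ofNat 0, .ofNat 0, .ofNat 0, .ofNat 0, .ofNat 0, .ofNat 0, .ofNat 0, .ofNat 0, .ofNat 0, .ofNat 0, .ofNat 0⟩)
    (by decide +kernel)
theorem L00177 : Good (Phi V4.P V4.D (-1) 1) ⟨3, 2, 1, 0, 2, 2, 2, 3, 3, 0⟩ :=
  leaf_sound (S := T4.ds_mp) T4.ok_mp (w := 168) (c := ⟨⟨.negSucc 351, .negSucc 142, .negSucc 217, .negSucc 244, .negSucc 15, .negSucc 9⟩, ⟨.negSucc 3, .negSucc 11, .negSucc 341, .negSucc 83, .negSucc 2, .negSucc 2⟩, ⟨.negSucc 122, .ofNat 122, .ofNat 148, .ofNat 212, .negSucc 61, .ofNat 78⟩, ⟨.negSucc 959, .negSucc 211, .negSucc 239, .negSucc 575, .negSucc 71, .negSucc 76⟩, ⟨.negSucc 740, .negSucc 67, .negSucc 9, .negSucc 226, .ofNat 84, .ofNat 142⟩, .ofNat 400, .negSucc 123, .ofNat 0, .negSucc 123, .ofNat 709, .ofNat 0, .ofNat 353, .ofNat 149, .negSucc 408,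 .ofNat 0, .ofNat 232, .negSucc 59, .ofNat 0, .ofNat 0, .ofNat 621, .ofNat 1682, .ofNat 0, .ofNat 0, .ofNat 0, .ofNat 0, .ofNat 0, .ofNat 0, .ofNat 0, .ofNat 0, .ofNat 0, .ofNat 0, .ofNat 0, .ofNat 0, .ofNat 0, .ofNat 0, .ofNat 0, .ofNat 0⟩)
    (by decide +kernel)
theorem L00178 : Good (Phi V4.P V4.D (-1) 1) ⟨3, 2, 1, 1, 2, 2, 2, 2, 3, 0⟩ :=
  leaf_sound (S := T4.ds_mp) T4.ok_mp (w := 168) (c := ⟨⟨.negSucc 369, .negSucc 102, .negSucc 206, .negSucc 166, .negSucc 113, .negSucc 228⟩, ⟨.negSucc 202, .negSucc 16, .negSucc 323, .negSucc 91, .negSucc 61, .negSucc 120⟩, ⟨.ofNat 96, .ofNat 85, .ofNat 213, .ofNat 115, .negSucc 91, .ofNat 204⟩, ⟨.negSucc 768, .negSucc 124, .negSucc 258, .negSucc 352, .negSucc 217, .negSucc 637⟩, ⟨.negSucc 562, .negSucc 28, .ofNat 49, .negSucc 179, .negSucc 155, .ofNat 59⟩, .ofNat 3507, .negSucc 5510, .ofNat 0, .negSucc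 5510, .ofNat 10687, .ofNat 0, .ofNat 100, .ofNat 286, .negSucc 197, .ofNat 0, .ofNat 168, .negSucc 99, .ofNat 0, .ofNat 0, .ofNat 518, .ofNat 2023, .ofNat 0, .ofNat 0, .ofNat 2546888611001309333972582400, .ofNat 0, .ofNat 0, .ofNat 0, .ofNat 0, .ofNat 0, .ofNat 0, .ofNat 0, .ofNat 541478833731144532176666624000, .ofNat 0, .ofNat 0, .ofNat 0, .ofNat 727410352357120737235540377600, .ofNat 0⟩)
    (by decide +kernel)
theorem L00179 : Good (Phi V4.P V4.D (-1) 1) ⟨3, 2, 1, 1, 2, 2, 2, 3, 3, 0⟩ :=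
  leaf_sound (S := T4.ds_mp) T4.ok_mp (w := 168) (c := ⟨⟨.negSucc 532, .negSucc 163, .negSucc 181, .negSucc 276, .negSucc 65, .negSucc 0⟩, ⟨.negSucc 291, .negSucc 43, .negSucc 348, .negSucc 147, .negSucc 34, .ofNat 1⟩, ⟨.ofNat 8, .ofNat 152, .ofNat 167, .ofNat 211, .negSucc 37, .ofNat 73⟩, ⟨.negSucc 1126, .negSucc 254, .negSucc 181, .negSucc 605, .negSucc 186, .negSucc 78⟩, ⟨.negSucc 719, .negSucc 63, .ofNat 25, .negSucc 243, .ofNat 27, .ofNat 144⟩, .ofNat 876, .negSucc 808, .ofNat 0, .negSucc 808, .ofNat 1932, .ofNat 0, .ofNat 215, .ofNat 272, .negSucc 285, .ofNat 0, .ofNat 209, .negSucc 121, .ofNat 0, .ofNat 0, .ofNat 561, .ofNat 1922, .ofNat 0, .ofNat 0, .ofNat 1616953196788165899819417600, .ofNat 0, .ofNat 0, .ofNat 0, .ofNat 0, .ofNat 0, .ofNat 0, .ofNat 0, .ofNat 414023181135678607947359846400, .ofNat 0, .ofNat 0, .ofNat 0, .ofNat 492120184762537891810246656000,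 .ofNat 0⟩)
    (by decide +kernel)
theorem L00180 : Good (Phi V4.P V4.D (-1) 1) ⟨3, 2, 2, 0, 2, 3, 2, 2, 3, 0⟩ :=
  leaf_sound (S := T4.ds_mp) T4.ok_mp (w := 168) (c := ⟨⟨.negSucc 201, .negSucc 120, .negSucc 99, .negSucc 99, .negSucc 153, .negSucc 426⟩, ⟨.negSucc 16, .ofNat 23, .negSucc 163, .negSucc 12, .negSucc 31, .negSucc 72⟩, ⟨.ofNat 30, .ofNat 60, .ofNat 22, .ofNat 78, .negSucc 11, .ofNat 262⟩, ⟨.negSucc 571, .negSucc 165, .negSucc 84, .negSucc 277, .negSucc 384, .negSucc 1121⟩, ⟨.negSucc 685, .negSucc 95, .negSucc 17, .ofNat 70, .negSucc 152, .negSucc 99⟩, .ofNat 565, .negSucc 208, .ofNat 0, .negSucc 208, .ofNat 1683, .ofNat 0, .ofNat 701, .ofNat 269, .negSucc 473, .ofNat 0, .ofNat 314, .negSucc 21, .ofNat 0, .ofNat 0, .ofNat 1002, .ofNat 2816, .ofNat 0, .ofNat 0, .ofNat 0, .ofNat 0, .ofNat 0, .ofNat 0, .ofNat 0, .ofNat 0, .ofNat 0,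 .ofNat 0, .ofNat 0, .ofNat 0, .ofNat 0, .ofNat 0, .ofNat 0, .ofNat 0⟩)
    (by decide +kernel)
theorem L00181 : Good (Phi V4.P V4.D (-1) 1) ⟨3, 2, 2, 1, 3, 6, 2, 2, 3, 0⟩ :=
  leaf_sound (S := T4.ds_mp) T4.ok_mp (w := 176) (c := ⟨⟨.negSucc 328, .negSucc 134, .negSucc 109, .negSucc 44, .negSucc 167, .negSucc 354⟩, ⟨.negSucc 105, .negSucc 4, .negSucc 189, .negSucc 17, .negSucc 72, .negSucc 135⟩, ⟨.ofNat 76, .ofNat 86, .ofNat 66, .ofNat 10, .negSucc 16, .ofNat 263⟩, ⟨.negSucc 755, .negSucc 195, .negSucc 113, .negSucc 116, .negSucc 374, .negSucc 945⟩, ⟨.negSucc 716, .negSucc 54, .ofNat 23, .negSucc 26, .negSucc 183, .ofNat 13⟩, .ofNat 694, .negSucc 520, .ofNat 0, .negSucc 520, .ofNat 1719, .ofNat 0, .ofNat 270, .ofNat 243, .negSucc 253, .ofNat 0, .ofNat 187, .negSucc 63, .ofNat 0, .ofNat 0, .ofNat 533, .ofNat 1906, .ofNat 0, .ofNat 0, .ofNat 0,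 .ofNat 0, .ofNat 0, .ofNat 0, .ofNat 0, .ofNat 0, .ofNat 0, .ofNat 0, .ofNat 0, .ofNat 0, .ofNat 0, .ofNat 0, .ofNat 0, .ofNat 0⟩)
    (by decide +kernel)
theorem L00182 : Good (Phi V4.P V4.D (-1) 1) ⟨3, 2, 2, 1, 3, 7, 2, 2, 3, 0⟩ :=
  leaf_sound (S := T4.ds_mp) T4.ok_mp (w := 176) (c := ⟨⟨.negSucc 259, .negSucc 179, .negSucc 136, .negSucc 56, .negSucc 169, .negSucc 519⟩, ⟨.negSucc 54, .negSucc 41, .negSucc 204, .negSucc 26, .negSucc 73, .negSucc 213⟩, ⟨.ofNat 94, .ofNat 77, .ofNat 39, .negSucc 26, .negSucc 20, .ofNat 304⟩, ⟨.negSucc 606, .negSucc 283, .negSucc 166, .negSucc 156, .negSucc 370, .negSucc 1355⟩, ⟨.negSucc 622, .negSucc 90, .negSucc 25, .ofNat 13, .negSucc 233, .negSucc 93⟩, .ofNat 709, .negSucc 536, .ofNat 0, .negSucc 536, .ofNat 1705, .ofNat 0, .ofNat 562, .ofNat 544, .negSucc 464, .ofNat 0, .ofNat 408, .negSucc 120, .ofNat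 0, .ofNat 0, .ofNat 1021, .ofNat 3295, .ofNat 0, .ofNat 0, .ofNat 0, .ofNat 0, .ofNat 0, .ofNat 0, .ofNat 0, .ofNat 0, .ofNat 0, .ofNat 0, .ofNat 0, .ofNat 0, .ofNat 0, .ofNat 0, .ofNat 0, .ofNat 0⟩)
    (by decide +kernel)
theorem L00183 : Good (Phi V4.P V4.D (-1) 1) ⟨3, 2, 1, 0, 2, 3, 2, 3, 4, 0⟩ :=
  leaf_sound (S := T4.ds_mp) T4.ok_mp (w := 168) (c := ⟨⟨.negSucc 408, .negSucc 162, .negSucc 280, .negSucc 50, .negSucc 179, .negSucc 128⟩, ⟨.negSucc 11, .negSucc 12, .negSucc 420, .negSucc 12, .negSucc 45, .negSucc 36⟩, ⟨.ofNat 63, .ofNat 86, .ofNat 75, .ofNat 32, .ofNat 77, .ofNat 78⟩, ⟨.negSucc 1141, .negSucc 225, .negSucc 297, .negSucc 130, .negSucc 492, .negSucc 345⟩, ⟨.negSucc 811, .negSucc 157, .negSucc 181, .ofNat 71, .ofNat 96, .ofNat 10⟩, .ofNat 602, .negSucc 330, .ofNat 0, .negSucc 330, .ofNat 1668, .ofNat 0, .ofNat 345, .ofNat 225,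 .negSucc 290, .ofNat 0, .ofNat 193, .negSucc 39, .ofNat 0, .ofNat 0, .ofNat 547, .ofNat 1699, .ofNat 0, .ofNat 0, .ofNat 0, .ofNat 0, .ofNat 0, .ofNat 0, .ofNat 0, .ofNat 0, .ofNat 0, .ofNat 0, .ofNat 0, .ofNat 0, .ofNat 0, .ofNat 0, .ofNat 0, .ofNat 0⟩)
    (by decide +kernel)
theorem L00184 : Good (Phi V4.P V4.D (-1) 1) ⟨3, 2, 1, 0, 2, 3, 2, 3, 4, 1⟩ :=
  leaf_sound (S := T4.ds_mp) T4.ok_mp (w := 168) (c := ⟨⟨.negSucc 553, .negSucc 176, .negSucc 252, .negSucc 145, .negSucc 44, .negSucc 59⟩, ⟨.negSucc 44, .negSucc 5, .negSucc 442, .negSucc 34, .negSucc 0, .negSucc 11⟩, ⟨.ofNat 152, .ofNat 114, .ofNat 82, .ofNat 64, .negSucc 15, .ofNat 43⟩, ⟨.negSucc 1534, .negSucc 238, .negSucc 253, .negSucc 376, .negSucc 135, .negSucc 163⟩, ⟨.negSucc 786, .negSucc 167, .negSucc 94, .negSucc 18, .ofNat 120, .negSucc 31⟩, .ofNat 392, .negSucc 97, .ofNat 0,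 .negSucc 97, .ofNat 712, .ofNat 0, .ofNat 417, .ofNat 180, .negSucc 393, .ofNat 0, .ofNat 247, .negSucc 16, .ofNat 0, .ofNat 0, .ofNat 584, .ofNat 2023, .ofNat 0, .ofNat 0, .ofNat 0, .ofNat 0, .ofNat 0, .ofNat 0, .ofNat 0, .ofNat 0, .ofNat 0, .ofNat 0, .ofNat 0, .ofNat 0, .ofNat 0, .ofNat 0, .ofNat 0, .ofNat 0⟩)
    (by decide +kernel)
theorem L00185 : Good (Phi V4.P V4.D (-1) 1) ⟨3, 2, 3, 4, 2, 3, 2, 2, 4, 0⟩ :=
  leaf_sound (S := T4.ds_mp) T4.ok_mp (w := 176) (c := ⟨⟨.negSucc 315, .negSucc 160, .negSucc 74, .negSucc 60, .negSucc 292, .negSucc 281⟩, ⟨.negSucc 176, .negSucc 44, .negSucc 99, .negSucc 31, .negSucc 156, .negSucc 148⟩, ⟨.ofNat 106, .ofNat 77, .ofNat 53, .negSucc 69, .ofNat 43, .ofNat 189⟩, ⟨.negSucc 612, .negSucc 238, .negSucc 101, .negSucc 140, .negSucc 619, .negSucc 736⟩, ⟨.negSucc 627, .negSucc 86, .ofNat 1, .negSucc 39, .negSucc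 280, .negSucc 0⟩, .ofNat 1886, .negSucc 2584, .ofNat 0, .negSucc 2584, .ofNat 5304, .ofNat 0, .ofNat 149, .ofNat 352, .negSucc 238, .ofNat 0, .ofNat 212, .negSucc 113, .ofNat 0, .ofNat 0, .ofNat 531, .ofNat 2709, .ofNat 0, .ofNat 0, .ofNat 0, .ofNat 0, .ofNat 0, .ofNat 0, .ofNat 0, .ofNat 0, .ofNat 0, .ofNat 0, .ofNat 0, .ofNat 0, .ofNat 0, .ofNat 0, .ofNat 0, .ofNat 0⟩)
    (by decide +kernel)

end Crest.Agent.R097C4.N4mp
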