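import Crest.Agent.R097.T4

/-!
# Row 97, box cover in dimension n = 4 (generated)
-/

set_option autoImplicit false
set_option Elab.async false
set_option maxHeartbeats 0
set_option maxRecDepth 100000

open Crest.Agent.R097 Crest.Agent.R097.KA


namespace Crest.Agent.R097C4.N4mp

theorem L00186 : Good (Phi V4.P V4.D (-1) 1) ⟨3, 2, 3, 4, 2, 3, 2, 2, 4, 1⟩ :=
  leaf_sound (S := T4.ds_mp) T4.ok_mp (w := 176) (c := ⟨⟨.negSucc 609, .negSucc 197, .negSucc 71, .negSucc 162, .negSucc 138, .negSucc 164⟩, ⟨.negSucc 325, .negSucc 53, .negSucc 121, .negSucc 88, .negSucc 77, .negSucc 89⟩, ⟨.ofNat 333, .ofNat 106, .ofNat 34, .negSucc 56, .negSucc 46, .ofNat 111⟩, ⟨.negSucc 1402, .negSucc 291, .negSucc 96, .negSucc 384, .negSucc 254, .negSucc 421⟩, ⟨.negSucc 615, .negSucc 87, .negSucc 8, .negSucc 89, .negSucc 225, .negSucc 34⟩, .ofNat 873, .negSucc 804, .ofNat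 0, .negSucc 804, .ofNat 1927, .ofNat 0, .ofNat 218, .ofNat 295, .negSucc 231, .ofNat 0, .ofNat 212, .negSucc 88, .ofNat 0, .ofNat 0, .ofNat 524, .ofNat 4516, .ofNat 0, .ofNat 0, .ofNat 80033436749045290327710105600, .ofNat 0, .ofNat 0, .ofNat 0, .ofNat 0, .ofNat 0, .ofNat 0, .ofNat 0, .ofNat 0, .ofNat 0, .ofNat 0, .ofNat 0, .ofNat 0, .ofNat 0⟩)
    (by decide +kernel)
theorem L00187 : Good (Phi V4.P V4.D (-1) 1) ⟨3, 2, 3, 5, 2, 3, 2, 2, 3, 0⟩ :=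
  out_sound (S := T4.ds_mp) T4.ok_mp (w := 48) (j := 3) (by decide +kernel)
theorem L00188 : Good (Phi V4.P V4.D (-1) 1) ⟨3, 2, 2, 2, 2, 3, 2, 3, 4, 0⟩ :=
  leaf_sound (S := T4.ds_mp) T4.ok_mp (w := 176) (c := ⟨⟨.negSucc 643, .negSucc 235, .negSucc 201, .negSucc 61, .negSucc 219, .negSucc 90⟩, ⟨.negSucc 352, .negSucc 69, .negSucc 274, .negSucc 34, .negSucc 114, .negSucc 47⟩, ⟨.ofNat 148, .ofNat 149, .ofNat 80, .negSucc 46, .ofNat 79, .ofNat 73⟩, ⟨.negSucc 1358, .negSucc 344, .negSucc 235, .negSucc 124, .negSucc 565, .negSucc 297⟩, ⟨.negSucc 882, .negSucc 176, .negSucc 168, .negSucc 83, .negSucc 27, .ofNat 104⟩, .ofNat 1874, .negSucc 2567, .ofNat 0, .negSucc 2567, .ofNat 5280, .ofNat 0, .ofNat 166, .ofNat 397, .negSucc 285, .ofNat 0, .ofNat 242, .negSucc 135, .ofNat 0, .ofNat 0, .ofNat 562, .ofNat 2795, .ofNat 0, .ofNat 0, .ofNat 69288721060769724540911616000,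 .ofNat 0, .ofNat 0, .ofNat 0, .ofNat 0, .ofNat 0, .ofNat 0, .ofNat 0, .ofNat 6104017861124586949276021555200, .ofNat 0, .ofNat 0, .ofNat 0, .ofNat 8548915724462381303886092697600, .ofNat 0⟩)
    (by decide +kernel)
theorem L00189 : Good (Phi V4.P V4.D (-1) 1) ⟨3, 2, 2, 2, 2, 3, 2, 3, 4, 1⟩ :=
  leaf_sound (S := T4.ds_mp) T4.ok_mp (w := 176) (c := ⟨⟨.negSucc 760, .negSucc 251, .negSucc 159, .negSucc 192, .negSucc 40, .negSucc 42⟩, ⟨.negSucc 416, .negSucc 72, .negSucc 266, .negSucc 100, .negSucc 19, .negSucc 20⟩, ⟨.ofNat 261, .ofNat 161, .ofNat 79, .ofNat 10, .negSucc 49, .ofNat 34⟩, ⟨.negSucc 1747, .negSucc 355, .negSucc 208, .negSucc 423, .negSucc 106, .negSucc 110⟩, ⟨.negSucc 767, .negSucc 193, .negSucc 12, .negSucc 158, .ofNat 0, .ofNat 5⟩, .ofNat 859, .negSucc 791, .ofNat 0, .negSucc 791, .ofNat 1923, .ofNat 0, .ofNat 241, .ofNat 335, .negSucc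 287, .ofNat 0, .ofNat 242, .negSucc 111, .ofNat 0, .ofNat 0, .ofNat 555, .ofNat 3077, .ofNat 0, .ofNat 0, .ofNat 59747868749436843591519436800, .ofNat 0, .ofNat 0, .ofNat 0, .ofNat 0, .ofNat 0, .ofNat 0, .ofNat 3480654077188805016827316928512000, .ofNat 2504674900063850434259425689600, .ofNat 0, .ofNat 0, .ofNat 0, .ofNat 0, .ofNat 0⟩)
    (by decide +kernel)
theorem L00190 : Good (Phi V4.P V4.D (-1) 1) ⟨3, 2, 2, 3, 2, 3, 1, 1, 3, 0⟩ :=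
  out_sound (S := T4.ds_mp) T4.ok_mp (w := 48) (j := 3) (by decide +kernel)
theorem L00191 : Good (Phi V4.P V4.D (-1) 1) ⟨3, 3, 1, 0, 2, 2, 2, 2, 4, 0⟩ :=
  leaf_sound (S := T4.ds_mp) T4.ok_mp (w := 168) (c := ⟨⟨.negSucc 211, .negSucc 124, .negSucc 223, .negSucc 119, .negSucc 193, .negSucc 189⟩, ⟨.ofNat 28, .ofNat 13, .negSucc 312, .negSucc 33, .negSucc 39, .negSucc 32⟩, ⟨.negSucc 58, .ofNat 79, .ofNat 182, .ofNat 84, .ofNat 8, .ofNat 177⟩, ⟨.negSucc 567, .negSucc 174, .negSucc 241, .negSucc 242, .negSucc 439, .negSucc 465⟩, ⟨.negSucc 652, .negSucc 21, .ofNat 72, .negSucc 193, .negSucc 157, .ofNat 40⟩, .ofNat 366, .negSucc 85, .ofNat 0, .negSucc 85, .ofNat 751, .ofNat 0, .ofNat 363, .ofNat 102, .negSucc 415, .ofNat 0, .ofNat 199, .negSucc 8, .ofNat 0, .ofNat 0, .ofNat 637, .ofNat 1195, .ofNat 0, .ofNat 0, .ofNat 0, .ofNat 0, .ofNat 0, .ofNat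 0, .ofNat 0, .ofNat 0, .ofNat 0, .ofNat 0, .ofNat 0, .ofNat 0, .ofNat 0, .ofNat 0, .ofNat 0, .ofNat 0⟩)
    (by decide +kernel)
theorem L00192 : Good (Phi V4.P V4.D (-1) 1) ⟨3, 3, 1, 0, 2, 2, 2, 2, 4, 1⟩ :=
  leaf_sound (S := T4.ds_mp) T4.ok_mp (w := 168) (c := ⟨⟨.negSucc 392, .negSucc 168, .negSucc 226, .negSucc 217, .negSucc 73, .negSucc 103⟩, ⟨.ofNat 15, .ofNat 14, .negSucc 376, .negSucc 42, .negSucc 19, .negSucc 25⟩, ⟨.ofNat 91, .ofNat 145, .ofNat 201, .ofNat 142, .negSucc 72, .ofNat 111⟩, ⟨.negSucc 1022, .negSucc 236, .negSucc 261, .negSucc 483, .negSucc 145, .negSucc 253⟩, ⟨.negSucc 615, .negSucc 12, .ofNat 78, .negSucc 232, .negSucc 130, .ofNat 13⟩, .ofNat 368, .negSucc 93, .ofNat 0, .negSucc 93, .ofNat 745, .ofNat 0, .ofNat 347, .ofNat 104, .negSucc 385, .ofNat 0, .ofNat 194, .negSucc 13, .ofNat 0, .ofNat 0, .ofNat 611, .ofNat 2453,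 .ofNat 0, .ofNat 0, .ofNat 0, .ofNat 0, .ofNat 0, .ofNat 0, .ofNat 0, .ofNat 0, .ofNat 0, .ofNat 0, .ofNat 0, .ofNat 0, .ofNat 0, .ofNat 0, .ofNat 0, .ofNat 0⟩)
    (by decide +kernel)
theorem L00193 : Good (Phi V4.P V4.D (-1) 1) ⟨3, 3, 1, 1, 2, 2, 2, 2, 3, 0⟩ :=
  leaf_sound (S := T4.ds_mp) T4.ok_mp (w := 168) (c := ⟨⟨.negSucc 428, .negSucc 116, .negSucc 155, .negSucc 247, .negSucc 151, .negSucc 263⟩, ⟨.negSucc 216, .ofNat 3, .negSucc 307, .negSucc 117, .negSucc 71, .negSucc 118⟩, ⟨.ofNat 121, .ofNat 101, .ofNat 165, .ofNat 164, .negSucc 33, .ofNat 269⟩, ⟨.negSucc 837, .negSucc 132, .negSucc 166, .negSucc 512, .negSucc 297, .negSucc 671⟩, ⟨.negSucc 583, .negSucc 0, .ofNat 72, .negSucc 209, .negSucc 158, .ofNat 65⟩, .ofNat 2044, .negSucc 3264, .ofNat 0, .negSucc 3264, .ofNat 7421, .ofNat 0, .ofNat 143, .ofNat 291, .negSucc 242, .ofNat 0, .ofNat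 162, .negSucc 102, .ofNat 0, .ofNat 0, .ofNat 543, .ofNat 1310, .ofNat 0, .ofNat 0, .ofNat 3410974970195415647492505600, .ofNat 0, .ofNat 0, .ofNat 0, .ofNat 1898677926730249511171103129600, .ofNat 0, .ofNat 0, .ofNat 0, .ofNat 809870341872815489797639372800, .ofNat 0, .ofNat 0, .ofNat 0, .ofNat 1278697196657529693538143436800, .ofNat 0⟩)
    (by decide +kernel)
theorem L00194 : Good (Phi V4.P V4.D (-1) 1) ⟨3, 3, 1, 0, 2, 2, 2, 3, 3, 0⟩ :=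
  leaf_sound (S := T4.ds_mp) T4.ok_mp (w := 168) (c := ⟨⟨.negSucc 355, .negSucc 205, .negSucc 306, .negSucc 316, .negSucc 95, .negSucc 49⟩, ⟨.ofNat 51, .negSucc 7, .negSucc 418, .negSucc 84, .negSucc 39, .negSucc 11⟩, ⟨.negSucc 115, .ofNat 166, .ofNat 241, .ofNat 254, .ofNat 2, .ofNat 119⟩, ⟨.negSucc 954, .negSucc 301, .negSucc 388, .negSucc 692, .negSucc 213, .negSucc 127⟩, ⟨.negSucc 739, .negSucc 60, .ofNat 9, .negSucc 287, .ofNat 0, .ofNat 115⟩, .ofNat 369, .negSucc 97, .ofNat 0, .negSucc 97, .ofNat 745, .ofNat 0, .ofNat 380, .ofNat 130, .negSucc 483, .ofNat 0, .ofNat 219, .negSucc 45, .ofNat 0, .ofNat 0, .ofNat 670, .ofNat 1491, .ofNat 0, .ofNat 0, .ofNat 0, .ofNat 0, .ofNat 0, .ofNat 0, .ofNat 0, .ofNat 0, .ofNat 0, .ofNat 0, .ofNat 0, .ofNat 0, .ofNat 0, .ofNat 0, .ofNat 0, .ofNat 0⟩)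
    (by decide +kernel)
theorem L00195 : Good (Phi V4.P V4.D (-1) 1) ⟨3, 3, 1, 1, 2, 2, 2, 3, 3, 0⟩ :=
  leaf_sound (S := T4.ds_mp) T4.ok_mp (w := 168) (c := ⟨⟨.negSucc 670, .negSucc 230, .ofNat 154, .negSucc 305, .negSucc 112, .negSucc 6⟩, ⟨.negSucc 332, .negSucc 36, .negSucc 194, .negSucc 144, .negSucc 51, .negSucc 2⟩, ⟨.ofNat 140, .ofNat 203, .negSucc 57, .ofNat 212, .ofNat 12, .ofNat 86⟩, ⟨.negSucc 1372, .negSucc 352, .ofNat 648, .negSucc 612, .negSucc 264, .negSucc 77⟩, ⟨.negSucc 729, .negSucc 57, .ofNat 128, .negSucc 292, .negSucc 27, .ofNat 126⟩, .ofNat 756, .negSucc 685, .ofNat 0, .negSucc 685, .ofNat 1859, .ofNat 0, .ofNat 241, .ofNat 272, .negSucc 328, .ofNat 0, .ofNat 202, .negSucc 122, .ofNat 0, .ofNat 0, .ofNat 583, .ofNat 2003, .ofNat 0, .ofNat 0, .ofNat 5032017869167158338204467200, .ofNat 0, .ofNat 0, .ofNat 0, .ofNat 1006999710700453097761249689600,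 .ofNat 0, .ofNat 0, .ofNat 0, .ofNat 737805295902177907112411136000, .ofNat 0, .ofNat 0, .ofNat 0, .ofNat 810744851331384344230389350400, .ofNat 0⟩)
    (by decide +kernel)
theorem L00196 : Good (Phi V4.P V4.D (-1) 1) ⟨3, 3, 3, 0, 2, 3, 2, 2, 3, 0⟩ :=
  leaf_sound (S := T4.ds_mp) T4.ok_mp (w := 168) (c := ⟨⟨.negSucc 237, .negSucc 174, .negSucc 84, .negSucc 71, .negSucc 187, .negSucc 558⟩, ⟨.negSucc 10, .ofNat 44, .negSucc 100, .negSucc 6, .negSucc 19, .negSucc 45⟩, ⟨.ofNat 36, .ofNat 121, .ofNat 34, .ofNat 45, .ofNat 9, .ofNat 348⟩, ⟨.negSucc 645, .negSucc 239, .negSucc 116, .negSucc 181, .negSucc 428, .negSucc 1308⟩, ⟨.negSucc 672, .negSucc 27, .ofNat 7, .ofNat 50, .negSucc 241, .negSucc 230⟩, .ofNat 501, .negSucc 137, .ofNat 0, .negSucc 137, .ofNat 2160, .ofNat 0, .ofNat 390, .ofNat 97, .negSucc 291, .ofNat 0, .ofNat 126, .negSucc 4, .ofNat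 0, .ofNat 0, .ofNat 518, .ofNat 1599, .ofNat 0, .ofNat 0, .ofNat 0, .ofNat 0, .ofNat 0, .ofNat 0, .ofNat 0, .ofNat 0, .ofNat 0, .ofNat 0, .ofNat 0, .ofNat 0, .ofNat 0, .ofNat 0, .ofNat 0, .ofNat 0⟩)
    (by decide +kernel)
theorem L00197 : Good (Phi V4.P V4.D (-1) 1) ⟨3, 3, 3, 0, 2, 3, 2, 3, 4, 0⟩ :=
  leaf_sound (S := T4.ds_mp) T4.ok_mp (w := 176) (c := ⟨⟨.negSucc 511, .negSucc 211, .negSucc 78, .negSucc 48, .negSucc 196, .negSucc 173⟩, ⟨.negSucc 27, .ofNat 40, .negSucc 112, .negSucc 2, .negSucc 16, .negSucc 13⟩, ⟨.ofNat 116, .ofNat 127, .ofNat 27, .ofNat 30, .ofNat 97, .ofNat 102⟩, ⟨.negSucc 1296, .negSucc 300, .negSucc 89, .negSucc 123, .negSucc 473, .negSucc 408⟩, ⟨.negSucc 898, .negSucc 146, .negSucc 27, .ofNat 69, .ofNat 32, .negSucc 44⟩, .ofNat 504, .negSucc 140, .ofNat 0, .negSucc 140, .ofNat 2144, .ofNat 0, .ofNat 416, .ofNat 130, .negSucc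 343, .ofNat 0, .ofNat 140, .negSucc 8, .ofNat 0, .ofNat 0, .ofNat 553, .ofNat 2667, .ofNat 0, .ofNat 0, .ofNat 0, .ofNat 0, .ofNat 0, .ofNat 0, .ofNat 0, .ofNat 0, .ofNat 0, .ofNat 0, .ofNat 0, .ofNat 0, .ofNat 0, .ofNat 0, .ofNat 0, .ofNat 0⟩)
    (by decide +kernel)
theorem L00198 : Good (Phi V4.P V4.D (-1) 1) ⟨3, 3, 3, 0, 2, 3, 2, 3, 4, 1⟩ :=
  leaf_sound (S := T4.ds_mp) T4.ok_mp (w := 176) (c := ⟨⟨.negSucc 689, .negSucc 239, .negSucc 76, .negSucc 170, .negSucc 38, .negSucc 49⟩, ⟨.negSucc 40, .ofNat 43, .negSucc 118, .negSucc 15, .negSucc 2, .negSucc 4⟩, ⟨.ofNat 246, .ofNat 152, .ofNat 30, .ofNat 70, .negSucc 24, .ofNat 24⟩, ⟨.negSucc 1737, .negSucc 344, .negSucc 76, .negSucc 404, .negSucc 94, .negSucc 112⟩, ⟨.negSucc 868, .negSucc 160, .negSucc 16, .negSucc 86, .ofNat 39, .negSucc 94⟩, .ofNat 504, .negSucc 130, .ofNat 0, .negSucc 130, .ofNat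 2171, .ofNat 0, .ofNat 407, .ofNat 108, .negSucc 319, .ofNat 0, .ofNat 132, .negSucc 5, .ofNat 0, .ofNat 0, .ofNat 532, .ofNat 3516, .ofNat 0, .ofNat 0, .ofNat 0, .ofNat 0, .ofNat 0, .ofNat 0, .ofNat 0, .ofNat 0, .ofNat 0, .ofNat 0, .ofNat 0, .ofNat 0, .ofNat 0, .ofNat 13611601219132397765222161868390400, .ofNat 0, .ofNat 0⟩)
    (by decide +kernel)
theorem L00199 : Good (Phi V4.P V4.D (-1) 1) ⟨3, 3, 3, 1, 2, 3, 2, 2, 3, 0⟩ :=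
  leaf_sound (S := T4.ds_mp) T4.ok_mp (w := 168) (c := ⟨⟨.negSucc 260, .negSucc 157, .negSucc 59, .negSucc 101, .negSucc 233, .negSucc 604⟩, ⟨.negSucc 44, .ofNat 21, .negSucc 94, .negSucc 20, .negSucc 49, .negSucc 116⟩, ⟨.ofNat 46, .ofNat 89, .ofNat 17, .ofNat 26, .ofNat 50, .ofNat 395⟩, ⟨.negSucc 607, .negSucc 227, .negSucc 55, .negSucc 262, .negSucc 508, .negSucc 1430⟩, ⟨.negSucc 711, .negSucc 2, .ofNat 3, .ofNat 45, .negSucc 255, .negSucc 162⟩, .ofNat 535, .negSucc 272, .ofNat 0, .negSucc 272, .ofNat 1907, .ofNat 0, .ofNat 359, .ofNat 178, .negSucc 291, .ofNat 0, .ofNat 149, .negSucc 26, .ofNat 0, .ofNat 0, .ofNat 526, .ofNat 2577, .ofNat 0, .ofNat 0, .ofNat 0, .ofNat 0, .ofNat 0, .ofNat 0, .ofNat 0, .ofNat 0, .ofNat 0, .ofNat 0, .ofNat 0, .ofNat 0, .ofNat 0, .ofNat 0, .ofNat 0, .ofNat 0⟩)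
    (by decide +kernel)
theorem L00200 : Good (Phi V4.P V4.D (-1) 1) ⟨3, 3, 3, 1, 2, 3, 2, 3, 3, 0⟩ :=
  leaf_sound (S := T4.ds_mp) T4.ok_mp (w := 168) (c := ⟨⟨.negSucc 637, .negSucc 197, .negSucc 105, .negSucc 61, .negSucc 170, .negSucc 243⟩, ⟨.negSucc 115, .ofNat 21, .negSucc 127, .negSucc 13, .negSucc 27, .negSucc 45⟩, ⟨.ofNat 206, .ofNat 123, .ofNat 42, .negSucc 18, .ofNat 64, .ofNat 141⟩, ⟨.negSucc 1539, .negSucc 228, .negSucc 130, .negSucc 137, .negSucc 399, .negSucc 560⟩, ⟨.negSucc 844, .negSucc 163, .negSucc 68, .negSucc 47, .negSucc 15, .negSucc 95⟩, .ofNat 530, .negSucc 262, .ofNat 0, .negSucc 262, .ofNat 1926, .ofNat 0, .ofNat 389, .ofNat 208, .negSucc 345, .ofNat 0, .ofNat 165, .negSucc 32, .ofNat 0, .ofNat 0, .ofNat 559, .ofNat 2020, .ofNat 0, .ofNat 0, .ofNat 0, .ofNat 0, .ofNat 0, .ofNat 0, .ofNat 0, .ofNat 0, .ofNat 0, .ofNat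 0, .ofNat 0, .ofNat 0, .ofNat 0, .ofNat 0, .ofNat 0, .ofNat 0⟩)
    (by decide +kernel)
theorem L00201 : Good (Phi V4.P V4.D (-1) 1) ⟨3, 3, 2, 1, 2, 3, 2, 2, 4, 0⟩ :=
  leaf_sound (S := T4.ds_mp) T4.ok_mp (w := 176) (c := ⟨⟨.negSucc 217, .negSucc 210, .negSucc 164, .negSucc 74, .negSucc 355, .negSucc 378⟩, ⟨.negSucc 50, .negSucc 10, .negSucc 213, .negSucc 18, .negSucc 119, .negSucc 119⟩, ⟨.ofNat 34, .ofNat 115, .ofNat 66, .negSucc 45, .ofNat 117, .ofNat 251⟩, ⟨.negSucc 476, .negSucc 327, .negSucc 209, .negSucc 162, .negSucc 747, .negSucc 895⟩, ⟨.negSucc 641, .negSucc 46, .negSucc 27, .negSucc 17, .negSucc 311, .negSucc 48⟩, .ofNat 607, .negSucc 446, .ofNat 0, .negSucc 446, .ofNat 1768, .ofNat 0, .ofNat 317, .ofNat 272, .negSucc 323, .ofNat 0, .ofNat 189, .negSucc 68, .ofNat 0, .ofNat 0, .ofNat 558, .ofNat 1774, .ofNat 0, .ofNat 0, .ofNat 0,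 .ofNat 0, .ofNat 0, .ofNat 0, .ofNat 0, .ofNat 0, .ofNat 0, .ofNat 0, .ofNat 0, .ofNat 0, .ofNat 0, .ofNat 0, .ofNat 0, .ofNat 0⟩)
    (by decide +kernel)
theorem L00202 : Good (Phi V4.P V4.D (-1) 1) ⟨3, 3, 2, 1, 2, 3, 2, 2, 4, 1⟩ :=
  leaf_sound (S := T4.ds_mp) T4.ok_mp (w := 176) (c := ⟨⟨.negSucc 601, .negSucc 267, .negSucc 163, .negSucc 211, .negSucc 154, .negSucc 205⟩, ⟨.negSucc 150, .negSucc 17, .negSucc 262, .negSucc 70, .negSucc 58, .negSucc 67⟩, ⟨.ofNat 310, .ofNat 160, .ofNat 87, .negSucc 29, .negSucc 2, .ofNat 151⟩, ⟨.negSucc 1427, .negSucc 392, .negSucc 211, .negSucc 456, .negSucc 289, .negSucc 463⟩, ⟨.negSucc 686, .negSucc 34, .ofNat 31, .negSucc 131, .negSucc 256, .negSucc 62⟩, .ofNat 606, .negSucc 448, .ofNat 0, .negSucc 448, .ofNat 1767, .ofNat 0, .ofNat 305, .ofNat 249, .negSucc 294, .ofNat 0, .ofNat 177, .negSucc 60, .ofNat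 0, .ofNat 0, .ofNat 542, .ofNat 3311, .ofNat 0, .ofNat 0, .ofNat 68196611758911276567232512000, .ofNat 0, .ofNat 0, .ofNat 0, .ofNat 0, .ofNat 0, .ofNat 0, .ofNat 0, .ofNat 0, .ofNat 0, .ofNat 0, .ofNat 0, .ofNat 0, .ofNat 0⟩)
    (by decide +kernel)
theorem L00203 : Good (Phi V4.P V4.D (-1) 1) ⟨3, 3, 2, 1, 2, 3, 2, 3, 4, 0⟩ :=
  leaf_sound (S := T4.ds_mp) T4.ok_mp (w := 176) (c := ⟨⟨.negSucc 620, .negSucc 275, .negSucc 200, .negSucc 69, .negSucc 250, .negSucc 182⟩, ⟨.negSucc 168, .negSucc 17, .negSucc 277, .negSucc 27, .negSucc 84, .negSucc 52⟩, ⟨.ofNat 173, .ofNat 190, .ofNat 89, .negSucc 56, .ofNat 117, .ofNat 128⟩, ⟨.negSucc 1413, .negSucc 402, .negSucc 238, .negSucc 121, .negSucc 560, .negSucc 445⟩, ⟨.negSucc 863, .negSucc 123, .negSucc 86, .negSucc 126, .negSucc 113, .ofNat 18⟩, .ofNat 611, .negSucc 453, .ofNat 0, .negSucc 453, .ofNat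 1774, .ofNat 0, .ofNat 333, .ofNat 303, .negSucc 364, .ofNat 0, .ofNat 211, .negSucc 78, .ofNat 0, .ofNat 0, .ofNat 588, .ofNat 2523, .ofNat 0, .ofNat 0, .ofNat 43085370404416274076952166400, .ofNat 0, .ofNat 0, .ofNat 0, .ofNat 0, .ofNat 0, .ofNat 0, .ofNat 0, .ofNat 0, .ofNat 0, .ofNat 0, .ofNat 0, .ofNat 0, .ofNat 0⟩)
    (by decide +kernel)
theorem L00204 : Good (Phi V4.P V4.D (-1) 1) ⟨3, 3, 2, 1, 2, 3, 2, 3, 4, 1⟩ :=
  leaf_sound (S := T4.ds_mp) T4.ok_mp (w := 176) (c := ⟨⟨.negSucc 851, .negSucc 301, .negSucc 185, .negSucc 177, .negSucc 37, .negSucc 12⟩, ⟨.negSucc 236, .negSucc 17, .negSucc 294, .negSucc 62, .negSucc 14, .negSucc 1⟩, ⟨.ofNat 353, .ofNat 201, .ofNat 95, .negSucc 34, .negSucc 27, .ofNat 20⟩, ⟨.negSucc 1984, .negSucc 425, .negSucc 216, .negSucc 353, .negSucc 70, .negSucc 22⟩, ⟨.negSucc 838, .negSucc 148, .negSucc 44, .negSucc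 212, .negSucc 67, .negSucc 37⟩, .ofNat 893, .negSucc 1089, .ofNat 0, .negSucc 1089, .ofNat 3670, .ofNat 0, .ofNat 273, .ofNat 326, .negSucc 318, .ofNat 0, .ofNat 179, .negSucc 86, .ofNat 0, .ofNat 0, .ofNat 553, .ofNat 1951, .ofNat 0, .ofNat 0, .ofNat 29380600190213377179726643200, .ofNat 0, .ofNat 0, .ofNat 0, .ofNat 0, .ofNat 0, .ofNat 0, .ofNat 0, .ofNat 0, .ofNat 0, .ofNat 0, .ofNat 0, .ofNat 0, .ofNat 0⟩)
    (by decide +kernel)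
theorem L00205 : Good (Phi V4.P V4.D (-1) 1) ⟨3, 3, 3, 4, 2, 3, 2, 2, 4, 0⟩ :=
  leaf_sound (S := T4.ds_mp) T4.ok_mp (w := 176) (c := ⟨⟨.negSucc 380, .negSucc 245, .negSucc 79, .negSucc 52, .negSucc 352, .negSucc 356⟩, ⟨.negSucc 194, .negSucc 58, .negSucc 110, .negSucc 23, .negSucc 166, .negSucc 162⟩, ⟨.ofNat 117, .ofNat 139, .ofNat 37, .negSucc 110, .ofNat 117, .ofNat 261⟩, ⟨.negSucc 678, .negSucc 421, .negSucc 107, .negSucc 108, .negSucc 720, .negSucc 880⟩, ⟨.negSucc 676, .negSucc 51, .ofNat 0, .negSucc 40, .negSucc 315, .ofNat 11⟩, .ofNat 1394, .negSucc 1906, .ofNat 0, .negSucc 1906, .ofNat 4486, .ofNat 0, .ofNat 184, .ofNat 354, .negSucc 285, .ofNat 0, .ofNat 202, .negSucc 116, .ofNat 0, .ofNat 0, .ofNat 550, .ofNat 3934, .ofNat 0, .ofNat 0, .ofNat 312289123831355373727304908800, .ofNat 0, .ofNat 0, .ofNat 0, .ofNat 25276090602253272834469212979200,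 .ofNat 0, .ofNat 0, .ofNat 0, .ofNat 14182843964921284734078890803200, .ofNat 0, .ofNat 0, .ofNat 0, .ofNat 11396896047971245412185433702400, .ofNat 0⟩)
    (by decide +kernel)
theorem L00206 : Good (Phi V4.P V4.D (-1) 1) ⟨3, 3, 3, 4, 2, 3, 2, 2, 4, 1⟩ :=
  leaf_sound (S := T4.ds_mp) T4.ok_mp (w := 176) (c := ⟨⟨.negSucc 775, .negSucc 247, .negSucc 25, .negSucc 212, .negSucc 166, .negSucc 174⟩, ⟨.negSucc 378, .negSucc 34, .negSucc 111, .negSucc 99, .negSucc 80, .negSucc 78⟩, ⟨.ofNat 420, .ofNat 168, .ofNat 8, .negSucc 82, .ofNat 0, .ofNat 134⟩, ⟨.negSucc 1685, .negSucc 359, .negSucc 3, .negSucc 434, .negSucc 280, .negSucc 406⟩, ⟨.negSucc 642, .negSucc 31, .ofNat 62, .negSucc 183, .negSucc 273, .negSucc 37⟩, .ofNat 745, .negSucc 669, .ofNat 0, .negSucc 669, .ofNat 1846, .ofNat 0, .ofNat 250, .ofNat 298, .negSucc 284, .ofNat 0, .ofNat 206, .negSucc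 92, .ofNat 0, .ofNat 0, .ofNat 551, .ofNat 4241, .ofNat 0, .ofNat 0, .ofNat 230342854300262301115927756800, .ofNat 0, .ofNat 0, .ofNat 0, .ofNat 0, .ofNat 0, .ofNat 0, .ofNat 0, .ofNat 7422248851982819738225580441600, .ofNat 0, .ofNat 0, .ofNat 0, .ofNat 11420459414850938888969728819200, .ofNat 0⟩)
    (by decide +kernel)
theorem L00207 : Good (Phi V4.P V4.D (-1) 1) ⟨3, 3, 3, 5, 2, 3, 2, 2, 3, 0⟩ :=
  out_sound (S := T4.ds_mp) T4.ok_mp (w := 48) (j := 3) (by decide +kernel)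
theorem L00208 : Good (Phi V4.P V4.D (-1) 1) ⟨3, 3, 3, 4, 2, 3, 2, 3, 4, 0⟩ :=
  leaf_sound (S := T4.ds_mp) T4.ok_mp (w := 176) (c := ⟨⟨.negSucc 852, .negSucc 270, .negSucc 54, .negSucc 56, .negSucc 238, .negSucc 143⟩, ⟨.negSucc 418, .negSucc 46, .negSucc 127, .negSucc 29, .negSucc 110, .negSucc 63⟩, ⟨.ofNat 296, .ofNat 190, .ofNat 38, .negSucc 102, .ofNat 110, .ofNat 106⟩, ⟨.negSucc 1733, .negSucc 370, .negSucc 18, .negSucc 52, .negSucc 527, .negSucc 385⟩, ⟨.negSucc 942, .negSucc 143, .negSucc 25, .negSucc 188, .negSucc 125, .ofNat 77⟩, .ofNat 2093, .negSucc 3351, .ofNat 0, .negSucc 3351, .ofNat 7577, .ofNat 0, .ofNat 177, .ofNat 412, .negSucc 328, .ofNat 0, .ofNat 225, .negSucc 139, .ofNat 0, .ofNat 0, .ofNat 580, .ofNat 2798, .ofNat 0, .ofNat 0, .ofNat 95745739645218449720239718400, .ofNat 0, .ofNat 0, .ofNat 0, .ofNat 33847341800579472201999187968000,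 .ofNat 0, .ofNat 0, .ofNat 0, .ofNat 12235929559595715484684438732800, .ofNat 0, .ofNat 0, .ofNat 0, .ofNat 16915144928057202810696184627200, .ofNat 0⟩)
    (by decide +kernel)
theorem L00209 : Good (Phi V4.P V4.D (-1) 1) ⟨3, 3, 3, 4, 2, 3, 2, 3, 4, 1⟩ :=
  leaf_sound (S := T4.ds_mp) T4.ok_mp (w := 176) (c := ⟨⟨.negSucc 998, .negSucc 266, .negSucc 60, .negSucc 207, .negSucc 78, .negSucc 36⟩, ⟨.negSucc 484, .negSucc 39, .negSucc 134, .negSucc 99, .negSucc 37, .negSucc 16⟩, ⟨.ofNat 444, .ofNat 180, .ofNat 22, .negSucc 46, .negSucc 18, .ofNat 36⟩, ⟨.negSucc 2151, .negSucc 343, .negSucc 43, .negSucc 385, .negSucc 137, .negSucc 69⟩, ⟨.negSucc 827, .negSucc 139, .negSucc 0, .negSucc 267, .negSucc 120, .negSucc 39⟩, .ofNat 2080, .negSucc 3328, .ofNat 0, .negSucc 3328, .ofNat 7535, .ofNat 0, .ofNat 167, .ofNat 379, .negSucc 296, .ofNat 0, .ofNat 206,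 .negSucc 126, .ofNat 0, .ofNat 0, .ofNat 551, .ofNat 2550, .ofNat 0, .ofNat 0, .ofNat 88503339778816513544080588800, .ofNat 0, .ofNat 0, .ofNat 0, .ofNat 28696412235808062420853299609600, .ofNat 0, .ofNat 0, .ofNat 6153974673371970586925744730931200, .ofNat 3839689558679593652545860403200, .ofNat 0, .ofNat 0, .ofNat 0, .ofNat 0, .ofNat 0⟩)
    (by decide +kernel)
theorem L00210 : Good (Phi V4.P V4.D (-1) 1) ⟨3, 3, 3, 5, 2, 3, 2, 3, 3, 0⟩ :=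
  out_sound (S := T4.ds_mp) T4.ok_mp (w := 48) (j := 3) (by decide +kernel)
theorem L00211 : Good (Phi V4.P V4.D (-1) 1) ⟨3, 3, 2, 3, 2, 3, 1, 1, 3, 0⟩ :=
  out_sound (S := T4.ds_mp) T4.ok_mp (w := 48) (j := 3) (by decide +kernel)
theorem L00212 : Good (Phi V4.P V4.D (-1) 1) ⟨2, 0, 1, 0, 2, 2, 2, 0, 3, 1⟩ :=
  leaf_sound (S := T4.ds_mp) T4.ok_mp (w := 160) (c := ⟨⟨.negSucc 390, .negSucc 63, .negSucc 67, .negSucc 116, .negSucc 11, .negSucc 182⟩, ⟨.ofNat 32, .negSucc 46, .negSucc 288, .negSucc 36, .negSucc 22, .negSucc 56⟩, ⟨.ofNat 602, .ofNat 31, .ofNat 143, .ofNat 8, .negSucc 242, .ofNat 55⟩, ⟨.negSucc 1273, .negSucc 4, .negSucc 67, .negSucc 316, .ofNat 22, .negSucc 502⟩, ⟨.negSucc 27, .negSucc 153, .ofNat 77, .negSucc 102, .negSucc 256, .negSucc 118⟩, .ofNat 623, .negSucc 242, .ofNat 0, .negSucc 242, .ofNat 1344, .ofNat 0, .ofNat 463, .ofNat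 163, .negSucc 248, .ofNat 0, .ofNat 278, .negSucc 4, .ofNat 0, .ofNat 0, .ofNat 894, .ofNat 8763, .ofNat 0, .ofNat 0, .ofNat 0, .ofNat 0, .ofNat 0, .ofNat 0, .ofNat 0, .ofNat 0, .ofNat 0, .ofNat 0, .ofNat 0, .ofNat 0, .ofNat 0, .ofNat 0, .ofNat 0, .ofNat 0⟩)
    (by decide +kernel)
theorem L00213 : Good (Phi V4.P V4.D (-1) 1) ⟨2, 0, 1, 0, 2, 3, 2, 0, 3, 1⟩ :=
  leaf_sound (S := T4.ds_mp) T4.ok_mp (w := 160) (c := ⟨⟨.negSucc 455, .negSucc 114, .negSucc 20, .negSucc 209, .negSucc 25, .negSucc 277⟩, ⟨.ofNat 50, .negSucc 51, .negSucc 364, .negSucc 52, .negSucc 39, .negSucc 87⟩, ⟨.ofNat 553, .ofNat 119, .ofNat 70, .ofNat 35, .negSucc 212, .ofNat 119⟩, ⟨.negSucc 1498, .negSucc 63, .ofNat 76, .negSucc 610, .negSucc 13, .negSucc 749⟩, ⟨.negSucc 26, .negSucc 296, .ofNat 112, .negSucc 19, .negSucc 263, .negSucc 189⟩, .ofNat 415, .negSucc 106, .ofNat 0,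 .negSucc 106, .ofNat 653, .ofNat 0, .ofNat 633, .ofNat 118, .negSucc 303, .ofNat 0, .ofNat 381, .negSucc 12, .ofNat 0, .ofNat 0, .ofNat 926, .ofNat 3374, .ofNat 0, .ofNat 0, .ofNat 0, .ofNat 0, .ofNat 0, .ofNat 0, .ofNat 0, .ofNat 0, .ofNat 0, .ofNat 0, .ofNat 0, .ofNat 0, .ofNat 0, .ofNat 0, .ofNat 0, .ofNat 0⟩)
    (by decide +kernel)
theorem L00214 : Good (Phi V4.P V4.D (-1) 1) ⟨2, 1, 2, 0, 1, 1, 2, 0, 3, 1⟩ :=
  leaf_sound (S := T4.ds_mp) T4.ok_mp (w := 160) (c := ⟨⟨.negSucc 300, .negSucc 286, .negSucc 36, .negSucc 483, .negSucc 34, .negSucc 275⟩, ⟨.ofNat 9, .ofNat 63, .negSucc 202, .negSucc 84, .negSucc 15, .negSucc 57⟩, ⟨.ofNat 500, .ofNat 224, .ofNat 26, .ofNat 209, .negSucc 191, .ofNat 164⟩, ⟨.negSucc 1014, .negSucc 286, .ofNat 7, .negSucc 1166, .negSucc 45, .negSucc 650⟩, ⟨.negSucc 106, .negSucc 37, .ofNat 58, .negSucc 274, .negSucc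 263, .negSucc 259⟩, .ofNat 541, .negSucc 229, .ofNat 0, .negSucc 229, .ofNat 1840, .ofNat 0, .ofNat 567, .ofNat 163, .negSucc 286, .ofNat 0, .ofNat 235, .negSucc 18, .ofNat 0, .ofNat 0, .ofNat 910, .ofNat 5612, .ofNat 0, .ofNat 0, .ofNat 0, .ofNat 0, .ofNat 0, .ofNat 0, .ofNat 0, .ofNat 0, .ofNat 0, .ofNat 0, .ofNat 0, .ofNat 0, .ofNat 0, .ofNat 0, .ofNat 0, .ofNat 0⟩)
    (by decide +kernel)
theorem L00215 : Good (Phi V4.P V4.D (-1) 1) ⟨2, 1, 2, 1, 2, 2, 2, 0, 3, 1⟩ :=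
  leaf_sound (S := T4.ds_mp) T4.ok_mp (w := 168) (c := ⟨⟨.negSucc 350, .negSucc 290, .negSucc 49, .negSucc 181, .negSucc 89, .negSucc 270⟩, ⟨.negSucc 108, .ofNat 2, .negSucc 174, .negSucc 58, .negSucc 40, .negSucc 95⟩, ⟨.ofNat 536, .ofNat 239, .ofNat 96, .ofNat 53, .negSucc 170, .ofNat 210⟩, ⟨.negSucc 1054, .negSucc 340, .negSucc 66, .negSucc 391, .negSucc 142, .negSucc 642⟩, ⟨.negSucc 125, .negSucc 37, .ofNat 57, .negSucc 156, .negSucc 233, .negSucc 132⟩, .ofNat 640, .negSucc 465, .ofNat 0, .negSucc 465, .ofNat 1727, .ofNat 0, .ofNat 437, .ofNat 307, .negSucc 295, .ofNat 0, .ofNat 266, .negSucc 55, .ofNat 0, .ofNat 0, .ofNat 931, .ofNat 10501, .ofNat 0, .ofNat 0, .ofNat 0, .ofNat 0, .ofNat 0, .ofNat 0, .ofNat 0, .ofNat 0, .ofNat 0, .ofNat 0, .ofNat 0, .ofNat 0, .ofNat 0, .ofNat 0, .ofNat 0, .ofNat 0⟩)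
    (by decide +kernel)
theorem L00216 : Good (Phi V4.P V4.D (-1) 1) ⟨2, 1, 2, 1, 2, 3, 2, 0, 3, 1⟩ :=
  leaf_sound (S := T4.ds_mp) T4.ok_mp (w := 168) (c := ⟨⟨.negSucc 450, .negSucc 417, .negSucc 44, .negSucc 283, .negSucc 66, .negSucc 312⟩, ⟨.negSucc 145, .negSucc 10, .negSucc 209, .negSucc 88, .negSucc 30, .negSucc 117⟩, ⟨.ofNat 593, .ofNat 247, .ofNat 31, .negSucc 14, .negSucc 149, .ofNat 228⟩, ⟨.negSucc 1356, .negSucc 545, .negSucc 29, .negSucc 703, .negSucc 68, .negSucc 692⟩, ⟨.negSucc 215, .negSucc 23, .ofNat 76, .negSucc 23, .negSucc 278, .negSucc 291⟩, .ofNat 640, .negSucc 463, .ofNat 0, .negSucc 463, .ofNat 1742, .ofNat 0, .ofNat 505, .ofNat 338, .negSucc 250, .ofNat 0, .ofNat 281, .negSucc 62, .ofNat 0, .ofNat 0, .ofNat 908, .ofNat 7280, .ofNat 0, .ofNat 0, .ofNat 43967833553481116707454976000, .ofNat 0, .ofNat 0, .ofNat 0, .ofNat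 0, .ofNat 0, .ofNat 0, .ofNat 0, .ofNat 0, .ofNat 0, .ofNat 0, .ofNat 0, .ofNat 0, .ofNat 0⟩)
    (by decide +kernel)
theorem L00217 : Good (Phi V4.P V4.D (-1) 1) ⟨2, 0, 1, 0, 1, 1, 2, 1, 3, 1⟩ :=
  leaf_sound (S := T4.ds_mp) T4.ok_mp (w := 152) (c := ⟨⟨.negSucc 378, .negSucc 100, .negSucc 99, .negSucc 356, .ofNat 8, .negSucc 128⟩, ⟨.ofNat 27, .negSucc 59, .negSucc 324, .negSucc 94, .negSucc 17, .negSucc 50⟩, ⟨.ofNat 345, .ofNat 64, .ofNat 106, .ofNat 139, .negSucc 185, .ofNat 21⟩, ⟨.negSucc 1263, .negSucc 51, .negSucc 42, .negSucc 995, .ofNat 81, .negSucc 336⟩, ⟨.negSucc 260, .negSucc 218, .ofNat 69, .negSucc 148, .negSucc 184, .negSucc 101⟩, .ofNat 412, .negSucc 91, .ofNat 0, .negSucc 91, .ofNat 646, .ofNat 0, .ofNat 588, .ofNat 131, .negSucc 383, .ofNat 0, .ofNat 384, .ofNat 18, .ofNat 0, .ofNat 0, .ofNat 974, .ofNat 4141, .ofNat 0, .ofNat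 0, .ofNat 0, .ofNat 0, .ofNat 0, .ofNat 0, .ofNat 0, .ofNat 0, .ofNat 0, .ofNat 0, .ofNat 0, .ofNat 0, .ofNat 0, .ofNat 0, .ofNat 0, .ofNat 0⟩)
    (by decide +kernel)
theorem L00218 : Good (Phi V4.P V4.D (-1) 1) ⟨2, 1, 1, 0, 2, 2, 2, 1, 3, 1⟩ :=
  leaf_sound (S := T4.ds_mp) T4.ok_mp (w := 160) (c := ⟨⟨.negSucc 397, .negSucc 270, .negSucc 161, .negSucc 217, .negSucc 7, .negSucc 132⟩, ⟨.negSucc 6, .ofNat 32, .negSucc 366, .negSucc 56, .negSucc 8, .negSucc 33⟩, ⟨.ofNat 293, .ofNat 240, .ofNat 175, .ofNat 109, .negSucc 168, .ofNat 108⟩, ⟨.negSucc 1198, .negSucc 311, .negSucc 173, .negSucc 497, .ofNat 24, .negSucc 324⟩, ⟨.negSucc 404, .negSucc 45, .ofNat 118, .negSucc 221, .negSucc 191, .negSucc 95⟩, .ofNat 382, .negSucc 100, .ofNat 0, .negSucc 100, .ofNat 728, .ofNat 0, .ofNat 585, .ofNat 163, .negSucc 468, .ofNat 0, .ofNat 344, .ofNat 5, .ofNat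 0, .ofNat 0, .ofNat 1022, .ofNat 7621, .ofNat 0, .ofNat 0, .ofNat 0, .ofNat 0, .ofNat 0, .ofNat 0, .ofNat 1717567392363023856933273600000, .ofNat 0, .ofNat 0, .ofNat 0, .ofNat 0, .ofNat 0, .ofNat 0, .ofNat 0, .ofNat 5126424035599744826656319078400, .ofNat 0⟩)
    (by decide +kernel)
theorem L00219 : Good (Phi V4.P V4.D (-1) 1) ⟨2, 1, 2, 0, 2, 3, 2, 1, 3, 1⟩ :=
  leaf_sound (S := T4.ds_mp) T4.ok_mp (w := 168) (c := ⟨⟨.negSucc 586, .negSucc 357, .negSucc 111, .negSucc 250, .ofNat 22, .negSucc 110⟩, ⟨.negSucc 51, .ofNat 63, .negSucc 237, .negSucc 37, .negSucc 8, .negSucc 22⟩, ⟨.ofNat 419, .ofNat 253, .ofNat 57, .ofNat 105, .negSucc 172, .ofNat 86⟩, ⟨.negSucc 1712, .negSucc 433, .negSucc 103, .negSucc 606, .ofNat 93, .negSucc 247⟩, ⟨.negSucc 464, .negSucc 163, .ofNat 86, .negSucc 151, .negSucc 250, .negSucc 306⟩, .ofNat 540, .negSucc 205, .ofNat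 0, .negSucc 205, .ofNat 1838, .ofNat 0, .ofNat 615, .ofNat 168, .negSucc 325, .ofNat 0, .ofNat 248, .negSucc 11, .ofNat 0, .ofNat 0, .ofNat 924, .ofNat 6530, .ofNat 0, .ofNat 0, .ofNat 0, .ofNat 0, .ofNat 0, .ofNat 0, .ofNat 0, .ofNat 0, .ofNat 0, .ofNat 0, .ofNat 0, .ofNat 0, .ofNat 0, .ofNat 0, .ofNat 0, .ofNat 0⟩)
    (by decide +kernel)
theorem L00220 : Good (Phi V4.P V4.D (-1) 1) ⟨3, 2, 2, 1, 2, 3, 2, 1, 3, 1⟩ :=
  leaf_sound (S := T4.ds_mp) T4.ok_mp (w := 168) (c := ⟨⟨.negSucc 654, .negSucc 167, .negSucc 92, .negSucc 233, .negSucc 32, .negSucc 141⟩, ⟨.negSucc 189, .negSucc 17, .negSucc 229, .negSucc 104, .negSucc 20, .negSucc 67⟩, ⟨.ofNat 508, .ofNat 116, .ofNat 62, .negSucc 4, .negSucc 143, .ofNat 103⟩, ⟨.negSucc 1744, .negSucc 204, .negSucc 105, .negSucc 579, .ofNat 11, .negSucc 304⟩, ⟨.negSucc 456, .negSucc 69, .ofNat 65, .negSucc 119,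 .negSucc 241, .negSucc 204⟩, .ofNat 1133, .negSucc 1359, .ofNat 0, .negSucc 1359, .ofNat 3668, .ofNat 0, .ofNat 365, .ofNat 449, .negSucc 265, .ofNat 0, .ofNat 281, .negSucc 87, .ofNat 0, .ofNat 0, .ofNat 927, .ofNat 6908, .ofNat 0, .ofNat 0, .ofNat 0, .ofNat 0, .ofNat 0, .ofNat 0, .ofNat 0, .ofNat 0, .ofNat 0, .ofNat 0, .ofNat 0, .ofNat 0, .ofNat 0, .ofNat 0, .ofNat 0, .ofNat 0⟩)
    (by decide +kernel)
theorem L00221 : Good (Phi V4.P V4.D (-1) 1) ⟨3, 3, 2, 1, 2, 3, 2, 1, 4, 2⟩ :=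
  leaf_sound (S := T4.ds_mp) T4.ok_mp (w := 176) (c := ⟨⟨.negSucc 726, .negSucc 267, .negSucc 107, .negSucc 283, .negSucc 74, .negSucc 135⟩, ⟨.negSucc 193, .ofNat 6, .negSucc 261, .negSucc 85, .negSucc 31, .negSucc 41⟩, ⟨.ofNat 579, .ofNat 173, .ofNat 49, .negSucc 43, .negSucc 85, .ofNat 97⟩, ⟨.negSucc 1776, .negSucc 370, .negSucc 137, .negSucc 642, .negSucc 87, .negSucc 281⟩, ⟨.negSucc 487, .negSucc 10, .ofNat 85, .negSucc 106, .negSucc 307, .negSucc 128⟩, .ofNat 377, .negSucc 125, .ofNat 0, .negSucc 125, .ofNat 725, .ofNat 0, .ofNat 375, .ofNat 132, .negSucc 298, .ofNat 0, .ofNat 197, .negSucc 20, .ofNat 0, .ofNat 0, .ofNat 529, .ofNat 4014, .ofNat 0, .ofNat 0, .ofNat 118083773561703808146761318400, .ofNat 0, .ofNat 0, .ofNat 0, .ofNat 0, .ofNat 0, .ofNat 0, .ofNat 0, .ofNat 0, .ofNat 0, .ofNat 0, .ofNat 0, .ofNat 0, .ofNat 0⟩)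
    (by decide +kernel)
theorem L00222 : Good (Phi V4.P V4.D (-1) 1) ⟨3, 3, 2, 1, 2, 3, 2, 1, 4, 3⟩ :=
  leaf_sound (S := T4.ds_mp) T4.ok_mp (w := 176) (c := ⟨⟨.negSucc 913, .negSucc 237, .negSucc 116, .negSucc 264, .ofNat 0, .negSucc 8⟩, ⟨.negSucc 238, .ofNat 3, .negSucc 273, .negSucc 95, .negSucc 7, .negSucc 8⟩, ⟨.ofNat 712, .ofNat 159, .ofNat 75, .negSucc 59, .negSucc 153, .ofNat 49⟩, ⟨.negSucc 2227, .negSucc 281, .negSucc 133, .negSucc 557, .ofNat 98, .ofNat 25⟩, ⟨.negSucc 556, .negSucc 37, .ofNat 105, .negSucc 245, .negSucc 284, .negSucc 164⟩, .ofNat 381, .negSucc 134, .ofNat 0, .negSucc 134, .ofNat 723, .ofNat 0, .ofNat 665, .ofNat 234, .negSucc 464, .ofNat 0, .ofNat 370, .negSucc 28, .ofNat 0, .ofNat 0, .ofNat 1014, .ofNat 8412, .ofNat 0, .ofNat 0, .ofNat 245068355273486542491038515200, .ofNat 0, .ofNat 0, .ofNat 0, .ofNat 0, .ofNat 0,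 .ofNat 0, .ofNat 0, .ofNat 0, .ofNat 0, .ofNat 0, .ofNat 0, .ofNat 0, .ofNat 0⟩)
    (by decide +kernel)
theorem L00223 : Good (Phi V4.P V4.D (-1) 1) ⟨2, 0, 1, 0, 2, 2, 2, 2, 3, 1⟩ :=
  leaf_sound (S := T4.ds_mp) T4.ok_mp (w := 160) (c := ⟨⟨.negSucc 405, .negSucc 99, .negSucc 129, .negSucc 160, .ofNat 47, .negSucc 35⟩, ⟨.negSucc 23, .negSucc 43, .negSucc 286, .negSucc 55, .ofNat 7, .negSucc 14⟩, ⟨.ofNat 125, .ofNat 81, .ofNat 84, .ofNat 124, .negSucc 166, .ofNat 16⟩, ⟨.negSucc 1287, .negSucc 74, .negSucc 84, .negSucc 430, .ofNat 149, .negSucc 104⟩, ⟨.negSucc 474, .negSucc 169, .ofNat 29, .negSucc 143, .negSucc 34, .ofNat 7⟩, .ofNat 414, .negSucc 99, .ofNat 0, .negSucc 99, .ofNat 650, .ofNat 0, .ofNat 290, .ofNat 86, .negSucc 237, .ofNat 0, .ofNat 199, .negSucc 3, .ofNat 0, .ofNat 0, .ofNat 513, .ofNat 3832, .ofNat 0, .ofNat 0, .ofNat 0, .ofNat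 0, .ofNat 0, .ofNat 0, .ofNat 0, .ofNat 0, .ofNat 0, .ofNat 0, .ofNat 0, .ofNat 0, .ofNat 0, .ofNat 0, .ofNat 0, .ofNat 0⟩)
    (by decide +kernel)
theorem L00224 : Good (Phi V4.P V4.D (-1) 1) ⟨2, 0, 1, 0, 2, 3, 2, 2, 4, 2⟩ :=
  leaf_sound (S := T4.ds_mp) T4.ok_mp (w := 168) (c := ⟨⟨.negSucc 508, .negSucc 126, .negSucc 145, .negSucc 190, .ofNat 8, .negSucc 59⟩, ⟨.negSucc 20, .negSucc 68, .negSucc 366, .negSucc 48, .ofNat 3, .negSucc 17⟩, ⟨.ofNat 239, .ofNat 46, .ofNat 63, .ofNat 111, .negSucc 102, .ofNat 30⟩, ⟨.negSucc 1616, .negSucc 79, .negSucc 97, .negSucc 552, .ofNat 29, .negSucc 160⟩, ⟨.negSucc 505, .negSucc 358, .ofNat 36, .ofNat 28, .negSucc 26, .negSucc 41⟩, .ofNat 410, .negSucc 91, .ofNat 0, .negSucc 91, .ofNat 653, .ofNat 0, .ofNat 354, .ofNat 102, .negSucc 261, .ofNat 0, .ofNat 221, .ofNat 8, .ofNat 0, .ofNat 0, .ofNat 521, .ofNat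 2608, .ofNat 0, .ofNat 0, .ofNat 0, .ofNat 0, .ofNat 0, .ofNat 0, .ofNat 0, .ofNat 0, .ofNat 0, .ofNat 0, .ofNat 0, .ofNat 0, .ofNat 0, .ofNat 0, .ofNat 0, .ofNat 0⟩)
    (by decide +kernel)
theorem L00225 : Good (Phi V4.P V4.D (-1) 1) ⟨2, 0, 1, 0, 2, 3, 2, 2, 4, 3⟩ :=
  leaf_sound (S := T4.ds_mp) T4.ok_mp (w := 168) (c := ⟨⟨.negSucc 605, .negSucc 102, .negSucc 135, .negSucc 198, .ofNat 53, .ofNat 1⟩, ⟨.negSucc 18, .negSucc 78, .negSucc 384, .negSucc 62, .ofNat 5, .negSucc 0⟩, ⟨.ofNat 286, .ofNat 50, .ofNat 56, .ofNat 108, .negSucc 130, .negSucc 11⟩, ⟨.negSucc 1920, .ofNat 22, .negSucc 47, .negSucc 567, .ofNat 169, .ofNat 11⟩, ⟨.negSucc 469, .negSucc 430, .ofNat 57, .negSucc 47, .negSucc 22, .negSucc 68⟩, .ofNat 413, .negSucc 95, .ofNat 0, .negSucc 95, .ofNat 652, .ofNat 0, .ofNat 652, .ofNat 172, .negSucc 421, .ofNat 0, .ofNat 419, .ofNat 12,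 .ofNat 0, .ofNat 0, .ofNat 985, .ofNat 5763, .ofNat 0, .ofNat 0, .ofNat 0, .ofNat 0, .ofNat 0, .ofNat 0, .ofNat 0, .ofNat 0, .ofNat 0, .ofNat 0, .ofNat 0, .ofNat 0, .ofNat 0, .ofNat 0, .ofNat 0, .ofNat 0⟩)
    (by decide +kernel)
theorem L00226 : Good (Phi V4.P V4.D (-1) 1) ⟨2, 1, 1, 0, 2, 2, 2, 2, 3, 1⟩ :=
  leaf_sound (S := T4.ds_mp) T4.ok_mp (w := 160) (c := ⟨⟨.negSucc 437, .negSucc 273, .negSucc 224, .negSucc 220, .ofNat 50, .negSucc 17⟩, ⟨.negSucc 10, .ofNat 23, .negSucc 382, .negSucc 80, .ofNat 18, .negSucc 8⟩, ⟨.ofNat 130, .ofNat 257, .ofNat 185, .ofNat 149, .negSucc 159, .ofNat 44⟩, ⟨.negSucc 1272, .negSucc 342, .negSucc 251, .negSucc 494, .ofNat 138, .negSucc 31⟩, ⟨.negSucc 542, .negSucc 92, .ofNat 79, .negSucc 281, .negSucc 95, .negSucc 51⟩, .ofNat 381, .negSucc 97, .ofNat 0, .negSucc 97, .ofNat 726, .ofNat 0, .ofNat 313, .ofNat 93,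 .negSucc 291, .ofNat 0, .ofNat 185, .negSucc 10, .ofNat 0, .ofNat 0, .ofNat 538, .ofNat 2823, .ofNat 0, .ofNat 0, .ofNat 0, .ofNat 0, .ofNat 0, .ofNat 0, .ofNat 164418247644887438965761638400, .ofNat 0, .ofNat 0, .ofNat 0, .ofNat 0, .ofNat 0, .ofNat 0, .ofNat 0, .ofNat 946775875962970368237581107200, .ofNat 0⟩)
    (by decide +kernel)
theorem L00227 : Good (Phi V4.P V4.D (-1) 1) ⟨2, 1, 2, 0, 2, 3, 2, 2, 3, 1⟩ :=
  leaf_sound (S := T4.ds_mp) T4.ok_mp (w := 168) (c := ⟨⟨.negSucc 632, .negSucc 356, .negSucc 124, .negSucc 235, .ofNat 44, .ofNat 5⟩, ⟨.negSucc 58, .ofNat 63, .negSucc 238, .negSucc 48, .ofNat 2, .negSucc 10⟩, ⟨.ofNat 321, .ofNat 246, .ofNat 61, .ofNat 70, .negSucc 138, .negSucc 0⟩, ⟨.negSucc 1833, .negSucc 428, .negSucc 106, .negSucc 540, .ofNat 140, .ofNat 56⟩, ⟨.negSucc 632, .negSucc 265, .ofNat 45, .negSucc 234, .negSucc 136, .negSucc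 259⟩, .ofNat 550, .negSucc 250, .ofNat 0, .negSucc 250, .ofNat 1816, .ofNat 0, .ofNat 632, .ofNat 249, .negSucc 402, .ofNat 0, .ofNat 273, .negSucc 26, .ofNat 0, .ofNat 0, .ofNat 960, .ofNat 3956, .ofNat 0, .ofNat 0, .ofNat 0, .ofNat 0, .ofNat 0, .ofNat 0, .ofNat 0, .ofNat 0, .ofNat 0, .ofNat 0, .ofNat 0, .ofNat 0, .ofNat 0, .ofNat 0, .ofNat 0, .ofNat 0⟩)
    (by decide +kernel)
theorem L00228 : Good (Phi V4.P V4.D (-1) 1) ⟨3, 2, 2, 1, 2, 3, 2, 2, 3, 1⟩ :=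
  leaf_sound (S := T4.ds_mp) T4.ok_mp (w := 168) (c := ⟨⟨.negSucc 742, .negSucc 162, .negSucc 106, .negSucc 219, .ofNat 17, .negSucc 25⟩, ⟨.negSucc 243, .negSucc 13, .negSucc 230, .negSucc 91, .ofNat 1, .negSucc 14⟩, ⟨.ofNat 378, .ofNat 108, .ofNat 63, .ofNat 23, .negSucc 124, .ofNat 43⟩, ⟨.negSucc 1920, .negSucc 179, .negSucc 96, .negSucc 510, .ofNat 105, .negSucc 2⟩, ⟨.negSucc 648, .negSucc 135, .ofNat 49, .negSucc 191, .negSucc 145, .negSucc 175⟩, .ofNat 694, .negSucc 517, .ofNat 0, .negSucc 517, .ofNat 1710, .ofNat 0, .ofNat 505, .ofNat 422, .negSucc 370, .ofNat 0, .ofNat 342, .negSucc 88, .ofNat 0, .ofNat 0, .ofNat 974, .ofNat 8773, .ofNat 0, .ofNat 0, .ofNat 0, .ofNat 0, .ofNat 0, .ofNat 0, .ofNat 0, .ofNat 0, .ofNat 0, .ofNat 0, .ofNat 0, .ofNat 0, .ofNat 0, .ofNat 0, .ofNat 0, .ofNat 0⟩)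
    (by decide +kernel)
theorem L00229 : Good (Phi V4.P V4.D (-1) 1) ⟨3, 3, 2, 1, 2, 3, 2, 2, 4, 2⟩ :=
  leaf_sound (S := T4.ds_mp) T4.ok_mp (w := 176) (c := ⟨⟨.negSucc 860, .negSucc 278, .negSucc 145, .negSucc 254, .ofNat 1, .negSucc 14⟩, ⟨.negSucc 228, .negSucc 5, .negSucc 278, .negSucc 92, .negSucc 10, .negSucc 7⟩, ⟨.ofNat 504, .ofNat 197, .ofNat 95, .negSucc 50, .negSucc 119, .ofNat 28⟩, ⟨.negSucc 2061, .negSucc 393, .negSucc 170, .negSucc 511, .ofNat 87, .negSucc 1⟩, ⟨.negSucc 688, .negSucc 54, .ofNat 61, .negSucc 264, .negSucc 255, .negSucc 110⟩, .ofNat 617, .negSucc 469, .ofNat 0, .negSucc 469, .ofNat 1759, .ofNat 0, .ofNat 286, .ofNat 234, .negSucc 251, .ofNat 0, .ofNat 171, .negSucc 53, .ofNat 0, .ofNat 0, .ofNat 520, .ofNat 4537, .ofNat 0, .ofNat 0, .ofNat 97850892620931174749542809600, .ofNat 0, .ofNat 0, .ofNat 0, .ofNat 0, .ofNat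 0, .ofNat 0, .ofNat 0, .ofNat 0, .ofNat 0, .ofNat 0, .ofNat 0, .ofNat 0, .ofNat 0⟩)
    (by decide +kernel)
theorem L00230 : Good (Phi V4.P V4.D (-1) 1) ⟨3, 3, 2, 1, 2, 3, 2, 2, 4, 3⟩ :=
  leaf_sound (S := T4.ds_mp) T4.ok_mp (w := 176) (c := ⟨⟨.negSucc 926, .negSucc 228, .negSucc 154, .negSucc 253, .ofNat 62, .ofNat 36⟩, ⟨.negSucc 253, .ofNat 3, .negSucc 277, .negSucc 90, .ofNat 12, .ofNat 6⟩, ⟨.ofNat 556, .ofNat 164, .ofNat 112, .negSucc 28, .negSucc 168, .ofNat 0⟩, ⟨.negSucc 2202, .negSucc 265, .negSucc 176, .negSucc 491, .ofNat 221, .ofNat 134⟩, ⟨.negSucc 735, .negSucc 123, .ofNat 74, .negSucc 372, .negSucc 228, .negSucc 146⟩, .ofNat 615, .negSucc 465, .ofNat 0, .negSucc 465, .ofNat 1764, .ofNat 0, .ofNat 534, .ofNat 411, .negSucc 417, .ofNat 0, .ofNat 314, .negSucc 87, .ofNat 0, .ofNat 0, .ofNat 990, .ofNat 7336, .ofNat 0, .ofNat 0, .ofNat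 0, .ofNat 0, .ofNat 0, .ofNat 0, .ofNat 0, .ofNat 0, .ofNat 0, .ofNat 0, .ofNat 0, .ofNat 0, .ofNat 0, .ofNat 0, .ofNat 0, .ofNat 0⟩)
    (by decide +kernel)
theorem L00231 : Good (Phi V4.P V4.D (-1) 1) ⟨2, 0, 2, 0, 2, 2, 2, 3, 3, 1⟩ :=
  leaf_sound (S := T4.ds_mp) T4.ok_mp (w := 168) (c := ⟨⟨.negSucc 373, .negSucc 68, .negSucc 60, .negSucc 197, .ofNat 93, .ofNat 16⟩, ⟨.negSucc 48, .negSucc 27, .negSucc 120, .negSucc 42, .ofNat 36, .ofNat 9⟩, ⟨.negSucc 54, .ofNat 71, .ofNat 27, .ofNat 189, .negSucc 133, .ofNat 4⟩, ⟨.negSucc 1151, .negSucc 28, .negSucc 37, .negSucc 563, .ofNat 239, .ofNat 42⟩, ⟨.negSucc 509, .negSucc 195, .ofNat 20, .negSucc 135, .ofNat 202, .ofNat 47⟩, .ofNat 594, .negSucc 142, .ofNat 0, .negSucc 142, .ofNat 1315, .ofNat 0, .ofNat 565, .ofNat 137, .negSucc 407, .ofNat 0, .ofNat 321, .negSucc 23, .ofNat 0, .ofNat 0, .ofNat 950,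 .ofNat 5281, .ofNat 0, .ofNat 0, .ofNat 0, .ofNat 0, .ofNat 0, .ofNat 233048839673957110240671852134400, .ofNat 0, .ofNat 0, .ofNat 0, .ofNat 107966667158720820490465286553600, .ofNat 0, .ofNat 0, .ofNat 0, .ofNat 0, .ofNat 0, .ofNat 0⟩)
    (by decide +kernel)
theorem L00232 : Good (Phi V4.P V4.D (-1) 1) ⟨2, 0, 2, 1, 2, 2, 3, 6, 3, 1⟩ :=
  leaf_sound (S := T4.ds_mp) T4.ok_mp (w := 168) (c := ⟨⟨.negSucc 417, .negSucc 112, .negSucc 72, .negSucc 206, .ofNat 51, .ofNat 26⟩, ⟨.negSucc 140, .negSucc 54, .negSucc 141, .negSucc 93, .ofNat 24, .ofNat 13⟩, ⟨.negSucc 37, .ofNat 122, .ofNat 36, .ofNat 170, .negSucc 75, .ofNat 7⟩, ⟨.negSucc 1191, .negSucc 97, .negSucc 56, .negSucc 527, .ofNat 124, .ofNat 71⟩, ⟨.negSucc 468, .negSucc 188, .negSucc 4, .negSucc 175, .ofNat 67, .ofNat 40⟩, .ofNat 426, .negSucc 137, .ofNat 0, .negSucc 137, .ofNat 663, .ofNat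 0, .ofNat 296, .ofNat 130, .negSucc 278, .ofNat 0, .ofNat 217, .negSucc 46, .ofNat 0, .ofNat 0, .ofNat 522, .ofNat 4919, .ofNat 0, .ofNat 0, .ofNat 0, .ofNat 0, .ofNat 0, .ofNat 0, .ofNat 0, .ofNat 0, .ofNat 0, .ofNat 0, .ofNat 0, .ofNat 0, .ofNat 0, .ofNat 0, .ofNat 0, .ofNat 0⟩)
    (by decide +kernel)
theorem L00233 : Good (Phi V4.P V4.D (-1) 1) ⟨2, 0, 2, 1, 2, 2, 3, 7, 3, 1⟩ :=
  leaf_sound (S := T4.ds_mp) T4.ok_mp (w := 168) (c := ⟨⟨.negSucc 373, .negSucc 109, .negSucc 52, .negSucc 227, .ofNat 63, .ofNat 60⟩, ⟨.negSucc 129, .negSucc 55, .negSucc 113, .negSucc 99, .ofNat 34, .ofNat 30⟩, ⟨.negSucc 135, .ofNat 131, .ofNat 26, .ofNat 203, .negSucc 69, .ofNat 4⟩, ⟨.negSucc 1044, .negSucc 119, .negSucc 35, .negSucc 604, .ofNat 157, .ofNat 136⟩, ⟨.negSucc 430, .negSucc 189, .negSucc 2, .negSucc 151, .ofNat 131, .ofNat 100⟩, .ofNat 427, .negSucc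 136, .ofNat 0, .negSucc 136, .ofNat 662, .ofNat 0, .ofNat 305, .ofNat 134, .negSucc 314, .ofNat 0, .ofNat 226, .negSucc 68, .ofNat 0, .ofNat 0, .ofNat 533, .ofNat 3134, .ofNat 0, .ofNat 0, .ofNat 0, .ofNat 0, .ofNat 0, .ofNat 0, .ofNat 0, .ofNat 0, .ofNat 0, .ofNat 140162154895346334892351605964800, .ofNat 0, .ofNat 0, .ofNat 0, .ofNat 0, .ofNat 0, .ofNat 0⟩)
    (by decide +kernel)
theorem L00234 : Good (Phi V4.P V4.D (-1) 1) ⟨2, 0, 2, 0, 2, 3, 2, 3, 4, 2⟩ :=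
  leaf_sound (S := T4.ds_mp) T4.ok_mp (w := 168) (c := ⟨⟨.negSucc 550, .negSucc 86, .negSucc 58, .negSucc 193, .ofNat 52, .negSucc 18⟩, ⟨.negSucc 43, .negSucc 62, .negSucc 178, .negSucc 19, .ofNat 34, .negSucc 5⟩, ⟨.ofNat 163, .ofNat 9, .ofNat 0, .ofNat 171, .negSucc 63, .ofNat 4⟩, ⟨.negSucc 1691, .ofNat 14, .negSucc 26, .negSucc 592, .ofNat 98, .negSucc 50⟩, ⟨.negSucc 523, .negSucc 465, .ofNat 1, .ofNat 144, .ofNat 296, .negSucc 29⟩, .ofNat 598, .negSucc 162, .ofNat 0, .negSucc 162, .ofNat 1325, .ofNat 0, .ofNat 663, .ofNat 206, .negSucc 406, .ofNat 0, .ofNat 362, .negSucc 4, .ofNat 0, .ofNat 0, .ofNat 971, .ofNat 3237, .ofNat 0, .ofNat 0, .ofNat 0, .ofNat 0, .ofNat 0, .ofNat 0, .ofNat 0, .ofNat 0, .ofNat 0, .ofNat 858075801320291519860072198963200, .ofNat 0, .ofNat 0, .ofNat 0, .ofNat 0, .ofNat 0, .ofNat 0⟩)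
    (by decide +kernel)
theorem L00235 : Good (Phi V4.P V4.D (-1) 1) ⟨2, 0, 2, 0, 2, 3, 2, 3, 4, 3⟩ :=
  leaf_sound (S := T4.ds_mp) T4.ok_mp (w := 168) (c := ⟨⟨.negSucc 572, .negSucc 60, .negSucc 60, .negSucc 222, .ofNat 79, .ofNat 11⟩, ⟨.negSucc 54, .negSucc 61, .negSucc 180, .negSucc 15, .ofNat 60, .ofNat 12⟩, ⟨.ofNat 167, .ofNat 3, .ofNat 6, .ofNat 184, .negSucc 80, .negSucc 1⟩, ⟨.negSucc 1769, .ofNat 87, .negSucc 13, .negSucc 652, .ofNat 177, .ofNat 30⟩, ⟨.negSucc 505, .negSucc 486, .ofNat 3, .ofNat 72, .ofNat 254, .ofNat 1⟩, .ofNat 596, .negSucc 150, .ofNat 0, .negSucc 150, .ofNat 1314, .ofNat 0, .ofNat 618, .ofNat 164, .negSucc 360, .ofNat 0, .ofNat 338, .negSucc 2, .ofNat 0, .ofNat 0, .ofNat 935, .ofNat 3977, .ofNat 0, .ofNat 0, .ofNat 0, .ofNat 0, .ofNat 0, .ofNat 1983595725054104902253989488230400, .ofNat 0, .ofNat 0, .ofNat 0, .ofNat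 1201015345132657767928757118566400, .ofNat 0, .ofNat 0, .ofNat 0, .ofNat 0, .ofNat 0, .ofNat 0⟩)
    (by decide +kernel)
theorem L00236 : Good (Phi V4.P V4.D (-1) 1) ⟨2, 0, 2, 1, 2, 3, 2, 3, 4, 2⟩ :=
  leaf_sound (S := T4.ds_mp) T4.ok_mp (w := 168) (c := ⟨⟨.negSucc 572, .negSucc 170, .negSucc 74, .negSucc 186, .ofNat 57, .negSucc 17⟩, ⟨.negSucc 167, .negSucc 104, .negSucc 192, .negSucc 77, .ofNat 21, .negSucc 7⟩, ⟨.ofNat 156, .ofNat 81, .ofNat 8, .ofNat 129, .negSucc 114, .ofNat 14⟩, ⟨.negSucc 1656, .negSucc 120, .negSucc 36, .negSucc 584, .ofNat 88, .negSucc 42⟩, ⟨.negSucc 503, .negSucc 420, .negSucc 34, .ofNat 91, .ofNat 183, .negSucc 3⟩, .ofNat 724, .negSucc 469, .ofNat 0, .negSucc 469, .ofNat 1497, .ofNat 0, .ofNat 543, .ofNat 443, .negSucc 416, .ofNat 0, .ofNat 409, .negSucc 102, .ofNat 0, .ofNat 0, .ofNat 1005, .ofNat 3815, .ofNat 0, .ofNat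 0, .ofNat 0, .ofNat 0, .ofNat 0, .ofNat 0, .ofNat 0, .ofNat 0, .ofNat 0, .ofNat 1436101947487662362600180967014400, .ofNat 0, .ofNat 0, .ofNat 0, .ofNat 0, .ofNat 0, .ofNat 0⟩)
    (by decide +kernel)
theorem L00237 : Good (Phi V4.P V4.D (-1) 1) ⟨2, 0, 2, 1, 2, 3, 2, 3, 4, 3⟩ :=
  leaf_sound (S := T4.ds_mp) T4.ok_mp (w := 168) (c := ⟨⟨.negSucc 613, .negSucc 123, .negSucc 59, .negSucc 207, .ofNat 93, .ofNat 10⟩, ⟨.negSucc 201, .negSucc 81, .negSucc 172, .negSucc 73, .ofNat 49, .ofNat 7⟩, ⟨.ofNat 157, .ofNat 76, .ofNat 19, .ofNat 143, .negSucc 122, .ofNat 1⟩, ⟨.negSucc 1753, .negSucc 14, .negSucc 20, .negSucc 616, .ofNat 196, .ofNat 33⟩, ⟨.negSucc 520, .negSucc 416, .ofNat 8, .ofNat 30, .ofNat 184, .ofNat 13⟩, .ofNat 708, .negSucc 430, .ofNat 0, .negSucc 430, .ofNat 1454, .ofNat 0, .ofNat 510, .ofNat 366, .negSucc 359, .ofNat 0, .ofNat 367, .negSucc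 84, .ofNat 0, .ofNat 0, .ofNat 953, .ofNat 5904, .ofNat 0, .ofNat 0, .ofNat 0, .ofNat 0, .ofNat 0, .ofNat 1939714089594625664312311126425600, .ofNat 0, .ofNat 0, .ofNat 0, .ofNat 2259282883155938329508388746035200, .ofNat 0, .ofNat 0, .ofNat 0, .ofNat 1532056825003430805766056758476800, .ofNat 0, .ofNat 0⟩)
    (by decide +kernel)
theorem L00238 : Good (Phi V4.P V4.D (-1) 1) ⟨3, 2, 1, 0, 2, 2, 2, 3, 3, 1⟩ :=
  leaf_sound (S := T4.ds_mp) T4.ok_mp (w := 168) (c := ⟨⟨.negSucc 451, .negSucc 103, .negSucc 197, .negSucc 260, .ofNat 136, .ofNat 93⟩, ⟨.negSucc 47, .negSucc 0, .negSucc 319, .negSucc 87, .ofNat 48, .ofNat 44⟩, ⟨.ofNat 19, .ofNat 102, .ofNat 150, .ofNat 189, .negSucc 166, .negSucc 25⟩, ⟨.negSucc 1253, .negSucc 114, .negSucc 206, .negSucc 609, .ofNat 328, .ofNat 223⟩, ⟨.negSucc 593, .negSucc 94, .ofNat 24, .negSucc 305, .ofNat 127, .ofNat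 16⟩, .ofNat 397, .negSucc 112, .ofNat 0, .negSucc 112, .ofNat 708, .ofNat 0, .ofNat 318, .ofNat 115, .negSucc 316, .ofNat 0, .ofNat 203, .negSucc 40, .ofNat 0, .ofNat 0, .ofNat 535, .ofNat 1959, .ofNat 0, .ofNat 0, .ofNat 0, .ofNat 0, .ofNat 0, .ofNat 175549913379345009865060358553600, .ofNat 0, .ofNat 0, .ofNat 0, .ofNat 98655361299767046009099858739200, .ofNat 0, .ofNat 0, .ofNat 0, .ofNat 0, .ofNat 0, .ofNat 0⟩)
    (by decide +kernel)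
theorem L00239 : Good (Phi V4.P V4.D (-1) 1) ⟨3, 3, 1, 0, 2, 2, 2, 3, 3, 1⟩ :=
  leaf_sound (S := T4.ds_mp) T4.ok_mp (w := 168) (c := ⟨⟨.negSucc 516, .negSucc 147, .negSucc 263, .negSucc 301, .ofNat 136, .ofNat 122⟩, ⟨.negSucc 14, .ofNat 26, .negSucc 369, .negSucc 77, .ofNat 14, .ofNat 28⟩, ⟨.ofNat 77, .ofNat 144, .ofNat 229, .ofNat 209, .negSucc 173, .negSucc 42⟩, ⟨.negSucc 1321, .negSucc 188, .negSucc 325, .negSucc 645, .ofNat 327, .ofNat 284⟩, ⟨.negSucc 622, .negSucc 77, .ofNat 37, .negSucc 390, .ofNat 61, .negSucc 15⟩, .ofNat 370, .negSucc 100, .ofNat 0, .negSucc 100, .ofNat 742, .ofNat 0, .ofNat 334, .ofNat 110, .negSucc 372, .ofNat 0, .ofNat 194, .negSucc 40, .ofNat 0, .ofNat 0, .ofNat 569, .ofNat 1556, .ofNat 0, .ofNat 0, .ofNat 0, .ofNat 0, .ofNat 0, .ofNat 212608768839290453447910044467200, .ofNat 0, .ofNat 0, .ofNat 0, .ofNat 241677234305452537506435170304000,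 .ofNat 0, .ofNat 0, .ofNat 0, .ofNat 163020748796707815757213964697600, .ofNat 0, .ofNat 0⟩)
    (by decide +kernel)
theorem L00240 : Good (Phi V4.P V4.D (-1) 1) ⟨3, 2, 1, 0, 2, 3, 3, 6, 4, 2⟩ :=
  leaf_sound (S := T4.ds_mp) T4.ok_mp (w := 176) (c := ⟨⟨.negSucc 627, .negSucc 147, .negSucc 255, .negSucc 203, .ofNat 24, .ofNat 7⟩, ⟨.negSucc 45, .negSucc 12, .negSucc 454, .negSucc 55, .ofNat 5, .negSucc 8⟩, ⟨.ofNat 223, .ofNat 68, .ofNat 94, .ofNat 80, .negSucc 42, .negSucc 11⟩, ⟨.negSucc 1756, .negSucc 146, .negSucc 236, .negSucc 499, .ofNat 56, .ofNat 39⟩, ⟨.negSucc 770, .negSucc 188, .negSucc 37, .negSucc 130, .ofNat 44, .negSucc 91⟩, .ofNat 391, .negSucc 91, .ofNat 0, .negSucc 91, .ofNat 711, .ofNat 0, .ofNat 402, .ofNat 144, .negSucc 342, .ofNat 0, .ofNat 231, .negSucc 7, .ofNat 0, .ofNat 0, .ofNat 551, .ofNat 2921, .ofNat 0, .ofNat 0, .ofNat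 0, .ofNat 0, .ofNat 0, .ofNat 0, .ofNat 0, .ofNat 0, .ofNat 0, .ofNat 0, .ofNat 0, .ofNat 0, .ofNat 0, .ofNat 0, .ofNat 0, .ofNat 0⟩)
    (by decide +kernel)
theorem L00241 : Good (Phi V4.P V4.D (-1) 1) ⟨3, 3, 1, 0, 2, 3, 3, 6, 4, 2⟩ :=
  leaf_sound (S := T4.ds_mp) T4.ok_mp (w := 176) (c := ⟨⟨.negSucc 751, .negSucc 211, .negSucc 348, .negSucc 227, .ofNat 40, .ofNat 41⟩, ⟨.negSucc 12, .ofNat 28, .negSucc 532, .negSucc 50, .ofNat 4, .negSucc 7⟩, ⟨.ofNat 311, .ofNat 138, .ofNat 194, .ofNat 36, .negSucc 66, .negSucc 21⟩, ⟨.negSucc 1929, .negSucc 259, .negSucc 382, .negSucc 489, .ofNat 99, .ofNat 121⟩, ⟨.negSucc 860, .negSucc 162, .ofNat 9, .negSucc 288, .negSucc 16, .negSucc 112⟩, .ofNat 366, .negSucc 81, .ofNat 0, .negSucc 81, .ofNat 758, .ofNat 0, .ofNat 425, .ofNat 140, .negSucc 406, .ofNat 0, .ofNat 216, .negSucc 12, .ofNat 0, .ofNat 0, .ofNat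 574, .ofNat 1982, .ofNat 0, .ofNat 0, .ofNat 0, .ofNat 0, .ofNat 0, .ofNat 0, .ofNat 0, .ofNat 0, .ofNat 0, .ofNat 0, .ofNat 0, .ofNat 0, .ofNat 0, .ofNat 0, .ofNat 0, .ofNat 0⟩)
    (by decide +kernel)
theorem L00242 : Good (Phi V4.P V4.D (-1) 1) ⟨2, 1, 1, 0, 2, 3, 3, 7, 4, 2⟩ :=
  leaf_sound (S := T4.ds_mp) T4.ok_mp (w := 168) (c := ⟨⟨.negSucc 568, .negSucc 374, .negSucc 305, .negSucc 218, .negSucc 23, .ofNat 62⟩, ⟨.negSucc 32, .ofNat 22, .negSucc 482, .negSucc 61, .negSucc 35, .ofNat 8⟩, ⟨.ofNat 134, .ofNat 250, .ofNat 156, .ofNat 52, .ofNat 11, .negSucc 13⟩, ⟨.negSucc 1660, .negSucc 456, .negSucc 322, .negSucc 482, .negSucc 9, .ofNat 157⟩, ⟨.negSucc 698, .negSucc 392, .negSucc 49, .negSucc 226, .ofNat 65, .negSucc 38⟩, .ofNat 375, .negSucc 90, .ofNat 0, .negSucc 90, .ofNat 736, .ofNat 0, .ofNat 424, .ofNat 165, .negSucc 430, .ofNat 0, .ofNat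 232, .negSucc 30, .ofNat 0, .ofNat 0, .ofNat 586, .ofNat 1372, .ofNat 0, .ofNat 0, .ofNat 0, .ofNat 0, .ofNat 0, .ofNat 0, .ofNat 0, .ofNat 0, .ofNat 0, .ofNat 271421429603011105404520444723200, .ofNat 0, .ofNat 0, .ofNat 0, .ofNat 151055807439021904047710719180800, .ofNat 0, .ofNat 0⟩)
    (by decide +kernel)
theorem L00243 : Good (Phi V4.P V4.D (-1) 1) ⟨2, 1, 1, 0, 2, 3, 2, 3, 4, 3⟩ :=
  leaf_sound (S := T4.ds_mp) T4.ok_mp (w := 168) (c := ⟨⟨.negSucc 587, .negSucc 327, .negSucc 293, .negSucc 255, .ofNat 149, .ofNat 68⟩, ⟨.negSucc 44, .ofNat 28, .negSucc 481, .negSucc 77, .ofNat 58, .ofNat 29⟩, ⟨.ofNat 207, .ofNat 215, .ofNat 172, .ofNat 45, .negSucc 198, .negSucc 46⟩, ⟨.negSucc 1721, .negSucc 340, .negSucc 283, .negSucc 523, .ofNat 361, .ofNat 195⟩, ⟨.negSucc 790, .negSucc 379, .ofNat 48, .negSucc 319, .negSucc 4, .negSucc 77⟩, .ofNat 381,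 .negSucc 104, .ofNat 0, .negSucc 104, .ofNat 728, .ofNat 0, .ofNat 374, .ofNat 136, .negSucc 325, .ofNat 0, .ofNat 211, .negSucc 19, .ofNat 0, .ofNat 0, .ofNat 537, .ofNat 1044, .ofNat 0, .ofNat 0, .ofNat 0, .ofNat 0, .ofNat 0, .ofNat 141722403766759996407031844044800, .ofNat 0, .ofNat 0, .ofNat 0, .ofNat 110809027442650938846616328601600, .ofNat 0, .ofNat 0, .ofNat 0, .ofNat 69877893696461155762665475276800, .ofNat 0, .ofNat 0⟩)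
    (by decide +kernel)
theorem L00244 : Good (Phi V4.P V4.D (-1) 1) ⟨1, 0, 2, 2, 2, 2, 2, 0, 4, 2⟩ :=
  leaf_sound (S := T4.ds_mp) T4.ok_mp (w := 168) (c := ⟨⟨.negSucc 275, .negSucc 370, .ofNat 46, .negSucc 153, .negSucc 103, .negSucc 155⟩, ⟨.negSucc 195, .negSucc 63, .negSucc 163, .negSucc 78, .negSucc 53, .negSucc 84⟩, ⟨.ofNat 593, .ofNat 223, .negSucc 1, .ofNat 43, .negSucc 179, .ofNat 112⟩, ⟨.negSucc 1055, .negSucc 338, .ofNat 86, .negSucc 353, .negSucc 147, .negSucc 387⟩, ⟨.negSucc 12, .negSucc 144, .ofNat 0, .negSucc 102, .negSucc 236, .negSucc 54⟩, .ofNat 437, .negSucc 201, .ofNat 0, .negSucc 201, .ofNat 707, .ofNat 0, .ofNat 260, .ofNat 151, .negSucc 219, .ofNat 0, .ofNat 191, .negSucc 35, .ofNat 0, .ofNat 0, .ofNat 514, .ofNat 7529, .ofNat 5322506676988950095225212108800, .ofNat 0, .ofNat 2668300379190611402890936320000, .ofNat 0,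 .ofNat 0, .ofNat 0, .ofNat 69268567781860037452234122854400, .ofNat 0, .ofNat 95489041308227161030414408089600, .ofNat 0, .ofNat 94277222101617056186644404633600, .ofNat 0, .ofNat 0, .ofNat 0, .ofNat 121656385070919499081579285708800, .ofNat 0⟩)
    (by decide +kernel)
theorem L00245 : Good (Phi V4.P V4.D (-1) 1) ⟨1, 0, 2, 2, 2, 2, 2, 1, 4, 2⟩ :=
  leaf_sound (S := T4.ds_mp) T4.ok_mp (w := 168) (c := ⟨⟨.negSucc 343, .negSucc 431, .ofNat 4, .negSucc 187, .negSucc 50, .negSucc 105⟩, ⟨.negSucc 238, .negSucc 88, .negSucc 186, .negSucc 105, .negSucc 27, .negSucc 51⟩, ⟨.ofNat 312, .ofNat 374, .ofNat 14, .ofNat 101, .negSucc 177, .ofNat 74⟩, ⟨.negSucc 1118, .negSucc 517, .ofNat 28, .negSucc 429, .negSucc 21, .negSucc 257⟩, ⟨.negSucc 265, .negSucc 103, .ofNat 1, .negSucc 151, .negSucc 206, .negSucc 30⟩, .ofNat 439, .negSucc 203, .ofNat 0, .negSucc 203,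 .ofNat 708, .ofNat 0, .ofNat 260, .ofNat 157, .negSucc 241, .ofNat 0, .ofNat 198, .negSucc 40, .ofNat 0, .ofNat 0, .ofNat 542, .ofNat 4026, .ofNat 0, .ofNat 0, .ofNat 994946201331558496806843187200, .ofNat 0, .ofNat 0, .ofNat 0, .ofNat 119979453438139493692112633856000, .ofNat 0, .ofNat 0, .ofNat 0, .ofNat 130191027150324621172367425536000, .ofNat 0, .ofNat 0, .ofNat 0, .ofNat 154038461470045952188910823014400, .ofNat 0⟩)
    (by decide +kernel)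

end Crest.Agent.R097C4.N4mp
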