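import Crest.Agent.R097.T4

/-!
# Row 97, box cover in dimension n = 4 (generated)
-/

set_option autoImplicit false
set_option Elab.async false
set_option maxHeartbeats 0
set_option maxRecDepth 100000

open Crest.Agent.R097 Crest.Agent.R097.KA


namespace Crest.Agent.R097C4.N4mp

theorem L00246 : Good (Phi V4.P V4.D (-1) 1) ⟨2, 0, 2, 2, 2, 2, 2, 0, 4, 3⟩ :=
  leaf_sound (S := T4.ds_mp) T4.ok_mp (w := 168) (c := ⟨⟨.negSucc 496, .negSucc 130, .negSucc 43, .negSucc 156, .negSucc 25, .negSucc 74⟩, ⟨.negSucc 271, .negSucc 55, .negSucc 174, .negSucc 87, .negSucc 19, .negSucc 40⟩, ⟨.ofNat 716, .ofNat 109, .ofNat 98, .ofNat 59, .negSucc 263, .ofNat 26⟩, ⟨.negSucc 1583, .negSucc 73, .negSucc 86, .negSucc 388, .ofNat 58, .negSucc 178⟩, ⟨.negSucc 31, .negSucc 117, .ofNat 55, .negSucc 109, .negSucc 240, .negSucc 61⟩, .ofNat 455, .negSucc 204, .ofNat 0, .negSucc 204, .ofNat 694,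 .ofNat 0, .ofNat 466, .ofNat 261, .negSucc 321, .ofNat 0, .ofNat 364, .negSucc 36, .ofNat 0, .ofNat 0, .ofNat 998, .ofNat 38108, .ofNat 285340482098061147654908490547200, .ofNat 0, .ofNat 2698229663334021008059269120000, .ofNat 0, .ofNat 1057269512003963012133573309235200, .ofNat 0, .ofNat 100608305020909109891911227801600, .ofNat 0, .ofNat 4116534109956758792895890404147200, .ofNat 0, .ofNat 127340580668022285171002494156800, .ofNat 0, .ofNat 0, .ofNat 0, .ofNat 140626294163633851916835461529600, .ofNat 0⟩)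
    (by decide +kernel)
theorem L00247 : Good (Phi V4.P V4.D (-1) 1) ⟨2, 0, 2, 2, 2, 2, 2, 1, 4, 3⟩ :=
  leaf_sound (S := T4.ds_mp) T4.ok_mp (w := 168) (c := ⟨⟨.negSucc 510, .negSucc 156, .negSucc 29, .negSucc 179, .ofNat 7, .negSucc 40⟩, ⟨.negSucc 287, .negSucc 65, .negSucc 161, .negSucc 100, .ofNat 0, .negSucc 22⟩, ⟨.ofNat 414, .ofNat 147, .ofNat 65, .ofNat 107, .negSucc 220, .ofNat 3⟩, ⟨.negSucc 1502, .negSucc 141, .negSucc 16, .negSucc 443, .ofNat 119, .negSucc 87⟩, ⟨.negSucc 260, .negSucc 128, .ofNat 59, .negSucc 134, .negSucc 177, .negSucc 48⟩, .ofNat 892, .negSucc 752, .ofNat 0, .negSucc 752, .ofNat 1772, .ofNat 0, .ofNat 331, .ofNat 363, .negSucc 253, .ofNat 0, .ofNat 311, .negSucc 90, .ofNat 0, .ofNat 0, .ofNat 940, .ofNat 21355, .ofNat 0, .ofNat 0, .ofNat 0, .ofNat 0, .ofNat 0, .ofNat 0, .ofNat 176210285069993445798364525363200, .ofNat 0, .ofNat 0, .ofNat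 0, .ofNat 153611471382298068786047719833600, .ofNat 0, .ofNat 0, .ofNat 0, .ofNat 177602752134676663986064195584000, .ofNat 0⟩)
    (by decide +kernel)
theorem L00248 : Good (Phi V4.P V4.D (-1) 1) ⟨2, 1, 2, 2, 2, 2, 1, 0, 4, 3⟩ :=
  leaf_sound (S := T4.ds_mp) T4.ok_mp (w := 168) (c := ⟨⟨.negSucc 598, .negSucc 274, .negSucc 87, .negSucc 214, .negSucc 45, .negSucc 51⟩, ⟨.negSucc 318, .negSucc 31, .negSucc 204, .negSucc 114, .negSucc 28, .negSucc 31⟩, ⟨.ofNat 744, .ofNat 261, .ofNat 135, .ofNat 108, .negSucc 414, .ofNat 48⟩, ⟨.negSucc 1618, .negSucc 317, .negSucc 146, .negSucc 469, .ofNat 92, .negSucc 112⟩, ⟨.negSucc 139, .negSucc 38, .ofNat 40, .negSucc 175, .negSucc 414, .negSucc 57⟩, .ofNat 837, .negSucc 768, .ofNat 0, .negSucc 768, .ofNat 1905, .ofNat 0, .ofNat 339, .ofNat 387, .negSucc 280, .ofNat 0, .ofNat 300, .negSucc 97, .ofNat 0, .ofNat 0, .ofNat 957, .ofNat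 8762, .ofNat 0, .ofNat 0, .ofNat 94353344297422309804946227200, .ofNat 0, .ofNat 0, .ofNat 0, .ofNat 29186688572702593860743095910400, .ofNat 0, .ofNat 0, .ofNat 0, .ofNat 18926968174278829021504261324800, .ofNat 0, .ofNat 0, .ofNat 0, .ofNat 14897630543916261172147598131200, .ofNat 0⟩)
    (by decide +kernel)
theorem L00249 : Good (Phi V4.P V4.D (-1) 1) ⟨2, 0, 4, 8, 2, 3, 4, 0, 3, 1⟩ :=
  leaf_sound (S := T4.ds_mp) T4.ok_mp (w := 176) (c := ⟨⟨.negSucc 378, .negSucc 203, .ofNat 0, .negSucc 183, .negSucc 32, .negSucc 323⟩, ⟨.negSucc 204, .negSucc 97, .negSucc 44, .negSucc 99, .negSucc 18, .negSucc 179⟩, ⟨.ofNat 677, .ofNat 92, .ofNat 9, .negSucc 130, .negSucc 33, .ofNat 148⟩, ⟨.negSucc 1279, .negSucc 210, .ofNat 9, .negSucc 513, .negSucc 70, .negSucc 829⟩, ⟨.ofNat 6, .negSucc 204, .ofNat 3, .negSucc 20, .negSucc 51, .negSucc 182⟩, .ofNat 889, .negSucc 749, .ofNat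 0, .negSucc 749, .ofNat 1770, .ofNat 0, .ofNat 365, .ofNat 391, .negSucc 183, .ofNat 0, .ofNat 318, .negSucc 83, .ofNat 0, .ofNat 0, .ofNat 888, .ofNat 70983, .ofNat 0, .ofNat 0, .ofNat 0, .ofNat 0, .ofNat 0, .ofNat 0, .ofNat 407754930386683155348094294425600, .ofNat 0, .ofNat 0, .ofNat 0, .ofNat 0, .ofNat 0, .ofNat 0, .ofNat 0, .ofNat 0, .ofNat 0⟩)
    (by decide +kernel)
theorem L00250 : Good (Phi V4.P V4.D (-1) 1) ⟨2, 0, 4, 9, 2, 3, 4, 0, 3, 1⟩ :=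
  leaf_sound (S := T4.ds_mp) T4.ok_mp (w := 184) (c := ⟨⟨.negSucc 346, .negSucc 209, .negSucc 42, .negSucc 180, .negSucc 39, .negSucc 350⟩, ⟨.negSucc 239, .negSucc 80, .negSucc 60, .negSucc 105, .negSucc 23, .negSucc 205⟩, ⟨.ofNat 630, .ofNat 128, .ofNat 96, .negSucc 176, .negSucc 7, .ofNat 183⟩, ⟨.negSucc 1213, .negSucc 228, .negSucc 90, .negSucc 492, .negSucc 72, .negSucc 870⟩, ⟨.negSucc 32, .negSucc 127, .ofNat 18, .negSucc 26, .negSucc 68, .negSucc 192⟩, .ofNat 15072, .negSucc 24624, .ofNat 0, .negSucc 24624, .ofNat 42238, .ofNat 0, .ofNat 91, .ofNat 502, .negSucc 173, .ofNat 0, .ofNat 301, .negSucc 100, .ofNat 0, .ofNat 0, .ofNat 884, .ofNat 83679, .ofNat 0, .ofNat 0, .ofNat 117890724679726367126763601920000, .ofNat 0, .ofNat 0, .ofNat 0, .ofNat 5635618673528602499365686214656000, .ofNat 0, .ofNat 0, .ofNat 0, .ofNat 981964378748240498917196483788800, .ofNat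 0, .ofNat 0, .ofNat 0, .ofNat 3214154573050059119438292477542400, .ofNat 0⟩)
    (by decide +kernel)
theorem L00251 : Good (Phi V4.P V4.D (-1) 1) ⟨2, 0, 3, 4, 2, 3, 4, 1, 3, 1⟩ :=
  leaf_sound (S := T4.ds_mp) T4.ok_mp (w := 176) (c := ⟨⟨.negSucc 423, .negSucc 198, .ofNat 36, .negSucc 177, .negSucc 22, .negSucc 307⟩, ⟨.negSucc 233, .negSucc 89, .negSucc 70, .negSucc 97, .negSucc 12, .negSucc 172⟩, ⟨.ofNat 655, .ofNat 72, .negSucc 18, .negSucc 127, .negSucc 36, .ofNat 137⟩, ⟨.negSucc 1386, .negSucc 188, .ofNat 115, .negSucc 502, .negSucc 26, .negSucc 782⟩, ⟨.negSucc 55, .negSucc 189, .ofNat 32, .negSucc 18, .negSucc 64, .negSucc 189⟩, .ofNat 893, .negSucc 754, .ofNat 0, .negSucc 754, .ofNat 1774, .ofNat 0, .ofNat 366, .ofNat 397, .negSucc 189, .ofNat 0, .ofNat 323, .negSucc 84, .ofNat 0, .ofNat 0, .ofNat 890, .ofNat 43138, .ofNat 0, .ofNat 0, .ofNat 35578841922375217798554058752000,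 .ofNat 0, .ofNat 0, .ofNat 0, .ofNat 481363103821506489806287483699200, .ofNat 0, .ofNat 0, .ofNat 0, .ofNat 181036780289924838591991224729600, .ofNat 0, .ofNat 0, .ofNat 0, .ofNat 0, .ofNat 0⟩)
    (by decide +kernel)
theorem L00252 : Good (Phi V4.P V4.D (-1) 1) ⟨2, 0, 3, 4, 2, 3, 3, 1, 3, 1⟩ :=
  leaf_sound (S := T4.ds_mp) T4.ok_mp (w := 168) (c := ⟨⟨.negSucc 470, .negSucc 174, .negSucc 39, .negSucc 187, .negSucc 38, .negSucc 256⟩, ⟨.negSucc 259, .negSucc 79, .negSucc 107, .negSucc 103, .negSucc 25, .negSucc 142⟩, ⟨.ofNat 571, .ofNat 99, .ofNat 33, .negSucc 90, .negSucc 63, .ofNat 124⟩, ⟨.negSucc 1502, .negSucc 111, .negSucc 78, .negSucc 524, .negSucc 40, .negSucc 637⟩, ⟨.negSucc 105, .negSucc 212, .ofNat 34, .negSucc 23, .negSucc 131, .negSucc 173⟩, .ofNat 897, .negSucc 765, .ofNat 0, .negSucc 765, .ofNat 1792, .ofNat 0, .ofNat 363, .ofNat 406, .negSucc 216, .ofNat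 0, .ofNat 328, .negSucc 88, .ofNat 0, .ofNat 0, .ofNat 912, .ofNat 21134, .ofNat 0, .ofNat 0, .ofNat 1731481515322410260311415193600, .ofNat 0, .ofNat 0, .ofNat 0, .ofNat 45333822955191858292411544371200, .ofNat 0, .ofNat 0, .ofNat 0, .ofNat 45421319655030670106137775308800, .ofNat 0, .ofNat 0, .ofNat 0, .ofNat 0, .ofNat 0⟩)
    (by decide +kernel)
theorem L00253 : Good (Phi V4.P V4.D (-1) 1) ⟨3, 2, 4, 8, 2, 3, 4, 0, 4, 2⟩ :=
  leaf_sound (S := T4.ds_mp) T4.ok_mp (w := 184) (c := ⟨⟨.negSucc 491, .negSucc 124, .negSucc 10, .negSucc 199, .negSucc 42, .negSucc 281⟩, ⟨.negSucc 260, .negSucc 23, .negSucc 44, .negSucc 107, .negSucc 20, .negSucc 149⟩, ⟨.ofNat 707, .ofNat 30, .ofNat 0, .negSucc 138, .negSucc 17, .ofNat 165⟩, ⟨.negSucc 1292, .negSucc 145, .negSucc 19, .negSucc 548, .negSucc 74, .negSucc 691⟩, ⟨.negSucc 200, .negSucc 20, .ofNat 10, .ofNat 30, .negSucc 64,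 .negSucc 104⟩, .ofNat 872, .negSucc 800, .ofNat 0, .negSucc 800, .ofNat 1921, .ofNat 0, .ofNat 381, .ofNat 467, .negSucc 255, .ofNat 0, .ofNat 334, .negSucc 114, .ofNat 0, .ofNat 0, .ofNat 888, .ofNat 78802, .ofNat 0, .ofNat 0, .ofNat 0, .ofNat 0, .ofNat 0, .ofNat 0, .ofNat 0, .ofNat 0, .ofNat 0, .ofNat 0, .ofNat 0, .ofNat 0, .ofNat 0, .ofNat 0, .ofNat 0, .ofNat 0⟩)
    (by decide +kernel)
theorem L00254 : Good (Phi V4.P V4.D (-1) 1) ⟨3, 2, 4, 9, 2, 3, 4, 0, 4, 2⟩ :=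
  leaf_sound (S := T4.ds_mp) T4.ok_mp (w := 184) (c := ⟨⟨.negSucc 498, .negSucc 125, .ofNat 12, .negSucc 191, .negSucc 48, .negSucc 287⟩, ⟨.negSucc 294, .negSucc 27, .negSucc 29, .negSucc 107, .negSucc 26, .negSucc 162⟩, ⟨.ofNat 712, .ofNat 31, .negSucc 36, .negSucc 174, .negSucc 11, .ofNat 182⟩, ⟨.negSucc 1291, .negSucc 166, .ofNat 2, .negSucc 547, .negSucc 86, .negSucc 696⟩, ⟨.negSucc 206, .ofNat 6, .ofNat 79, .ofNat 67, .negSucc 69, .negSucc 131⟩, .ofNat 2251, .negSucc 3147, .ofNat 0, .negSucc 3147, .ofNat 6108, .ofNat 0, .ofNat 209, .ofNat 538, .negSucc 229, .ofNat 0, .ofNat 325, .negSucc 122, .ofNat 0, .ofNat 0, .ofNat 876, .ofNat 129252, .ofNat 0, .ofNat 0, .ofNat 659601299538130182763454241177600, .ofNat 0, .ofNat 0, .ofNat 0, .ofNat 15206408768738493781904021520384000, .ofNat 0, .ofNat 0, .ofNat 0, .ofNat 9384129230015021857590214656000000, .ofNat 0, .ofNat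 0, .ofNat 0, .ofNat 0, .ofNat 0⟩)
    (by decide +kernel)
theorem L00255 : Good (Phi V4.P V4.D (-1) 1) ⟨3, 2, 3, 4, 2, 3, 4, 1, 4, 2⟩ :=
  leaf_sound (S := T4.ds_mp) T4.ok_mp (w := 184) (c := ⟨⟨.negSucc 524, .negSucc 156, .negSucc 8, .negSucc 212, .negSucc 45, .negSucc 255⟩, ⟨.negSucc 279, .negSucc 32, .negSucc 89, .negSucc 111, .negSucc 25, .negSucc 135⟩, ⟨.ofNat 673, .ofNat 56, .ofNat 6, .negSucc 148, .negSucc 14, .ofNat 158⟩, ⟨.negSucc 1364, .negSucc 207, .ofNat 0, .negSucc 575, .negSucc 82, .negSucc 619⟩, ⟨.negSucc 260, .negSucc 13, .ofNat 20, .ofNat 30, .negSucc 74, .negSucc 104⟩, .ofNat 1913, .negSucc 2628, .ofNat 0, .negSucc 2628, .ofNat 5369, .ofNat 0, .ofNat 238, .ofNat 526, .negSucc 239, .ofNat 0, .ofNat 316, .negSucc 119, .ofNat 0, .ofNat 0, .ofNat 896, .ofNat 52461, .ofNat 0, .ofNat 0, .ofNat 175722119207917526421550714060800, .ofNat 0, .ofNat 0, .ofNat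 0, .ofNat 0, .ofNat 0, .ofNat 0, .ofNat 0, .ofNat 2001168110109777682235314824806400, .ofNat 0, .ofNat 0, .ofNat 0, .ofNat 0, .ofNat 0⟩)
    (by decide +kernel)
theorem L00256 : Good (Phi V4.P V4.D (-1) 1) ⟨3, 2, 3, 4, 2, 3, 3, 1, 4, 2⟩ :=
  leaf_sound (S := T4.ds_mp) T4.ok_mp (w := 176) (c := ⟨⟨.negSucc 581, .negSucc 157, .negSucc 17, .negSucc 202, .negSucc 81, .negSucc 223⟩, ⟨.negSucc 310, .negSucc 31, .negSucc 98, .negSucc 106, .negSucc 43, .negSucc 117⟩, ⟨.ofNat 628, .ofNat 76, .ofNat 28, .negSucc 129, .negSucc 50, .ofNat 147⟩, ⟨.negSucc 1492, .negSucc 199, .negSucc 24, .negSucc 537, .negSucc 139, .negSucc 529⟩, ⟨.negSucc 306, .negSucc 37, .ofNat 32, .ofNat 0, .negSucc 137, .negSucc 110⟩, .ofNat 878, .negSucc 815, .ofNat 0, .negSucc 815, .ofNat 1942, .ofNat 0, .ofNat 382, .ofNat 483, .negSucc 287, .ofNat 0, .ofNat 345, .negSucc 120, .ofNat 0, .ofNat 0, .ofNat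 921, .ofNat 19990, .ofNat 0, .ofNat 0, .ofNat 8294433386354084011944443904000, .ofNat 0, .ofNat 0, .ofNat 0, .ofNat 0, .ofNat 0, .ofNat 0, .ofNat 0, .ofNat 0, .ofNat 0, .ofNat 0, .ofNat 0, .ofNat 0, .ofNat 0⟩)
    (by decide +kernel)
theorem L00257 : Good (Phi V4.P V4.D (-1) 1) ⟨3, 2, 4, 8, 2, 3, 3, 0, 4, 3⟩ :=
  leaf_sound (S := T4.ds_mp) T4.ok_mp (w := 184) (c := ⟨⟨.negSucc 753, .negSucc 162, .negSucc 10, .negSucc 226, .negSucc 31, .negSucc 105⟩, ⟨.negSucc 398, .negSucc 29, .negSucc 55, .negSucc 120, .negSucc 17, .negSucc 57⟩, ⟨.ofNat 875, .ofNat 78, .ofNat 11, .negSucc 191, .negSucc 80, .ofNat 97⟩, ⟨.negSucc 1989, .negSucc 189, .negSucc 7, .negSucc 568, .negSucc 21, .negSucc 204⟩, ⟨.negSucc 250, .negSucc 34, .ofNat 8, .negSucc 59, .negSucc 121, .negSucc 146⟩, .ofNat 861, .negSucc 791, .ofNat 0, .negSucc 791, .ofNat 1922, .ofNat 0, .ofNat 355, .ofNat 408, .negSucc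 195, .ofNat 0, .ofNat 304, .negSucc 80, .ofNat 0, .ofNat 0, .ofNat 911, .ofNat 50974, .ofNat 0, .ofNat 0, .ofNat 0, .ofNat 0, .ofNat 0, .ofNat 0, .ofNat 0, .ofNat 0, .ofNat 0, .ofNat 0, .ofNat 0, .ofNat 0, .ofNat 0, .ofNat 0, .ofNat 0, .ofNat 0⟩)
    (by decide +kernel)
theorem L00258 : Good (Phi V4.P V4.D (-1) 1) ⟨3, 2, 4, 9, 2, 3, 3, 0, 4, 3⟩ :=
  leaf_sound (S := T4.ds_mp) T4.ok_mp (w := 184) (c := ⟨⟨.negSucc 759, .negSucc 162, .negSucc 7, .negSucc 218, .negSucc 41, .negSucc 108⟩, ⟨.negSucc 446, .negSucc 36, .negSucc 60, .negSucc 120, .negSucc 21, .negSucc 61⟩, ⟨.ofNat 901, .ofNat 67, .negSucc 12, .negSucc 210, .negSucc 75, .ofNat 78⟩, ⟨.negSucc 1988, .negSucc 185, .negSucc 30, .negSucc 537, .negSucc 40, .negSucc 223⟩, ⟨.negSucc 241, .negSucc 51, .ofNat 27, .negSucc 74, .negSucc 120, .negSucc 119⟩, .ofNat 931, .negSucc 884, .ofNat 0, .negSucc 884, .ofNat 2000,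 .ofNat 0, .ofNat 328, .ofNat 421, .negSucc 194, .ofNat 0, .ofNat 312, .negSucc 86, .ofNat 0, .ofNat 0, .ofNat 912, .ofNat 68393, .ofNat 0, .ofNat 0, .ofNat 44711240759363571826483947110400, .ofNat 0, .ofNat 0, .ofNat 0, .ofNat 1458590325281449286685053209804800, .ofNat 0, .ofNat 0, .ofNat 0, .ofNat 0, .ofNat 0, .ofNat 0, .ofNat 0, .ofNat 505602536495808537268124752281600, .ofNat 0⟩)
    (by decide +kernel)
theorem L00259 : Good (Phi V4.P V4.D (-1) 1) ⟨3, 2, 3, 4, 2, 3, 3, 1, 4, 3⟩ :=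
  leaf_sound (S := T4.ds_mp) T4.ok_mp (w := 184) (c := ⟨⟨.negSucc 790, .negSucc 175, .negSucc 20, .negSucc 228, .negSucc 25, .negSucc 83⟩, ⟨.negSucc 421, .negSucc 33, .negSucc 111, .negSucc 120, .negSucc 15, .negSucc 47⟩, ⟨.ofNat 770, .ofNat 98, .ofNat 24, .negSucc 150, .negSucc 80, .ofNat 77⟩, ⟨.negSucc 2036, .negSucc 209, .negSucc 10, .negSucc 553, .negSucc 5, .negSucc 154⟩, ⟨.negSucc 365, .negSucc 50, .ofNat 28, .negSucc 89, .negSucc 123, .negSucc 129⟩, .ofNat 1904, .negSucc 2619, .ofNat 0, .negSucc 2619, .ofNat 5366, .ofNat 0, .ofNat 227, .ofNat 479, .negSucc 201, .ofNat 0, .ofNat 292, .negSucc 96, .ofNat 0, .ofNat 0, .ofNat 915, .ofNat 26511, .ofNat 0, .ofNat 0, .ofNat 11842168235922019950493748428800, .ofNat 0, .ofNat 0, .ofNat 0, .ofNat 0, .ofNat 0, .ofNat 0, .ofNat 0, .ofNat 0, .ofNat 0, .ofNat 0, .ofNat 0, .ofNat 285214297827931799106415597977600, .ofNat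 0⟩)
    (by decide +kernel)
theorem L00260 : Good (Phi V4.P V4.D (-1) 1) ⟨3, 3, 3, 4, 2, 3, 2, 0, 4, 2⟩ :=
  leaf_sound (S := T4.ds_mp) T4.ok_mp (w := 176) (c := ⟨⟨.negSucc 607, .negSucc 213, .ofNat 9, .negSucc 260, .negSucc 180, .negSucc 265⟩, ⟨.negSucc 291, .negSucc 15, .negSucc 89, .negSucc 118, .negSucc 88, .negSucc 125⟩, ⟨.ofNat 732, .ofNat 97, .negSucc 12, .negSucc 143, .negSucc 63, .ofNat 181⟩, ⟨.negSucc 1471, .negSucc 280, .ofNat 41, .negSucc 647, .negSucc 311, .negSucc 592⟩, ⟨.negSucc 203, .ofNat 14, .ofNat 47, .ofNat 21, .negSucc 281, .negSucc 125⟩, .ofNat 1424, .negSucc 1953, .ofNat 0, .negSucc 1953, .ofNat 4551, .ofNat 0, .ofNat 300, .ofNat 538, .negSucc 284, .ofNat 0, .ofNat 306, .negSucc 121, .ofNat 0, .ofNat 0, .ofNat 915, .ofNat 14053, .ofNat 0, .ofNat 0, .ofNat 1089440380569161636476511846400, .ofNat 0, .ofNat 0, .ofNat 0, .ofNat 103931806580791574426316649267200,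 .ofNat 0, .ofNat 0, .ofNat 0, .ofNat 57837566959516887584854140518400, .ofNat 0, .ofNat 0, .ofNat 0, .ofNat 0, .ofNat 0⟩)
    (by decide +kernel)
theorem L00261 : Good (Phi V4.P V4.D (-1) 1) ⟨3, 3, 3, 4, 2, 3, 2, 0, 4, 3⟩ :=
  leaf_sound (S := T4.ds_mp) T4.ok_mp (w := 176) (c := ⟨⟨.negSucc 910, .negSucc 237, .negSucc 22, .negSucc 274, .negSucc 64, .negSucc 83⟩, ⟨.negSucc 431, .negSucc 15, .negSucc 126, .negSucc 126, .negSucc 35, .negSucc 42⟩, ⟨.ofNat 970, .ofNat 115, .ofNat 42, .negSucc 219, .negSucc 114, .ofNat 82⟩, ⟨.negSucc 2198, .negSucc 298, .negSucc 1, .negSucc 628, .negSucc 28, .negSucc 129⟩, ⟨.negSucc 254, .ofNat 0, .ofNat 0, .negSucc 92, .negSucc 287, .negSucc 169⟩, .ofNat 755, .negSucc 682, .ofNat 0, .negSucc 682, .ofNat 1859, .ofNat 0, .ofNat 406, .ofNat 418, .negSucc 220, .ofNat 0, .ofNat 300, .negSucc 80, .ofNat 0, .ofNat 0, .ofNat 915, .ofNat 19647,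 .ofNat 0, .ofNat 0, .ofNat 1365194207655989717191203225600, .ofNat 0, .ofNat 0, .ofNat 0, .ofNat 82735125020731144422353063116800, .ofNat 0, .ofNat 0, .ofNat 0, .ofNat 0, .ofNat 0, .ofNat 0, .ofNat 0, .ofNat 36316955617657797818637405388800, .ofNat 0⟩)
    (by decide +kernel)
theorem L00262 : Good (Phi V4.P V4.D (-1) 1) ⟨1, 0, 3, 5, 2, 3, 2, 0, 3, 1⟩ :=
  out_sound (S := T4.ds_mp) T4.ok_mp (w := 40) (j := 3) (by decide +kernel)
theorem L00263 : Good (Phi V4.P V4.D (-1) 1) ⟨2, 0, 3, 4, 2, 3, 2, 1, 3, 1⟩ :=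
  leaf_sound (S := T4.ds_mp) T4.ok_mp (w := 168) (c := ⟨⟨.negSucc 516, .negSucc 242, .negSucc 45, .negSucc 192, .negSucc 41, .negSucc 134⟩, ⟨.negSucc 289, .negSucc 110, .negSucc 111, .negSucc 107, .negSucc 27, .negSucc 78⟩, ⟨.ofNat 475, .ofNat 129, .ofNat 27, .negSucc 15, .negSucc 144, .ofNat 53⟩, ⟨.negSucc 1562, .negSucc 292, .negSucc 54, .negSucc 532, .negSucc 1, .negSucc 322⟩, ⟨.negSucc 235, .negSucc 228, .ofNat 11, .negSucc 40, .negSucc 218, .negSucc 132⟩, .ofNat 1799, .negSucc 2223, .ofNat 0, .negSucc 2223, .ofNat 4400, .ofNat 0, .ofNat 263, .ofNat 492, .negSucc 238, .ofNat 0, .ofNat 330, .negSucc 114, .ofNat 0, .ofNat 0, .ofNat 930, .ofNat 8666, .ofNat 0, .ofNat 0, .ofNat 46759404746951548051075891200, .ofNat 0, .ofNat 0, .ofNat 0, .ofNat 11148550303545302800105104998400, .ofNat 0, .ofNat 0, .ofNat 0, .ofNat 5470542089320808760725628518400, .ofNat 0, .ofNat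 0, .ofNat 0, .ofNat 0, .ofNat 0⟩)
    (by decide +kernel)
theorem L00264 : Good (Phi V4.P V4.D (-1) 1) ⟨2, 0, 3, 5, 2, 3, 2, 1, 3, 1⟩ :=
  out_sound (S := T4.ds_mp) T4.ok_mp (w := 40) (j := 3) (by decide +kernel)
theorem L00265 : Good (Phi V4.P V4.D (-1) 1) ⟨3, 2, 3, 4, 2, 3, 2, 1, 4, 2⟩ :=
  leaf_sound (S := T4.ds_mp) T4.ok_mp (w := 176) (c := ⟨⟨.negSucc 664, .negSucc 181, .negSucc 50, .negSucc 232, .negSucc 91, .negSucc 134⟩, ⟨.negSucc 357, .negSucc 39, .negSucc 116, .negSucc 120, .negSucc 51, .negSucc 71⟩, ⟨.ofNat 553, .ofNat 102, .ofNat 45, .negSucc 59, .negSucc 105, .ofNat 96⟩, ⟨.negSucc 1660, .negSucc 247, .negSucc 76, .negSucc 575, .negSucc 107, .negSucc 315⟩, ⟨.negSucc 423, .negSucc 44, .ofNat 31, .negSucc 72, .negSucc 259, .negSucc 84⟩, .ofNat 3371, .negSucc 5335, .ofNat 0, .negSucc 5335, .ofNat 10496, .ofNat 0, .ofNat 196, .ofNat 568, .negSucc 288, .ofNat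 0, .ofNat 326, .negSucc 143, .ofNat 0, .ofNat 0, .ofNat 948, .ofNat 9177, .ofNat 0, .ofNat 0, .ofNat 348870077948045147060463206400, .ofNat 0, .ofNat 0, .ofNat 0, .ofNat 0, .ofNat 0, .ofNat 0, .ofNat 0, .ofNat 0, .ofNat 0, .ofNat 0, .ofNat 0, .ofNat 0, .ofNat 0⟩)
    (by decide +kernel)
theorem L00266 : Good (Phi V4.P V4.D (-1) 1) ⟨3, 2, 3, 4, 2, 3, 3, 2, 4, 3⟩ :=
  leaf_sound (S := T4.ds_mp) T4.ok_mp (w := 184) (c := ⟨⟨.negSucc 836, .negSucc 175, .negSucc 34, .negSucc 222, .negSucc 13, .negSucc 48⟩, ⟨.negSucc 445, .negSucc 33, .negSucc 118, .negSucc 118, .negSucc 9, .negSucc 27⟩, ⟨.ofNat 675, .ofNat 114, .ofNat 44, .negSucc 97, .negSucc 84, .ofNat 53⟩, ⟨.negSucc 2097, .negSucc 206, .negSucc 36, .negSucc 519, .ofNat 28, .negSucc 68⟩, ⟨.negSucc 474, .negSucc 63, .ofNat 32, .negSucc 133, .negSucc 125, .negSucc 118⟩, .ofNat 439, .negSucc 209, .ofNat 0, .negSucc 209,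 .ofNat 717, .ofNat 0, .ofNat 562, .ofNat 327, .negSucc 382, .ofNat 0, .ofNat 391, .negSucc 71, .ofNat 0, .ofNat 0, .ofNat 999, .ofNat 17731, .ofNat 0, .ofNat 0, .ofNat 6844081421292753717366777446400, .ofNat 0, .ofNat 0, .ofNat 0, .ofNat 0, .ofNat 0, .ofNat 0, .ofNat 0, .ofNat 0, .ofNat 0, .ofNat 0, .ofNat 0, .ofNat 387282558130664815955685880627200, .ofNat 0⟩)
    (by decide +kernel)
theorem L00267 : Good (Phi V4.P V4.D (-1) 1) ⟨3, 2, 3, 4, 2, 3, 3, 3, 4, 3⟩ :=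
  leaf_sound (S := T4.ds_mp) T4.ok_mp (w := 184) (c := ⟨⟨.negSucc 861, .negSucc 181, .negSucc 42, .negSucc 220, .negSucc 6, .negSucc 10⟩, ⟨.negSucc 462, .negSucc 36, .negSucc 120, .negSucc 117, .negSucc 3, .negSucc 8⟩, ⟨.ofNat 561, .ofNat 151, .ofNat 52, .negSucc 58, .negSucc 65, .ofNat 28⟩, ⟨.negSucc 2107, .negSucc 224, .negSucc 50, .negSucc 496, .ofNat 50, .ofNat 22⟩, ⟨.negSucc 579, .negSucc 81, .ofNat 41, .negSucc 171, .negSucc 124, .negSucc 101⟩, .ofNat 1884, .negSucc 2578, .ofNat 0, .negSucc 2578, .ofNat 5293, .ofNat 0, .ofNat 240, .ofNat 508, .negSucc 258, .ofNat 0, .ofNat 312, .negSucc 121, .ofNat 0, .ofNat 0, .ofNat 941, .ofNat 15155, .ofNat 0, .ofNat 0, .ofNat 4515640324629093289325651558400, .ofNat 0, .ofNat 0, .ofNat 0, .ofNat 0, .ofNat 0, .ofNat 0, .ofNat 0, .ofNat 0, .ofNat 0, .ofNat 0, .ofNat 0, .ofNat 427166652672793341655271866368000, .ofNat 0⟩)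
    (by decide +kernel)
theorem L00268 : Good (Phi V4.P V4.D (-1) 1) ⟨3, 3, 3, 4, 2, 3, 2, 1, 4, 2⟩ :=
  leaf_sound (S := T4.ds_mp) T4.ok_mp (w := 176) (c := ⟨⟨.negSucc 814, .negSucc 279, .negSucc 59, .negSucc 247, .negSucc 114, .negSucc 153⟩, ⟨.negSucc 391, .negSucc 37, .negSucc 127, .negSucc 114, .negSucc 60, .negSucc 72⟩, ⟨.ofNat 653, .ofNat 162, .ofNat 29, .negSucc 141, .negSucc 56, .ofNat 134⟩, ⟨.negSucc 1900, .negSucc 395, .negSucc 56, .negSucc 573, .negSucc 137, .negSucc 306⟩, ⟨.negSucc 398, .negSucc 41, .negSucc 32, .negSucc 64, .negSucc 312, .negSucc 145⟩, .ofNat 1394, .negSucc 1906, .ofNat 0, .negSucc 1906, .ofNat 4475, .ofNat 0, .ofNat 319, .ofNat 569, .negSucc 347, .ofNat 0, .ofNat 326, .negSucc 142, .ofNat 0, .ofNat 0, .ofNat 966, .ofNat 13687, .ofNat 0, .ofNat 0, .ofNat 894196703992665846999888691200, .ofNat 0, .ofNat 0, .ofNat 0, .ofNat 123150670366573077681415598899200,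 .ofNat 0, .ofNat 0, .ofNat 0, .ofNat 51914791395669527802524624486400, .ofNat 0, .ofNat 0, .ofNat 0, .ofNat 23166241581083713702685835264000, .ofNat 0⟩)
    (by decide +kernel)
theorem L00269 : Good (Phi V4.P V4.D (-1) 1) ⟨3, 3, 3, 4, 2, 3, 3, 2, 4, 3⟩ :=
  leaf_sound (S := T4.ds_mp) T4.ok_mp (w := 184) (c := ⟨⟨.negSucc 990, .negSucc 255, .negSucc 57, .negSucc 269, .negSucc 15, .negSucc 40⟩, ⟨.negSucc 474, .negSucc 25, .negSucc 136, .negSucc 126, .negSucc 9, .negSucc 21⟩, ⟨.ofNat 785, .ofNat 197, .ofNat 48, .negSucc 120, .negSucc 63, .ofNat 71⟩, ⟨.negSucc 2271, .negSucc 353, .negSucc 106, .negSucc 579, .ofNat 24, .negSucc 40⟩, ⟨.negSucc 519, .negSucc 2, .ofNat 76, .negSucc 176, .negSucc 143, .negSucc 135⟩, .ofNat 746, .negSucc 672, .ofNat 0, .negSucc 672, .ofNat 1847, .ofNat 0, .ofNat 409, .ofNat 430, .negSucc 301, .ofNat 0, .ofNat 311, .negSucc 95, .ofNat 0, .ofNat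 0, .ofNat 960, .ofNat 12831, .ofNat 0, .ofNat 0, .ofNat 6168557780578253034874522828800, .ofNat 0, .ofNat 0, .ofNat 0, .ofNat 0, .ofNat 0, .ofNat 0, .ofNat 0, .ofNat 0, .ofNat 0, .ofNat 0, .ofNat 0, .ofNat 544185328475510079373411614720000, .ofNat 0⟩)
    (by decide +kernel)
theorem L00270 : Good (Phi V4.P V4.D (-1) 1) ⟨3, 3, 3, 4, 2, 3, 3, 3, 4, 3⟩ :=
  leaf_sound (S := T4.ds_mp) T4.ok_mp (w := 184) (c := ⟨⟨.negSucc 1032, .negSucc 268, .negSucc 70, .negSucc 252, .ofNat 1, .ofNat 1⟩, ⟨.negSucc 494, .negSucc 31, .negSucc 142, .negSucc 120, .negSucc 2, .negSucc 2⟩, ⟨.ofNat 723, .ofNat 217, .ofNat 50, .negSucc 107, .negSucc 74, .ofNat 35⟩, ⟨.negSucc 2338, .negSucc 369, .negSucc 113, .negSucc 505, .ofNat 69, .ofNat 65⟩, ⟨.negSucc 601, .negSucc 41, .ofNat 66, .negSucc 246, .negSucc 147, .negSucc 143⟩, .ofNat 748, .negSucc 673, .ofNat 0, .negSucc 673, .ofNat 1849, .ofNat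 0, .ofNat 421, .ofNat 449, .negSucc 329, .ofNat 0, .ofNat 326, .negSucc 105, .ofNat 0, .ofNat 0, .ofNat 970, .ofNat 14233, .ofNat 0, .ofNat 0, .ofNat 6562966707100662844039888896000, .ofNat 0, .ofNat 0, .ofNat 0, .ofNat 0, .ofNat 0, .ofNat 0, .ofNat 0, .ofNat 0, .ofNat 0, .ofNat 0, .ofNat 0, .ofNat 527920240887209307639898334822400, .ofNat 0⟩)
    (by decide +kernel)
theorem L00271 : Good (Phi V4.P V4.D (-1) 1) ⟨2, 1, 3, 5, 2, 3, 2, 1, 3, 1⟩ :=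
  out_sound (S := T4.ds_mp) T4.ok_mp (w := 40) (j := 3) (by decide +kernel)
theorem L00272 : Good (Phi V4.P V4.D (-1) 1) ⟨1, 0, 2, 3, 1, 1, 1, 0, 3, 1⟩ :=
  out_sound (S := T4.ds_mp) T4.ok_mp (w := 32) (j := 3) (by decide +kernel)
theorem L00273 : Good (Phi V4.P V4.D (-1) 1) ⟨2, 0, 1, 1, 2, 2, 2, 2, 3, 1⟩ :=
  leaf_sound (S := T4.ds_mp) T4.ok_mp (w := 168) (c := ⟨⟨.negSucc 466, .negSucc 174, .negSucc 109, .negSucc 196, .ofNat 38, .negSucc 27⟩, ⟨.negSucc 267, .negSucc 78, .negSucc 292, .negSucc 112, .ofNat 19, .negSucc 14⟩, ⟨.ofNat 153, .ofNat 161, .ofNat 104, .ofNat 145, .negSucc 176, .ofNat 19⟩, ⟨.negSucc 1270, .negSucc 212, .negSucc 70, .negSucc 466, .ofNat 137, .negSucc 78⟩, ⟨.negSucc 428, .negSucc 138, .ofNat 60, .negSucc 177, .negSucc 53, .ofNat 1⟩, .ofNat 895, .negSucc 757, .ofNat 0, .negSucc 757, .ofNat 1777, .ofNat 0, .ofNat 360, .ofNat 408, .negSucc 336,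 .ofNat 0, .ofNat 346, .negSucc 134, .ofNat 0, .ofNat 0, .ofNat 965, .ofNat 10369, .ofNat 0, .ofNat 0, .ofNat 19909793758957694561864908800, .ofNat 0, .ofNat 0, .ofNat 0, .ofNat 6917645157406200275028620083200, .ofNat 0, .ofNat 0, .ofNat 0, .ofNat 7559900069614211607073652736000, .ofNat 0, .ofNat 0, .ofNat 0, .ofNat 10439739326662916424608828620800, .ofNat 0⟩)
    (by decide +kernel)
theorem L00274 : Good (Phi V4.P V4.D (-1) 1) ⟨2, 0, 1, 1, 2, 2, 3, 6, 3, 1⟩ :=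
  leaf_sound (S := T4.ds_mp) T4.ok_mp (w := 168) (c := ⟨⟨.negSucc 442, .negSucc 180, .negSucc 128, .negSucc 222, .ofNat 58, .ofNat 39⟩, ⟨.negSucc 255, .negSucc 86, .negSucc 270, .negSucc 124, .ofNat 33, .ofNat 24⟩, ⟨.negSucc 45, .ofNat 195, .ofNat 95, .ofNat 165, .negSucc 81, .ofNat 4⟩, ⟨.negSucc 1169, .negSucc 218, .negSucc 87, .negSucc 534, .ofNat 137, .ofNat 77⟩, ⟨.negSucc 470, .negSucc 181, .ofNat 28, .negSucc 192, .ofNat 55, .ofNat 59⟩, .ofNat 894, .negSucc 754, .ofNat 0, .negSucc 754, .ofNat 1771, .ofNat 0, .ofNat 380, .ofNat 437, .negSucc 397, .ofNat 0, .ofNat 369, .negSucc 172, .ofNat 0, .ofNat 0, .ofNat 965, .ofNat 12166, .ofNat 0, .ofNat 0, .ofNat 227331043887453136701987225600, .ofNat 0, .ofNat 0, .ofNat 0, .ofNat 36509102277985785258485533900800, .ofNat 0, .ofNat 0, .ofNat 0, .ofNat 103781296288443020990438021529600, .ofNat 0, .ofNat 0, .ofNat 0, .ofNat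 92696529109682186552028325478400, .ofNat 0⟩)
    (by decide +kernel)
theorem L00275 : Good (Phi V4.P V4.D (-1) 1) ⟨2, 0, 1, 1, 2, 2, 3, 7, 3, 1⟩ :=
  leaf_sound (S := T4.ds_mp) T4.ok_mp (w := 168) (c := ⟨⟨.negSucc 393, .negSucc 174, .negSucc 131, .negSucc 245, .ofNat 87, .ofNat 75⟩, ⟨.negSucc 227, .negSucc 82, .negSucc 259, .negSucc 138, .ofNat 50, .ofNat 43⟩, ⟨.negSucc 138, .ofNat 198, .ofNat 85, .ofNat 192, .negSucc 89, .negSucc 4⟩, ⟨.negSucc 1038, .negSucc 221, .negSucc 77, .negSucc 607, .ofNat 175, .ofNat 168⟩, ⟨.negSucc 422, .negSucc 181, .negSucc 74, .negSucc 178, .ofNat 128, .ofNat 92⟩, .ofNat 895, .negSucc 758, .ofNat 0, .negSucc 758, .ofNat 1780, .ofNat 0, .ofNat 396, .ofNat 461, .negSucc 462, .ofNat 0, .ofNat 388, .negSucc 211, .ofNat 0, .ofNat 0, .ofNat 983, .ofNat 6840, .ofNat 0, .ofNat 608926335673443037143367680000, .ofNat 131145703160396519566422835200,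 .ofNat 0, .ofNat 0, .ofNat 0, .ofNat 0, .ofNat 0, .ofNat 0, .ofNat 26103825294352932227000146329600, .ofNat 67457755709149237798609354752000, .ofNat 0, .ofNat 0, .ofNat 43191774275601351120307775078400, .ofNat 70808830420444076286378875289600, .ofNat 0⟩)
    (by decide +kernel)
theorem L00276 : Good (Phi V4.P V4.D (-1) 1) ⟨3, 2, 3, 4, 2, 2, 2, 2, 3, 1⟩ :=
  leaf_sound (S := T4.ds_mp) T4.ok_mp (w := 176) (c := ⟨⟨.negSucc 601, .negSucc 136, .negSucc 39, .negSucc 258, .ofNat 19, .negSucc 17⟩, ⟨.negSucc 324, .negSucc 29, .negSucc 89, .negSucc 137, .ofNat 9, .negSucc 9⟩, ⟨.ofNat 280, .ofNat 134, .ofNat 36, .ofNat 179, .negSucc 154, .ofNat 35⟩, ⟨.negSucc 1430, .negSucc 179, .negSucc 29, .negSucc 564, .ofNat 105, .negSucc 34⟩, ⟨.negSucc 503, .negSucc 48, .ofNat 7, .negSucc 227, .negSucc 100, .negSucc 25⟩, .ofNat 874, .negSucc 806, .ofNat 0, .negSucc 806, .ofNat 1930, .ofNat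 0, .ofNat 361, .ofNat 442, .negSucc 380, .ofNat 0, .ofNat 341, .negSucc 151, .ofNat 0, .ofNat 0, .ofNat 991, .ofNat 10842, .ofNat 0, .ofNat 0, .ofNat 0, .ofNat 0, .ofNat 0, .ofNat 0, .ofNat 0, .ofNat 0, .ofNat 0, .ofNat 0, .ofNat 790179018908680313287527628800, .ofNat 0, .ofNat 0, .ofNat 0, .ofNat 0, .ofNat 0⟩)
    (by decide +kernel)
theorem L00277 : Good (Phi V4.P V4.D (-1) 1) ⟨3, 2, 3, 4, 2, 2, 2, 3, 3, 1⟩ :=
  leaf_sound (S := T4.ds_mp) T4.ok_mp (w := 176) (c := ⟨⟨.negSucc 597, .negSucc 150, .negSucc 49, .negSucc 302, .ofNat 121, .ofNat 87⟩, ⟨.negSucc 324, .negSucc 37, .negSucc 92, .negSucc 163, .ofNat 66, .ofNat 47⟩, ⟨.ofNat 132, .ofNat 151, .ofNat 39, .ofNat 205, .negSucc 161, .negSucc 21⟩, ⟨.negSucc 1393, .negSucc 192, .negSucc 55, .negSucc 642, .ofNat 282, .ofNat 229⟩, ⟨.negSucc 551, .negSucc 115, .ofNat 12, .negSucc 306, .ofNat 88, .ofNat 13⟩, .ofNat 878,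 .negSucc 812, .ofNat 0, .negSucc 812, .ofNat 1937, .ofNat 0, .ofNat 383, .ofNat 482, .negSucc 459, .ofNat 0, .ofNat 369, .negSucc 199, .ofNat 0, .ofNat 0, .ofNat 990, .ofNat 3150, .ofNat 0, .ofNat 0, .ofNat 0, .ofNat 0, .ofNat 0, .ofNat 0, .ofNat 0, .ofNat 0, .ofNat 0, .ofNat 0, .ofNat 0, .ofNat 0, .ofNat 0, .ofNat 0, .ofNat 0, .ofNat 0⟩)
    (by decide +kernel)
theorem L00278 : Good (Phi V4.P V4.D (-1) 1) ⟨3, 3, 4, 8, 2, 2, 2, 2, 3, 1⟩ :=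
  leaf_sound (S := T4.ds_mp) T4.ok_mp (w := 176) (c := ⟨⟨.negSucc 731, .negSucc 163, .negSucc 33, .negSucc 289, .ofNat 23, .negSucc 10⟩, ⟨.negSucc 352, .negSucc 11, .negSucc 55, .negSucc 137, .ofNat 8, .negSucc 5⟩, ⟨.ofNat 404, .ofNat 168, .ofNat 31, .ofNat 189, .negSucc 152, .ofNat 50⟩, ⟨.negSucc 1628, .negSucc 200, .negSucc 51, .negSucc 585, .ofNat 115, .ofNat 3⟩, ⟨.negSucc 495, .negSucc 26, .ofNat 16, .negSucc 275, .negSucc 131, .negSucc 65⟩, .ofNat 753, .negSucc 679, .ofNat 0, .negSucc 679, .ofNat 1856, .ofNat 0, .ofNat 401, .ofNat 429, .negSucc 427, .ofNat 0, .ofNat 325, .negSucc 146, .ofNat 0, .ofNat 0, .ofNat 1012, .ofNat 9646, .ofNat 0, .ofNat 0, .ofNat 0, .ofNat 0, .ofNat 0, .ofNat 0, .ofNat 5087398610746696448769785856000, .ofNat 0, .ofNat 0, .ofNat 0, .ofNat 2242072124150734405481634201600, .ofNat 0, .ofNat 0, .ofNat 0, .ofNat 0, .ofNat 0⟩)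
    (by decide +kernel)
theorem L00279 : Good (Phi V4.P V4.D (-1) 1) ⟨3, 3, 4, 8, 2, 2, 2, 3, 3, 1⟩ :=
  leaf_sound (S := T4.ds_mp) T4.ok_mp (w := 176) (c := ⟨⟨.negSucc 733, .negSucc 171, .negSucc 41, .negSucc 355, .ofNat 129, .ofNat 116⟩, ⟨.negSucc 352, .negSucc 24, .negSucc 55, .negSucc 170, .ofNat 59, .ofNat 52⟩, ⟨.ofNat 269, .ofNat 172, .ofNat 34, .ofNat 241, .negSucc 164, .negSucc 36⟩, ⟨.negSucc 1579, .negSucc 228, .negSucc 62, .negSucc 708, .ofNat 297, .ofNat 289⟩, ⟨.negSucc 597, .negSucc 64, .negSucc 1, .negSucc 360, .ofNat 41, .negSucc 10⟩, .ofNat 2196, .negSucc 3528, .ofNat 0, .negSucc 3528, .ofNat 7868, .ofNat 0, .ofNat 264, .ofNat 559, .negSucc 481, .ofNat 0, .ofNat 313, .negSucc 214, .ofNat 0, .ofNat 0, .ofNat 1000, .ofNat 2155, .ofNat 0, .ofNat 0, .ofNat 0, .ofNat 0, .ofNat 0, .ofNat 0, .ofNat 7263183875983534688485087641600, .ofNat 0, .ofNat 0, .ofNat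 0, .ofNat 0, .ofNat 0, .ofNat 0, .ofNat 0, .ofNat 0, .ofNat 0⟩)
    (by decide +kernel)
theorem L00280 : Good (Phi V4.P V4.D (-1) 1) ⟨3, 3, 4, 9, 2, 2, 1, 1, 3, 1⟩ :=
  out_sound (S := T4.ds_mp) T4.ok_mp (w := 48) (j := 3) (by decide +kernel)
theorem L00281 : Good (Phi V4.P V4.D (-1) 1) ⟨2, 1, 3, 5, 2, 2, 1, 1, 3, 1⟩ :=
  out_sound (S := T4.ds_mp) T4.ok_mp (w := 40) (j := 3) (by decide +kernel)
theorem L00282 : Good (Phi V4.P V4.D (-1) 1) ⟨2, 1, 2, 3, 2, 2, 1, 1, 3, 1⟩ :=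
  out_sound (S := T4.ds_mp) T4.ok_mp (w := 40) (j := 3) (by decide +kernel)
theorem L00283 : Good (Phi V4.P V4.D (-1) 1) ⟨2, 0, 3, 4, 2, 3, 2, 2, 3, 1⟩ :=
  leaf_sound (S := T4.ds_mp) T4.ok_mp (w := 168) (c := ⟨⟨.negSucc 604, .negSucc 218, .negSucc 41, .negSucc 186, .ofNat 3, .negSucc 63⟩, ⟨.negSucc 341, .negSucc 103, .negSucc 102, .negSucc 103, .ofNat 0, .negSucc 36⟩, ⟨.ofNat 292, .ofNat 119, .ofNat 50, .ofNat 46, .negSucc 124, .ofNat 41⟩, ⟨.negSucc 1727, .negSucc 169, .negSucc 51, .negSucc 514, .ofNat 69, .negSucc 131⟩, ⟨.negSucc 399, .negSucc 337, .ofNat 34, .negSucc 46, .negSucc 101, .negSucc 96⟩, .ofNat 895, .negSucc 755, .ofNat 0, .negSucc 755, .ofNat 1772, .ofNat 0, .ofNat 399, .ofNat 467, .negSucc 315, .ofNat 0, .ofNat 381, .negSucc 119, .ofNat 0, .ofNat 0, .ofNat 969, .ofNat 7521, .ofNat 0, .ofNat 0, .ofNat 0, .ofNat 0, .ofNat 0, .ofNat 0, .ofNat 0, .ofNat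 0, .ofNat 0, .ofNat 234949584920018551767131435827200, .ofNat 0, .ofNat 0, .ofNat 0, .ofNat 0, .ofNat 0, .ofNat 0⟩)
    (by decide +kernel)
theorem L00284 : Good (Phi V4.P V4.D (-1) 1) ⟨2, 0, 3, 5, 2, 3, 2, 2, 3, 1⟩ :=
  out_sound (S := T4.ds_mp) T4.ok_mp (w := 40) (j := 3) (by decide +kernel)
theorem L00285 : Good (Phi V4.P V4.D (-1) 1) ⟨2, 0, 2, 2, 2, 3, 2, 3, 3, 1⟩ :=
  leaf_sound (S := T4.ds_mp) T4.ok_mp (w := 168) (c := ⟨⟨.negSucc 606, .negSucc 262, .negSucc 77, .negSucc 183, .ofNat 77, .ofNat 19⟩, ⟨.negSucc 346, .negSucc 126, .negSucc 199, .negSucc 100, .ofNat 45, .ofNat 10⟩, ⟨.ofNat 142, .ofNat 156, .ofNat 41, .ofNat 89, .negSucc 123, .ofNat 12⟩, ⟨.negSucc 1689, .negSucc 233, .negSucc 68, .negSucc 542, .ofNat 143, .ofNat 53⟩, ⟨.negSucc 465, .negSucc 457, .ofNat 42, .ofNat 19, .ofNat 137, .negSucc 8⟩, .ofNat 1797, .negSucc 2215, .ofNat 0, .negSucc 2215, .ofNat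 4380, .ofNat 0, .ofNat 308, .ofNat 608, .negSucc 368, .ofNat 0, .ofNat 408, .negSucc 179, .ofNat 0, .ofNat 0, .ofNat 991, .ofNat 4556, .ofNat 0, .ofNat 0, .ofNat 18921135946357851684234854400, .ofNat 0, .ofNat 0, .ofNat 150833211922415624431155019776000, .ofNat 0, .ofNat 0, .ofNat 0, .ofNat 303301598119655343581336017305600, .ofNat 6220022451230560200039176601600, .ofNat 0, .ofNat 0, .ofNat 106925345565960689295148921651200, .ofNat 0, .ofNat 0⟩)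
    (by decide +kernel)
theorem L00286 : Good (Phi V4.P V4.D (-1) 1) ⟨3, 2, 3, 4, 2, 3, 2, 2, 4, 2⟩ :=
  leaf_sound (S := T4.ds_mp) T4.ok_mp (w := 176) (c := ⟨⟨.negSucc 788, .negSucc 208, .negSucc 72, .negSucc 211, .negSucc 30, .negSucc 37⟩, ⟨.negSucc 426, .negSucc 53, .negSucc 129, .negSucc 111, .negSucc 17, .negSucc 18⟩, ⟨.ofNat 432, .ofNat 136, .ofNat 43, .negSucc 34, .negSucc 97, .ofNat 39⟩, ⟨.negSucc 1901, .negSucc 283, .negSucc 100, .negSucc 473, .ofNat 18, .negSucc 62⟩, ⟨.negSucc 613, .negSucc 111, .ofNat 17, .negSucc 161, .negSucc 191, .negSucc 70⟩, .ofNat 872, .negSucc 807, .ofNat 0, .negSucc 807, .ofNat 1936, .ofNat 0, .ofNat 418, .ofNat 548, .negSucc 412, .ofNat 0, .ofNat 399, .negSucc 157, .ofNat 0, .ofNat 0, .ofNat 1020, .ofNat 10555, .ofNat 0, .ofNat 0, .ofNat 212831002700642430233660620800, .ofNat 0, .ofNat 0, .ofNat 0, .ofNat 0, .ofNat 0, .ofNat 0,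 .ofNat 0, .ofNat 0, .ofNat 0, .ofNat 0, .ofNat 0, .ofNat 26804139368988369897892557619200, .ofNat 0⟩)
    (by decide +kernel)
theorem L00287 : Good (Phi V4.P V4.D (-1) 1) ⟨3, 2, 3, 4, 2, 3, 2, 2, 4, 3⟩ :=
  leaf_sound (S := T4.ds_mp) T4.ok_mp (w := 176) (c := ⟨⟨.negSucc 875, .negSucc 189, .negSucc 49, .negSucc 218, .ofNat 33, .ofNat 15⟩, ⟨.negSucc 472, .negSucc 40, .negSucc 117, .negSucc 117, .ofNat 16, .ofNat 7⟩, ⟨.ofNat 499, .ofNat 138, .ofNat 26, .negSucc 33, .negSucc 135, .negSucc 1⟩, ⟨.negSucc 2113, .negSucc 211, .negSucc 40, .negSucc 459, .ofNat 174, .ofNat 88⟩, ⟨.negSucc 650, .negSucc 148, .ofNat 21, .negSucc 224, .negSucc 159, .negSucc 91⟩, .ofNat 1886, .negSucc 2573, .ofNat 0, .negSucc 2573, .ofNat 5269, .ofNat 0, .ofNat 252, .ofNat 541, .negSucc 299, .ofNat 0, .ofNat 333, .negSucc 141, .ofNat 0, .ofNat 0, .ofNat 953, .ofNat 12651, .ofNat 0, .ofNat 0, .ofNat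 278092065602984169350312755200, .ofNat 0, .ofNat 0, .ofNat 0, .ofNat 0, .ofNat 0, .ofNat 0, .ofNat 9810553647540113990654092325683200, .ofNat 10789187843379818030436030873600, .ofNat 0, .ofNat 0, .ofNat 0, .ofNat 0, .ofNat 0⟩)
    (by decide +kernel)
theorem L00288 : Good (Phi V4.P V4.D (-1) 1) ⟨3, 2, 3, 4, 2, 3, 2, 3, 3, 1⟩ :=
  leaf_sound (S := T4.ds_mp) T4.ok_mp (w := 168) (c := ⟨⟨.negSucc 854, .negSucc 199, .negSucc 52, .negSucc 226, .ofNat 54, .ofNat 51⟩, ⟨.negSucc 463, .negSucc 48, .negSucc 118, .negSucc 119, .ofNat 31, .ofNat 28⟩, ⟨.ofNat 342, .ofNat 137, .ofNat 32, .ofNat 11, .negSucc 125, .negSucc 8⟩, ⟨.negSucc 2008, .negSucc 227, .negSucc 53, .negSucc 477, .ofNat 160, .ofNat 195⟩, ⟨.negSucc 732, .negSucc 190, .ofNat 29, .negSucc 231, .negSucc 24, .negSucc 112⟩, .ofNat 868, .negSucc 799, .ofNat 0, .negSucc 799, .ofNat 1925, .ofNat 0, .ofNat 219, .ofNat 291,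 .negSucc 233, .ofNat 0, .ofNat 213, .negSucc 92, .ofNat 0, .ofNat 0, .ofNat 516, .ofNat 1881, .ofNat 0, .ofNat 0, .ofNat 0, .ofNat 0, .ofNat 0, .ofNat 5160324030984412485170253476659200, .ofNat 0, .ofNat 0, .ofNat 0, .ofNat 5515932715101595799246560296960000, .ofNat 0, .ofNat 0, .ofNat 0, .ofNat 0, .ofNat 0, .ofNat 0⟩)
    (by decide +kernel)
theorem L00289 : Good (Phi V4.P V4.D (-1) 1) ⟨3, 3, 3, 4, 2, 3, 2, 2, 4, 2⟩ :=
  leaf_sound (S := T4.ds_mp) T4.ok_mp (w := 176) (c := ⟨⟨.negSucc 981, .negSucc 260, .negSucc 56, .negSucc 265, .negSucc 28, .negSucc 41⟩, ⟨.negSucc 473, .negSucc 30, .negSucc 135, .negSucc 124, .negSucc 18, .negSucc 19⟩, ⟨.ofNat 588, .ofNat 172, .ofNat 34, .negSucc 57, .negSucc 92, .ofNat 50⟩, ⟨.negSucc 2179, .negSucc 369, .negSucc 74, .negSucc 537, .ofNat 37, .negSucc 66⟩, ⟨.negSucc 675, .negSucc 25, .ofNat 53, .negSucc 238, .negSucc 241, .negSucc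 75⟩, .ofNat 748, .negSucc 674, .ofNat 0, .negSucc 674, .ofNat 1850, .ofNat 0, .ofNat 236, .ofNat 272, .negSucc 242, .ofNat 0, .ofNat 191, .negSucc 79, .ofNat 0, .ofNat 0, .ofNat 525, .ofNat 6120, .ofNat 0, .ofNat 0, .ofNat 337559007114153273831771340800, .ofNat 0, .ofNat 0, .ofNat 0, .ofNat 12162906989523172350381942374400, .ofNat 0, .ofNat 0, .ofNat 0, .ofNat 8619202478618121248061574348800, .ofNat 0, .ofNat 0, .ofNat 0, .ofNat 10262488760819132086100164608000, .ofNat 0⟩)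
    (by decide +kernel)
theorem L00290 : Good (Phi V4.P V4.D (-1) 1) ⟨3, 3, 3, 4, 2, 3, 2, 2, 4, 3⟩ :=
  leaf_sound (S := T4.ds_mp) T4.ok_mp (w := 176) (c := ⟨⟨.negSucc 1058, .negSucc 245, .negSucc 38, .negSucc 252, .ofNat 30, .ofNat 36⟩, ⟨.negSucc 507, .negSucc 31, .negSucc 125, .negSucc 122, .ofNat 9, .ofNat 14⟩, ⟨.ofNat 653, .ofNat 194, .negSucc 14, .negSucc 67, .negSucc 134, .ofNat 2⟩, ⟨.negSucc 2353, .negSucc 315, .negSucc 31, .negSucc 469, .ofNat 181, .ofNat 147⟩, ⟨.negSucc 695, .negSucc 98, .ofNat 84, .negSucc 329, .negSucc 238, .negSucc 131⟩, .ofNat 741, .negSucc 664, .ofNat 0, .negSucc 664, .ofNat 1840, .ofNat 0, .ofNat 445, .ofNat 485, .negSucc 401, .ofNat 0, .ofNat 350, .negSucc 129, .ofNat 0, .ofNat 0, .ofNat 998, .ofNat 9229, .ofNat 0, .ofNat 0, .ofNat 490978016597318951800877875200, .ofNat 0, .ofNat 0, .ofNat 0, .ofNat 0, .ofNat 0, .ofNat 0, .ofNat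 0, .ofNat 34129078570727964322315842355200, .ofNat 0, .ofNat 0, .ofNat 0, .ofNat 63598538585263181188200136704000, .ofNat 0⟩)
    (by decide +kernel)
theorem L00291 : Good (Phi V4.P V4.D (-1) 1) ⟨3, 3, 3, 4, 2, 3, 2, 3, 3, 1⟩ :=
  leaf_sound (S := T4.ds_mp) T4.ok_mp (w := 176) (c := ⟨⟨.negSucc 1067, .negSucc 278, .negSucc 97, .negSucc 225, .ofNat 47, .ofNat 98⟩, ⟨.negSucc 513, .negSucc 47, .negSucc 147, .negSucc 109, .ofNat 17, .ofNat 40⟩, ⟨.ofNat 508, .ofNat 201, .ofNat 72, .negSucc 51, .negSucc 106, .negSucc 21⟩, ⟨.negSucc 2319, .negSucc 363, .negSucc 130, .negSucc 400, .ofNat 171, .ofNat 319⟩, ⟨.negSucc 812, .negSucc 177, .ofNat 7, .negSucc 335, .negSucc 133, .negSucc 182⟩, .ofNat 1374, .negSucc 1874, .ofNat 0, .negSucc 1874, .ofNat 4444, .ofNat 0, .ofNat 181, .ofNat 329, .negSucc 247, .ofNat 0, .ofNat 190, .negSucc 100, .ofNat 0, .ofNat 0, .ofNat 520, .ofNat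 2675, .ofNat 0, .ofNat 0, .ofNat 6693989929829917113345638400, .ofNat 0, .ofNat 0, .ofNat 2432981403903637206348829242163200, .ofNat 1153963792785491427625795584000, .ofNat 0, .ofNat 0, .ofNat 4477051267247713945890193617715200, .ofNat 585210273082784959096789401600, .ofNat 0, .ofNat 0, .ofNat 4102673840573446769829437295820800, .ofNat 676218790983623017590108979200, .ofNat 0⟩)
    (by decide +kernel)
theorem L00292 : Good (Phi V4.P V4.D (-1) 1) ⟨2, 1, 3, 5, 2, 3, 1, 1, 3, 1⟩ :=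
  out_sound (S := T4.ds_mp) T4.ok_mp (w := 40) (j := 3) (by decide +kernel)
theorem L00293 : Good (Phi V4.P V4.D (-1) 1) ⟨1, 0, 2, 3, 2, 3, 1, 1, 3, 1⟩ :=
  out_sound (S := T4.ds_mp) T4.ok_mp (w := 32) (j := 3) (by decide +kernel)
theorem L00294 : Good (Phi V4.P V4.D (-1) 1) ⟨2, 0, 1, 0, 2, 2, 1, 0, 3, 2⟩ :=
  leaf_sound (S := T4.ds_mp) T4.ok_mp (w := 160) (c := ⟨⟨.negSucc 554, .negSucc 89, .negSucc 96, .negSucc 159, .ofNat 86, .ofNat 2⟩, ⟨.negSucc 16, .negSucc 55, .negSucc 314, .negSucc 64, .ofNat 3, .negSucc 2⟩, ⟨.ofNat 581, .ofNat 116, .ofNat 125, .ofNat 80, .negSucc 456, .negSucc 81⟩, ⟨.negSucc 1823, .negSucc 26, .negSucc 46, .negSucc 412, .ofNat 367, .ofNat 48⟩, ⟨.negSucc 169, .negSucc 185, .ofNat 78, .negSucc 165, .negSucc 303, .negSucc 107⟩, .ofNat 416, .negSucc 104, .ofNat 0, .negSucc 104, .ofNat 652, .ofNat 0, .ofNat 464, .ofNat 123, .negSucc 264, .ofNat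 0, .ofNat 327, .ofNat 21, .ofNat 0, .ofNat 0, .ofNat 923, .ofNat 6016, .ofNat 0, .ofNat 0, .ofNat 0, .ofNat 0, .ofNat 0, .ofNat 0, .ofNat 0, .ofNat 0, .ofNat 0, .ofNat 0, .ofNat 0, .ofNat 0, .ofNat 0, .ofNat 0, .ofNat 0, .ofNat 0⟩)
    (by decide +kernel)
theorem L00295 : Good (Phi V4.P V4.D (-1) 1) ⟨2, 0, 1, 0, 2, 3, 1, 0, 3, 2⟩ :=
  leaf_sound (S := T4.ds_mp) T4.ok_mp (w := 160) (c := ⟨⟨.negSucc 721, .negSucc 105, .negSucc 105, .negSucc 206, .ofNat 110, .ofNat 22⟩, ⟨.negSucc 12, .negSucc 74, .negSucc 399, .negSucc 52, .negSucc 18, .negSucc 8⟩, ⟨.ofNat 606, .ofNat 117, .ofNat 121, .ofNat 55, .negSucc 383, .negSucc 50⟩, ⟨.negSucc 2315, .ofNat 22, .negSucc 13, .negSucc 562, .ofNat 396, .ofNat 87⟩, ⟨.negSucc 208, .negSucc 362, .ofNat 86, .negSucc 61, .negSucc 371, .negSucc 147⟩, .ofNat 410, .negSucc 90, .ofNat 0, .negSucc 90, .ofNat 654, .ofNat 0, .ofNat 541, .ofNat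 81, .negSucc 239, .ofNat 0, .ofNat 350, .ofNat 18, .ofNat 0, .ofNat 0, .ofNat 922, .ofNat 3818, .ofNat 0, .ofNat 0, .ofNat 0, .ofNat 0, .ofNat 0, .ofNat 0, .ofNat 0, .ofNat 0, .ofNat 0, .ofNat 0, .ofNat 0, .ofNat 0, .ofNat 0, .ofNat 13151798535676222682714603520000, .ofNat 0, .ofNat 0⟩)
    (by decide +kernel)
theorem L00296 : Good (Phi V4.P V4.D (-1) 1) ⟨2, 1, 1, 0, 2, 2, 2, 0, 3, 2⟩ :=
  leaf_sound (S := T4.ds_mp) T4.ok_mp (w := 168) (c := ⟨⟨.negSucc 597, .negSucc 268, .negSucc 130, .negSucc 199, .ofNat 30, .ofNat 10⟩, ⟨.negSucc 34, .ofNat 34, .negSucc 388, .negSucc 50, .negSucc 5, .negSucc 2⟩, ⟨.ofNat 607, .ofNat 327, .ofNat 209, .ofNat 108, .negSucc 261, .ofNat 8⟩, ⟨.negSucc 1776, .negSucc 251, .negSucc 122, .negSucc 407, .ofNat 134, .ofNat 68⟩, ⟨.negSucc 242, .negSucc 92, .ofNat 109, .negSucc 310, .negSucc 182, .negSucc 150⟩, .ofNat 380, .negSucc 102, .ofNat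 0, .negSucc 102, .ofNat 730, .ofNat 0, .ofNat 481, .ofNat 123, .negSucc 278, .ofNat 0, .ofNat 294, .ofNat 20, .ofNat 0, .ofNat 0, .ofNat 942, .ofNat 11869, .ofNat 0, .ofNat 0, .ofNat 0, .ofNat 0, .ofNat 0, .ofNat 0, .ofNat 0, .ofNat 0, .ofNat 0, .ofNat 0, .ofNat 0, .ofNat 0, .ofNat 0, .ofNat 0, .ofNat 0, .ofNat 0⟩)
    (by decide +kernel)
theorem L00297 : Good (Phi V4.P V4.D (-1) 1) ⟨2, 1, 1, 0, 2, 2, 2, 1, 3, 2⟩ :=
  leaf_sound (S := T4.ds_mp) T4.ok_mp (w := 168) (c := ⟨⟨.negSucc 578, .negSucc 252, .negSucc 169, .negSucc 197, .ofNat 66, .ofNat 61⟩, ⟨.negSucc 47, .ofNat 47, .negSucc 389, .negSucc 50, .ofNat 6, .ofNat 7⟩, ⟨.ofNat 394, .ofNat 287, .ofNat 191, .ofNat 116, .negSucc 218, .negSucc 31⟩, ⟨.negSucc 1664, .negSucc 244, .negSucc 147, .negSucc 423, .ofNat 193, .ofNat 162⟩, ⟨.negSucc 428, .negSucc 100, .ofNat 117, .negSucc 368, .negSucc 134, .negSucc 120⟩, .ofNat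 377, .negSucc 89, .ofNat 0, .negSucc 89, .ofNat 735, .ofNat 0, .ofNat 512, .ofNat 119, .negSucc 338, .ofNat 0, .ofNat 303, .ofNat 14, .ofNat 0, .ofNat 0, .ofNat 935, .ofNat 7383, .ofNat 0, .ofNat 0, .ofNat 12170490372403348794192691200, .ofNat 0, .ofNat 0, .ofNat 0, .ofNat 0, .ofNat 0, .ofNat 0, .ofNat 0, .ofNat 0, .ofNat 0, .ofNat 0, .ofNat 0, .ofNat 0, .ofNat 0⟩)
    (by decide +kernel)
theorem L00298 : Good (Phi V4.P V4.D (-1) 1) ⟨2, 1, 2, 0, 2, 3, 1, 0, 3, 2⟩ :=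
  leaf_sound (S := T4.ds_mp) T4.ok_mp (w := 160) (c := ⟨⟨.negSucc 808, .negSucc 286, .negSucc 92, .negSucc 229, .ofNat 126, .ofNat 41⟩, ⟨.negSucc 85, .ofNat 70, .negSucc 236, .negSucc 37, .negSucc 0, .ofNat 14⟩, ⟨.ofNat 714, .ofNat 306, .ofNat 55, .ofNat 144, .negSucc 476, .ofNat 24⟩, ⟨.negSucc 2284, .negSucc 233, .negSucc 51, .negSucc 540, .ofNat 385, .ofNat 138⟩, ⟨.negSucc 444, .negSucc 238, .ofNat 125, .negSucc 347, .negSucc 438, .negSucc 280⟩, .ofNat 373, .negSucc 59, .ofNat 0, .negSucc 59, .ofNat 749, .ofNat 0, .ofNat 579, .ofNat 26, .negSucc 251, .ofNat 0, .ofNat 317, .ofNat 24, .ofNat 0, .ofNat 0, .ofNat 921, .ofNat 4832, .ofNat 0, .ofNat 0, .ofNat 0, .ofNat 0, .ofNat 0, .ofNat 46563881940080490852766030233600, .ofNat 0, .ofNat 0, .ofNat 0, .ofNat 0, .ofNat 0, .ofNat 0, .ofNat 0, .ofNat 38733643150169991766982472499200, .ofNat 0, .ofNat 0⟩)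
    (by decide +kernel)
theorem L00299 : Good (Phi V4.P V4.D (-1) 1) ⟨2, 1, 2, 1, 2, 3, 2, 0, 3, 2⟩ :=
  leaf_sound (S := T4.ds_mp) T4.ok_mp (w := 168) (c := ⟨⟨.negSucc 829, .negSucc 347, .negSucc 71, .negSucc 238, .ofNat 17, .ofNat 21⟩, ⟨.negSucc 266, .ofNat 11, .negSucc 247, .negSucc 88, .ofNat 3, .ofNat 0⟩, ⟨.ofNat 812, .ofNat 314, .ofNat 59, .negSucc 69, .negSucc 195, .ofNat 53⟩, ⟨.negSucc 2255, .negSucc 332, .negSucc 65, .negSucc 509, .ofNat 121, .ofNat 144⟩, ⟨.negSucc 408, .negSucc 147, .ofNat 125, .negSucc 243, .negSucc 243, .negSucc 259⟩, .ofNat 393, .negSucc 139, .ofNat 0, .negSucc 139, .ofNat 715, .ofNat 0, .ofNat 543, .ofNat 162, .negSucc 249, .ofNat 0, .ofNat 324, .negSucc 10, .ofNat 0, .ofNat 0, .ofNat 948, .ofNat 5447, .ofNat 0, .ofNat 0, .ofNat 31711414118694494770770739200, .ofNat 0, .ofNat 0, .ofNat 0, .ofNat 0, .ofNat 0, .ofNat 0, .ofNat 0, .ofNat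 0, .ofNat 0, .ofNat 0, .ofNat 0, .ofNat 0, .ofNat 0⟩)
    (by decide +kernel)
theorem L00300 : Good (Phi V4.P V4.D (-1) 1) ⟨2, 1, 2, 1, 2, 3, 2, 1, 3, 2⟩ :=
  leaf_sound (S := T4.ds_mp) T4.ok_mp (w := 168) (c := ⟨⟨.negSucc 817, .negSucc 343, .negSucc 100, .negSucc 214, .ofNat 37, .ofNat 56⟩, ⟨.negSucc 273, .ofNat 5, .negSucc 238, .negSucc 85, .ofNat 6, .ofNat 7⟩, ⟨.ofNat 581, .ofNat 332, .ofNat 107, .negSucc 20, .negSucc 191, .ofNat 2⟩, ⟨.negSucc 2159, .negSucc 339, .negSucc 96, .negSucc 450, .ofNat 178, .ofNat 227⟩, ⟨.negSucc 593, .negSucc 220, .ofNat 102, .negSucc 291, .negSucc 234, .negSucc 238⟩, .ofNat 658, .negSucc 493, .ofNat 0, .negSucc 493, .ofNat 1733, .ofNat 0, .ofNat 426, .ofNat 306, .negSucc 234, .ofNat 0, .ofNat 266, .negSucc 47, .ofNat 0, .ofNat 0, .ofNat 919, .ofNat 6561, .ofNat 0, .ofNat 0, .ofNat 33156770746595552772961075200, .ofNat 0, .ofNat 0,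 .ofNat 112622010827547285706357761638400, .ofNat 0, .ofNat 0, .ofNat 0, .ofNat 0, .ofNat 0, .ofNat 0, .ofNat 0, .ofNat 0, .ofNat 0, .ofNat 0⟩)
    (by decide +kernel)
theorem L00301 : Good (Phi V4.P V4.D (-1) 1) ⟨2, 0, 1, 0, 1, 1, 1, 0, 3, 3⟩ :=
  leaf_sound (S := T4.ds_mp) T4.ok_mp (w := 152) (c := ⟨⟨.negSucc 592, .negSucc 69, .negSucc 101, .negSucc 268, .ofNat 135, .ofNat 54⟩, ⟨.negSucc 49, .negSucc 48, .negSucc 286, .negSucc 117, .ofNat 27, .ofNat 8⟩, ⟨.ofNat 436, .ofNat 160, .ofNat 97, .ofNat 160, .negSucc 368, .negSucc 85⟩, ⟨.negSucc 1851, .ofNat 0, .negSucc 34, .negSucc 682, .ofNat 431, .ofNat 163⟩, ⟨.negSucc 369, .negSucc 151, .ofNat 52, .negSucc 375, .negSucc 117, .negSucc 29⟩, .ofNat 414, .negSucc 96, .ofNat 0, .negSucc 96, .ofNat 650, .ofNat 0, .ofNat 392, .ofNat 97, .negSucc 201, .ofNat 0, .ofNat 285, .ofNat 16, .ofNat 0, .ofNat 0, .ofNat 853, .ofNat 4213,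 .ofNat 0, .ofNat 0, .ofNat 0, .ofNat 0, .ofNat 0, .ofNat 142852560455902291271929036800, .ofNat 0, .ofNat 0, .ofNat 0, .ofNat 147979904091970124815899033600, .ofNat 0, .ofNat 0, .ofNat 0, .ofNat 68931476253337590596999577600, .ofNat 0, .ofNat 0⟩)
    (by decide +kernel)
theorem L00302 : Good (Phi V4.P V4.D (-1) 1) ⟨2, 1, 1, 0, 1, 1, 1, 0, 3, 3⟩ :=
  leaf_sound (S := T4.ds_mp) T4.ok_mp (w := 152) (c := ⟨⟨.negSucc 653, .negSucc 200, .negSucc 153, .negSucc 346, .ofNat 170, .ofNat 70⟩, ⟨.negSucc 58, .ofNat 39, .negSucc 354, .negSucc 128, .ofNat 29, .ofNat 13⟩, ⟨.ofNat 600, .ofNat 310, .ofNat 186, .ofNat 279, .negSucc 490, .negSucc 63⟩, ⟨.negSucc 1861, .negSucc 150, .negSucc 108, .negSucc 667, .ofNat 478, .ofNat 198⟩, ⟨.negSucc 432, .negSucc 99, .ofNat 87, .negSucc 733, .negSucc 200, .negSucc 56⟩, .ofNat 587, .negSucc 360, .ofNat 0, .negSucc 360, .ofNat 1757, .ofNat 0,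 .ofNat 351, .ofNat 179, .negSucc 180, .ofNat 0, .ofNat 193, .negSucc 20, .ofNat 0, .ofNat 0, .ofNat 839, .ofNat 4517, .ofNat 0, .ofNat 164809086948148802538700800, .ofNat 6830374710574089385574400, .ofNat 0, .ofNat 0, .ofNat 112144274851136487274473062400, .ofNat 0, .ofNat 0, .ofNat 0, .ofNat 97358086817271009976202035200, .ofNat 0, .ofNat 0, .ofNat 445134904104860436727332864000, .ofNat 140775101501583729211578777600, .ofNat 853512962566744078339276800, .ofNat 0⟩)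
    (by decide +kernel)
theorem L00303 : Good (Phi V4.P V4.D (-1) 1) ⟨2, 0, 2, 2, 2, 2, 1, 0, 2, 1⟩ :=
  leaf_sound (S := T4.ds_mp) T4.ok_mp (w := 160) (c := ⟨⟨.negSucc 612, .negSucc 130, .negSucc 58, .negSucc 183, .ofNat 72, .ofNat 43⟩, ⟨.negSucc 338, .negSucc 56, .negSucc 170, .negSucc 104, .ofNat 32, .ofNat 21⟩, ⟨.ofNat 647, .ofNat 195, .ofNat 89, .ofNat 116, .negSucc 480, .negSucc 146⟩, ⟨.negSucc 1859, .negSucc 80, .negSucc 56, .negSucc 417, .ofNat 366, .ofNat 205⟩, ⟨.negSucc 134, .negSucc 121, .ofNat 39, .negSucc 204, .negSucc 290, .negSucc 148⟩, .ofNat 888, .negSucc 744, .ofNat 0, .negSucc 744, .ofNat 1763, .ofNat 0, .ofNat 278, .ofNat 290, .negSucc 167, .ofNat 0, .ofNat 259, .negSucc 56, .ofNat 0, .ofNat 0, .ofNat 888, .ofNat 7626, .ofNat 97961604110326995247064678400, .ofNat 0, .ofNat 209807971039795063475404800, .ofNat 0, .ofNat 0, .ofNat 0, .ofNat 0, .ofNat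 0, .ofNat 0, .ofNat 5572749033320749111167890227200, .ofNat 36904357049634641768192409600, .ofNat 0, .ofNat 93260730190100456407162473676800, .ofNat 2446427856104921058036940800, .ofNat 22426929575627176958282956800, .ofNat 0⟩)
    (by decide +kernel)
theorem L00304 : Good (Phi V4.P V4.D (-1) 1) ⟨2, 0, 4, 8, 2, 3, 3, 0, 3, 2⟩ :=
  leaf_sound (S := T4.ds_mp) T4.ok_mp (w := 176) (c := ⟨⟨.negSucc 715, .negSucc 195, .negSucc 6, .negSucc 169, .negSucc 0, .negSucc 25⟩, ⟨.negSucc 391, .negSucc 88, .negSucc 54, .negSucc 95, .negSucc 2, .negSucc 18⟩, ⟨.ofNat 770, .ofNat 209, .ofNat 14, .negSucc 132, .negSucc 129, .negSucc 34⟩, ⟨.negSucc 2205, .negSucc 119, .negSucc 6, .negSucc 431, .ofNat 56, .ofNat 31⟩, ⟨.negSucc 118, .negSucc 266, .ofNat 18, .negSucc 101, .negSucc 104, .negSucc 195⟩, .ofNat 1794, .negSucc 2204, .ofNat 0, .negSucc 2204, .ofNat 4358, .ofNat 0, .ofNat 218,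 .ofNat 371, .negSucc 119, .ofNat 0, .ofNat 257, .negSucc 57, .ofNat 0, .ofNat 0, .ofNat 923, .ofNat 44710, .ofNat 0, .ofNat 0, .ofNat 0, .ofNat 0, .ofNat 0, .ofNat 2149014866777343436076342260531200, .ofNat 93466034601975472994195079168000, .ofNat 0, .ofNat 0, .ofNat 3268725595501440393154401612595200, .ofNat 0, .ofNat 0, .ofNat 0, .ofNat 0, .ofNat 0, .ofNat 0⟩)
    (by decide +kernel)
theorem L00305 : Good (Phi V4.P V4.D (-1) 1) ⟨2, 0, 4, 9, 2, 3, 3, 0, 3, 2⟩ :=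
  leaf_sound (S := T4.ds_mp) T4.ok_mp (w := 176) (c := ⟨⟨.negSucc 708, .negSucc 195, .negSucc 31, .negSucc 180, .negSucc 9, .negSucc 30⟩, ⟨.negSucc 464, .negSucc 59, .negSucc 60, .negSucc 105, .negSucc 5, .negSucc 18⟩, ⟨.ofNat 805, .ofNat 147, .negSucc 0, .negSucc 155, .negSucc 101, .ofNat 43⟩, ⟨.negSucc 2224, .negSucc 91, .negSucc 58, .negSucc 423, .ofNat 38, .ofNat 42⟩, ⟨.negSucc 141, .negSucc 188, .ofNat 23, .negSucc 138, .negSucc 111, .negSucc 218⟩, .ofNat 5258, .negSucc 8020, .ofNat 0, .negSucc 8020, .ofNat 14108, .ofNat 0, .ofNat 117, .ofNat 413, .negSucc 117, .ofNat 0, .ofNat 256, .negSucc 66, .ofNat 0, .ofNat 0, .ofNat 922, .ofNat 61346, .ofNat 0, .ofNat 0, .ofNat 12181038887483242214594288025600, .ofNat 0, .ofNat 90654290566245039048330060811468800, .ofNat 0, .ofNat 610346398770269327474296042291200, .ofNat 0, .ofNat 137555486215754807231702817885388800,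 .ofNat 7660098099032397259518006578380800, .ofNat 131706889634250657778134889267200, .ofNat 0, .ofNat 0, .ofNat 5566750943280397496783657238528000, .ofNat 139406903720938181162952975974400, .ofNat 0⟩)
    (by decide +kernel)
theorem L00306 : Good (Phi V4.P V4.D (-1) 1) ⟨2, 0, 3, 4, 2, 3, 3, 1, 3, 2⟩ :=
  leaf_sound (S := T4.ds_mp) T4.ok_mp (w := 176) (c := ⟨⟨.negSucc 735, .negSucc 177, .negSucc 29, .negSucc 166, .ofNat 7, .ofNat 1⟩, ⟨.negSucc 404, .negSucc 79, .negSucc 109, .negSucc 95, .ofNat 1, .negSucc 5⟩, ⟨.ofNat 683, .ofNat 134, .ofNat 46, .negSucc 107, .negSucc 117, .negSucc 42⟩, ⟨.negSucc 2201, .negSucc 81, .negSucc 28, .negSucc 417, .ofNat 77, .ofNat 97⟩, ⟨.negSucc 230, .negSucc 251, .ofNat 27, .negSucc 111, .negSucc 106, .negSucc 182⟩, .ofNat 1798, .negSucc 2217, .ofNat 0, .negSucc 2217, .ofNat 4384, .ofNat 0, .ofNat 220, .ofNat 379, .negSucc 133, .ofNat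 0, .ofNat 262, .negSucc 64, .ofNat 0, .ofNat 0, .ofNat 909, .ofNat 18234, .ofNat 0, .ofNat 11500125301433388681473399193600, .ofNat 1373937370991561468948565196800, .ofNat 0, .ofNat 0, .ofNat 876452911780641559429914191462400, .ofNat 72637344427774821055128089395200, .ofNat 0, .ofNat 0, .ofNat 929995366256826485776259324313600, .ofNat 0, .ofNat 0, .ofNat 0, .ofNat 0, .ofNat 0, .ofNat 0⟩)
    (by decide +kernel)
theorem L00307 : Good (Phi V4.P V4.D (-1) 1) ⟨2, 0, 3, 4, 2, 3, 2, 0, 3, 3⟩ :=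
  leaf_sound (S := T4.ds_mp) T4.ok_mp (w := 168) (c := ⟨⟨.negSucc 756, .negSucc 160, .negSucc 29, .ofNat 0, .ofNat 31, .ofNat 0⟩, ⟨.negSucc 421, .negSucc 71, .negSucc 96, .ofNat 0, .ofNat 14, .ofNat 0⟩, ⟨.ofNat 659, .ofNat 275, .ofNat 67, .ofNat 0, .negSucc 281, .ofNat 0⟩, ⟨.negSucc 2188, .negSucc 78, .negSucc 29, .ofNat 0, .ofNat 193, .ofNat 0⟩, ⟨.negSucc 341, .negSucc 213, .ofNat 37, .ofNat 0, .negSucc 182, .ofNat 0⟩, .ofNat 455, .negSucc 203, .ofNat 0, .negSucc 203, .ofNat 693, .ofNat 0, .ofNat 390, .ofNat 197, .negSucc 183, .ofNat 0, .ofNat 307, .negSucc 6, .ofNat 0, .ofNat 0, .ofNat 980, .ofNat 32004, .ofNat 0, .ofNat 66649595648219606562470520422400, .ofNat 0, .ofNat 0, .ofNat 0, .ofNat 5645074225679197930638821818368000, .ofNat 8789401414555834854419516620800, .ofNat 0, .ofNat 0, .ofNat 9638162532221373412962175077580800, .ofNat 0, .ofNat 0, .ofNat 0, .ofNat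 5048182200182057915408587948032000, .ofNat 0, .ofNat 0⟩)
    (by decide +kernel)
theorem L00308 : Good (Phi V4.P V4.D (-1) 1) ⟨2, 0, 3, 5, 2, 3, 2, 0, 2, 1⟩ :=
  out_sound (S := T4.ds_mp) T4.ok_mp (w := 40) (j := 3) (by decide +kernel)
theorem L00309 : Good (Phi V4.P V4.D (-1) 1) ⟨2, 0, 3, 4, 2, 3, 2, 1, 3, 2⟩ :=
  leaf_sound (S := T4.ds_mp) T4.ok_mp (w := 168) (c := ⟨⟨.negSucc 720, .negSucc 188, .negSucc 40, .negSucc 178, .ofNat 24, .ofNat 13⟩, ⟨.negSucc 402, .negSucc 87, .negSucc 105, .negSucc 100, .ofNat 9, .ofNat 4⟩, ⟨.ofNat 491, .ofNat 198, .ofNat 40, .ofNat 9, .negSucc 186, .negSucc 40⟩, ⟨.negSucc 2095, .negSucc 115, .negSucc 46, .negSucc 459, .ofNat 168, .ofNat 119⟩, ⟨.negSucc 341, .negSucc 272, .ofNat 30, .negSucc 105, .negSucc 178, .negSucc 148⟩, .ofNat 896, .negSucc 756, .ofNat 0, .negSucc 756, .ofNat 1774, .ofNat 0, .ofNat 324, .ofNat 348, .negSucc 194,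 .ofNat 0, .ofNat 298, .negSucc 69, .ofNat 0, .ofNat 0, .ofNat 920, .ofNat 11115, .ofNat 0, .ofNat 1150441847005435701370866892800, .ofNat 73734480115558702263985766400, .ofNat 0, .ofNat 0, .ofNat 603315673588477239414650988134400, .ofNat 6408667997518259144177064345600, .ofNat 0, .ofNat 0, .ofNat 829499993542208951408595566592000, .ofNat 0, .ofNat 0, .ofNat 0, .ofNat 0, .ofNat 6897305639457845803718855884800, .ofNat 0⟩)
    (by decide +kernel)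
theorem L00310 : Good (Phi V4.P V4.D (-1) 1) ⟨2, 0, 3, 5, 2, 3, 2, 1, 3, 2⟩ :=
  out_sound (S := T4.ds_mp) T4.ok_mp (w := 40) (j := 3) (by decide +kernel)
theorem L00311 : Good (Phi V4.P V4.D (-1) 1) ⟨2, 0, 2, 2, 2, 3, 2, 1, 3, 3⟩ :=
  out_sound (S := T4.ds_mp) T4.ok_mp (w := 32) (j := 2) (by decide +kernel)

end Crest.Agent.R097C4.N4mp
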