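import Crest.Agent.R097.T4

/-!
# Row 97, box cover in dimension n = 4 (generated)
-/

set_option autoImplicit false
set_option Elab.async false
set_option maxHeartbeats 0
set_option maxRecDepth 100000

open Crest.Agent.R097 Crest.Agent.R097.KA


namespace Crest.Agent.R097C4.N4mp

theorem L00312 : Good (Phi V4.P V4.D (-1) 1) ⟨3, 2, 3, 4, 2, 2, 2, 0, 3, 2⟩ :=
  leaf_sound (S := T4.ds_mp) T4.ok_mp (w := 176) (c := ⟨⟨.negSucc 708, .negSucc 124, .negSucc 27, .negSucc 204, .ofNat 15, .negSucc 10⟩, ⟨.negSucc 375, .negSucc 16, .negSucc 100, .negSucc 109, .ofNat 5, .negSucc 7⟩, ⟨.ofNat 822, .ofNat 161, .ofNat 51, .ofNat 133, .negSucc 284, .ofNat 1⟩, ⟨.negSucc 1885, .negSucc 123, .negSucc 41, .negSucc 434, .ofNat 143, .ofNat 46⟩, ⟨.negSucc 180, .negSucc 40, .ofNat 38, .negSucc 210, .negSucc 206, .negSucc 144⟩, .ofNat 862, .negSucc 787, .ofNat 0, .negSucc 787,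 .ofNat 1911, .ofNat 0, .ofNat 295, .ofNat 329, .negSucc 187, .ofNat 0, .ofNat 265, .negSucc 60, .ofNat 0, .ofNat 0, .ofNat 937, .ofNat 30183, .ofNat 0, .ofNat 0, .ofNat 0, .ofNat 0, .ofNat 0, .ofNat 0, .ofNat 0, .ofNat 0, .ofNat 0, .ofNat 0, .ofNat 0, .ofNat 0, .ofNat 164982671929070650692387534274560000, .ofNat 0, .ofNat 0, .ofNat 0⟩)
    (by decide +kernel)
theorem L00313 : Good (Phi V4.P V4.D (-1) 1) ⟨3, 2, 4, 8, 2, 3, 3, 0, 3, 2⟩ :=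
  leaf_sound (S := T4.ds_mp) T4.ok_mp (w := 176) (c := ⟨⟨.negSucc 888, .negSucc 154, .negSucc 15, .negSucc 207, .negSucc 6, .negSucc 20⟩, ⟨.negSucc 471, .negSucc 23, .negSucc 57, .negSucc 110, .negSucc 6, .negSucc 10⟩, ⟨.ofNat 966, .ofNat 132, .ofNat 10, .negSucc 189, .negSucc 115, .ofNat 56⟩, ⟨.negSucc 2309, .negSucc 138, .negSucc 18, .negSucc 452, .ofNat 42, .ofNat 71⟩, ⟨.negSucc 333, .negSucc 84, .ofNat 23, .negSucc 183, .negSucc 119, .negSucc 233⟩, .ofNat 1824, .negSucc 2473, .ofNat 0, .negSucc 2473, .ofNat 5122, .ofNat 0, .ofNat 211, .ofNat 402, .negSucc 132, .ofNat 0, .ofNat 251, .negSucc 62, .ofNat 0, .ofNat 0, .ofNat 926, .ofNat 40813, .ofNat 0, .ofNat 0, .ofNat 0, .ofNat 0, .ofNat 0, .ofNat 0, .ofNat 0, .ofNat 0, .ofNat 0, .ofNat 0, .ofNat 0, .ofNat 0, .ofNat 0, .ofNat 18256318300072009944683844835737600, .ofNat 0, .ofNat 0⟩)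
    (by decide +kernel)
theorem L00314 : Good (Phi V4.P V4.D (-1) 1) ⟨3, 2, 4, 9, 2, 3, 3, 0, 3, 2⟩ :=
  leaf_sound (S := T4.ds_mp) T4.ok_mp (w := 184) (c := ⟨⟨.negSucc 893, .negSucc 156, .ofNat 13, .negSucc 208, .negSucc 15, .negSucc 26⟩, ⟨.negSucc 523, .negSucc 28, .negSucc 44, .negSucc 116, .negSucc 8, .negSucc 15⟩, ⟨.ofNat 984, .ofNat 130, .negSucc 70, .negSucc 198, .negSucc 106, .ofNat 58⟩, ⟨.negSucc 2306, .negSucc 137, .ofNat 40, .negSucc 454, .ofNat 20, .ofNat 56⟩, ⟨.negSucc 320, .negSucc 90, .ofNat 39, .negSucc 181, .negSucc 109, .negSucc 225⟩, .ofNat 5444, .negSucc 8734, .ofNat 0, .negSucc 8734, .ofNat 15968, .ofNat 0, .ofNat 113, .ofNat 429, .negSucc 128, .ofNat 0, .ofNat 253, .negSucc 69, .ofNat 0, .ofNat 0, .ofNat 927, .ofNat 36955, .ofNat 14203537849338364339465606712524800, .ofNat 102295210079423074651220842905600, .ofNat 1549580147013441691551006720000,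 .ofNat 0, .ofNat 0, .ofNat 0, .ofNat 0, .ofNat 0, .ofNat 0, .ofNat 0, .ofNat 0, .ofNat 0, .ofNat 3701426121443195999495782804330905600, .ofNat 13957499032560653767087788077875200, .ofNat 21466627879084177120254178099200, .ofNat 0⟩)
    (by decide +kernel)
theorem L00315 : Good (Phi V4.P V4.D (-1) 1) ⟨3, 2, 4, 8, 2, 3, 3, 1, 4, 4⟩ :=
  leaf_sound (S := T4.ds_mp) T4.ok_mp (w := 184) (c := ⟨⟨.negSucc 898, .negSucc 164, .negSucc 12, .negSucc 203, .negSucc 2, .negSucc 3⟩, ⟨.negSucc 477, .negSucc 27, .negSucc 56, .negSucc 110, .negSucc 2, .negSucc 5⟩, ⟨.ofNat 820, .ofNat 140, .ofNat 11, .negSucc 124, .negSucc 103, .ofNat 39⟩, ⟨.negSucc 2277, .negSucc 163, .negSucc 7, .negSucc 446, .ofNat 52, .ofNat 56⟩, ⟨.negSucc 444, .negSucc 88, .ofNat 21, .negSucc 181, .negSucc 110, .negSucc 133⟩, .ofNat 865, .negSucc 792, .ofNat 0, .negSucc 792, .ofNat 1916, .ofNat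 0, .ofNat 329, .ofNat 369, .negSucc 182, .ofNat 0, .ofNat 287, .negSucc 67, .ofNat 0, .ofNat 0, .ofNat 926, .ofNat 17369, .ofNat 0, .ofNat 0, .ofNat 0, .ofNat 0, .ofNat 0, .ofNat 0, .ofNat 0, .ofNat 0, .ofNat 0, .ofNat 0, .ofNat 0, .ofNat 0, .ofNat 0, .ofNat 0, .ofNat 0, .ofNat 0⟩)
    (by decide +kernel)
theorem L00316 : Good (Phi V4.P V4.D (-1) 1) ⟨3, 2, 4, 9, 2, 3, 3, 1, 4, 4⟩ :=
  leaf_sound (S := T4.ds_mp) T4.ok_mp (w := 184) (c := ⟨⟨.negSucc 914, .negSucc 161, .negSucc 4, .negSucc 200, .negSucc 3, .negSucc 7⟩, ⟨.negSucc 533, .negSucc 32, .negSucc 56, .negSucc 112, .negSucc 2, .negSucc 4⟩, ⟨.ofNat 848, .ofNat 136, .negSucc 6, .negSucc 159, .negSucc 95, .ofNat 39⟩, ⟨.negSucc 2305, .negSucc 154, .ofNat 15, .negSucc 426, .ofNat 54, .ofNat 51⟩, ⟨.negSucc 412, .negSucc 94, .negSucc 2, .negSucc 191, .negSucc 114, .negSucc 129⟩, .ofNat 448, .negSucc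 223, .ofNat 0, .negSucc 223, .ofNat 721, .ofNat 0, .ofNat 485, .ofNat 278, .negSucc 255, .ofNat 0, .ofNat 350, .negSucc 51, .ofNat 0, .ofNat 0, .ofNat 962, .ofNat 22052, .ofNat 0, .ofNat 504820050652660986020256074956800, .ofNat 18658022250383238463235083468800, .ofNat 0, .ofNat 0, .ofNat 0, .ofNat 0, .ofNat 0, .ofNat 0, .ofNat 0, .ofNat 0, .ofNat 0, .ofNat 0, .ofNat 0, .ofNat 0, .ofNat 0⟩)
    (by decide +kernel)
theorem L00317 : Good (Phi V4.P V4.D (-1) 1) ⟨3, 2, 4, 8, 2, 3, 3, 1, 4, 5⟩ :=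
  leaf_sound (S := T4.ds_mp) T4.ok_mp (w := 184) (c := ⟨⟨.negSucc 915, .negSucc 144, .negSucc 17, .negSucc 204, .ofNat 9, .ofNat 23⟩, ⟨.negSucc 489, .negSucc 20, .negSucc 55, .negSucc 111, .ofNat 4, .ofNat 9⟩, ⟨.ofNat 804, .ofNat 180, .ofNat 37, .negSucc 10, .negSucc 132, .ofNat 3⟩, ⟨.negSucc 2260, .negSucc 126, .negSucc 19, .negSucc 407, .ofNat 78, .ofNat 107⟩, ⟨.negSucc 553, .negSucc 87, .ofNat 22, .negSucc 260, .negSucc 100, .negSucc 90⟩, .ofNat 863, .negSucc 793, .ofNat 0, .negSucc 793, .ofNat 1922, .ofNat 0, .ofNat 295, .ofNat 325, .negSucc 160, .ofNat 0, .ofNat 260, .negSucc 53, .ofNat 0, .ofNat 0, .ofNat 939, .ofNat 19262, .ofNat 0, .ofNat 0, .ofNat 0, .ofNat 0, .ofNat 0, .ofNat 0, .ofNat 0, .ofNat 0, .ofNat 0, .ofNat 0, .ofNat 0, .ofNat 0, .ofNat 0, .ofNat 1467383787658505312923220258586624000, .ofNat 0, .ofNat 0⟩)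
    (by decide +kernel)
theorem L00318 : Good (Phi V4.P V4.D (-1) 1) ⟨3, 2, 5, 18, 2, 3, 3, 1, 4, 5⟩ :=
  leaf_sound (S := T4.ds_mp) T4.ok_mp (w := 184) (c := ⟨⟨.negSucc 930, .negSucc 145, .negSucc 3, .negSucc 207, .ofNat 7, .ofNat 19⟩, ⟨.negSucc 542, .negSucc 26, .negSucc 28, .negSucc 113, .ofNat 3, .ofNat 10⟩, ⟨.ofNat 845, .ofNat 165, .ofNat 0, .negSucc 19, .negSucc 130, .ofNat 14⟩, ⟨.negSucc 2280, .negSucc 123, .ofNat 1, .negSucc 406, .ofNat 77, .ofNat 101⟩, ⟨.negSucc 526, .negSucc 96, .ofNat 5, .negSucc 251, .negSucc 104, .negSucc 91⟩, .ofNat 449, .negSucc 223, .ofNat 0, .negSucc 223, .ofNat 720, .ofNat 0, .ofNat 429, .ofNat 245, .negSucc 228, .ofNat 0, .ofNat 325, .negSucc 32, .ofNat 0, .ofNat 0, .ofNat 983, .ofNat 16394, .ofNat 0, .ofNat 20462399578021430748112139531059200, .ofNat 5791978257374801577631127961600, .ofNat 0, .ofNat 0, .ofNat 0,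 .ofNat 0, .ofNat 0, .ofNat 0, .ofNat 0, .ofNat 0, .ofNat 0, .ofNat 0, .ofNat 4289276915346835846364888274724454400, .ofNat 0, .ofNat 0⟩)
    (by decide +kernel)
theorem L00319 : Good (Phi V4.P V4.D (-1) 1) ⟨3, 2, 5, 19, 2, 3, 3, 1, 4, 5⟩ :=
  out_sound (S := T4.ds_mp) T4.ok_mp (w := 56) (j := 3) (by decide +kernel)
theorem L00320 : Good (Phi V4.P V4.D (-1) 1) ⟨3, 2, 3, 4, 2, 2, 2, 1, 3, 2⟩ :=
  leaf_sound (S := T4.ds_mp) T4.ok_mp (w := 176) (c := ⟨⟨.negSucc 708, .negSucc 118, .negSucc 31, .negSucc 224, .ofNat 47, .ofNat 29⟩, ⟨.negSucc 379, .negSucc 14, .negSucc 93, .negSucc 122, .ofNat 22, .ofNat 15⟩, ⟨.ofNat 543, .ofNat 155, .ofNat 45, .ofNat 161, .negSucc 226, .negSucc 22⟩, ⟨.negSucc 1771, .negSucc 123, .negSucc 39, .negSucc 457, .ofNat 196, .ofNat 122⟩, ⟨.negSucc 396, .negSucc 35, .ofNat 39, .negSucc 260, .negSucc 144, .negSucc 86⟩, .ofNat 876,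 .negSucc 811, .ofNat 0, .negSucc 811, .ofNat 1937, .ofNat 0, .ofNat 295, .ofNat 344, .negSucc 226, .ofNat 0, .ofNat 274, .negSucc 82, .ofNat 0, .ofNat 0, .ofNat 911, .ofNat 16490, .ofNat 0, .ofNat 0, .ofNat 0, .ofNat 0, .ofNat 0, .ofNat 0, .ofNat 0, .ofNat 0, .ofNat 0, .ofNat 0, .ofNat 0, .ofNat 0, .ofNat 0, .ofNat 0, .ofNat 0, .ofNat 0⟩)
    (by decide +kernel)
theorem L00321 : Good (Phi V4.P V4.D (-1) 1) ⟨3, 2, 4, 8, 2, 3, 3, 2, 4, 4⟩ :=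
  leaf_sound (S := T4.ds_mp) T4.ok_mp (w := 184) (c := ⟨⟨.negSucc 904, .negSucc 159, .negSucc 18, .negSucc 202, .ofNat 5, .ofNat 6⟩, ⟨.negSucc 485, .negSucc 24, .negSucc 57, .negSucc 107, .ofNat 1, .ofNat 2⟩, ⟨.ofNat 695, .ofNat 138, .ofNat 27, .negSucc 85, .negSucc 87, .ofNat 30⟩, ⟨.negSucc 2234, .negSucc 154, .negSucc 18, .negSucc 433, .ofNat 71, .ofNat 76⟩, ⟨.negSucc 556, .negSucc 95, .ofNat 19, .negSucc 203, .negSucc 108, .negSucc 110⟩, .ofNat 867, .negSucc 792, .ofNat 0, .negSucc 792, .ofNat 1913, .ofNat 0, .ofNat 332, .ofNat 378, .negSucc 210, .ofNat 0, .ofNat 295, .negSucc 76, .ofNat 0, .ofNat 0, .ofNat 930, .ofNat 16735, .ofNat 0, .ofNat 0, .ofNat 0, .ofNat 0, .ofNat 0, .ofNat 0, .ofNat 0, .ofNat 0, .ofNat 0, .ofNat 0, .ofNat 0, .ofNat 0, .ofNat 0, .ofNat 0, .ofNat 0, .ofNat 0⟩)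
    (by decide +kernel)
theorem L00322 : Good (Phi V4.P V4.D (-1) 1) ⟨3, 2, 4, 9, 2, 3, 3, 2, 4, 4⟩ :=
  leaf_sound (S := T4.ds_mp) T4.ok_mp (w := 184) (c := ⟨⟨.negSucc 920, .negSucc 161, .negSucc 8, .negSucc 204, .ofNat 0, .ofNat 4⟩, ⟨.negSucc 539, .negSucc 31, .negSucc 54, .negSucc 114, .ofNat 1, .ofNat 2⟩, ⟨.ofNat 731, .ofNat 138, .negSucc 15, .negSucc 115, .negSucc 82, .ofNat 29⟩, ⟨.negSucc 2251, .negSucc 160, .ofNat 0, .negSucc 430, .ofNat 66, .ofNat 71⟩, ⟨.negSucc 537, .negSucc 96, .ofNat 20, .negSucc 200, .negSucc 110, .negSucc 105⟩, .ofNat 928, .negSucc 883, .ofNat 0, .negSucc 883, .ofNat 2003, .ofNat 0, .ofNat 310, .ofNat 391, .negSucc 204, .ofNat 0, .ofNat 298, .negSucc 81, .ofNat 0, .ofNat 0, .ofNat 932, .ofNat 20589, .ofNat 0, .ofNat 0, .ofNat 17068904330632767462197270937600, .ofNat 0, .ofNat 0, .ofNat 0, .ofNat 0, .ofNat 0, .ofNat 0,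 .ofNat 0, .ofNat 0, .ofNat 0, .ofNat 0, .ofNat 0, .ofNat 0, .ofNat 0⟩)
    (by decide +kernel)
theorem L00323 : Good (Phi V4.P V4.D (-1) 1) ⟨3, 2, 3, 4, 2, 3, 3, 3, 4, 4⟩ :=
  leaf_sound (S := T4.ds_mp) T4.ok_mp (w := 184) (c := ⟨⟨.negSucc 899, .negSucc 158, .negSucc 46, .negSucc 210, .ofNat 13, .ofNat 23⟩, ⟨.negSucc 482, .negSucc 28, .negSucc 115, .negSucc 115, .ofNat 7, .ofNat 10⟩, ⟨.ofNat 591, .ofNat 146, .ofNat 44, .negSucc 25, .negSucc 83, .ofNat 1⟩, ⟨.negSucc 2165, .negSucc 157, .negSucc 48, .negSucc 439, .ofNat 86, .ofNat 107⟩, ⟨.negSucc 658, .negSucc 111, .ofNat 38, .negSucc 233, .negSucc 96, .negSucc 92⟩, .ofNat 442, .negSucc 211, .ofNat 0, .negSucc 211, .ofNat 716, .ofNat 0, .ofNat 506, .ofNat 298, .negSucc 351, .ofNat 0, .ofNat 374, .negSucc 59, .ofNat 0, .ofNat 0, .ofNat 992, .ofNat 13743, .ofNat 0, .ofNat 0, .ofNat 3857703189723999418773720268800,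 .ofNat 0, .ofNat 0, .ofNat 0, .ofNat 0, .ofNat 0, .ofNat 0, .ofNat 0, .ofNat 0, .ofNat 0, .ofNat 0, .ofNat 32453048738283488313966176344473600, .ofNat 205325862396092237050650663321600, .ofNat 0⟩)
    (by decide +kernel)
theorem L00324 : Good (Phi V4.P V4.D (-1) 1) ⟨3, 2, 3, 4, 2, 3, 2, 1, 4, 5⟩ :=
  leaf_sound (S := T4.ds_mp) T4.ok_mp (w := 176) (c := ⟨⟨.negSucc 907, .negSucc 142, .negSucc 42, .negSucc 213, .ofNat 40, .ofNat 31⟩, ⟨.negSucc 486, .negSucc 22, .negSucc 109, .negSucc 118, .ofNat 20, .ofNat 14⟩, ⟨.ofNat 675, .ofNat 173, .ofNat 62, .ofNat 55, .negSucc 219, .negSucc 12⟩, ⟨.negSucc 2182, .negSucc 130, .negSucc 45, .negSucc 423, .ofNat 206, .ofNat 124⟩, ⟨.negSucc 653, .negSucc 95, .ofNat 39, .negSucc 267, .negSucc 185, .negSucc 84⟩, .ofNat 442, .negSucc 212, .ofNat 0, .negSucc 212, .ofNat 716, .ofNat 0, .ofNat 443, .ofNat 253, .negSucc 279,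 .ofNat 0, .ofNat 336, .negSucc 39, .ofNat 0, .ofNat 0, .ofNat 972, .ofNat 6218, .ofNat 0, .ofNat 334243260302278464269559477043200, .ofNat 141058167026196955676855500800, .ofNat 0, .ofNat 0, .ofNat 0, .ofNat 0, .ofNat 0, .ofNat 0, .ofNat 0, .ofNat 0, .ofNat 0, .ofNat 0, .ofNat 116276030085504796378857306744422400, .ofNat 0, .ofNat 0⟩)
    (by decide +kernel)
theorem L00325 : Good (Phi V4.P V4.D (-1) 1) ⟨3, 3, 3, 4, 2, 2, 1, 0, 3, 2⟩ :=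
  leaf_sound (S := T4.ds_mp) T4.ok_mp (w := 168) (c := ⟨⟨.negSucc 840, .negSucc 146, .negSucc 27, .negSucc 250, .ofNat 67, .ofNat 30⟩, ⟨.negSucc 395, .negSucc 0, .negSucc 95, .negSucc 121, .ofNat 24, .ofNat 11⟩, ⟨.ofNat 934, .ofNat 179, .ofNat 61, .ofNat 184, .negSucc 491, .ofNat 7⟩, ⟨.negSucc 2030, .negSucc 162, .negSucc 41, .negSucc 477, .ofNat 334, .ofNat 129⟩, ⟨.negSucc 201, .ofNat 3, .ofNat 86, .negSucc 302, .negSucc 365, .negSucc 123⟩, .ofNat 1394, .negSucc 1906, .ofNat 0, .negSucc 1906, .ofNat 4487, .ofNat 0, .ofNat 242, .ofNat 386, .negSucc 220, .ofNat 0, .ofNat 236, .negSucc 86, .ofNat 0, .ofNat 0, .ofNat 912, .ofNat 10749, .ofNat 0, .ofNat 0, .ofNat 2522986298360530145692876800, .ofNat 0, .ofNat 0, .ofNat 0, .ofNat 877211295783979524350489395200, .ofNat 0, .ofNat 0, .ofNat 0, .ofNat 240753151481179654241176780800, .ofNat 0, .ofNat 25002204457739706517418966148710400,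 .ofNat 0, .ofNat 189726545173893341520907468800, .ofNat 0⟩)
    (by decide +kernel)
theorem L00326 : Good (Phi V4.P V4.D (-1) 1) ⟨3, 3, 4, 8, 2, 3, 2, 0, 3, 2⟩ :=
  leaf_sound (S := T4.ds_mp) T4.ok_mp (w := 176) (c := ⟨⟨.negSucc 1049, .negSucc 198, .negSucc 15, .negSucc 242, .negSucc 8, .ofNat 19⟩, ⟨.negSucc 497, .negSucc 2, .negSucc 62, .negSucc 115, .negSucc 9, .ofNat 3⟩, ⟨.ofNat 1054, .ofNat 200, .ofNat 37, .negSucc 169, .negSucc 194, .ofNat 94⟩, ⟨.negSucc 2480, .negSucc 199, .negSucc 18, .negSucc 471, .ofNat 85, .ofNat 168⟩, ⟨.negSucc 371, .negSucc 51, .ofNat 27, .negSucc 269, .negSucc 237, .negSucc 274⟩, .ofNat 749, .negSucc 674, .ofNat 0, .negSucc 674, .ofNat 1851, .ofNat 0, .ofNat 355, .ofNat 345, .negSucc 180, .ofNat 0, .ofNat 265, .negSucc 56, .ofNat 0, .ofNat 0, .ofNat 938, .ofNat 15245, .ofNat 0, .ofNat 0, .ofNat 49763191550912203783038566400,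 .ofNat 0, .ofNat 0, .ofNat 0, .ofNat 2088623315169693054685465804800, .ofNat 0, .ofNat 0, .ofNat 0, .ofNat 0, .ofNat 0, .ofNat 0, .ofNat 16854503969917562642731205709004800, .ofNat 3577463342350719764414437785600, .ofNat 0⟩)
    (by decide +kernel)
theorem L00327 : Good (Phi V4.P V4.D (-1) 1) ⟨3, 3, 4, 9, 2, 3, 2, 0, 3, 2⟩ :=
  out_sound (S := T4.ds_mp) T4.ok_mp (w := 48) (j := 3) (by decide +kernel)
theorem L00328 : Good (Phi V4.P V4.D (-1) 1) ⟨3, 3, 3, 4, 2, 3, 3, 2, 3, 2⟩ :=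
  leaf_sound (S := T4.ds_mp) T4.ok_mp (w := 176) (c := ⟨⟨.negSucc 1068, .negSucc 204, .negSucc 43, .negSucc 237, .ofNat 8, .ofNat 60⟩, ⟨.negSucc 511, .negSucc 7, .negSucc 126, .negSucc 113, .ofNat 1, .ofNat 21⟩, ⟨.ofNat 865, .ofNat 180, .ofNat 46, .negSucc 124, .negSucc 97, .ofNat 39⟩, ⟨.negSucc 2423, .negSucc 218, .negSucc 51, .negSucc 448, .ofNat 76, .ofNat 260⟩, ⟨.negSucc 601, .negSucc 62, .ofNat 56, .negSucc 287, .negSucc 125, .negSucc 257⟩, .ofNat 748, .negSucc 674, .ofNat 0, .negSucc 674, .ofNat 1850, .ofNat 0, .ofNat 368, .ofNat 370, .negSucc 237, .ofNat 0, .ofNat 281, .negSucc 72, .ofNat 0, .ofNat 0, .ofNat 939, .ofNat 16455, .ofNat 0, .ofNat 0, .ofNat 485279351259239053056068812800, .ofNat 0, .ofNat 0, .ofNat 18883048396357725994644160905216000, .ofNat 16345099760722078696578691891200, .ofNat 0, .ofNat 0, .ofNat 0, .ofNat 4598496794393717610972708864000,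 .ofNat 0, .ofNat 0, .ofNat 14613417725472271981862067791462400, .ofNat 21178866504574593906863033548800, .ofNat 0⟩)
    (by decide +kernel)
theorem L00329 : Good (Phi V4.P V4.D (-1) 1) ⟨3, 3, 3, 4, 2, 3, 3, 3, 3, 2⟩ :=
  leaf_sound (S := T4.ds_mp) T4.ok_mp (w := 176) (c := ⟨⟨.negSucc 1068, .negSucc 204, .negSucc 53, .negSucc 233, .ofNat 18, .ofNat 93⟩, ⟨.negSucc 512, .negSucc 13, .negSucc 123, .negSucc 112, .ofNat 5, .ofNat 36⟩, ⟨.ofNat 769, .ofNat 189, .ofNat 25, .negSucc 92, .negSucc 93, .negSucc 18⟩, ⟨.negSucc 2364, .negSucc 230, .negSucc 61, .negSucc 425, .ofNat 95, .ofNat 327⟩, ⟨.negSucc 720, .negSucc 76, .ofNat 51, .negSucc 320, .negSucc 113, .negSucc 226⟩, .ofNat 748, .negSucc 673, .ofNat 0, .negSucc 673, .ofNat 1851, .ofNat 0, .ofNat 376, .ofNat 385, .negSucc 273, .ofNat 0, .ofNat 291, .negSucc 84, .ofNat 0, .ofNat 0, .ofNat 943, .ofNat 11938,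 .ofNat 0, .ofNat 0, .ofNat 311573023188627935941204377600, .ofNat 0, .ofNat 0, .ofNat 24995106820851622491928055198515200, .ofNat 0, .ofNat 0, .ofNat 0, .ofNat 0, .ofNat 0, .ofNat 0, .ofNat 0, .ofNat 3736413345866516576941725292953600, .ofNat 21097725290402713111943656243200, .ofNat 0⟩)
    (by decide +kernel)
theorem L00330 : Good (Phi V4.P V4.D (-1) 1) ⟨2, 1, 3, 5, 1, 1, 1, 0, 3, 2⟩ :=
  out_sound (S := T4.ds_mp) T4.ok_mp (w := 40) (j := 3) (by decide +kernel)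
theorem L00331 : Good (Phi V4.P V4.D (-1) 1) ⟨2, 1, 2, 2, 2, 2, 2, 0, 3, 3⟩ :=
  leaf_sound (S := T4.ds_mp) T4.ok_mp (w := 168) (c := ⟨⟨.negSucc 750, .negSucc 224, .negSucc 51, .negSucc 193, .ofNat 48, .ofNat 67⟩, ⟨.negSucc 401, .negSucc 7, .negSucc 186, .negSucc 102, .ofNat 24, .ofNat 29⟩, ⟨.ofNat 790, .ofNat 385, .ofNat 104, .ofNat 200, .negSucc 302, .negSucc 64⟩, ⟨.negSucc 1914, .negSucc 191, .negSucc 45, .negSucc 359, .ofNat 205, .ofNat 202⟩, ⟨.negSucc 324, .negSucc 65, .ofNat 31, .negSucc 286, .negSucc 156, .negSucc 71⟩, .ofNat 430, .negSucc 202, .ofNat 0, .negSucc 202, .ofNat 715, .ofNat 0, .ofNat 362, .ofNat 198, .negSucc 206, .ofNat 0, .ofNat 284, .negSucc 17, .ofNat 0, .ofNat 0, .ofNat 941, .ofNat 14179, .ofNat 0, .ofNat 0, .ofNat 152200188391872924131681894400, .ofNat 0, .ofNat 0, .ofNat 0, .ofNat 0, .ofNat 0, .ofNat 0, .ofNat 0, .ofNat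 0, .ofNat 0, .ofNat 3861488718394642836695786559897600, .ofNat 0, .ofNat 7374407013208987431561540403200, .ofNat 0⟩)
    (by decide +kernel)
theorem L00332 : Good (Phi V4.P V4.D (-1) 1) ⟨2, 1, 2, 2, 2, 3, 2, 0, 3, 3⟩ :=
  leaf_sound (S := T4.ds_mp) T4.ok_mp (w := 168) (c := ⟨⟨.negSucc 911, .negSucc 283, .negSucc 65, .ofNat 0, .ofNat 29, .ofNat 0⟩, ⟨.negSucc 492, .negSucc 18, .negSucc 217, .ofNat 0, .ofNat 13, .ofNat 0⟩, ⟨.ofNat 950, .ofNat 420, .ofNat 137, .ofNat 0, .negSucc 307, .ofNat 0⟩, ⟨.negSucc 2252, .negSucc 238, .negSucc 77, .ofNat 0, .ofNat 178, .ofNat 0⟩, ⟨.negSucc 547, .negSucc 146, .ofNat 82, .ofNat 0, .negSucc 198, .ofNat 0⟩, .ofNat 189, .negSucc 32, .ofNat 0, .negSucc 32, .ofNat 236, .ofNat 0, .ofNat 652, .ofNat 51, .negSucc 676, .ofNat 0, .ofNat 465, .ofNat 163, .ofNat 0, .ofNat 0, .ofNat 1331, .ofNat 29433, .ofNat 0, .ofNat 20143168185437533563792025190400,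 .ofNat 290277195045194664393257779200, .ofNat 0, .ofNat 5437691137933383033565279263129600, .ofNat 2280815810776563658030273108377600, .ofNat 5513682155209636147704417484800, .ofNat 0, .ofNat 0, .ofNat 2904028189670129736910546088755200, .ofNat 0, .ofNat 0, .ofNat 0, .ofNat 1688125902954950556936005536972800, .ofNat 11383632097336405574026474291200, .ofNat 0⟩)
    (by decide +kernel)
theorem L00333 : Good (Phi V4.P V4.D (-1) 1) ⟨2, 1, 2, 2, 2, 2, 2, 1, 3, 3⟩ :=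
  leaf_sound (S := T4.ds_mp) T4.ok_mp (w := 168) (c := ⟨⟨.negSucc 707, .negSucc 212, .negSucc 34, .negSucc 208, .ofNat 76, .ofNat 70⟩, ⟨.negSucc 382, .negSucc 7, .negSucc 172, .negSucc 106, .ofNat 37, .ofNat 34⟩, ⟨.ofNat 505, .ofNat 339, .ofNat 75, .ofNat 196, .negSucc 236, .negSucc 60⟩, ⟨.negSucc 1718, .negSucc 181, .negSucc 20, .negSucc 366, .ofNat 240, .ofNat 205⟩, ⟨.negSucc 471, .negSucc 93, .ofNat 59, .negSucc 330, .negSucc 94, .negSucc 51⟩, .ofNat 429, .negSucc 202, .ofNat 0, .negSucc 202, .ofNat 717, .ofNat 0, .ofNat 370, .ofNat 208, .negSucc 239, .ofNat 0, .ofNat 290, .negSucc 35, .ofNat 0, .ofNat 0, .ofNat 897, .ofNat 21868, .ofNat 0, .ofNat 4419122147584912546357837824000, .ofNat 89711703328661943646106419200, .ofNat 0, .ofNat 0, .ofNat 208930155802875122334516117504000, .ofNat 9234426755236362430144787251200, .ofNat 0, .ofNat 0, .ofNat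 201527032303341132995266766438400, .ofNat 8081336293714049757456472473600, .ofNat 0, .ofNat 0, .ofNat 180729591195780078616357267046400, .ofNat 8920428695464051867143005798400, .ofNat 0⟩)
    (by decide +kernel)
theorem L00334 : Good (Phi V4.P V4.D (-1) 1) ⟨2, 1, 2, 2, 2, 3, 2, 1, 3, 3⟩ :=
  out_sound (S := T4.ds_mp) T4.ok_mp (w := 32) (j := 2) (by decide +kernel)
theorem L00335 : Good (Phi V4.P V4.D (-1) 1) ⟨1, 0, 2, 3, 1, 1, 1, 0, 2, 1⟩ :=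
  out_sound (S := T4.ds_mp) T4.ok_mp (w := 32) (j := 3) (by decide +kernel)
theorem L00336 : Good (Phi V4.P V4.D (-1) 1) ⟨2, 0, 1, 0, 2, 2, 2, 2, 3, 2⟩ :=
  leaf_sound (S := T4.ds_mp) T4.ok_mp (w := 168) (c := ⟨⟨.negSucc 484, .negSucc 60, .negSucc 117, .negSucc 163, .ofNat 100, .ofNat 50⟩, ⟨.negSucc 52, .negSucc 33, .negSucc 270, .negSucc 50, .ofNat 27, .ofNat 13⟩, ⟨.ofNat 145, .ofNat 89, .ofNat 71, .ofNat 106, .negSucc 162, .negSucc 43⟩, ⟨.negSucc 1506, .ofNat 27, .negSucc 56, .negSucc 431, .ofNat 284, .ofNat 135⟩, ⟨.negSucc 437, .negSucc 203, .ofNat 34, .negSucc 227, .ofNat 30, .negSucc 15⟩, .ofNat 409, .negSucc 83, .ofNat 0, .negSucc 83, .ofNat 650, .ofNat 0, .ofNat 503, .ofNat 118, .negSucc 347, .ofNat 0, .ofNat 346, .negSucc 1, .ofNat 0, .ofNat 0, .ofNat 898, .ofNat 6767, .ofNat 0, .ofNat 0, .ofNat 0, .ofNat 0, .ofNat 0, .ofNat 0, .ofNat 0, .ofNat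 0, .ofNat 0, .ofNat 0, .ofNat 0, .ofNat 0, .ofNat 0, .ofNat 0, .ofNat 0, .ofNat 0⟩)
    (by decide +kernel)
theorem L00337 : Good (Phi V4.P V4.D (-1) 1) ⟨2, 1, 1, 0, 2, 2, 2, 2, 3, 2⟩ :=
  leaf_sound (S := T4.ds_mp) T4.ok_mp (w := 168) (c := ⟨⟨.negSucc 512, .negSucc 220, .negSucc 217, .negSucc 223, .ofNat 136, .ofNat 96⟩, ⟨.negSucc 42, .ofNat 28, .negSucc 368, .negSucc 73, .ofNat 35, .ofNat 31⟩, ⟨.ofNat 191, .ofNat 251, .ofNat 201, .ofNat 144, .negSucc 220, .negSucc 48⟩, ⟨.negSucc 1486, .negSucc 200, .negSucc 205, .negSucc 465, .ofNat 343, .ofNat 246⟩, ⟨.negSucc 516, .negSucc 153, .ofNat 79, .negSucc 416, .negSucc 50, .negSucc 70⟩, .ofNat 377, .negSucc 98, .ofNat 0, .negSucc 98, .ofNat 732, .ofNat 0, .ofNat 538, .ofNat 152, .negSucc 420, .ofNat 0, .ofNat 322, .negSucc 18, .ofNat 0, .ofNat 0, .ofNat 940, .ofNat 5728, .ofNat 0, .ofNat 0, .ofNat 0, .ofNat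 0, .ofNat 0, .ofNat 0, .ofNat 0, .ofNat 0, .ofNat 0, .ofNat 0, .ofNat 0, .ofNat 0, .ofNat 0, .ofNat 0, .ofNat 0, .ofNat 0⟩)
    (by decide +kernel)
theorem L00338 : Good (Phi V4.P V4.D (-1) 1) ⟨1, 0, 1, 0, 2, 3, 2, 2, 3, 2⟩ :=
  leaf_sound (S := T4.ds_mp) T4.ok_mp (w := 160) (c := ⟨⟨.negSucc 559, .negSucc 392, .negSucc 174, .negSucc 185, .ofNat 60, .ofNat 72⟩, ⟨.negSucc 21, .ofNat 12, .negSucc 434, .negSucc 94, .negSucc 28, .negSucc 60⟩, ⟨.ofNat 210, .ofNat 339, .ofNat 125, .ofNat 62, .negSucc 137, .negSucc 37⟩, ⟨.negSucc 1885, .negSucc 249, .negSucc 100, .negSucc 474, .ofNat 221, .ofNat 226⟩, ⟨.negSucc 531, .negSucc 711, .ofNat 121, .negSucc 209, .negSucc 56, .negSucc 109⟩, .ofNat 395, .negSucc 99, .ofNat 0, .negSucc 99, .ofNat 687, .ofNat 0, .ofNat 603, .ofNat 158, .negSucc 385, .ofNat 0, .ofNat 369, .ofNat 4, .ofNat 0, .ofNat 0, .ofNat 956, .ofNat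 2438, .ofNat 0, .ofNat 0, .ofNat 0, .ofNat 0, .ofNat 0, .ofNat 3939964409613818373692247244800, .ofNat 0, .ofNat 0, .ofNat 0, .ofNat 3698942302466975350363521024000, .ofNat 0, .ofNat 0, .ofNat 0, .ofNat 1340474171906729287699188940800, .ofNat 0, .ofNat 0⟩)
    (by decide +kernel)
theorem L00339 : Good (Phi V4.P V4.D (-1) 1) ⟨1, 0, 1, 0, 1, 1, 2, 2, 3, 3⟩ :=
  leaf_sound (S := T4.ds_mp) T4.ok_mp (w := 152) (c := ⟨⟨.negSucc 435, .negSucc 222, .negSucc 125, .negSucc 257, .ofNat 125, .ofNat 74⟩, ⟨.negSucc 69, .ofNat 24, .negSucc 283, .negSucc 66, .ofNat 30, .ofNat 21⟩, ⟨.ofNat 55, .ofNat 349, .ofNat 105, .ofNat 180, .negSucc 173, .negSucc 46⟩, ⟨.negSucc 1403, .negSucc 93, .negSucc 73, .negSucc 579, .ofNat 343, .ofNat 190⟩, ⟨.negSucc 429, .negSucc 312, .ofNat 41, .negSucc 709, .negSucc 0, .negSucc 9⟩, .ofNat 396, .negSucc 100, .ofNat 0, .negSucc 100, .ofNat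 682, .ofNat 0, .ofNat 428, .ofNat 120, .negSucc 285, .ofNat 0, .ofNat 292, .negSucc 15, .ofNat 0, .ofNat 0, .ofNat 830, .ofNat 5291, .ofNat 0, .ofNat 0, .ofNat 0, .ofNat 0, .ofNat 0, .ofNat 36592702434591348070180454400, .ofNat 0, .ofNat 0, .ofNat 0, .ofNat 43334032246816668573184819200, .ofNat 0, .ofNat 0, .ofNat 0, .ofNat 28479593219861273975665459200, .ofNat 0, .ofNat 0⟩)
    (by decide +kernel)
theorem L00340 : Good (Phi V4.P V4.D (-1) 1) ⟨1, 0, 1, 0, 1, 1, 2, 3, 2, 1⟩ :=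
  leaf_sound (S := T4.ds_mp) T4.ok_mp (w := 144) (c := ⟨⟨.negSucc 306, .negSucc 256, .negSucc 175, .negSucc 451, .ofNat 187, .ofNat 141⟩, ⟨.negSucc 18, .negSucc 21, .negSucc 277, .negSucc 165, .ofNat 48, .ofNat 48⟩, ⟨.negSucc 110, .ofNat 306, .ofNat 133, .ofNat 363, .negSucc 204, .negSucc 63⟩, ⟨.negSucc 1111, .negSucc 162, .negSucc 159, .negSucc 1013, .ofNat 487, .ofNat 386⟩, ⟨.negSucc 359, .negSucc 377, .negSucc 5, .negSucc 608, .ofNat 98, .negSucc 3⟩, .ofNat 394, .negSucc 101, .ofNat 0, .negSucc 101, .ofNat 697, .ofNat 0, .ofNat 557, .ofNat 173, .negSucc 502, .ofNat 0, .ofNat 360, .negSucc 60, .ofNat 0, .ofNat 0, .ofNat 959, .ofNat 2529, .ofNat 0, .ofNat 0, .ofNat 0, .ofNat 0, .ofNat 0, .ofNat 14527638352692310958722252800, .ofNat 0, .ofNat 0, .ofNat 0, .ofNat 12218078052723495222116352000, .ofNat 0, .ofNat 0, .ofNat 0, .ofNat 12496290928365783021413990400,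 .ofNat 0, .ofNat 0⟩)
    (by decide +kernel)
theorem L00341 : Good (Phi V4.P V4.D (-1) 1) ⟨2, 0, 1, 1, 2, 2, 2, 2, 2, 1⟩ :=
  leaf_sound (S := T4.ds_mp) T4.ok_mp (w := 160) (c := ⟨⟨.negSucc 534, .negSucc 140, .negSucc 115, .negSucc 199, .ofNat 92, .ofNat 86⟩, ⟨.negSucc 303, .negSucc 63, .negSucc 270, .negSucc 114, .ofNat 50, .ofNat 46⟩, ⟨.ofNat 151, .ofNat 191, .ofNat 99, .ofNat 138, .negSucc 172, .negSucc 73⟩, ⟨.negSucc 1474, .negSucc 105, .negSucc 40, .negSucc 443, .ofNat 264, .ofNat 259⟩, ⟨.negSucc 408, .negSucc 161, .negSucc 1, .negSucc 235, .ofNat 1, .negSucc 24⟩, .ofNat 893, .negSucc 756, .ofNat 0, .negSucc 756, .ofNat 1778, .ofNat 0, .ofNat 300, .ofNat 327, .negSucc 237, .ofNat 0, .ofNat 285, .negSucc 95, .ofNat 0, .ofNat 0, .ofNat 856, .ofNat 6749, .ofNat 0, .ofNat 0, .ofNat 1350016623942817827048652800, .ofNat 0, .ofNat 0, .ofNat 0, .ofNat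 0, .ofNat 0, .ofNat 0, .ofNat 0, .ofNat 462632452560933599997591552000, .ofNat 0, .ofNat 0, .ofNat 0, .ofNat 590200384453230784305482956800, .ofNat 0⟩)
    (by decide +kernel)
theorem L00342 : Good (Phi V4.P V4.D (-1) 1) ⟨2, 0, 1, 1, 2, 3, 2, 2, 3, 2⟩ :=
  leaf_sound (S := T4.ds_mp) T4.ok_mp (w := 168) (c := ⟨⟨.negSucc 691, .negSucc 199, .negSucc 158, .negSucc 183, .ofNat 65, .ofNat 34⟩, ⟨.negSucc 394, .negSucc 93, .negSucc 370, .negSucc 100, .ofNat 36, .ofNat 22⟩, ⟨.ofNat 302, .ofNat 186, .ofNat 132, .ofNat 29, .negSucc 168, .negSucc 35⟩, ⟨.negSucc 1932, .negSucc 116, .negSucc 166, .negSucc 456, .ofNat 229, .ofNat 160⟩, ⟨.negSucc 486, .negSucc 333, .ofNat 168, .negSucc 120, .negSucc 68, .negSucc 93⟩, .ofNat 1781, .negSucc 2186, .ofNat 0, .negSucc 2186, .ofNat 4333, .ofNat 0, .ofNat 245, .ofNat 437, .negSucc 218, .ofNat 0, .ofNat 301, .negSucc 103,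 .ofNat 0, .ofNat 0, .ofNat 905, .ofNat 8059, .ofNat 0, .ofNat 0, .ofNat 83100266558532309615221145600, .ofNat 0, .ofNat 0, .ofNat 39654076867765563000460463308800, .ofNat 10082611801280891583032249548800, .ofNat 0, .ofNat 0, .ofNat 17373936274861855375777333248000, .ofNat 6377873315034336332127141888000, .ofNat 0, .ofNat 0, .ofNat 8577425207927678245175033856000, .ofNat 11456451286049743788269843251200, .ofNat 0⟩)
    (by decide +kernel)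
theorem L00343 : Good (Phi V4.P V4.D (-1) 1) ⟨2, 0, 1, 1, 2, 3, 2, 2, 3, 3⟩ :=
  out_sound (S := T4.ds_mp) T4.ok_mp (w := 32) (j := 2) (by decide +kernel)
theorem L00344 : Good (Phi V4.P V4.D (-1) 1) ⟨2, 0, 1, 1, 2, 2, 2, 3, 2, 1⟩ :=
  leaf_sound (S := T4.ds_mp) T4.ok_mp (w := 160) (c := ⟨⟨.negSucc 446, .negSucc 122, .negSucc 169, .negSucc 218, .ofNat 169, .ofNat 103⟩, ⟨.negSucc 255, .negSucc 55, .negSucc 284, .negSucc 125, .ofNat 95, .ofNat 57⟩, ⟨.negSucc 20, .ofNat 168, .ofNat 109, .ofNat 156, .negSucc 187, .negSucc 27⟩, ⟨.negSucc 1201, .negSucc 77, .negSucc 176, .negSucc 497, .ofNat 415, .ofNat 266⟩, ⟨.negSucc 405, .negSucc 177, .negSucc 30, .negSucc 234, .ofNat 131, .ofNat 63⟩, .ofNat 455, .negSucc 201, .ofNat 0, .negSucc 201, .ofNat 692, .ofNat 0, .ofNat 478, .ofNat 290, .negSucc 446, .ofNat 0, .ofNat 394, .negSucc 131, .ofNat 0, .ofNat 0, .ofNat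 941, .ofNat 2917, .ofNat 0, .ofNat 0, .ofNat 1025697488663014575597158400, .ofNat 0, .ofNat 0, .ofNat 32577629342542266989944818892800, .ofNat 0, .ofNat 0, .ofNat 0, .ofNat 28130921949558223567899013939200, .ofNat 0, .ofNat 0, .ofNat 0, .ofNat 15375857661095548129479386726400, .ofNat 0, .ofNat 0⟩)
    (by decide +kernel)
theorem L00345 : Good (Phi V4.P V4.D (-1) 1) ⟨2, 0, 1, 1, 2, 3, 2, 3, 2, 1⟩ :=
  leaf_sound (S := T4.ds_mp) T4.ok_mp (w := 160) (c := ⟨⟨.negSucc 618, .negSucc 189, .negSucc 178, .ofNat 0, .ofNat 90, .ofNat 0⟩, ⟨.negSucc 353, .negSucc 88, .negSucc 335, .ofNat 0, .ofNat 46, .ofNat 0⟩, ⟨.ofNat 115, .ofNat 189, .ofNat 127, .ofNat 0, .negSucc 125, .ofNat 0⟩, ⟨.negSucc 1662, .negSucc 142, .negSucc 159, .ofNat 0, .ofNat 226, .ofNat 0⟩, ⟨.negSucc 539, .negSucc 307, .ofNat 36, .ofNat 0, .ofNat 40, .ofNat 0⟩, .ofNat 454, .negSucc 201, .ofNat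 0, .negSucc 201, .ofNat 693, .ofNat 0, .ofNat 1099, .ofNat 703, .negSucc 976, .ofNat 0, .ofNat 879, .negSucc 241, .ofNat 0, .ofNat 0, .ofNat 2010, .ofNat 28873, .ofNat 0, .ofNat 4510221289550112483762713395200, .ofNat 0, .ofNat 0, .ofNat 0, .ofNat 926057104061359801643472361881600, .ofNat 2918128131115941686663341670400, .ofNat 0, .ofNat 0, .ofNat 1071674569791688986599771602944000, .ofNat 3417850440250512652564955136000, .ofNat 0, .ofNat 0, .ofNat 712704926225460747262986761011200, .ofNat 5085137584531967649828883660800, .ofNat 0⟩)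
    (by decide +kernel)
theorem L00346 : Good (Phi V4.P V4.D (-1) 1) ⟨2, 1, 3, 4, 1, 1, 2, 2, 2, 1⟩ :=
  leaf_sound (S := T4.ds_mp) T4.ok_mp (w := 152) (c := ⟨⟨.negSucc 655, .negSucc 275, .negSucc 49, .negSucc 486, .ofNat 95, .ofNat 137⟩, ⟨.negSucc 356, .negSucc 39, .negSucc 95, .negSucc 255, .ofNat 44, .ofNat 67⟩, ⟨.ofNat 318, .ofNat 341, .ofNat 55, .ofNat 253, .negSucc 176, .negSucc 79⟩, ⟨.negSucc 1576, .negSucc 293, .negSucc 53, .negSucc 980, .ofNat 276, .ofNat 381⟩, ⟨.negSucc 502, .negSucc 177, .negSucc 1, .negSucc 567, .negSucc 60, .negSucc 64⟩, .ofNat 432, .negSucc 205, .ofNat 0, .negSucc 205, .ofNat 717, .ofNat 0, .ofNat 455, .ofNat 273, .negSucc 376, .ofNat 0, .ofNat 352, .negSucc 83, .ofNat 0, .ofNat 0, .ofNat 944, .ofNat 3279, .ofNat 0, .ofNat 0, .ofNat 552169682348169101414400, .ofNat 0, .ofNat 0, .ofNat 1660717528871777993816329420800,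 .ofNat 631801953176837233626316800, .ofNat 0, .ofNat 0, .ofNat 0, .ofNat 0, .ofNat 0, .ofNat 0, .ofNat 1470737449656528472927685836800, .ofNat 0, .ofNat 0⟩)
    (by decide +kernel)
theorem L00347 : Good (Phi V4.P V4.D (-1) 1) ⟨2, 1, 3, 5, 1, 1, 2, 2, 2, 1⟩ :=
  out_sound (S := T4.ds_mp) T4.ok_mp (w := 40) (j := 3) (by decide +kernel)
theorem L00348 : Good (Phi V4.P V4.D (-1) 1) ⟨2, 1, 2, 3, 1, 1, 2, 2, 2, 1⟩ :=
  out_sound (S := T4.ds_mp) T4.ok_mp (w := 40) (j := 3) (by decide +kernel)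
theorem L00349 : Good (Phi V4.P V4.D (-1) 1) ⟨2, 1, 1, 1, 1, 1, 2, 3, 2, 1⟩ :=
  leaf_sound (S := T4.ds_mp) T4.ok_mp (w := 152) (c := ⟨⟨.negSucc 561, .negSucc 226, .negSucc 192, .negSucc 558, .ofNat 199, .ofNat 179⟩, ⟨.negSucc 309, .negSucc 33, .negSucc 320, .negSucc 284, .ofNat 102, .ofNat 93⟩, ⟨.ofNat 142, .ofNat 258, .ofNat 170, .ofNat 382, .negSucc 217, .negSucc 75⟩, ⟨.negSucc 1305, .negSucc 233, .negSucc 206, .negSucc 1064, .ofNat 482, .ofNat 473⟩, ⟨.negSucc 513, .negSucc 179, .ofNat 3, .negSucc 748, .ofNat 62, .negSucc 26⟩, .ofNat 427, .negSucc 200, .ofNat 0, .negSucc 200, .ofNat 716, .ofNat 0, .ofNat 506, .ofNat 313, .negSucc 530, .ofNat 0, .ofNat 391, .negSucc 153, .ofNat 0, .ofNat 0, .ofNat 985, .ofNat 2180, .ofNat 0, .ofNat 0, .ofNat 0, .ofNat 0, .ofNat 0, .ofNat 259548394426461574395435417600, .ofNat 0, .ofNat 0, .ofNat 0, .ofNat 255998315708251226961975705600,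 .ofNat 928402983312337841946624000, .ofNat 0, .ofNat 0, .ofNat 190030319107839991884231475200, .ofNat 1567537360889194995410534400, .ofNat 0⟩)
    (by decide +kernel)
theorem L00350 : Good (Phi V4.P V4.D (-1) 1) ⟨3, 4, 1, 0, 1, 0, 2, 0, 4, 0⟩ :=
  leaf_sound (S := T4.ds_mp) T4.ok_mp (w := 160) (c := ⟨⟨.negSucc 297, .negSucc 82, .negSucc 47, .ofNat 423, .negSucc 170, .negSucc 261⟩, ⟨.ofNat 9, .ofNat 21, .negSucc 131, .ofNat 26, .negSucc 16, .negSucc 29⟩, ⟨.ofNat 674, .ofNat 54, .ofNat 74, .negSucc 658, .negSucc 59, .ofNat 235⟩, ⟨.negSucc 682, .negSucc 90, .negSucc 66, .ofNat 922, .negSucc 354, .negSucc 567⟩, ⟨.ofNat 97, .ofNat 1, .ofNat 44, .negSucc 340, .negSucc 131, .ofNat 14⟩, .ofNat 333, .negSucc 40, .ofNat 0, .negSucc 40, .ofNat 722, .ofNat 0, .ofNat 287, .ofNat 33, .negSucc 382, .ofNat 0, .ofNat 163, .negSucc 4, .ofNat 0, .ofNat 0, .ofNat 570,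 .ofNat 3828, .ofNat 0, .ofNat 0, .ofNat 0, .ofNat 0, .ofNat 0, .ofNat 0, .ofNat 0, .ofNat 0, .ofNat 0, .ofNat 0, .ofNat 0, .ofNat 0, .ofNat 0, .ofNat 0, .ofNat 4609987525790711327961907200, .ofNat 0⟩)
    (by decide +kernel)
theorem L00351 : Good (Phi V4.P V4.D (-1) 1) ⟨3, 4, 1, 0, 1, 0, 2, 0, 4, 1⟩ :=
  leaf_sound (S := T4.ds_mp) T4.ok_mp (w := 160) (c := ⟨⟨.negSucc 468, .negSucc 175, .negSucc 22, .ofNat 200, .negSucc 71, .negSucc 243⟩, ⟨.ofNat 16, .ofNat 42, .negSucc 217, .negSucc 1, .negSucc 15, .negSucc 18⟩, ⟨.ofNat 826, .ofNat 157, .ofNat 52, .negSucc 444, .negSucc 171, .ofNat 218⟩, ⟨.negSucc 1083, .negSucc 197, .negSucc 4, .ofNat 428, .negSucc 154, .negSucc 506⟩, ⟨.ofNat 97, .negSucc 4, .ofNat 57, .negSucc 320, .negSucc 123, .ofNat 1⟩, .ofNat 330, .negSucc 25, .ofNat 0, .negSucc 25, .ofNat 739, .ofNat 0, .ofNat 288, .ofNat 20, .negSucc 350,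 .ofNat 0, .ofNat 159, .ofNat 9, .ofNat 0, .ofNat 0, .ofNat 560, .ofNat 3462, .ofNat 0, .ofNat 0, .ofNat 0, .ofNat 0, .ofNat 0, .ofNat 0, .ofNat 0, .ofNat 0, .ofNat 0, .ofNat 0, .ofNat 0, .ofNat 0, .ofNat 0, .ofNat 0, .ofNat 0, .ofNat 0⟩)
    (by decide +kernel)
theorem L00352 : Good (Phi V4.P V4.D (-1) 1) ⟨3, 4, 1, 0, 1, 0, 2, 1, 3, 0⟩ :=
  leaf_sound (S := T4.ds_mp) T4.ok_mp (w := 160) (c := ⟨⟨.negSucc 296, .negSucc 154, .negSucc 101, .ofNat 84, .negSucc 94, .negSucc 357⟩, ⟨.ofNat 29, .ofNat 35, .negSucc 239, .negSucc 25, .negSucc 7, .negSucc 18⟩, ⟨.ofNat 409, .ofNat 136, .ofNat 102, .negSucc 282, .negSucc 154, .ofNat 324⟩, ⟨.negSucc 740, .negSucc 173, .negSucc 128, .ofNat 213, .negSucc 183, .negSucc 749⟩, ⟨.ofNat 47, .ofNat 33, .ofNat 47, .negSucc 519, .negSucc 106, .ofNat 8⟩, .ofNat 454, .negSucc 122, .ofNat 0, .negSucc 122, .ofNat 1661, .ofNat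 0, .ofNat 281, .ofNat 54, .negSucc 285, .ofNat 0, .ofNat 122, .negSucc 11, .ofNat 0, .ofNat 0, .ofNat 544, .ofNat 1061, .ofNat 0, .ofNat 0, .ofNat 2233548318777874353561600, .ofNat 0, .ofNat 0, .ofNat 0, .ofNat 0, .ofNat 0, .ofNat 0, .ofNat 0, .ofNat 865422981477140545614643200, .ofNat 0, .ofNat 0, .ofNat 0, .ofNat 0, .ofNat 0⟩)
    (by decide +kernel)
theorem L00353 : Good (Phi V4.P V4.D (-1) 1) ⟨5, 20, 3, 0, 1, 0, 2, 0, 3, 0⟩ :=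
  leaf_sound (S := T4.ds_mp) T4.ok_mp (w := 168) (c := ⟨⟨.negSucc 365, .negSucc 27, .ofNat 2, .ofNat 463, .negSucc 161, .negSucc 619⟩, ⟨.ofNat 43, .ofNat 10, .negSucc 47, .negSucc 39, .ofNat 2, .ofNat 31⟩, ⟨.ofNat 735, .ofNat 20, .ofNat 1, .negSucc 733, .negSucc 72, .ofNat 577⟩, ⟨.negSucc 730, .negSucc 20, .ofNat 16, .ofNat 883, .negSucc 316, .negSucc 1198⟩, ⟨.ofNat 82, .ofNat 23, .negSucc 3, .negSucc 354, .negSucc 101, .ofNat 45⟩, .ofNat 475, .ofNat 126, .ofNat 0, .ofNat 126, .ofNat 2745, .ofNat 0, .ofNat 273, .negSucc 37, .negSucc 317, .ofNat 0, .ofNat 99, .ofNat 23, .ofNat 0, .ofNat 0, .ofNat 533, .ofNat 2986, .ofNat 0, .ofNat 0, .ofNat 0, .ofNat 0, .ofNat 0, .ofNat 0, .ofNat 0, .ofNat 0, .ofNat 0, .ofNat 0, .ofNat 0, .ofNat 0, .ofNat 0, .ofNat 0, .ofNat 0, .ofNat 0⟩)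
    (by decide +kernel)
theorem L00354 : Good (Phi V4.P V4.D (-1) 1) ⟨5, 21, 3, 0, 1, 0, 2, 0, 4, 0⟩ :=
  leaf_sound (S := T4.ds_mp) T4.ok_mp (w := 176) (c := ⟨⟨.negSucc 421, .negSucc 49, .negSucc 32, .ofNat 739, .negSucc 245, .negSucc 402⟩, ⟨.ofNat 53, .ofNat 12, .negSucc 36, .negSucc 95, .ofNat 14, .ofNat 38⟩, ⟨.ofNat 788, .ofNat 49, .ofNat 36, .negSucc 1021, .ofNat 13, .ofNat 381⟩, ⟨.negSucc 798, .negSucc 67, .negSucc 50, .ofNat 1351, .negSucc 468, .negSucc 752⟩, ⟨.ofNat 94, .ofNat 2, .ofNat 1, .negSucc 393, .negSucc 101, .ofNat 30⟩, .ofNat 469, .ofNat 186, .ofNat 0, .ofNat 186, .ofNat 2295, .ofNat 0, .ofNat 277, .negSucc 61, .negSucc 363, .ofNat 0, .ofNat 113, .ofNat 41, .ofNat 0, .ofNat 0, .ofNat 555, .ofNat 3443, .ofNat 0, .ofNat 0, .ofNat 0, .ofNat 0, .ofNat 0, .ofNat 0, .ofNat 0, .ofNat 0, .ofNat 0, .ofNat 0, .ofNat 0, .ofNat 0, .ofNat 0,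 .ofNat 0, .ofNat 0, .ofNat 0⟩)
    (by decide +kernel)
theorem L00355 : Good (Phi V4.P V4.D (-1) 1) ⟨5, 21, 3, 0, 1, 0, 2, 0, 4, 1⟩ :=
  leaf_sound (S := T4.ds_mp) T4.ok_mp (w := 176) (c := ⟨⟨.negSucc 703, .negSucc 41, .negSucc 29, .ofNat 320, .negSucc 127, .negSucc 256⟩, ⟨.ofNat 83, .ofNat 19, .negSucc 59, .negSucc 56, .ofNat 1, .ofNat 29⟩, ⟨.ofNat 1047, .ofNat 36, .ofNat 45, .negSucc 605, .negSucc 103, .ofNat 240⟩, ⟨.negSucc 1337, .negSucc 30, .negSucc 48, .ofNat 565, .negSucc 248, .negSucc 471⟩, ⟨.ofNat 86, .ofNat 12, .ofNat 21, .negSucc 350, .negSucc 136, .ofNat 87⟩, .ofNat 470, .ofNat 193, .ofNat 0, .ofNat 193, .ofNat 2303, .ofNat 0, .ofNat 277, .negSucc 63, .negSucc 334, .ofNat 0, .ofNat 113, .ofNat 40, .ofNat 0, .ofNat 0, .ofNat 550, .ofNat 3838, .ofNat 0, .ofNat 0, .ofNat 0, .ofNat 0, .ofNat 0, .ofNat 0, .ofNat 0, .ofNat 0, .ofNat 0, .ofNat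 0, .ofNat 0, .ofNat 0, .ofNat 0, .ofNat 0, .ofNat 0, .ofNat 0⟩)
    (by decide +kernel)
theorem L00356 : Good (Phi V4.P V4.D (-1) 1) ⟨4, 10, 3, 0, 1, 0, 2, 1, 3, 0⟩ :=
  leaf_sound (S := T4.ds_mp) T4.ok_mp (w := 168) (c := ⟨⟨.negSucc 506, .negSucc 82, .negSucc 19, .ofNat 236, .negSucc 83, .negSucc 400⟩, ⟨.ofNat 51, .ofNat 31, .negSucc 55, .negSucc 55, .negSucc 0, .ofNat 28⟩, ⟨.ofNat 622, .ofNat 70, .ofNat 20, .negSucc 474, .negSucc 175, .ofNat 366⟩, ⟨.negSucc 1004, .negSucc 80, .negSucc 21, .ofNat 413, .negSucc 163, .negSucc 762⟩, ⟨.ofNat 71, .ofNat 17, .ofNat 18, .negSucc 549, .negSucc 118, .ofNat 52⟩, .ofNat 470, .ofNat 143, .ofNat 0, .ofNat 143, .ofNat 2468, .ofNat 0, .ofNat 289, .negSucc 45, .negSucc 334, .ofNat 0, .ofNat 112, .ofNat 29, .ofNat 0, .ofNat 0, .ofNat 575, .ofNat 1850, .ofNat 0, .ofNat 0, .ofNat 0, .ofNat 0, .ofNat 0, .ofNat 0, .ofNat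 0, .ofNat 0, .ofNat 0, .ofNat 0, .ofNat 0, .ofNat 0, .ofNat 0, .ofNat 0, .ofNat 0, .ofNat 0⟩)
    (by decide +kernel)
theorem L00357 : Good (Phi V4.P V4.D (-1) 1) ⟨5, 20, 3, 1, 1, 0, 2, 0, 3, 0⟩ :=
  leaf_sound (S := T4.ds_mp) T4.ok_mp (w := 168) (c := ⟨⟨.negSucc 425, .ofNat 51, .ofNat 49, .ofNat 403, .negSucc 149, .negSucc 591⟩, ⟨.ofNat 6, .ofNat 14, .negSucc 38, .negSucc 25, .negSucc 10, .negSucc 0⟩, ⟨.ofNat 803, .negSucc 60, .negSucc 54, .negSucc 672, .negSucc 91, .ofNat 552⟩, ⟨.negSucc 848, .ofNat 137, .ofNat 109, .ofNat 784, .negSucc 290, .negSucc 1145⟩, ⟨.ofNat 44, .ofNat 25, .ofNat 84, .negSucc 318, .negSucc 103, .ofNat 51⟩, .ofNat 488, .negSucc 24, .ofNat 0, .negSucc 24, .ofNat 2628, .ofNat 0, .ofNat 276, .ofNat 6, .negSucc 314, .ofNat 0, .ofNat 110, .ofNat 6, .ofNat 0, .ofNat 0, .ofNat 532, .ofNat 3007, .ofNat 0, .ofNat 0, .ofNat 0, .ofNat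 0, .ofNat 0, .ofNat 0, .ofNat 0, .ofNat 0, .ofNat 0, .ofNat 0, .ofNat 0, .ofNat 0, .ofNat 0, .ofNat 0, .ofNat 0, .ofNat 0⟩)
    (by decide +kernel)
theorem L00358 : Good (Phi V4.P V4.D (-1) 1) ⟨5, 20, 3, 1, 1, 0, 2, 1, 3, 0⟩ :=
  leaf_sound (S := T4.ds_mp) T4.ok_mp (w := 168) (c := ⟨⟨.negSucc 448, .negSucc 59, .negSucc 86, .ofNat 100, .negSucc 98, .negSucc 381⟩, ⟨.ofNat 9, .ofNat 12, .negSucc 66, .negSucc 46, .negSucc 8, .ofNat 2⟩, ⟨.ofNat 542, .ofNat 59, .ofNat 93, .negSucc 319, .negSucc 151, .ofNat 364⟩, ⟨.negSucc 892, .negSucc 77, .negSucc 157, .ofNat 198, .negSucc 189, .negSucc 736⟩, ⟨.ofNat 63, .ofNat 0, .ofNat 18, .negSucc 513, .negSucc 110, .ofNat 39⟩, .ofNat 468, .negSucc 14, .ofNat 0, .negSucc 14, .ofNat 2132, .ofNat 0, .ofNat 292, .ofNat 5, .negSucc 322, .ofNat 0, .ofNat 121, .ofNat 9, .ofNat 0, .ofNat 0, .ofNat 571, .ofNat 2378, .ofNat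 0, .ofNat 0, .ofNat 0, .ofNat 0, .ofNat 0, .ofNat 0, .ofNat 0, .ofNat 0, .ofNat 0, .ofNat 0, .ofNat 0, .ofNat 0, .ofNat 0, .ofNat 0, .ofNat 0, .ofNat 0⟩)
    (by decide +kernel)
theorem L00359 : Good (Phi V4.P V4.D (-1) 1) ⟨5, 21, 4, 2, 1, 0, 2, 0, 3, 0⟩ :=
  leaf_sound (S := T4.ds_mp) T4.ok_mp (w := 168) (c := ⟨⟨.negSucc 377, .negSucc 588, .negSucc 335, .ofNat 443, .negSucc 128, .negSucc 580⟩, ⟨.ofNat 17, .ofNat 24, .negSucc 8, .negSucc 41, .negSucc 9, .ofNat 18⟩, ⟨.ofNat 742, .ofNat 612, .ofNat 345, .negSucc 722, .negSucc 108, .ofNat 546⟩, ⟨.negSucc 717, .negSucc 1089, .negSucc 637, .ofNat 835, .negSucc 247, .negSucc 1102⟩, ⟨.ofNat 84, .negSucc 2, .ofNat 102, .negSucc 329, .negSucc 124, .ofNat 57⟩, .ofNat 461, .ofNat 40, .ofNat 0, .ofNat 40, .ofNat 1995, .ofNat 0, .ofNat 280, .negSucc 14, .negSucc 334, .ofNat 0, .ofNat 119, .ofNat 19, .ofNat 0,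 .ofNat 0, .ofNat 543, .ofNat 2950, .ofNat 4261381399680482698338493897113600, .ofNat 0, .ofNat 3260941018001384457830400, .ofNat 0, .ofNat 0, .ofNat 0, .ofNat 561601000517579592538521600, .ofNat 0, .ofNat 0, .ofNat 0, .ofNat 0, .ofNat 0, .ofNat 0, .ofNat 0, .ofNat 959626459195518022896844800, .ofNat 0⟩)
    (by decide +kernel)
theorem L00360 : Good (Phi V4.P V4.D (-1) 1) ⟨5, 21, 4, 2, 1, 0, 2, 1, 3, 0⟩ :=
  leaf_sound (S := T4.ds_mp) T4.ok_mp (w := 168) (c := ⟨⟨.negSucc 522, .negSucc 225, .negSucc 104, .ofNat 192, .negSucc 80, .negSucc 432⟩, ⟨.ofNat 15, .ofNat 24, .negSucc 17, .negSucc 52, .negSucc 7, .ofNat 13⟩, ⟨.ofNat 630, .ofNat 267, .ofNat 93, .negSucc 434, .negSucc 170, .ofNat 407⟩, ⟨.negSucc 996, .negSucc 390, .negSucc 191, .ofNat 355, .negSucc 155, .negSucc 822⟩, ⟨.ofNat 38, .ofNat 66, .ofNat 109, .negSucc 502, .negSucc 96, .ofNat 45⟩, .ofNat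 485, .ofNat 51, .ofNat 0, .ofNat 51, .ofNat 2532, .ofNat 0, .ofNat 294, .negSucc 14, .negSucc 334, .ofNat 0, .ofNat 123, .ofNat 18, .ofNat 0, .ofNat 0, .ofNat 577, .ofNat 2032, .ofNat 0, .ofNat 0, .ofNat 0, .ofNat 0, .ofNat 0, .ofNat 0, .ofNat 0, .ofNat 0, .ofNat 0, .ofNat 0, .ofNat 0, .ofNat 0, .ofNat 0, .ofNat 0, .ofNat 671682848759849687659315200, .ofNat 0⟩)
    (by decide +kernel)
theorem L00361 : Good (Phi V4.P V4.D (-1) 1) ⟨5, 21, 4, 3, 1, 0, 1, 0, 3, 0⟩ :=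
  out_sound (S := T4.ds_mp) T4.ok_mp (w := 64) (j := 3) (by decide +kernel)
theorem L00362 : Good (Phi V4.P V4.D (-1) 1) ⟨4, 11, 3, 0, 1, 0, 2, 0, 4, 0⟩ :=
  leaf_sound (S := T4.ds_mp) T4.ok_mp (w := 168) (c := ⟨⟨.negSucc 589, .ofNat 129, .ofNat 106, .ofNat 828, .negSucc 215, .negSucc 352⟩, ⟨.ofNat 82, .ofNat 5, .negSucc 48, .negSucc 137, .ofNat 18, .ofNat 47⟩, ⟨.ofNat 958, .negSucc 135, .negSucc 114, .negSucc 1127, .negSucc 17, .ofNat 334⟩, ⟨.negSucc 1074, .ofNat 285, .ofNat 204, .ofNat 1461, .negSucc 400, .negSucc 635⟩, ⟨.ofNat 73, .negSucc 13, .ofNat 5, .negSucc 388, .negSucc 75, .ofNat 33⟩, .ofNat 493, .ofNat 292, .ofNat 0, .ofNat 292, .ofNat 2426, .ofNat 0, .ofNat 272, .negSucc 82, .negSucc 383, .ofNat 0, .ofNat 120, .ofNat 56, .ofNat 0, .ofNat 0, .ofNat 574, .ofNat 4512, .ofNat 0, .ofNat 0, .ofNat 0, .ofNat 0, .ofNat 0, .ofNat 0, .ofNat 9028613412312007662423244800,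 .ofNat 0, .ofNat 0, .ofNat 0, .ofNat 46998073082037444611250585600, .ofNat 0, .ofNat 0, .ofNat 0, .ofNat 12560818570863538355778355200, .ofNat 0⟩)
    (by decide +kernel)
theorem L00363 : Good (Phi V4.P V4.D (-1) 1) ⟨4, 11, 3, 0, 1, 0, 3, 0, 4, 1⟩ :=
  leaf_sound (S := T4.ds_mp) T4.ok_mp (w := 176) (c := ⟨⟨.negSucc 774, .negSucc 142, .negSucc 13, .ofNat 469, .negSucc 69, .negSucc 380⟩, ⟨.ofNat 106, .ofNat 57, .negSucc 52, .negSucc 87, .ofNat 3, .ofNat 52⟩, ⟨.ofNat 1126, .ofNat 122, .ofNat 25, .negSucc 780, .negSucc 42, .ofNat 364⟩, ⟨.negSucc 1415, .negSucc 158, .negSucc 11, .ofNat 815, .negSucc 132, .negSucc 687⟩, ⟨.ofNat 93, .negSucc 2, .negSucc 9, .negSucc 304, .negSucc 60, .ofNat 53⟩, .ofNat 494, .ofNat 295, .ofNat 0, .ofNat 295, .ofNat 2418, .ofNat 0, .ofNat 274, .negSucc 87, .negSucc 359, .ofNat 0, .ofNat 120, .ofNat 58, .ofNat 0, .ofNat 0, .ofNat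 556, .ofNat 8694, .ofNat 0, .ofNat 0, .ofNat 0, .ofNat 0, .ofNat 0, .ofNat 0, .ofNat 0, .ofNat 0, .ofNat 0, .ofNat 0, .ofNat 398429298563396242276299571200, .ofNat 0, .ofNat 0, .ofNat 0, .ofNat 0, .ofNat 0⟩)
    (by decide +kernel)
theorem L00364 : Good (Phi V4.P V4.D (-1) 1) ⟨4, 11, 3, 0, 1, 0, 3, 1, 4, 1⟩ :=
  leaf_sound (S := T4.ds_mp) T4.ok_mp (w := 176) (c := ⟨⟨.negSucc 815, .negSucc 167, .negSucc 7, .ofNat 274, .negSucc 13, .negSucc 265⟩, ⟨.ofNat 110, .ofNat 57, .negSucc 67, .negSucc 67, .negSucc 4, .ofNat 37⟩, ⟨.ofNat 1047, .ofNat 147, .ofNat 10, .negSucc 567, .negSucc 103, .ofNat 248⟩, ⟨.negSucc 1492, .negSucc 205, .negSucc 6, .ofNat 453, .negSucc 33, .negSucc 477⟩, ⟨.ofNat 67, .negSucc 17, .ofNat 31, .negSucc 342, .negSucc 67, .ofNat 31⟩, .ofNat 494, .ofNat 296, .ofNat 0, .ofNat 296, .ofNat 2413, .ofNat 0, .ofNat 274, .negSucc 85, .negSucc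 350, .ofNat 0, .ofNat 121, .ofNat 56, .ofNat 0, .ofNat 0, .ofNat 566, .ofNat 6763, .ofNat 0, .ofNat 0, .ofNat 0, .ofNat 0, .ofNat 0, .ofNat 0, .ofNat 0, .ofNat 0, .ofNat 0, .ofNat 0, .ofNat 364891525719812297077240627200, .ofNat 0, .ofNat 0, .ofNat 0, .ofNat 175043356312087166870303539200, .ofNat 0⟩)
    (by decide +kernel)
theorem L00365 : Good (Phi V4.P V4.D (-1) 1) ⟨4, 11, 3, 0, 1, 0, 2, 1, 3, 0⟩ :=
  leaf_sound (S := T4.ds_mp) T4.ok_mp (w := 168) (c := ⟨⟨.negSucc 413, .negSucc 268, .negSucc 340, .ofNat 224, .negSucc 161, .negSucc 547⟩, ⟨.ofNat 63, .ofNat 54, .negSucc 23, .negSucc 81, .ofNat 9, .ofNat 77⟩, ⟨.ofNat 505, .ofNat 230, .ofNat 354, .negSucc 468, .negSucc 78, .ofNat 536⟩, ⟨.negSucc 761, .negSucc 418, .negSucc 600, .ofNat 341, .negSucc 308, .negSucc 983⟩, ⟨.ofNat 51, .ofNat 47, .ofNat 56, .negSucc 540, .negSucc 113, .ofNat 77⟩, .ofNat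 503, .ofNat 323, .ofNat 0, .ofNat 323, .ofNat 2593, .ofNat 0, .ofNat 292, .negSucc 92, .negSucc 379, .ofNat 0, .ofNat 128, .ofNat 61, .ofNat 0, .ofNat 0, .ofNat 605, .ofNat 1360, .ofNat 0, .ofNat 0, .ofNat 12399342671539102843699200, .ofNat 0, .ofNat 0, .ofNat 0, .ofNat 1808861007112980352362086400, .ofNat 0, .ofNat 0, .ofNat 0, .ofNat 3148869991319620927723929600, .ofNat 0, .ofNat 0, .ofNat 0, .ofNat 1692769864628334785200128000, .ofNat 0⟩)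
    (by decide +kernel)
theorem L00366 : Good (Phi V4.P V4.D (-1) 1) ⟨4, 11, 3, 1, 1, 0, 1, 0, 3, 0⟩ :=
  out_sound (S := T4.ds_mp) T4.ok_mp (w := 56) (j := 3) (by decide +kernel)
theorem L00367 : Good (Phi V4.P V4.D (-1) 1) ⟨3, 5, 2, 1, 1, 0, 1, 0, 3, 0⟩ :=
  out_sound (S := T4.ds_mp) T4.ok_mp (w := 48) (j := 3) (by decide +kernel)
theorem L00368 : Good (Phi V4.P V4.D (-1) 1) ⟨2, 2, 1, 1, 1, 0, 1, 0, 3, 0⟩ :=
  out_sound (S := T4.ds_mp) T4.ok_mp (w := 40) (j := 3) (by decide +kernel)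
theorem L00369 : Good (Phi V4.P V4.D (-1) 1) ⟨3, 4, 1, 0, 1, 0, 2, 0, 3, 1⟩ :=
  leaf_sound (S := T4.ds_mp) T4.ok_mp (w := 160) (c := ⟨⟨.negSucc 596, .negSucc 191, .negSucc 75, .negSucc 84, .ofNat 37, .negSucc 150⟩, ⟨.ofNat 19, .ofNat 59, .negSucc 297, .negSucc 25, .negSucc 4, .negSucc 8⟩, ⟨.ofNat 878, .ofNat 191, .ofNat 112, .negSucc 66, .negSucc 300, .ofNat 125⟩, ⟨.negSucc 1396, .negSucc 184, .negSucc 121, .negSucc 149, .ofNat 90, .negSucc 309⟩, ⟨.ofNat 122, .ofNat 20, .ofNat 5, .negSucc 347, .negSucc 113, .negSucc 38⟩, .ofNat 454, .negSucc 127, .ofNat 0, .negSucc 127, .ofNat 1634, .ofNat 0, .ofNat 493, .ofNat 97, .negSucc 431, .ofNat 0, .ofNat 220, .negSucc 17, .ofNat 0, .ofNat 0, .ofNat 975, .ofNat 10031, .ofNat 0, .ofNat 0, .ofNat 0, .ofNat 0, .ofNat 0, .ofNat 0, .ofNat 0, .ofNat 0, .ofNat 0, .ofNat 0, .ofNat 3429850458810757342769971200, .ofNat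 0, .ofNat 22724919116555127829688431411200, .ofNat 0, .ofNat 0, .ofNat 0⟩)
    (by decide +kernel)
theorem L00370 : Good (Phi V4.P V4.D (-1) 1) ⟨3, 4, 1, 0, 1, 0, 2, 1, 3, 1⟩ :=
  leaf_sound (S := T4.ds_mp) T4.ok_mp (w := 160) (c := ⟨⟨.negSucc 594, .negSucc 178, .negSucc 55, .negSucc 169, .ofNat 84, .negSucc 69⟩, ⟨.ofNat 22, .ofNat 47, .negSucc 287, .negSucc 39, .ofNat 5, .negSucc 9⟩, ⟨.ofNat 596, .ofNat 193, .ofNat 71, .ofNat 71, .negSucc 311, .ofNat 30⟩, ⟨.negSucc 1372, .negSucc 187, .negSucc 51, .negSucc 321, .ofNat 183, .negSucc 149⟩, ⟨.ofNat 52, .ofNat 14, .ofNat 34, .negSucc 501, .negSucc 84, .negSucc 15⟩, .ofNat 334, .negSucc 37, .ofNat 0, .negSucc 37, .ofNat 735, .ofNat 0, .ofNat 274, .ofNat 29, .negSucc 280, .ofNat 0, .ofNat 156, .ofNat 1, .ofNat 0, .ofNat 0, .ofNat 536, .ofNat 2055, .ofNat 0, .ofNat 0, .ofNat 3782199792870118880870400, .ofNat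 0, .ofNat 0, .ofNat 0, .ofNat 0, .ofNat 0, .ofNat 0, .ofNat 0, .ofNat 0, .ofNat 0, .ofNat 0, .ofNat 0, .ofNat 0, .ofNat 0⟩)
    (by decide +kernel)
theorem L00371 : Good (Phi V4.P V4.D (-1) 1) ⟨3, 5, 2, 0, 1, 0, 1, 0, 3, 1⟩ :=
  leaf_sound (S := T4.ds_mp) T4.ok_mp (w := 160) (c := ⟨⟨.negSucc 808, .negSucc 302, .negSucc 61, .negSucc 85, .ofNat 113, .negSucc 87⟩, ⟨.ofNat 87, .ofNat 105, .negSucc 153, .negSucc 30, .negSucc 27, .ofNat 7⟩, ⟨.ofNat 1056, .ofNat 262, .ofNat 77, .negSucc 65, .negSucc 559, .ofNat 102⟩, ⟨.negSucc 1594, .negSucc 334, .negSucc 90, .negSucc 189, .ofNat 201, .negSucc 172⟩, ⟨.ofNat 215, .ofNat 36, .negSucc 3, .negSucc 444, .negSucc 241, .negSucc 54⟩, .ofNat 411, .ofNat 75, .ofNat 0, .ofNat 75, .ofNat 1403, .ofNat 0, .ofNat 272, .negSucc 36, .negSucc 282, .ofNat 0, .ofNat 125, .ofNat 30, .ofNat 0, .ofNat 0, .ofNat 530, .ofNat 2054,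 .ofNat 0, .ofNat 0, .ofNat 610397288628105310156800, .ofNat 0, .ofNat 0, .ofNat 0, .ofNat 0, .ofNat 0, .ofNat 0, .ofNat 0, .ofNat 389460955457334824534016000, .ofNat 0, .ofNat 0, .ofNat 0, .ofNat 131970260925490564340121600, .ofNat 0⟩)
    (by decide +kernel)
theorem L00372 : Good (Phi V4.P V4.D (-1) 1) ⟨3, 5, 2, 1, 1, 0, 1, 0, 3, 1⟩ :=
  out_sound (S := T4.ds_mp) T4.ok_mp (w := 48) (j := 3) (by decide +kernel)
theorem L00373 : Good (Phi V4.P V4.D (-1) 1) ⟨2, 2, 1, 1, 1, 0, 1, 0, 3, 1⟩ :=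
  out_sound (S := T4.ds_mp) T4.ok_mp (w := 40) (j := 3) (by decide +kernel)
theorem L00374 : Good (Phi V4.P V4.D (-1) 1) ⟨2, 2, 1, 0, 2, 0, 2, 2, 3, 0⟩ :=
  leaf_sound (S := T4.ds_mp) T4.ok_mp (w := 160) (c := ⟨⟨.negSucc 480, .negSucc 359, .negSucc 29, .negSucc 37, .ofNat 89, .negSucc 81⟩, ⟨.ofNat 10, .ofNat 100, .negSucc 218, .negSucc 24, .negSucc 7, .ofNat 10⟩, ⟨.ofNat 261, .ofNat 351, .ofNat 34, .negSucc 7, .negSucc 348, .ofNat 103⟩, ⟨.negSucc 1111, .negSucc 388, .negSucc 4, .negSucc 58, .ofNat 171, .negSucc 165⟩, ⟨.ofNat 3, .ofNat 20, .ofNat 10, .negSucc 329, .negSucc 45, .ofNat 32⟩, .ofNat 324, .negSucc 18, .ofNat 0, .negSucc 18, .ofNat 693, .ofNat 0, .ofNat 318, .ofNat 18, .negSucc 409, .ofNat 0, .ofNat 189, .negSucc 1, .ofNat 0, .ofNat 0, .ofNat 656, .ofNat 1661, .ofNat 0, .ofNat 0, .ofNat 0, .ofNat 0, .ofNat 0, .ofNat 0, .ofNat 0, .ofNat 0,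 .ofNat 0, .ofNat 0, .ofNat 0, .ofNat 0, .ofNat 0, .ofNat 0, .ofNat 0, .ofNat 0⟩)
    (by decide +kernel)
theorem L00375 : Good (Phi V4.P V4.D (-1) 1) ⟨2, 2, 1, 0, 2, 1, 2, 2, 3, 0⟩ :=
  leaf_sound (S := T4.ds_mp) T4.ok_mp (w := 160) (c := ⟨⟨.negSucc 301, .negSucc 300, .negSucc 158, .negSucc 115, .negSucc 103, .negSucc 260⟩, ⟨.ofNat 14, .ofNat 65, .negSucc 294, .negSucc 25, .negSucc 0, .ofNat 9⟩, ⟨.negSucc 4, .ofNat 260, .ofNat 144, .ofNat 69, .negSucc 83, .ofNat 321⟩, ⟨.negSucc 759, .negSucc 341, .negSucc 173, .negSucc 223, .negSucc 200, .negSucc 511⟩, ⟨.negSucc 329, .ofNat 23, .ofNat 36, .negSucc 341, .negSucc 114, .ofNat 76⟩, .ofNat 322, .negSucc 8, .ofNat 0, .negSucc 8, .ofNat 700, .ofNat 0, .ofNat 347, .ofNat 10, .negSucc 473, .ofNat 0, .ofNat 191, .ofNat 31, .ofNat 0, .ofNat 0, .ofNat 694, .ofNat 1113, .ofNat 0, .ofNat 0, .ofNat 7442913168319676657172480000,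 .ofNat 0, .ofNat 0, .ofNat 0, .ofNat 0, .ofNat 0, .ofNat 0, .ofNat 0, .ofNat 0, .ofNat 0, .ofNat 0, .ofNat 0, .ofNat 1603739507516949923050291200000, .ofNat 0⟩)
    (by decide +kernel)
theorem L00376 : Good (Phi V4.P V4.D (-1) 1) ⟨2, 2, 1, 0, 1, 0, 2, 2, 3, 1⟩ :=
  leaf_sound (S := T4.ds_mp) T4.ok_mp (w := 152) (c := ⟨⟨.negSucc 535, .negSucc 376, .negSucc 81, .negSucc 227, .ofNat 146, .ofNat 26⟩, ⟨.ofNat 23, .ofNat 111, .negSucc 273, .negSucc 49, .negSucc 5, .ofNat 2⟩, ⟨.ofNat 256, .ofNat 380, .ofNat 84, .ofNat 204, .negSucc 301, .ofNat 1⟩, ⟨.negSucc 1234, .negSucc 414, .negSucc 86, .negSucc 459, .ofNat 299, .ofNat 60⟩, ⟨.ofNat 45, .ofNat 0, .ofNat 3, .negSucc 661, .negSucc 45, .ofNat 4⟩, .ofNat 323, .negSucc 11, .ofNat 0, .negSucc 11, .ofNat 703, .ofNat 0, .ofNat 297, .ofNat 10, .negSucc 353, .ofNat 0, .ofNat 170, .ofNat 10, .ofNat 0, .ofNat 0, .ofNat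 584, .ofNat 1659, .ofNat 0, .ofNat 0, .ofNat 15375609464524503367680000, .ofNat 0, .ofNat 0, .ofNat 0, .ofNat 2269031122418596407410688000, .ofNat 0, .ofNat 0, .ofNat 0, .ofNat 2397087867702207268572364800, .ofNat 0, .ofNat 0, .ofNat 0, .ofNat 2658331784263410409852108800, .ofNat 0⟩)
    (by decide +kernel)
theorem L00377 : Good (Phi V4.P V4.D (-1) 1) ⟨2, 2, 1, 1, 1, 0, 2, 2, 2, 0⟩ :=
  out_sound (S := T4.ds_mp) T4.ok_mp (w := 40) (j := 3) (by decide +kernel)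
theorem L00378 : Good (Phi V4.P V4.D (-1) 1) ⟨3, 4, 2, 0, 1, 0, 2, 3, 3, 0⟩ :=
  leaf_sound (S := T4.ds_mp) T4.ok_mp (w := 160) (c := ⟨⟨.negSucc 319, .negSucc 237, .negSucc 89, .negSucc 422, .ofNat 189, .ofNat 94⟩, ⟨.ofNat 25, .ofNat 24, .negSucc 124, .negSucc 51, .ofNat 12, .ofNat 6⟩, ⟨.negSucc 258, .ofNat 251, .ofNat 84, .ofNat 450, .negSucc 330, .ofNat 33⟩, ⟨.negSucc 766, .negSucc 366, .negSucc 113, .negSucc 859, .ofNat 395, .ofNat 194⟩, ⟨.negSucc 36, .negSucc 16, .ofNat 13, .negSucc 765, .ofNat 20, .ofNat 96⟩, .ofNat 447, .negSucc 55, .ofNat 0, .negSucc 55, .ofNat 1870, .ofNat 0, .ofNat 336, .ofNat 29, .negSucc 416, .ofNat 0, .ofNat 132, .negSucc 8, .ofNat 0, .ofNat 0, .ofNat 659, .ofNat 1108, .ofNat 0, .ofNat 0, .ofNat 0, .ofNat 0, .ofNat 0, .ofNat 0, .ofNat 0, .ofNat 0, .ofNat 0, .ofNat 0, .ofNat 0, .ofNat 0, .ofNat 0, .ofNat 0, .ofNat 0, .ofNat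 0⟩)
    (by decide +kernel)
theorem L00379 : Good (Phi V4.P V4.D (-1) 1) ⟨3, 4, 2, 1, 1, 0, 2, 3, 3, 0⟩ :=
  leaf_sound (S := T4.ds_mp) T4.ok_mp (w := 160) (c := ⟨⟨.negSucc 394, .negSucc 151, .negSucc 48, .negSucc 579, .ofNat 177, .ofNat 138⟩, ⟨.negSucc 67, .ofNat 16, .negSucc 119, .negSucc 166, .ofNat 39, .ofNat 33⟩, ⟨.negSucc 166, .ofNat 137, .ofNat 14, .ofNat 609, .negSucc 309, .negSucc 18⟩, ⟨.negSucc 892, .negSucc 204, .negSucc 45, .negSucc 1085, .ofNat 369, .ofNat 272⟩, ⟨.negSucc 29, .negSucc 9, .negSucc 4, .negSucc 751, .ofNat 13, .ofNat 92⟩, .ofNat 485, .negSucc 232, .ofNat 0, .negSucc 232, .ofNat 1513, .ofNat 0, .ofNat 312, .ofNat 119, .negSucc 406, .ofNat 0, .ofNat 162, .negSucc 63, .ofNat 0, .ofNat 0, .ofNat 654, .ofNat 1125, .ofNat 0, .ofNat 0, .ofNat 0, .ofNat 0, .ofNat 0, .ofNat 0, .ofNat 0, .ofNat 0, .ofNat 0, .ofNat 0, .ofNat 1123732006530862635653529600,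 .ofNat 0, .ofNat 0, .ofNat 0, .ofNat 631932969163922947178496000, .ofNat 0⟩)
    (by decide +kernel)
theorem L00380 : Good (Phi V4.P V4.D (-1) 1) ⟨3, 5, 1, 0, 1, 0, 2, 3, 3, 0⟩ :=
  leaf_sound (S := T4.ds_mp) T4.ok_mp (w := 160) (c := ⟨⟨.negSucc 587, .negSucc 50, .negSucc 139, .negSucc 540, .ofNat 218, .ofNat 208⟩, ⟨.ofNat 51, .ofNat 63, .negSucc 221, .negSucc 33, .negSucc 19, .negSucc 5⟩, ⟨.negSucc 10, .ofNat 62, .ofNat 145, .ofNat 581, .negSucc 346, .negSucc 64⟩, ⟨.negSucc 1154, .ofNat 22, .negSucc 179, .negSucc 1077, .ofNat 413, .ofNat 397⟩, ⟨.negSucc 37, .ofNat 39, .ofNat 25, .negSucc 780, .ofNat 1, .ofNat 91⟩, .ofNat 412, .ofNat 86, .ofNat 0, .ofNat 86, .ofNat 1427, .ofNat 0, .ofNat 346, .negSucc 49, .negSucc 518, .ofNat 0, .ofNat 158, .ofNat 40, .ofNat 0, .ofNat 0, .ofNat 731, .ofNat 876, .ofNat 0, .ofNat 0, .ofNat 10379019215922320410214400,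 .ofNat 0, .ofNat 0, .ofNat 0, .ofNat 907020910738671864171724800, .ofNat 0, .ofNat 0, .ofNat 0, .ofNat 1701706188072108633882624000, .ofNat 0, .ofNat 0, .ofNat 0, .ofNat 1241952260969978837493350400, .ofNat 0⟩)
    (by decide +kernel)
theorem L00381 : Good (Phi V4.P V4.D (-1) 1) ⟨3, 4, 2, 0, 1, 0, 2, 3, 3, 1⟩ :=
  leaf_sound (S := T4.ds_mp) T4.ok_mp (w := 160) (c := ⟨⟨.negSucc 436, .negSucc 127, .negSucc 67, .negSucc 325, .ofNat 410, .ofNat 123⟩, ⟨.ofNat 14, .ofNat 10, .negSucc 100, .negSucc 50, .ofNat 36, .ofNat 15⟩, ⟨.negSucc 78, .ofNat 130, .ofNat 65, .ofNat 393, .negSucc 467, .negSucc 20⟩, ⟨.negSucc 1004, .negSucc 163, .negSucc 90, .negSucc 645, .ofNat 867, .ofNat 266⟩, ⟨.negSucc 22, .negSucc 12, .ofNat 2, .negSucc 670, .ofNat 68, .ofNat 54⟩, .ofNat 453, .negSucc 101, .ofNat 0, .negSucc 101, .ofNat 1765, .ofNat 0, .ofNat 291, .ofNat 46, .negSucc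 352, .ofNat 0, .ofNat 122, .negSucc 19, .ofNat 0, .ofNat 0, .ofNat 572, .ofNat 1156, .ofNat 0, .ofNat 0, .ofNat 0, .ofNat 0, .ofNat 0, .ofNat 0, .ofNat 0, .ofNat 0, .ofNat 0, .ofNat 0, .ofNat 0, .ofNat 0, .ofNat 0, .ofNat 0, .ofNat 0, .ofNat 0⟩)
    (by decide +kernel)

end Crest.Agent.R097C4.N4mp
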