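import Crest.Agent.R097.T4

/-!
# Row 97, box cover in dimension n = 4 (generated)
-/

set_option autoImplicit false
set_option Elab.async false
set_option maxHeartbeats 0
set_option maxRecDepth 100000

open Crest.Agent.R097 Crest.Agent.R097.KA


namespace Crest.Agent.R097C4.N4mp

theorem L00382 : Good (Phi V4.P V4.D (-1) 1) ⟨3, 4, 2, 1, 1, 0, 2, 3, 3, 1⟩ :=
  leaf_sound (S := T4.ds_mp) T4.ok_mp (w := 160) (c := ⟨⟨.negSucc 414, .negSucc 141, .negSucc 69, .negSucc 461, .ofNat 388, .ofNat 142⟩, ⟨.negSucc 68, .ofNat 1, .negSucc 103, .negSucc 125, .ofNat 77, .ofNat 26⟩, ⟨.negSucc 90, .ofNat 142, .ofNat 74, .ofNat 523, .negSucc 446, .negSucc 50⟩, ⟨.negSucc 941, .negSucc 195, .negSucc 100, .negSucc 847, .ofNat 814, .ofNat 290⟩, ⟨.ofNat 9, .negSucc 36, .negSucc 3, .negSucc 672, .ofNat 62, .ofNat 35⟩, .ofNat 485, .negSucc 231, .ofNat 0, .negSucc 231, .ofNat 1505,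 .ofNat 0, .ofNat 274, .ofNat 103, .negSucc 348, .ofNat 0, .ofNat 143, .negSucc 56, .ofNat 0, .ofNat 0, .ofNat 571, .ofNat 1015, .ofNat 0, .ofNat 0, .ofNat 0, .ofNat 0, .ofNat 0, .ofNat 0, .ofNat 0, .ofNat 0, .ofNat 0, .ofNat 0, .ofNat 0, .ofNat 0, .ofNat 0, .ofNat 0, .ofNat 0, .ofNat 0⟩)
    (by decide +kernel)
theorem L00383 : Good (Phi V4.P V4.D (-1) 1) ⟨3, 5, 1, 0, 1, 0, 2, 3, 3, 1⟩ :=
  leaf_sound (S := T4.ds_mp) T4.ok_mp (w := 160) (c := ⟨⟨.negSucc 631, .negSucc 107, .negSucc 69, .negSucc 316, .ofNat 482, .ofNat 171⟩, ⟨.ofNat 66, .ofNat 33, .negSucc 239, .negSucc 34, .negSucc 36, .negSucc 4⟩, ⟨.ofNat 129, .ofNat 120, .ofNat 79, .ofNat 370, .negSucc 547, .negSucc 71⟩, ⟨.negSucc 1240, .negSucc 83, .negSucc 26, .negSucc 651, .ofNat 899, .ofNat 334⟩, ⟨.ofNat 2, .ofNat 12, .ofNat 42, .negSucc 723, .ofNat 30, .ofNat 45⟩, .ofNat 411, .ofNat 87, .ofNat 0,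 .ofNat 87, .ofNat 1393, .ofNat 0, .ofNat 308, .negSucc 46, .negSucc 432, .ofNat 0, .ofNat 143, .ofNat 34, .ofNat 0, .ofNat 0, .ofNat 629, .ofNat 528, .ofNat 0, .ofNat 0, .ofNat 4557777222076369916313600, .ofNat 0, .ofNat 0, .ofNat 0, .ofNat 842251773492682634192486400, .ofNat 0, .ofNat 0, .ofNat 0, .ofNat 1781708157756241862669107200, .ofNat 0, .ofNat 0, .ofNat 279826860447819337271397580800, .ofNat 920013032704396319155814400, .ofNat 0⟩)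
    (by decide +kernel)
theorem L00384 : Good (Phi V4.P V4.D (-1) 1) ⟨2, 2, 1, 1, 1, 0, 2, 3, 2, 0⟩ :=
  out_sound (S := T4.ds_mp) T4.ok_mp (w := 40) (j := 3) (by decide +kernel)
theorem L00385 : Good (Phi V4.P V4.D (-1) 1) ⟨3, 4, 2, 0, 2, 2, 2, 0, 3, 0⟩ :=
  leaf_sound (S := T4.ds_mp) T4.ok_mp (w := 168) (c := ⟨⟨.ofNat 376, .negSucc 10, .negSucc 36, .ofNat 121, .negSucc 336, .negSucc 1032⟩, ⟨.ofNat 55, .ofNat 9, .negSucc 56, .ofNat 1, .negSucc 40, .negSucc 85⟩, ⟨.negSucc 134, .negSucc 19, .ofNat 40, .negSucc 125, .ofNat 54, .ofNat 844⟩, ⟨.ofNat 761, .ofNat 16, .negSucc 11, .ofNat 244, .negSucc 702, .negSucc 2177⟩, ⟨.negSucc 203, .negSucc 3, .ofNat 37, .negSucc 51, .negSucc 262, .negSucc 21⟩, .ofNat 332, .negSucc 29, .ofNat 0, .negSucc 29, .ofNat 740, .ofNat 0, .ofNat 366, .ofNat 19, .negSucc 411, .ofNat 0, .ofNat 171, .ofNat 22, .ofNat 0, .ofNat 0, .ofNat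 562, .ofNat 2434, .ofNat 0, .ofNat 0, .ofNat 0, .ofNat 0, .ofNat 0, .ofNat 0, .ofNat 0, .ofNat 0, .ofNat 0, .ofNat 0, .ofNat 0, .ofNat 0, .ofNat 0, .ofNat 0, .ofNat 0, .ofNat 0⟩)
    (by decide +kernel)
theorem L00386 : Good (Phi V4.P V4.D (-1) 1) ⟨4, 8, 2, 1, 2, 2, 2, 0, 3, 0⟩ :=
  leaf_sound (S := T4.ds_mp) T4.ok_mp (w := 176) (c := ⟨⟨.ofNat 291, .ofNat 24, .negSucc 49, .ofNat 121, .negSucc 353, .negSucc 1006⟩, ⟨.ofNat 62, .ofNat 12, .negSucc 67, .ofNat 26, .negSucc 86, .negSucc 214⟩, ⟨.negSucc 48, .negSucc 44, .ofNat 62, .negSucc 147, .ofNat 69, .ofNat 838⟩, ⟨.ofNat 645, .ofNat 69, .negSucc 62, .ofNat 274, .negSucc 717, .negSucc 2182⟩, ⟨.negSucc 159, .negSucc 22, .ofNat 32, .negSucc 54, .negSucc 241, .negSucc 29⟩, .ofNat 508, .negSucc 283, .ofNat 0, .negSucc 283, .ofNat 1585, .ofNat 0, .ofNat 583, .ofNat 282, .negSucc 563, .ofNat 0, .ofNat 276, .negSucc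 74, .ofNat 0, .ofNat 0, .ofNat 1005, .ofNat 4561, .ofNat 0, .ofNat 0, .ofNat 1531179908067812967029145600, .ofNat 0, .ofNat 0, .ofNat 0, .ofNat 0, .ofNat 0, .ofNat 0, .ofNat 0, .ofNat 773466636362876544229362892800, .ofNat 0, .ofNat 0, .ofNat 0, .ofNat 0, .ofNat 0⟩)
    (by decide +kernel)
theorem L00387 : Good (Phi V4.P V4.D (-1) 1) ⟨4, 9, 2, 1, 2, 2, 2, 0, 3, 0⟩ :=
  leaf_sound (S := T4.ds_mp) T4.ok_mp (w := 176) (c := ⟨⟨.ofNat 464, .negSucc 94, .negSucc 80, .ofNat 78, .negSucc 406, .negSucc 1159⟩, ⟨.ofNat 58, .negSucc 7, .negSucc 114, .ofNat 14, .negSucc 78, .negSucc 161⟩, ⟨.negSucc 196, .ofNat 38, .ofNat 76, .negSucc 118, .ofNat 104, .ofNat 963⟩, ⟨.ofNat 972, .negSucc 168, .negSucc 150, .ofNat 176, .negSucc 804, .negSucc 2392⟩, ⟨.negSucc 188, .negSucc 23, .negSucc 3, .negSucc 29, .negSucc 254, .ofNat 10⟩, .ofNat 536, .negSucc 306, .ofNat 0, .negSucc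 306, .ofNat 2353, .ofNat 0, .ofNat 618, .ofNat 220, .negSucc 586, .ofNat 0, .ofNat 244, .negSucc 45, .ofNat 0, .ofNat 0, .ofNat 1017, .ofNat 4052, .ofNat 0, .ofNat 0, .ofNat 4663299511916599200605798400, .ofNat 0, .ofNat 0, .ofNat 0, .ofNat 0, .ofNat 0, .ofNat 0, .ofNat 0, .ofNat 1714558373147593488851376537600, .ofNat 0, .ofNat 0, .ofNat 0, .ofNat 0, .ofNat 0⟩)
    (by decide +kernel)
theorem L00388 : Good (Phi V4.P V4.D (-1) 1) ⟨3, 4, 2, 0, 2, 2, 2, 1, 3, 0⟩ :=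
  leaf_sound (S := T4.ds_mp) T4.ok_mp (w := 168) (c := ⟨⟨.ofNat 59, .negSucc 101, .negSucc 90, .negSucc 29, .negSucc 279, .negSucc 780⟩, ⟨.ofNat 52, .ofNat 8, .negSucc 131, .negSucc 11, .negSucc 35, .negSucc 45⟩, ⟨.negSucc 109, .ofNat 61, .ofNat 90, .negSucc 35, .ofNat 48, .ofNat 680⟩, ⟨.ofNat 47, .negSucc 106, .negSucc 80, .negSucc 70, .negSucc 584, .negSucc 1642⟩, ⟨.negSucc 462, .ofNat 14, .ofNat 60, .negSucc 148, .negSucc 238, .ofNat 33⟩, .ofNat 449, .negSucc 78, .ofNat 0, .negSucc 78, .ofNat 1794, .ofNat 0, .ofNat 343, .ofNat 42, .negSucc 332, .ofNat 0, .ofNat 122, .ofNat 5, .ofNat 0, .ofNat 0, .ofNat 552, .ofNat 1607, .ofNat 0, .ofNat 0, .ofNat 0, .ofNat 0, .ofNat 0, .ofNat 0, .ofNat 0, .ofNat 0, .ofNat 0, .ofNat 0, .ofNat 0, .ofNat 0, .ofNat 0, .ofNat 0, .ofNat 0, .ofNat 0⟩)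
    (by decide +kernel)
theorem L00389 : Good (Phi V4.P V4.D (-1) 1) ⟨4, 8, 2, 1, 2, 2, 2, 1, 3, 0⟩ :=
  leaf_sound (S := T4.ds_mp) T4.ok_mp (w := 168) (c := ⟨⟨.negSucc 76, .negSucc 27, .negSucc 74, .negSucc 84, .negSucc 289, .negSucc 663⟩, ⟨.negSucc 16, .ofNat 9, .negSucc 139, .negSucc 22, .negSucc 76, .negSucc 134⟩, ⟨.ofNat 12, .ofNat 13, .ofNat 85, .ofNat 2, .ofNat 51, .ofNat 599⟩, ⟨.negSucc 135, .negSucc 1, .negSucc 76, .negSucc 155, .negSucc 584, .negSucc 1455⟩, ⟨.negSucc 424, .ofNat 12, .ofNat 65, .negSucc 156, .negSucc 215, .ofNat 37⟩, .ofNat 512, .negSucc 290, .ofNat 0, .negSucc 290, .ofNat 1598, .ofNat 0, .ofNat 296, .ofNat 148, .negSucc 301, .ofNat 0, .ofNat 144, .negSucc 36, .ofNat 0, .ofNat 0, .ofNat 552, .ofNat 1665, .ofNat 0, .ofNat 0, .ofNat 0, .ofNat 0, .ofNat 0, .ofNat 0, .ofNat 0, .ofNat 0, .ofNat 0, .ofNat 0, .ofNat 163754726338491930462545510400,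 .ofNat 0, .ofNat 0, .ofNat 0, .ofNat 0, .ofNat 0⟩)
    (by decide +kernel)
theorem L00390 : Good (Phi V4.P V4.D (-1) 1) ⟨4, 9, 2, 1, 2, 2, 2, 1, 3, 0⟩ :=
  leaf_sound (S := T4.ds_mp) T4.ok_mp (w := 168) (c := ⟨⟨.negSucc 23, .negSucc 54, .ofNat 9, .negSucc 180, .negSucc 278, .negSucc 830⟩, ⟨.negSucc 30, .ofNat 18, .negSucc 125, .negSucc 36, .negSucc 56, .negSucc 112⟩, ⟨.negSucc 51, .ofNat 39, .ofNat 27, .ofNat 53, .ofNat 57, .ofNat 753⟩, ⟨.negSucc 23, .negSucc 38, .ofNat 115, .negSucc 353, .negSucc 545, .negSucc 1720⟩, ⟨.negSucc 455, .ofNat 16, .ofNat 69, .negSucc 135, .negSucc 200, .ofNat 84⟩, .ofNat 541, .negSucc 320, .ofNat 0, .negSucc 320, .ofNat 2355, .ofNat 0, .ofNat 316, .ofNat 121, .negSucc 322, .ofNat 0, .ofNat 129, .negSucc 24, .ofNat 0, .ofNat 0, .ofNat 558, .ofNat 1103, .ofNat 0, .ofNat 0, .ofNat 693814972557026912580403200, .ofNat 0, .ofNat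 0, .ofNat 0, .ofNat 0, .ofNat 0, .ofNat 0, .ofNat 0, .ofNat 434352753716634740494172160000, .ofNat 0, .ofNat 0, .ofNat 0, .ofNat 0, .ofNat 0⟩)
    (by decide +kernel)
theorem L00391 : Good (Phi V4.P V4.D (-1) 1) ⟨4, 10, 2, 0, 2, 2, 2, 0, 3, 0⟩ :=
  leaf_sound (S := T4.ds_mp) T4.ok_mp (w := 176) (c := ⟨⟨.ofNat 654, .ofNat 93, .ofNat 9, .ofNat 124, .negSucc 504, .negSucc 1530⟩, ⟨.negSucc 37, .negSucc 15, .negSucc 79, .negSucc 13, .ofNat 8, .ofNat 103⟩, ⟨.negSucc 397, .negSucc 59, .ofNat 33, .negSucc 104, .ofNat 161, .ofNat 1210⟩, ⟨.ofNat 1201, .ofNat 188, .ofNat 75, .ofNat 221, .negSucc 975, .negSucc 2894⟩, ⟨.negSucc 304, .ofNat 29, .ofNat 104, .negSucc 2, .negSucc 267, .ofNat 44⟩, .ofNat 413, .ofNat 80, .ofNat 0, .ofNat 80, .ofNat 1447, .ofNat 0, .ofNat 363, .negSucc 78, .negSucc 395, .ofNat 0, .ofNat 138, .ofNat 49, .ofNat 0, .ofNat 0, .ofNat 543, .ofNat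 2307, .ofNat 0, .ofNat 0, .ofNat 0, .ofNat 0, .ofNat 0, .ofNat 0, .ofNat 103561727872161170312921088000, .ofNat 0, .ofNat 0, .ofNat 0, .ofNat 275249407749294868580951654400, .ofNat 0, .ofNat 0, .ofNat 0, .ofNat 0, .ofNat 0⟩)
    (by decide +kernel)
theorem L00392 : Good (Phi V4.P V4.D (-1) 1) ⟨4, 10, 2, 0, 2, 2, 2, 1, 3, 0⟩ :=
  leaf_sound (S := T4.ds_mp) T4.ok_mp (w := 176) (c := ⟨⟨.ofNat 229, .negSucc 146, .negSucc 130, .negSucc 99, .negSucc 349, .negSucc 1109⟩, ⟨.negSucc 12, .ofNat 4, .negSucc 139, .ofNat 3, .ofNat 5, .ofNat 74⟩, ⟨.negSucc 285, .ofNat 97, .ofNat 121, .ofNat 14, .ofNat 124, .ofNat 970⟩, ⟨.ofNat 350, .negSucc 224, .negSucc 140, .negSucc 190, .negSucc 680, .negSucc 2105⟩, ⟨.negSucc 520, .ofNat 13, .ofNat 62, .negSucc 115, .negSucc 208, .ofNat 118⟩, .ofNat 413, .ofNat 76, .ofNat 0, .ofNat 76, .ofNat 1438, .ofNat 0, .ofNat 365, .negSucc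 62, .negSucc 445, .ofNat 0, .ofNat 143, .ofNat 58, .ofNat 0, .ofNat 0, .ofNat 618, .ofNat 1636, .ofNat 0, .ofNat 0, .ofNat 2253435561490974348253593600, .ofNat 0, .ofNat 0, .ofNat 0, .ofNat 140998831159298091214543257600, .ofNat 0, .ofNat 0, .ofNat 0, .ofNat 0, .ofNat 0, .ofNat 0, .ofNat 0, .ofNat 121290784027302439761739776000, .ofNat 0⟩)
    (by decide +kernel)
theorem L00393 : Good (Phi V4.P V4.D (-1) 1) ⟨4, 11, 3, 0, 2, 2, 1, 0, 4, 0⟩ :=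
  leaf_sound (S := T4.ds_mp) T4.ok_mp (w := 176) (c := ⟨⟨.ofNat 866, .ofNat 64, .negSucc 184, .ofNat 138, .negSucc 1156, .negSucc 846⟩, ⟨.negSucc 130, .negSucc 44, .negSucc 27, .negSucc 21, .ofNat 102, .ofNat 121⟩, ⟨.negSucc 599, .negSucc 87, .ofNat 112, .negSucc 76, .ofNat 495, .ofNat 712⟩, ⟨.ofNat 1531, .ofNat 98, .negSucc 298, .ofNat 246, .negSucc 2159, .negSucc 1525⟩, ⟨.negSucc 315, .negSucc 51, .negSucc 16, .negSucc 51, .negSucc 450, .ofNat 96⟩, .ofNat 507, .ofNat 331, .ofNat 0, .ofNat 331, .ofNat 2675, .ofNat 0, .ofNat 354, .negSucc 139, .negSucc 477, .ofNat 0, .ofNat 137, .ofNat 83, .ofNat 0, .ofNat 0, .ofNat 608, .ofNat 1304, .ofNat 0, .ofNat 0, .ofNat 0, .ofNat 0, .ofNat 0, .ofNat 0, .ofNat 1567842811392426034237695590400, .ofNat 0, .ofNat 0, .ofNat 0, .ofNat 3260293236367517864522730700800, .ofNat 0, .ofNat 0, .ofNat 0, .ofNat 1536152192798710282847885721600,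 .ofNat 0⟩)
    (by decide +kernel)
theorem L00394 : Good (Phi V4.P V4.D (-1) 1) ⟨4, 11, 3, 0, 2, 2, 2, 0, 4, 1⟩ :=
  leaf_sound (S := T4.ds_mp) T4.ok_mp (w := 176) (c := ⟨⟨.ofNat 28, .negSucc 243, .negSucc 84, .negSucc 124, .negSucc 436, .negSucc 731⟩, ⟨.negSucc 27, .ofNat 43, .negSucc 48, .ofNat 14, .ofNat 38, .ofNat 101⟩, ⟨.ofNat 115, .ofNat 161, .ofNat 81, .ofNat 9, .ofNat 157, .ofNat 592⟩, ⟨.negSucc 1, .negSucc 367, .negSucc 114, .negSucc 229, .negSucc 817, .negSucc 1319⟩, ⟨.negSucc 299, .ofNat 78, .ofNat 60, .negSucc 40, .negSucc 190, .ofNat 77⟩, .ofNat 508, .ofNat 337, .ofNat 0, .ofNat 337, .ofNat 2661, .ofNat 0, .ofNat 342, .negSucc 144, .negSucc 420, .ofNat 0, .ofNat 134, .ofNat 79, .ofNat 0, .ofNat 0, .ofNat 568, .ofNat 3572, .ofNat 0, .ofNat 0, .ofNat 0, .ofNat 0, .ofNat 1248752595366944846736820677063475200, .ofNat 0, .ofNat 8433140921139971412096712704000,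 .ofNat 0, .ofNat 104315747486448576398807557944115200, .ofNat 0, .ofNat 24633825808186470963188072448000, .ofNat 0, .ofNat 0, .ofNat 0, .ofNat 14863074785657407664747760844800, .ofNat 0⟩)
    (by decide +kernel)
theorem L00395 : Good (Phi V4.P V4.D (-1) 1) ⟨4, 11, 3, 0, 2, 2, 2, 1, 4, 1⟩ :=
  leaf_sound (S := T4.ds_mp) T4.ok_mp (w := 176) (c := ⟨⟨.negSucc 419, .negSucc 260, .negSucc 30, .negSucc 340, .negSucc 292, .negSucc 491⟩, ⟨.ofNat 18, .ofNat 60, .negSucc 95, .ofNat 33, .ofNat 19, .ofNat 66⟩, ⟨.ofNat 263, .ofNat 207, .ofNat 49, .ofNat 162, .ofNat 105, .ofNat 441⟩, ⟨.negSucc 841, .negSucc 360, .negSucc 10, .negSucc 633, .negSucc 556, .negSucc 887⟩, ⟨.negSucc 450, .ofNat 109, .ofNat 39, .negSucc 109, .negSucc 191, .ofNat 57⟩, .ofNat 508, .ofNat 337, .ofNat 0, .ofNat 337, .ofNat 2689, .ofNat 0, .ofNat 349, .negSucc 136, .negSucc 467, .ofNat 0, .ofNat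 137, .ofNat 88, .ofNat 0, .ofNat 0, .ofNat 629, .ofNat 3474, .ofNat 0, .ofNat 0, .ofNat 0, .ofNat 0, .ofNat 0, .ofNat 0, .ofNat 7864468388311538904223186944000, .ofNat 0, .ofNat 0, .ofNat 0, .ofNat 29452901741665169165749164441600, .ofNat 0, .ofNat 0, .ofNat 0, .ofNat 11211158488725231201496439193600, .ofNat 0⟩)
    (by decide +kernel)
theorem L00396 : Good (Phi V4.P V4.D (-1) 1) ⟨4, 11, 3, 1, 2, 2, 1, 0, 3, 0⟩ :=
  out_sound (S := T4.ds_mp) T4.ok_mp (w := 56) (j := 3) (by decide +kernel)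
theorem L00397 : Good (Phi V4.P V4.D (-1) 1) ⟨3, 5, 2, 1, 2, 2, 1, 0, 3, 0⟩ :=
  out_sound (S := T4.ds_mp) T4.ok_mp (w := 48) (j := 3) (by decide +kernel)
theorem L00398 : Good (Phi V4.P V4.D (-1) 1) ⟨3, 4, 1, 0, 3, 6, 2, 0, 4, 0⟩ :=
  leaf_sound (S := T4.ds_mp) T4.ok_mp (w := 176) (c := ⟨⟨.ofNat 791, .ofNat 134, .ofNat 10, .ofNat 85, .negSucc 635, .negSucc 943⟩, ⟨.ofNat 60, .negSucc 10, .ofNat 26, .ofNat 33, .negSucc 87, .negSucc 74⟩, ⟨.negSucc 323, .negSucc 120, .negSucc 81, .ofNat 11, .ofNat 180, .ofNat 632⟩, ⟨.ofNat 1643, .ofNat 228, .ofNat 99, .ofNat 155, .negSucc 1277, .negSucc 1936⟩, ⟨.negSucc 58, .ofNat 32, .ofNat 20, .ofNat 252, .negSucc 403, .negSucc 204⟩, .ofNat 331, .negSucc 39, .ofNat 0, .negSucc 39, .ofNat 717, .ofNat 0, .ofNat 471, .ofNat 23, .negSucc 516, .ofNat 0, .ofNat 187, .negSucc 5, .ofNat 0, .ofNat 0, .ofNat 567, .ofNat 2138, .ofNat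 0, .ofNat 0, .ofNat 72474180901105631976928523059200, .ofNat 0, .ofNat 0, .ofNat 0, .ofNat 0, .ofNat 0, .ofNat 0, .ofNat 0, .ofNat 3947505635489799258765756098150400, .ofNat 0, .ofNat 0, .ofNat 0, .ofNat 2704660714916353673028901955174400, .ofNat 0⟩)
    (by decide +kernel)
theorem L00399 : Good (Phi V4.P V4.D (-1) 1) ⟨3, 4, 1, 0, 3, 6, 2, 1, 4, 0⟩ :=
  leaf_sound (S := T4.ds_mp) T4.ok_mp (w := 176) (c := ⟨⟨.ofNat 317, .negSucc 45, .negSucc 176, .negSucc 23, .negSucc 531, .negSucc 727⟩, ⟨.ofNat 58, .negSucc 1, .negSucc 195, .ofNat 23, .negSucc 70, .negSucc 61⟩, ⟨.negSucc 238, .negSucc 21, .ofNat 65, .ofNat 29, .ofNat 211, .ofNat 529⟩, ⟨.ofNat 599, .negSucc 54, .negSucc 176, .negSucc 51, .negSucc 1079, .negSucc 1522⟩, ⟨.negSucc 476, .ofNat 12, .ofNat 67, .ofNat 140, .negSucc 347, .negSucc 64⟩, .ofNat 333, .negSucc 44, .ofNat 0, .negSucc 44, .ofNat 719,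 .ofNat 0, .ofNat 462, .ofNat 65, .negSucc 595, .ofNat 0, .ofNat 197, .ofNat 7, .ofNat 0, .ofNat 0, .ofNat 663, .ofNat 1349, .ofNat 0, .ofNat 0, .ofNat 0, .ofNat 0, .ofNat 0, .ofNat 0, .ofNat 0, .ofNat 0, .ofNat 0, .ofNat 0, .ofNat 2908239462738598548283872981811200, .ofNat 0, .ofNat 0, .ofNat 0, .ofNat 3819816273831087781025507023257600, .ofNat 0⟩)
    (by decide +kernel)
theorem L00400 : Good (Phi V4.P V4.D (-1) 1) ⟨3, 5, 2, 0, 3, 6, 1, 0, 4, 0⟩ :=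
  leaf_sound (S := T4.ds_mp) T4.ok_mp (w := 176) (c := ⟨⟨.ofNat 1266, .ofNat 26, .negSucc 35, .negSucc 64, .negSucc 1434, .negSucc 1162⟩, ⟨.negSucc 78, .negSucc 46, .negSucc 60, .ofNat 40, .ofNat 43, .ofNat 76⟩, ⟨.negSucc 690, .ofNat 5, .ofNat 29, .ofNat 123, .ofNat 534, .ofNat 769⟩, ⟨.ofNat 2341, .ofNat 73, .ofNat 10, .negSucc 97, .negSucc 2745, .negSucc 2192⟩, ⟨.negSucc 100, .ofNat 49, .ofNat 80, .ofNat 283, .negSucc 762, .negSucc 127⟩, .ofNat 411, .ofNat 96, .ofNat 0, .ofNat 96, .ofNat 1394, .ofNat 0, .ofNat 448, .negSucc 134, .negSucc 502, .ofNat 0, .ofNat 158, .ofNat 60, .ofNat 0, .ofNat 0, .ofNat 572, .ofNat 941, .ofNat 0, .ofNat 0, .ofNat 6934550910526445685684830208000, .ofNat 0, .ofNat 0, .ofNat 0, .ofNat 1164172873659882610721862293913600, .ofNat 0, .ofNat 0, .ofNat 0, .ofNat 1378179141857304292037841282662400, .ofNat 0, .ofNat 0, .ofNat 0, .ofNat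 1098117275319004831742958973747200, .ofNat 0⟩)
    (by decide +kernel)
theorem L00401 : Good (Phi V4.P V4.D (-1) 1) ⟨3, 5, 2, 1, 3, 6, 1, 0, 4, 0⟩ :=
  out_sound (S := T4.ds_mp) T4.ok_mp (w := 48) (j := 3) (by decide +kernel)
theorem L00402 : Good (Phi V4.P V4.D (-1) 1) ⟨3, 4, 1, 0, 3, 7, 2, 0, 4, 0⟩ :=
  leaf_sound (S := T4.ds_mp) T4.ok_mp (w := 176) (c := ⟨⟨.ofNat 1043, .ofNat 36, .negSucc 53, .negSucc 88, .negSucc 700, .negSucc 1098⟩, ⟨.ofNat 102, .ofNat 13, .ofNat 44, .ofNat 5, .negSucc 90, .negSucc 124⟩, ⟨.negSucc 265, .negSucc 47, .negSucc 240, .ofNat 137, .ofNat 131, .ofNat 628⟩, ⟨.ofNat 2176, .ofNat 69, .negSucc 180, .negSucc 241, .negSucc 1405, .negSucc 2261⟩, ⟨.ofNat 275, .ofNat 205, .ofNat 117, .ofNat 550, .negSucc 560, .negSucc 502⟩, .ofNat 332, .negSucc 35, .ofNat 0, .negSucc 35, .ofNat 727, .ofNat 0, .ofNat 555, .negSucc 11, .negSucc 471,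 .ofNat 0, .ofNat 199, .negSucc 35, .ofNat 0, .ofNat 0, .ofNat 527, .ofNat 1290, .ofNat 0, .ofNat 0, .ofNat 70096463831674352041121651097600, .ofNat 0, .ofNat 0, .ofNat 0, .ofNat 2938928346524058298348018964889600, .ofNat 0, .ofNat 0, .ofNat 0, .ofNat 3070731853250694802626846916608000, .ofNat 0, .ofNat 0, .ofNat 0, .ofNat 3472528605158681576425294449868800, .ofNat 0⟩)
    (by decide +kernel)
theorem L00403 : Good (Phi V4.P V4.D (-1) 1) ⟨3, 5, 1, 0, 3, 7, 2, 0, 4, 0⟩ :=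
  leaf_sound (S := T4.ds_mp) T4.ok_mp (w := 176) (c := ⟨⟨.ofNat 1480, .ofNat 13, .negSucc 216, .negSucc 272, .negSucc 867, .negSucc 1495⟩, ⟨.negSucc 104, .ofNat 0, .ofNat 18, .ofNat 89, .ofNat 45, .ofNat 99⟩, ⟨.negSucc 517, .negSucc 40, .negSucc 292, .ofNat 289, .ofNat 205, .ofNat 820⟩, ⟨.ofNat 2814, .ofNat 16, .negSucc 571, .negSucc 441, .negSucc 1652, .negSucc 2839⟩, ⟨.ofNat 432, .ofNat 151, .ofNat 20, .ofNat 657, .negSucc 595, .negSucc 404⟩, .ofNat 309, .ofNat 35, .ofNat 0, .ofNat 35, .ofNat 664, .ofNat 0, .ofNat 596, .negSucc 240, .negSucc 715, .ofNat 0, .ofNat 231, .ofNat 54, .ofNat 0, .ofNat 0, .ofNat 604, .ofNat 798, .ofNat 0, .ofNat 0, .ofNat 95071385727078510190053556224000, .ofNat 0, .ofNat 613629302800905141905452888070553600, .ofNat 0, .ofNat 3367756697219727954733167751987200, .ofNat 0, .ofNat 0, .ofNat 0, .ofNat 3635560654028888041479864110284800,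 .ofNat 0, .ofNat 0, .ofNat 0, .ofNat 7144550405499288848283522721382400, .ofNat 0⟩)
    (by decide +kernel)
theorem L00404 : Good (Phi V4.P V4.D (-1) 1) ⟨3, 4, 1, 0, 3, 7, 2, 1, 4, 0⟩ :=
  leaf_sound (S := T4.ds_mp) T4.ok_mp (w := 176) (c := ⟨⟨.ofNat 386, .negSucc 140, .negSucc 177, .negSucc 67, .negSucc 536, .negSucc 859⟩, ⟨.ofNat 143, .ofNat 10, .negSucc 249, .ofNat 6, .negSucc 120, .negSucc 134⟩, ⟨.negSucc 160, .ofNat 50, .negSucc 67, .ofNat 42, .ofNat 166, .ofNat 532⟩, ⟨.ofNat 707, .negSucc 191, .negSucc 237, .negSucc 165, .negSucc 1059, .negSucc 1783⟩, ⟨.negSucc 168, .ofNat 73, .ofNat 18, .ofNat 288, .negSucc 525, .negSucc 272⟩, .ofNat 336, .negSucc 54, .ofNat 0, .negSucc 54, .ofNat 713, .ofNat 0, .ofNat 515, .ofNat 99, .negSucc 553, .ofNat 0, .ofNat 211, .negSucc 21, .ofNat 0, .ofNat 0, .ofNat 599, .ofNat 875, .ofNat 0, .ofNat 0, .ofNat 31066193167891546714411106304000,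 .ofNat 0, .ofNat 0, .ofNat 0, .ofNat 0, .ofNat 0, .ofNat 0, .ofNat 0, .ofNat 0, .ofNat 0, .ofNat 0, .ofNat 0, .ofNat 3744156460903001117316058447872000, .ofNat 0⟩)
    (by decide +kernel)
theorem L00405 : Good (Phi V4.P V4.D (-1) 1) ⟨3, 5, 2, 0, 3, 7, 2, 1, 4, 0⟩ :=
  leaf_sound (S := T4.ds_mp) T4.ok_mp (w := 184) (c := ⟨⟨.ofNat 535, .negSucc 328, .negSucc 219, .negSucc 146, .negSucc 591, .negSucc 1178⟩, ⟨.negSucc 9, .ofNat 32, .negSucc 126, .ofNat 54, .negSucc 0, .ofNat 46⟩, ⟨.negSucc 291, .ofNat 160, .ofNat 20, .ofNat 133, .ofNat 205, .ofNat 720⟩, ⟨.ofNat 945, .negSucc 481, .negSucc 357, .negSucc 256, .negSucc 1155, .negSucc 2233⟩, ⟨.negSucc 124, .ofNat 114, .ofNat 47, .ofNat 380, .negSucc 533, .negSucc 256⟩, .ofNat 411, .ofNat 76, .ofNat 0, .ofNat 76, .ofNat 1395, .ofNat 0, .ofNat 503, .negSucc 107, .negSucc 509, .ofNat 0, .ofNat 167, .ofNat 47, .ofNat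 0, .ofNat 0, .ofNat 576, .ofNat 1212, .ofNat 0, .ofNat 0, .ofNat 126276642791550147061879721164800, .ofNat 0, .ofNat 0, .ofNat 0, .ofNat 0, .ofNat 0, .ofNat 0, .ofNat 0, .ofNat 10758134869574524342838831244902400, .ofNat 0, .ofNat 0, .ofNat 0, .ofNat 12674803191428607290510396306227200, .ofNat 0⟩)
    (by decide +kernel)
theorem L00406 : Good (Phi V4.P V4.D (-1) 1) ⟨3, 5, 2, 1, 3, 7, 2, 1, 4, 0⟩ :=
  out_sound (S := T4.ds_mp) T4.ok_mp (w := 48) (j := 3) (by decide +kernel)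
theorem L00407 : Good (Phi V4.P V4.D (-1) 1) ⟨3, 4, 2, 0, 3, 6, 1, 0, 4, 1⟩ :=
  leaf_sound (S := T4.ds_mp) T4.ok_mp (w := 176) (c := ⟨⟨.ofNat 56, .negSucc 241, .negSucc 134, .negSucc 152, .negSucc 658, .negSucc 555⟩, ⟨.ofNat 38, .ofNat 38, .negSucc 175, .ofNat 7, .negSucc 40, .negSucc 22⟩, ⟨.ofNat 136, .ofNat 155, .ofNat 83, .ofNat 82, .ofNat 123, .ofNat 380⟩, ⟨.negSucc 34, .negSucc 310, .negSucc 187, .negSucc 329, .negSucc 1344, .negSucc 1142⟩, ⟨.negSucc 269, .ofNat 79, .ofNat 82, .ofNat 62, .negSucc 614, .negSucc 64⟩, .ofNat 442, .negSucc 43, .ofNat 0, .negSucc 43, .ofNat 1822, .ofNat 0, .ofNat 409, .ofNat 10, .negSucc 332, .ofNat 0, .ofNat 124, .ofNat 8, .ofNat 0, .ofNat 0, .ofNat 516, .ofNat 1777, .ofNat 0, .ofNat 0, .ofNat 0, .ofNat 0, .ofNat 0, .ofNat 0, .ofNat 0, .ofNat 0, .ofNat 0, .ofNat 0, .ofNat 0, .ofNat 0, .ofNat 0, .ofNat 0, .ofNat 0, .ofNat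 0⟩)
    (by decide +kernel)
theorem L00408 : Good (Phi V4.P V4.D (-1) 1) ⟨3, 4, 2, 1, 3, 6, 1, 0, 4, 1⟩ :=
  leaf_sound (S := T4.ds_mp) T4.ok_mp (w := 176) (c := ⟨⟨.negSucc 11, .negSucc 280, .negSucc 142, .negSucc 144, .negSucc 730, .negSucc 563⟩, ⟨.negSucc 18, .ofNat 29, .negSucc 174, .negSucc 25, .negSucc 165, .negSucc 100⟩, ⟨.ofNat 191, .ofNat 161, .ofNat 80, .ofNat 35, .ofNat 185, .ofNat 410⟩, ⟨.negSucc 74, .negSucc 423, .negSucc 255, .negSucc 325, .negSucc 1437, .negSucc 1189⟩, ⟨.negSucc 201, .ofNat 79, .ofNat 50, .ofNat 68, .negSucc 594, .negSucc 64⟩, .ofNat 341, .negSucc 76, .ofNat 0, .negSucc 76, .ofNat 685, .ofNat 0, .ofNat 449, .ofNat 91, .negSucc 498, .ofNat 0, .ofNat 198, .negSucc 15, .ofNat 0, .ofNat 0, .ofNat 601, .ofNat 1831, .ofNat 0, .ofNat 0, .ofNat 6135435702583384182698174054400, .ofNat 0, .ofNat 0, .ofNat 0, .ofNat 0, .ofNat 0, .ofNat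 0, .ofNat 0, .ofNat 0, .ofNat 0, .ofNat 0, .ofNat 0, .ofNat 328047907851748493290488043929600, .ofNat 0⟩)
    (by decide +kernel)
theorem L00409 : Good (Phi V4.P V4.D (-1) 1) ⟨3, 5, 2, 0, 3, 6, 2, 0, 4, 1⟩ :=
  leaf_sound (S := T4.ds_mp) T4.ok_mp (w := 184) (c := ⟨⟨.ofNat 123, .negSucc 372, .negSucc 118, .negSucc 272, .negSucc 501, .negSucc 917⟩, ⟨.negSucc 11, .ofNat 108, .negSucc 156, .ofNat 37, .ofNat 13, .ofNat 62⟩, ⟨.ofNat 86, .ofNat 200, .ofNat 57, .ofNat 174, .ofNat 153, .ofNat 609⟩, ⟨.ofNat 138, .negSucc 491, .negSucc 189, .negSucc 494, .negSucc 959, .negSucc 1730⟩, ⟨.negSucc 291, .ofNat 169, .ofNat 72, .ofNat 244, .negSucc 303, .negSucc 13⟩, .ofNat 310, .ofNat 26, .ofNat 0, .ofNat 26, .ofNat 670, .ofNat 0, .ofNat 510, .negSucc 168, .negSucc 652, .ofNat 0, .ofNat 209, .ofNat 94, .ofNat 0, .ofNat 0, .ofNat 621, .ofNat 2120, .ofNat 0, .ofNat 0, .ofNat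 183956076925524936987170675097600, .ofNat 0, .ofNat 4569472119418303885996705139235225600, .ofNat 0, .ofNat 4915499067540527021556426709401600, .ofNat 0, .ofNat 2529536653213442810029773242656358400, .ofNat 0, .ofNat 10611136717809527487975887418163200, .ofNat 0, .ofNat 0, .ofNat 0, .ofNat 8855279310906467350572901072896000, .ofNat 0⟩)
    (by decide +kernel)
theorem L00410 : Good (Phi V4.P V4.D (-1) 1) ⟨3, 5, 2, 0, 3, 6, 2, 1, 4, 1⟩ :=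
  leaf_sound (S := T4.ds_mp) T4.ok_mp (w := 184) (c := ⟨⟨.negSucc 452, .negSucc 624, .negSucc 256, .negSucc 284, .negSucc 311, .negSucc 547⟩, ⟨.ofNat 31, .ofNat 130, .negSucc 230, .ofNat 21, .negSucc 2, .ofNat 37⟩, ⟨.ofNat 267, .ofNat 415, .ofNat 176, .ofNat 144, .ofNat 108, .ofNat 410⟩, ⟨.negSucc 988, .negSucc 886, .negSucc 397, .negSucc 533, .negSucc 616, .negSucc 1043⟩, ⟨.negSucc 539, .ofNat 226, .ofNat 111, .ofNat 91, .negSucc 312, .negSucc 33⟩, .ofNat 414, .ofNat 86, .ofNat 0, .ofNat 86, .ofNat 1456, .ofNat 0, .ofNat 434, .negSucc 108, .negSucc 488, .ofNat 0, .ofNat 152, .ofNat 66, .ofNat 0, .ofNat 0, .ofNat 600, .ofNat 1796, .ofNat 0, .ofNat 0, .ofNat 131294000940383734934299213824000, .ofNat 0, .ofNat 0, .ofNat 0, .ofNat 10088069126832727800831984166502400, .ofNat 0, .ofNat 0, .ofNat 0, .ofNat 16831985021697897813883704311808000, .ofNat 0, .ofNat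 0, .ofNat 0, .ofNat 12242744595683823095978912435404800, .ofNat 0⟩)
    (by decide +kernel)
theorem L00411 : Good (Phi V4.P V4.D (-1) 1) ⟨3, 5, 2, 1, 3, 6, 1, 0, 4, 1⟩ :=
  out_sound (S := T4.ds_mp) T4.ok_mp (w := 48) (j := 3) (by decide +kernel)
theorem L00412 : Good (Phi V4.P V4.D (-1) 1) ⟨3, 4, 1, 0, 3, 7, 2, 0, 4, 1⟩ :=
  leaf_sound (S := T4.ds_mp) T4.ok_mp (w := 176) (c := ⟨⟨.ofNat 49, .negSucc 365, .negSucc 167, .negSucc 251, .negSucc 349, .negSucc 779⟩, ⟨.ofNat 93, .ofNat 54, .negSucc 332, .negSucc 11, .negSucc 66, .negSucc 88⟩, ⟨.ofNat 309, .ofNat 163, .negSucc 148, .ofNat 116, .ofNat 16, .ofNat 441⟩, ⟨.negSucc 17, .negSucc 528, .negSucc 324, .negSucc 559, .negSucc 702, .negSucc 1640⟩, ⟨.negSucc 115, .ofNat 185, .ofNat 176, .ofNat 247, .negSucc 405, .negSucc 185⟩, .ofNat 335, .negSucc 45, .ofNat 0, .negSucc 45, .ofNat 724, .ofNat 0, .ofNat 537,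 .negSucc 27, .negSucc 387, .ofNat 0, .ofNat 197, .negSucc 17, .ofNat 0, .ofNat 0, .ofNat 506, .ofNat 2221, .ofNat 0, .ofNat 0, .ofNat 101012156920924437523866845184000, .ofNat 0, .ofNat 0, .ofNat 0, .ofNat 3548874619866827289062928914841600, .ofNat 0, .ofNat 0, .ofNat 0, .ofNat 0, .ofNat 0, .ofNat 0, .ofNat 0, .ofNat 3068693806175925832570240814284800, .ofNat 0⟩)
    (by decide +kernel)
theorem L00413 : Good (Phi V4.P V4.D (-1) 1) ⟨3, 5, 2, 0, 3, 7, 2, 0, 4, 1⟩ :=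
  leaf_sound (S := T4.ds_mp) T4.ok_mp (w := 184) (c := ⟨⟨.ofNat 25, .negSucc 687, .negSucc 155, .negSucc 448, .negSucc 405, .negSucc 1114⟩, ⟨.negSucc 6, .ofNat 235, .negSucc 169, .ofNat 65, .negSucc 19, .ofNat 86⟩, ⟨.ofNat 296, .ofNat 267, .negSucc 80, .ofNat 229, .ofNat 83, .ofNat 603⟩, ⟨.negSucc 66, .negSucc 923, .negSucc 294, .negSucc 815, .negSucc 806, .negSucc 2085⟩, ⟨.negSucc 35, .ofNat 426, .ofNat 144, .ofNat 375, .negSucc 488, .negSucc 72⟩, .ofNat 411, .ofNat 90, .ofNat 0, .ofNat 90, .ofNat 1398, .ofNat 0, .ofNat 499, .negSucc 224, .negSucc 408, .ofNat 0, .ofNat 173, .ofNat 39, .ofNat 0, .ofNat 0, .ofNat 515, .ofNat 2864, .ofNat 0, .ofNat 0, .ofNat 362475892672380647069933843251200, .ofNat 0, .ofNat 0, .ofNat 0, .ofNat 9909990940970718419437501179494400, .ofNat 0, .ofNat 0, .ofNat 0, .ofNat 14723369248432982312269922697216000, .ofNat 0, .ofNat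 0, .ofNat 0, .ofNat 9348413801766972059466262904832000, .ofNat 0⟩)
    (by decide +kernel)
theorem L00414 : Good (Phi V4.P V4.D (-1) 1) ⟨3, 5, 2, 1, 3, 7, 2, 0, 4, 1⟩ :=
  out_sound (S := T4.ds_mp) T4.ok_mp (w := 48) (j := 3) (by decide +kernel)
theorem L00415 : Good (Phi V4.P V4.D (-1) 1) ⟨3, 4, 1, 0, 3, 7, 2, 1, 4, 1⟩ :=
  leaf_sound (S := T4.ds_mp) T4.ok_mp (w := 176) (c := ⟨⟨.negSucc 413, .negSucc 401, .negSucc 317, .negSucc 141, .negSucc 233, .negSucc 519⟩, ⟨.ofNat 71, .ofNat 47, .negSucc 480, .negSucc 4, .negSucc 49, .negSucc 56⟩, ⟨.ofNat 332, .ofNat 221, .ofNat 63, .ofNat 4, .ofNat 7, .ofNat 331⟩, ⟨.negSucc 1064, .negSucc 571, .negSucc 462, .negSucc 295, .negSucc 448, .negSucc 1072⟩, ⟨.negSucc 424, .ofNat 117, .ofNat 109, .ofNat 104, .negSucc 433, .negSucc 144⟩, .ofNat 334, .negSucc 43, .ofNat 0, .negSucc 43, .ofNat 726, .ofNat 0, .ofNat 506, .ofNat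 44, .negSucc 491, .ofNat 0, .ofNat 202, .ofNat 6, .ofNat 0, .ofNat 0, .ofNat 578, .ofNat 2245, .ofNat 0, .ofNat 0, .ofNat 81401038927670316470246572032000, .ofNat 0, .ofNat 0, .ofNat 0, .ofNat 3557183774435201771764728201216000, .ofNat 0, .ofNat 0, .ofNat 0, .ofNat 2222586208554413379487924853145600, .ofNat 0, .ofNat 0, .ofNat 0, .ofNat 4437153424983125700991975528857600, .ofNat 0⟩)
    (by decide +kernel)
theorem L00416 : Good (Phi V4.P V4.D (-1) 1) ⟨3, 5, 2, 0, 3, 7, 2, 1, 4, 1⟩ :=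
  leaf_sound (S := T4.ds_mp) T4.ok_mp (w := 184) (c := ⟨⟨.negSucc 749, .negSucc 771, .negSucc 281, .negSucc 126, .negSucc 193, .negSucc 608⟩, ⟨.ofNat 59, .ofNat 191, .negSucc 245, .ofNat 23, .negSucc 28, .ofNat 36⟩, ⟨.ofNat 489, .ofNat 461, .ofNat 107, .ofNat 5, .ofNat 15, .ofNat 391⟩, ⟨.negSucc 1561, .negSucc 1070, .negSucc 458, .negSucc 242, .negSucc 400, .negSucc 1155⟩, ⟨.negSucc 290, .ofNat 277, .ofNat 115, .ofNat 73, .negSucc 500, .negSucc 146⟩, .ofNat 411, .ofNat 79, .ofNat 0, .ofNat 79, .ofNat 1383, .ofNat 0, .ofNat 488, .negSucc 131, .negSucc 481, .ofNat 0, .ofNat 168, .ofNat 58, .ofNat 0, .ofNat 0, .ofNat 570, .ofNat 2514, .ofNat 0, .ofNat 0, .ofNat 207986225059838609333357956300800, .ofNat 0, .ofNat 0, .ofNat 0, .ofNat 10688114384435766964851926315827200, .ofNat 0, .ofNat 0, .ofNat 0, .ofNat 14686678697951683214884245130444800, .ofNat 0, .ofNat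 0, .ofNat 0, .ofNat 12364725702936519680202604176998400, .ofNat 0⟩)
    (by decide +kernel)
theorem L00417 : Good (Phi V4.P V4.D (-1) 1) ⟨3, 5, 2, 1, 3, 7, 2, 1, 4, 1⟩ :=
  out_sound (S := T4.ds_mp) T4.ok_mp (w := 48) (j := 3) (by decide +kernel)
theorem L00418 : Good (Phi V4.P V4.D (-1) 1) ⟨3, 4, 1, 0, 2, 2, 2, 0, 3, 1⟩ :=
  leaf_sound (S := T4.ds_mp) T4.ok_mp (w := 168) (c := ⟨⟨.negSucc 501, .negSucc 235, .negSucc 163, .negSucc 262, .negSucc 82, .negSucc 301⟩, ⟨.ofNat 42, .ofNat 66, .negSucc 407, .negSucc 28, .negSucc 13, .negSucc 37⟩, ⟨.ofNat 566, .ofNat 198, .ofNat 238, .ofNat 83, .negSucc 120, .ofNat 310⟩, ⟨.negSucc 1203, .negSucc 264, .negSucc 214, .negSucc 536, .negSucc 155, .negSucc 628⟩, ⟨.negSucc 185, .ofNat 34, .ofNat 137, .negSucc 218, .negSucc 224, .negSucc 144⟩, .ofNat 333, .negSucc 36, .ofNat 0, .negSucc 36, .ofNat 729, .ofNat 0, .ofNat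 332, .ofNat 19, .negSucc 282, .ofNat 0, .ofNat 163, .ofNat 29, .ofNat 0, .ofNat 0, .ofNat 526, .ofNat 4201, .ofNat 0, .ofNat 0, .ofNat 6383462216875414110653644800, .ofNat 0, .ofNat 0, .ofNat 0, .ofNat 141592936810592893809564057600, .ofNat 0, .ofNat 0, .ofNat 0, .ofNat 0, .ofNat 0, .ofNat 0, .ofNat 0, .ofNat 345152673879072108657927782400, .ofNat 0⟩)
    (by decide +kernel)
theorem L00419 : Good (Phi V4.P V4.D (-1) 1) ⟨3, 4, 1, 0, 2, 2, 2, 1, 3, 1⟩ :=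
  leaf_sound (S := T4.ds_mp) T4.ok_mp (w := 168) (c := ⟨⟨.negSucc 637, .negSucc 231, .negSucc 221, .negSucc 289, .ofNat 5, .negSucc 128⟩, ⟨.ofNat 39, .ofNat 50, .negSucc 434, .negSucc 38, .negSucc 9, .negSucc 16⟩, ⟨.ofNat 470, .ofNat 215, .ofNat 262, .ofNat 139, .negSucc 163, .ofNat 167⟩, ⟨.negSucc 1492, .negSucc 266, .negSucc 273, .negSucc 598, .ofNat 37, .negSucc 262⟩, ⟨.negSucc 400, .ofNat 33, .ofNat 136, .negSucc 285, .negSucc 209, .negSucc 125⟩, .ofNat 334, .negSucc 41, .ofNat 0, .negSucc 41, .ofNat 727, .ofNat 0, .ofNat 328, .ofNat 33, .negSucc 313, .ofNat 0, .ofNat 167, .ofNat 25, .ofNat 0, .ofNat 0, .ofNat 552, .ofNat 2316, .ofNat 0, .ofNat 0, .ofNat 4415766468757632702008524800, .ofNat 0, .ofNat 0, .ofNat 0, .ofNat 223568073134375212573890969600, .ofNat 0, .ofNat 0, .ofNat 0, .ofNat 0, .ofNat 0, .ofNat 0, .ofNat 0, .ofNat 387031988752252416506304921600,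 .ofNat 0⟩)
    (by decide +kernel)
theorem L00420 : Good (Phi V4.P V4.D (-1) 1) ⟨3, 5, 1, 0, 2, 2, 2, 0, 3, 1⟩ :=
  leaf_sound (S := T4.ds_mp) T4.ok_mp (w := 168) (c := ⟨⟨.negSucc 684, .negSucc 312, .negSucc 165, .negSucc 347, .negSucc 108, .negSucc 316⟩, ⟨.ofNat 63, .ofNat 117, .negSucc 405, .ofNat 8, .negSucc 13, .ofNat 7⟩, ⟨.ofNat 708, .ofNat 254, .ofNat 251, .ofNat 106, .negSucc 77, .ofNat 361⟩, ⟨.negSucc 1397, .negSucc 317, .negSucc 196, .negSucc 663, .negSucc 222, .negSucc 610⟩, ⟨.negSucc 169, .ofNat 94, .ofNat 166, .negSucc 181, .negSucc 212, .negSucc 156⟩, .ofNat 411, .ofNat 80, .ofNat 0, .ofNat 80, .ofNat 1396, .ofNat 0, .ofNat 318, .negSucc 66, .negSucc 275, .ofNat 0, .ofNat 132, .ofNat 46, .ofNat 0, .ofNat 0, .ofNat 513, .ofNat 3612, .ofNat 0, .ofNat 0, .ofNat 10997254963438709517582336000, .ofNat 0, .ofNat 0, .ofNat 0, .ofNat 381322578539003293784132812800,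 .ofNat 0, .ofNat 0, .ofNat 0, .ofNat 1050892021254352505500650700800, .ofNat 0, .ofNat 0, .ofNat 0, .ofNat 723573940110975742649145753600, .ofNat 0⟩)
    (by decide +kernel)
theorem L00421 : Good (Phi V4.P V4.D (-1) 1) ⟨3, 5, 1, 0, 2, 2, 2, 1, 3, 1⟩ :=
  leaf_sound (S := T4.ds_mp) T4.ok_mp (w := 168) (c := ⟨⟨.negSucc 832, .negSucc 418, .negSucc 331, .negSucc 385, .ofNat 19, .negSucc 79⟩, ⟨.ofNat 71, .ofNat 98, .negSucc 454, .ofNat 10, .negSucc 22, .negSucc 11⟩, ⟨.ofNat 660, .ofNat 348, .ofNat 344, .ofNat 177, .negSucc 157, .ofNat 144⟩, ⟨.negSucc 1701, .negSucc 517, .negSucc 406, .negSucc 746, .ofNat 18, .negSucc 166⟩, ⟨.negSucc 342, .ofNat 122, .ofNat 241, .negSucc 298, .negSucc 235, .negSucc 192⟩, .ofNat 411, .ofNat 86, .ofNat 0, .ofNat 86, .ofNat 1388, .ofNat 0, .ofNat 326, .negSucc 65, .negSucc 324, .ofNat 0, .ofNat 135, .ofNat 53, .ofNat 0, .ofNat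 0, .ofNat 548, .ofNat 2108, .ofNat 0, .ofNat 0, .ofNat 5641470800852573016922521600, .ofNat 0, .ofNat 0, .ofNat 0, .ofNat 526843551657751006214828851200, .ofNat 0, .ofNat 0, .ofNat 0, .ofNat 954464483586824341944061132800, .ofNat 0, .ofNat 0, .ofNat 0, .ofNat 744423044835058167040494796800, .ofNat 0⟩)
    (by decide +kernel)
theorem L00422 : Good (Phi V4.P V4.D (-1) 1) ⟨4, 8, 2, 0, 2, 3, 1, 0, 4, 2⟩ :=
  leaf_sound (S := T4.ds_mp) T4.ok_mp (w := 176) (c := ⟨⟨.negSucc 700, .negSucc 154, .negSucc 113, .negSucc 372, .negSucc 165, .negSucc 210⟩, ⟨.ofNat 46, .ofNat 32, .negSucc 253, .negSucc 27, .negSucc 34, .negSucc 23⟩, ⟨.ofNat 701, .ofNat 96, .ofNat 19, .ofNat 136, .negSucc 215, .ofNat 176⟩, ⟨.negSucc 1641, .negSucc 201, .negSucc 142, .negSucc 814, .negSucc 307, .negSucc 441⟩, ⟨.negSucc 242, .ofNat 48, .ofNat 111, .ofNat 14, .negSucc 687, .negSucc 223⟩,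 .ofNat 469, .negSucc 130, .ofNat 0, .negSucc 130, .ofNat 1976, .ofNat 0, .ofNat 749, .ofNat 111, .negSucc 451, .ofNat 0, .ofNat 236, .negSucc 10, .ofNat 0, .ofNat 0, .ofNat 961, .ofNat 4532, .ofNat 0, .ofNat 0, .ofNat 0, .ofNat 0, .ofNat 0, .ofNat 0, .ofNat 0, .ofNat 0, .ofNat 0, .ofNat 0, .ofNat 0, .ofNat 0, .ofNat 0, .ofNat 0, .ofNat 0, .ofNat 0⟩)
    (by decide +kernel)
theorem L00423 : Good (Phi V4.P V4.D (-1) 1) ⟨4, 9, 2, 0, 2, 3, 2, 0, 4, 2⟩ :=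
  leaf_sound (S := T4.ds_mp) T4.ok_mp (w := 176) (c := ⟨⟨.negSucc 773, .negSucc 229, .negSucc 119, .negSucc 517, .negSucc 87, .negSucc 253⟩, ⟨.ofNat 64, .ofNat 57, .negSucc 255, .negSucc 1, .negSucc 29, .negSucc 15⟩, ⟨.ofNat 756, .ofNat 117, .negSucc 6, .ofNat 180, .negSucc 98, .ofNat 208⟩, ⟨.negSucc 1691, .negSucc 299, .negSucc 185, .negSucc 1056, .negSucc 179, .negSucc 501⟩, ⟨.negSucc 231, .ofNat 119, .ofNat 130, .ofNat 159, .negSucc 406, .negSucc 244⟩, .ofNat 435, .negSucc 31, .ofNat 0, .negSucc 31, .ofNat 1723, .ofNat 0, .ofNat 810, .negSucc 64, .negSucc 457, .ofNat 0, .ofNat 255, .ofNat 10, .ofNat 0, .ofNat 0, .ofNat 953, .ofNat 9026, .ofNat 0, .ofNat 0, .ofNat 0, .ofNat 0, .ofNat 0, .ofNat 0, .ofNat 0, .ofNat 0, .ofNat 0, .ofNat 0, .ofNat 0, .ofNat 0, .ofNat 0, .ofNat 0, .ofNat 0, .ofNat 0⟩)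
    (by decide +kernel)
theorem L00424 : Good (Phi V4.P V4.D (-1) 1) ⟨4, 9, 2, 0, 2, 3, 2, 1, 4, 2⟩ :=
  leaf_sound (S := T4.ds_mp) T4.ok_mp (w := 176) (c := ⟨⟨.negSucc 962, .negSucc 242, .negSucc 199, .negSucc 391, .negSucc 36, .negSucc 110⟩, ⟨.ofNat 70, .ofNat 40, .negSucc 296, .negSucc 13, .negSucc 24, .negSucc 9⟩, ⟨.ofNat 719, .ofNat 169, .ofNat 87, .ofNat 93, .negSucc 114, .ofNat 92⟩, ⟨.negSucc 2091, .negSucc 327, .negSucc 283, .negSucc 792, .negSucc 72, .negSucc 228⟩, ⟨.negSucc 480, .ofNat 96, .ofNat 110, .negSucc 73, .negSucc 401, .negSucc 257⟩, .ofNat 324, .negSucc 5, .ofNat 0, .negSucc 5, .ofNat 736, .ofNat 0, .ofNat 452, .negSucc 43, .negSucc 413, .ofNat 0, .ofNat 190, .ofNat 46, .ofNat 0, .ofNat 0, .ofNat 560, .ofNat 3588, .ofNat 0, .ofNat 0, .ofNat 0, .ofNat 0, .ofNat 0, .ofNat 0, .ofNat 0, .ofNat 0, .ofNat 0, .ofNat 0, .ofNat 0, .ofNat 0,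 .ofNat 0, .ofNat 0, .ofNat 0, .ofNat 0⟩)
    (by decide +kernel)
theorem L00425 : Good (Phi V4.P V4.D (-1) 1) ⟨4, 8, 3, 2, 2, 3, 1, 0, 4, 2⟩ :=
  leaf_sound (S := T4.ds_mp) T4.ok_mp (w := 176) (c := ⟨⟨.negSucc 740, .negSucc 187, .negSucc 32, .negSucc 418, .negSucc 242, .negSucc 225⟩, ⟨.negSucc 130, .ofNat 13, .negSucc 123, .negSucc 82, .negSucc 87, .negSucc 59⟩, ⟨.ofNat 732, .ofNat 101, .ofNat 20, .ofNat 0, .negSucc 99, .ofNat 185⟩, ⟨.negSucc 1664, .negSucc 277, .negSucc 30, .negSucc 922, .negSucc 395, .negSucc 459⟩, ⟨.negSucc 254, .ofNat 84, .ofNat 56, .ofNat 27, .negSucc 643, .negSucc 128⟩, .ofNat 638, .negSucc 579, .ofNat 0, .negSucc 579, .ofNat 2951, .ofNat 0, .ofNat 607, .ofNat 378, .negSucc 421, .ofNat 0, .ofNat 249, .negSucc 65, .ofNat 0, .ofNat 0, .ofNat 963, .ofNat 4851, .ofNat 0, .ofNat 0, .ofNat 4762235899747493634008678400, .ofNat 0, .ofNat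 0, .ofNat 0, .ofNat 0, .ofNat 0, .ofNat 0, .ofNat 0, .ofNat 0, .ofNat 0, .ofNat 0, .ofNat 0, .ofNat 0, .ofNat 0⟩)
    (by decide +kernel)
theorem L00426 : Good (Phi V4.P V4.D (-1) 1) ⟨4, 8, 3, 3, 2, 3, 2, 0, 4, 2⟩ :=
  leaf_sound (S := T4.ds_mp) T4.ok_mp (w := 184) (c := ⟨⟨.negSucc 729, .negSucc 170, .negSucc 58, .negSucc 399, .negSucc 192, .negSucc 299⟩, ⟨.negSucc 217, .ofNat 12, .negSucc 124, .negSucc 102, .negSucc 70, .negSucc 89⟩, ⟨.ofNat 756, .ofNat 103, .ofNat 32, .negSucc 102, .negSucc 23, .ofNat 215⟩, ⟨.negSucc 1609, .negSucc 237, .negSucc 118, .negSucc 913, .negSucc 330, .negSucc 614⟩, ⟨.negSucc 196, .ofNat 44, .ofNat 61, .ofNat 131, .negSucc 334, .negSucc 148⟩, .ofNat 823, .negSucc 1004, .ofNat 0, .negSucc 1004, .ofNat 3715, .ofNat 0, .ofNat 525, .ofNat 458, .negSucc 365, .ofNat 0, .ofNat 265, .negSucc 89, .ofNat 0, .ofNat 0, .ofNat 933, .ofNat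 8976, .ofNat 0, .ofNat 0, .ofNat 219191483278214054204040806400, .ofNat 0, .ofNat 0, .ofNat 0, .ofNat 21918289633639471463352238080000, .ofNat 0, .ofNat 0, .ofNat 0, .ofNat 0, .ofNat 0, .ofNat 0, .ofNat 0, .ofNat 0, .ofNat 0⟩)
    (by decide +kernel)
theorem L00427 : Good (Phi V4.P V4.D (-1) 1) ⟨4, 8, 3, 3, 2, 3, 2, 1, 4, 2⟩ :=
  leaf_sound (S := T4.ds_mp) T4.ok_mp (w := 184) (c := ⟨⟨.negSucc 971, .negSucc 227, .negSucc 126, .negSucc 359, .negSucc 108, .negSucc 150⟩, ⟨.negSucc 295, .negSucc 3, .negSucc 158, .negSucc 102, .negSucc 48, .negSucc 50⟩, ⟨.ofNat 756, .ofNat 143, .ofNat 85, .negSucc 93, .negSucc 46, .ofNat 132⟩, ⟨.negSucc 2078, .negSucc 359, .negSucc 235, .negSucc 766, .negSucc 150, .negSucc 296⟩, ⟨.negSucc 464, .ofNat 82, .ofNat 83, .negSucc 84, .negSucc 322, .negSucc 134⟩, .ofNat 816, .negSucc 989, .ofNat 0, .negSucc 989, .ofNat 3689, .ofNat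 0, .ofNat 537, .ofNat 475, .negSucc 444, .ofNat 0, .ofNat 279, .negSucc 98, .ofNat 0, .ofNat 0, .ofNat 993, .ofNat 12477, .ofNat 0, .ofNat 0, .ofNat 261574358783441069842366464000, .ofNat 0, .ofNat 0, .ofNat 0, .ofNat 23899747374826979305592350310400, .ofNat 0, .ofNat 0, .ofNat 0, .ofNat 21939218013221081051611476787200, .ofNat 0, .ofNat 0, .ofNat 0, .ofNat 22413651243582739184912380723200, .ofNat 0⟩)
    (by decide +kernel)
theorem L00428 : Good (Phi V4.P V4.D (-1) 1) ⟨4, 9, 2, 1, 2, 3, 2, 0, 4, 2⟩ :=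
  leaf_sound (S := T4.ds_mp) T4.ok_mp (w := 176) (c := ⟨⟨.negSucc 828, .negSucc 258, .negSucc 101, .negSucc 510, .negSucc 161, .negSucc 286⟩, ⟨.negSucc 127, .ofNat 36, .negSucc 266, .negSucc 49, .negSucc 53, .negSucc 53⟩, ⟨.ofNat 806, .ofNat 134, .ofNat 30, .negSucc 22, .negSucc 16, .ofNat 232⟩, ⟨.negSucc 1756, .negSucc 367, .negSucc 179, .negSucc 1077, .negSucc 279, .negSucc 554⟩, ⟨.negSucc 168, .ofNat 90, .ofNat 131, .ofNat 228, .negSucc 388, .negSucc 218⟩, .ofNat 454, .negSucc 159, .ofNat 0, .negSucc 159, .ofNat 1419, .ofNat 0, .ofNat 789, .ofNat 156, .negSucc 471, .ofNat 0, .ofNat 290, .negSucc 32, .ofNat 0, .ofNat 0, .ofNat 961, .ofNat 8015, .ofNat 0, .ofNat 0, .ofNat 218088005821222500885646540800, .ofNat 0, .ofNat 0, .ofNat 0, .ofNat 13141528008692666643947873894400, .ofNat 0, .ofNat 0, .ofNat 0, .ofNat 0, .ofNat 0, .ofNat 0, .ofNat 0, .ofNat 0,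 .ofNat 0⟩)
    (by decide +kernel)
theorem L00429 : Good (Phi V4.P V4.D (-1) 1) ⟨4, 9, 2, 1, 2, 3, 2, 1, 4, 2⟩ :=
  leaf_sound (S := T4.ds_mp) T4.ok_mp (w := 176) (c := ⟨⟨.negSucc 1115, .negSucc 242, .negSucc 255, .negSucc 409, .negSucc 83, .negSucc 125⟩, ⟨.negSucc 181, .ofNat 29, .negSucc 311, .negSucc 59, .negSucc 38, .negSucc 29⟩, ⟨.ofNat 813, .ofNat 168, .ofNat 215, .negSucc 23, .negSucc 45, .ofNat 127⟩, ⟨.negSucc 2314, .negSucc 335, .negSucc 445, .negSucc 831, .negSucc 122, .negSucc 230⟩, ⟨.negSucc 405, .ofNat 42, .ofNat 140, .negSucc 81, .negSucc 360, .negSucc 184⟩, .ofNat 565, .negSucc 378, .ofNat 0, .negSucc 378, .ofNat 2867, .ofNat 0, .ofNat 361, .ofNat 131, .negSucc 275, .ofNat 0, .ofNat 129, .negSucc 18, .ofNat 0, .ofNat 0, .ofNat 514, .ofNat 2947, .ofNat 0, .ofNat 0, .ofNat 79870704246826685015733043200, .ofNat 0, .ofNat 0, .ofNat 0, .ofNat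 0, .ofNat 0, .ofNat 0, .ofNat 0, .ofNat 7669600975466662413128328806400, .ofNat 0, .ofNat 0, .ofNat 0, .ofNat 6637074352587903455002519142400, .ofNat 0⟩)
    (by decide +kernel)
theorem L00430 : Good (Phi V4.P V4.D (-1) 1) ⟨4, 10, 3, 0, 2, 3, 2, 0, 4, 2⟩ :=
  leaf_sound (S := T4.ds_mp) T4.ok_mp (w := 176) (c := ⟨⟨.negSucc 849, .negSucc 380, .negSucc 146, .negSucc 650, .negSucc 129, .negSucc 221⟩, ⟨.ofNat 65, .ofNat 101, .negSucc 122, .ofNat 72, .negSucc 18, .negSucc 1⟩, ⟨.ofNat 763, .ofNat 196, .ofNat 55, .ofNat 260, .negSucc 32, .ofNat 199⟩, ⟨.negSucc 1743, .negSucc 514, .negSucc 242, .negSucc 1215, .negSucc 280, .negSucc 442⟩, ⟨.negSucc 185, .ofNat 183, .ofNat 97, .ofNat 261, .negSucc 429, .negSucc 286⟩, .ofNat 471, .ofNat 166, .ofNat 0, .ofNat 166, .ofNat 2465, .ofNat 0, .ofNat 823, .negSucc 322, .negSucc 589, .ofNat 0, .ofNat 263, .ofNat 68, .ofNat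 0, .ofNat 0, .ofNat 991, .ofNat 6052, .ofNat 0, .ofNat 0, .ofNat 0, .ofNat 0, .ofNat 0, .ofNat 0, .ofNat 0, .ofNat 0, .ofNat 0, .ofNat 0, .ofNat 8520558036422283284466106368000, .ofNat 0, .ofNat 0, .ofNat 0, .ofNat 0, .ofNat 0⟩)
    (by decide +kernel)
theorem L00431 : Good (Phi V4.P V4.D (-1) 1) ⟨4, 10, 3, 0, 2, 3, 2, 1, 4, 2⟩ :=
  leaf_sound (S := T4.ds_mp) T4.ok_mp (w := 176) (c := ⟨⟨.negSucc 1176, .negSucc 326, .negSucc 131, .negSucc 462, .negSucc 15, .negSucc 69⟩, ⟨.ofNat 89, .ofNat 80, .negSucc 145, .ofNat 30, .negSucc 26, .negSucc 14⟩, ⟨.ofNat 832, .ofNat 216, .ofNat 82, .ofNat 116, .negSucc 101, .ofNat 87⟩, ⟨.negSucc 2384, .negSucc 434, .negSucc 196, .negSucc 881, .negSucc 56, .negSucc 151⟩, ⟨.negSucc 426, .ofNat 95, .ofNat 66, .negSucc 26, .negSucc 420, .negSucc 258⟩, .ofNat 414, .ofNat 86, .ofNat 0, .ofNat 86, .ofNat 1469, .ofNat 0, .ofNat 418,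 .negSucc 116, .negSucc 378, .ofNat 0, .ofNat 151, .ofNat 54, .ofNat 0, .ofNat 0, .ofNat 543, .ofNat 3583, .ofNat 0, .ofNat 0, .ofNat 0, .ofNat 0, .ofNat 0, .ofNat 0, .ofNat 0, .ofNat 0, .ofNat 0, .ofNat 0, .ofNat 0, .ofNat 0, .ofNat 0, .ofNat 0, .ofNat 0, .ofNat 0⟩)
    (by decide +kernel)
theorem L00432 : Good (Phi V4.P V4.D (-1) 1) ⟨4, 10, 3, 1, 2, 3, 1, 0, 4, 2⟩ :=
  leaf_sound (S := T4.ds_mp) T4.ok_mp (w := 176) (c := ⟨⟨.negSucc 1162, .negSucc 244, .negSucc 135, .negSucc 507, .negSucc 132, .negSucc 120⟩, ⟨.ofNat 11, .ofNat 53, .negSucc 152, .ofNat 1, .negSucc 74, .negSucc 21⟩, ⟨.ofNat 928, .ofNat 182, .ofNat 100, .ofNat 66, .negSucc 109, .ofNat 133⟩, ⟨.negSucc 2305, .negSucc 288, .negSucc 216, .negSucc 982, .negSucc 254, .negSucc 234⟩, ⟨.ofNat 70, .negSucc 53, .ofNat 4, .ofNat 43, .negSucc 848, .negSucc 245⟩, .ofNat 467, .negSucc 7, .ofNat 0, .negSucc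 7, .ofNat 2120, .ofNat 0, .ofNat 415, .negSucc 35, .negSucc 314, .ofNat 0, .ofNat 134, .ofNat 19, .ofNat 0, .ofNat 0, .ofNat 518, .ofNat 1511, .ofNat 0, .ofNat 0, .ofNat 6564144179407744801544601600, .ofNat 0, .ofNat 0, .ofNat 0, .ofNat 500101762090834553052384460800, .ofNat 0, .ofNat 0, .ofNat 0, .ofNat 949977051333507781663024742400, .ofNat 0, .ofNat 0, .ofNat 0, .ofNat 0, .ofNat 0⟩)
    (by decide +kernel)
theorem L00433 : Good (Phi V4.P V4.D (-1) 1) ⟨4, 11, 2, 0, 2, 3, 2, 0, 4, 2⟩ :=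
  leaf_sound (S := T4.ds_mp) T4.ok_mp (w := 176) (c := ⟨⟨.negSucc 1182, .negSucc 567, .negSucc 497, .negSucc 752, .negSucc 92, .negSucc 204⟩, ⟨.ofNat 149, .ofNat 184, .negSucc 189, .ofNat 127, .negSucc 33, .negSucc 2⟩, ⟨.ofNat 921, .ofNat 280, .ofNat 177, .ofNat 293, .negSucc 10, .ofNat 200⟩, ⟨.negSucc 2189, .negSucc 775, .negSucc 835, .negSucc 1327, .negSucc 229, .negSucc 412⟩, ⟨.negSucc 21, .ofNat 370, .ofNat 345, .ofNat 344, .negSucc 495, .negSucc 298⟩, .ofNat 470, .ofNat 240, .ofNat 0, .ofNat 240, .ofNat 2049, .ofNat 0, .ofNat 806, .negSucc 467, .negSucc 680, .ofNat 0, .ofNat 317, .ofNat 121, .ofNat 0, .ofNat 0, .ofNat 1020, .ofNat 5994, .ofNat 0, .ofNat 0, .ofNat 526793759680669568685047808000, .ofNat 0, .ofNat 1861426639833865601281274755311206400, .ofNat 0, .ofNat 44233112865969641898726182092800, .ofNat 0, .ofNat 0, .ofNat 0, .ofNat 38709907663260979425411543859200,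 .ofNat 0, .ofNat 0, .ofNat 0, .ofNat 69040278468582999562319088844800, .ofNat 0⟩)
    (by decide +kernel)
theorem L00434 : Good (Phi V4.P V4.D (-1) 1) ⟨4, 11, 2, 0, 2, 3, 2, 1, 4, 2⟩ :=
  leaf_sound (S := T4.ds_mp) T4.ok_mp (w := 176) (c := ⟨⟨.negSucc 1606, .negSucc 351, .negSucc 199, .negSucc 487, .ofNat 31, .ofNat 70⟩, ⟨.ofNat 187, .ofNat 117, .negSucc 295, .ofNat 58, .negSucc 51, .negSucc 40⟩, ⟨.ofNat 1110, .ofNat 240, .ofNat 100, .ofNat 119, .negSucc 120, .ofNat 7⟩, ⟨.negSucc 2992, .negSucc 419, .negSucc 250, .negSucc 888, .negSucc 5, .ofNat 85⟩, ⟨.negSucc 257, .ofNat 172, .ofNat 199, .negSucc 23, .negSucc 493, .negSucc 338⟩, .ofNat 507, .ofNat 331, .ofNat 0, .ofNat 331, .ofNat 2657, .ofNat 0, .ofNat 402, .negSucc 199, .negSucc 408, .ofNat 0, .ofNat 152, .ofNat 77, .ofNat 0, .ofNat 0, .ofNat 553, .ofNat 3694, .ofNat 0, .ofNat 0, .ofNat 336089917142260250641956864000,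 .ofNat 0, .ofNat 0, .ofNat 0, .ofNat 15122642350692906672385425408000, .ofNat 0, .ofNat 0, .ofNat 0, .ofNat 24317339391724856286831339110400, .ofNat 0, .ofNat 0, .ofNat 0, .ofNat 10247988780800089445541032755200, .ofNat 0⟩)
    (by decide +kernel)
theorem L00435 : Good (Phi V4.P V4.D (-1) 1) ⟨3, 5, 2, 1, 2, 3, 1, 0, 4, 2⟩ :=
  out_sound (S := T4.ds_mp) T4.ok_mp (w := 48) (j := 3) (by decide +kernel)
theorem L00436 : Good (Phi V4.P V4.D (-1) 1) ⟨3, 4, 2, 0, 2, 3, 2, 0, 4, 3⟩ :=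
  leaf_sound (S := T4.ds_mp) T4.ok_mp (w := 176) (c := ⟨⟨.negSucc 956, .negSucc 343, .negSucc 128, .negSucc 395, .negSucc 19, .negSucc 14⟩, ⟨.ofNat 36, .ofNat 81, .negSucc 284, .negSucc 26, .negSucc 15, .negSucc 15⟩, ⟨.ofNat 921, .ofNat 210, .ofNat 28, .ofNat 119, .negSucc 153, .ofNat 65⟩, ⟨.negSucc 2234, .negSucc 389, .negSucc 155, .negSucc 821, .negSucc 16, .negSucc 16⟩, ⟨.negSucc 409, .ofNat 70, .ofNat 152, .negSucc 125, .negSucc 320, .negSucc 287⟩, .ofNat 448, .negSucc 84, .ofNat 0, .negSucc 84, .ofNat 1748, .ofNat 0, .ofNat 698, .ofNat 20, .negSucc 340, .ofNat 0, .ofNat 238, .ofNat 4, .ofNat 0, .ofNat 0, .ofNat 940, .ofNat 9534, .ofNat 0, .ofNat 0, .ofNat 0, .ofNat 0, .ofNat 0, .ofNat 0, .ofNat 0, .ofNat 0, .ofNat 0, .ofNat 0, .ofNat 0, .ofNat 0, .ofNat 0, .ofNat 0, .ofNat 0, .ofNat 0⟩)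
    (by decide +kernel)
theorem L00437 : Good (Phi V4.P V4.D (-1) 1) ⟨3, 4, 2, 1, 2, 3, 2, 0, 4, 3⟩ :=
  leaf_sound (S := T4.ds_mp) T4.ok_mp (w := 176) (c := ⟨⟨.negSucc 1046, .negSucc 361, .negSucc 108, .negSucc 392, .negSucc 45, .negSucc 40⟩, ⟨.negSucc 205, .ofNat 57, .negSucc 294, .negSucc 73, .negSucc 29, .negSucc 18⟩, ⟨.ofNat 1001, .ofNat 212, .ofNat 34, .negSucc 98, .negSucc 83, .ofNat 93⟩, ⟨.negSucc 2326, .negSucc 450, .negSucc 175, .negSucc 832, .negSucc 33, .negSucc 39⟩, ⟨.negSucc 323, .ofNat 96, .ofNat 131, .negSucc 50, .negSucc 341, .negSucc 235⟩, .ofNat 496, .negSucc 256, .ofNat 0, .negSucc 256, .ofNat 1548, .ofNat 0, .ofNat 634, .ofNat 227, .negSucc 310, .ofNat 0, .ofNat 267, .negSucc 35, .ofNat 0, .ofNat 0, .ofNat 936, .ofNat 6780, .ofNat 0, .ofNat 0, .ofNat 358847795758964261968989388800, .ofNat 0, .ofNat 0, .ofNat 0, .ofNat 40272003855245251108376307302400,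 .ofNat 0, .ofNat 0, .ofNat 0, .ofNat 0, .ofNat 0, .ofNat 0, .ofNat 0, .ofNat 0, .ofNat 0⟩)
    (by decide +kernel)
theorem L00438 : Good (Phi V4.P V4.D (-1) 1) ⟨3, 4, 2, 0, 2, 3, 2, 1, 4, 3⟩ :=
  leaf_sound (S := T4.ds_mp) T4.ok_mp (w := 176) (c := ⟨⟨.negSucc 1038, .negSucc 330, .negSucc 181, .negSucc 284, .ofNat 67, .ofNat 58⟩, ⟨.ofNat 30, .ofNat 55, .negSucc 296, .negSucc 27, .negSucc 7, .negSucc 4⟩, ⟨.ofNat 769, .ofNat 249, .ofNat 111, .ofNat 19, .negSucc 182, .ofNat 6⟩, ⟨.negSucc 2387, .negSucc 404, .negSucc 209, .negSucc 592, .ofNat 157, .ofNat 135⟩, ⟨.negSucc 634, .ofNat 3, .ofNat 153, .negSucc 315, .negSucc 334, .negSucc 252⟩, .ofNat 450, .negSucc 85, .ofNat 0, .negSucc 85, .ofNat 1769, .ofNat 0, .ofNat 696, .ofNat 57, .negSucc 426, .ofNat 0, .ofNat 241, .ofNat 12, .ofNat 0, .ofNat 0, .ofNat 967, .ofNat 7102, .ofNat 0, .ofNat 0, .ofNat 0, .ofNat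 0, .ofNat 0, .ofNat 0, .ofNat 0, .ofNat 0, .ofNat 0, .ofNat 0, .ofNat 0, .ofNat 0, .ofNat 0, .ofNat 0, .ofNat 0, .ofNat 0⟩)
    (by decide +kernel)
theorem L00439 : Good (Phi V4.P V4.D (-1) 1) ⟨3, 4, 2, 1, 2, 3, 2, 1, 4, 3⟩ :=
  leaf_sound (S := T4.ds_mp) T4.ok_mp (w := 176) (c := ⟨⟨.negSucc 1166, .negSucc 342, .negSucc 160, .negSucc 316, .ofNat 24, .ofNat 52⟩, ⟨.negSucc 232, .ofNat 38, .negSucc 300, .negSucc 73, .negSucc 16, .negSucc 5⟩, ⟨.ofNat 911, .ofNat 227, .ofNat 127, .negSucc 89, .negSucc 155, .ofNat 5⟩, ⟨.negSucc 2551, .negSucc 419, .negSucc 214, .negSucc 619, .ofNat 113, .ofNat 155⟩, ⟨.negSucc 524, .ofNat 28, .ofNat 114, .negSucc 263, .negSucc 332, .negSucc 236⟩, .ofNat 480, .negSucc 221, .ofNat 0, .negSucc 221, .ofNat 1492, .ofNat 0, .ofNat 643, .ofNat 222, .negSucc 424, .ofNat 0, .ofNat 279, .negSucc 27, .ofNat 0, .ofNat 0, .ofNat 987, .ofNat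 6765, .ofNat 0, .ofNat 0, .ofNat 424634976811243607029501132800, .ofNat 0, .ofNat 0, .ofNat 0, .ofNat 41063583183828382543397466931200, .ofNat 0, .ofNat 0, .ofNat 0, .ofNat 48194185657114494257285667225600, .ofNat 0, .ofNat 0, .ofNat 0, .ofNat 42015626259620382551442456576000, .ofNat 0⟩)
    (by decide +kernel)
theorem L00440 : Good (Phi V4.P V4.D (-1) 1) ⟨4, 10, 2, 0, 2, 3, 1, 0, 4, 3⟩ :=
  leaf_sound (S := T4.ds_mp) T4.ok_mp (w := 176) (c := ⟨⟨.negSucc 1456, .negSucc 209, .negSucc 192, .negSucc 337, .ofNat 181, .ofNat 150⟩, ⟨.ofNat 142, .ofNat 59, .negSucc 307, .ofNat 1, .negSucc 79, .negSucc 41⟩, ⟨.ofNat 1202, .ofNat 142, .ofNat 47, .ofNat 55, .negSucc 412, .negSucc 4⟩, ⟨.negSucc 2894, .negSucc 217, .negSucc 260, .negSucc 673, .ofNat 296, .ofNat 257⟩, ⟨.negSucc 170, .ofNat 57, .ofNat 204, .negSucc 233, .negSucc 833, .negSucc 420⟩, .ofNat 413, .ofNat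 66, .ofNat 0, .ofNat 66, .ofNat 1442, .ofNat 0, .ofNat 750, .negSucc 211, .negSucc 467, .ofNat 0, .ofNat 288, .ofNat 64, .ofNat 0, .ofNat 0, .ofNat 974, .ofNat 2981, .ofNat 0, .ofNat 0, .ofNat 6212390730855393293814988800, .ofNat 0, .ofNat 0, .ofNat 0, .ofNat 0, .ofNat 0, .ofNat 0, .ofNat 0, .ofNat 957761803592754873192205516800, .ofNat 0, .ofNat 0, .ofNat 0, .ofNat 1441659453456266987736504729600, .ofNat 0⟩)
    (by decide +kernel)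
theorem L00441 : Good (Phi V4.P V4.D (-1) 1) ⟨4, 11, 2, 0, 2, 3, 1, 0, 4, 3⟩ :=
  leaf_sound (S := T4.ds_mp) T4.ok_mp (w := 176) (c := ⟨⟨.negSucc 1785, .negSucc 59, .negSucc 122, .negSucc 382, .ofNat 244, .ofNat 246⟩, ⟨.ofNat 240, .ofNat 41, .negSucc 308, .ofNat 20, .negSucc 114, .negSucc 77⟩, ⟨.ofNat 1371, .ofNat 48, .ofNat 54, .ofNat 132, .negSucc 463, .negSucc 29⟩, ⟨.negSucc 3278, .ofNat 51, .negSucc 89, .negSucc 731, .ofNat 333, .ofNat 386⟩, ⟨.ofNat 19, .negSucc 50, .ofNat 138, .negSucc 274, .negSucc 869, .negSucc 493⟩, .ofNat 494, .ofNat 300, .ofNat 0, .ofNat 300, .ofNat 2432, .ofNat 0, .ofNat 716, .negSucc 373, .negSucc 525, .ofNat 0, .ofNat 291, .ofNat 103, .ofNat 0, .ofNat 0, .ofNat 993, .ofNat 3267, .ofNat 0, .ofNat 0, .ofNat 22208406049383368307926630400, .ofNat 0, .ofNat 0, .ofNat 0, .ofNat 8051683308990296928741752832000, .ofNat 0, .ofNat 0,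 .ofNat 0, .ofNat 6047258288998136705195389747200, .ofNat 0, .ofNat 0, .ofNat 0, .ofNat 6130354488025969477525753036800, .ofNat 0⟩)
    (by decide +kernel)
theorem L00442 : Good (Phi V4.P V4.D (-1) 1) ⟨3, 5, 2, 1, 2, 3, 1, 0, 4, 3⟩ :=
  out_sound (S := T4.ds_mp) T4.ok_mp (w := 48) (j := 3) (by decide +kernel)
theorem L00443 : Good (Phi V4.P V4.D (-1) 1) ⟨3, 4, 2, 0, 2, 2, 2, 2, 3, 0⟩ :=
  leaf_sound (S := T4.ds_mp) T4.ok_mp (w := 168) (c := ⟨⟨.negSucc 184, .negSucc 234, .negSucc 145, .negSucc 268, .negSucc 195, .negSucc 415⟩, ⟨.ofNat 40, .ofNat 19, .negSucc 188, .negSucc 22, .negSucc 22, .negSucc 13⟩, ⟨.negSucc 120, .ofNat 178, .ofNat 124, .ofNat 192, .ofNat 43, .ofNat 415⟩, ⟨.negSucc 515, .negSucc 333, .negSucc 163, .negSucc 547, .negSucc 409, .negSucc 866⟩, ⟨.negSucc 665, .ofNat 0, .ofNat 50, .negSucc 226, .negSucc 146, .ofNat 60⟩, .ofNat 448, .negSucc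 62, .ofNat 0, .negSucc 62, .ofNat 1842, .ofNat 0, .ofNat 361, .ofNat 41, .negSucc 384, .ofNat 0, .ofNat 128, .ofNat 5, .ofNat 0, .ofNat 0, .ofNat 605, .ofNat 1059, .ofNat 0, .ofNat 0, .ofNat 0, .ofNat 0, .ofNat 0, .ofNat 0, .ofNat 0, .ofNat 0, .ofNat 0, .ofNat 0, .ofNat 0, .ofNat 0, .ofNat 0, .ofNat 0, .ofNat 0, .ofNat 0⟩)
    (by decide +kernel)

end Crest.Agent.R097C4.N4mp
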