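import Crest.Agent.R097.T4

/-!
# Row 97, box cover in dimension n = 4 (generated)
-/

set_option autoImplicit false
set_option Elab.async false
set_option maxHeartbeats 0
set_option maxRecDepth 100000

open Crest.Agent.R097 Crest.Agent.R097.KA


namespace Crest.Agent.R097C4.N4mp

theorem L00444 : Good (Phi V4.P V4.D (-1) 1) ⟨3, 4, 2, 0, 2, 2, 2, 3, 3, 0⟩ :=
  leaf_sound (S := T4.ds_mp) T4.ok_mp (w := 168) (c := ⟨⟨.negSucc 528, .negSucc 315, .negSucc 214, .negSucc 390, .negSucc 77, .ofNat 47⟩, ⟨.ofNat 29, .ofNat 32, .negSucc 228, .negSucc 24, .negSucc 14, .ofNat 1⟩, ⟨.ofNat 34, .ofNat 256, .ofNat 178, .ofNat 291, .ofNat 1, .ofNat 39⟩, ⟨.negSucc 1242, .negSucc 472, .negSucc 297, .negSucc 810, .negSucc 163, .ofNat 96⟩, ⟨.negSucc 738, .negSucc 52, .negSucc 6, .negSucc 325, .negSucc 39, .ofNat 79⟩, .ofNat 448, .negSucc 60, .ofNat 0, .negSucc 60, .ofNat 1874,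 .ofNat 0, .ofNat 384, .ofNat 47, .negSucc 444, .ofNat 0, .ofNat 136, .negSucc 3, .ofNat 0, .ofNat 0, .ofNat 636, .ofNat 1110, .ofNat 0, .ofNat 0, .ofNat 0, .ofNat 0, .ofNat 0, .ofNat 0, .ofNat 0, .ofNat 0, .ofNat 0, .ofNat 0, .ofNat 0, .ofNat 0, .ofNat 0, .ofNat 0, .ofNat 0, .ofNat 0⟩)
    (by decide +kernel)
theorem L00445 : Good (Phi V4.P V4.D (-1) 1) ⟨3, 4, 2, 0, 2, 2, 2, 2, 3, 1⟩ :=
  leaf_sound (S := T4.ds_mp) T4.ok_mp (w := 168) (c := ⟨⟨.negSucc 696, .negSucc 225, .negSucc 146, .negSucc 304, .ofNat 77, .ofNat 54⟩, ⟨.ofNat 23, .ofNat 36, .negSucc 215, .negSucc 29, .negSucc 6, .ofNat 3⟩, ⟨.ofNat 372, .ofNat 201, .ofNat 134, .ofNat 181, .negSucc 176, .ofNat 6⟩, ⟨.negSucc 1610, .negSucc 282, .negSucc 163, .negSucc 626, .ofNat 168, .ofNat 118⟩, ⟨.negSucc 546, .negSucc 11, .ofNat 53, .negSucc 378, .negSucc 140, .negSucc 121⟩, .ofNat 451, .negSucc 72, .ofNat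 0, .negSucc 72, .ofNat 1870, .ofNat 0, .ofNat 321, .ofNat 37, .negSucc 290, .ofNat 0, .ofNat 115, .ofNat 3, .ofNat 0, .ofNat 0, .ofNat 528, .ofNat 2395, .ofNat 0, .ofNat 0, .ofNat 0, .ofNat 0, .ofNat 0, .ofNat 0, .ofNat 0, .ofNat 0, .ofNat 0, .ofNat 0, .ofNat 0, .ofNat 0, .ofNat 0, .ofNat 0, .ofNat 0, .ofNat 0⟩)
    (by decide +kernel)
theorem L00446 : Good (Phi V4.P V4.D (-1) 1) ⟨3, 4, 2, 0, 2, 2, 2, 3, 3, 1⟩ :=
  leaf_sound (S := T4.ds_mp) T4.ok_mp (w := 168) (c := ⟨⟨.negSucc 667, .negSucc 198, .negSucc 185, .negSucc 335, .ofNat 179, .ofNat 207⟩, ⟨.ofNat 21, .ofNat 23, .negSucc 214, .negSucc 37, .ofNat 15, .ofNat 14⟩, ⟨.ofNat 241, .ofNat 168, .ofNat 162, .ofNat 212, .negSucc 219, .negSucc 122⟩, ⟨.negSucc 1535, .negSucc 253, .negSucc 230, .negSucc 692, .ofNat 386, .ofNat 443⟩, ⟨.negSucc 590, .negSucc 99, .ofNat 44, .negSucc 479, .negSucc 17, .negSucc 113⟩,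 .ofNat 332, .negSucc 23, .ofNat 0, .negSucc 23, .ofNat 752, .ofNat 0, .ofNat 384, .ofNat 36, .negSucc 482, .ofNat 0, .ofNat 187, .ofNat 6, .ofNat 0, .ofNat 0, .ofNat 628, .ofNat 770, .ofNat 0, .ofNat 0, .ofNat 0, .ofNat 0, .ofNat 0, .ofNat 722052418506103700357661484646400, .ofNat 0, .ofNat 0, .ofNat 0, .ofNat 0, .ofNat 0, .ofNat 0, .ofNat 0, .ofNat 0, .ofNat 0, .ofNat 0⟩)
    (by decide +kernel)
theorem L00447 : Good (Phi V4.P V4.D (-1) 1) ⟨4, 10, 2, 0, 2, 2, 1, 1, 3, 0⟩ :=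
  leaf_sound (S := T4.ds_mp) T4.ok_mp (w := 168) (c := ⟨⟨.negSucc 392, .negSucc 68, .negSucc 162, .negSucc 426, .negSucc 447, .negSucc 337⟩, ⟨.ofNat 31, .ofNat 19, .negSucc 245, .ofNat 7, .negSucc 0, .ofNat 35⟩, ⟨.ofNat 26, .ofNat 44, .ofNat 148, .ofNat 300, .ofNat 210, .ofNat 357⟩, ⟨.negSucc 875, .negSucc 35, .negSucc 180, .negSucc 826, .negSucc 868, .negSucc 630⟩, ⟨.negSucc 639, .ofNat 31, .ofNat 73, .negSucc 263, .negSucc 330, .ofNat 72⟩, .ofNat 413, .ofNat 63, .ofNat 0, .ofNat 63, .ofNat 1433, .ofNat 0, .ofNat 403, .negSucc 43, .negSucc 542, .ofNat 0, .ofNat 158, .ofNat 53, .ofNat 0, .ofNat 0, .ofNat 694, .ofNat 859, .ofNat 0, .ofNat 0, .ofNat 153535384626746847186124800, .ofNat 0, .ofNat 0, .ofNat 0, .ofNat 0, .ofNat 0, .ofNat 0, .ofNat 2792241092438700032610076616294400, .ofNat 33208371967644540831006720000, .ofNat 0, .ofNat 0, .ofNat 0, .ofNat 12368957107727900419817472000,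 .ofNat 0⟩)
    (by decide +kernel)
theorem L00448 : Good (Phi V4.P V4.D (-1) 1) ⟨4, 11, 2, 0, 2, 2, 2, 2, 3, 0⟩ :=
  leaf_sound (S := T4.ds_mp) T4.ok_mp (w := 176) (c := ⟨⟨.negSucc 363, .negSucc 15, .negSucc 267, .negSucc 418, .negSucc 280, .negSucc 635⟩, ⟨.negSucc 2, .ofNat 13, .negSucc 199, .ofNat 31, .ofNat 20, .ofNat 87⟩, ⟨.negSucc 10, .ofNat 61, .ofNat 217, .ofNat 276, .ofNat 132, .ofNat 629⟩, ⟨.negSucc 763, .ofNat 65, .negSucc 373, .negSucc 789, .negSucc 530, .negSucc 1146⟩, ⟨.negSucc 672, .ofNat 55, .ofNat 66, .negSucc 176, .negSucc 173, .ofNat 100⟩, .ofNat 470, .ofNat 241, .ofNat 0, .ofNat 241, .ofNat 2042, .ofNat 0, .ofNat 371, .negSucc 125, .negSucc 556, .ofNat 0, .ofNat 149, .ofNat 98, .ofNat 0, .ofNat 0, .ofNat 711, .ofNat 1211, .ofNat 0, .ofNat 0, .ofNat 7952323569114365490836275200, .ofNat 0, .ofNat 0, .ofNat 0, .ofNat 528098926968684687332789452800,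 .ofNat 0, .ofNat 0, .ofNat 0, .ofNat 1580116586354770734050652979200, .ofNat 0, .ofNat 0, .ofNat 0, .ofNat 939801690269608903349737881600, .ofNat 0⟩)
    (by decide +kernel)
theorem L00449 : Good (Phi V4.P V4.D (-1) 1) ⟨4, 11, 2, 0, 2, 2, 2, 3, 3, 0⟩ :=
  leaf_sound (S := T4.ds_mp) T4.ok_mp (w := 176) (c := ⟨⟨.negSucc 848, .negSucc 409, .negSucc 847, .negSucc 500, .negSucc 224, .ofNat 33⟩, ⟨.ofNat 51, .ofNat 66, .negSucc 173, .ofNat 32, .ofNat 9, .ofNat 0⟩, ⟨.ofNat 311, .ofNat 320, .ofNat 738, .ofNat 353, .ofNat 128, .ofNat 42⟩, ⟨.negSucc 1658, .negSucc 635, .negSucc 1407, .negSucc 950, .negSucc 432, .ofNat 61⟩, ⟨.negSucc 712, .negSucc 2, .ofNat 49, .negSucc 326, .negSucc 194, .ofNat 18⟩, .ofNat 495, .ofNat 302, .ofNat 0, .ofNat 302, .ofNat 2421, .ofNat 0, .ofNat 401, .negSucc 127, .negSucc 647, .ofNat 0, .ofNat 160, .ofNat 99, .ofNat 0, .ofNat 0, .ofNat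 772, .ofNat 1200, .ofNat 0, .ofNat 0, .ofNat 7826887996953558459088896000, .ofNat 0, .ofNat 0, .ofNat 0, .ofNat 1006139024951539884837411225600, .ofNat 0, .ofNat 0, .ofNat 13183710424753468661070484104806400, .ofNat 1275287415839833652205296025600, .ofNat 0, .ofNat 0, .ofNat 1484763110262274010614304499302400, .ofNat 419908382095289539969312358400, .ofNat 0⟩)
    (by decide +kernel)
theorem L00450 : Good (Phi V4.P V4.D (-1) 1) ⟨4, 10, 2, 0, 2, 2, 2, 2, 3, 1⟩ :=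
  leaf_sound (S := T4.ds_mp) T4.ok_mp (w := 176) (c := ⟨⟨.negSucc 966, .negSucc 198, .negSucc 220, .negSucc 375, .ofNat 152, .ofNat 180⟩, ⟨.ofNat 77, .ofNat 25, .negSucc 226, .negSucc 10, .negSucc 23, .negSucc 20⟩, ⟨.ofNat 614, .ofNat 164, .ofNat 207, .ofNat 208, .negSucc 239, .negSucc 87⟩, ⟨.negSucc 1959, .negSucc 266, .negSucc 285, .negSucc 739, .ofNat 278, .ofNat 330⟩, ⟨.negSucc 507, .ofNat 32, .ofNat 101, .negSucc 406, .negSucc 204, .negSucc 187⟩, .ofNat 412, .ofNat 59, .ofNat 0, .ofNat 59, .ofNat 1409, .ofNat 0, .ofNat 341, .negSucc 41, .negSucc 373, .ofNat 0, .ofNat 139, .ofNat 41, .ofNat 0, .ofNat 0, .ofNat 576, .ofNat 2395, .ofNat 0, .ofNat 0, .ofNat 0, .ofNat 0, .ofNat 0, .ofNat 0, .ofNat 199066039967408497616329113600, .ofNat 0, .ofNat 0, .ofNat 0, .ofNat 187268324742077991405119078400, .ofNat 0, .ofNat 0, .ofNat 0, .ofNat 0, .ofNat 0⟩)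
    (by decide +kernel)
theorem L00451 : Good (Phi V4.P V4.D (-1) 1) ⟨4, 10, 2, 0, 2, 2, 2, 3, 3, 1⟩ :=
  leaf_sound (S := T4.ds_mp) T4.ok_mp (w := 176) (c := ⟨⟨.negSucc 949, .negSucc 87, .negSucc 222, .negSucc 369, .ofNat 273, .ofNat 363⟩, ⟨.ofNat 66, .ofNat 1, .negSucc 219, .negSucc 29, .negSucc 11, .negSucc 24⟩, ⟨.ofNat 486, .ofNat 72, .ofNat 199, .ofNat 212, .negSucc 299, .negSucc 244⟩, ⟨.negSucc 1927, .negSucc 93, .negSucc 269, .negSucc 737, .ofNat 516, .ofNat 687⟩, ⟨.negSucc 621, .negSucc 51, .ofNat 57, .negSucc 564, .negSucc 43, .negSucc 136⟩, .ofNat 412, .ofNat 63, .ofNat 0, .ofNat 63, .ofNat 1417, .ofNat 0, .ofNat 364, .negSucc 40, .negSucc 434, .ofNat 0, .ofNat 147, .ofNat 36, .ofNat 0, .ofNat 0, .ofNat 598, .ofNat 1006, .ofNat 0, .ofNat 0, .ofNat 0, .ofNat 0, .ofNat 0, .ofNat 6711332072816122875349822970265600, .ofNat 0, .ofNat 0, .ofNat 0, .ofNat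 0, .ofNat 0, .ofNat 0, .ofNat 0, .ofNat 0, .ofNat 0, .ofNat 0⟩)
    (by decide +kernel)
theorem L00452 : Good (Phi V4.P V4.D (-1) 1) ⟨4, 11, 2, 0, 2, 2, 2, 2, 3, 1⟩ :=
  leaf_sound (S := T4.ds_mp) T4.ok_mp (w := 176) (c := ⟨⟨.negSucc 1187, .negSucc 173, .negSucc 172, .negSucc 374, .ofNat 171, .ofNat 243⟩, ⟨.ofNat 122, .ofNat 32, .negSucc 224, .ofNat 5, .negSucc 44, .negSucc 53⟩, ⟨.ofNat 806, .ofNat 155, .ofNat 187, .ofNat 196, .negSucc 262, .negSucc 141⟩, ⟨.negSucc 2235, .negSucc 211, .negSucc 201, .negSucc 736, .ofNat 281, .ofNat 412⟩, ⟨.negSucc 411, .negSucc 15, .negSucc 19, .negSucc 446, .negSucc 231, .negSucc 238⟩, .ofNat 504, .ofNat 325, .ofNat 0, .ofNat 325, .ofNat 2584, .ofNat 0, .ofNat 331, .negSucc 118, .negSucc 409, .ofNat 0, .ofNat 134, .ofNat 72, .ofNat 0, .ofNat 0, .ofNat 594, .ofNat 2108, .ofNat 0, .ofNat 0, .ofNat 13043487205887714536089190400,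 .ofNat 0, .ofNat 0, .ofNat 0, .ofNat 950995459024689486656176128000, .ofNat 0, .ofNat 0, .ofNat 0, .ofNat 1479989121399067371924514406400, .ofNat 0, .ofNat 0, .ofNat 0, .ofNat 906818541141423268407803904000, .ofNat 0⟩)
    (by decide +kernel)
theorem L00453 : Good (Phi V4.P V4.D (-1) 1) ⟨4, 11, 2, 0, 2, 2, 2, 3, 3, 1⟩ :=
  leaf_sound (S := T4.ds_mp) T4.ok_mp (w := 176) (c := ⟨⟨.negSucc 1119, .negSucc 132, .negSucc 355, .negSucc 404, .ofNat 377, .ofNat 489⟩, ⟨.ofNat 96, .negSucc 1, .negSucc 194, .negSucc 5, .negSucc 56, .negSucc 74⟩, ⟨.ofNat 627, .ofNat 103, .ofNat 299, .ofNat 232, .negSucc 383, .negSucc 337⟩, ⟨.negSucc 2134, .negSucc 182, .negSucc 489, .negSucc 808, .ofNat 675, .ofNat 871⟩, ⟨.negSucc 633, .negSucc 59, .ofNat 54, .negSucc 564, .negSucc 92, .negSucc 148⟩, .ofNat 470, .ofNat 239, .ofNat 0, .ofNat 239, .ofNat 2033, .ofNat 0, .ofNat 714, .negSucc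 230, .negSucc 949, .ofNat 0, .ofNat 289, .ofNat 141, .ofNat 0, .ofNat 0, .ofNat 1240, .ofNat 2587, .ofNat 0, .ofNat 0, .ofNat 27280853444045384914776883200, .ofNat 0, .ofNat 0, .ofNat 21530841768439611045839889865113600, .ofNat 519900815015968115040819609600, .ofNat 0, .ofNat 0, .ofNat 0, .ofNat 5319263204815863910629585715200, .ofNat 0, .ofNat 0, .ofNat 5158665427629892550004857792102400, .ofNat 2495732304326699143808837222400, .ofNat 0⟩)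
    (by decide +kernel)
theorem L00454 : Good (Phi V4.P V4.D (-1) 1) ⟨4, 8, 2, 1, 2, 2, 2, 2, 3, 0⟩ :=
  leaf_sound (S := T4.ds_mp) T4.ok_mp (w := 176) (c := ⟨⟨.negSucc 395, .negSucc 56, .negSucc 142, .negSucc 234, .negSucc 214, .negSucc 383⟩, ⟨.negSucc 89, .ofNat 13, .negSucc 202, .negSucc 61, .negSucc 48, .negSucc 74⟩, ⟨.ofNat 63, .ofNat 49, .ofNat 132, .ofNat 144, .ofNat 41, .ofNat 394⟩, ⟨.negSucc 810, .negSucc 43, .negSucc 191, .negSucc 467, .negSucc 424, .negSucc 842⟩, ⟨.negSucc 618, .ofNat 14, .ofNat 62, .negSucc 212, .negSucc 178, .ofNat 49⟩, .ofNat 507, .negSucc 279, .ofNat 0, .negSucc 279, .ofNat 1585, .ofNat 0, .ofNat 315, .ofNat 158, .negSucc 344, .ofNat 0, .ofNat 155, .negSucc 42, .ofNat 0, .ofNat 0, .ofNat 593, .ofNat 1617, .ofNat 0, .ofNat 0, .ofNat 0, .ofNat 0, .ofNat 0, .ofNat 0, .ofNat 0, .ofNat 0, .ofNat 0, .ofNat 0, .ofNat 125896162514042672351753011200,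 .ofNat 0, .ofNat 0, .ofNat 0, .ofNat 0, .ofNat 0⟩)
    (by decide +kernel)
theorem L00455 : Good (Phi V4.P V4.D (-1) 1) ⟨4, 8, 2, 1, 2, 2, 2, 3, 3, 0⟩ :=
  leaf_sound (S := T4.ds_mp) T4.ok_mp (w := 176) (c := ⟨⟨.negSucc 685, .negSucc 113, .negSucc 173, .negSucc 358, .negSucc 171, .negSucc 29⟩, ⟨.negSucc 145, .ofNat 10, .negSucc 246, .negSucc 92, .negSucc 43, .negSucc 3⟩, ⟨.ofNat 167, .ofNat 102, .ofNat 157, .ofNat 246, .ofNat 73, .ofNat 104⟩, ⟨.negSucc 1432, .negSucc 145, .negSucc 230, .negSucc 717, .negSucc 354, .negSucc 77⟩, ⟨.negSucc 718, .negSucc 6, .ofNat 19, .negSucc 310, .negSucc 93, .ofNat 57⟩, .ofNat 511, .negSucc 289, .ofNat 0, .negSucc 289, .ofNat 1596, .ofNat 0, .ofNat 338, .ofNat 181, .negSucc 408, .ofNat 0, .ofNat 171, .negSucc 65, .ofNat 0, .ofNat 0, .ofNat 623, .ofNat 2054, .ofNat 0, .ofNat 0, .ofNat 0, .ofNat 0, .ofNat 0, .ofNat 0, .ofNat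 0, .ofNat 0, .ofNat 0, .ofNat 0, .ofNat 165193149192294160174311014400, .ofNat 0, .ofNat 0, .ofNat 0, .ofNat 0, .ofNat 0⟩)
    (by decide +kernel)
theorem L00456 : Good (Phi V4.P V4.D (-1) 1) ⟨4, 9, 2, 1, 2, 2, 1, 1, 3, 0⟩ :=
  leaf_sound (S := T4.ds_mp) T4.ok_mp (w := 168) (c := ⟨⟨.negSucc 419, .negSucc 155, .negSucc 153, .negSucc 363, .negSucc 448, .negSucc 279⟩, ⟨.negSucc 85, .negSucc 4, .negSucc 249, .negSucc 72, .negSucc 84, .negSucc 33⟩, ⟨.ofNat 73, .ofNat 120, .ofNat 117, .ofNat 235, .ofNat 181, .ofNat 322⟩, ⟨.negSucc 837, .negSucc 225, .negSucc 187, .negSucc 704, .negSucc 878, .negSucc 583⟩, ⟨.negSucc 572, .ofNat 1, .ofNat 85, .negSucc 295, .negSucc 305, .ofNat 69⟩, .ofNat 534, .negSucc 301, .ofNat 0, .negSucc 301, .ofNat 2321, .ofNat 0, .ofNat 358, .ofNat 141, .negSucc 426, .ofNat 0, .ofNat 149, .negSucc 39, .ofNat 0, .ofNat 0, .ofNat 634, .ofNat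 1155, .ofNat 0, .ofNat 0, .ofNat 127420798483834748102246400, .ofNat 0, .ofNat 0, .ofNat 0, .ofNat 0, .ofNat 0, .ofNat 0, .ofNat 150142764624250444564476513484800, .ofNat 44152695874770072956515123200, .ofNat 0, .ofNat 0, .ofNat 0, .ofNat 18852096856111230696711782400, .ofNat 0⟩)
    (by decide +kernel)
theorem L00457 : Good (Phi V4.P V4.D (-1) 1) ⟨3, 5, 2, 1, 2, 2, 1, 1, 3, 0⟩ :=
  out_sound (S := T4.ds_mp) T4.ok_mp (w := 48) (j := 3) (by decide +kernel)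
theorem L00458 : Good (Phi V4.P V4.D (-1) 1) ⟨3, 4, 2, 1, 2, 2, 2, 2, 3, 1⟩ :=
  leaf_sound (S := T4.ds_mp) T4.ok_mp (w := 168) (c := ⟨⟨.negSucc 802, .negSucc 246, .negSucc 140, .negSucc 366, .ofNat 36, .ofNat 44⟩, ⟨.negSucc 158, .ofNat 19, .negSucc 227, .negSucc 89, .negSucc 5, .negSucc 6⟩, ⟨.ofNat 469, .ofNat 232, .ofNat 145, .ofNat 225, .negSucc 154, .ofNat 22⟩, ⟨.negSucc 1733, .negSucc 312, .negSucc 177, .negSucc 718, .ofNat 110, .ofNat 114⟩, ⟨.negSucc 479, .negSucc 10, .ofNat 41, .negSucc 330, .negSucc 177, .negSucc 141⟩, .ofNat 342, .negSucc 78, .ofNat 0, .negSucc 78, .ofNat 688, .ofNat 0, .ofNat 338, .ofNat 86, .negSucc 383, .ofNat 0, .ofNat 188, .negSucc 7, .ofNat 0, .ofNat 0, .ofNat 600, .ofNat 2622, .ofNat 0, .ofNat 0, .ofNat 5289771938040619457524531200, .ofNat 0, .ofNat 0, .ofNat 0, .ofNat 416075907839768944310432563200, .ofNat 0, .ofNat 0,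 .ofNat 0, .ofNat 0, .ofNat 0, .ofNat 0, .ofNat 0, .ofNat 567821318424760272905935257600, .ofNat 0⟩)
    (by decide +kernel)
theorem L00459 : Good (Phi V4.P V4.D (-1) 1) ⟨3, 4, 2, 1, 2, 2, 2, 3, 3, 1⟩ :=
  leaf_sound (S := T4.ds_mp) T4.ok_mp (w := 168) (c := ⟨⟨.negSucc 782, .negSucc 245, .negSucc 171, .negSucc 419, .ofNat 141, .ofNat 201⟩, ⟨.negSucc 162, .ofNat 1, .negSucc 222, .negSucc 110, .ofNat 27, .ofNat 35⟩, ⟨.ofNat 344, .ofNat 219, .ofNat 151, .ofNat 262, .negSucc 189, .negSucc 104⟩, ⟨.negSucc 1669, .negSucc 329, .negSucc 218, .negSucc 801, .ofNat 311, .ofNat 443⟩, ⟨.negSucc 598, .negSucc 66, .ofNat 25, .negSucc 461, .negSucc 32, .negSucc 72⟩, .ofNat 342, .negSucc 79, .ofNat 0, .negSucc 79, .ofNat 684, .ofNat 0, .ofNat 360, .ofNat 103, .negSucc 454, .ofNat 0, .ofNat 202, .negSucc 36, .ofNat 0, .ofNat 0, .ofNat 617, .ofNat 1380, .ofNat 0, .ofNat 0,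 .ofNat 3958445861900953651563724800, .ofNat 0, .ofNat 0, .ofNat 603425356811485413312424417689600, .ofNat 0, .ofNat 0, .ofNat 0, .ofNat 1016216898451375119711106970419200, .ofNat 0, .ofNat 0, .ofNat 0, .ofNat 905547864575420429509455563980800, .ofNat 500285564476878667269537792000, .ofNat 0⟩)
    (by decide +kernel)
theorem L00460 : Good (Phi V4.P V4.D (-1) 1) ⟨3, 5, 2, 1, 2, 2, 1, 1, 3, 1⟩ :=
  out_sound (S := T4.ds_mp) T4.ok_mp (w := 48) (j := 3) (by decide +kernel)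
theorem L00461 : Good (Phi V4.P V4.D (-1) 1) ⟨4, 8, 2, 0, 3, 6, 2, 2, 3, 0⟩ :=
  leaf_sound (S := T4.ds_mp) T4.ok_mp (w := 184) (c := ⟨⟨.negSucc 303, .negSucc 75, .negSucc 151, .negSucc 157, .negSucc 228, .negSucc 619⟩, ⟨.ofNat 53, .ofNat 10, .negSucc 220, .negSucc 6, .negSucc 31, .negSucc 49⟩, ⟨.ofNat 10, .ofNat 54, .ofNat 93, .ofNat 82, .ofNat 74, .ofNat 485⟩, ⟨.negSucc 749, .negSucc 64, .negSucc 165, .negSucc 341, .negSucc 474, .negSucc 1334⟩, ⟨.negSucc 773, .ofNat 6, .ofNat 41, .negSucc 39, .negSucc 219, .negSucc 74⟩, .ofNat 466, .negSucc 124, .ofNat 0, .negSucc 124, .ofNat 1950, .ofNat 0, .ofNat 397, .ofNat 94, .negSucc 375, .ofNat 0, .ofNat 131, .negSucc 5, .ofNat 0, .ofNat 0, .ofNat 571, .ofNat 1844, .ofNat 0, .ofNat 0, .ofNat 0, .ofNat 0, .ofNat 0, .ofNat 0, .ofNat 0, .ofNat 0, .ofNat 0, .ofNat 0, .ofNat 0, .ofNat 0, .ofNat 0, .ofNat 0, .ofNat 0,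 .ofNat 0⟩)
    (by decide +kernel)
theorem L00462 : Good (Phi V4.P V4.D (-1) 1) ⟨4, 9, 2, 0, 3, 6, 2, 2, 3, 0⟩ :=
  leaf_sound (S := T4.ds_mp) T4.ok_mp (w := 184) (c := ⟨⟨.negSucc 306, .negSucc 198, .negSucc 257, .negSucc 97, .negSucc 292, .negSucc 739⟩, ⟨.ofNat 41, .ofNat 20, .negSucc 241, .negSucc 11, .negSucc 9, .negSucc 7⟩, ⟨.ofNat 13, .ofNat 136, .ofNat 171, .ofNat 41, .ofNat 118, .ofNat 573⟩, ⟨.negSucc 726, .negSucc 300, .negSucc 371, .negSucc 198, .negSucc 594, .negSucc 1514⟩, ⟨.negSucc 761, .ofNat 31, .ofNat 54, .negSucc 21, .negSucc 260, .negSucc 80⟩, .ofNat 434, .negSucc 21, .ofNat 0, .negSucc 21, .ofNat 1746, .ofNat 0, .ofNat 430, .ofNat 25, .negSucc 455, .ofNat 0, .ofNat 139, .ofNat 19, .ofNat 0, .ofNat 0, .ofNat 612, .ofNat 1545, .ofNat 0, .ofNat 0, .ofNat 0, .ofNat 0, .ofNat 0, .ofNat 0, .ofNat 0, .ofNat 0, .ofNat 0, .ofNat 0, .ofNat 0, .ofNat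 0, .ofNat 0, .ofNat 0, .ofNat 0, .ofNat 0⟩)
    (by decide +kernel)
theorem L00463 : Good (Phi V4.P V4.D (-1) 1) ⟨3, 4, 2, 1, 3, 6, 2, 2, 4, 0⟩ :=
  leaf_sound (S := T4.ds_mp) T4.ok_mp (w := 184) (c := ⟨⟨.negSucc 293, .negSucc 283, .negSucc 161, .negSucc 84, .negSucc 451, .negSucc 482⟩, ⟨.negSucc 82, .ofNat 2, .negSucc 212, .negSucc 16, .negSucc 100, .negSucc 89⟩, ⟨.negSucc 8, .ofNat 186, .ofNat 97, .ofNat 13, .ofNat 236, .ofNat 386⟩, ⟨.negSucc 573, .negSucc 444, .negSucc 210, .negSucc 181, .negSucc 915, .negSucc 1035⟩, ⟨.negSucc 762, .ofNat 26, .ofNat 31, .negSucc 31, .negSucc 261, .ofNat 37⟩, .ofNat 341, .negSucc 75, .ofNat 0, .negSucc 75, .ofNat 687, .ofNat 0, .ofNat 454, .ofNat 155, .negSucc 717, .ofNat 0, .ofNat 229, .negSucc 22, .ofNat 0, .ofNat 0, .ofNat 795, .ofNat 2379, .ofNat 0, .ofNat 0, .ofNat 78311401250908170331085812531200, .ofNat 0, .ofNat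 0, .ofNat 0, .ofNat 0, .ofNat 0, .ofNat 0, .ofNat 0, .ofNat 0, .ofNat 0, .ofNat 0, .ofNat 0, .ofNat 4940628519378993406937514639360000, .ofNat 0⟩)
    (by decide +kernel)
theorem L00464 : Good (Phi V4.P V4.D (-1) 1) ⟨3, 4, 2, 1, 3, 6, 2, 2, 4, 1⟩ :=
  leaf_sound (S := T4.ds_mp) T4.ok_mp (w := 184) (c := ⟨⟨.negSucc 785, .negSucc 445, .negSucc 227, .negSucc 192, .negSucc 183, .negSucc 188⟩, ⟨.negSucc 176, .ofNat 11, .negSucc 285, .negSucc 40, .negSucc 50, .negSucc 34⟩, ⟨.ofNat 388, .ofNat 337, .ofNat 181, .ofNat 49, .ofNat 28, .ofNat 163⟩, ⟨.negSucc 1690, .negSucc 679, .negSucc 346, .negSucc 391, .negSucc 340, .negSucc 390⟩, ⟨.negSucc 715, .ofNat 57, .ofNat 73, .negSucc 89, .negSucc 273, .negSucc 50⟩, .ofNat 480, .negSucc 220, .ofNat 0, .negSucc 220, .ofNat 1503, .ofNat 0, .ofNat 374, .ofNat 167, .negSucc 404, .ofNat 0, .ofNat 165, .negSucc 34, .ofNat 0,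 .ofNat 0, .ofNat 603, .ofNat 2942, .ofNat 0, .ofNat 0, .ofNat 92411214044227618666692634214400, .ofNat 0, .ofNat 0, .ofNat 0, .ofNat 0, .ofNat 0, .ofNat 0, .ofNat 0, .ofNat 5508506165760191200668520808448000, .ofNat 0, .ofNat 0, .ofNat 0, .ofNat 6570401983980557889284976358195200, .ofNat 0⟩)
    (by decide +kernel)
theorem L00465 : Good (Phi V4.P V4.D (-1) 1) ⟨3, 4, 2, 0, 3, 6, 2, 2, 4, 2⟩ :=
  leaf_sound (S := T4.ds_mp) T4.ok_mp (w := 184) (c := ⟨⟨.negSucc 911, .negSucc 367, .negSucc 216, .negSucc 183, .ofNat 33, .ofNat 7⟩, ⟨.ofNat 26, .ofNat 50, .negSucc 285, .negSucc 15, .negSucc 9, .negSucc 5⟩, ⟨.ofNat 509, .ofNat 270, .ofNat 161, .ofNat 53, .negSucc 135, .ofNat 12⟩, ⟨.negSucc 2102, .negSucc 507, .negSucc 280, .negSucc 377, .ofNat 83, .ofNat 23⟩, ⟨.negSucc 784, .negSucc 7, .ofNat 84, .negSucc 148, .negSucc 274, .negSucc 150⟩, .ofNat 331, .negSucc 24,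 .ofNat 0, .negSucc 24, .ofNat 745, .ofNat 0, .ofNat 433, .ofNat 32, .negSucc 483, .ofNat 0, .ofNat 191, .ofNat 34, .ofNat 0, .ofNat 0, .ofNat 620, .ofNat 3842, .ofNat 0, .ofNat 0, .ofNat 0, .ofNat 0, .ofNat 0, .ofNat 0, .ofNat 0, .ofNat 0, .ofNat 0, .ofNat 0, .ofNat 0, .ofNat 0, .ofNat 0, .ofNat 0, .ofNat 0, .ofNat 0⟩)
    (by decide +kernel)
theorem L00466 : Good (Phi V4.P V4.D (-1) 1) ⟨3, 4, 2, 1, 3, 6, 2, 2, 4, 2⟩ :=
  leaf_sound (S := T4.ds_mp) T4.ok_mp (w := 184) (c := ⟨⟨.negSucc 1088, .negSucc 425, .negSucc 206, .negSucc 214, .ofNat 8, .ofNat 29⟩, ⟨.negSucc 222, .ofNat 14, .negSucc 309, .negSucc 46, .negSucc 21, .negSucc 5⟩, ⟨.ofNat 643, .ofNat 331, .ofNat 171, .ofNat 54, .negSucc 124, .ofNat 4⟩, ⟨.negSucc 2338, .negSucc 616, .negSucc 289, .negSucc 426, .ofNat 67, .ofNat 82⟩, ⟨.negSucc 715, .ofNat 9, .ofNat 74, .negSucc 137, .negSucc 290, .negSucc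 133⟩, .ofNat 480, .negSucc 219, .ofNat 0, .negSucc 219, .ofNat 1488, .ofNat 0, .ofNat 358, .ofNat 153, .negSucc 351, .ofNat 0, .ofNat 160, .negSucc 28, .ofNat 0, .ofNat 0, .ofNat 568, .ofNat 3904, .ofNat 0, .ofNat 0, .ofNat 118141217031613698017429815296000, .ofNat 0, .ofNat 0, .ofNat 0, .ofNat 0, .ofNat 0, .ofNat 0, .ofNat 0, .ofNat 6437589560377365446439552103219200, .ofNat 0, .ofNat 0, .ofNat 0, .ofNat 5335497148492922753394524395929600, .ofNat 0⟩)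
    (by decide +kernel)
theorem L00467 : Good (Phi V4.P V4.D (-1) 1) ⟨3, 4, 1, 0, 3, 6, 2, 2, 4, 3⟩ :=
  leaf_sound (S := T4.ds_mp) T4.ok_mp (w := 184) (c := ⟨⟨.negSucc 1027, .negSucc 247, .negSucc 415, .negSucc 135, .ofNat 142, .ofNat 103⟩, ⟨.ofNat 23, .ofNat 31, .negSucc 573, .negSucc 24, .ofNat 3, .ofNat 3⟩, ⟨.ofNat 613, .ofNat 190, .ofNat 329, .ofNat 14, .negSucc 231, .negSucc 53⟩, ⟨.negSucc 2342, .negSucc 298, .negSucc 479, .negSucc 282, .ofNat 326, .ofNat 236⟩, ⟨.negSucc 859, .negSucc 92, .ofNat 202, .negSucc 248, .negSucc 273, .negSucc 190⟩, .ofNat 333, .negSucc 38, .ofNat 0, .negSucc 38, .ofNat 729, .ofNat 0, .ofNat 396, .ofNat 43, .negSucc 381, .ofNat 0, .ofNat 185, .ofNat 21, .ofNat 0, .ofNat 0, .ofNat 564, .ofNat 1775, .ofNat 0, .ofNat 0, .ofNat 38186844193702594301399138304000, .ofNat 0, .ofNat 0, .ofNat 0, .ofNat 0, .ofNat 0, .ofNat 0, .ofNat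 0, .ofNat 0, .ofNat 0, .ofNat 0, .ofNat 0, .ofNat 3028363921704997206609430472294400, .ofNat 0⟩)
    (by decide +kernel)
theorem L00468 : Good (Phi V4.P V4.D (-1) 1) ⟨3, 4, 2, 0, 3, 6, 2, 3, 4, 0⟩ :=
  leaf_sound (S := T4.ds_mp) T4.ok_mp (w := 184) (c := ⟨⟨.negSucc 600, .negSucc 378, .negSucc 258, .negSucc 120, .negSucc 298, .negSucc 140⟩, ⟨.ofNat 45, .ofNat 29, .negSucc 286, .negSucc 14, .negSucc 22, .negSucc 10⟩, ⟨.ofNat 145, .ofNat 268, .ofNat 155, .ofNat 62, .ofNat 180, .ofNat 107⟩, ⟨.negSucc 1435, .negSucc 554, .negSucc 348, .negSucc 243, .negSucc 622, .negSucc 296⟩, ⟨.negSucc 913, .negSucc 95, .negSucc 51, .negSucc 72, .negSucc 133, .negSucc 0⟩, .ofNat 452, .negSucc 81, .ofNat 0, .negSucc 81, .ofNat 1871, .ofNat 0, .ofNat 441, .ofNat 95, .negSucc 479, .ofNat 0, .ofNat 149, .negSucc 4, .ofNat 0, .ofNat 0, .ofNat 635, .ofNat 2267, .ofNat 0, .ofNat 0,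 .ofNat 0, .ofNat 0, .ofNat 0, .ofNat 0, .ofNat 0, .ofNat 0, .ofNat 0, .ofNat 0, .ofNat 0, .ofNat 0, .ofNat 0, .ofNat 0, .ofNat 0, .ofNat 0⟩)
    (by decide +kernel)
theorem L00469 : Good (Phi V4.P V4.D (-1) 1) ⟨3, 4, 2, 0, 3, 6, 2, 3, 4, 1⟩ :=
  leaf_sound (S := T4.ds_mp) T4.ok_mp (w := 184) (c := ⟨⟨.negSucc 863, .negSucc 388, .negSucc 270, .negSucc 139, .negSucc 30, .ofNat 8⟩, ⟨.ofNat 27, .ofNat 36, .negSucc 298, .negSucc 12, .negSucc 4, .negSucc 2⟩, ⟨.ofNat 365, .ofNat 280, .ofNat 180, .ofNat 36, .negSucc 44, .negSucc 5⟩, ⟨.negSucc 1992, .negSucc 557, .negSucc 368, .negSucc 292, .negSucc 59, .ofNat 17⟩, ⟨.negSucc 897, .negSucc 89, .ofNat 6, .negSucc 137, .negSucc 160, .negSucc 89⟩, .ofNat 447, .negSucc 71, .ofNat 0, .negSucc 71, .ofNat 1793, .ofNat 0, .ofNat 437, .ofNat 80, .negSucc 460, .ofNat 0, .ofNat 148, .negSucc 2, .ofNat 0, .ofNat 0, .ofNat 611,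 .ofNat 3094, .ofNat 0, .ofNat 0, .ofNat 0, .ofNat 0, .ofNat 0, .ofNat 0, .ofNat 0, .ofNat 0, .ofNat 0, .ofNat 225439556424054327414061166650982400, .ofNat 0, .ofNat 0, .ofNat 0, .ofNat 100458671256779970659126330209075200, .ofNat 0, .ofNat 0⟩)
    (by decide +kernel)
theorem L00470 : Good (Phi V4.P V4.D (-1) 1) ⟨4, 8, 2, 1, 3, 6, 2, 3, 3, 0⟩ :=
  leaf_sound (S := T4.ds_mp) T4.ok_mp (w := 184) (c := ⟨⟨.negSucc 906, .negSucc 201, .negSucc 250, .negSucc 102, .negSucc 238, .negSucc 208⟩, ⟨.negSucc 191, .negSucc 4, .negSucc 324, .negSucc 28, .negSucc 64, .negSucc 45⟩, ⟨.ofNat 362, .ofNat 146, .ofNat 166, .ofNat 2, .ofNat 106, .ofNat 181⟩, ⟨.negSucc 1906, .negSucc 295, .negSucc 338, .negSucc 193, .negSucc 471, .negSucc 448⟩, ⟨.negSucc 900, .negSucc 45, .negSucc 30, .negSucc 128, .negSucc 207, .negSucc 21⟩, .ofNat 637, .negSucc 575, .ofNat 0, .negSucc 575, .ofNat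 2893, .ofNat 0, .ofNat 353, .ofNat 261, .negSucc 417, .ofNat 0, .ofNat 166, .negSucc 70, .ofNat 0, .ofNat 0, .ofNat 610, .ofNat 1665, .ofNat 0, .ofNat 0, .ofNat 516837642596431283851414732800, .ofNat 0, .ofNat 0, .ofNat 0, .ofNat 0, .ofNat 0, .ofNat 0, .ofNat 0, .ofNat 88018908049691628767330225356800, .ofNat 0, .ofNat 0, .ofNat 47216810559228807838966251887001600, .ofNat 51614147030961287799873994752000, .ofNat 0⟩)
    (by decide +kernel)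
theorem L00471 : Good (Phi V4.P V4.D (-1) 1) ⟨4, 9, 2, 1, 3, 6, 2, 3, 3, 0⟩ :=
  leaf_sound (S := T4.ds_mp) T4.ok_mp (w := 184) (c := ⟨⟨.negSucc 1058, .negSucc 236, .negSucc 303, .negSucc 169, .negSucc 234, .negSucc 207⟩, ⟨.negSucc 200, .ofNat 3, .negSucc 341, .negSucc 33, .negSucc 53, .negSucc 31⟩, ⟨.ofNat 479, .ofNat 172, .ofNat 214, .ofNat 40, .ofNat 109, .ofNat 173⟩, ⟨.negSucc 2120, .negSucc 346, .negSucc 441, .negSucc 331, .negSucc 446, .negSucc 421⟩, ⟨.negSucc 911, .negSucc 23, .negSucc 9, .negSucc 130, .negSucc 266, .negSucc 41⟩, .ofNat 576, .negSucc 412, .ofNat 0, .negSucc 412, .ofNat 2935, .ofNat 0, .ofNat 402, .ofNat 203, .negSucc 474, .ofNat 0, .ofNat 162, .negSucc 49, .ofNat 0, .ofNat 0, .ofNat 637, .ofNat 1436, .ofNat 0, .ofNat 0, .ofNat 763829695016778053122523136000, .ofNat 0, .ofNat 0, .ofNat 0, .ofNat 0, .ofNat 0, .ofNat 0, .ofNat 514581880515264658605558290448384000,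 .ofNat 200111285442240306528422304153600, .ofNat 0, .ofNat 0, .ofNat 0, .ofNat 144533745076624037882837021491200, .ofNat 0⟩)
    (by decide +kernel)
theorem L00472 : Good (Phi V4.P V4.D (-1) 1) ⟨3, 4, 2, 0, 3, 6, 2, 3, 4, 2⟩ :=
  leaf_sound (S := T4.ds_mp) T4.ok_mp (w := 184) (c := ⟨⟨.negSucc 943, .negSucc 314, .negSucc 256, .negSucc 174, .ofNat 136, .ofNat 131⟩, ⟨.ofNat 21, .ofNat 35, .negSucc 288, .negSucc 11, .negSucc 9, .negSucc 0⟩, ⟨.ofNat 438, .ofNat 223, .ofNat 183, .ofNat 42, .negSucc 190, .negSucc 89⟩, ⟨.negSucc 2160, .negSucc 425, .negSucc 328, .negSucc 351, .ofNat 296, .ofNat 277⟩, ⟨.negSucc 940, .negSucc 111, .ofNat 32, .negSucc 218, .negSucc 183, .negSucc 157⟩, .ofNat 329, .negSucc 19, .ofNat 0, .negSucc 19, .ofNat 742, .ofNat 0, .ofNat 461, .ofNat 50, .negSucc 569, .ofNat 0, .ofNat 203, .ofNat 23, .ofNat 0, .ofNat 0, .ofNat 657, .ofNat 1291,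 .ofNat 0, .ofNat 0, .ofNat 0, .ofNat 0, .ofNat 0, .ofNat 0, .ofNat 0, .ofNat 0, .ofNat 0, .ofNat 0, .ofNat 0, .ofNat 0, .ofNat 0, .ofNat 0, .ofNat 0, .ofNat 0⟩)
    (by decide +kernel)
theorem L00473 : Good (Phi V4.P V4.D (-1) 1) ⟨3, 4, 2, 1, 3, 6, 2, 3, 4, 2⟩ :=
  leaf_sound (S := T4.ds_mp) T4.ok_mp (w := 184) (c := ⟨⟨.negSucc 1154, .negSucc 362, .negSucc 231, .negSucc 185, .ofNat 97, .ofNat 116⟩, ⟨.negSucc 245, .ofNat 2, .negSucc 310, .negSucc 48, .ofNat 2, .ofNat 13⟩, ⟨.ofNat 585, .ofNat 270, .ofNat 173, .ofNat 33, .negSucc 166, .negSucc 70⟩, ⟨.negSucc 2431, .negSucc 504, .negSucc 305, .negSucc 355, .ofNat 245, .ofNat 269⟩, ⟨.negSucc 921, .negSucc 92, .ofNat 44, .negSucc 209, .negSucc 237, .negSucc 133⟩, .ofNat 341, .negSucc 76, .ofNat 0, .negSucc 76, .ofNat 687, .ofNat 0, .ofNat 438, .ofNat 145, .negSucc 571, .ofNat 0, .ofNat 228, .negSucc 29, .ofNat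 0, .ofNat 0, .ofNat 674, .ofNat 2036, .ofNat 0, .ofNat 0, .ofNat 55783821468018437037663820185600, .ofNat 0, .ofNat 0, .ofNat 418092694215660032968063049741107200, .ofNat 0, .ofNat 0, .ofNat 0, .ofNat 518807733710506445576798849728512000, .ofNat 2872568192145656657051890011340800, .ofNat 0, .ofNat 0, .ofNat 353358636330698464105567264702464000, .ofNat 6428322339770279105311111800422400, .ofNat 0⟩)
    (by decide +kernel)
theorem L00474 : Good (Phi V4.P V4.D (-1) 1) ⟨3, 4, 1, 0, 3, 6, 2, 3, 4, 3⟩ :=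
  leaf_sound (S := T4.ds_mp) T4.ok_mp (w := 184) (c := ⟨⟨.negSucc 881, .negSucc 236, .negSucc 470, .negSucc 152, .ofNat 215, .ofNat 162⟩, ⟨.ofNat 30, .ofNat 28, .negSucc 563, .negSucc 37, .ofNat 6, .negSucc 0⟩, ⟨.ofNat 398, .ofNat 165, .ofNat 349, .ofNat 21, .negSucc 251, .negSucc 101⟩, ⟨.negSucc 2024, .negSucc 281, .negSucc 553, .negSucc 299, .ofNat 449, .ofNat 348⟩, ⟨.negSucc 1075, .negSucc 152, .ofNat 101, .negSucc 269, .negSucc 169, .negSucc 137⟩, .ofNat 333, .negSucc 43, .ofNat 0, .negSucc 43, .ofNat 717, .ofNat 0, .ofNat 841, .ofNat 143, .negSucc 913, .ofNat 0, .ofNat 398, .ofNat 10, .ofNat 0, .ofNat 0, .ofNat 1191, .ofNat 1775, .ofNat 0, .ofNat 0, .ofNat 0, .ofNat 0, .ofNat 0, .ofNat 1171962313282511255005668907470028800, .ofNat 0, .ofNat 0, .ofNat 0, .ofNat 785394931847120802833575522074624000, .ofNat 0, .ofNat 0, .ofNat 0, .ofNat 173679511661238208134359073108787200,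 .ofNat 0, .ofNat 0⟩)
    (by decide +kernel)
theorem L00475 : Good (Phi V4.P V4.D (-1) 1) ⟨4, 10, 3, 0, 3, 6, 2, 2, 3, 0⟩ :=
  leaf_sound (S := T4.ds_mp) T4.ok_mp (w := 184) (c := ⟨⟨.negSucc 310, .negSucc 261, .negSucc 220, .negSucc 167, .negSucc 293, .negSucc 942⟩, ⟨.ofNat 11, .ofNat 32, .negSucc 112, .ofNat 9, .ofNat 0, .ofNat 72⟩, ⟨.ofNat 3, .ofNat 176, .ofNat 148, .ofNat 77, .ofNat 128, .ofNat 730⟩, ⟨.negSucc 723, .negSucc 391, .negSucc 343, .negSucc 316, .negSucc 587, .negSucc 1791⟩, ⟨.negSucc 762, .ofNat 54, .ofNat 44, .negSucc 10, .negSucc 303, .negSucc 42⟩, .ofNat 473, .ofNat 178, .ofNat 0, .ofNat 178, .ofNat 2517, .ofNat 0, .ofNat 438, .negSucc 101, .negSucc 547, .ofNat 0, .ofNat 136, .ofNat 65, .ofNat 0, .ofNat 0, .ofNat 659, .ofNat 1770, .ofNat 0, .ofNat 0, .ofNat 1187585143946453984401686528000, .ofNat 0, .ofNat 0, .ofNat 0, .ofNat 55655001735503243406108681830400,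 .ofNat 0, .ofNat 0, .ofNat 0, .ofNat 0, .ofNat 0, .ofNat 0, .ofNat 0, .ofNat 0, .ofNat 0⟩)
    (by decide +kernel)
theorem L00476 : Good (Phi V4.P V4.D (-1) 1) ⟨4, 10, 3, 0, 3, 6, 2, 3, 3, 0⟩ :=
  leaf_sound (S := T4.ds_mp) T4.ok_mp (w := 184) (c := ⟨⟨.negSucc 993, .negSucc 244, .negSucc 171, .negSucc 137, .negSucc 219, .negSucc 261⟩, ⟨.ofNat 58, .ofNat 34, .negSucc 149, .ofNat 0, .negSucc 0, .ofNat 10⟩, ⟨.ofNat 434, .ofNat 179, .ofNat 119, .ofNat 41, .ofNat 110, .ofNat 199⟩, ⟨.negSucc 2058, .negSucc 331, .negSucc 238, .negSucc 271, .negSucc 435, .negSucc 509⟩, ⟨.negSucc 930, .negSucc 3, .ofNat 9, .negSucc 99, .negSucc 262, .negSucc 108⟩, .ofNat 472, .ofNat 159, .ofNat 0, .ofNat 159, .ofNat 2500, .ofNat 0, .ofNat 457, .negSucc 72, .negSucc 592, .ofNat 0, .ofNat 144, .ofNat 58, .ofNat 0, .ofNat 0, .ofNat 693, .ofNat 1419, .ofNat 0, .ofNat 0, .ofNat 941951624817238790044542566400,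 .ofNat 0, .ofNat 0, .ofNat 0, .ofNat 0, .ofNat 0, .ofNat 0, .ofNat 0, .ofNat 0, .ofNat 0, .ofNat 0, .ofNat 3353754918230439239557978120205107200, .ofNat 0, .ofNat 0⟩)
    (by decide +kernel)
theorem L00477 : Good (Phi V4.P V4.D (-1) 1) ⟨4, 10, 3, 1, 3, 6, 2, 2, 3, 0⟩ :=
  leaf_sound (S := T4.ds_mp) T4.ok_mp (w := 184) (c := ⟨⟨.negSucc 560, .negSucc 62, .negSucc 6, .negSucc 219, .negSucc 319, .negSucc 890⟩, ⟨.negSucc 52, .ofNat 26, .negSucc 128, .negSucc 1, .negSucc 27, .negSucc 0⟩, ⟨.ofNat 171, .ofNat 53, .ofNat 10, .ofNat 90, .ofNat 152, .ofNat 714⟩, ⟨.negSucc 1140, .ofNat 8, .ofNat 62, .negSucc 425, .negSucc 614, .negSucc 1709⟩, ⟨.negSucc 719, .ofNat 40, .ofNat 54, .negSucc 28, .negSucc 289, .negSucc 22⟩, .ofNat 467, .negSucc 6, .ofNat 0, .negSucc 6, .ofNat 2102, .ofNat 0, .ofNat 440, .ofNat 9, .negSucc 515, .ofNat 0, .ofNat 146, .ofNat 29, .ofNat 0,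 .ofNat 0, .ofNat 650, .ofNat 1973, .ofNat 0, .ofNat 0, .ofNat 1886730149620505753602228224000, .ofNat 0, .ofNat 0, .ofNat 0, .ofNat 95898503919530527729857331200000, .ofNat 0, .ofNat 0, .ofNat 0, .ofNat 325065155444995432490509271040000, .ofNat 0, .ofNat 0, .ofNat 0, .ofNat 137659898848404656017385717760000, .ofNat 0⟩)
    (by decide +kernel)
theorem L00478 : Good (Phi V4.P V4.D (-1) 1) ⟨4, 10, 3, 1, 3, 6, 2, 3, 3, 0⟩ :=
  leaf_sound (S := T4.ds_mp) T4.ok_mp (w := 184) (c := ⟨⟨.negSucc 1221, .negSucc 361, .negSucc 209, .negSucc 105, .negSucc 147, .negSucc 149⟩, ⟨.negSucc 62, .ofNat 23, .negSucc 165, .negSucc 11, .negSucc 28, .negSucc 10⟩, ⟨.ofNat 614, .ofNat 266, .ofNat 149, .negSucc 7, .ofNat 44, .ofNat 112⟩, ⟨.negSucc 2413, .negSucc 560, .negSucc 319, .negSucc 202, .negSucc 284, .negSucc 288⟩, ⟨.negSucc 885, .negSucc 3, .ofNat 10, .negSucc 130, .negSucc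 319, .negSucc 117⟩, .ofNat 469, .negSucc 14, .ofNat 0, .negSucc 14, .ofNat 2150, .ofNat 0, .ofNat 461, .ofNat 39, .negSucc 567, .ofNat 0, .ofNat 157, .ofNat 19, .ofNat 0, .ofNat 0, .ofNat 684, .ofNat 1227, .ofNat 0, .ofNat 0, .ofNat 847837414091785099137358233600, .ofNat 0, .ofNat 0, .ofNat 0, .ofNat 0, .ofNat 0, .ofNat 0, .ofNat 4254777741205352081841340079407104000, .ofNat 0, .ofNat 0, .ofNat 0, .ofNat 0, .ofNat 164887873581102759409480630272000, .ofNat 0⟩)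
    (by decide +kernel)
theorem L00479 : Good (Phi V4.P V4.D (-1) 1) ⟨4, 11, 2, 0, 3, 6, 2, 2, 3, 0⟩ :=
  leaf_sound (S := T4.ds_mp) T4.ok_mp (w := 184) (c := ⟨⟨.negSucc 443, .negSucc 908, .negSucc 310, .negSucc 166, .negSucc 285, .negSucc 1053⟩, ⟨.ofNat 5, .ofNat 144, .negSucc 228, .ofNat 20, .ofNat 2, .ofNat 124⟩, ⟨.ofNat 108, .ofNat 634, .ofNat 180, .ofNat 59, .ofNat 117, .ofNat 806⟩, ⟨.negSucc 919, .negSucc 1504, .negSucc 436, .negSucc 304, .negSucc 564, .negSucc 1925⟩, ⟨.negSucc 693, .ofNat 192, .ofNat 75, .negSucc 10, .negSucc 344, .negSucc 51⟩, .ofNat 494, .ofNat 300, .ofNat 0, .ofNat 300, .ofNat 2423, .ofNat 0, .ofNat 430, .negSucc 167, .negSucc 628, .ofNat 0, .ofNat 155, .ofNat 111, .ofNat 0, .ofNat 0, .ofNat 700, .ofNat 1494, .ofNat 0, .ofNat 0, .ofNat 2460582257137353107049126297600, .ofNat 0, .ofNat 0, .ofNat 0, .ofNat 460311847263393417976922033356800,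 .ofNat 0, .ofNat 0, .ofNat 0, .ofNat 895666989295337535622746420019200, .ofNat 0, .ofNat 0, .ofNat 0, .ofNat 577320498461816331694797068697600, .ofNat 0⟩)
    (by decide +kernel)
theorem L00480 : Good (Phi V4.P V4.D (-1) 1) ⟨4, 11, 2, 0, 3, 6, 2, 3, 3, 0⟩ :=
  leaf_sound (S := T4.ds_mp) T4.ok_mp (w := 184) (c := ⟨⟨.negSucc 1345, .negSucc 493, .negSucc 599, .negSucc 178, .negSucc 134, .negSucc 91⟩, ⟨.ofNat 104, .ofNat 80, .negSucc 275, .ofNat 11, .negSucc 17, .negSucc 6⟩, ⟨.ofNat 714, .ofNat 373, .ofNat 446, .ofNat 43, .ofNat 32, .ofNat 51⟩, ⟨.negSucc 2587, .negSucc 748, .negSucc 913, .negSucc 339, .negSucc 289, .negSucc 191⟩, ⟨.negSucc 861, .ofNat 51, .ofNat 69, .negSucc 120, .negSucc 353, .negSucc 192⟩, .ofNat 495, .ofNat 302, .ofNat 0, .ofNat 302, .ofNat 2448, .ofNat 0, .ofNat 456, .negSucc 146, .negSucc 681, .ofNat 0, .ofNat 163, .ofNat 108, .ofNat 0,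 .ofNat 0, .ofNat 737, .ofNat 935, .ofNat 0, .ofNat 0, .ofNat 1303532481521901253629365452800, .ofNat 0, .ofNat 0, .ofNat 0, .ofNat 530491989456669294559433746022400, .ofNat 0, .ofNat 0, .ofNat 1525583174968974750525346511270707200, .ofNat 731229772814778254477437698048000, .ofNat 0, .ofNat 0, .ofNat 0, .ofNat 406386253258005899153000890368000, .ofNat 0⟩)
    (by decide +kernel)
theorem L00481 : Good (Phi V4.P V4.D (-1) 1) ⟨3, 5, 2, 1, 3, 6, 1, 1, 3, 0⟩ :=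
  out_sound (S := T4.ds_mp) T4.ok_mp (w := 48) (j := 3) (by decide +kernel)
theorem L00482 : Good (Phi V4.P V4.D (-1) 1) ⟨4, 10, 2, 0, 3, 6, 2, 2, 3, 1⟩ :=
  leaf_sound (S := T4.ds_mp) T4.ok_mp (w := 184) (c := ⟨⟨.negSucc 1392, .negSucc 240, .negSucc 342, .negSucc 235, .ofNat 198, .ofNat 368⟩, ⟨.ofNat 106, .ofNat 30, .negSucc 288, .negSucc 1, .negSucc 40, .negSucc 59⟩, ⟨.ofNat 870, .ofNat 172, .ofNat 263, .ofNat 76, .negSucc 273, .negSucc 225⟩, ⟨.negSucc 2808, .negSucc 328, .negSucc 456, .negSucc 455, .ofNat 356, .ofNat 666⟩, ⟨.negSucc 707, .ofNat 15, .ofNat 131, .negSucc 207, .negSucc 346, .negSucc 471⟩, .ofNat 414, .ofNat 64, .ofNat 0, .ofNat 64, .ofNat 1451, .ofNat 0, .ofNat 397, .negSucc 61, .negSucc 395, .ofNat 0, .ofNat 147, .ofNat 49, .ofNat 0, .ofNat 0, .ofNat 568, .ofNat 1654, .ofNat 0, .ofNat 0, .ofNat 1582017554320359802396685107200, .ofNat 0,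 .ofNat 0, .ofNat 0, .ofNat 0, .ofNat 0, .ofNat 0, .ofNat 0, .ofNat 0, .ofNat 0, .ofNat 0, .ofNat 0, .ofNat 0, .ofNat 0⟩)
    (by decide +kernel)
theorem L00483 : Good (Phi V4.P V4.D (-1) 1) ⟨4, 10, 2, 0, 3, 6, 2, 3, 3, 1⟩ :=
  leaf_sound (S := T4.ds_mp) T4.ok_mp (w := 184) (c := ⟨⟨.negSucc 1360, .negSucc 160, .negSucc 349, .negSucc 163, .ofNat 282, .ofNat 551⟩, ⟨.ofNat 89, .ofNat 7, .negSucc 290, .negSucc 16, .negSucc 41, .negSucc 63⟩, ⟨.ofNat 739, .ofNat 109, .ofNat 261, .ofNat 15, .negSucc 305, .negSucc 386⟩, ⟨.negSucc 2750, .negSucc 209, .negSucc 455, .negSucc 332, .ofNat 512, .ofNat 1018⟩, ⟨.negSucc 982, .negSucc 64, .ofNat 54, .negSucc 286, .negSucc 277, .negSucc 402⟩, .ofNat 311, .ofNat 20, .ofNat 0, .ofNat 20, .ofNat 671, .ofNat 0, .ofNat 477, .negSucc 22, .negSucc 677, .ofNat 0, .ofNat 214, .ofNat 71, .ofNat 0, .ofNat 0, .ofNat 708, .ofNat 430,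 .ofNat 0, .ofNat 0, .ofNat 187252814752056824223183667200, .ofNat 0, .ofNat 0, .ofNat 0, .ofNat 0, .ofNat 0, .ofNat 0, .ofNat 0, .ofNat 0, .ofNat 0, .ofNat 0, .ofNat 0, .ofNat 0, .ofNat 0⟩)
    (by decide +kernel)
theorem L00484 : Good (Phi V4.P V4.D (-1) 1) ⟨4, 11, 3, 0, 3, 6, 1, 1, 3, 1⟩ :=
  leaf_sound (S := T4.ds_mp) T4.ok_mp (w := 184) (c := ⟨⟨.negSucc 1733, .negSucc 300, .negSucc 128, .negSucc 224, .ofNat 549, .ofNat 512⟩, ⟨.ofNat 174, .ofNat 52, .negSucc 143, .ofNat 7, .negSucc 139, .negSucc 115⟩, ⟨.ofNat 1117, .ofNat 216, .ofNat 105, .ofNat 60, .negSucc 646, .negSucc 336⟩, ⟨.negSucc 3269, .negSucc 397, .negSucc 119, .negSucc 436, .ofNat 908, .ofNat 866⟩, ⟨.negSucc 628, .ofNat 101, .ofNat 87, .negSucc 235, .negSucc 761, .negSucc 564⟩, .ofNat 505, .ofNat 322, .ofNat 0, .ofNat 322, .ofNat 2641, .ofNat 0, .ofNat 390, .negSucc 149, .negSucc 447, .ofNat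 0, .ofNat 146, .ofNat 79, .ofNat 0, .ofNat 0, .ofNat 589, .ofNat 648, .ofNat 0, .ofNat 0, .ofNat 117838714873377866589300326400, .ofNat 0, .ofNat 0, .ofNat 761760232639976028100721285844172800, .ofNat 15786501200351625230867968819200, .ofNat 0, .ofNat 0, .ofNat 577722591087067442231708296937472000, .ofNat 98953094519273169332602719436800, .ofNat 0, .ofNat 0, .ofNat 391818020350244195550213367765401600, .ofNat 48596274892022235635570127667200, .ofNat 0⟩)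
    (by decide +kernel)
theorem L00485 : Good (Phi V4.P V4.D (-1) 1) ⟨4, 11, 3, 1, 3, 6, 1, 1, 3, 1⟩ :=
  out_sound (S := T4.ds_mp) T4.ok_mp (w := 56) (j := 3) (by decide +kernel)
theorem L00486 : Good (Phi V4.P V4.D (-1) 1) ⟨3, 5, 2, 1, 3, 6, 1, 1, 3, 1⟩ :=
  out_sound (S := T4.ds_mp) T4.ok_mp (w := 48) (j := 3) (by decide +kernel)
theorem L00487 : Good (Phi V4.P V4.D (-1) 1) ⟨4, 8, 2, 0, 3, 7, 2, 2, 3, 0⟩ :=
  leaf_sound (S := T4.ds_mp) T4.ok_mp (w := 184) (c := ⟨⟨.negSucc 365, .negSucc 184, .negSucc 196, .ofNat 17, .negSucc 226, .negSucc 687⟩, ⟨.ofNat 68, .ofNat 10, .negSucc 245, .negSucc 6, .negSucc 36, .negSucc 62⟩, ⟨.ofNat 137, .ofNat 113, .ofNat 57, .negSucc 45, .ofNat 46, .ofNat 423⟩, ⟨.negSucc 886, .negSucc 294, .negSucc 261, .ofNat 34, .negSucc 457, .negSucc 1486⟩, ⟨.negSucc 621, .ofNat 8, .negSucc 8, .ofNat 63, .negSucc 345, .negSucc 294⟩, .ofNat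 339, .negSucc 38, .ofNat 0, .negSucc 38, .ofNat 767, .ofNat 0, .ofNat 503, .ofNat 103, .negSucc 542, .ofNat 0, .ofNat 211, .ofNat 15, .ofNat 0, .ofNat 0, .ofNat 625, .ofNat 1254, .ofNat 0, .ofNat 0, .ofNat 0, .ofNat 0, .ofNat 0, .ofNat 0, .ofNat 0, .ofNat 0, .ofNat 0, .ofNat 0, .ofNat 0, .ofNat 0, .ofNat 0, .ofNat 0, .ofNat 0, .ofNat 0⟩)
    (by decide +kernel)
theorem L00488 : Good (Phi V4.P V4.D (-1) 1) ⟨4, 9, 2, 0, 3, 7, 2, 2, 4, 0⟩ :=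
  leaf_sound (S := T4.ds_mp) T4.ok_mp (w := 184) (c := ⟨⟨.negSucc 248, .negSucc 202, .negSucc 212, .ofNat 18, .negSucc 407, .negSucc 626⟩, ⟨.ofNat 60, .ofNat 11, .negSucc 222, .ofNat 29, .negSucc 46, .negSucc 38⟩, ⟨.ofNat 30, .ofNat 121, .ofNat 71, .negSucc 52, .ofNat 179, .ofNat 415⟩, ⟨.negSucc 603, .negSucc 314, .negSucc 291, .ofNat 25, .negSucc 811, .negSucc 1277⟩, ⟨.negSucc 629, .ofNat 4, .ofNat 1, .ofNat 74, .negSucc 401, .negSucc 106⟩, .ofNat 435, .negSucc 51, .ofNat 0, .negSucc 51, .ofNat 1640, .ofNat 0, .ofNat 477, .ofNat 80, .negSucc 462, .ofNat 0, .ofNat 156, .ofNat 8, .ofNat 0, .ofNat 0, .ofNat 592, .ofNat 1645, .ofNat 0, .ofNat 0, .ofNat 0, .ofNat 0, .ofNat 0, .ofNat 0, .ofNat 0, .ofNat 0, .ofNat 0, .ofNat 0, .ofNat 0, .ofNat 0, .ofNat 0, .ofNat 0, .ofNat 0, .ofNat 0⟩)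
    (by decide +kernel)
theorem L00489 : Good (Phi V4.P V4.D (-1) 1) ⟨4, 9, 2, 0, 3, 7, 2, 2, 4, 1⟩ :=
  leaf_sound (S := T4.ds_mp) T4.ok_mp (w := 184) (c := ⟨⟨.negSucc 929, .negSucc 241, .negSucc 247, .negSucc 58, .negSucc 106, .negSucc 306⟩, ⟨.ofNat 66, .ofNat 25, .negSucc 298, .negSucc 2, .negSucc 24, .negSucc 21⟩, ⟨.ofNat 494, .ofNat 156, .ofNat 96, .negSucc 53, .negSucc 29, .ofNat 204⟩, ⟨.negSucc 2031, .negSucc 346, .negSucc 341, .negSucc 125, .negSucc 203, .negSucc 618⟩, ⟨.negSucc 723, .ofNat 27, .ofNat 26, .negSucc 35, .negSucc 388, .negSucc 147⟩, .ofNat 436, .negSucc 49, .ofNat 0, .negSucc 49, .ofNat 1684, .ofNat 0, .ofNat 469, .ofNat 55, .negSucc 418, .ofNat 0, .ofNat 149, .ofNat 11, .ofNat 0, .ofNat 0, .ofNat 567, .ofNat 3425, .ofNat 0, .ofNat 0, .ofNat 0, .ofNat 0, .ofNat 0, .ofNat 0, .ofNat 0, .ofNat 0, .ofNat 0, .ofNat 0, .ofNat 0, .ofNat 0,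 .ofNat 0, .ofNat 0, .ofNat 0, .ofNat 0⟩)
    (by decide +kernel)
theorem L00490 : Good (Phi V4.P V4.D (-1) 1) ⟨4, 10, 3, 0, 3, 7, 2, 2, 4, 0⟩ :=
  leaf_sound (S := T4.ds_mp) T4.ok_mp (w := 192) (c := ⟨⟨.negSucc 291, .negSucc 218, .negSucc 143, .ofNat 21, .negSucc 447, .negSucc 792⟩, ⟨.ofNat 22, .ofNat 37, .negSucc 113, .ofNat 9, .negSucc 4, .ofNat 42⟩, ⟨.ofNat 70, .ofNat 121, .ofNat 47, .negSucc 28, .ofNat 191, .ofNat 489⟩, ⟨.negSucc 670, .negSucc 313, .negSucc 214, .ofNat 45, .negSucc 884, .negSucc 1519⟩, ⟨.negSucc 569, .ofNat 22, .negSucc 13, .ofNat 119, .negSucc 459, .negSucc 157⟩, .ofNat 471, .ofNat 164, .ofNat 0, .ofNat 164, .ofNat 2483, .ofNat 0, .ofNat 495, .negSucc 92, .negSucc 520, .ofNat 0, .ofNat 143, .ofNat 55, .ofNat 0, .ofNat 0, .ofNat 607, .ofNat 2134, .ofNat 0, .ofNat 0, .ofNat 0, .ofNat 0, .ofNat 0, .ofNat 0, .ofNat 0, .ofNat 0, .ofNat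 0, .ofNat 0, .ofNat 0, .ofNat 0, .ofNat 0, .ofNat 0, .ofNat 0, .ofNat 0⟩)
    (by decide +kernel)
theorem L00491 : Good (Phi V4.P V4.D (-1) 1) ⟨4, 10, 3, 0, 3, 7, 2, 2, 4, 1⟩ :=
  leaf_sound (S := T4.ds_mp) T4.ok_mp (w := 192) (c := ⟨⟨.negSucc 1212, .negSucc 357, .negSucc 167, .ofNat 12, .negSucc 78, .negSucc 270⟩, ⟨.ofNat 90, .ofNat 65, .negSucc 155, .negSucc 3, .negSucc 27, .ofNat 3⟩, ⟨.ofNat 674, .ofNat 226, .ofNat 82, .negSucc 112, .negSucc 43, .ofNat 171⟩, ⟨.negSucc 2467, .negSucc 506, .negSucc 243, .ofNat 17, .negSucc 180, .negSucc 528⟩, ⟨.negSucc 650, .ofNat 72, .ofNat 27, .negSucc 69, .negSucc 441, .negSucc 192⟩, .ofNat 471, .ofNat 152, .ofNat 0, .ofNat 152, .ofNat 2467, .ofNat 0, .ofNat 478, .negSucc 101, .negSucc 494, .ofNat 0, .ofNat 141, .ofNat 55, .ofNat 0, .ofNat 0, .ofNat 597, .ofNat 3175, .ofNat 0, .ofNat 0, .ofNat 0, .ofNat 0, .ofNat 0,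 .ofNat 0, .ofNat 0, .ofNat 0, .ofNat 0, .ofNat 0, .ofNat 0, .ofNat 0, .ofNat 0, .ofNat 0, .ofNat 0, .ofNat 0⟩)
    (by decide +kernel)
theorem L00492 : Good (Phi V4.P V4.D (-1) 1) ⟨4, 10, 3, 1, 3, 7, 2, 2, 4, 0⟩ :=
  leaf_sound (S := T4.ds_mp) T4.ok_mp (w := 192) (c := ⟨⟨.negSucc 442, .negSucc 305, .negSucc 164, .ofNat 69, .negSucc 424, .negSucc 787⟩, ⟨.negSucc 39, .ofNat 29, .negSucc 121, .ofNat 13, .negSucc 44, .negSucc 18⟩, ⟨.ofNat 125, .ofNat 194, .ofNat 76, .negSucc 94, .ofNat 179, .ofNat 501⟩, ⟨.negSucc 894, .negSucc 482, .negSucc 257, .ofNat 133, .negSucc 819, .negSucc 1523⟩, ⟨.negSucc 583, .ofNat 75, .ofNat 26, .ofNat 98, .negSucc 473, .negSucc 151⟩, .ofNat 415, .negSucc 4, .ofNat 0, .negSucc 4, .ofNat 1349, .ofNat 0, .ofNat 504, .ofNat 39, .negSucc 546, .ofNat 0, .ofNat 177, .ofNat 29, .ofNat 0, .ofNat 0, .ofNat 631, .ofNat 2656, .ofNat 0, .ofNat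 0, .ofNat 45992677313632014942854971392000, .ofNat 0, .ofNat 0, .ofNat 0, .ofNat 0, .ofNat 0, .ofNat 0, .ofNat 0, .ofNat 4174432036674494891858743158374400, .ofNat 0, .ofNat 0, .ofNat 0, .ofNat 3896219377158588480310872322867200, .ofNat 0⟩)
    (by decide +kernel)
theorem L00493 : Good (Phi V4.P V4.D (-1) 1) ⟨4, 10, 3, 1, 3, 7, 2, 2, 4, 1⟩ :=
  leaf_sound (S := T4.ds_mp) T4.ok_mp (w := 192) (c := ⟨⟨.negSucc 1372, .negSucc 354, .negSucc 157, .negSucc 17, .negSucc 74, .negSucc 252⟩, ⟨.negSucc 43, .ofNat 46, .negSucc 161, .negSucc 5, .negSucc 42, .negSucc 15⟩, ⟨.ofNat 760, .ofNat 225, .ofNat 85, .negSucc 125, .negSucc 44, .ofNat 169⟩, ⟨.negSucc 2715, .negSucc 508, .negSucc 226, .negSucc 36, .negSucc 143, .negSucc 486⟩, ⟨.negSucc 617, .ofNat 57, .ofNat 61, .negSucc 95, .negSucc 458, .negSucc 159⟩, .ofNat 468, .negSucc 10, .ofNat 0, .negSucc 10, .ofNat 2117,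 .ofNat 0, .ofNat 480, .ofNat 16, .negSucc 479, .ofNat 0, .ofNat 152, .ofNat 26, .ofNat 0, .ofNat 0, .ofNat 602, .ofNat 3759, .ofNat 0, .ofNat 0, .ofNat 68311005274769560223108353228800, .ofNat 0, .ofNat 0, .ofNat 0, .ofNat 0, .ofNat 0, .ofNat 0, .ofNat 0, .ofNat 5596179509072660128666566524928000, .ofNat 0, .ofNat 0, .ofNat 0, .ofNat 1446454810285813756227760422912000, .ofNat 0⟩)
    (by decide +kernel)
theorem L00494 : Good (Phi V4.P V4.D (-1) 1) ⟨4, 11, 2, 0, 3, 7, 2, 2, 4, 0⟩ :=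
  leaf_sound (S := T4.ds_mp) T4.ok_mp (w := 184) (c := ⟨⟨.negSucc 450, .negSucc 382, .negSucc 215, .ofNat 80, .negSucc 496, .negSucc 948⟩, ⟨.ofNat 17, .ofNat 73, .negSucc 236, .ofNat 0, .ofNat 15, .ofNat 105⟩, ⟨.ofNat 144, .ofNat 257, .ofNat 53, .negSucc 50, .ofNat 218, .ofNat 591⟩, ⟨.negSucc 910, .negSucc 577, .negSucc 291, .ofNat 161, .negSucc 966, .negSucc 1742⟩, ⟨.negSucc 550, .ofNat 105, .negSucc 40, .ofNat 149, .negSucc 487, .negSucc 149⟩, .ofNat 470, .ofNat 241, .ofNat 0, .ofNat 241, .ofNat 2039, .ofNat 0, .ofNat 490, .negSucc 166, .negSucc 613, .ofNat 0, .ofNat 166, .ofNat 101, .ofNat 0, .ofNat 0, .ofNat 652, .ofNat 1267, .ofNat 0, .ofNat 0, .ofNat 41318109694945693169168154624000, .ofNat 0, .ofNat 0, .ofNat 0, .ofNat 11227161186515102301974558461132800, .ofNat 0, .ofNat 0, .ofNat 0, .ofNat 13924745321449588418081707366809600, .ofNat 0, .ofNat 0,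 .ofNat 0, .ofNat 10904852167142889362393603978035200, .ofNat 0⟩)
    (by decide +kernel)
theorem L00495 : Good (Phi V4.P V4.D (-1) 1) ⟨4, 11, 2, 0, 3, 7, 2, 2, 4, 1⟩ :=
  leaf_sound (S := T4.ds_mp) T4.ok_mp (w := 184) (c := ⟨⟨.negSucc 1592, .negSucc 462, .negSucc 450, .negSucc 6, .ofNat 22, .negSucc 295⟩, ⟨.ofNat 158, .ofNat 121, .negSucc 273, .negSucc 5, .negSucc 53, .ofNat 19⟩, ⟨.ofNat 913, .ofNat 312, .ofNat 274, .negSucc 96, .negSucc 121, .ofNat 183⟩, ⟨.negSucc 3000, .negSucc 640, .negSucc 668, .negSucc 21, .negSucc 25, .negSucc 565⟩, ⟨.negSucc 559, .ofNat 159, .ofNat 181, .negSucc 60, .negSucc 529, .negSucc 194⟩, .ofNat 508, .ofNat 338, .ofNat 0, .ofNat 338, .ofNat 2682, .ofNat 0, .ofNat 470, .negSucc 196, .negSucc 572, .ofNat 0, .ofNat 163, .ofNat 101, .ofNat 0, .ofNat 0, .ofNat 627, .ofNat 2552, .ofNat 0, .ofNat 0, .ofNat 97057007016917042648450492006400,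 .ofNat 0, .ofNat 0, .ofNat 0, .ofNat 8336012509731853654434030551040000, .ofNat 0, .ofNat 0, .ofNat 0, .ofNat 15064014683312592405858253327564800, .ofNat 0, .ofNat 0, .ofNat 0, .ofNat 6483633847911762131143254815539200, .ofNat 0⟩)
    (by decide +kernel)
theorem L00496 : Good (Phi V4.P V4.D (-1) 1) ⟨3, 4, 2, 0, 3, 7, 2, 3, 4, 0⟩ :=
  leaf_sound (S := T4.ds_mp) T4.ok_mp (w := 184) (c := ⟨⟨.negSucc 664, .negSucc 337, .negSucc 231, .ofNat 71, .negSucc 236, .negSucc 328⟩, ⟨.ofNat 23, .ofNat 44, .negSucc 280, .ofNat 7, .negSucc 14, .negSucc 21⟩, ⟨.ofNat 243, .ofNat 197, .ofNat 75, .negSucc 90, .ofNat 114, .ofNat 194⟩, ⟨.negSucc 1554, .negSucc 485, .negSucc 292, .ofNat 152, .negSucc 496, .negSucc 687⟩, ⟨.negSucc 885, .negSucc 105, .negSucc 118, .ofNat 14, .negSucc 171, .negSucc 84⟩, .ofNat 448, .negSucc 72, .ofNat 0, .negSucc 72, .ofNat 1808, .ofNat 0, .ofNat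 482, .ofNat 126, .negSucc 457, .ofNat 0, .ofNat 159, .ofNat 3, .ofNat 0, .ofNat 0, .ofNat 599, .ofNat 2278, .ofNat 0, .ofNat 0, .ofNat 0, .ofNat 0, .ofNat 0, .ofNat 0, .ofNat 0, .ofNat 0, .ofNat 0, .ofNat 0, .ofNat 0, .ofNat 0, .ofNat 0, .ofNat 0, .ofNat 0, .ofNat 0⟩)
    (by decide +kernel)
theorem L00497 : Good (Phi V4.P V4.D (-1) 1) ⟨3, 4, 2, 0, 3, 7, 2, 3, 4, 1⟩ :=
  leaf_sound (S := T4.ds_mp) T4.ok_mp (w := 184) (c := ⟨⟨.negSucc 1005, .negSucc 381, .negSucc 257, .negSucc 2, .negSucc 5, .negSucc 60⟩, ⟨.ofNat 27, .ofNat 39, .negSucc 320, .ofNat 0, .negSucc 9, .negSucc 10⟩, ⟨.ofNat 460, .ofNat 218, .ofNat 115, .negSucc 80, .negSucc 52, .ofNat 22⟩, ⟨.negSucc 2310, .negSucc 525, .negSucc 322, .negSucc 4, .ofNat 0, .negSucc 119⟩, ⟨.negSucc 917, .negSucc 183, .negSucc 70, .negSucc 65, .negSucc 172, .negSucc 173⟩, .ofNat 446, .negSucc 67, .ofNat 0, .negSucc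 67, .ofNat 1798, .ofNat 0, .ofNat 484, .ofNat 106, .negSucc 450, .ofNat 0, .ofNat 157, .ofNat 4, .ofNat 0, .ofNat 0, .ofNat 589, .ofNat 1702, .ofNat 0, .ofNat 0, .ofNat 0, .ofNat 0, .ofNat 0, .ofNat 0, .ofNat 0, .ofNat 0, .ofNat 0, .ofNat 0, .ofNat 0, .ofNat 0, .ofNat 0, .ofNat 0, .ofNat 0, .ofNat 0⟩)
    (by decide +kernel)
theorem L00498 : Good (Phi V4.P V4.D (-1) 1) ⟨3, 5, 2, 0, 3, 7, 2, 3, 4, 0⟩ :=
  leaf_sound (S := T4.ds_mp) T4.ok_mp (w := 184) (c := ⟨⟨.negSucc 1003, .negSucc 516, .negSucc 332, .ofNat 147, .negSucc 241, .negSucc 363⟩, ⟨.ofNat 60, .ofNat 59, .negSucc 311, .negSucc 11, .negSucc 4, .ofNat 22⟩, ⟨.ofNat 466, .ofNat 298, .ofNat 145, .negSucc 167, .ofNat 110, .ofNat 198⟩, ⟨.negSucc 2075, .negSucc 735, .negSucc 450, .ofNat 275, .negSucc 480, .negSucc 695⟩, ⟨.negSucc 897, .negSucc 120, .negSucc 146, .negSucc 4, .negSucc 322, .negSucc 119⟩,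 .ofNat 412, .ofNat 93, .ofNat 0, .ofNat 93, .ofNat 1410, .ofNat 0, .ofNat 536, .negSucc 29, .negSucc 629, .ofNat 0, .ofNat 182, .ofNat 77, .ofNat 0, .ofNat 0, .ofNat 679, .ofNat 1064, .ofNat 0, .ofNat 0, .ofNat 47059657319386763726445084672000, .ofNat 0, .ofNat 0, .ofNat 0, .ofNat 0, .ofNat 0, .ofNat 0, .ofNat 119334542226299060855142732949094400, .ofNat 8783500403568755441427874106572800, .ofNat 0, .ofNat 0, .ofNat 0, .ofNat 8546652332208199363213065505996800, .ofNat 0⟩)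
    (by decide +kernel)
theorem L00499 : Good (Phi V4.P V4.D (-1) 1) ⟨3, 5, 2, 0, 3, 7, 3, 6, 4, 1⟩ :=
  leaf_sound (S := T4.ds_mp) T4.ok_mp (w := 184) (c := ⟨⟨.negSucc 1443, .negSucc 626, .negSucc 352, .ofNat 30, .ofNat 63, .negSucc 7⟩, ⟨.ofNat 94, .ofNat 86, .negSucc 341, .negSucc 13, .negSucc 19, .negSucc 15⟩, ⟨.ofNat 741, .ofNat 372, .ofNat 190, .negSucc 135, .negSucc 83, .negSucc 17⟩, ⟨.negSucc 2927, .negSucc 875, .negSucc 471, .ofNat 40, .ofNat 101, .negSucc 34⟩, ⟨.negSucc 991, .negSucc 56, .negSucc 2, .negSucc 130, .negSucc 195, .negSucc 210⟩, .ofNat 413, .ofNat 98, .ofNat 0, .ofNat 98, .ofNat 1435, .ofNat 0, .ofNat 517, .negSucc 74, .negSucc 601, .ofNat 0, .ofNat 175, .ofNat 79, .ofNat 0, .ofNat 0, .ofNat 654, .ofNat 2647, .ofNat 0, .ofNat 0, .ofNat 1220896102559900938962190781644800, .ofNat 0, .ofNat 0, .ofNat 0, .ofNat 65183879591416199852868191964364800,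 .ofNat 0, .ofNat 0, .ofNat 0, .ofNat 91175593250194653483603657857433600, .ofNat 0, .ofNat 0, .ofNat 0, .ofNat 75783526579875066424636198197657600, .ofNat 0⟩)
    (by decide +kernel)

end Crest.Agent.R097C4.N4mp
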