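import Crest.Agent.R097.T4

/-!
# Row 97, box cover in dimension n = 4 (generated)
-/

set_option autoImplicit false
set_option Elab.async false
set_option maxHeartbeats 0
set_option maxRecDepth 100000

open Crest.Agent.R097 Crest.Agent.R097.KA


namespace Crest.Agent.R097C4.N4mp

theorem L00500 : Good (Phi V4.P V4.D (-1) 1) ⟨3, 5, 2, 0, 3, 7, 3, 7, 4, 1⟩ :=
  leaf_sound (S := T4.ds_mp) T4.ok_mp (w := 184) (c := ⟨⟨.negSucc 1496, .negSucc 532, .negSucc 308, .ofNat 100, .ofNat 70, .ofNat 80⟩, ⟨.ofNat 93, .ofNat 50, .negSucc 354, .negSucc 16, .negSucc 18, .negSucc 23⟩, ⟨.ofNat 744, .ofNat 293, .ofNat 155, .negSucc 174, .negSucc 88, .negSucc 91⟩, ⟨.negSucc 3037, .negSucc 743, .negSucc 369, .ofNat 176, .ofNat 122, .ofNat 130⟩, ⟨.negSucc 1113, .negSucc 187, .negSucc 72, .negSucc 133, .negSucc 152, .negSucc 241⟩, .ofNat 471, .ofNat 175, .ofNat 0, .ofNat 175, .ofNat 2413,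 .ofNat 0, .ofNat 526, .negSucc 81, .negSucc 585, .ofNat 0, .ofNat 156, .ofNat 65, .ofNat 0, .ofNat 0, .ofNat 645, .ofNat 576, .ofNat 0, .ofNat 0, .ofNat 236766182635701501514319344435200, .ofNat 0, .ofNat 0, .ofNat 0, .ofNat 0, .ofNat 0, .ofNat 0, .ofNat 86452684059223214058373073023795200, .ofNat 95446065752523476066276798260838400, .ofNat 0, .ofNat 0, .ofNat 0, .ofNat 95489247552467312119764053340979200, .ofNat 0⟩)
    (by decide +kernel)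
theorem L00501 : Good (Phi V4.P V4.D (-1) 1) ⟨3, 4, 2, 0, 3, 7, 2, 2, 3, 1⟩ :=
  leaf_sound (S := T4.ds_mp) T4.ok_mp (w := 176) (c := ⟨⟨.negSucc 1185, .negSucc 310, .negSucc 211, .negSucc 67, .ofNat 74, .ofNat 142⟩, ⟨.ofNat 26, .ofNat 43, .negSucc 314, .negSucc 10, .negSucc 7, .negSucc 7⟩, ⟨.ofNat 664, .ofNat 193, .ofNat 96, .negSucc 54, .negSucc 171, .negSucc 39⟩, ⟨.negSucc 2691, .negSucc 396, .negSucc 226, .negSucc 155, .ofNat 183, .ofNat 328⟩, ⟨.negSucc 798, .negSucc 105, .ofNat 113, .negSucc 203, .negSucc 324, .negSucc 532⟩, .ofNat 449, .negSucc 77, .ofNat 0, .negSucc 77, .ofNat 1811, .ofNat 0, .ofNat 798, .ofNat 90, .negSucc 551, .ofNat 0, .ofNat 265, .ofNat 13, .ofNat 0, .ofNat 0, .ofNat 1014, .ofNat 3403, .ofNat 0, .ofNat 0, .ofNat 0, .ofNat 0, .ofNat 0, .ofNat 0, .ofNat 0, .ofNat 0, .ofNat 0, .ofNat 0, .ofNat 0, .ofNat 0, .ofNat 0, .ofNat 0, .ofNat 0, .ofNat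 0⟩)
    (by decide +kernel)
theorem L00502 : Good (Phi V4.P V4.D (-1) 1) ⟨3, 5, 2, 0, 3, 7, 2, 2, 4, 2⟩ :=
  leaf_sound (S := T4.ds_mp) T4.ok_mp (w := 184) (c := ⟨⟨.negSucc 1681, .negSucc 556, .negSucc 324, .negSucc 12, .ofNat 239, .ofNat 203⟩, ⟨.ofNat 140, .ofNat 101, .negSucc 343, .negSucc 16, .negSucc 68, .negSucc 48⟩, ⟨.ofNat 1008, .ofNat 331, .ofNat 170, .negSucc 118, .negSucc 287, .negSucc 126⟩, ⟨.negSucc 3344, .negSucc 720, .negSucc 431, .negSucc 43, .ofNat 391, .ofNat 344⟩, ⟨.negSucc 708, .ofNat 38, .ofNat 87, .negSucc 171, .negSucc 530, .negSucc 362⟩, .ofNat 411, .ofNat 95, .ofNat 0, .ofNat 95, .ofNat 1382, .ofNat 0, .ofNat 464, .negSucc 111, .negSucc 467, .ofNat 0, .ofNat 169, .ofNat 71, .ofNat 0, .ofNat 0, .ofNat 585, .ofNat 1855, .ofNat 0, .ofNat 0, .ofNat 121674936623052486138146272051200, .ofNat 0, .ofNat 0, .ofNat 0, .ofNat 11306948717114385254549236482048000,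 .ofNat 0, .ofNat 0, .ofNat 0, .ofNat 11946395740622940614103239806156800, .ofNat 0, .ofNat 0, .ofNat 0, .ofNat 8187608798994256803103352920473600, .ofNat 0⟩)
    (by decide +kernel)
theorem L00503 : Good (Phi V4.P V4.D (-1) 1) ⟨3, 5, 2, 0, 3, 7, 2, 2, 4, 3⟩ :=
  leaf_sound (S := T4.ds_mp) T4.ok_mp (w := 184) (c := ⟨⟨.negSucc 1602, .negSucc 274, .negSucc 314, .negSucc 13, .ofNat 330, .ofNat 306⟩, ⟨.ofNat 123, .ofNat 7, .negSucc 330, .negSucc 23, .negSucc 70, .negSucc 58⟩, ⟨.ofNat 963, .ofNat 156, .ofNat 161, .negSucc 92, .negSucc 382, .negSucc 178⟩, ⟨.negSucc 3209, .negSucc 295, .negSucc 351, .negSucc 53, .ofNat 574, .ofNat 540⟩, ⟨.negSucc 999, .negSucc 104, .ofNat 140, .negSucc 296, .negSucc 498, .negSucc 400⟩, .ofNat 310, .ofNat 30, .ofNat 0, .ofNat 30, .ofNat 666, .ofNat 0, .ofNat 460, .negSucc 91, .negSucc 455, .ofNat 0, .ofNat 212, .ofNat 87, .ofNat 0, .ofNat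 0, .ofNat 579, .ofNat 2379, .ofNat 0, .ofNat 0, .ofNat 185875621487036192061510805094400, .ofNat 0, .ofNat 0, .ofNat 0, .ofNat 8759989393381147659066435384115200, .ofNat 0, .ofNat 0, .ofNat 394352047068668495617574262590668800, .ofNat 9588655112895219061221191634124800, .ofNat 0, .ofNat 0, .ofNat 0, .ofNat 10058321891932170474610170947174400, .ofNat 0⟩)
    (by decide +kernel)
theorem L00504 : Good (Phi V4.P V4.D (-1) 1) ⟨3, 4, 2, 0, 3, 7, 2, 3, 3, 1⟩ :=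
  leaf_sound (S := T4.ds_mp) T4.ok_mp (w := 176) (c := ⟨⟨.negSucc 1128, .negSucc 305, .negSucc 248, .negSucc 56, .ofNat 163, .ofNat 262⟩, ⟨.ofNat 29, .ofNat 30, .negSucc 321, .negSucc 14, .negSucc 3, .negSucc 10⟩, ⟨.ofNat 533, .ofNat 177, .ofNat 123, .negSucc 69, .negSucc 198, .negSucc 176⟩, ⟨.negSucc 2570, .negSucc 390, .negSucc 274, .negSucc 107, .ofNat 355, .ofNat 577⟩, ⟨.negSucc 1060, .negSucc 162, .ofNat 18, .negSucc 202, .negSucc 232, .negSucc 499⟩, .ofNat 450, .negSucc 84, .ofNat 0, .negSucc 84, .ofNat 1794, .ofNat 0, .ofNat 441, .ofNat 84, .negSucc 364, .ofNat 0, .ofNat 146, .ofNat 2, .ofNat 0, .ofNat 0, .ofNat 547, .ofNat 1426, .ofNat 0, .ofNat 0, .ofNat 0, .ofNat 0, .ofNat 0, .ofNat 192815053290446293135600129356595200, .ofNat 0, .ofNat 0, .ofNat 0, .ofNat 149306917254859575156639474804326400, .ofNat 0, .ofNat 0, .ofNat 0, .ofNat 170671602756918867324065010627379200,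 .ofNat 0, .ofNat 0⟩)
    (by decide +kernel)
theorem L00505 : Good (Phi V4.P V4.D (-1) 1) ⟨3, 5, 2, 0, 3, 7, 2, 3, 3, 1⟩ :=
  leaf_sound (S := T4.ds_mp) T4.ok_mp (w := 176) (c := ⟨⟨.negSucc 1584, .negSucc 304, .negSucc 328, .ofNat 24, .ofNat 340, .ofNat 627⟩, ⟨.ofNat 113, .negSucc 5, .negSucc 337, .negSucc 23, .negSucc 63, .negSucc 110⟩, ⟨.ofNat 828, .ofNat 141, .ofNat 174, .negSucc 142, .negSucc 348, .negSucc 433⟩, ⟨.negSucc 3191, .negSucc 365, .negSucc 373, .ofNat 24, .ofNat 601, .ofNat 1115⟩, ⟨.negSucc 1132, .negSucc 151, .ofNat 49, .negSucc 257, .negSucc 419, .negSucc 690⟩, .ofNat 412, .ofNat 92, .ofNat 0, .ofNat 92, .ofNat 1408, .ofNat 0, .ofNat 488, .negSucc 83, .negSucc 508, .ofNat 0, .ofNat 173, .ofNat 68, .ofNat 0, .ofNat 0, .ofNat 606, .ofNat 840, .ofNat 0, .ofNat 0, .ofNat 3064083845518973018482252185600, .ofNat 0, .ofNat 0, .ofNat 99848497235313065754568725784166400,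 .ofNat 0, .ofNat 0, .ofNat 0, .ofNat 113709799481056253272480327453900800, .ofNat 658763182910934026573673450700800, .ofNat 0, .ofNat 0, .ofNat 82859910521666831371115653024972800, .ofNat 952299023637110083274642817024000, .ofNat 0⟩)
    (by decide +kernel)
theorem L00506 : Good (Phi V4.P V4.D (-1) 1) ⟨4, 8, 3, 2, 3, 7, 2, 2, 3, 0⟩ :=
  leaf_sound (S := T4.ds_mp) T4.ok_mp (w := 184) (c := ⟨⟨.negSucc 457, .negSucc 203, .negSucc 103, .negSucc 0, .negSucc 260, .negSucc 803⟩, ⟨.negSucc 89, .negSucc 9, .negSucc 134, .negSucc 0, .negSucc 79, .negSucc 176⟩, ⟨.ofNat 138, .ofNat 126, .ofNat 36, .negSucc 102, .ofNat 74, .ofNat 535⟩, ⟨.negSucc 959, .negSucc 329, .negSucc 136, .ofNat 2, .negSucc 489, .negSucc 1712⟩, ⟨.negSucc 624, .ofNat 15, .negSucc 15, .negSucc 12, .negSucc 390, .negSucc 197⟩, .ofNat 505, .negSucc 275, .ofNat 0, .negSucc 275, .ofNat 1601, .ofNat 0, .ofNat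 389, .ofNat 230, .negSucc 380, .ofNat 0, .ofNat 180, .negSucc 46, .ofNat 0, .ofNat 0, .ofNat 571, .ofNat 2125, .ofNat 0, .ofNat 0, .ofNat 0, .ofNat 0, .ofNat 0, .ofNat 0, .ofNat 0, .ofNat 0, .ofNat 0, .ofNat 0, .ofNat 0, .ofNat 0, .ofNat 0, .ofNat 0, .ofNat 0, .ofNat 0⟩)
    (by decide +kernel)
theorem L00507 : Good (Phi V4.P V4.D (-1) 1) ⟨4, 8, 3, 2, 3, 7, 2, 3, 4, 0⟩ :=
  leaf_sound (S := T4.ds_mp) T4.ok_mp (w := 192) (c := ⟨⟨.negSucc 932, .negSucc 178, .negSucc 110, .ofNat 80, .negSucc 252, .negSucc 284⟩, ⟨.negSucc 203, .negSucc 2, .negSucc 156, .ofNat 13, .negSucc 64, .negSucc 62⟩, ⟨.ofNat 342, .ofNat 116, .ofNat 43, .negSucc 134, .ofNat 135, .ofNat 178⟩, ⟨.negSucc 1936, .negSucc 254, .negSucc 123, .ofNat 184, .negSucc 505, .negSucc 611⟩, ⟨.negSucc 986, .negSucc 52, .negSucc 55, .negSucc 58, .negSucc 207, .negSucc 42⟩, .ofNat 634, .negSucc 570, .ofNat 0, .negSucc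 570, .ofNat 2965, .ofNat 0, .ofNat 376, .ofNat 302, .negSucc 413, .ofNat 0, .ofNat 178, .negSucc 62, .ofNat 0, .ofNat 0, .ofNat 600, .ofNat 2927, .ofNat 0, .ofNat 0, .ofNat 0, .ofNat 0, .ofNat 0, .ofNat 0, .ofNat 0, .ofNat 0, .ofNat 0, .ofNat 0, .ofNat 0, .ofNat 0, .ofNat 0, .ofNat 0, .ofNat 0, .ofNat 0⟩)
    (by decide +kernel)
theorem L00508 : Good (Phi V4.P V4.D (-1) 1) ⟨4, 8, 3, 2, 3, 7, 2, 3, 4, 1⟩ :=
  leaf_sound (S := T4.ds_mp) T4.ok_mp (w := 192) (c := ⟨⟨.negSucc 1236, .negSucc 184, .negSucc 129, .negSucc 16, .negSucc 25, .negSucc 62⟩, ⟨.negSucc 261, .negSucc 2, .negSucc 175, .negSucc 10, .negSucc 17, .negSucc 18⟩, ⟨.ofNat 561, .ofNat 114, .ofNat 68, .negSucc 104, .negSucc 39, .ofNat 33⟩, ⟨.negSucc 2614, .negSucc 247, .negSucc 161, .negSucc 10, .negSucc 10, .negSucc 112⟩, ⟨.negSucc 979, .negSucc 76, .negSucc 34, .negSucc 124, .negSucc 220, .negSucc 118⟩,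 .ofNat 636, .negSucc 575, .ofNat 0, .negSucc 575, .ofNat 2955, .ofNat 0, .ofNat 371, .ofNat 287, .negSucc 389, .ofNat 0, .ofNat 171, .negSucc 59, .ofNat 0, .ofNat 0, .ofNat 582, .ofNat 2573, .ofNat 0, .ofNat 0, .ofNat 0, .ofNat 0, .ofNat 0, .ofNat 0, .ofNat 0, .ofNat 0, .ofNat 0, .ofNat 0, .ofNat 0, .ofNat 0, .ofNat 0, .ofNat 0, .ofNat 0, .ofNat 0⟩)
    (by decide +kernel)
theorem L00509 : Good (Phi V4.P V4.D (-1) 1) ⟨4, 8, 3, 3, 3, 7, 2, 2, 4, 0⟩ :=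
  leaf_sound (S := T4.ds_mp) T4.ok_mp (w := 192) (c := ⟨⟨.negSucc 441, .negSucc 141, .negSucc 135, .ofNat 33, .negSucc 450, .negSucc 531⟩, ⟨.negSucc 153, .negSucc 15, .negSucc 125, .ofNat 11, .negSucc 150, .negSucc 150⟩, ⟨.ofNat 91, .ofNat 80, .ofNat 60, .negSucc 119, .ofNat 199, .ofNat 355⟩, ⟨.negSucc 842, .negSucc 228, .negSucc 203, .ofNat 71, .negSucc 863, .negSucc 1152⟩, ⟨.negSucc 626, .ofNat 6, .negSucc 33, .ofNat 11, .negSucc 448, .negSucc 73⟩, .ofNat 728, .negSucc 753, .ofNat 0, .negSucc 753, .ofNat 2857, .ofNat 0, .ofNat 319, .ofNat 319, .negSucc 368, .ofNat 0, .ofNat 185, .negSucc 84, .ofNat 0, .ofNat 0, .ofNat 573, .ofNat 3412, .ofNat 0, .ofNat 0, .ofNat 34070721310039120668650373120000, .ofNat 0, .ofNat 0, .ofNat 0, .ofNat 0, .ofNat 0, .ofNat 0, .ofNat 0, .ofNat 2742100162013622417342998564044800, .ofNat 0, .ofNat 0, .ofNat 0, .ofNat 0, .ofNat 0⟩)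
    (by decide +kernel)
theorem L00510 : Good (Phi V4.P V4.D (-1) 1) ⟨4, 8, 3, 3, 3, 7, 2, 2, 4, 1⟩ :=
  leaf_sound (S := T4.ds_mp) T4.ok_mp (w := 192) (c := ⟨⟨.negSucc 1016, .negSucc 243, .negSucc 119, .negSucc 94, .negSucc 179, .negSucc 290⟩, ⟨.negSucc 319, .negSucc 17, .negSucc 157, .negSucc 29, .negSucc 72, .negSucc 84⟩, ⟨.ofNat 502, .ofNat 151, .ofNat 58, .negSucc 106, .ofNat 31, .ofNat 208⟩, ⟨.negSucc 2102, .negSucc 392, .negSucc 189, .negSucc 188, .negSucc 294, .negSucc 617⟩, ⟨.negSucc 707, .ofNat 7, .ofNat 19, .negSucc 68, .negSucc 367, .negSucc 82⟩, .ofNat 828, .negSucc 1015, .ofNat 0, .negSucc 1015, .ofNat 3733, .ofNat 0, .ofNat 300, .ofNat 299, .negSucc 315, .ofNat 0, .ofNat 167, .negSucc 71, .ofNat 0, .ofNat 0, .ofNat 543, .ofNat 4619, .ofNat 0, .ofNat 0, .ofNat 44375204669897669328066576384000, .ofNat 0, .ofNat 0, .ofNat 0, .ofNat 2654271210858693249101594414284800,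 .ofNat 0, .ofNat 0, .ofNat 0, .ofNat 1753516114521059723082005584281600, .ofNat 0, .ofNat 0, .ofNat 0, .ofNat 1582878988659109024059037109452800, .ofNat 0⟩)
    (by decide +kernel)
theorem L00511 : Good (Phi V4.P V4.D (-1) 1) ⟨4, 8, 3, 3, 3, 7, 2, 3, 4, 0⟩ :=
  leaf_sound (S := T4.ds_mp) T4.ok_mp (w := 192) (c := ⟨⟨.negSucc 1023, .negSucc 209, .negSucc 156, .ofNat 86, .negSucc 272, .negSucc 265⟩, ⟨.negSucc 337, .negSucc 22, .negSucc 170, .ofNat 18, .negSucc 89, .negSucc 72⟩, ⟨.ofNat 380, .ofNat 135, .ofNat 70, .negSucc 162, .ofNat 148, .ofNat 175⟩, ⟨.negSucc 2031, .negSucc 318, .negSucc 213, .ofNat 221, .negSucc 533, .negSucc 582⟩, ⟨.negSucc 1010, .negSucc 72, .negSucc 79, .negSucc 108, .negSucc 244, .negSucc 5⟩, .ofNat 718, .negSucc 734, .ofNat 0, .negSucc 734, .ofNat 2840, .ofNat 0, .ofNat 338, .ofNat 343, .negSucc 412, .ofNat 0, .ofNat 204, .negSucc 89, .ofNat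 0, .ofNat 0, .ofNat 610, .ofNat 4443, .ofNat 0, .ofNat 0, .ofNat 26170650107934781430335065292800, .ofNat 0, .ofNat 0, .ofNat 10634255964958939377001157042896896000, .ofNat 3390108350212882675969429812019200, .ofNat 0, .ofNat 0, .ofNat 0, .ofNat 1701087165310512042089024952729600, .ofNat 0, .ofNat 0, .ofNat 0, .ofNat 1512722987166956719163413679308800, .ofNat 0⟩)
    (by decide +kernel)
theorem L00512 : Good (Phi V4.P V4.D (-1) 1) ⟨4, 8, 3, 3, 3, 7, 2, 3, 4, 1⟩ :=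
  leaf_sound (S := T4.ds_mp) T4.ok_mp (w := 192) (c := ⟨⟨.negSucc 1400, .negSucc 184, .negSucc 105, .ofNat 10, .negSucc 6, .negSucc 37⟩, ⟨.negSucc 437, .negSucc 11, .negSucc 176, .negSucc 6, .negSucc 16, .negSucc 16⟩, ⟨.ofNat 654, .ofNat 112, .ofNat 51, .negSucc 137, .negSucc 51, .ofNat 24⟩, ⟨.negSucc 2875, .negSucc 236, .negSucc 111, .ofNat 64, .ofNat 53, .negSucc 52⟩, ⟨.negSucc 971, .negSucc 98, .negSucc 47, .negSucc 157, .negSucc 253, .negSucc 111⟩, .ofNat 714, .negSucc 725, .ofNat 0, .negSucc 725, .ofNat 2832, .ofNat 0, .ofNat 336, .ofNat 325, .negSucc 386, .ofNat 0, .ofNat 194, .negSucc 82, .ofNat 0, .ofNat 0, .ofNat 588, .ofNat 4044, .ofNat 0, .ofNat 0, .ofNat 27255259194958049127790804992000, .ofNat 0, .ofNat 0, .ofNat 22976407414037510354925254006223667200, .ofNat 0, .ofNat 0, .ofNat 0, .ofNat 4602618281977651157906712970867507200, .ofNat 1044274562009040299770645158297600,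 .ofNat 0, .ofNat 0, .ofNat 0, .ofNat 0, .ofNat 0⟩)
    (by decide +kernel)
theorem L00513 : Good (Phi V4.P V4.D (-1) 1) ⟨4, 9, 3, 2, 3, 7, 2, 2, 4, 0⟩ :=
  leaf_sound (S := T4.ds_mp) T4.ok_mp (w := 184) (c := ⟨⟨.negSucc 414, .negSucc 169, .negSucc 96, .negSucc 12, .negSucc 448, .negSucc 686⟩, ⟨.negSucc 89, .ofNat 2, .negSucc 129, .negSucc 4, .negSucc 95, .negSucc 98⟩, ⟨.ofNat 83, .ofNat 101, .ofNat 19, .negSucc 75, .ofNat 206, .ofNat 462⟩, ⟨.negSucc 823, .negSucc 251, .negSucc 112, .negSucc 31, .negSucc 861, .negSucc 1400⟩, ⟨.negSucc 623, .ofNat 30, .negSucc 62, .ofNat 32, .negSucc 436, .negSucc 67⟩, .ofNat 533, .negSucc 296, .ofNat 0, .negSucc 296, .ofNat 2330, .ofNat 0, .ofNat 425, .ofNat 203, .negSucc 433, .ofNat 0, .ofNat 163, .negSucc 35, .ofNat 0, .ofNat 0, .ofNat 589, .ofNat 1534, .ofNat 0, .ofNat 0, .ofNat 13157157185698581908422026854400, .ofNat 0, .ofNat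 0, .ofNat 0, .ofNat 0, .ofNat 0, .ofNat 0, .ofNat 0, .ofNat 2982745539759076313744322802483200, .ofNat 0, .ofNat 0, .ofNat 0, .ofNat 0, .ofNat 0⟩)
    (by decide +kernel)
theorem L00514 : Good (Phi V4.P V4.D (-1) 1) ⟨4, 9, 3, 2, 3, 7, 2, 2, 4, 1⟩ :=
  leaf_sound (S := T4.ds_mp) T4.ok_mp (w := 192) (c := ⟨⟨.negSucc 1184, .negSucc 230, .negSucc 86, .negSucc 53, .negSucc 159, .negSucc 297⟩, ⟨.negSucc 202, .ofNat 18, .negSucc 157, .negSucc 14, .negSucc 53, .negSucc 50⟩, ⟨.ofNat 628, .ofNat 140, .ofNat 27, .negSucc 122, .ofNat 16, .ofNat 206⟩, ⟨.negSucc 2422, .negSucc 318, .negSucc 102, .negSucc 99, .negSucc 271, .negSucc 591⟩, ⟨.negSucc 656, .ofNat 26, .negSucc 1, .negSucc 82, .negSucc 421, .negSucc 128⟩, .ofNat 565, .negSucc 378, .ofNat 0, .negSucc 378, .ofNat 2867, .ofNat 0, .ofNat 412, .ofNat 184, .negSucc 382, .ofNat 0, .ofNat 151, .negSucc 29, .ofNat 0, .ofNat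 0, .ofNat 564, .ofNat 3959, .ofNat 0, .ofNat 0, .ofNat 46083556686127085124967622246400, .ofNat 0, .ofNat 0, .ofNat 0, .ofNat 0, .ofNat 0, .ofNat 0, .ofNat 0, .ofNat 3174853736005928982967168165478400, .ofNat 0, .ofNat 0, .ofNat 0, .ofNat 1460088218339389854783141366988800, .ofNat 0⟩)
    (by decide +kernel)
theorem L00515 : Good (Phi V4.P V4.D (-1) 1) ⟨4, 9, 3, 2, 3, 7, 2, 3, 4, 0⟩ :=
  leaf_sound (S := T4.ds_mp) T4.ok_mp (w := 192) (c := ⟨⟨.negSucc 1092, .negSucc 199, .negSucc 128, .ofNat 142, .negSucc 278, .negSucc 312⟩, ⟨.negSucc 211, .ofNat 0, .negSucc 170, .ofNat 14, .negSucc 61, .negSucc 44⟩, ⟨.ofNat 445, .ofNat 130, .ofNat 59, .negSucc 188, .ofNat 151, .ofNat 204⟩, ⟨.negSucc 2178, .negSucc 275, .negSucc 156, .ofNat 301, .negSucc 532, .negSucc 638⟩, ⟨.negSucc 1005, .negSucc 42, .negSucc 49, .negSucc 66, .negSucc 291, .negSucc 31⟩, .ofNat 589, .negSucc 451,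 .ofNat 0, .negSucc 451, .ofNat 3244, .ofNat 0, .ofNat 431, .ofNat 245, .negSucc 481, .ofNat 0, .ofNat 177, .negSucc 42, .ofNat 0, .ofNat 0, .ofNat 634, .ofNat 2277, .ofNat 0, .ofNat 0, .ofNat 16003623126936869919799640064000, .ofNat 0, .ofNat 0, .ofNat 0, .ofNat 0, .ofNat 0, .ofNat 0, .ofNat 0, .ofNat 4206153512864663609844785636966400, .ofNat 0, .ofNat 0, .ofNat 0, .ofNat 0, .ofNat 0⟩)
    (by decide +kernel)
theorem L00516 : Good (Phi V4.P V4.D (-1) 1) ⟨4, 9, 3, 2, 3, 7, 2, 3, 4, 1⟩ :=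
  leaf_sound (S := T4.ds_mp) T4.ok_mp (w := 192) (c := ⟨⟨.negSucc 1439, .negSucc 274, .negSucc 160, .ofNat 5, .ofNat 18, .negSucc 53⟩, ⟨.negSucc 254, .negSucc 7, .negSucc 188, .negSucc 11, .negSucc 22, .negSucc 20⟩, ⟨.ofNat 703, .ofNat 171, .ofNat 87, .negSucc 137, .negSucc 78, .ofNat 21⟩, ⟨.negSucc 2903, .negSucc 406, .negSucc 220, .ofNat 33, .ofNat 80, .negSucc 88⟩, ⟨.negSucc 974, .negSucc 81, .negSucc 39, .negSucc 164, .negSucc 311, .negSucc 154⟩, .ofNat 539, .negSucc 313, .ofNat 0, .negSucc 313, .ofNat 2341, .ofNat 0, .ofNat 431, .ofNat 222, .negSucc 456, .ofNat 0, .ofNat 175, .negSucc 38, .ofNat 0, .ofNat 0, .ofNat 612, .ofNat 2128, .ofNat 0, .ofNat 0, .ofNat 17939868916051196287057605427200, .ofNat 0, .ofNat 0, .ofNat 0, .ofNat 0, .ofNat 0, .ofNat 0, .ofNat 0, .ofNat 0, .ofNat 0, .ofNat 0, .ofNat 0, .ofNat 0, .ofNat 0⟩)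
    (by decide +kernel)
theorem L00517 : Good (Phi V4.P V4.D (-1) 1) ⟨4, 9, 3, 3, 3, 7, 1, 1, 3, 0⟩ :=
  out_sound (S := T4.ds_mp) T4.ok_mp (w := 56) (j := 3) (by decide +kernel)
theorem L00518 : Good (Phi V4.P V4.D (-1) 1) ⟨3, 5, 2, 1, 3, 7, 1, 1, 3, 0⟩ :=
  out_sound (S := T4.ds_mp) T4.ok_mp (w := 48) (j := 3) (by decide +kernel)
theorem L00519 : Good (Phi V4.P V4.D (-1) 1) ⟨3, 4, 2, 1, 3, 7, 2, 2, 3, 1⟩ :=
  leaf_sound (S := T4.ds_mp) T4.ok_mp (w := 176) (c := ⟨⟨.negSucc 1390, .negSucc 350, .negSucc 209, .negSucc 83, .ofNat 65, .ofNat 175⟩, ⟨.negSucc 271, .ofNat 16, .negSucc 334, .negSucc 26, .negSucc 13, .negSucc 5⟩, ⟨.ofNat 788, .ofNat 221, .ofNat 107, .negSucc 107, .negSucc 162, .negSucc 65⟩, ⟨.negSucc 2988, .negSucc 444, .negSucc 261, .negSucc 136, .ofNat 203, .ofNat 448⟩, ⟨.negSucc 716, .negSucc 61, .ofNat 106, .negSucc 208, .negSucc 368, .negSucc 488⟩,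 .ofNat 481, .negSucc 222, .ofNat 0, .negSucc 222, .ofNat 1506, .ofNat 0, .ofNat 365, .ofNat 148, .negSucc 276, .ofNat 0, .ofNat 160, .negSucc 19, .ofNat 0, .ofNat 0, .ofNat 521, .ofNat 1673, .ofNat 0, .ofNat 0, .ofNat 3630490237068579712852505395200, .ofNat 0, .ofNat 0, .ofNat 0, .ofNat 0, .ofNat 0, .ofNat 0, .ofNat 0, .ofNat 0, .ofNat 0, .ofNat 0, .ofNat 0, .ofNat 294869911168223184454354678579200, .ofNat 0⟩)
    (by decide +kernel)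
theorem L00520 : Good (Phi V4.P V4.D (-1) 1) ⟨3, 4, 2, 1, 3, 7, 2, 3, 3, 1⟩ :=
  leaf_sound (S := T4.ds_mp) T4.ok_mp (w := 176) (c := ⟨⟨.negSucc 1343, .negSucc 383, .negSucc 263, .negSucc 39, .ofNat 136, .ofNat 272⟩, ⟨.negSucc 282, .negSucc 4, .negSucc 339, .negSucc 25, .ofNat 2, .ofNat 18⟩, ⟨.ofNat 645, .ofNat 238, .ofNat 164, .negSucc 124, .negSucc 188, .negSucc 173⟩, ⟨.negSucc 2824, .negSucc 522, .negSucc 327, .negSucc 42, .ofNat 342, .ofNat 646⟩, ⟨.negSucc 1048, .negSucc 150, .ofNat 37, .negSucc 239, .negSucc 303, .negSucc 431⟩, .ofNat 480, .negSucc 220, .ofNat 0, .negSucc 220, .ofNat 1490, .ofNat 0, .ofNat 404, .ofNat 195, .negSucc 378, .ofNat 0, .ofNat 183, .negSucc 33, .ofNat 0, .ofNat 0, .ofNat 571, .ofNat 1143, .ofNat 0, .ofNat 0, .ofNat 1785923877073127573110652928000, .ofNat 0, .ofNat 0, .ofNat 162803055297073825303846450731417600, .ofNat 0, .ofNat 0,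 .ofNat 0, .ofNat 106677242800975749387908778924441600, .ofNat 0, .ofNat 0, .ofNat 0, .ofNat 87612142853417020754635160498995200, .ofNat 311007731322491875574932517683200, .ofNat 0⟩)
    (by decide +kernel)
theorem L00521 : Good (Phi V4.P V4.D (-1) 1) ⟨3, 5, 2, 1, 3, 7, 1, 1, 3, 1⟩ :=
  out_sound (S := T4.ds_mp) T4.ok_mp (w := 48) (j := 3) (by decide +kernel)
theorem L00522 : Good (Phi V4.P V4.D (-1) 1) ⟨2, 2, 1, 1, 1, 1, 0, 0, 2, 0⟩ :=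
  out_sound (S := T4.ds_mp) T4.ok_mp (w := 40) (j := 3) (by decide +kernel)
theorem L00523 : Good (Phi V4.P V4.D (-1) 1) ⟨2, 3, 0, 0, 0, 0, 0, 0, 2, 0⟩ :=
  out_sound (S := T4.ds_mp) T4.ok_mp (w := 40) (j := 3) (by decide +kernel)
theorem L00524 : Good (Phi V4.P V4.D (-1) 1) ⟨3, 4, 1, 0, 1, 0, 1, 0, 3, 2⟩ :=
  leaf_sound (S := T4.ds_mp) T4.ok_mp (w := 152) (c := ⟨⟨.negSucc 744, .negSucc 159, .negSucc 91, .negSucc 195, .ofNat 214, .ofNat 42⟩, ⟨.ofNat 20, .ofNat 40, .negSucc 312, .negSucc 49, .ofNat 18, .ofNat 7⟩, ⟨.ofNat 857, .ofNat 184, .ofNat 106, .ofNat 200, .negSucc 611, .negSucc 70⟩, ⟨.negSucc 1700, .negSucc 139, .negSucc 88, .negSucc 376, .ofNat 453, .ofNat 89⟩, ⟨.ofNat 148, .ofNat 11, .ofNat 57, .negSucc 555, .negSucc 176, .negSucc 40⟩, .ofNat 334, .negSucc 37, .ofNat 0, .negSucc 37, .ofNat 735, .ofNat 0, .ofNat 487, .ofNat 51, .negSucc 411, .ofNat 0, .ofNat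 278, .ofNat 9, .ofNat 0, .ofNat 0, .ofNat 956, .ofNat 5227, .ofNat 0, .ofNat 0, .ofNat 1362646217372796533145600, .ofNat 0, .ofNat 0, .ofNat 0, .ofNat 0, .ofNat 0, .ofNat 0, .ofNat 0, .ofNat 0, .ofNat 0, .ofNat 7084528497790173467305102540800, .ofNat 0, .ofNat 254064876276539030844211200, .ofNat 0⟩)
    (by decide +kernel)
theorem L00525 : Good (Phi V4.P V4.D (-1) 1) ⟨3, 5, 2, 0, 1, 0, 1, 0, 3, 2⟩ :=
  leaf_sound (S := T4.ds_mp) T4.ok_mp (w := 160) (c := ⟨⟨.negSucc 961, .negSucc 221, .negSucc 50, .negSucc 157, .ofNat 238, .ofNat 82⟩, ⟨.ofNat 99, .ofNat 91, .negSucc 164, .negSucc 30, .negSucc 31, .negSucc 12⟩, ⟨.ofNat 1070, .ofNat 256, .ofNat 65, .ofNat 184, .negSucc 639, .negSucc 89⟩, ⟨.negSucc 1884, .negSucc 186, .negSucc 60, .negSucc 331, .ofNat 437, .ofNat 154⟩, ⟨.ofNat 175, .ofNat 32, .ofNat 8, .negSucc 520, .negSucc 195, .negSucc 70⟩, .ofNat 412, .ofNat 83,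 .ofNat 0, .ofNat 83, .ofNat 1416, .ofNat 0, .ofNat 473, .negSucc 69, .negSucc 398, .ofNat 0, .ofNat 218, .ofNat 46, .ofNat 0, .ofNat 0, .ofNat 945, .ofNat 6059, .ofNat 0, .ofNat 0, .ofNat 4524791168087056723968000, .ofNat 0, .ofNat 0, .ofNat 0, .ofNat 703002109110556404429619200, .ofNat 0, .ofNat 0, .ofNat 0, .ofNat 1374582949126696229614387200, .ofNat 0, .ofNat 18465513969922705339620891033600, .ofNat 0, .ofNat 0, .ofNat 0⟩)
    (by decide +kernel)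
theorem L00526 : Good (Phi V4.P V4.D (-1) 1) ⟨3, 5, 2, 1, 1, 0, 1, 0, 3, 2⟩ :=
  out_sound (S := T4.ds_mp) T4.ok_mp (w := 48) (j := 3) (by decide +kernel)
theorem L00527 : Good (Phi V4.P V4.D (-1) 1) ⟨2, 2, 1, 0, 1, 0, 1, 0, 3, 3⟩ :=
  leaf_sound (S := T4.ds_mp) T4.ok_mp (w := 152) (c := ⟨⟨.negSucc 769, .negSucc 242, .negSucc 78, .negSucc 140, .ofNat 235, .ofNat 92⟩, ⟨.ofNat 22, .ofNat 103, .negSucc 290, .negSucc 36, .negSucc 8, .ofNat 3⟩, ⟨.ofNat 750, .ofNat 303, .ofNat 83, .ofNat 249, .negSucc 558, .negSucc 96⟩, ⟨.negSucc 1710, .negSucc 162, .negSucc 53, .negSucc 280, .ofNat 481, .ofNat 181⟩, ⟨.ofNat 144, .ofNat 17, .ofNat 43, .negSucc 693, .negSucc 128, .negSucc 13⟩, .ofNat 323, .negSucc 1, .ofNat 0, .negSucc 1, .ofNat 715, .ofNat 0, .ofNat 433, .ofNat 1, .negSucc 337, .ofNat 0, .ofNat 248, .ofNat 23, .ofNat 0, .ofNat 0, .ofNat 862, .ofNat 4305, .ofNat 0, .ofNat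 0, .ofNat 7746120882444706113945600, .ofNat 0, .ofNat 0, .ofNat 0, .ofNat 0, .ofNat 0, .ofNat 0, .ofNat 0, .ofNat 1242428884548018232098816000, .ofNat 0, .ofNat 958490090143933417291933286400, .ofNat 0, .ofNat 781055922750429256954675200, .ofNat 0⟩)
    (by decide +kernel)
theorem L00528 : Good (Phi V4.P V4.D (-1) 1) ⟨3, 4, 1, 0, 2, 2, 2, 0, 3, 2⟩ :=
  leaf_sound (S := T4.ds_mp) T4.ok_mp (w := 168) (c := ⟨⟨.negSucc 860, .negSucc 204, .negSucc 204, .negSucc 235, .ofNat 39, .ofNat 81⟩, ⟨.ofNat 32, .ofNat 55, .negSucc 454, .negSucc 37, .negSucc 5, .negSucc 5⟩, ⟨.ofNat 880, .ofNat 227, .ofNat 299, .ofNat 115, .negSucc 253, .ofNat 30⟩, ⟨.negSucc 1992, .negSucc 192, .negSucc 218, .negSucc 465, .ofNat 105, .ofNat 178⟩, ⟨.negSucc 252, .negSucc 11, .ofNat 170, .negSucc 398, .negSucc 206, .negSucc 220⟩, .ofNat 332, .negSucc 34, .ofNat 0, .negSucc 34, .ofNat 731, .ofNat 0,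 .ofNat 551, .ofNat 27, .negSucc 352, .ofNat 0, .ofNat 290, .ofNat 54, .ofNat 0, .ofNat 0, .ofNat 971, .ofNat 17641, .ofNat 0, .ofNat 0, .ofNat 28705131655204597574035046400, .ofNat 0, .ofNat 0, .ofNat 0, .ofNat 1106271350665983833452786483200, .ofNat 0, .ofNat 0, .ofNat 0, .ofNat 0, .ofNat 0, .ofNat 2740299789026259217214482887475200, .ofNat 0, .ofNat 1332885009779531160792072192000, .ofNat 0⟩)
    (by decide +kernel)
theorem L00529 : Good (Phi V4.P V4.D (-1) 1) ⟨3, 4, 1, 0, 2, 2, 2, 1, 3, 2⟩ :=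
  leaf_sound (S := T4.ds_mp) T4.ok_mp (w := 168) (c := ⟨⟨.negSucc 818, .negSucc 191, .negSucc 246, .negSucc 259, .ofNat 101, .ofNat 116⟩, ⟨.ofNat 30, .ofNat 45, .negSucc 440, .negSucc 52, .negSucc 6, .ofNat 6⟩, ⟨.ofNat 664, .ofNat 200, .ofNat 274, .ofNat 142, .negSucc 253, .negSucc 40⟩, ⟨.negSucc 1895, .negSucc 193, .negSucc 259, .negSucc 496, .ofNat 228, .ofNat 261⟩, ⟨.negSucc 443, .negSucc 43, .ofNat 129, .negSucc 444, .negSucc 179, .negSucc 154⟩, .ofNat 333, .negSucc 41, .ofNat 0, .negSucc 41, .ofNat 723, .ofNat 0, .ofNat 568, .ofNat 55, .negSucc 441, .ofNat 0, .ofNat 301, .ofNat 40, .ofNat 0, .ofNat 0, .ofNat 984, .ofNat 8261, .ofNat 0, .ofNat 0, .ofNat 14179844526390838674063360000, .ofNat 0, .ofNat 0, .ofNat 0, .ofNat 1189679071968886592363927961600, .ofNat 0, .ofNat 0, .ofNat 183686285038286582923914746265600, .ofNat 1280307960324517883034363494400, .ofNat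 0, .ofNat 0, .ofNat 0, .ofNat 1844922872214498420465441177600, .ofNat 0⟩)
    (by decide +kernel)
theorem L00530 : Good (Phi V4.P V4.D (-1) 1) ⟨3, 5, 1, 0, 2, 2, 1, 0, 3, 2⟩ :=
  leaf_sound (S := T4.ds_mp) T4.ok_mp (w := 168) (c := ⟨⟨.negSucc 1181, .negSucc 239, .negSucc 234, .negSucc 205, .ofNat 229, .ofNat 188⟩, ⟨.ofNat 113, .ofNat 69, .negSucc 443, .negSucc 25, .negSucc 56, .negSucc 37⟩, ⟨.ofNat 1187, .ofNat 232, .ofNat 292, .ofNat 68, .negSucc 564, .negSucc 43⟩, ⟨.negSucc 2330, .negSucc 221, .negSucc 229, .negSucc 429, .ofNat 394, .ofNat 329⟩, ⟨.negSucc 159, .ofNat 37, .ofNat 244, .negSucc 496, .negSucc 488, .negSucc 289⟩, .ofNat 310, .ofNat 30, .ofNat 0, .ofNat 30, .ofNat 666, .ofNat 0, .ofNat 599, .negSucc 96, .negSucc 488, .ofNat 0, .ofNat 322, .ofNat 117, .ofNat 0, .ofNat 0, .ofNat 1013, .ofNat 3760, .ofNat 0, .ofNat 0, .ofNat 1428093540585612695096524800,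 .ofNat 0, .ofNat 0, .ofNat 0, .ofNat 254696249701337743718822707200, .ofNat 0, .ofNat 0, .ofNat 261974626265216844875135818137600, .ofNat 309814710977332338498522316800, .ofNat 0, .ofNat 0, .ofNat 0, .ofNat 338265751148937644961536409600, .ofNat 0⟩)
    (by decide +kernel)
theorem L00531 : Good (Phi V4.P V4.D (-1) 1) ⟨3, 4, 1, 0, 2, 3, 2, 0, 3, 2⟩ :=
  leaf_sound (S := T4.ds_mp) T4.ok_mp (w := 168) (c := ⟨⟨.negSucc 1112, .negSucc 246, .negSucc 247, .negSucc 274, .ofNat 56, .ofNat 148⟩, ⟨.ofNat 33, .ofNat 59, .negSucc 556, .negSucc 42, .negSucc 17, .negSucc 4⟩, ⟨.ofNat 1056, .ofNat 208, .ofNat 202, .ofNat 57, .negSucc 280, .ofNat 49⟩, ⟨.negSucc 2559, .negSucc 225, .negSucc 220, .negSucc 538, .ofNat 138, .ofNat 344⟩, ⟨.negSucc 579, .negSucc 18, .ofNat 297, .negSucc 411, .negSucc 260, .negSucc 407⟩, .ofNat 333, .negSucc 39, .ofNat 0, .negSucc 39, .ofNat 721, .ofNat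 0, .ofNat 631, .negSucc 15, .negSucc 318, .ofNat 0, .ofNat 318, .ofNat 37, .ofNat 0, .ofNat 0, .ofNat 958, .ofNat 4363, .ofNat 0, .ofNat 0, .ofNat 15268920295122726574620672000, .ofNat 0, .ofNat 0, .ofNat 0, .ofNat 1294380376016011891080324710400, .ofNat 0, .ofNat 0, .ofNat 0, .ofNat 0, .ofNat 0, .ofNat 0, .ofNat 254873841527663240423196642508800, .ofNat 0, .ofNat 0⟩)
    (by decide +kernel)
theorem L00532 : Good (Phi V4.P V4.D (-1) 1) ⟨3, 4, 2, 0, 2, 3, 2, 1, 4, 4⟩ :=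
  leaf_sound (S := T4.ds_mp) T4.ok_mp (w := 176) (c := ⟨⟨.negSucc 1064, .negSucc 234, .negSucc 176, .negSucc 242, .ofNat 108, .ofNat 111⟩, ⟨.ofNat 26, .ofNat 44, .negSucc 288, .negSucc 31, .negSucc 6, .negSucc 2⟩, ⟨.ofNat 812, .ofNat 187, .ofNat 123, .ofNat 31, .negSucc 239, .negSucc 27⟩, ⟨.negSucc 2428, .negSucc 243, .negSucc 165, .negSucc 491, .ofNat 234, .ofNat 240⟩, ⟨.negSucc 795, .negSucc 63, .ofNat 155, .negSucc 476, .negSucc 288, .negSucc 230⟩, .ofNat 331, .negSucc 20, .ofNat 0, .negSucc 20, .ofNat 751, .ofNat 0, .ofNat 682, .negSucc 32, .negSucc 432, .ofNat 0, .ofNat 327, .ofNat 56, .ofNat 0, .ofNat 0, .ofNat 972, .ofNat 8978, .ofNat 0, .ofNat 0, .ofNat 0, .ofNat 0, .ofNat 0, .ofNat 11995930366744831632702837463449600, .ofNat 0, .ofNat 0, .ofNat 0, .ofNat 0, .ofNat 0, .ofNat 0, .ofNat 0, .ofNat 9084473392107368501372273452646400, .ofNat 0, .ofNat 0⟩)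
    (by decide +kernel)
theorem L00533 : Good (Phi V4.P V4.D (-1) 1) ⟨3, 4, 2, 1, 2, 3, 2, 1, 4, 4⟩ :=
  leaf_sound (S := T4.ds_mp) T4.ok_mp (w := 176) (c := ⟨⟨.negSucc 1191, .negSucc 269, .negSucc 165, .negSucc 250, .ofNat 73, .ofNat 93⟩, ⟨.negSucc 238, .ofNat 21, .negSucc 294, .negSucc 74, .negSucc 5, .ofNat 6⟩, ⟨.ofNat 942, .ofNat 223, .ofNat 125, .negSucc 76, .negSucc 217, .negSucc 1⟩, ⟨.negSucc 2568, .negSucc 294, .negSucc 187, .negSucc 458, .ofNat 213, .ofNat 237⟩, ⟨.negSucc 671, .negSucc 60, .ofNat 142, .negSucc 432, .negSucc 306, .negSucc 204⟩, .ofNat 482, .negSucc 224, .ofNat 0, .negSucc 224, .ofNat 1510, .ofNat 0, .ofNat 574, .ofNat 190, .negSucc 331, .ofNat 0, .ofNat 258, .negSucc 18, .ofNat 0, .ofNat 0, .ofNat 950, .ofNat 9419, .ofNat 0, .ofNat 0, .ofNat 510115683167373749068077465600, .ofNat 0, .ofNat 0, .ofNat 9684906103157668575480502655385600, .ofNat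 47117252758445756244177400627200, .ofNat 0, .ofNat 0, .ofNat 1515272866211496360063649657651200, .ofNat 49507241975529405694630428672000, .ofNat 0, .ofNat 0, .ofNat 2777751901585001153891006624563200, .ofNat 56628513766240148043383124787200, .ofNat 0⟩)
    (by decide +kernel)
theorem L00534 : Good (Phi V4.P V4.D (-1) 1) ⟨3, 4, 1, 0, 2, 3, 2, 1, 4, 5⟩ :=
  leaf_sound (S := T4.ds_mp) T4.ok_mp (w := 168) (c := ⟨⟨.negSucc 1005, .negSucc 181, .negSucc 304, .negSucc 229, .ofNat 123, .ofNat 87⟩, ⟨.ofNat 18, .ofNat 32, .negSucc 540, .negSucc 33, .negSucc 1, .ofNat 1⟩, ⟨.ofNat 784, .ofNat 180, .ofNat 309, .ofNat 63, .negSucc 281, .negSucc 27⟩, ⟨.negSucc 2290, .negSucc 157, .negSucc 260, .negSucc 445, .ofNat 274, .ofNat 201⟩, ⟨.negSucc 979, .negSucc 86, .ofNat 262, .negSucc 559, .negSucc 248, .negSucc 145⟩, .ofNat 332, .negSucc 31, .ofNat 0, .negSucc 31, .ofNat 735, .ofNat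 0, .ofNat 589, .ofNat 7, .negSucc 355, .ofNat 0, .ofNat 301, .ofNat 49, .ofNat 0, .ofNat 0, .ofNat 949, .ofNat 3863, .ofNat 0, .ofNat 7541768325399017363768711577600, .ofNat 134427163804868444981664153600, .ofNat 0, .ofNat 0, .ofNat 4895372637654932143733156610048000, .ofNat 0, .ofNat 0, .ofNat 0, .ofNat 0, .ofNat 0, .ofNat 0, .ofNat 0, .ofNat 2636824305117428945585509603737600, .ofNat 0, .ofNat 0⟩)
    (by decide +kernel)
theorem L00535 : Good (Phi V4.P V4.D (-1) 1) ⟨3, 5, 1, 0, 2, 3, 2, 0, 3, 2⟩ :=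
  leaf_sound (S := T4.ds_mp) T4.ok_mp (w := 168) (c := ⟨⟨.negSucc 1419, .negSucc 259, .negSucc 323, .negSucc 259, .ofNat 91, .ofNat 288⟩, ⟨.ofNat 129, .ofNat 53, .negSucc 592, .negSucc 25, .negSucc 33, .negSucc 74⟩, ⟨.ofNat 1268, .ofNat 210, .ofNat 221, .ofNat 112, .negSucc 287, .negSucc 22⟩, ⟨.negSucc 2837, .negSucc 216, .negSucc 283, .negSucc 521, .ofNat 141, .ofNat 499⟩, ⟨.negSucc 502, .negSucc 16, .ofNat 326, .negSucc 513, .negSucc 305, .negSucc 537⟩, .ofNat 412, .ofNat 91, .ofNat 0, .ofNat 91, .ofNat 1418, .ofNat 0, .ofNat 607, .negSucc 186, .negSucc 306, .ofNat 0, .ofNat 262, .ofNat 58, .ofNat 0, .ofNat 0, .ofNat 941, .ofNat 4374, .ofNat 0, .ofNat 0, .ofNat 24997683376075814934360883200, .ofNat 0, .ofNat 0, .ofNat 0, .ofNat 2799316654571070840896697139200, .ofNat 0, .ofNat 0, .ofNat 291209383308788977452011067801600, .ofNat 2850579214038290354456965939200,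 .ofNat 0, .ofNat 0, .ofNat 0, .ofNat 1360859934701433435475201228800, .ofNat 0⟩)
    (by decide +kernel)
theorem L00536 : Good (Phi V4.P V4.D (-1) 1) ⟨3, 5, 1, 0, 2, 3, 2, 1, 3, 2⟩ :=
  leaf_sound (S := T4.ds_mp) T4.ok_mp (w := 168) (c := ⟨⟨.negSucc 1379, .negSucc 222, .negSucc 428, .negSucc 185, .ofNat 176, .ofNat 356⟩, ⟨.ofNat 106, .ofNat 20, .negSucc 591, .negSucc 32, .negSucc 42, .negSucc 67⟩, ⟨.ofNat 1067, .ofNat 188, .ofNat 325, .ofNat 4, .negSucc 318, .negSucc 162⟩, ⟨.negSucc 2777, .negSucc 200, .negSucc 409, .negSucc 394, .ofNat 310, .ofNat 639⟩, ⟨.negSucc 766, .negSucc 88, .ofNat 284, .negSucc 597, .negSucc 342, .negSucc 508⟩, .ofNat 310, .ofNat 32, .ofNat 0, .ofNat 32, .ofNat 672, .ofNat 0, .ofNat 696, .negSucc 168, .negSucc 526, .ofNat 0, .ofNat 360, .ofNat 123, .ofNat 0, .ofNat 0, .ofNat 1009, .ofNat 2958, .ofNat 0, .ofNat 0, .ofNat 14293664170051814562358886400,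 .ofNat 0, .ofNat 0, .ofNat 0, .ofNat 2784119800489032950974985011200, .ofNat 0, .ofNat 0, .ofNat 508365713501436323373271901798400, .ofNat 0, .ofNat 0, .ofNat 0, .ofNat 0, .ofNat 1944107653060710137665998028800, .ofNat 0⟩)
    (by decide +kernel)
theorem L00537 : Good (Phi V4.P V4.D (-1) 1) ⟨2, 2, 1, 0, 1, 1, 2, 0, 3, 3⟩ :=
  leaf_sound (S := T4.ds_mp) T4.ok_mp (w := 152) (c := ⟨⟨.negSucc 897, .negSucc 285, .negSucc 174, .negSucc 292, .ofNat 86, .ofNat 135⟩, ⟨.ofNat 22, .ofNat 87, .negSucc 397, .negSucc 72, .negSucc 10, .negSucc 3⟩, ⟨.ofNat 985, .ofNat 390, .ofNat 266, .ofNat 212, .negSucc 326, .negSucc 73⟩, ⟨.negSucc 2029, .negSucc 203, .negSucc 135, .negSucc 593, .ofNat 204, .ofNat 273⟩, ⟨.negSucc 402, .negSucc 94, .ofNat 109, .negSucc 1061, .negSucc 153, .negSucc 120⟩, .ofNat 323, .negSucc 12, .ofNat 0, .negSucc 12, .ofNat 699, .ofNat 0, .ofNat 461, .ofNat 3,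 .negSucc 279, .ofNat 0, .ofNat 260, .ofNat 53, .ofNat 0, .ofNat 0, .ofNat 911, .ofNat 5267, .ofNat 0, .ofNat 2484649059244877866755686400, .ofNat 45991662728505423121612800, .ofNat 0, .ofNat 0, .ofNat 422072280744173583846919372800, .ofNat 0, .ofNat 0, .ofNat 0, .ofNat 390426589171714016201932800000, .ofNat 12478729538398096434659328000, .ofNat 0, .ofNat 1667989529929039095578964787200, .ofNat 172516984364543659545408307200, .ofNat 11495014696812908641045708800, .ofNat 0⟩)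
    (by decide +kernel)
theorem L00538 : Good (Phi V4.P V4.D (-1) 1) ⟨2, 2, 1, 0, 1, 1, 2, 1, 3, 3⟩ :=
  leaf_sound (S := T4.ds_mp) T4.ok_mp (w := 152) (c := ⟨⟨.negSucc 811, .negSucc 261, .negSucc 217, .negSucc 310, .ofNat 150, .ofNat 142⟩, ⟨.ofNat 22, .ofNat 54, .negSucc 392, .negSucc 87, .negSucc 7, .ofNat 0⟩, ⟨.ofNat 687, .ofNat 322, .ofNat 253, .ofNat 220, .negSucc 309, .negSucc 89⟩, ⟨.negSucc 1824, .negSucc 206, .negSucc 179, .negSucc 606, .ofNat 305, .ofNat 290⟩, ⟨.negSucc 566, .negSucc 106, .ofNat 103, .negSucc 1099, .negSucc 132, .negSucc 81⟩, .ofNat 324, .negSucc 13, .ofNat 0, .negSucc 13, .ofNat 707, .ofNat 0, .ofNat 475, .ofNat 8, .negSucc 322, .ofNat 0, .ofNat 264, .ofNat 43, .ofNat 0, .ofNat 0, .ofNat 887, .ofNat 2761, .ofNat 0, .ofNat 369722665799431747220275200, .ofNat 37818117583301097544089600, .ofNat 0, .ofNat 0, .ofNat 334599860446238830096495411200,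 .ofNat 0, .ofNat 0, .ofNat 0, .ofNat 430631567971063007637248409600, .ofNat 8705548506102239622227558400, .ofNat 0, .ofNat 0, .ofNat 92285362155404676205589299200, .ofNat 11480175531940887964680192000, .ofNat 0⟩)
    (by decide +kernel)
theorem L00539 : Good (Phi V4.P V4.D (-1) 1) ⟨3, 4, 1, 0, 1, 0, 2, 2, 2, 1⟩ :=
  leaf_sound (S := T4.ds_mp) T4.ok_mp (w := 152) (c := ⟨⟨.negSucc 601, .negSucc 114, .negSucc 92, .negSucc 161, .ofNat 182, .ofNat 182⟩, ⟨.ofNat 11, .ofNat 35, .negSucc 249, .negSucc 51, .ofNat 17, .ofNat 21⟩, ⟨.ofNat 273, .ofNat 126, .ofNat 87, .ofNat 221, .negSucc 265, .negSucc 127⟩, ⟨.negSucc 1373, .negSucc 108, .negSucc 89, .negSucc 283, .ofNat 387, .ofNat 375⟩, ⟨.ofNat 37, .negSucc 11, .ofNat 20, .negSucc 687, .negSucc 7, .ofNat 1⟩, .ofNat 333, .negSucc 38, .ofNat 0, .negSucc 38, .ofNat 730, .ofNat 0, .ofNat 485, .ofNat 54, .negSucc 470, .ofNat 0,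 .ofNat 278, .negSucc 10, .ofNat 0, .ofNat 0, .ofNat 931, .ofNat 4037, .ofNat 0, .ofNat 0, .ofNat 0, .ofNat 0, .ofNat 0, .ofNat 0, .ofNat 0, .ofNat 0, .ofNat 0, .ofNat 0, .ofNat 0, .ofNat 0, .ofNat 0, .ofNat 0, .ofNat 135381632459880231390412800, .ofNat 0⟩)
    (by decide +kernel)
theorem L00540 : Good (Phi V4.P V4.D (-1) 1) ⟨3, 5, 1, 0, 1, 0, 2, 2, 2, 1⟩ :=
  leaf_sound (S := T4.ds_mp) T4.ok_mp (w := 152) (c := ⟨⟨.negSucc 789, .negSucc 146, .negSucc 120, .negSucc 70, .ofNat 217, .ofNat 212⟩, ⟨.ofNat 86, .ofNat 41, .negSucc 252, .negSucc 70, .negSucc 10, .negSucc 16⟩, ⟨.ofNat 471, .ofNat 156, .ofNat 121, .ofNat 144, .negSucc 304, .negSucc 167⟩, ⟨.negSucc 1543, .negSucc 131, .negSucc 141, .negSucc 176, .ofNat 409, .ofNat 397⟩, ⟨.ofNat 97, .negSucc 62, .negSucc 58, .negSucc 758, .negSucc 0, .negSucc 17⟩, .ofNat 411, .ofNat 67, .ofNat 0, .ofNat 67, .ofNat 1377, .ofNat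 0, .ofNat 464, .negSucc 53, .negSucc 446, .ofNat 0, .ofNat 218, .ofNat 34, .ofNat 0, .ofNat 0, .ofNat 907, .ofNat 3302, .ofNat 0, .ofNat 0, .ofNat 1363494005272829866291200, .ofNat 0, .ofNat 0, .ofNat 0, .ofNat 175951697052785870241792000, .ofNat 0, .ofNat 0, .ofNat 0, .ofNat 431399709166567461145804800, .ofNat 0, .ofNat 0, .ofNat 0, .ofNat 281985322418344997211340800, .ofNat 0⟩)
    (by decide +kernel)
theorem L00541 : Good (Phi V4.P V4.D (-1) 1) ⟨3, 4, 1, 0, 2, 2, 2, 2, 3, 2⟩ :=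
  leaf_sound (S := T4.ds_mp) T4.ok_mp (w := 168) (c := ⟨⟨.negSucc 783, .negSucc 144, .negSucc 291, .negSucc 225, .ofNat 202, .ofNat 189⟩, ⟨.ofNat 25, .ofNat 18, .negSucc 428, .negSucc 51, .ofNat 17, .ofNat 15⟩, ⟨.ofNat 478, .ofNat 151, .ofNat 293, .ofNat 123, .negSucc 289, .negSucc 111⟩, ⟨.negSucc 1785, .negSucc 137, .negSucc 299, .negSucc 440, .ofNat 428, .ofNat 398⟩, ⟨.negSucc 578, .negSucc 80, .ofNat 126, .negSucc 552, .negSucc 106, .negSucc 107⟩, .ofNat 331, .negSucc 38, .ofNat 0, .negSucc 38, .ofNat 716, .ofNat 0, .ofNat 596, .ofNat 64, .negSucc 532, .ofNat 0, .ofNat 315, .ofNat 21, .ofNat 0, .ofNat 0, .ofNat 995, .ofNat 4366, .ofNat 0, .ofNat 0, .ofNat 0, .ofNat 0, .ofNat 0, .ofNat 0, .ofNat 1143883954412562607970136883200, .ofNat 0, .ofNat 0, .ofNat 526023510824416830248910952857600, .ofNat 0, .ofNat 0, .ofNat 0, .ofNat 0, .ofNat 1247841807280336505641579315200,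 .ofNat 0⟩)
    (by decide +kernel)
theorem L00542 : Good (Phi V4.P V4.D (-1) 1) ⟨3, 4, 1, 0, 2, 3, 2, 2, 3, 2⟩ :=
  leaf_sound (S := T4.ds_mp) T4.ok_mp (w := 168) (c := ⟨⟨.negSucc 945, .negSucc 210, .negSucc 397, .negSucc 236, .ofNat 147, .ofNat 218⟩, ⟨.ofNat 39, .ofNat 21, .negSucc 577, .negSucc 44, .negSucc 10, .negSucc 8⟩, ⟨.ofNat 586, .ofNat 165, .ofNat 305, .negSucc 9, .negSucc 258, .negSucc 111⟩, ⟨.negSucc 2200, .negSucc 215, .negSucc 396, .negSucc 441, .ofNat 361, .ofNat 524⟩, ⟨.negSucc 1043, .negSucc 127, .ofNat 226, .negSucc 540, .negSucc 249, .negSucc 315⟩, .ofNat 331, .negSucc 33, .ofNat 0, .negSucc 33, .ofNat 727, .ofNat 0, .ofNat 358, .ofNat 20, .negSucc 283, .ofNat 0, .ofNat 173, .ofNat 24, .ofNat 0, .ofNat 0, .ofNat 513, .ofNat 1183, .ofNat 0, .ofNat 0, .ofNat 0, .ofNat 0, .ofNat 0, .ofNat 340866137358863156819325144268800, .ofNat 0, .ofNat 0, .ofNat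 0, .ofNat 268649444241753825053750014771200, .ofNat 0, .ofNat 0, .ofNat 0, .ofNat 105270674310172512732771149414400, .ofNat 0, .ofNat 0⟩)
    (by decide +kernel)
theorem L00543 : Good (Phi V4.P V4.D (-1) 1) ⟨3, 5, 1, 0, 1, 1, 2, 2, 3, 2⟩ :=
  leaf_sound (S := T4.ds_mp) T4.ok_mp (w := 160) (c := ⟨⟨.negSucc 1022, .negSucc 125, .negSucc 348, .negSucc 387, .ofNat 292, .ofNat 270⟩, ⟨.ofNat 77, .negSucc 1, .negSucc 424, .negSucc 65, .negSucc 24, .negSucc 29⟩, ⟨.ofNat 733, .ofNat 118, .ofNat 302, .ofNat 43, .negSucc 361, .negSucc 177⟩, ⟨.negSucc 2044, .negSucc 107, .negSucc 339, .negSucc 830, .ofNat 536, .ofNat 500⟩, ⟨.negSucc 566, .negSucc 120, .ofNat 194, .negSucc 1220, .negSucc 156, .negSucc 159⟩, .ofNat 309, .ofNat 33, .ofNat 0, .ofNat 33, .ofNat 667, .ofNat 0, .ofNat 328, .negSucc 47, .negSucc 328, .ofNat 0, .ofNat 172, .ofNat 54, .ofNat 0, .ofNat 0, .ofNat 525,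 .ofNat 1055, .ofNat 0, .ofNat 0, .ofNat 6886711609284237071155200, .ofNat 0, .ofNat 0, .ofNat 1516770022490398283434190438400, .ofNat 430682652109636816129228800, .ofNat 0, .ofNat 0, .ofNat 1985221961644413969569415168000, .ofNat 814253471124066939174912000, .ofNat 0, .ofNat 0, .ofNat 974291549620655904936217804800, .ofNat 936856624386144956055552000, .ofNat 0⟩)
    (by decide +kernel)
theorem L00544 : Good (Phi V4.P V4.D (-1) 1) ⟨2, 2, 1, 0, 1, 1, 2, 2, 3, 3⟩ :=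
  leaf_sound (S := T4.ds_mp) T4.ok_mp (w := 152) (c := ⟨⟨.negSucc 707, .negSucc 166, .negSucc 223, .negSucc 228, .ofNat 249, .ofNat 151⟩, ⟨.ofNat 20, .ofNat 21, .negSucc 345, .negSucc 96, .negSucc 6, .negSucc 5⟩, ⟨.ofNat 448, .ofNat 204, .ofNat 235, .ofNat 128, .negSucc 332, .negSucc 109⟩, ⟨.negSucc 1563, .negSucc 118, .negSucc 193, .negSucc 481, .ofNat 497, .ofNat 298⟩, ⟨.negSucc 657, .negSucc 160, .ofNat 66, .negSucc 1234, .negSucc 70, .negSucc 57⟩, .ofNat 321, .negSucc 2, .ofNat 0, .negSucc 2, .ofNat 710, .ofNat 0, .ofNat 502, .negSucc 1, .negSucc 404, .ofNat 0, .ofNat 273, .ofNat 36, .ofNat 0, .ofNat 0, .ofNat 883, .ofNat 1653, .ofNat 0, .ofNat 0, .ofNat 0, .ofNat 0, .ofNat 0, .ofNat 537377490861681508478248550400, .ofNat 0, .ofNat 0, .ofNat 0, .ofNat 474170335462575149634551808000, .ofNat 0, .ofNat 0, .ofNat 0, .ofNat 378407460579408781206198681600, .ofNat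 0, .ofNat 0⟩)
    (by decide +kernel)
theorem L00545 : Good (Phi V4.P V4.D (-1) 1) ⟨3, 4, 1, 0, 1, 0, 2, 3, 3, 2⟩ :=
  leaf_sound (S := T4.ds_mp) T4.ok_mp (w := 160) (c := ⟨⟨.negSucc 458, .negSucc 47, .negSucc 109, .negSucc 132, .ofNat 469, .ofNat 71⟩, ⟨.ofNat 8, .ofNat 31, .negSucc 178, .negSucc 53, .ofNat 47, .negSucc 2⟩, ⟨.ofNat 18, .ofNat 59, .ofNat 105, .ofNat 217, .negSucc 497, .negSucc 16⟩, ⟨.negSucc 1028, .negSucc 31, .negSucc 130, .negSucc 232, .ofNat 975, .ofNat 147⟩, ⟨.ofNat 40, .negSucc 33, .ofNat 0, .negSucc 657, .ofNat 70, .negSucc 19⟩, .ofNat 331, .negSucc 33, .ofNat 0, .negSucc 33, .ofNat 728, .ofNat 0, .ofNat 274, .ofNat 28, .negSucc 360, .ofNat 0, .ofNat 156, .negSucc 16, .ofNat 0, .ofNat 0, .ofNat 542, .ofNat 1080, .ofNat 0, .ofNat 0, .ofNat 0, .ofNat 0, .ofNat 0, .ofNat 1581728582317203136250590003200, .ofNat 0, .ofNat 0, .ofNat 0, .ofNat 1415929074069607486569263923200,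 .ofNat 526695245239273185764966400, .ofNat 0, .ofNat 0, .ofNat 706321332991339146812325888000, .ofNat 177687194471790134309683200, .ofNat 0⟩)
    (by decide +kernel)
theorem L00546 : Good (Phi V4.P V4.D (-1) 1) ⟨3, 4, 1, 0, 1, 0, 2, 3, 3, 3⟩ :=
  leaf_sound (S := T4.ds_mp) T4.ok_mp (w := 160) (c := ⟨⟨.negSucc 446, .negSucc 29, .negSucc 101, .negSucc 10, .ofNat 480, .ofNat 73⟩, ⟨.ofNat 11, .ofNat 15, .negSucc 142, .negSucc 38, .ofNat 32, .negSucc 2⟩, ⟨.ofNat 42, .ofNat 41, .ofNat 104, .ofNat 112, .negSucc 487, .negSucc 27⟩, ⟨.negSucc 995, .ofNat 0, .negSucc 118, .ofNat 9, .ofNat 1002, .ofNat 158⟩, ⟨.ofNat 21, .negSucc 12, .ofNat 16, .negSucc 654, .ofNat 56, .ofNat 15⟩, .ofNat 332, .negSucc 31, .ofNat 0, .negSucc 31, .ofNat 733, .ofNat 0, .ofNat 488, .ofNat 46, .negSucc 596, .ofNat 0, .ofNat 278, .negSucc 28, .ofNat 0, .ofNat 0, .ofNat 953, .ofNat 1922, .ofNat 0,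 .ofNat 0, .ofNat 3541979645818142118912000, .ofNat 0, .ofNat 0, .ofNat 7036447904217484346556363571200, .ofNat 0, .ofNat 0, .ofNat 0, .ofNat 4594673896560397647103603507200, .ofNat 0, .ofNat 0, .ofNat 0, .ofNat 8179437772249249471417810944000, .ofNat 1360613844733021875339264000, .ofNat 0⟩)
    (by decide +kernel)
theorem L00547 : Good (Phi V4.P V4.D (-1) 1) ⟨4, 10, 2, 0, 1, 0, 2, 3, 2, 1⟩ :=
  leaf_sound (S := T4.ds_mp) T4.ok_mp (w := 160) (c := ⟨⟨.negSucc 646, .negSucc 84, .negSucc 146, .ofNat 43, .ofNat 580, .ofNat 265⟩, ⟨.ofNat 67, .ofNat 1, .negSucc 72, .negSucc 61, .negSucc 30, .negSucc 17⟩, ⟨.ofNat 203, .ofNat 80, .ofNat 136, .ofNat 58, .negSucc 592, .negSucc 155⟩, ⟨.negSucc 1252, .negSucc 128, .negSucc 240, .ofNat 36, .ofNat 1107, .ofNat 500⟩, ⟨.ofNat 14, .negSucc 40, .negSucc 21, .negSucc 687, .ofNat 84, .ofNat 35⟩, .ofNat 413, .ofNat 64, .ofNat 0, .ofNat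 64, .ofNat 1443, .ofNat 0, .ofNat 498, .negSucc 53, .negSucc 618, .ofNat 0, .ofNat 226, .ofNat 32, .ofNat 0, .ofNat 0, .ofNat 983, .ofNat 2043, .ofNat 0, .ofNat 0, .ofNat 0, .ofNat 0, .ofNat 0, .ofNat 102032428561332719113771941888000, .ofNat 55522136225854592778240000, .ofNat 0, .ofNat 0, .ofNat 0, .ofNat 0, .ofNat 0, .ofNat 0, .ofNat 43380308080832137102105981747200, .ofNat 31191469964025612867993600, .ofNat 0⟩)
    (by decide +kernel)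
theorem L00548 : Good (Phi V4.P V4.D (-1) 1) ⟨4, 11, 2, 0, 1, 0, 2, 3, 2, 1⟩ :=
  leaf_sound (S := T4.ds_mp) T4.ok_mp (w := 160) (c := ⟨⟨.negSucc 711, .negSucc 13, .negSucc 78, .ofNat 14, .ofNat 588, .ofNat 290⟩, ⟨.ofNat 97, .ofNat 11, .negSucc 64, .negSucc 77, .negSucc 71, .negSucc 33⟩, ⟨.ofNat 280, .ofNat 10, .ofNat 56, .ofNat 69, .negSucc 624, .negSucc 171⟩, ⟨.negSucc 1295, .ofNat 8, .negSucc 106, .negSucc 68, .ofNat 1073, .ofNat 530⟩, ⟨.ofNat 54, .ofNat 26, .negSucc 51, .negSucc 778, .ofNat 12, .ofNat 18⟩, .ofNat 470, .ofNat 240, .ofNat 0, .ofNat 240, .ofNat 2026, .ofNat 0, .ofNat 502, .negSucc 147, .negSucc 651, .ofNat 0, .ofNat 228, .ofNat 84, .ofNat 0, .ofNat 0, .ofNat 1022, .ofNat 1743, .ofNat 0, .ofNat 0, .ofNat 0, .ofNat 0, .ofNat 0, .ofNat 142247070404728023229568070451200, .ofNat 281197498198065194336256000, .ofNat 0, .ofNat 0, .ofNat 104685292174340200398887426457600,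 .ofNat 523465580883382259259801600, .ofNat 0, .ofNat 0, .ofNat 125795700705074161818002050252800, .ofNat 193114946645026825686220800, .ofNat 0⟩)
    (by decide +kernel)
theorem L00549 : Good (Phi V4.P V4.D (-1) 1) ⟨3, 5, 2, 1, 1, 0, 2, 3, 2, 1⟩ :=
  out_sound (S := T4.ds_mp) T4.ok_mp (w := 48) (j := 3) (by decide +kernel)
theorem L00550 : Good (Phi V4.P V4.D (-1) 1) ⟨2, 2, 1, 0, 1, 1, 2, 3, 2, 1⟩ :=
  leaf_sound (S := T4.ds_mp) T4.ok_mp (w := 152) (c := ⟨⟨.negSucc 595, .negSucc 194, .negSucc 322, .negSucc 493, .ofNat 366, .ofNat 452⟩, ⟨.ofNat 36, .negSucc 0, .negSucc 363, .negSucc 119, .ofNat 0, .negSucc 14⟩, ⟨.ofNat 228, .ofNat 192, .ofNat 304, .ofNat 255, .negSucc 385, .negSucc 316⟩, ⟨.negSucc 1339, .negSucc 190, .negSucc 383, .negSucc 977, .ofNat 743, .ofNat 891⟩, ⟨.negSucc 647, .negSucc 190, .ofNat 47, .negSucc 1159, .ofNat 21, .negSucc 112⟩, .ofNat 323, .negSucc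 16, .ofNat 0, .negSucc 16, .ofNat 695, .ofNat 0, .ofNat 330, .ofNat 19, .negSucc 373, .ofNat 0, .ofNat 173, .ofNat 7, .ofNat 0, .ofNat 0, .ofNat 545, .ofNat 386, .ofNat 0, .ofNat 0, .ofNat 0, .ofNat 0, .ofNat 0, .ofNat 49133453769083465392088678400, .ofNat 0, .ofNat 0, .ofNat 0, .ofNat 36350417543257572854936371200, .ofNat 0, .ofNat 0, .ofNat 0, .ofNat 33115274052617566968348672000, .ofNat 0, .ofNat 0⟩)
    (by decide +kernel)
theorem L00551 : Good (Phi V4.P V4.D (-1) 1) ⟨2, 2, 1, 1, 0, 0, 0, 0, 2, 1⟩ :=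
  out_sound (S := T4.ds_mp) T4.ok_mp (w := 40) (j := 3) (by decide +kernel)
theorem L00552 : Good (Phi V4.P V4.D (-1) 1) ⟨2, 3, 0, 0, 0, 0, 0, 0, 2, 1⟩ :=
  out_sound (S := T4.ds_mp) T4.ok_mp (w := 40) (j := 3) (by decide +kernel)
theorem L00553 : Good (Phi V4.P V4.D (-1) 1) ⟨1, 0, 1, 0, 1, 0, 1, 0, 3, 4⟩ :=
  leaf_sound (S := T4.ds_mp) T4.ok_mp (w := 144) (c := ⟨⟨.negSucc 408, .negSucc 169, .negSucc 44, .negSucc 147, .ofNat 121, .ofNat 67⟩, ⟨.negSucc 62, .ofNat 1, .negSucc 202, .negSucc 69, .ofNat 63, .ofNat 17⟩, ⟨.ofNat 186, .ofNat 268, .ofNat 29, .ofNat 184, .negSucc 267, .negSucc 65⟩, ⟨.negSucc 1425, .negSucc 82, .negSucc 23, .negSucc 221, .ofNat 425, .ofNat 147⟩, ⟨.ofNat 3, .negSucc 64, .ofNat 8, .negSucc 558, .ofNat 43, .ofNat 3⟩, .ofNat 398, .negSucc 101, .ofNat 0, .negSucc 101, .ofNat 683, .ofNat 0, .ofNat 328, .ofNat 92, .negSucc 211, .ofNat 0, .ofNat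 234, .negSucc 25, .ofNat 0, .ofNat 0, .ofNat 734, .ofNat 6795, .ofNat 541946996225817107182387200, .ofNat 0, .ofNat 0, .ofNat 0, .ofNat 0, .ofNat 0, .ofNat 0, .ofNat 0, .ofNat 0, .ofNat 0, .ofNat 0, .ofNat 0, .ofNat 95242639181700136490237952000, .ofNat 0, .ofNat 0, .ofNat 0⟩)
    (by decide +kernel)
theorem L00554 : Good (Phi V4.P V4.D (-1) 1) ⟨1, 0, 1, 0, 1, 0, 1, 0, 3, 5⟩ :=
  leaf_sound (S := T4.ds_mp) T4.ok_mp (w := 152) (c := ⟨⟨.negSucc 349, .negSucc 142, .negSucc 74, .negSucc 152, .ofNat 135, .ofNat 73⟩, ⟨.negSucc 54, .ofNat 10, .negSucc 197, .negSucc 83, .ofNat 72, .ofNat 23⟩, ⟨.negSucc 32, .ofNat 270, .ofNat 62, .ofNat 194, .negSucc 133, .negSucc 63⟩, ⟨.negSucc 1290, .negSucc 25, .negSucc 37, .negSucc 225, .ofNat 421, .ofNat 155⟩, ⟨.ofNat 63, .negSucc 105, .ofNat 2, .negSucc 585, .ofNat 34, .negSucc 19⟩, .ofNat 188, .negSucc 15, .ofNat 0, .negSucc 15,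 .ofNat 237, .ofNat 0, .ofNat 420, .ofNat 46, .negSucc 399, .ofNat 0, .ofNat 351, .ofNat 5, .ofNat 0, .ofNat 0, .ofNat 812, .ofNat 23052, .ofNat 16327141265870990480926310400, .ofNat 0, .ofNat 0, .ofNat 0, .ofNat 112461524853684795011078553600, .ofNat 0, .ofNat 0, .ofNat 0, .ofNat 0, .ofNat 0, .ofNat 0, .ofNat 0, .ofNat 205400624692248118862807040000, .ofNat 0, .ofNat 0, .ofNat 0⟩)
    (by decide +kernel)
theorem L00555 : Good (Phi V4.P V4.D (-1) 1) ⟨1, 0, 1, 0, 1, 1, 1, 0, 2, 2⟩ :=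
  leaf_sound (S := T4.ds_mp) T4.ok_mp (w := 144) (c := ⟨⟨.negSucc 533, .negSucc 205, .negSucc 102, .negSucc 266, .ofNat 141, .ofNat 95⟩, ⟨.negSucc 86, .ofNat 7, .negSucc 286, .negSucc 144, .ofNat 56, .ofNat 35⟩, ⟨.ofNat 304, .ofNat 418, .ofNat 94, .ofNat 259, .negSucc 326, .negSucc 118⟩, ⟨.negSucc 1693, .negSucc 82, .negSucc 40, .negSucc 506, .ofNat 443, .ofNat 303⟩, ⟨.negSucc 439, .negSucc 217, .ofNat 29, .negSucc 538, .negSucc 47, .negSucc 11⟩, .ofNat 399, .negSucc 102, .ofNat 0, .negSucc 102, .ofNat 682, .ofNat 0, .ofNat 350, .ofNat 97, .negSucc 187, .ofNat 0, .ofNat 247, .ofNat 0, .ofNat 0, .ofNat 0, .ofNat 792, .ofNat 1940, .ofNat 109449592681009890381004800, .ofNat 6223552812052109556940800, .ofNat 333998868248549271475200, .ofNat 0, .ofNat 0, .ofNat 5146722161972321005338624000, .ofNat 0, .ofNat 0, .ofNat 0, .ofNat 0, .ofNat 0, .ofNat 0, .ofNat 0, .ofNat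 1333859085661371637432320000, .ofNat 139059171245066469507072000, .ofNat 0⟩)
    (by decide +kernel)
theorem L00556 : Good (Phi V4.P V4.D (-1) 1) ⟨1, 0, 1, 0, 1, 0, 1, 0, 2, 3⟩ :=
  out_sound (S := T4.ds_mp) T4.ok_mp (w := 24) (j := 1) (by decide +kernel)
theorem L00557 : Good (Phi V4.P V4.D (-1) 1) ⟨1, 0, 1, 0, 1, 1, 1, 0, 2, 3⟩ :=
  out_sound (S := T4.ds_mp) T4.ok_mp (w := 24) (j := 2) (by decide +kernel)
theorem L00558 : Good (Phi V4.P V4.D (-1) 1) ⟨1, 0, 1, 0, 2, 0, 2, 2, 3, 4⟩ :=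
  leaf_sound (S := T4.ds_mp) T4.ok_mp (w := 160) (c := ⟨⟨.negSucc 328, .negSucc 126, .negSucc 28, .negSucc 30, .ofNat 124, .ofNat 38⟩, ⟨.negSucc 27, .ofNat 4, .negSucc 152, .negSucc 20, .ofNat 30, .ofNat 4⟩, ⟨.negSucc 31, .ofNat 168, .ofNat 18, .ofNat 59, .negSucc 146, .negSucc 15⟩, ⟨.negSucc 1045, .negSucc 62, .negSucc 20, .negSucc 17, .ofNat 318, .ofNat 94⟩, ⟨.ofNat 2, .negSucc 25, .ofNat 2, .negSucc 239, .ofNat 25, .ofNat 10⟩, .ofNat 187, .negSucc 16, .ofNat 0, .negSucc 16, .ofNat 238, .ofNat 0, .ofNat 460, .ofNat 54, .negSucc 624, .ofNat 0, .ofNat 386, .negSucc 46, .ofNat 0, .ofNat 0, .ofNat 956, .ofNat 10746, .ofNat 0, .ofNat 0, .ofNat 0, .ofNat 0, .ofNat 0, .ofNat 0, .ofNat 0, .ofNat 0, .ofNat 0, .ofNat 0, .ofNat 0, .ofNat 0, .ofNat 0, .ofNat 0, .ofNat 0, .ofNat 0⟩)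
    (by decide +kernel)
theorem L00559 : Good (Phi V4.P V4.D (-1) 1) ⟨1, 0, 1, 0, 3, 0, 2, 2, 4, 10⟩ :=
  leaf_sound (S := T4.ds_mp) T4.ok_mp (w := 176) (c := ⟨⟨.negSucc 321, .negSucc 114, .negSucc 11, .ofNat 3, .ofNat 127, .ofNat 3⟩, ⟨.negSucc 21, .negSucc 6, .negSucc 134, .negSucc 8, .ofNat 24, .ofNat 1⟩, ⟨.negSucc 19, .ofNat 133, .ofNat 7, .ofNat 11, .negSucc 128, .ofNat 4⟩, ⟨.negSucc 981, .negSucc 63, .negSucc 9, .ofNat 26, .ofNat 312, .ofNat 19⟩, ⟨.negSucc 4, .negSucc 4, .ofNat 0, .negSucc 100, .ofNat 11, .ofNat 1⟩, .ofNat 393, .negSucc 95, .ofNat 0, .negSucc 95, .ofNat 693, .ofNat 0, .ofNat 316, .ofNat 83, .negSucc 255, .ofNat 0, .ofNat 222, .negSucc 42, .ofNat 0, .ofNat 0, .ofNat 671, .ofNat 21993, .ofNat 0, .ofNat 0, .ofNat 0, .ofNat 0, .ofNat 0, .ofNat 0, .ofNat 0, .ofNat 0, .ofNat 0, .ofNat 0, .ofNat 0, .ofNat 0, .ofNat 0, .ofNat 0, .ofNat 0, .ofNat 0⟩)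
    (by decide +kernel)
theorem L00560 : Good (Phi V4.P V4.D (-1) 1) ⟨1, 0, 1, 0, 3, 0, 3, 4, 4, 11⟩ :=
  leaf_sound (S := T4.ds_mp) T4.ok_mp (w := 184) (c := ⟨⟨.negSucc 154, .negSucc 101, .negSucc 13, .ofNat 3, .negSucc 104, .ofNat 0⟩, ⟨.negSucc 63, .negSucc 2, .negSucc 143, .negSucc 10, .ofNat 61, .ofNat 0⟩, ⟨.negSucc 177, .ofNat 135, .ofNat 7, .ofNat 8, .ofNat 97, .ofNat 0⟩, ⟨.negSucc 748, .negSucc 32, .negSucc 5, .ofNat 10, .negSucc 62, .ofNat 0⟩, ⟨.negSucc 3, .negSucc 11, .ofNat 1, .negSucc 108, .ofNat 14, .ofNat 0⟩, .ofNat 188, .negSucc 13, .ofNat 0, .negSucc 13, .ofNat 237, .ofNat 0, .ofNat 406, .ofNat 40, .negSucc 496, .ofNat 0, .ofNat 344, .negSucc 33, .ofNat 0, .ofNat 0, .ofNat 827, .ofNat 2223427, .ofNat 2225672850308274422920340846936064000, .ofNat 0, .ofNat 0, .ofNat 0, .ofNat 4458459392496716285058331033416499200, .ofNat 0, .ofNat 0, .ofNat 0, .ofNat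 3556609163361478943300991010524364800, .ofNat 0, .ofNat 0, .ofNat 0, .ofNat 3171834479669757149977160576296550400, .ofNat 0, .ofNat 0, .ofNat 0⟩)
    (by decide +kernel)
theorem L00561 : Good (Phi V4.P V4.D (-1) 1) ⟨1, 0, 1, 0, 3, 0, 3, 5, 4, 11⟩ :=
  leaf_sound (S := T4.ds_mp) T4.ok_mp (w := 176) (c := ⟨⟨.negSucc 262, .negSucc 95, .negSucc 9, .ofNat 4, .ofNat 68, .ofNat 4⟩, ⟨.negSucc 18, .negSucc 4, .negSucc 121, .negSucc 4, .ofNat 13, .ofNat 4⟩, ⟨.negSucc 73, .ofNat 114, .ofNat 7, .ofNat 8, .negSucc 64, .ofNat 8⟩, ⟨.negSucc 824, .negSucc 42, .negSucc 5, .ofNat 31, .ofNat 166, .ofNat 24⟩, ⟨.negSucc 1, .negSucc 4, .ofNat 1, .negSucc 94, .ofNat 8, .ofNat 1⟩, .ofNat 188, .negSucc 16, .ofNat 0, .negSucc 16, .ofNat 237, .ofNat 0, .ofNat 408, .ofNat 48, .negSucc 580, .ofNat 0, .ofNat 347, .negSucc 55, .ofNat 0, .ofNat 0, .ofNat 869, .ofNat 44818, .ofNat 4803069697433255480374474466918400,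 .ofNat 0, .ofNat 0, .ofNat 0, .ofNat 0, .ofNat 0, .ofNat 0, .ofNat 0, .ofNat 0, .ofNat 0, .ofNat 0, .ofNat 0, .ofNat 0, .ofNat 0, .ofNat 0, .ofNat 0⟩)
    (by decide +kernel)
theorem L00562 : Good (Phi V4.P V4.D (-1) 1) ⟨1, 0, 2, 0, 4, 2, 2, 2, 3, 5⟩ :=
  leaf_sound (S := T4.ds_mp) T4.ok_mp (w := 184) (c := ⟨⟨.negSucc 330, .negSucc 72, .negSucc 17, .negSucc 7, .ofNat 123, .ofNat 23⟩, ⟨.negSucc 37, .ofNat 3, .negSucc 63, .negSucc 1, .ofNat 22, .ofNat 7⟩, ⟨.negSucc 9, .ofNat 119, .ofNat 16, .ofNat 14, .negSucc 127, .negSucc 3⟩, ⟨.negSucc 1008, .ofNat 27, .negSucc 10, .negSucc 3, .ofNat 324, .ofNat 63⟩, ⟨.negSucc 109, .negSucc 28, .ofNat 1, .negSucc 53, .ofNat 31, .ofNat 5⟩, .ofNat 388, .negSucc 54, .ofNat 0, .negSucc 54, .ofNat 690, .ofNat 0, .ofNat 316, .ofNat 47, .negSucc 243, .ofNat 0, .ofNat 215, .negSucc 21, .ofNat 0, .ofNat 0, .ofNat 653, .ofNat 25572, .ofNat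 63556191451553835385303278708326400, .ofNat 0, .ofNat 0, .ofNat 0, .ofNat 0, .ofNat 0, .ofNat 0, .ofNat 0, .ofNat 0, .ofNat 0, .ofNat 0, .ofNat 0, .ofNat 0, .ofNat 0, .ofNat 0, .ofNat 0⟩)
    (by decide +kernel)
theorem L00563 : Good (Phi V4.P V4.D (-1) 1) ⟨1, 0, 2, 1, 4, 2, 3, 4, 3, 5⟩ :=
  leaf_sound (S := T4.ds_mp) T4.ok_mp (w := 184) (c := ⟨⟨.negSucc 327, .negSucc 123, .negSucc 8, .negSucc 9, .ofNat 58, .ofNat 38⟩, ⟨.negSucc 110, .ofNat 1, .negSucc 79, .negSucc 5, .ofNat 21, .ofNat 7⟩, ⟨.negSucc 16, .ofNat 177, .ofNat 5, .ofNat 17, .negSucc 63, .negSucc 22⟩, ⟨.negSucc 980, .negSucc 39, .negSucc 2, .negSucc 4, .ofNat 139, .ofNat 86⟩, ⟨.negSucc 103, .negSucc 23, .ofNat 0, .negSucc 61, .ofNat 8, .ofNat 7⟩, .ofNat 188, .negSucc 23, .ofNat 0, .negSucc 23, .ofNat 236, .ofNat 0, .ofNat 414, .ofNat 69, .negSucc 501, .ofNat 0, .ofNat 355, .negSucc 55, .ofNat 0, .ofNat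 0, .ofNat 845, .ofNat 95535, .ofNat 1611340321472162387737835697340416000, .ofNat 0, .ofNat 0, .ofNat 0, .ofNat 9743703001523307027590821691837644800, .ofNat 0, .ofNat 0, .ofNat 0, .ofNat 0, .ofNat 0, .ofNat 0, .ofNat 0, .ofNat 0, .ofNat 0, .ofNat 0, .ofNat 0⟩)
    (by decide +kernel)
theorem L00564 : Good (Phi V4.P V4.D (-1) 1) ⟨2, 0, 2, 1, 4, 2, 3, 5, 3, 5⟩ :=
  leaf_sound (S := T4.ds_mp) T4.ok_mp (w := 192) (c := ⟨⟨.negSucc 291, .negSucc 14, .negSucc 12, .negSucc 9, .ofNat 60, .ofNat 17⟩, ⟨.negSucc 88, .negSucc 13, .negSucc 64, .negSucc 6, .ofNat 23, .ofNat 8⟩, ⟨.negSucc 55, .ofNat 38, .ofNat 10, .ofNat 10, .negSucc 55, .ofNat 4⟩, ⟨.negSucc 860, .ofNat 31, .negSucc 7, .negSucc 9, .ofNat 165, .ofNat 51⟩, ⟨.negSucc 98, .negSucc 15, .ofNat 0, .negSucc 49, .ofNat 17, .ofNat 7⟩, .ofNat 426, .negSucc 135, .ofNat 0, .negSucc 135, .ofNat 661, .ofNat 0, .ofNat 296, .ofNat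 110, .negSucc 236, .ofNat 0, .ofNat 234, .negSucc 59, .ofNat 0, .ofNat 0, .ofNat 646, .ofNat 87838, .ofNat 14053355008763955804411429219257548800, .ofNat 0, .ofNat 0, .ofNat 0, .ofNat 0, .ofNat 0, .ofNat 0, .ofNat 0, .ofNat 0, .ofNat 0, .ofNat 0, .ofNat 0, .ofNat 0, .ofNat 0, .ofNat 0, .ofNat 0⟩)
    (by decide +kernel)

end Crest.Agent.R097C4.N4mp
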