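import Crest.Agent.R097.T4

/-!
# Row 97, box cover in dimension n = 4 (generated)
-/

set_option autoImplicit false
set_option Elab.async false
set_option maxHeartbeats 0
set_option maxRecDepth 100000

open Crest.Agent.R097 Crest.Agent.R097.KA


namespace Crest.Agent.R097C4.N4mp

theorem L00565 : Good (Phi V4.P V4.D (-1) 1) ⟨2, 1, 2, 1, 4, 2, 3, 5, 3, 5⟩ :=
  leaf_sound (S := T4.ds_mp) T4.ok_mp (w := 192) (c := ⟨⟨.negSucc 327, .negSucc 65, .negSucc 11, .negSucc 3, .ofNat 79, .ofNat 30⟩, ⟨.negSucc 103, .ofNat 15, .negSucc 66, .negSucc 5, .ofNat 26, .ofNat 9⟩, ⟨.ofNat 0, .ofNat 90, .ofNat 9, .ofNat 14, .negSucc 78, .negSucc 9⟩, ⟨.negSucc 866, .negSucc 16, .negSucc 6, .ofNat 12, .ofNat 191, .ofNat 74⟩, ⟨.negSucc 104, .negSucc 14, .negSucc 0, .negSucc 62, .ofNat 15, .ofNat 6⟩, .ofNat 397, .negSucc 142, .ofNat 0, .negSucc 142, .ofNat 714, .ofNat 0, .ofNat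 310, .ofNat 123, .negSucc 272, .ofNat 0, .ofNat 224, .negSucc 65, .ofNat 0, .ofNat 0, .ofNat 669, .ofNat 69815, .ofNat 12890458947548807303313085964904038400, .ofNat 0, .ofNat 0, .ofNat 0, .ofNat 0, .ofNat 0, .ofNat 0, .ofNat 0, .ofNat 0, .ofNat 0, .ofNat 0, .ofNat 0, .ofNat 0, .ofNat 0, .ofNat 0, .ofNat 0⟩)
    (by decide +kernel)
theorem L00566 : Good (Phi V4.P V4.D (-1) 1) ⟨1, 0, 1, 0, 4, 3, 2, 2, 3, 5⟩ :=
  leaf_sound (S := T4.ds_mp) T4.ok_mp (w := 176) (c := ⟨⟨.negSucc 344, .negSucc 77, .negSucc 39, .negSucc 9, .ofNat 139, .ofNat 29⟩, ⟨.negSucc 49, .ofNat 12, .negSucc 139, .negSucc 4, .ofNat 34, .ofNat 7⟩, ⟨.ofNat 2, .ofNat 144, .ofNat 31, .ofNat 14, .negSucc 141, .negSucc 9⟩, ⟨.negSucc 1036, .ofNat 46, .negSucc 25, .negSucc 10, .ofNat 351, .ofNat 70⟩, ⟨.negSucc 155, .negSucc 57, .ofNat 2, .negSucc 63, .ofNat 36, .ofNat 6⟩, .ofNat 188, .negSucc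 16, .ofNat 0, .negSucc 16, .ofNat 236, .ofNat 0, .ofNat 422, .ofNat 51, .negSucc 545, .ofNat 0, .ofNat 356, .negSucc 44, .ofNat 0, .ofNat 0, .ofNat 851, .ofNat 20127, .ofNat 18840772948378203465808537976832000, .ofNat 0, .ofNat 0, .ofNat 0, .ofNat 0, .ofNat 0, .ofNat 0, .ofNat 0, .ofNat 0, .ofNat 0, .ofNat 0, .ofNat 0, .ofNat 319685518983516682807716194392473600, .ofNat 0, .ofNat 0, .ofNat 0⟩)
    (by decide +kernel)
theorem L00567 : Good (Phi V4.P V4.D (-1) 1) ⟨1, 0, 1, 0, 2, 1, 2, 2, 2, 2⟩ :=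
  leaf_sound (S := T4.ds_mp) T4.ok_mp (w := 160) (c := ⟨⟨.negSucc 359, .negSucc 100, .negSucc 67, .negSucc 71, .ofNat 133, .ofNat 70⟩, ⟨.negSucc 50, .ofNat 21, .negSucc 182, .negSucc 31, .ofNat 32, .ofNat 18⟩, ⟨.ofNat 4, .ofNat 205, .ofNat 50, .ofNat 71, .negSucc 154, .negSucc 32⟩, ⟨.negSucc 1119, .ofNat 39, .negSucc 35, .negSucc 143, .ofNat 348, .ofNat 178⟩, ⟨.negSucc 202, .negSucc 126, .ofNat 11, .negSucc 301, .ofNat 45, .ofNat 16⟩, .ofNat 392, .negSucc 87, .ofNat 0, .negSucc 87, .ofNat 688, .ofNat 0, .ofNat 342, .ofNat 83, .negSucc 244, .ofNat 0, .ofNat 236, .negSucc 28, .ofNat 0, .ofNat 0, .ofNat 703, .ofNat 6700, .ofNat 45978065415320853598647091200, .ofNat 0, .ofNat 0, .ofNat 0, .ofNat 0, .ofNat 421778837542159430919703756800, .ofNat 0, .ofNat 0, .ofNat 0, .ofNat 0, .ofNat 0, .ofNat 0, .ofNat 0, .ofNat 0, .ofNat 0, .ofNat 0⟩)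
    (by decide +kernel)
theorem L00568 : Good (Phi V4.P V4.D (-1) 1) ⟨2, 0, 2, 0, 2, 0, 2, 3, 3, 4⟩ :=
  leaf_sound (S := T4.ds_mp) T4.ok_mp (w := 168) (c := ⟨⟨.negSucc 253, .ofNat 0, .negSucc 9, .negSucc 22, .ofNat 238, .ofNat 23⟩, ⟨.negSucc 20, .negSucc 2, .negSucc 34, .negSucc 17, .ofNat 41, .ofNat 0⟩, ⟨.negSucc 120, .ofNat 12, .ofNat 8, .ofNat 37, .negSucc 228, .ofNat 11⟩, ⟨.negSucc 764, .ofNat 42, .negSucc 15, .negSucc 36, .ofNat 683, .ofNat 61⟩, ⟨.ofNat 0, .negSucc 22, .negSucc 6, .negSucc 151, .ofNat 43, .negSucc 0⟩, .ofNat 402, .negSucc 54, .ofNat 0, .negSucc 54, .ofNat 650, .ofNat 0, .ofNat 373, .ofNat 57, .negSucc 366, .ofNat 0, .ofNat 271, .negSucc 40, .ofNat 0, .ofNat 0, .ofNat 746, .ofNat 8007, .ofNat 0, .ofNat 0, .ofNat 0, .ofNat 0, .ofNat 0, .ofNat 199998380160723424694818465382400, .ofNat 0, .ofNat 0, .ofNat 0, .ofNat 0, .ofNat 0, .ofNat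 0, .ofNat 0, .ofNat 0, .ofNat 0, .ofNat 0⟩)
    (by decide +kernel)
theorem L00569 : Good (Phi V4.P V4.D (-1) 1) ⟨2, 0, 2, 1, 2, 0, 3, 6, 3, 4⟩ :=
  leaf_sound (S := T4.ds_mp) T4.ok_mp (w := 168) (c := ⟨⟨.negSucc 235, .negSucc 11, .negSucc 11, .negSucc 38, .ofNat 94, .ofNat 16⟩, ⟨.negSucc 64, .negSucc 9, .negSucc 53, .negSucc 28, .ofNat 36, .ofNat 6⟩, ⟨.negSucc 135, .ofNat 28, .ofNat 8, .ofNat 44, .negSucc 91, .ofNat 14⟩, ⟨.negSucc 723, .ofNat 25, .negSucc 15, .negSucc 43, .ofNat 261, .ofNat 45⟩, ⟨.negSucc 2, .negSucc 14, .negSucc 3, .negSucc 175, .ofNat 25, .ofNat 6⟩, .ofNat 427, .negSucc 137, .ofNat 0, .negSucc 137, .ofNat 662, .ofNat 0, .ofNat 346, .ofNat 131, .negSucc 330, .ofNat 0, .ofNat 274, .negSucc 85, .ofNat 0, .ofNat 0, .ofNat 734, .ofNat 20085, .ofNat 0, .ofNat 0, .ofNat 0, .ofNat 0, .ofNat 0, .ofNat 0, .ofNat 0, .ofNat 0, .ofNat 0, .ofNat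 0, .ofNat 0, .ofNat 0, .ofNat 0, .ofNat 0, .ofNat 0, .ofNat 0⟩)
    (by decide +kernel)
theorem L00570 : Good (Phi V4.P V4.D (-1) 1) ⟨2, 0, 2, 1, 2, 0, 3, 7, 3, 4⟩ :=
  leaf_sound (S := T4.ds_mp) T4.ok_mp (w := 168) (c := ⟨⟨.negSucc 164, .ofNat 12, .negSucc 6, .negSucc 18, .ofNat 161, .ofNat 10⟩, ⟨.negSucc 53, .ofNat 0, .negSucc 23, .negSucc 10, .ofNat 63, .ofNat 4⟩, ⟨.negSucc 210, .ofNat 2, .ofNat 5, .ofNat 31, .negSucc 152, .ofNat 26⟩, ⟨.negSucc 502, .ofNat 66, .negSucc 6, .negSucc 3, .ofNat 461, .ofNat 33⟩, ⟨.negSucc 3, .negSucc 7, .ofNat 5, .negSucc 129, .ofNat 31, .negSucc 0⟩, .ofNat 713, .negSucc 446, .ofNat 0, .negSucc 446, .ofNat 1477, .ofNat 0, .ofNat 300, .ofNat 192, .negSucc 315, .ofNat 0, .ofNat 227, .negSucc 110, .ofNat 0, .ofNat 0, .ofNat 707, .ofNat 11205, .ofNat 0, .ofNat 4266438188415387887707619328000, .ofNat 0, .ofNat 0, .ofNat 0,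 .ofNat 614228762498145908686908397977600, .ofNat 0, .ofNat 0, .ofNat 0, .ofNat 683768151437012613465865872998400, .ofNat 0, .ofNat 0, .ofNat 0, .ofNat 0, .ofNat 0, .ofNat 0⟩)
    (by decide +kernel)
theorem L00571 : Good (Phi V4.P V4.D (-1) 1) ⟨2, 0, 1, 0, 2, 1, 2, 3, 3, 4⟩ :=
  leaf_sound (S := T4.ds_mp) T4.ok_mp (w := 160) (c := ⟨⟨.negSucc 261, .negSucc 0, .negSucc 49, .negSucc 52, .ofNat 194, .ofNat 24⟩, ⟨.negSucc 32, .negSucc 7, .negSucc 122, .negSucc 25, .ofNat 69, .ofNat 7⟩, ⟨.negSucc 108, .ofNat 37, .ofNat 37, .ofNat 60, .negSucc 183, .ofNat 6⟩, ⟨.negSucc 804, .ofNat 85, .negSucc 33, .negSucc 112, .ofNat 523, .ofNat 73⟩, ⟨.negSucc 179, .negSucc 50, .ofNat 1, .negSucc 225, .ofNat 102, .ofNat 13⟩, .ofNat 413, .negSucc 100, .ofNat 0, .negSucc 100, .ofNat 653, .ofNat 0, .ofNat 363, .ofNat 102, .negSucc 311, .ofNat 0, .ofNat 272, .negSucc 59, .ofNat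 0, .ofNat 0, .ofNat 724, .ofNat 5500, .ofNat 0, .ofNat 0, .ofNat 0, .ofNat 0, .ofNat 0, .ofNat 139833980509588815797374943232000, .ofNat 0, .ofNat 0, .ofNat 0, .ofNat 97157732288140309463393579827200, .ofNat 0, .ofNat 0, .ofNat 0, .ofNat 117337517075722402220555737497600, .ofNat 0, .ofNat 0⟩)
    (by decide +kernel)
theorem L00572 : Good (Phi V4.P V4.D (-1) 1) ⟨2, 0, 2, 0, 1, 0, 2, 3, 3, 5⟩ :=
  leaf_sound (S := T4.ds_mp) T4.ok_mp (w := 160) (c := ⟨⟨.negSucc 249, .ofNat 5, .negSucc 3, .negSucc 6, .ofNat 228, .ofNat 19⟩, ⟨.negSucc 17, .negSucc 10, .negSucc 38, .negSucc 27, .ofNat 45, .ofNat 2⟩, ⟨.negSucc 97, .ofNat 12, .ofNat 1, .ofNat 28, .negSucc 207, .ofNat 7⟩, ⟨.negSucc 762, .ofNat 60, .ofNat 12, .ofNat 23, .ofNat 658, .ofNat 58⟩, ⟨.negSucc 0, .negSucc 15, .ofNat 1, .negSucc 336, .ofNat 34, .ofNat 5⟩, .ofNat 404, .negSucc 53, .ofNat 0, .negSucc 53,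 .ofNat 643, .ofNat 0, .ofNat 335, .ofNat 50, .negSucc 299, .ofNat 0, .ofNat 245, .negSucc 33, .ofNat 0, .ofNat 0, .ofNat 669, .ofNat 4806, .ofNat 0, .ofNat 0, .ofNat 0, .ofNat 0, .ofNat 0, .ofNat 1831860761952402230724683366400, .ofNat 0, .ofNat 0, .ofNat 0, .ofNat 1696588018411607498199505305600, .ofNat 0, .ofNat 0, .ofNat 0, .ofNat 1597203801309333094313597337600, .ofNat 0, .ofNat 0⟩)
    (by decide +kernel)
theorem L00573 : Good (Phi V4.P V4.D (-1) 1) ⟨2, 0, 2, 1, 2, 0, 2, 3, 3, 5⟩ :=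
  leaf_sound (S := T4.ds_mp) T4.ok_mp (w := 168) (c := ⟨⟨.negSucc 241, .ofNat 3, .negSucc 19, .negSucc 16, .ofNat 230, .ofNat 15⟩, ⟨.negSucc 74, .negSucc 1, .negSucc 41, .negSucc 15, .ofNat 86, .ofNat 4⟩, ⟨.negSucc 103, .ofNat 14, .ofNat 15, .ofNat 23, .negSucc 210, .ofNat 9⟩, ⟨.negSucc 727, .ofNat 49, .negSucc 41, .ofNat 5, .ofNat 652, .ofNat 43⟩, ⟨.negSucc 8, .negSucc 8, .ofNat 4, .negSucc 158, .ofNat 42, .ofNat 1⟩, .ofNat 424, .negSucc 132, .ofNat 0, .negSucc 132, .ofNat 662, .ofNat 0, .ofNat 318, .ofNat 116, .negSucc 307, .ofNat 0, .ofNat 250, .negSucc 79, .ofNat 0, .ofNat 0, .ofNat 669, .ofNat 8959, .ofNat 0, .ofNat 0, .ofNat 0, .ofNat 0, .ofNat 0, .ofNat 184426885181803512096294646579200, .ofNat 0, .ofNat 0, .ofNat 0, .ofNat 220382917264825610778267195801600, .ofNat 0, .ofNat 0, .ofNat 0, .ofNat 215281461282680219788331974656000, .ofNat 0, .ofNat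 0⟩)
    (by decide +kernel)
theorem L00574 : Good (Phi V4.P V4.D (-1) 1) ⟨2, 0, 2, 1, 2, 1, 2, 3, 3, 5⟩ :=
  leaf_sound (S := T4.ds_mp) T4.ok_mp (w := 168) (c := ⟨⟨.negSucc 257, .ofNat 0, .negSucc 20, .negSucc 57, .ofNat 168, .ofNat 22⟩, ⟨.negSucc 87, .negSucc 4, .negSucc 58, .negSucc 32, .ofNat 75, .ofNat 10⟩, ⟨.negSucc 90, .ofNat 36, .ofNat 16, .ofNat 56, .negSucc 149, .ofNat 2⟩, ⟨.negSucc 743, .ofNat 85, .negSucc 14, .negSucc 87, .ofNat 454, .ofNat 60⟩, ⟨.negSucc 166, .negSucc 46, .ofNat 0, .negSucc 204, .ofNat 76, .ofNat 11⟩, .ofNat 427, .negSucc 141, .ofNat 0, .negSucc 141, .ofNat 664, .ofNat 0, .ofNat 625, .ofNat 245, .negSucc 528, .ofNat 0, .ofNat 493, .negSucc 143, .ofNat 0, .ofNat 0, .ofNat 1316, .ofNat 22547, .ofNat 0, .ofNat 0, .ofNat 0, .ofNat 0, .ofNat 0, .ofNat 4356420555431681104069824557875200, .ofNat 0, .ofNat 0, .ofNat 0, .ofNat 3546802207007566905774055410892800,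 .ofNat 0, .ofNat 0, .ofNat 0, .ofNat 4268817120084874789601710964736000, .ofNat 0, .ofNat 0⟩)
    (by decide +kernel)
theorem L00575 : Good (Phi V4.P V4.D (-1) 1) ⟨2, 1, 2, 0, 1, 0, 3, 6, 2, 2⟩ :=
  leaf_sound (S := T4.ds_mp) T4.ok_mp (w := 152) (c := ⟨⟨.negSucc 289, .negSucc 47, .negSucc 19, .ofNat 38, .ofNat 122, .ofNat 63⟩, ⟨.negSucc 28, .ofNat 16, .negSucc 53, .negSucc 11, .ofNat 22, .ofNat 10⟩, ⟨.negSucc 80, .ofNat 67, .ofNat 16, .ofNat 42, .negSucc 119, .negSucc 10⟩, ⟨.negSucc 798, .negSucc 8, .negSucc 22, .ofNat 175, .ofNat 304, .ofNat 150⟩, ⟨.ofNat 12, .negSucc 33, .ofNat 2, .negSucc 477, .ofNat 29, .ofNat 24⟩, .ofNat 546, .negSucc 237, .ofNat 0, .negSucc 237, .ofNat 1799, .ofNat 0, .ofNat 323, .ofNat 108, .negSucc 278, .ofNat 0, .ofNat 159, .negSucc 41, .ofNat 0, .ofNat 0, .ofNat 678, .ofNat 4307, .ofNat 0, .ofNat 0, .ofNat 0, .ofNat 0, .ofNat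 0, .ofNat 512804093855500805924192256000, .ofNat 0, .ofNat 0, .ofNat 0, .ofNat 0, .ofNat 0, .ofNat 0, .ofNat 0, .ofNat 0, .ofNat 0, .ofNat 0⟩)
    (by decide +kernel)
theorem L00576 : Good (Phi V4.P V4.D (-1) 1) ⟨2, 1, 2, 1, 2, 0, 3, 6, 2, 2⟩ :=
  leaf_sound (S := T4.ds_mp) T4.ok_mp (w := 168) (c := ⟨⟨.negSucc 291, .negSucc 52, .negSucc 12, .ofNat 5, .ofNat 119, .ofNat 58⟩, ⟨.negSucc 95, .ofNat 8, .negSucc 52, .negSucc 6, .ofNat 48, .ofNat 24⟩, ⟨.negSucc 81, .ofNat 70, .ofNat 12, .ofNat 32, .negSucc 115, .negSucc 3⟩, ⟨.negSucc 807, .negSucc 12, .negSucc 6, .ofNat 93, .ofNat 293, .ofNat 143⟩, ⟨.ofNat 12, .negSucc 27, .ofNat 0, .negSucc 222, .ofNat 28, .ofNat 9⟩, .ofNat 398, .negSucc 145, .ofNat 0, .negSucc 145, .ofNat 714, .ofNat 0, .ofNat 337, .ofNat 136, .negSucc 343, .ofNat 0, .ofNat 244, .negSucc 87, .ofNat 0, .ofNat 0, .ofNat 713, .ofNat 9949, .ofNat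 0, .ofNat 0, .ofNat 0, .ofNat 0, .ofNat 0, .ofNat 0, .ofNat 0, .ofNat 0, .ofNat 0, .ofNat 0, .ofNat 0, .ofNat 0, .ofNat 0, .ofNat 0, .ofNat 0, .ofNat 0⟩)
    (by decide +kernel)
theorem L00577 : Good (Phi V4.P V4.D (-1) 1) ⟨2, 1, 2, 1, 2, 1, 3, 6, 2, 2⟩ :=
  leaf_sound (S := T4.ds_mp) T4.ok_mp (w := 168) (c := ⟨⟨.negSucc 298, .negSucc 51, .negSucc 36, .negSucc 85, .ofNat 133, .ofNat 89⟩, ⟨.negSucc 103, .ofNat 14, .negSucc 68, .negSucc 38, .ofNat 51, .ofNat 32⟩, ⟨.negSucc 44, .ofNat 89, .ofNat 37, .ofNat 117, .negSucc 129, .negSucc 37⟩, ⟨.negSucc 769, .ofNat 18, .negSucc 35, .negSucc 98, .ofNat 323, .ofNat 212⟩, ⟨.negSucc 209, .negSucc 56, .negSucc 0, .negSucc 329, .ofNat 40, .ofNat 17⟩, .ofNat 398, .negSucc 149, .ofNat 0, .negSucc 149, .ofNat 714, .ofNat 0, .ofNat 359, .ofNat 152, .negSucc 350, .ofNat 0, .ofNat 259, .negSucc 89, .ofNat 0, .ofNat 0, .ofNat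 740, .ofNat 10007, .ofNat 0, .ofNat 0, .ofNat 0, .ofNat 0, .ofNat 0, .ofNat 211758941829948644325443449651200, .ofNat 0, .ofNat 0, .ofNat 0, .ofNat 0, .ofNat 0, .ofNat 0, .ofNat 0, .ofNat 228009954844231327137947398963200, .ofNat 0, .ofNat 0⟩)
    (by decide +kernel)
theorem L00578 : Good (Phi V4.P V4.D (-1) 1) ⟨2, 1, 1, 0, 2, 0, 3, 7, 2, 2⟩ :=
  leaf_sound (S := T4.ds_mp) T4.ok_mp (w := 160) (c := ⟨⟨.negSucc 203, .ofNat 0, .negSucc 11, .ofNat 66, .ofNat 211, .ofNat 27⟩, ⟨.negSucc 31, .ofNat 8, .negSucc 42, .ofNat 12, .ofNat 48, .ofNat 0⟩, ⟨.negSucc 166, .ofNat 13, .ofNat 10, .negSucc 24, .negSucc 204, .ofNat 34⟩, ⟨.negSucc 542, .ofNat 48, .negSucc 8, .ofNat 199, .ofNat 515, .ofNat 66⟩, ⟨.ofNat 2, .negSucc 14, .ofNat 2, .negSucc 157, .ofNat 21, .ofNat 11⟩, .ofNat 376, .negSucc 93, .ofNat 0, .negSucc 93, .ofNat 736, .ofNat 0, .ofNat 383, .ofNat 98, .negSucc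 472, .ofNat 0, .ofNat 249, .negSucc 76, .ofNat 0, .ofNat 0, .ofNat 795, .ofNat 4887, .ofNat 0, .ofNat 0, .ofNat 0, .ofNat 0, .ofNat 0, .ofNat 51855076598944397263649950924800, .ofNat 0, .ofNat 0, .ofNat 0, .ofNat 0, .ofNat 0, .ofNat 0, .ofNat 0, .ofNat 55115060757998665355324345548800, .ofNat 0, .ofNat 0⟩)
    (by decide +kernel)
theorem L00579 : Good (Phi V4.P V4.D (-1) 1) ⟨2, 1, 1, 0, 2, 1, 3, 7, 2, 2⟩ :=
  leaf_sound (S := T4.ds_mp) T4.ok_mp (w := 168) (c := ⟨⟨.negSucc 152, .ofNat 1, .negSucc 62, .negSucc 56, .ofNat 197, .ofNat 97⟩, ⟨.negSucc 19, .ofNat 18, .negSucc 85, .negSucc 33, .ofNat 44, .ofNat 16⟩, ⟨.negSucc 185, .ofNat 29, .ofNat 62, .ofNat 94, .negSucc 193, .negSucc 31⟩, ⟨.negSucc 418, .ofNat 80, .negSucc 71, .negSucc 63, .ofNat 465, .ofNat 225⟩, ⟨.negSucc 172, .negSucc 46, .negSucc 2, .negSucc 245, .ofNat 76, .ofNat 30⟩, .ofNat 378, .negSucc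 97, .ofNat 0, .negSucc 97, .ofNat 731, .ofNat 0, .ofNat 835, .ofNat 228, .negSucc 939, .ofNat 0, .ofNat 542, .negSucc 163, .ofNat 0, .ofNat 0, .ofNat 1653, .ofNat 26158, .ofNat 0, .ofNat 0, .ofNat 0, .ofNat 0, .ofNat 0, .ofNat 1386320585144442239624395987353600, .ofNat 0, .ofNat 0, .ofNat 0, .ofNat 998615019868600907535656524185600, .ofNat 0, .ofNat 0, .ofNat 0, .ofNat 1265393658303214812923721626419200, .ofNat 0, .ofNat 0⟩)
    (by decide +kernel)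
theorem L00580 : Good (Phi V4.P V4.D (-1) 1) ⟨1, 0, 1, 0, 1, 1, 1, 1, 2, 2⟩ :=
  leaf_sound (S := T4.ds_mp) T4.ok_mp (w := 144) (c := ⟨⟨.negSucc 368, .negSucc 205, .negSucc 128, .ofNat 0, .ofNat 0, .ofNat 0⟩, ⟨.negSucc 54, .ofNat 19, .negSucc 262, .ofNat 0, .ofNat 0, .ofNat 0⟩, ⟨.negSucc 15, .ofNat 370, .ofNat 116, .ofNat 0, .ofNat 0, .ofNat 0⟩, ⟨.negSucc 1223, .negSucc 69, .negSucc 78, .ofNat 0, .ofNat 0, .ofNat 0⟩, ⟨.negSucc 470, .negSucc 245, .ofNat 28, .ofNat 0, .ofNat 0, .ofNat 0⟩, .ofNat 393, .negSucc 99, .ofNat 0, .negSucc 99, .ofNat 691, .ofNat 0, .ofNat 377, .ofNat 104, .negSucc 233, .ofNat 0, .ofNat 258, .negSucc 13, .ofNat 0, .ofNat 0, .ofNat 777, .ofNat 8308, .ofNat 0, .ofNat 0, .ofNat 0, .ofNat 0, .ofNat 0, .ofNat 37805642719495555943655014400, .ofNat 0, .ofNat 0, .ofNat 0, .ofNat 28751767757591324236185600000, .ofNat 134796394167389714880921600,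 .ofNat 0, .ofNat 0, .ofNat 47118758553301480101642240000, .ofNat 0, .ofNat 0⟩)
    (by decide +kernel)
theorem L00581 : Good (Phi V4.P V4.D (-1) 1) ⟨1, 0, 1, 0, 2, 0, 2, 2, 2, 3⟩ :=
  leaf_sound (S := T4.ds_mp) T4.ok_mp (w := 160) (c := ⟨⟨.negSucc 371, .negSucc 62, .negSucc 24, .ofNat 13, .ofNat 166, .ofNat 27⟩, ⟨.negSucc 48, .ofNat 6, .negSucc 116, .negSucc 12, .ofNat 40, .ofNat 8⟩, ⟨.ofNat 27, .ofNat 97, .ofNat 19, .ofNat 13, .negSucc 151, .ofNat 16⟩, ⟨.negSucc 1064, .ofNat 29, .negSucc 23, .ofNat 76, .ofNat 392, .ofNat 139⟩, ⟨.negSucc 20, .negSucc 36, .ofNat 2, .negSucc 207, .ofNat 50, .negSucc 93⟩, .ofNat 396, .negSucc 93, .ofNat 0, .negSucc 93, .ofNat 683, .ofNat 0, .ofNat 303, .ofNat 78, .negSucc 251, .ofNat 0, .ofNat 215, .negSucc 43, .ofNat 0, .ofNat 0, .ofNat 628, .ofNat 91525, .ofNat 8117106144067967073327356313600, .ofNat 0, .ofNat 0, .ofNat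 0, .ofNat 29297424808400747321830146048000, .ofNat 0, .ofNat 0, .ofNat 0, .ofNat 39433531066567737294958519910400, .ofNat 0, .ofNat 0, .ofNat 0, .ofNat 44988034916689440754595423846400, .ofNat 0, .ofNat 0, .ofNat 0⟩)
    (by decide +kernel)
theorem L00582 : Good (Phi V4.P V4.D (-1) 1) ⟨1, 0, 1, 0, 2, 1, 2, 2, 2, 3⟩ :=
  leaf_sound (S := T4.ds_mp) T4.ok_mp (w := 160) (c := ⟨⟨.negSucc 374, .negSucc 26, .negSucc 46, .negSucc 46, .ofNat 172, .ofNat 27⟩, ⟨.negSucc 60, .ofNat 18, .negSucc 126, .negSucc 13, .ofNat 38, .ofNat 20⟩, ⟨.ofNat 45, .ofNat 92, .ofNat 39, .ofNat 69, .negSucc 162, .ofNat 2⟩, ⟨.negSucc 1067, .ofNat 138, .negSucc 33, .negSucc 50, .ofNat 412, .ofNat 108⟩, ⟨.negSucc 221, .negSucc 91, .ofNat 1, .negSucc 238, .ofNat 66, .ofNat 14⟩, .ofNat 395, .negSucc 96, .ofNat 0, .negSucc 96, .ofNat 688, .ofNat 0, .ofNat 304, .ofNat 81, .negSucc 238, .ofNat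 0, .ofNat 214, .negSucc 41, .ofNat 0, .ofNat 0, .ofNat 624, .ofNat 14879, .ofNat 1939366658323952361839945318400, .ofNat 0, .ofNat 0, .ofNat 0, .ofNat 10328999376868453067297233305600, .ofNat 1006226781488712367018396876800, .ofNat 0, .ofNat 0, .ofNat 0, .ofNat 0, .ofNat 0, .ofNat 0, .ofNat 10894945518518788274154740121600, .ofNat 0, .ofNat 0, .ofNat 0⟩)
    (by decide +kernel)
theorem L00583 : Good (Phi V4.P V4.D (-1) 1) ⟨2, 0, 1, 0, 2, 0, 3, 6, 3, 6⟩ :=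
  leaf_sound (S := T4.ds_mp) T4.ok_mp (w := 168) (c := ⟨⟨.negSucc 224, .ofNat 2, .negSucc 17, .negSucc 1, .ofNat 90, .ofNat 14⟩, ⟨.negSucc 22, .negSucc 5, .negSucc 84, .negSucc 14, .ofNat 32, .ofNat 3⟩, ⟨.negSucc 96, .ofNat 13, .ofNat 14, .ofNat 12, .negSucc 78, .ofNat 10⟩, ⟨.negSucc 692, .ofNat 59, .negSucc 9, .ofNat 37, .ofNat 249, .ofNat 30⟩, ⟨.negSucc 5, .negSucc 16, .negSucc 0, .negSucc 157, .ofNat 29, .ofNat 8⟩, .ofNat 416, .negSucc 107, .ofNat 0, .negSucc 107, .ofNat 653, .ofNat 0, .ofNat 301, .ofNat 89, .negSucc 271, .ofNat 0, .ofNat 230, .negSucc 58, .ofNat 0, .ofNat 0, .ofNat 625, .ofNat 41780, .ofNat 183294069934619690975701971763200, .ofNat 0, .ofNat 0, .ofNat 0, .ofNat 0, .ofNat 0, .ofNat 0, .ofNat 0, .ofNat 0, .ofNat 0, .ofNat 0, .ofNat 0, .ofNat 0, .ofNat 0, .ofNat 0, .ofNat 0⟩)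
    (by decide +kernel)
theorem L00584 : Good (Phi V4.P V4.D (-1) 1) ⟨2, 0, 1, 0, 2, 0, 3, 7, 3, 6⟩ :=
  leaf_sound (S := T4.ds_mp) T4.ok_mp (w := 168) (c := ⟨⟨.negSucc 146, .ofNat 15, .negSucc 6, .ofNat 7, .ofNat 139, .negSucc 3⟩, ⟨.negSucc 12, .ofNat 1, .negSucc 44, .negSucc 13, .ofNat 40, .negSucc 3⟩, ⟨.negSucc 161, .negSucc 6, .ofNat 5, .ofNat 1, .negSucc 125, .ofNat 28⟩, ⟨.negSucc 445, .ofNat 67, .negSucc 3, .ofNat 48, .ofNat 401, .negSucc 10⟩, ⟨.negSucc 0, .negSucc 7, .negSucc 0, .negSucc 103, .ofNat 16, .negSucc 0⟩, .ofNat 413, .negSucc 95, .ofNat 0, .negSucc 95, .ofNat 648, .ofNat 0, .ofNat 318, .ofNat 84, .negSucc 338, .ofNat 0, .ofNat 241, .negSucc 66, .ofNat 0, .ofNat 0, .ofNat 653, .ofNat 21482, .ofNat 0, .ofNat 0, .ofNat 0, .ofNat 0, .ofNat 0, .ofNat 225766224278757962947700667187200, .ofNat 0, .ofNat 0, .ofNat 0, .ofNat 174535490386476332943960283545600,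 .ofNat 0, .ofNat 0, .ofNat 0, .ofNat 211955677963007175594820082073600, .ofNat 0, .ofNat 0⟩)
    (by decide +kernel)
theorem L00585 : Good (Phi V4.P V4.D (-1) 1) ⟨2, 0, 1, 0, 2, 0, 3, 6, 4, 14⟩ :=
  out_sound (S := T4.ds_mp) T4.ok_mp (w := 32) (j := 1) (by decide +kernel)
theorem L00586 : Good (Phi V4.P V4.D (-1) 1) ⟨2, 0, 1, 0, 2, 0, 4, 14, 5, 28⟩ :=
  out_sound (S := T4.ds_mp) T4.ok_mp (w := 32) (j := 1) (by decide +kernel)
theorem L00587 : Good (Phi V4.P V4.D (-1) 1) ⟨2, 0, 1, 0, 3, 0, 4, 15, 5, 28⟩ :=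
  out_sound (S := T4.ds_mp) T4.ok_mp (w := 32) (j := 1) (by decide +kernel)
theorem L00588 : Good (Phi V4.P V4.D (-1) 1) ⟨2, 0, 1, 0, 3, 1, 4, 15, 5, 28⟩ :=
  out_sound (S := T4.ds_mp) T4.ok_mp (w := 40) (j := 2) (by decide +kernel)
theorem L00589 : Good (Phi V4.P V4.D (-1) 1) ⟨2, 0, 1, 0, 2, 0, 3, 7, 5, 29⟩ :=
  out_sound (S := T4.ds_mp) T4.ok_mp (w := 32) (j := 1) (by decide +kernel)
theorem L00590 : Good (Phi V4.P V4.D (-1) 1) ⟨2, 0, 1, 0, 2, 0, 2, 3, 4, 15⟩ :=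
  out_sound (S := T4.ds_mp) T4.ok_mp (w := 24) (j := 1) (by decide +kernel)
theorem L00591 : Good (Phi V4.P V4.D (-1) 1) ⟨2, 0, 1, 0, 2, 1, 2, 3, 2, 3⟩ :=
  leaf_sound (S := T4.ds_mp) T4.ok_mp (w := 168) (c := ⟨⟨.negSucc 220, .ofNat 8, .negSucc 38, .ofNat 0, .ofNat 118, .ofNat 0⟩, ⟨.negSucc 20, .negSucc 4, .negSucc 112, .ofNat 0, .ofNat 13, .ofNat 0⟩, ⟨.negSucc 98, .ofNat 25, .ofNat 29, .ofNat 0, .negSucc 103, .ofNat 0⟩, ⟨.negSucc 673, .ofNat 97, .negSucc 26, .ofNat 0, .ofNat 301, .ofNat 0⟩, ⟨.negSucc 156, .negSucc 43, .negSucc 0, .ofNat 0, .ofNat 45, .ofNat 0⟩, .ofNat 412, .negSucc 93, .ofNat 0, .negSucc 93, .ofNat 649, .ofNat 0, .ofNat 603, .ofNat 157, .negSucc 470, .ofNat 0, .ofNat 453, .negSucc 88, .ofNat 0, .ofNat 0, .ofNat 1239, .ofNat 121237, .ofNat 0, .ofNat 0, .ofNat 0, .ofNat 0, .ofNat 0, .ofNat 1721072419227929957210363894169600, .ofNat 0,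 .ofNat 0, .ofNat 746653227129134122488417799372800, .ofNat 1342041241967648964165470729011200, .ofNat 0, .ofNat 0, .ofNat 0, .ofNat 1589250494250735566268212969472000, .ofNat 0, .ofNat 0⟩)
    (by decide +kernel)
theorem L00592 : Good (Phi V4.P V4.D (-1) 1) ⟨2, 1, 1, 0, 2, 0, 3, 6, 3, 6⟩ :=
  leaf_sound (S := T4.ds_mp) T4.ok_mp (w := 168) (c := ⟨⟨.negSucc 278, .negSucc 24, .negSucc 24, .ofNat 71, .ofNat 131, .ofNat 7⟩, ⟨.negSucc 39, .ofNat 13, .negSucc 82, .ofNat 8, .ofNat 31, .ofNat 5⟩, ⟨.negSucc 39, .ofNat 37, .ofNat 23, .negSucc 33, .negSucc 121, .ofNat 14⟩, ⟨.negSucc 756, .ofNat 27, .negSucc 24, .ofNat 218, .ofNat 316, .ofNat 20⟩, ⟨.ofNat 0, .negSucc 11, .negSucc 1, .negSucc 197, .ofNat 29, .negSucc 4⟩, .ofNat 379, .negSucc 94, .ofNat 0, .negSucc 94, .ofNat 732, .ofNat 0, .ofNat 321, .ofNat 83, .negSucc 320, .ofNat 0, .ofNat 211, .negSucc 52, .ofNat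 0, .ofNat 0, .ofNat 654, .ofNat 28697, .ofNat 153784274544208828664194793472000, .ofNat 0, .ofNat 0, .ofNat 0, .ofNat 926270047554602585980477951180800, .ofNat 0, .ofNat 0, .ofNat 0, .ofNat 0, .ofNat 0, .ofNat 0, .ofNat 0, .ofNat 0, .ofNat 0, .ofNat 0, .ofNat 0⟩)
    (by decide +kernel)
theorem L00593 : Good (Phi V4.P V4.D (-1) 1) ⟨2, 1, 1, 0, 2, 1, 3, 6, 3, 6⟩ :=
  leaf_sound (S := T4.ds_mp) T4.ok_mp (w := 176) (c := ⟨⟨.negSucc 205, .negSucc 23, .negSucc 58, .ofNat 0, .ofNat 102, .ofNat 28⟩, ⟨.negSucc 23, .ofNat 21, .negSucc 116, .ofNat 0, .ofNat 32, .ofNat 11⟩, ⟨.negSucc 84, .ofNat 55, .ofNat 56, .ofNat 0, .negSucc 102, .negSucc 11⟩, ⟨.negSucc 568, .ofNat 58, .negSucc 49, .ofNat 0, .ofNat 231, .ofNat 63⟩, ⟨.negSucc 200, .negSucc 44, .negSucc 0, .ofNat 0, .ofNat 21, .ofNat 2⟩, .ofNat 381, .negSucc 111, .ofNat 0, .negSucc 111, .ofNat 728, .ofNat 0, .ofNat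 1258, .ofNat 391, .negSucc 1095, .ofNat 0, .ofNat 840, .negSucc 211, .ofNat 0, .ofNat 0, .ofNat 2564, .ofNat 288856, .ofNat 0, .ofNat 0, .ofNat 0, .ofNat 0, .ofNat 0, .ofNat 57089827014837651625797805827686400, .ofNat 0, .ofNat 0, .ofNat 125865078957619582423328307648921600, .ofNat 35725677694138950476797297085644800, .ofNat 0, .ofNat 0, .ofNat 0, .ofNat 49212045144614322790845922462924800, .ofNat 0, .ofNat 0⟩)
    (by decide +kernel)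
theorem L00594 : Good (Phi V4.P V4.D (-1) 1) ⟨2, 1, 1, 0, 1, 0, 3, 7, 3, 6⟩ :=
  leaf_sound (S := T4.ds_mp) T4.ok_mp (w := 160) (c := ⟨⟨.negSucc 199, .ofNat 3, .negSucc 10, .ofNat 259, .ofNat 198, .ofNat 5⟩, ⟨.negSucc 32, .ofNat 12, .negSucc 34, .ofNat 25, .ofNat 40, .ofNat 5⟩, ⟨.negSucc 107, .ofNat 4, .ofNat 10, .negSucc 190, .negSucc 186, .ofNat 18⟩, ⟨.negSucc 524, .ofNat 47, .negSucc 13, .ofNat 717, .ofNat 488, .ofNat 16⟩, ⟨.ofNat 0, .negSucc 8, .negSucc 0, .negSucc 284, .ofNat 13, .ofNat 7⟩, .ofNat 381, .negSucc 106, .ofNat 0, .negSucc 106, .ofNat 729, .ofNat 0, .ofNat 336, .ofNat 98, .negSucc 409, .ofNat 0, .ofNat 224, .negSucc 76, .ofNat 0, .ofNat 0, .ofNat 703, .ofNat 6125, .ofNat 0, .ofNat 0, .ofNat 0, .ofNat 0, .ofNat 0, .ofNat 1681452853703170707327182438400, .ofNat 0, .ofNat 0, .ofNat 0, .ofNat 1383817262531873193444822220800, .ofNat 0, .ofNat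 0, .ofNat 0, .ofNat 1754662183632466500263922892800, .ofNat 0, .ofNat 0⟩)
    (by decide +kernel)
theorem L00595 : Good (Phi V4.P V4.D (-1) 1) ⟨2, 1, 1, 0, 2, 0, 3, 6, 4, 14⟩ :=
  out_sound (S := T4.ds_mp) T4.ok_mp (w := 32) (j := 1) (by decide +kernel)
theorem L00596 : Good (Phi V4.P V4.D (-1) 1) ⟨2, 1, 1, 0, 2, 0, 4, 14, 5, 28⟩ :=
  out_sound (S := T4.ds_mp) T4.ok_mp (w := 32) (j := 1) (by decide +kernel)
theorem L00597 : Good (Phi V4.P V4.D (-1) 1) ⟨2, 1, 1, 0, 3, 0, 4, 15, 5, 28⟩ :=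
  out_sound (S := T4.ds_mp) T4.ok_mp (w := 32) (j := 1) (by decide +kernel)
theorem L00598 : Good (Phi V4.P V4.D (-1) 1) ⟨2, 1, 1, 0, 3, 1, 4, 15, 5, 28⟩ :=
  out_sound (S := T4.ds_mp) T4.ok_mp (w := 40) (j := 2) (by decide +kernel)
theorem L00599 : Good (Phi V4.P V4.D (-1) 1) ⟨2, 1, 1, 0, 2, 0, 3, 7, 5, 29⟩ :=
  out_sound (S := T4.ds_mp) T4.ok_mp (w := 32) (j := 1) (by decide +kernel)
theorem L00600 : Good (Phi V4.P V4.D (-1) 1) ⟨2, 1, 1, 0, 2, 0, 2, 3, 4, 15⟩ :=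
  out_sound (S := T4.ds_mp) T4.ok_mp (w := 24) (j := 1) (by decide +kernel)
theorem L00601 : Good (Phi V4.P V4.D (-1) 1) ⟨2, 1, 1, 0, 2, 1, 2, 3, 3, 7⟩ :=
  out_sound (S := T4.ds_mp) T4.ok_mp (w := 32) (j := 2) (by decide +kernel)
theorem L00602 : Good (Phi V4.P V4.D (-1) 1) ⟨1, 0, 1, 0, 1, 1, 1, 1, 2, 3⟩ :=
  out_sound (S := T4.ds_mp) T4.ok_mp (w := 24) (j := 2) (by decide +kernel)
theorem L00603 : Good (Phi V4.P V4.D (-1) 1) ⟨2, 2, 1, 0, 1, 0, 2, 0, 2, 2⟩ :=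
  leaf_sound (S := T4.ds_mp) T4.ok_mp (w := 192) (c := ⟨⟨.negSucc 700, .negSucc 233, .negSucc 156, .ofNat 0, .ofNat 0, .ofNat 0⟩, ⟨.ofNat 6, .ofNat 63, .negSucc 356, .ofNat 0, .ofNat 0, .ofNat 0⟩, ⟨.ofNat 598, .ofNat 349, .ofNat 212, .ofNat 0, .ofNat 0, .ofNat 0⟩, ⟨.negSucc 1584, .negSucc 155, .negSucc 109, .ofNat 0, .ofNat 0, .ofNat 0⟩, ⟨.negSucc 659, .negSucc 66, .ofNat 69, .ofNat 0, .ofNat 0, .ofNat 0⟩, .ofNat 323, .negSucc 7, .ofNat 0, .negSucc 7, .ofNat 711, .ofNat 0, .ofNat 819, .ofNat 5, .negSucc 490, .ofNat 0, .ofNat 467, .ofNat 78, .ofNat 0, .ofNat 0, .ofNat 1698, .ofNat 117810934574231168, .ofNat 841422135696904404761819901416961579417600, .ofNat 0, .ofNat 0, .ofNat 0, .ofNat 0, .ofNat 0, .ofNat 0, .ofNat 0, .ofNat 0, .ofNat 0, .ofNat 0, .ofNat 0, .ofNat 0, .ofNat 0, .ofNat 0, .ofNat 0⟩)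
    (by decide +kernel)
theorem L00604 : Good (Phi V4.P V4.D (-1) 1) ⟨2, 2, 1, 0, 2, 0, 2, 1, 2, 2⟩ :=
  leaf_sound (S := T4.ds_mp) T4.ok_mp (w := 160) (c := ⟨⟨.negSucc 608, .negSucc 218, .negSucc 27, .negSucc 10, .ofNat 105, .ofNat 132⟩, ⟨.ofNat 2, .ofNat 96, .negSucc 212, .negSucc 18, .ofNat 3, .ofNat 3⟩, ⟨.ofNat 350, .ofNat 249, .ofNat 24, .ofNat 109, .negSucc 191, .negSucc 128⟩, ⟨.negSucc 1363, .negSucc 140, .negSucc 10, .negSucc 14, .ofNat 214, .ofNat 273⟩, ⟨.ofNat 17, .negSucc 0, .ofNat 1, .negSucc 285, .negSucc 1, .negSucc 5⟩, .ofNat 322, .negSucc 11, .ofNat 0, .negSucc 11, .ofNat 700, .ofNat 0, .ofNat 379, .ofNat 13, .negSucc 298, .ofNat 0, .ofNat 223, .ofNat 1, .ofNat 0, .ofNat 0, .ofNat 775, .ofNat 31420, .ofNat 10163728797347043132011288985600, .ofNat 0, .ofNat 5030628095753039040321945600, .ofNat 0, .ofNat 12696931881761691329540967628800,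 .ofNat 0, .ofNat 217419997230737786320139059200, .ofNat 0, .ofNat 69696459317678725463425626931200, .ofNat 0, .ofNat 655180910313256722052310630400, .ofNat 0, .ofNat 165276960502201594356600668160000, .ofNat 0, .ofNat 319810310704998359366211993600, .ofNat 0⟩)
    (by decide +kernel)
theorem L00605 : Good (Phi V4.P V4.D (-1) 1) ⟨2, 2, 1, 0, 2, 1, 2, 1, 2, 2⟩ :=
  leaf_sound (S := T4.ds_mp) T4.ok_mp (w := 160) (c := ⟨⟨.negSucc 655, .negSucc 186, .negSucc 101, .negSucc 60, .ofNat 143, .ofNat 189⟩, ⟨.ofNat 22, .ofNat 53, .negSucc 275, .negSucc 36, .ofNat 0, .negSucc 3⟩, ⟨.ofNat 500, .ofNat 254, .ofNat 112, .ofNat 124, .negSucc 266, .negSucc 158⟩, ⟨.negSucc 1459, .negSucc 115, .negSucc 67, .negSucc 121, .ofNat 291, .ofNat 376⟩, ⟨.negSucc 210, .negSucc 57, .ofNat 7, .negSucc 457, .negSucc 42, .negSucc 13⟩, .ofNat 322, .negSucc 5, .ofNat 0, .negSucc 5, .ofNat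 706, .ofNat 0, .ofNat 389, .ofNat 5, .negSucc 279, .ofNat 0, .ofNat 224, .ofNat 19, .ofNat 0, .ofNat 0, .ofNat 780, .ofNat 11213, .ofNat 3101495520132656661075591168000, .ofNat 0, .ofNat 3291460937290981644750028800, .ofNat 0, .ofNat 0, .ofNat 0, .ofNat 0, .ofNat 0, .ofNat 23315682473566730745630267801600, .ofNat 2442331399991960469400820121600, .ofNat 386793777024269817886015488000, .ofNat 0, .ofNat 0, .ofNat 0, .ofNat 267477724937111320886928998400, .ofNat 0⟩)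
    (by decide +kernel)
theorem L00606 : Good (Phi V4.P V4.D (-1) 1) ⟨2, 2, 1, 0, 1, 1, 1, 0, 2, 2⟩ :=
  leaf_sound (S := T4.ds_mp) T4.ok_mp (w := 152) (c := ⟨⟨.negSucc 873, .negSucc 196, .negSucc 173, .negSucc 150, .ofNat 308, .ofNat 254⟩, ⟨.ofNat 17, .ofNat 39, .negSucc 341, .negSucc 93, .negSucc 6, .negSucc 25⟩, ⟨.ofNat 946, .ofNat 285, .ofNat 208, .ofNat 156, .negSucc 631, .negSucc 273⟩, ⟨.negSucc 1911, .negSucc 128, .negSucc 119, .negSucc 363, .ofNat 619, .ofNat 463⟩, ⟨.negSucc 565, .negSucc 98, .ofNat 61, .negSucc 983, .negSucc 172, .negSucc 92⟩, .ofNat 171, .negSucc 0, .ofNat 0, .negSucc 0, .ofNat 240, .ofNat 0, .ofNat 518, .negSucc 10, .negSucc 496, .ofNat 0, .ofNat 389, .ofNat 121, .ofNat 0, .ofNat 0, .ofNat 976, .ofNat 4623, .ofNat 6798283763256666922313318400, .ofNat 145091500546437224674099200, .ofNat 583585792599870102988800, .ofNat 0, .ofNat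 307079744304696704094751948800, .ofNat 56696570762429623818623385600, .ofNat 32628804477518511577497600, .ofNat 0, .ofNat 0, .ofNat 88415919958844340034338816000, .ofNat 0, .ofNat 0, .ofNat 255891612182201003911466188800, .ofNat 72221998039466794483816857600, .ofNat 47779880295475897801113600, .ofNat 0⟩)
    (by decide +kernel)
theorem L00607 : Good (Phi V4.P V4.D (-1) 1) ⟨2, 2, 1, 0, 1, 0, 1, 0, 2, 3⟩ :=
  out_sound (S := T4.ds_mp) T4.ok_mp (w := 24) (j := 1) (by decide +kernel)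
theorem L00608 : Good (Phi V4.P V4.D (-1) 1) ⟨2, 2, 1, 0, 1, 1, 1, 0, 2, 3⟩ :=
  out_sound (S := T4.ds_mp) T4.ok_mp (w := 24) (j := 2) (by decide +kernel)
theorem L00609 : Good (Phi V4.P V4.D (-1) 1) ⟨2, 3, 1, 0, 0, 0, 1, 0, 1, 1⟩ :=
  out_sound (S := T4.ds_mp) T4.ok_mp (w := 40) (j := 3) (by decide +kernel)
theorem L00610 : Good (Phi V4.P V4.D (-1) 1) ⟨2, 2, 1, 0, 1, 0, 2, 2, 3, 4⟩ :=
  leaf_sound (S := T4.ds_mp) T4.ok_mp (w := 152) (c := ⟨⟨.negSucc 548, .negSucc 176, .negSucc 64, .ofNat 9, .ofNat 202, .ofNat 80⟩, ⟨.ofNat 17, .ofNat 66, .negSucc 198, .negSucc 44, .ofNat 4, .negSucc 1⟩, ⟨.ofNat 207, .ofNat 209, .ofNat 67, .ofNat 129, .negSucc 240, .negSucc 60⟩, ⟨.negSucc 1215, .negSucc 112, .negSucc 33, .ofNat 16, .ofNat 405, .ofNat 157⟩, ⟨.ofNat 26, .negSucc 0, .ofNat 24, .negSucc 707, .ofNat 24, .ofNat 12⟩, .ofNat 321, .negSucc 4, .ofNat 0, .negSucc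 4, .ofNat 703, .ofNat 0, .ofNat 400, .ofNat 6, .negSucc 355, .ofNat 0, .ofNat 232, .ofNat 5, .ofNat 0, .ofNat 0, .ofNat 781, .ofNat 3012, .ofNat 0, .ofNat 0, .ofNat 0, .ofNat 0, .ofNat 0, .ofNat 0, .ofNat 0, .ofNat 0, .ofNat 0, .ofNat 116615075112326624170947379200, .ofNat 11262434067652206662988595200, .ofNat 0, .ofNat 0, .ofNat 0, .ofNat 0, .ofNat 0⟩)
    (by decide +kernel)
theorem L00611 : Good (Phi V4.P V4.D (-1) 1) ⟨2, 2, 1, 0, 2, 0, 3, 4, 3, 5⟩ :=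
  leaf_sound (S := T4.ds_mp) T4.ok_mp (w := 168) (c := ⟨⟨.negSucc 487, .negSucc 183, .negSucc 52, .ofNat 56, .ofNat 80, .ofNat 61⟩, ⟨.ofNat 5, .ofNat 83, .negSucc 164, .negSucc 22, .negSucc 3, .ofNat 0⟩, ⟨.ofNat 154, .ofNat 203, .ofNat 50, .ofNat 33, .negSucc 92, .negSucc 49⟩, ⟨.negSucc 1081, .negSucc 123, .negSucc 45, .ofNat 107, .ofNat 148, .ofNat 118⟩, ⟨.ofNat 11, .negSucc 4, .ofNat 15, .negSucc 288, .ofNat 5, .negSucc 2⟩, .ofNat 170, .ofNat 0, .ofNat 0, .ofNat 0, .ofNat 239, .ofNat 0, .ofNat 445, .ofNat 0, .negSucc 616, .ofNat 0, .ofNat 346, .ofNat 12, .ofNat 0, .ofNat 0, .ofNat 928, .ofNat 29194, .ofNat 157691425217287655076717920256000, .ofNat 0, .ofNat 679222519478908346778727219200, .ofNat 0, .ofNat 0, .ofNat 0, .ofNat 0, .ofNat 0, .ofNat 0, .ofNat 0, .ofNat 0, .ofNat 0, .ofNat 0, .ofNat 0, .ofNat 0, .ofNat 0⟩)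
    (by decide +kernel)
theorem L00612 : Good (Phi V4.P V4.D (-1) 1) ⟨2, 2, 1, 0, 2, 1, 3, 4, 3, 5⟩ :=
  leaf_sound (S := T4.ds_mp) T4.ok_mp (w := 168) (c := ⟨⟨.negSucc 477, .negSucc 110, .negSucc 92, .ofNat 4, .ofNat 105, .ofNat 63⟩, ⟨.ofNat 9, .ofNat 31, .negSucc 196, .negSucc 28, .ofNat 1, .ofNat 3⟩, ⟨.ofNat 224, .ofNat 159, .ofNat 97, .ofNat 60, .negSucc 130, .negSucc 46⟩, ⟨.negSucc 1057, .negSucc 44, .negSucc 69, .ofNat 5, .ofNat 203, .ofNat 141⟩, ⟨.negSucc 260, .negSucc 55, .ofNat 2, .negSucc 440, .ofNat 2, .ofNat 11⟩, .ofNat 171, .negSucc 1, .ofNat 0, .negSucc 1, .ofNat 240, .ofNat 0, .ofNat 455, .ofNat 6, .negSucc 562, .ofNat 0, .ofNat 349, .ofNat 23, .ofNat 0, .ofNat 0, .ofNat 887, .ofNat 12275, .ofNat 99501657847818532705294457241600, .ofNat 0, .ofNat 0, .ofNat 0, .ofNat 0, .ofNat 0, .ofNat 0, .ofNat 0, .ofNat 0, .ofNat 142592355752228277527123066880000,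 .ofNat 0, .ofNat 0, .ofNat 0, .ofNat 0, .ofNat 0, .ofNat 0⟩)
    (by decide +kernel)
theorem L00613 : Good (Phi V4.P V4.D (-1) 1) ⟨2, 2, 1, 0, 2, 0, 3, 5, 3, 5⟩ :=
  leaf_sound (S := T4.ds_mp) T4.ok_mp (w := 168) (c := ⟨⟨.negSucc 452, .negSucc 138, .negSucc 35, .ofNat 105, .ofNat 106, .ofNat 42⟩, ⟨.ofNat 4, .ofNat 61, .negSucc 139, .negSucc 18, .negSucc 0, .ofNat 3⟩, ⟨.ofNat 115, .ofNat 157, .ofNat 32, .negSucc 32, .negSucc 111, .negSucc 22⟩, ⟨.negSucc 1003, .negSucc 88, .negSucc 26, .ofNat 210, .ofNat 212, .ofNat 90⟩, ⟨.ofNat 21, .negSucc 10, .negSucc 3, .negSucc 281, .ofNat 8, .ofNat 0⟩, .ofNat 319, .negSucc 0, .ofNat 0, .negSucc 0, .ofNat 691, .ofNat 0, .ofNat 366, .ofNat 1, .negSucc 352, .ofNat 0, .ofNat 215, .ofNat 1, .ofNat 0, .ofNat 0, .ofNat 720, .ofNat 17114, .ofNat 64435144507374215273041310515200, .ofNat 0, .ofNat 300514220294103846766824652800,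 .ofNat 0, .ofNat 0, .ofNat 0, .ofNat 0, .ofNat 0, .ofNat 162784611410904833234960174284800, .ofNat 0, .ofNat 40001032376552019242918294323200, .ofNat 0, .ofNat 0, .ofNat 0, .ofNat 0, .ofNat 0⟩)
    (by decide +kernel)
theorem L00614 : Good (Phi V4.P V4.D (-1) 1) ⟨2, 2, 1, 0, 2, 1, 3, 5, 3, 5⟩ :=
  leaf_sound (S := T4.ds_mp) T4.ok_mp (w := 168) (c := ⟨⟨.negSucc 405, .negSucc 57, .negSucc 86, .ofNat 33, .ofNat 135, .ofNat 66⟩, ⟨.ofNat 9, .ofNat 23, .negSucc 163, .negSucc 41, .ofNat 2, .negSucc 2⟩, ⟨.ofNat 133, .ofNat 94, .ofNat 86, .ofNat 25, .negSucc 145, .negSucc 46⟩, ⟨.negSucc 892, .ofNat 8, .negSucc 72, .ofNat 85, .ofNat 273, .ofNat 135⟩, ⟨.negSucc 262, .negSucc 53, .ofNat 2, .negSucc 413, .ofNat 15, .ofNat 4⟩, .ofNat 325, .negSucc 17, .ofNat 0, .negSucc 17, .ofNat 705, .ofNat 0, .ofNat 368, .ofNat 20, .negSucc 320, .ofNat 0, .ofNat 214, .negSucc 5,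 .ofNat 0, .ofNat 0, .ofNat 706, .ofNat 10312, .ofNat 0, .ofNat 0, .ofNat 0, .ofNat 0, .ofNat 0, .ofNat 132666486264562526218228020019200, .ofNat 0, .ofNat 0, .ofNat 0, .ofNat 115664213379776903010279279820800, .ofNat 40732129502003973494001578803200, .ofNat 0, .ofNat 0, .ofNat 126731612025710356623710905958400, .ofNat 0, .ofNat 0⟩)
    (by decide +kernel)
theorem L00615 : Good (Phi V4.P V4.D (-1) 1) ⟨2, 2, 1, 0, 2, 0, 2, 2, 2, 3⟩ :=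
  leaf_sound (S := T4.ds_mp) T4.ok_mp (w := 168) (c := ⟨⟨.negSucc 698, .negSucc 78, .negSucc 38, .ofNat 147, .ofNat 349, .ofNat 117⟩, ⟨.ofNat 13, .ofNat 35, .negSucc 128, .negSucc 15, .ofNat 1, .negSucc 27⟩, ⟨.ofNat 367, .ofNat 99, .ofNat 39, .negSucc 80, .negSucc 339, .negSucc 93⟩, ⟨.negSucc 1450, .negSucc 16, .negSucc 27, .ofNat 298, .ofNat 676, .ofNat 163⟩, ⟨.negSucc 79, .negSucc 10, .ofNat 2, .negSucc 260, .ofNat 100, .negSucc 212⟩, .ofNat 321, .negSucc 2, .ofNat 0, .negSucc 2, .ofNat 704, .ofNat 0, .ofNat 350, .ofNat 3, .negSucc 341, .ofNat 0, .ofNat 204, .negSucc 1, .ofNat 0, .ofNat 0, .ofNat 686, .ofNat 84269, .ofNat 133803888293063229494244094771200, .ofNat 0, .ofNat 0, .ofNat 0, .ofNat 915260746125303008405945214566400, .ofNat 0, .ofNat 104515422363305724298552934400, .ofNat 0, .ofNat 274000979885300262766743493017600, .ofNat 0, .ofNat 498103288851862348420349952000,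 .ofNat 0, .ofNat 954784936064600079379423926681600, .ofNat 0, .ofNat 0, .ofNat 0⟩)
    (by decide +kernel)
theorem L00616 : Good (Phi V4.P V4.D (-1) 1) ⟨2, 2, 1, 0, 2, 1, 2, 2, 2, 3⟩ :=
  leaf_sound (S := T4.ds_mp) T4.ok_mp (w := 160) (c := ⟨⟨.negSucc 491, .negSucc 27, .negSucc 76, .ofNat 38, .ofNat 270, .ofNat 118⟩, ⟨.negSucc 8, .ofNat 9, .negSucc 135, .negSucc 8, .ofNat 16, .ofNat 19⟩, ⟨.ofNat 239, .ofNat 59, .ofNat 79, .ofNat 15, .negSucc 278, .negSucc 85⟩, ⟨.negSucc 1063, .ofNat 40, .negSucc 67, .ofNat 101, .ofNat 558, .ofNat 233⟩, ⟨.negSucc 304, .negSucc 45, .ofNat 2, .negSucc 336, .ofNat 58, .ofNat 0⟩, .ofNat 172, .negSucc 2, .ofNat 0, .negSucc 2, .ofNat 240, .ofNat 0, .ofNat 876, .ofNat 21, .negSucc 1362, .ofNat 0, .ofNat 677, .negSucc 25, .ofNat 0, .ofNat 0, .ofNat 1840, .ofNat 17571, .ofNat 45875340075931464003226907443200, .ofNat 0, .ofNat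 0, .ofNat 0, .ofNat 375786757658982734656786818662400, .ofNat 0, .ofNat 0, .ofNat 0, .ofNat 263832883785899581542830073446400, .ofNat 84443062682982474648627078758400, .ofNat 0, .ofNat 0, .ofNat 500351519529200484338152085913600, .ofNat 0, .ofNat 0, .ofNat 0⟩)
    (by decide +kernel)
theorem L00617 : Good (Phi V4.P V4.D (-1) 1) ⟨3, 4, 1, 0, 2, 0, 3, 6, 2, 2⟩ :=
  leaf_sound (S := T4.ds_mp) T4.ok_mp (w := 168) (c := ⟨⟨.negSucc 440, .negSucc 22, .negSucc 44, .ofNat 116, .ofNat 177, .ofNat 102⟩, ⟨.negSucc 1, .ofNat 13, .negSucc 112, .negSucc 5, .ofNat 16, .ofNat 6⟩, ⟨.ofNat 72, .ofNat 31, .ofNat 43, .negSucc 52, .negSucc 175, .negSucc 47⟩, ⟨.negSucc 962, .ofNat 8, .negSucc 52, .ofNat 263, .ofNat 367, .ofNat 206⟩, ⟨.ofNat 13, .negSucc 12, .negSucc 3, .negSucc 250, .ofNat 23, .ofNat 8⟩, .ofNat 333, .negSucc 43, .ofNat 0, .negSucc 43, .ofNat 717, .ofNat 0,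 .ofNat 395, .ofNat 50, .negSucc 445, .ofNat 0, .ofNat 235, .negSucc 33, .ofNat 0, .ofNat 0, .ofNat 787, .ofNat 5653, .ofNat 0, .ofNat 0, .ofNat 2181163965176463249899520000, .ofNat 0, .ofNat 0, .ofNat 0, .ofNat 0, .ofNat 0, .ofNat 0, .ofNat 0, .ofNat 0, .ofNat 0, .ofNat 0, .ofNat 0, .ofNat 0, .ofNat 0⟩)
    (by decide +kernel)
theorem L00618 : Good (Phi V4.P V4.D (-1) 1) ⟨3, 4, 1, 0, 2, 1, 3, 6, 2, 2⟩ :=
  leaf_sound (S := T4.ds_mp) T4.ok_mp (w := 168) (c := ⟨⟨.negSucc 343, .negSucc 13, .negSucc 104, .ofNat 6, .ofNat 209, .ofNat 136⟩, ⟨.ofNat 0, .ofNat 4, .negSucc 138, .negSucc 28, .ofNat 27, .ofNat 12⟩, ⟨.ofNat 34, .ofNat 32, .ofNat 107, .ofNat 41, .negSucc 209, .negSucc 86⟩, ⟨.negSucc 763, .ofNat 24, .negSucc 108, .ofNat 37, .ofNat 427, .ofNat 281⟩, ⟨.negSucc 252, .negSucc 26, .negSucc 0, .negSucc 405, .ofNat 38, .ofNat 8⟩, .ofNat 332, .negSucc 39,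 .ofNat 0, .negSucc 39, .ofNat 720, .ofNat 0, .ofNat 824, .ofNat 97, .negSucc 845, .ofNat 0, .ofNat 479, .negSucc 55, .ofNat 0, .ofNat 0, .ofNat 1567, .ofNat 20616, .ofNat 0, .ofNat 0, .ofNat 0, .ofNat 0, .ofNat 0, .ofNat 3453303471238141479825967153152000, .ofNat 0, .ofNat 0, .ofNat 0, .ofNat 1526334541035803102967542002483200, .ofNat 3484941636601996058633542041600, .ofNat 0, .ofNat 0, .ofNat 3023783341978068173756235880857600, .ofNat 0, .ofNat 0⟩)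
    (by decide +kernel)
theorem L00619 : Good (Phi V4.P V4.D (-1) 1) ⟨3, 5, 2, 0, 1, 0, 3, 6, 2, 2⟩ :=
  leaf_sound (S := T4.ds_mp) T4.ok_mp (w := 160) (c := ⟨⟨.negSucc 569, .negSucc 3, .negSucc 15, .ofNat 361, .ofNat 218, .ofNat 146⟩, ⟨.ofNat 56, .ofNat 8, .negSucc 65, .negSucc 78, .negSucc 14, .negSucc 8⟩, ⟨.ofNat 201, .ofNat 15, .ofNat 18, .negSucc 219, .negSucc 216, .negSucc 90⟩, ⟨.negSucc 1094, .ofNat 46, .negSucc 9, .ofNat 627, .ofNat 415, .ofNat 278⟩, ⟨.negSucc 5, .ofNat 5, .ofNat 9, .negSucc 604, .ofNat 38, .ofNat 34⟩, .ofNat 411, .ofNat 97, .ofNat 0, .ofNat 97, .ofNat 1384, .ofNat 0, .ofNat 392, .negSucc 64, .negSucc 423, .ofNat 0, .ofNat 187, .ofNat 32, .ofNat 0, .ofNat 0, .ofNat 775, .ofNat 3438, .ofNat 0, .ofNat 0, .ofNat 9753806684973266413977600, .ofNat 0, .ofNat 0, .ofNat 8607498999152866009191913881600, .ofNat 0, .ofNat 0, .ofNat 0, .ofNat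 8267391576971109275522826240000, .ofNat 3358031763980644442859110400, .ofNat 0, .ofNat 0, .ofNat 0, .ofNat 0, .ofNat 0⟩)
    (by decide +kernel)
theorem L00620 : Good (Phi V4.P V4.D (-1) 1) ⟨3, 5, 2, 1, 1, 0, 3, 6, 2, 2⟩ :=
  out_sound (S := T4.ds_mp) T4.ok_mp (w := 48) (j := 3) (by decide +kernel)
theorem L00621 : Good (Phi V4.P V4.D (-1) 1) ⟨3, 4, 1, 0, 2, 0, 3, 6, 3, 6⟩ :=
  leaf_sound (S := T4.ds_mp) T4.ok_mp (w := 176) (c := ⟨⟨.negSucc 393, .negSucc 26, .negSucc 12, .ofNat 192, .ofNat 167, .ofNat 24⟩, ⟨.negSucc 21, .ofNat 12, .negSucc 84, .ofNat 13, .ofNat 25, .ofNat 2⟩, ⟨.ofNat 80, .ofNat 31, .ofNat 11, .negSucc 136, .negSucc 159, .negSucc 3⟩, ⟨.negSucc 869, .negSucc 4, .ofNat 1, .ofNat 424, .ofNat 355, .ofNat 48⟩, ⟨.negSucc 8, .negSucc 1, .ofNat 5, .negSucc 213, .ofNat 23, .ofNat 7⟩, .ofNat 333, .negSucc 41, .ofNat 0, .negSucc 41, .ofNat 719,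 .ofNat 0, .ofNat 351, .ofNat 42, .negSucc 396, .ofNat 0, .ofNat 209, .negSucc 29, .ofNat 0, .ofNat 0, .ofNat 705, .ofNat 26579, .ofNat 3080316452395696436970323863142400, .ofNat 0, .ofNat 0, .ofNat 0, .ofNat 0, .ofNat 0, .ofNat 0, .ofNat 0, .ofNat 0, .ofNat 0, .ofNat 0, .ofNat 0, .ofNat 0, .ofNat 0, .ofNat 0, .ofNat 0⟩)
    (by decide +kernel)
theorem L00622 : Good (Phi V4.P V4.D (-1) 1) ⟨3, 4, 1, 0, 2, 1, 3, 6, 3, 6⟩ :=
  leaf_sound (S := T4.ds_mp) T4.ok_mp (w := 176) (c := ⟨⟨.negSucc 223, .negSucc 8, .negSucc 74, .ofNat 0, .ofNat 118, .ofNat 36⟩, ⟨.ofNat 1, .ofNat 9, .negSucc 118, .ofNat 0, .ofNat 18, .ofNat 5⟩, ⟨.negSucc 37, .ofNat 23, .ofNat 77, .ofNat 0, .negSucc 119, .negSucc 19⟩, ⟨.negSucc 504, .ofNat 28, .negSucc 66, .ofNat 0, .ofNat 250, .ofNat 76⟩, ⟨.negSucc 246, .negSucc 22, .negSucc 0, .ofNat 0, .ofNat 17, .ofNat 1⟩, .ofNat 332, .negSucc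 36, .ofNat 0, .negSucc 36, .ofNat 724, .ofNat 0, .ofNat 2788, .ofNat 301, .negSucc 2601, .ofNat 0, .ofNat 1629, .negSucc 172, .ofNat 0, .ofNat 0, .ofNat 5378, .ofNat 803579, .ofNat 0, .ofNat 0, .ofNat 0, .ofNat 0, .ofNat 0, .ofNat 4603100590642171577349817649804083200, .ofNat 0, .ofNat 0, .ofNat 2974492746248955812944675052558745600, .ofNat 1784677563232331803360257371642265600, .ofNat 1321949649351900472605427315507200, .ofNat 0, .ofNat 0, .ofNat 3384167992633784980856852381800857600, .ofNat 0, .ofNat 0⟩)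
    (by decide +kernel)
theorem L00623 : Good (Phi V4.P V4.D (-1) 1) ⟨3, 5, 1, 0, 1, 0, 3, 6, 3, 6⟩ :=
  leaf_sound (S := T4.ds_mp) T4.ok_mp (w := 160) (c := ⟨⟨.negSucc 492, .negSucc 35, .negSucc 41, .ofNat 601, .ofNat 209, .ofNat 36⟩, ⟨.ofNat 43, .ofNat 19, .negSucc 79, .negSucc 89, .negSucc 13, .negSucc 5⟩, ⟨.ofNat 179, .ofNat 42, .ofNat 42, .negSucc 464, .negSucc 203, .negSucc 14⟩, ⟨.negSucc 948, .negSucc 10, .negSucc 37, .ofNat 1085, .ofNat 395, .ofNat 63⟩, ⟨.negSucc 7, .ofNat 2, .ofNat 8, .negSucc 486, .ofNat 32, .negSucc 1⟩, .ofNat 309, .ofNat 35, .ofNat 0, .ofNat 35, .ofNat 664, .ofNat 0, .ofNat 368, .negSucc 38, .negSucc 448, .ofNat 0, .ofNat 220, .ofNat 26, .ofNat 0, .ofNat 0, .ofNat 744, .ofNat 8739, .ofNat 9423965493200336174546367283200, .ofNat 0, .ofNat 209014608182929409153433600, .ofNat 0, .ofNat 976923034225643905003133337600, .ofNat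 10583518270185316216093645209600, .ofNat 0, .ofNat 0, .ofNat 190001764800960780838728263270400, .ofNat 10485572348628391881100964659200, .ofNat 53056186545903988240495411200, .ofNat 0, .ofNat 0, .ofNat 11118508127525286366468164812800, .ofNat 12595117379419512624277094400, .ofNat 0⟩)
    (by decide +kernel)
theorem L00624 : Good (Phi V4.P V4.D (-1) 1) ⟨2, 2, 1, 0, 2, 0, 3, 6, 3, 7⟩ :=
  out_sound (S := T4.ds_mp) T4.ok_mp (w := 24) (j := 1) (by decide +kernel)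
theorem L00625 : Good (Phi V4.P V4.D (-1) 1) ⟨2, 2, 1, 0, 2, 1, 3, 6, 3, 7⟩ :=
  out_sound (S := T4.ds_mp) T4.ok_mp (w := 32) (j := 2) (by decide +kernel)
theorem L00626 : Good (Phi V4.P V4.D (-1) 1) ⟨3, 4, 1, 0, 1, 0, 3, 7, 2, 2⟩ :=
  leaf_sound (S := T4.ds_mp) T4.ok_mp (w := 160) (c := ⟨⟨.negSucc 280, .negSucc 20, .negSucc 38, .ofNat 355, .ofNat 313, .ofNat 46⟩, ⟨.negSucc 8, .ofNat 1, .negSucc 43, .negSucc 2, .ofNat 27, .ofNat 6⟩, ⟨.negSucc 87, .ofNat 28, .ofNat 38, .negSucc 231, .negSucc 305, .ofNat 15⟩, ⟨.negSucc 613, .negSucc 19, .negSucc 52, .ofNat 781, .ofNat 652, .ofNat 97⟩, ⟨.ofNat 10, .negSucc 13, .negSucc 8, .negSucc 384, .ofNat 28, .ofNat 4⟩, .ofNat 331, .negSucc 29, .ofNat 0, .negSucc 29, .ofNat 731, .ofNat 0, .ofNat 427, .ofNat 37, .negSucc 609, .ofNat 0, .ofNat 248, .negSucc 33, .ofNat 0, .ofNat 0, .ofNat 899, .ofNat 2130, .ofNat 0, .ofNat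 0, .ofNat 0, .ofNat 0, .ofNat 0, .ofNat 6268432406366090684745016934400, .ofNat 0, .ofNat 0, .ofNat 0, .ofNat 2944499027123267896357158912000, .ofNat 0, .ofNat 0, .ofNat 0, .ofNat 6334182869193980397570804940800, .ofNat 0, .ofNat 0⟩)
    (by decide +kernel)
theorem L00627 : Good (Phi V4.P V4.D (-1) 1) ⟨3, 5, 1, 0, 1, 0, 3, 7, 2, 2⟩ :=
  leaf_sound (S := T4.ds_mp) T4.ok_mp (w := 160) (c := ⟨⟨.negSucc 410, .ofNat 6, .negSucc 27, .ofNat 648, .ofNat 404, .ofNat 110⟩, ⟨.ofNat 32, .ofNat 0, .negSucc 36, .negSucc 79, .negSucc 24, .negSucc 5⟩, ⟨.ofNat 40, .ofNat 1, .ofNat 31, .negSucc 496, .negSucc 393, .negSucc 48⟩, ⟨.negSucc 778, .ofNat 21, .negSucc 38, .ofNat 1183, .ofNat 765, .ofNat 208⟩, ⟨.negSucc 1, .negSucc 5, .ofNat 0, .negSucc 425, .ofNat 26, .ofNat 24⟩, .ofNat 411, .ofNat 90, .ofNat 0, .ofNat 90, .ofNat 1404, .ofNat 0, .ofNat 417, .negSucc 63, .negSucc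 567, .ofNat 0, .ofNat 197, .ofNat 38, .ofNat 0, .ofNat 0, .ofNat 866, .ofNat 1373, .ofNat 0, .ofNat 3549322614441746907109785600, .ofNat 6313460703161070458880000, .ofNat 0, .ofNat 0, .ofNat 5067861257841781949580548505600, .ofNat 0, .ofNat 0, .ofNat 0, .ofNat 736657021516132781263945728000, .ofNat 3112182849356338977098956800, .ofNat 0, .ofNat 0, .ofNat 5517404749572549802524986572800, .ofNat 1783030198703367090968985600, .ofNat 0⟩)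
    (by decide +kernel)
theorem L00628 : Good (Phi V4.P V4.D (-1) 1) ⟨3, 4, 1, 0, 1, 0, 3, 7, 2, 3⟩ :=
  leaf_sound (S := T4.ds_mp) T4.ok_mp (w := 160) (c := ⟨⟨.negSucc 276, .ofNat 1, .negSucc 15, .ofNat 584, .ofNat 267, .ofNat 47⟩, ⟨.negSucc 11, .ofNat 1, .negSucc 30, .ofNat 24, .ofNat 20, .ofNat 12⟩, ⟨.negSucc 28, .ofNat 3, .ofNat 15, .negSucc 481, .negSucc 255, .negSucc 2⟩, ⟨.negSucc 592, .ofNat 14, .negSucc 14, .ofNat 1249, .ofNat 564, .ofNat 91⟩, ⟨.ofNat 0, .negSucc 6, .ofNat 2, .negSucc 323, .ofNat 10, .ofNat 19⟩, .ofNat 331, .negSucc 26, .ofNat 0, .negSucc 26, .ofNat 739, .ofNat 0, .ofNat 371, .ofNat 29, .negSucc 514, .ofNat 0, .ofNat 214, .negSucc 25, .ofNat 0, .ofNat 0, .ofNat 778, .ofNat 3809, .ofNat 557356233048171239602284134400, .ofNat 0, .ofNat 0, .ofNat 0, .ofNat 0, .ofNat 6291034025299339674292479590400, .ofNat 0, .ofNat 0, .ofNat 0,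 .ofNat 3111105335280067113340266086400, .ofNat 0, .ofNat 0, .ofNat 0, .ofNat 7896924820941596955218490163200, .ofNat 0, .ofNat 0⟩)
    (by decide +kernel)
theorem L00629 : Good (Phi V4.P V4.D (-1) 1) ⟨3, 5, 1, 0, 2, 0, 3, 7, 2, 3⟩ :=
  leaf_sound (S := T4.ds_mp) T4.ok_mp (w := 168) (c := ⟨⟨.negSucc 386, .ofNat 36, .negSucc 46, .ofNat 495, .ofNat 377, .ofNat 75⟩, ⟨.ofNat 32, .negSucc 5, .negSucc 17, .negSucc 48, .negSucc 27, .negSucc 8⟩, ⟨.ofNat 80, .negSucc 30, .ofNat 47, .negSucc 432, .negSucc 364, .negSucc 29⟩, ⟨.negSucc 731, .ofNat 73, .negSucc 67, .ofNat 921, .ofNat 712, .ofNat 133⟩, ⟨.negSucc 1, .negSucc 1, .ofNat 2, .negSucc 170, .ofNat 23, .negSucc 0⟩, .ofNat 412, .ofNat 87, .ofNat 0, .ofNat 87, .ofNat 1424, .ofNat 0, .ofNat 362, .negSucc 52, .negSucc 472, .ofNat 0, .ofNat 170, .ofNat 30, .ofNat 0, .ofNat 0, .ofNat 747, .ofNat 4291, .ofNat 109970383241379773259832098816000,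 .ofNat 0, .ofNat 4034370655667606036624179200, .ofNat 0, .ofNat 2986561589807033450286932400537600, .ofNat 958269825140576542080305725440000, .ofNat 556640721111488476745406873600, .ofNat 0, .ofNat 1337037850312636645402667384832000, .ofNat 90565347866807714907891223756800, .ofNat 1992135936553846365638098944000, .ofNat 0, .ofNat 2936082501846532211158622719180800, .ofNat 910876504073685857899368991948800, .ofNat 823375892031332621463060480000, .ofNat 0⟩)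
    (by decide +kernel)
theorem L00630 : Good (Phi V4.P V4.D (-1) 1) ⟨3, 5, 1, 0, 2, 1, 3, 7, 2, 3⟩ :=
  out_sound (S := T4.ds_mp) T4.ok_mp (w := 32) (j := 2) (by decide +kernel)
theorem L00631 : Good (Phi V4.P V4.D (-1) 1) ⟨2, 3, 1, 0, 1, 0, 1, 1, 1, 1⟩ :=
  out_sound (S := T4.ds_mp) T4.ok_mp (w := 40) (j := 3) (by decide +kernel)
theorem L00632 : Good (Phi V4.P V4.D (-1) 1) ⟨1, 1, 1, 0, 1, 1, 1, 1, 1, 1⟩ :=
  leaf_sound (S := T4.ds_mp) T4.ok_mp (w := 144) (c := ⟨⟨.negSucc 571, .negSucc 296, .negSucc 184, .ofNat 0, .ofNat 0, .ofNat 0⟩, ⟨.ofNat 12, .ofNat 23, .negSucc 320, .ofNat 0, .ofNat 0, .ofNat 0⟩, ⟨.ofNat 342, .ofNat 410, .ofNat 198, .ofNat 0, .ofNat 0, .ofNat 0⟩, ⟨.negSucc 1288, .negSucc 177, .negSucc 141, .ofNat 0, .ofNat 0, .ofNat 0⟩, ⟨.negSucc 721, .negSucc 254, .ofNat 46, .ofNat 0, .ofNat 0, .ofNat 0⟩, .ofNat 171, .negSucc 0, .ofNat 0, .negSucc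 0, .ofNat 239, .ofNat 0, .ofNat 2239, .negSucc 22, .negSucc 2660, .ofNat 0, .ofNat 1644, .ofNat 416, .ofNat 0, .ofNat 0, .ofNat 4126, .ofNat 23247, .ofNat 315640853287171891317964800, .ofNat 2851430423982365447553024000, .ofNat 733711699608995873894400, .ofNat 0, .ofNat 0, .ofNat 280219137863985161308628582400, .ofNat 666327438663175225265356800, .ofNat 0, .ofNat 0, .ofNat 283764515190578267383922688000, .ofNat 805037142385109606753894400, .ofNat 0, .ofNat 0, .ofNat 559798031294003490298055884800, .ofNat 620289064747070017870233600, .ofNat 0⟩)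
    (by decide +kernel)
theorem L00633 : Good (Phi V4.P V4.D (-1) 1) ⟨2, 0, 2, 2, 1, 0, 1, 0, 3, 4⟩ :=
  leaf_sound (S := T4.ds_mp) T4.ok_mp (w := 152) (c := ⟨⟨.negSucc 478, .negSucc 64, .negSucc 18, .negSucc 177, .ofNat 170, .ofNat 45⟩, ⟨.negSucc 262, .negSucc 26, .negSucc 97, .negSucc 108, .ofNat 96, .ofNat 25⟩, ⟨.ofNat 257, .ofNat 112, .ofNat 9, .ofNat 167, .negSucc 310, .negSucc 46⟩, ⟨.negSucc 1467, .negSucc 39, .ofNat 5, .negSucc 225, .ofNat 468, .ofNat 123⟩, ⟨.negSucc 3, .negSucc 20, .negSucc 11, .negSucc 516, .ofNat 24, .ofNat 12⟩, .ofNat 2962, .negSucc 4189, .ofNat 0, .negSucc 4189, .ofNat 7816, .ofNat 0, .ofNat 126, .ofNat 266, .negSucc 145, .ofNat 0, .ofNat 178, .negSucc 77, .ofNat 0, .ofNat 0, .ofNat 699, .ofNat 9536, .ofNat 60480313344547559307214848000, .ofNat 0, .ofNat 6872259454029797481676800, .ofNat 0, .ofNat 0, .ofNat 0, .ofNat 0, .ofNat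 0, .ofNat 0, .ofNat 0, .ofNat 711029755502592126772838400, .ofNat 0, .ofNat 4566274835516033143099568947200, .ofNat 0, .ofNat 1460599881446903938390425600, .ofNat 0⟩)
    (by decide +kernel)
theorem L00634 : Good (Phi V4.P V4.D (-1) 1) ⟨2, 0, 2, 2, 1, 0, 1, 0, 3, 5⟩ :=
  leaf_sound (S := T4.ds_mp) T4.ok_mp (w := 160) (c := ⟨⟨.negSucc 429, .negSucc 57, .negSucc 25, .negSucc 184, .ofNat 168, .ofNat 43⟩, ⟨.negSucc 222, .negSucc 22, .negSucc 90, .negSucc 115, .ofNat 82, .ofNat 26⟩, ⟨.ofNat 101, .ofNat 132, .ofNat 9, .ofNat 177, .negSucc 212, .negSucc 33⟩, ⟨.negSucc 1315, .negSucc 4, .negSucc 8, .negSucc 250, .ofNat 433, .ofNat 122⟩, ⟨.negSucc 19, .negSucc 54, .ofNat 14, .negSucc 524, .ofNat 80, .ofNat 11⟩, .ofNat 896, .negSucc 760, .ofNat 0, .negSucc 760, .ofNat 1781, .ofNat 0, .ofNat 198, .ofNat 207, .negSucc 142, .ofNat 0, .ofNat 190, .negSucc 63, .ofNat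 0, .ofNat 0, .ofNat 668, .ofNat 38321, .ofNat 773851976685341466421100544000, .ofNat 0, .ofNat 71720285245471347808665600, .ofNat 0, .ofNat 5914226677821087388852341964800, .ofNat 0, .ofNat 0, .ofNat 0, .ofNat 4192374415698119979514095206400, .ofNat 0, .ofNat 0, .ofNat 0, .ofNat 8906610290730286214034122342400, .ofNat 0, .ofNat 0, .ofNat 0⟩)
    (by decide +kernel)
theorem L00635 : Good (Phi V4.P V4.D (-1) 1) ⟨2, 0, 2, 2, 1, 1, 1, 0, 2, 2⟩ :=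
  leaf_sound (S := T4.ds_mp) T4.ok_mp (w := 152) (c := ⟨⟨.negSucc 626, .negSucc 106, .negSucc 47, .negSucc 252, .ofNat 147, .ofNat 114⟩, ⟨.negSucc 354, .negSucc 40, .negSucc 136, .negSucc 152, .ofNat 78, .ofNat 65⟩, ⟨.ofNat 368, .ofNat 234, .ofNat 57, .ofNat 238, .negSucc 333, .negSucc 168⟩, ⟨.negSucc 1712, .negSucc 54, .negSucc 23, .negSucc 475, .ofNat 441, .ofNat 329⟩, ⟨.negSucc 421, .negSucc 105, .ofNat 23, .negSucc 467, .negSucc 43, .negSucc 4⟩, .ofNat 897, .negSucc 766, .ofNat 0, .negSucc 766, .ofNat 1794, .ofNat 0, .ofNat 223, .ofNat 235, .negSucc 132, .ofNat 0, .ofNat 213, .negSucc 49, .ofNat 0, .ofNat 0, .ofNat 790, .ofNat 8333, .ofNat 20714825163879058487692492800, .ofNat 6501754220088524453550489600, .ofNat 872649794721961429401600, .ofNat 0, .ofNat 0, .ofNat 254240798577010287971401728000, .ofNat 0, .ofNat 0, .ofNat 0, .ofNat 209322047718395208583977369600,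 .ofNat 0, .ofNat 0, .ofNat 1726613037193513911764543078400, .ofNat 302678605765086550411758796800, .ofNat 48671412131886446680473600, .ofNat 0⟩)
    (by decide +kernel)
theorem L00636 : Good (Phi V4.P V4.D (-1) 1) ⟨2, 0, 2, 2, 1, 0, 1, 0, 2, 3⟩ :=
  out_sound (S := T4.ds_mp) T4.ok_mp (w := 24) (j := 1) (by decide +kernel)
theorem L00637 : Good (Phi V4.P V4.D (-1) 1) ⟨2, 0, 2, 2, 1, 1, 1, 0, 2, 3⟩ :=
  out_sound (S := T4.ds_mp) T4.ok_mp (w := 24) (j := 2) (by decide +kernel)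
theorem L00638 : Good (Phi V4.P V4.D (-1) 1) ⟨2, 0, 3, 4, 2, 0, 2, 2, 3, 4⟩ :=
  leaf_sound (S := T4.ds_mp) T4.ok_mp (w := 168) (c := ⟨⟨.negSucc 334, .negSucc 42, .negSucc 4, .negSucc 60, .ofNat 112, .ofNat 26⟩, ⟨.negSucc 182, .negSucc 15, .negSucc 37, .negSucc 37, .ofNat 62, .ofNat 14⟩, ⟨.negSucc 22, .ofNat 61, .ofNat 4, .ofNat 69, .negSucc 128, .negSucc 7⟩, ⟨.negSucc 1041, .negSucc 4, .negSucc 0, .negSucc 47, .ofNat 307, .ofNat 72⟩, ⟨.negSucc 2, .negSucc 14, .negSucc 0, .negSucc 224, .ofNat 22, .ofNat 10⟩, .ofNat 456, .negSucc 207, .ofNat 0, .negSucc 207, .ofNat 697, .ofNat 0, .ofNat 303, .ofNat 172, .negSucc 260, .ofNat 0, .ofNat 262, .negSucc 92, .ofNat 0, .ofNat 0, .ofNat 714, .ofNat 25972, .ofNat 0, .ofNat 0, .ofNat 0, .ofNat 0, .ofNat 0, .ofNat 0, .ofNat 7363463790084643000847381299200, .ofNat 0, .ofNat 0, .ofNat 0, .ofNat 0, .ofNat 0, .ofNat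 0, .ofNat 0, .ofNat 0, .ofNat 0⟩)
    (by decide +kernel)
theorem L00639 : Good (Phi V4.P V4.D (-1) 1) ⟨2, 0, 3, 4, 3, 0, 2, 2, 4, 10⟩ :=
  leaf_sound (S := T4.ds_mp) T4.ok_mp (w := 184) (c := ⟨⟨.negSucc 315, .negSucc 39, .negSucc 5, .negSucc 17, .ofNat 104, .ofNat 10⟩, ⟨.negSucc 169, .negSucc 16, .negSucc 36, .negSucc 11, .ofNat 57, .ofNat 5⟩, ⟨.negSucc 27, .ofNat 49, .ofNat 2, .ofNat 22, .negSucc 103, .negSucc 0⟩, ⟨.negSucc 969, .negSucc 20, .negSucc 7, .ofNat 4, .ofNat 292, .ofNat 26⟩, ⟨.negSucc 4, .negSucc 1, .negSucc 3, .negSucc 99, .ofNat 12, .ofNat 1⟩, .ofNat 889, .negSucc 750, .ofNat 0, .negSucc 750, .ofNat 1773, .ofNat 0, .ofNat 202, .ofNat 208, .negSucc 188, .ofNat 0, .ofNat 193, .negSucc 88, .ofNat 0, .ofNat 0, .ofNat 633, .ofNat 88572, .ofNat 374686452075612609358302369388953600, .ofNat 0, .ofNat 1619418861224537943346784501760000, .ofNat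 0, .ofNat 0, .ofNat 0, .ofNat 108296597518511119231933830345523200, .ofNat 0, .ofNat 0, .ofNat 0, .ofNat 90506482118197862566867592911257600, .ofNat 0, .ofNat 0, .ofNat 0, .ofNat 0, .ofNat 0⟩)
    (by decide +kernel)
theorem L00640 : Good (Phi V4.P V4.D (-1) 1) ⟨2, 0, 3, 4, 3, 0, 3, 4, 4, 11⟩ :=
  leaf_sound (S := T4.ds_mp) T4.ok_mp (w := 192) (c := ⟨⟨.negSucc 278, .negSucc 37, .negSucc 1, .negSucc 23, .ofNat 26, .ofNat 0⟩, ⟨.negSucc 147, .negSucc 13, .negSucc 35, .negSucc 15, .ofNat 12, .ofNat 0⟩, ⟨.negSucc 60, .ofNat 56, .ofNat 1, .ofNat 27, .negSucc 27, .ofNat 0⟩, ⟨.negSucc 860, .negSucc 6, .negSucc 0, .negSucc 12, .ofNat 61, .ofNat 0⟩, ⟨.negSucc 1, .negSucc 5, .ofNat 0, .negSucc 104, .ofNat 10, .ofNat 0⟩, .ofNat 194, .negSucc 32, .ofNat 0, .negSucc 32, .ofNat 233, .ofNat 0, .ofNat 395, .ofNat 91, .negSucc 484, .ofNat 0, .ofNat 354, .negSucc 86, .ofNat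 0, .ofNat 0, .ofNat 820, .ofNat 5212979, .ofNat 212930835903182491446200104617246720000, .ofNat 0, .ofNat 1094369325099586482915974778244300800, .ofNat 0, .ofNat 568925815636366034991431162297057280000, .ofNat 0, .ofNat 0, .ofNat 0, .ofNat 0, .ofNat 0, .ofNat 0, .ofNat 0, .ofNat 730133143083712139233345666364001484800, .ofNat 0, .ofNat 0, .ofNat 0⟩)
    (by decide +kernel)
theorem L00641 : Good (Phi V4.P V4.D (-1) 1) ⟨2, 0, 3, 4, 4, 0, 3, 5, 4, 11⟩ :=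
  leaf_sound (S := T4.ds_mp) T4.ok_mp (w := 200) (c := ⟨⟨.negSucc 262, .negSucc 34, .negSucc 0, .negSucc 4, .ofNat 55, .ofNat 8⟩, ⟨.negSucc 141, .negSucc 14, .negSucc 29, .negSucc 3, .ofNat 30, .ofNat 5⟩, ⟨.negSucc 71, .ofNat 40, .ofNat 0, .ofNat 7, .negSucc 49, .ofNat 3⟩, ⟨.negSucc 812, .negSucc 19, .negSucc 1, .ofNat 11, .ofNat 156, .ofNat 22⟩, ⟨.negSucc 1, .negSucc 0, .ofNat 0, .negSucc 43, .ofNat 4, .ofNat 1⟩, .ofNat 455, .negSucc 204, .ofNat 0, .negSucc 204, .ofNat 694, .ofNat 0, .ofNat 272, .ofNat 151, .negSucc 244, .ofNat 0, .ofNat 235, .negSucc 89, .ofNat 0, .ofNat 0, .ofNat 639, .ofNat 233408, .ofNat 788740333994085713750859495188830617600, .ofNat 0, .ofNat 12841466864832329055370699517145907200, .ofNat 0, .ofNat 1147018894782053756868866458973424844800, .ofNat 0, .ofNat 355013517191651164514889282842158694400, .ofNat 0, .ofNat 0, .ofNat 0,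 .ofNat 0, .ofNat 0, .ofNat 0, .ofNat 0, .ofNat 0, .ofNat 0⟩)
    (by decide +kernel)
theorem L00642 : Good (Phi V4.P V4.D (-1) 1) ⟨2, 0, 3, 4, 4, 1, 4, 10, 5, 22⟩ :=
  leaf_sound (S := T4.ds_mp) T4.ok_mp (w := 208) (c := ⟨⟨.negSucc 268, .negSucc 33, .negSucc 1, .negSucc 9, .ofNat 26, .ofNat 5⟩, ⟨.negSucc 146, .negSucc 12, .negSucc 32, .negSucc 5, .ofNat 14, .ofNat 3⟩, ⟨.negSucc 68, .ofNat 48, .ofNat 1, .ofNat 12, .negSucc 23, .ofNat 0⟩, ⟨.negSucc 812, .negSucc 5, .ofNat 0, .ofNat 0, .ofNat 73, .ofNat 14⟩, ⟨.negSucc 46, .negSucc 3, .ofNat 0, .negSucc 49, .ofNat 4, .ofNat 1⟩, .ofNat 455, .negSucc 203, .ofNat 0, .negSucc 203, .ofNat 694, .ofNat 0, .ofNat 269, .ofNat 149, .negSucc 229, .ofNat 0, .ofNat 232, .negSucc 82, .ofNat 0, .ofNat 0, .ofNat 638, .ofNat 416412, .ofNat 24132537641810567467715062563845701632000, .ofNat 0, .ofNat 5019720807488876478182040650406848102400,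 .ofNat 0, .ofNat 11666542988774103326009212412011688755200, .ofNat 0, .ofNat 60572754493910243567711386278673829068800, .ofNat 0, .ofNat 0, .ofNat 0, .ofNat 0, .ofNat 0, .ofNat 0, .ofNat 0, .ofNat 0, .ofNat 0⟩)
    (by decide +kernel)

end Crest.Agent.R097C4.N4mp
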