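import Crest.Agent.R097.T4

/-!
# Row 97, box cover in dimension n = 4 (generated)
-/

set_option autoImplicit false
set_option Elab.async false
set_option maxHeartbeats 0
set_option maxRecDepth 100000

open Crest.Agent.R097 Crest.Agent.R097.KA


namespace Crest.Agent.R097C4.N4mp

theorem L00643 : Good (Phi V4.P V4.D (-1) 1) ⟨2, 0, 3, 4, 4, 1, 4, 10, 5, 23⟩ :=
  leaf_sound (S := T4.ds_mp) T4.ok_mp (w := 208) (c := ⟨⟨.negSucc 262, .negSucc 27, .negSucc 4, .negSucc 9, .ofNat 21, .ofNat 6⟩, ⟨.negSucc 143, .negSucc 11, .negSucc 31, .negSucc 5, .ofNat 14, .ofNat 4⟩, ⟨.negSucc 67, .ofNat 44, .ofNat 3, .ofNat 11, .negSucc 21, .ofNat 0⟩, ⟨.negSucc 791, .ofNat 4, .negSucc 2, .negSucc 0, .ofNat 60, .ofNat 19⟩, ⟨.negSucc 47, .negSucc 5, .ofNat 0, .negSucc 48, .ofNat 8, .ofNat 1⟩, .ofNat 455, .negSucc 201, .ofNat 0, .negSucc 201, .ofNat 691, .ofNat 0, .ofNat 268,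 .ofNat 147, .negSucc 229, .ofNat 0, .ofNat 231, .negSucc 82, .ofNat 0, .ofNat 0, .ofNat 631, .ofNat 4230696, .ofNat 324919450963290835250286851747445158707200, .ofNat 0, .ofNat 54222977538076697798920519347916819660800, .ofNat 0, .ofNat 331736318564591883351790371167699101286400, .ofNat 0, .ofNat 49021907409099166484034263871694621900800, .ofNat 0, .ofNat 0, .ofNat 0, .ofNat 0, .ofNat 0, .ofNat 0, .ofNat 0, .ofNat 0, .ofNat 0⟩)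
    (by decide +kernel)
theorem L00644 : Good (Phi V4.P V4.D (-1) 1) ⟨2, 0, 3, 4, 4, 1, 4, 11, 5, 22⟩ :=
  leaf_sound (S := T4.ds_mp) T4.ok_mp (w := 208) (c := ⟨⟨.negSucc 245, .negSucc 29, .negSucc 2, .negSucc 7, .ofNat 31, .ofNat 4⟩, ⟨.negSucc 134, .negSucc 10, .negSucc 29, .negSucc 4, .ofNat 17, .ofNat 2⟩, ⟨.negSucc 89, .ofNat 43, .ofNat 1, .ofNat 10, .negSucc 27, .ofNat 1⟩, ⟨.negSucc 744, .ofNat 1, .negSucc 2, .ofNat 2, .ofNat 86, .ofNat 12⟩, ⟨.negSucc 43, .negSucc 4, .ofNat 0, .negSucc 46, .ofNat 6, .ofNat 1⟩, .ofNat 456, .negSucc 205, .ofNat 0, .negSucc 205, .ofNat 695, .ofNat 0, .ofNat 274, .ofNat 154, .negSucc 247, .ofNat 0, .ofNat 238, .negSucc 90, .ofNat 0, .ofNat 0, .ofNat 643, .ofNat 216072, .ofNat 0, .ofNat 0, .ofNat 2590653115781336386506462549413304729600, .ofNat 0, .ofNat 0, .ofNat 0, .ofNat 57211431019412255484915062949404265676800, .ofNat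 0, .ofNat 0, .ofNat 0, .ofNat 0, .ofNat 0, .ofNat 0, .ofNat 0, .ofNat 0, .ofNat 0⟩)
    (by decide +kernel)
theorem L00645 : Good (Phi V4.P V4.D (-1) 1) ⟨2, 0, 3, 4, 4, 1, 4, 11, 5, 23⟩ :=
  leaf_sound (S := T4.ds_mp) T4.ok_mp (w := 208) (c := ⟨⟨.negSucc 244, .negSucc 25, .negSucc 2, .negSucc 5, .ofNat 31, .ofNat 4⟩, ⟨.negSucc 133, .negSucc 9, .negSucc 28, .negSucc 4, .ofNat 17, .ofNat 2⟩, ⟨.negSucc 84, .ofNat 39, .ofNat 2, .ofNat 9, .negSucc 26, .ofNat 1⟩, ⟨.negSucc 738, .ofNat 6, .negSucc 1, .ofNat 6, .ofNat 87, .ofNat 10⟩, ⟨.negSucc 42, .negSucc 4, .ofNat 0, .negSucc 45, .ofNat 5, .ofNat 1⟩, .ofNat 455, .negSucc 203, .ofNat 0, .negSucc 203, .ofNat 694, .ofNat 0, .ofNat 270, .ofNat 150, .negSucc 245, .ofNat 0, .ofNat 233, .negSucc 89, .ofNat 0, .ofNat 0, .ofNat 629, .ofNat 498985, .ofNat 31436229654371403010181488915187446579200, .ofNat 0, .ofNat 5871591384040309759099498442850199142400,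 .ofNat 0, .ofNat 8015024366582570302991780309963164876800, .ofNat 0, .ofNat 64685215211083971719153132037650094489600, .ofNat 0, .ofNat 0, .ofNat 0, .ofNat 0, .ofNat 0, .ofNat 0, .ofNat 0, .ofNat 0, .ofNat 0⟩)
    (by decide +kernel)
theorem L00646 : Good (Phi V4.P V4.D (-1) 1) ⟨2, 0, 3, 4, 3, 1, 3, 4, 4, 10⟩ :=
  leaf_sound (S := T4.ds_mp) T4.ok_mp (w := 192) (c := ⟨⟨.negSucc 331, .negSucc 38, .negSucc 9, .negSucc 33, .ofNat 46, .ofNat 14⟩, ⟨.negSucc 182, .negSucc 14, .negSucc 39, .negSucc 20, .ofNat 25, .ofNat 8⟩, ⟨.negSucc 22, .ofNat 74, .ofNat 6, .ofNat 36, .negSucc 48, .negSucc 5⟩, ⟨.negSucc 977, .ofNat 4, .negSucc 7, .negSucc 32, .ofNat 125, .ofNat 39⟩, ⟨.negSucc 103, .negSucc 19, .ofNat 0, .negSucc 117, .ofNat 13, .ofNat 6⟩, .ofNat 456, .negSucc 204, .ofNat 0, .negSucc 204, .ofNat 694, .ofNat 0, .ofNat 274, .ofNat 153, .negSucc 211, .ofNat 0, .ofNat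 237, .negSucc 72, .ofNat 0, .ofNat 0, .ofNat 662, .ofNat 133361, .ofNat 3258780180749737784397990323866828800, .ofNat 0, .ofNat 26841608356685261819971475865600000, .ofNat 0, .ofNat 0, .ofNat 0, .ofNat 0, .ofNat 0, .ofNat 0, .ofNat 0, .ofNat 0, .ofNat 0, .ofNat 0, .ofNat 0, .ofNat 0, .ofNat 0⟩)
    (by decide +kernel)
theorem L00647 : Good (Phi V4.P V4.D (-1) 1) ⟨2, 0, 3, 4, 3, 1, 3, 4, 4, 11⟩ :=
  leaf_sound (S := T4.ds_mp) T4.ok_mp (w := 192) (c := ⟨⟨.negSucc 324, .negSucc 35, .negSucc 8, .negSucc 31, .ofNat 50, .ofNat 16⟩, ⟨.negSucc 179, .negSucc 12, .negSucc 37, .negSucc 19, .ofNat 28, .ofNat 8⟩, ⟨.negSucc 25, .ofNat 72, .ofNat 7, .ofNat 36, .negSucc 49, .negSucc 5⟩, ⟨.negSucc 952, .ofNat 13, .negSucc 4, .negSucc 26, .ofNat 130, .ofNat 42⟩, ⟨.negSucc 101, .negSucc 25, .ofNat 0, .negSucc 116, .ofNat 20, .ofNat 4⟩, .ofNat 895, .negSucc 758, .ofNat 0,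 .negSucc 758, .ofNat 1781, .ofNat 0, .ofNat 194, .ofNat 202, .negSucc 165, .ofNat 0, .ofNat 186, .negSucc 77, .ofNat 0, .ofNat 0, .ofNat 618, .ofNat 697506, .ofNat 29582044069323507209991265158011289600, .ofNat 0, .ofNat 166957146022095273799531490181120000, .ofNat 0, .ofNat 45160100545192484044524827216707584000, .ofNat 0, .ofNat 1140871010368132859234997135369830400, .ofNat 0, .ofNat 105581143948486447439406335129341132800, .ofNat 0, .ofNat 0, .ofNat 0, .ofNat 136375072501291335254339639663866675200, .ofNat 0, .ofNat 0, .ofNat 0⟩)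
    (by decide +kernel)
theorem L00648 : Good (Phi V4.P V4.D (-1) 1) ⟨2, 0, 3, 4, 4, 2, 3, 5, 4, 10⟩ :=
  leaf_sound (S := T4.ds_mp) T4.ok_mp (w := 200) (c := ⟨⟨.negSucc 292, .negSucc 31, .negSucc 6, .negSucc 14, .ofNat 60, .ofNat 13⟩, ⟨.negSucc 161, .negSucc 10, .negSucc 34, .negSucc 8, .ofNat 33, .ofNat 7⟩, ⟨.negSucc 60, .ofNat 57, .ofNat 5, .ofNat 17, .negSucc 56, .negSucc 2⟩, ⟨.negSucc 856, .ofNat 8, .negSucc 6, .negSucc 11, .ofNat 166, .ofNat 34⟩, ⟨.negSucc 95, .negSucc 15, .ofNat 0, .negSucc 53, .ofNat 16, .ofNat 5⟩, .ofNat 455, .negSucc 202, .ofNat 0, .negSucc 202, .ofNat 693, .ofNat 0, .ofNat 283, .ofNat 157, .negSucc 244, .ofNat 0, .ofNat 244, .negSucc 87, .ofNat 0, .ofNat 0, .ofNat 662, .ofNat 97986, .ofNat 0, .ofNat 0, .ofNat 11638140567894116513666711826097766400, .ofNat 0, .ofNat 0, .ofNat 0, .ofNat 376430048887970388448454564571512832000,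 .ofNat 0, .ofNat 0, .ofNat 0, .ofNat 0, .ofNat 0, .ofNat 0, .ofNat 0, .ofNat 0, .ofNat 0⟩)
    (by decide +kernel)
theorem L00649 : Good (Phi V4.P V4.D (-1) 1) ⟨2, 0, 3, 4, 4, 2, 4, 10, 4, 11⟩ :=
  leaf_sound (S := T4.ds_mp) T4.ok_mp (w := 200) (c := ⟨⟨.negSucc 281, .negSucc 28, .negSucc 5, .negSucc 12, .ofNat 27, .ofNat 11⟩, ⟨.negSucc 155, .negSucc 9, .negSucc 33, .negSucc 7, .ofNat 15, .ofNat 6⟩, ⟨.negSucc 60, .ofNat 54, .ofNat 4, .ofNat 15, .negSucc 24, .negSucc 0⟩, ⟨.negSucc 827, .ofNat 16, .negSucc 3, .negSucc 6, .ofNat 74, .ofNat 31⟩, ⟨.negSucc 91, .negSucc 14, .ofNat 0, .negSucc 53, .ofNat 8, .ofNat 3⟩, .ofNat 455, .negSucc 203, .ofNat 0, .negSucc 203, .ofNat 693, .ofNat 0, .ofNat 270, .ofNat 150, .negSucc 224, .ofNat 0, .ofNat 233, .negSucc 80, .ofNat 0, .ofNat 0, .ofNat 637, .ofNat 484076, .ofNat 8040100336199087964389847043907833036800, .ofNat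 0, .ofNat 441250243178881787860674094494960844800, .ofNat 0, .ofNat 9590423227551301301041644418787337830400, .ofNat 0, .ofNat 3634913124018664572742671251060608204800, .ofNat 0, .ofNat 0, .ofNat 0, .ofNat 0, .ofNat 0, .ofNat 0, .ofNat 0, .ofNat 0, .ofNat 0⟩)
    (by decide +kernel)
theorem L00650 : Good (Phi V4.P V4.D (-1) 1) ⟨2, 0, 3, 4, 4, 2, 4, 11, 4, 11⟩ :=
  leaf_sound (S := T4.ds_mp) T4.ok_mp (w := 200) (c := ⟨⟨.negSucc 260, .negSucc 21, .negSucc 5, .negSucc 10, .ofNat 33, .ofNat 10⟩, ⟨.negSucc 143, .negSucc 6, .negSucc 29, .negSucc 6, .ofNat 18, .ofNat 5⟩, ⟨.negSucc 78, .ofNat 45, .ofNat 5, .ofNat 13, .negSucc 29, .ofNat 1⟩, ⟨.negSucc 763, .ofNat 27, .negSucc 2, .negSucc 3, .ofNat 89, .ofNat 26⟩, ⟨.negSucc 85, .negSucc 14, .negSucc 0, .negSucc 50, .ofNat 9, .ofNat 3⟩, .ofNat 898, .negSucc 765, .ofNat 0, .negSucc 765, .ofNat 1789, .ofNat 0, .ofNat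 196, .ofNat 206, .negSucc 190, .ofNat 0, .ofNat 189, .negSucc 91, .ofNat 0, .ofNat 0, .ofNat 604, .ofNat 152057, .ofNat 2020162997097438600447120813273907200000, .ofNat 0, .ofNat 138646606312469425689211217324802048000, .ofNat 0, .ofNat 0, .ofNat 0, .ofNat 3685656383276458165905064843882266624000, .ofNat 0, .ofNat 0, .ofNat 0, .ofNat 0, .ofNat 0, .ofNat 0, .ofNat 0, .ofNat 0, .ofNat 0⟩)
    (by decide +kernel)
theorem L00651 : Good (Phi V4.P V4.D (-1) 1) ⟨2, 0, 3, 4, 4, 3, 3, 5, 3, 5⟩ :=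
  leaf_sound (S := T4.ds_mp) T4.ok_mp (w := 192) (c := ⟨⟨.negSucc 314, .negSucc 23, .negSucc 11, .negSucc 13, .ofNat 65, .ofNat 24⟩, ⟨.negSucc 175, .negSucc 5, .negSucc 35, .negSucc 8, .ofNat 36, .ofNat 13⟩, ⟨.negSucc 44, .ofNat 58, .ofNat 9, .ofNat 17, .negSucc 59, .negSucc 1⟩, ⟨.negSucc 895, .ofNat 39, .negSucc 11, .negSucc 9, .ofNat 174, .ofNat 64⟩, ⟨.negSucc 142, .negSucc 29, .negSucc 1, .negSucc 57, .ofNat 23, .ofNat 9⟩, .ofNat 455, .negSucc 203, .ofNat 0, .negSucc 203, .ofNat 694, .ofNat 0, .ofNat 281, .ofNat 157, .negSucc 239, .ofNat 0, .ofNat 242, .negSucc 85, .ofNat 0, .ofNat 0, .ofNat 650, .ofNat 66122, .ofNat 49078927024279756206710935490710732800, .ofNat 0, .ofNat 0, .ofNat 0, .ofNat 0, .ofNat 0, .ofNat 0, .ofNat 0, .ofNat 0, .ofNat 0, .ofNat 0, .ofNat 0, .ofNat 0, .ofNat 0, .ofNat 0, .ofNat 0⟩)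
    (by decide +kernel)
theorem L00652 : Good (Phi V4.P V4.D (-1) 1) ⟨2, 0, 3, 4, 3, 2, 2, 2, 3, 4⟩ :=
  leaf_sound (S := T4.ds_mp) T4.ok_mp (w := 176) (c := ⟨⟨.negSucc 396, .negSucc 51, .negSucc 15, .negSucc 54, .ofNat 118, .ofNat 37⟩, ⟨.negSucc 223, .negSucc 17, .negSucc 46, .negSucc 32, .ofNat 66, .ofNat 21⟩, ⟨.ofNat 20, .ofNat 105, .ofNat 11, .ofNat 51, .negSucc 129, .negSucc 18⟩, ⟨.negSucc 1115, .ofNat 7, .negSucc 13, .negSucc 81, .ofNat 315, .ofNat 97⟩, ⟨.negSucc 214, .negSucc 57, .ofNat 5, .negSucc 135, .ofNat 45, .ofNat 16⟩, .ofNat 899, .negSucc 765, .ofNat 0, .negSucc 765, .ofNat 1788, .ofNat 0, .ofNat 220, .ofNat 233, .negSucc 187, .ofNat 0, .ofNat 212, .negSucc 85, .ofNat 0, .ofNat 0, .ofNat 685, .ofNat 28134, .ofNat 0, .ofNat 0, .ofNat 0, .ofNat 0, .ofNat 0, .ofNat 71479042958717898468398876904652800, .ofNat 3603688117134847813508698157875200,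 .ofNat 0, .ofNat 0, .ofNat 0, .ofNat 0, .ofNat 0, .ofNat 0, .ofNat 0, .ofNat 0, .ofNat 0⟩)
    (by decide +kernel)
theorem L00653 : Good (Phi V4.P V4.D (-1) 1) ⟨2, 0, 3, 4, 3, 2, 2, 2, 3, 5⟩ :=
  leaf_sound (S := T4.ds_mp) T4.ok_mp (w := 176) (c := ⟨⟨.negSucc 371, .negSucc 40, .negSucc 9, .negSucc 41, .ofNat 113, .ofNat 29⟩, ⟨.negSucc 208, .negSucc 13, .negSucc 39, .negSucc 25, .ofNat 63, .ofNat 16⟩, ⟨.ofNat 4, .ofNat 94, .ofNat 9, .ofNat 38, .negSucc 108, .negSucc 10⟩, ⟨.negSucc 1038, .ofNat 25, .ofNat 0, .negSucc 53, .ofNat 302, .ofNat 75⟩, ⟨.negSucc 204, .negSucc 52, .ofNat 1, .negSucc 129, .ofNat 43, .ofNat 11⟩, .ofNat 455, .negSucc 202, .ofNat 0, .negSucc 202, .ofNat 693, .ofNat 0, .ofNat 279, .ofNat 155, .negSucc 210, .ofNat 0, .ofNat 239, .negSucc 70, .ofNat 0, .ofNat 0, .ofNat 657, .ofNat 33998, .ofNat 77650542440965413012953494034841600, .ofNat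 0, .ofNat 0, .ofNat 0, .ofNat 0, .ofNat 137352869113814379245827468453478400, .ofNat 0, .ofNat 0, .ofNat 0, .ofNat 0, .ofNat 0, .ofNat 0, .ofNat 0, .ofNat 0, .ofNat 0, .ofNat 0⟩)
    (by decide +kernel)
theorem L00654 : Good (Phi V4.P V4.D (-1) 1) ⟨2, 0, 3, 4, 3, 3, 2, 2, 2, 2⟩ :=
  leaf_sound (S := T4.ds_mp) T4.ok_mp (w := 176) (c := ⟨⟨.negSucc 435, .negSucc 71, .negSucc 20, .negSucc 64, .ofNat 110, .ofNat 91⟩, ⟨.negSucc 247, .negSucc 26, .negSucc 53, .negSucc 38, .ofNat 62, .ofNat 51⟩, ⟨.ofNat 37, .ofNat 156, .ofNat 15, .ofNat 58, .negSucc 131, .negSucc 65⟩, ⟨.negSucc 1191, .negSucc 4, .negSucc 7, .negSucc 106, .ofNat 293, .ofNat 247⟩, ⟨.negSucc 323, .negSucc 90, .ofNat 3, .negSucc 145, .ofNat 38, .ofNat 27⟩, .ofNat 898, .negSucc 764, .ofNat 0, .negSucc 764, .ofNat 1787, .ofNat 0, .ofNat 447, .ofNat 474, .negSucc 333, .ofNat 0, .ofNat 429, .negSucc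 145, .ofNat 0, .ofNat 0, .ofNat 1427, .ofNat 32214, .ofNat 0, .ofNat 0, .ofNat 0, .ofNat 0, .ofNat 0, .ofNat 89659138579406593194916221183590400, .ofNat 0, .ofNat 0, .ofNat 0, .ofNat 145539838119268515374927680477593600, .ofNat 0, .ofNat 0, .ofNat 0, .ofNat 190563570699858193836536315353497600, .ofNat 0, .ofNat 0⟩)
    (by decide +kernel)
theorem L00655 : Good (Phi V4.P V4.D (-1) 1) ⟨2, 0, 3, 4, 2, 0, 3, 6, 2, 2⟩ :=
  leaf_sound (S := T4.ds_mp) T4.ok_mp (w := 168) (c := ⟨⟨.negSucc 247, .negSucc 12, .negSucc 7, .negSucc 35, .ofNat 96, .ofNat 33⟩, ⟨.negSucc 135, .negSucc 2, .negSucc 27, .negSucc 22, .ofNat 53, .ofNat 18⟩, ⟨.negSucc 132, .ofNat 32, .ofNat 7, .ofNat 47, .negSucc 88, .ofNat 23⟩, ⟨.negSucc 762, .ofNat 38, .negSucc 9, .negSucc 4, .ofNat 263, .ofNat 90⟩, ⟨.ofNat 0, .negSucc 12, .negSucc 2, .negSucc 179, .ofNat 20, .ofNat 9⟩, .ofNat 898, .negSucc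 763, .ofNat 0, .negSucc 763, .ofNat 1785, .ofNat 0, .ofNat 221, .ofNat 232, .negSucc 243, .ofNat 0, .ofNat 212, .negSucc 116, .ofNat 0, .ofNat 0, .ofNat 654, .ofNat 24123, .ofNat 0, .ofNat 0, .ofNat 30864854116338779951412019200, .ofNat 0, .ofNat 0, .ofNat 371062861002350992410828550963200, .ofNat 2118992400295431857797437849600, .ofNat 0, .ofNat 0, .ofNat 54499571158134066633493394227200, .ofNat 0, .ofNat 0, .ofNat 0, .ofNat 0, .ofNat 0, .ofNat 0⟩)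
    (by decide +kernel)
theorem L00656 : Good (Phi V4.P V4.D (-1) 1) ⟨2, 0, 3, 4, 2, 0, 3, 7, 2, 2⟩ :=
  leaf_sound (S := T4.ds_mp) T4.ok_mp (w := 168) (c := ⟨⟨.negSucc 165, .negSucc 2, .ofNat 2, .negSucc 11, .ofNat 167, .ofNat 17⟩, ⟨.negSucc 90, .ofNat 0, .negSucc 9, .negSucc 8, .ofNat 93, .ofNat 10⟩, ⟨.negSucc 207, .ofNat 12, .negSucc 0, .ofNat 26, .negSucc 156, .ofNat 47⟩, ⟨.negSucc 496, .ofNat 24, .ofNat 16, .ofNat 34, .ofNat 465, .ofNat 44⟩, ⟨.negSucc 5, .negSucc 3, .negSucc 2, .negSucc 125, .ofNat 28, .ofNat 9⟩, .ofNat 896, .negSucc 759, .ofNat 0, .negSucc 759, .ofNat 1781, .ofNat 0, .ofNat 236, .ofNat 246, .negSucc 306, .ofNat 0, .ofNat 227, .negSucc 148, .ofNat 0, .ofNat 0, .ofNat 682, .ofNat 14175, .ofNat 0, .ofNat 9546028473716931489822041702400, .ofNat 8612085194903803205674598400, .ofNat 0, .ofNat 0, .ofNat 989803415903706006818462996889600,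 .ofNat 0, .ofNat 0, .ofNat 0, .ofNat 917172102369691465910544708403200, .ofNat 3114972431096122372844106547200, .ofNat 0, .ofNat 0, .ofNat 764651064818910486098215541145600, .ofNat 0, .ofNat 0⟩)
    (by decide +kernel)
theorem L00657 : Good (Phi V4.P V4.D (-1) 1) ⟨2, 0, 3, 4, 2, 1, 2, 3, 2, 2⟩ :=
  leaf_sound (S := T4.ds_mp) T4.ok_mp (w := 168) (c := ⟨⟨.negSucc 297, .negSucc 17, .negSucc 18, .negSucc 89, .ofNat 200, .ofNat 57⟩, ⟨.negSucc 167, .negSucc 2, .negSucc 36, .negSucc 52, .ofNat 112, .ofNat 32⟩, ⟨.negSucc 87, .ofNat 58, .ofNat 17, .ofNat 97, .negSucc 186, .negSucc 0⟩, ⟨.negSucc 827, .ofNat 64, .negSucc 23, .negSucc 121, .ofNat 526, .ofNat 152⟩, ⟨.negSucc 174, .negSucc 50, .negSucc 2, .negSucc 240, .ofNat 94, .ofNat 22⟩, .ofNat 893, .negSucc 758, .ofNat 0, .negSucc 758, .ofNat 1782, .ofNat 0, .ofNat 463, .ofNat 487, .negSucc 477, .ofNat 0, .ofNat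 443, .negSucc 227, .ofNat 0, .ofNat 0, .ofNat 1347, .ofNat 9823, .ofNat 0, .ofNat 0, .ofNat 0, .ofNat 0, .ofNat 0, .ofNat 1764837791428062418217034212966400, .ofNat 0, .ofNat 0, .ofNat 0, .ofNat 2092112912151813098129527406592000, .ofNat 0, .ofNat 0, .ofNat 0, .ofNat 1682117579754752959153577970892800, .ofNat 0, .ofNat 0⟩)
    (by decide +kernel)
theorem L00658 : Good (Phi V4.P V4.D (-1) 1) ⟨2, 0, 3, 4, 1, 1, 1, 1, 2, 2⟩ :=
  leaf_sound (S := T4.ds_mp) T4.ok_mp (w := 160) (c := ⟨⟨.negSucc 488, .negSucc 89, .negSucc 27, .ofNat 0, .ofNat 0, .ofNat 0⟩, ⟨.negSucc 278, .negSucc 36, .negSucc 62, .ofNat 0, .ofNat 0, .ofNat 0⟩, ⟨.ofNat 75, .ofNat 184, .ofNat 25, .ofNat 0, .ofNat 0, .ofNat 0⟩, ⟨.negSucc 1288, .negSucc 22, .negSucc 16, .ofNat 0, .ofNat 0, .ofNat 0⟩, ⟨.negSucc 449, .negSucc 119, .ofNat 6, .ofNat 0, .ofNat 0, .ofNat 0⟩, .ofNat 195, .negSucc 32, .ofNat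 0, .negSucc 32, .ofNat 233, .ofNat 0, .ofNat 2001, .ofNat 449, .negSucc 2094, .ofNat 0, .ofNat 1704, .ofNat 4, .ofNat 0, .ofNat 0, .ofNat 3930, .ofNat 158918, .ofNat 0, .ofNat 0, .ofNat 0, .ofNat 0, .ofNat 0, .ofNat 972077418581837308460074952294400, .ofNat 4240048488460957903749120000, .ofNat 0, .ofNat 0, .ofNat 635420727472090041490307914137600, .ofNat 0, .ofNat 0, .ofNat 0, .ofNat 1190829539692905392120570000179200, .ofNat 4558733401805073320981299200, .ofNat 0⟩)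
    (by decide +kernel)
theorem L00659 : Good (Phi V4.P V4.D (-1) 1) ⟨2, 0, 3, 4, 2, 0, 2, 2, 3, 6⟩ :=
  leaf_sound (S := T4.ds_mp) T4.ok_mp (w := 176) (c := ⟨⟨.negSucc 339, .negSucc 21, .negSucc 4, .negSucc 28, .ofNat 133, .negSucc 2⟩, ⟨.negSucc 187, .negSucc 7, .negSucc 28, .negSucc 19, .ofNat 76, .negSucc 2⟩, ⟨.negSucc 7, .ofNat 40, .ofNat 3, .ofNat 41, .negSucc 113, .ofNat 13⟩, ⟨.negSucc 1006, .ofNat 25, .negSucc 6, .ofNat 19, .ofNat 344, .negSucc 4⟩, ⟨.negSucc 35, .negSucc 19, .ofNat 3, .negSucc 188, .ofNat 57, .negSucc 14⟩, .ofNat 894, .negSucc 759, .ofNat 0, .negSucc 759, .ofNat 1782, .ofNat 0, .ofNat 194, .ofNat 202, .negSucc 191, .ofNat 0, .ofNat 186, .negSucc 91, .ofNat 0, .ofNat 0, .ofNat 591, .ofNat 371292, .ofNat 13121614792159222975941736975564800, .ofNat 0, .ofNat 1086592076565998794876492185600, .ofNat 0, .ofNat 25404431733107547074863366039142400,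 .ofNat 0, .ofNat 17026521609199475803657391308800, .ofNat 0, .ofNat 66767487241124323113898960591257600, .ofNat 0, .ofNat 2714751646575106412137100083200, .ofNat 0, .ofNat 56898188987563651677928298643456000, .ofNat 0, .ofNat 0, .ofNat 0⟩)
    (by decide +kernel)
theorem L00660 : Good (Phi V4.P V4.D (-1) 1) ⟨2, 0, 3, 4, 2, 0, 2, 2, 3, 7⟩ :=
  out_sound (S := T4.ds_mp) T4.ok_mp (w := 24) (j := 1) (by decide +kernel)
theorem L00661 : Good (Phi V4.P V4.D (-1) 1) ⟨2, 0, 3, 4, 2, 1, 2, 2, 2, 3⟩ :=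
  leaf_sound (S := T4.ds_mp) T4.ok_mp (w := 168) (c := ⟨⟨.negSucc 380, .negSucc 11, .negSucc 12, .negSucc 59, .ofNat 134, .ofNat 48⟩, ⟨.negSucc 214, .negSucc 1, .negSucc 32, .negSucc 33, .ofNat 77, .ofNat 27⟩, ⟨.ofNat 29, .ofNat 49, .ofNat 12, .ofNat 60, .negSucc 112, .negSucc 9⟩, ⟨.negSucc 1041, .ofNat 71, .negSucc 10, .negSucc 59, .ofNat 354, .ofNat 130⟩, ⟨.negSucc 223, .negSucc 43, .negSucc 1, .negSucc 196, .ofNat 66, .ofNat 13⟩, .ofNat 894, .negSucc 752, .ofNat 0, .negSucc 752, .ofNat 1769, .ofNat 0, .ofNat 775, .ofNat 805, .negSucc 715, .ofNat 0, .ofNat 742, .negSucc 342, .ofNat 0, .ofNat 0, .ofNat 2356, .ofNat 145721, .ofNat 3901251407974738861695160025088000, .ofNat 0, .ofNat 0, .ofNat 0, .ofNat 0, .ofNat 0, .ofNat 0, .ofNat 0, .ofNat 7100457016347720143080724732313600, .ofNat 36034690776695020565456486400, .ofNat 4886399772222963858966734438400,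 .ofNat 0, .ofNat 56416588975667484438329138400460800, .ofNat 2703203363955297780203367746764800, .ofNat 0, .ofNat 0⟩)
    (by decide +kernel)
theorem L00662 : Good (Phi V4.P V4.D (-1) 1) ⟨2, 0, 3, 4, 3, 0, 2, 3, 2, 3⟩ :=
  leaf_sound (S := T4.ds_mp) T4.ok_mp (w := 176) (c := ⟨⟨.negSucc 268, .ofNat 1, .ofNat 11, .ofNat 8, .ofNat 254, .ofNat 5⟩, ⟨.negSucc 147, .ofNat 2, .negSucc 3, .ofNat 5, .ofNat 141, .ofNat 2⟩, ⟨.negSucc 51, .ofNat 5, .negSucc 9, .negSucc 2, .negSucc 229, .ofNat 43⟩, ⟨.negSucc 782, .ofNat 30, .ofNat 30, .ofNat 51, .ofNat 716, .ofNat 10⟩, ⟨.negSucc 16, .negSucc 2, .ofNat 6, .negSucc 51, .ofNat 28, .ofNat 2⟩, .ofNat 1787, .negSucc 2200, .ofNat 0, .negSucc 2200, .ofNat 4361, .ofNat 0, .ofNat 151, .ofNat 251, .negSucc 246, .ofNat 0, .ofNat 181, .negSucc 130, .ofNat 0, .ofNat 0, .ofNat 595, .ofNat 19966, .ofNat 11782631454998474967349717263974400,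 .ofNat 0, .ofNat 1329128854795578810673240473600, .ofNat 0, .ofNat 0, .ofNat 0, .ofNat 0, .ofNat 0, .ofNat 117080467131155188887732256505856000, .ofNat 0, .ofNat 191893888096859414529594674380800, .ofNat 0, .ofNat 182777818110507441499749836075827200, .ofNat 0, .ofNat 0, .ofNat 0⟩)
    (by decide +kernel)
theorem L00663 : Good (Phi V4.P V4.D (-1) 1) ⟨2, 0, 3, 4, 3, 1, 2, 3, 2, 3⟩ :=
  leaf_sound (S := T4.ds_mp) T4.ok_mp (w := 176) (c := ⟨⟨.negSucc 243, .ofNat 7, .negSucc 12, .negSucc 18, .ofNat 211, .ofNat 3⟩, ⟨.negSucc 134, .ofNat 7, .negSucc 23, .negSucc 11, .ofNat 116, .ofNat 3⟩, ⟨.negSucc 80, .ofNat 13, .ofNat 13, .ofNat 25, .negSucc 187, .ofNat 44⟩, ⟨.negSucc 703, .ofNat 86, .negSucc 22, .negSucc 0, .ofNat 576, .ofNat 13⟩, ⟨.negSucc 71, .negSucc 24, .ofNat 0, .negSucc 94, .ofNat 60, .negSucc 2⟩, .ofNat 898, .negSucc 763, .ofNat 0, .negSucc 763, .ofNat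 1787, .ofNat 0, .ofNat 201, .ofNat 211, .negSucc 222, .ofNat 0, .ofNat 193, .negSucc 107, .ofNat 0, .ofNat 0, .ofNat 591, .ofNat 11584, .ofNat 7798195876683864761207022315110400, .ofNat 0, .ofNat 0, .ofNat 0, .ofNat 0, .ofNat 0, .ofNat 0, .ofNat 0, .ofNat 49350164462211672742670933321318400, .ofNat 50518987872105599568042112371916800, .ofNat 0, .ofNat 0, .ofNat 71819326705525220241666788976230400, .ofNat 37006260895333666774541804765184000, .ofNat 0, .ofNat 0⟩)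
    (by decide +kernel)
theorem L00664 : Good (Phi V4.P V4.D (-1) 1) ⟨2, 0, 3, 4, 2, 1, 2, 3, 2, 3⟩ :=
  leaf_sound (S := T4.ds_mp) T4.ok_mp (w := 168) (c := ⟨⟨.negSucc 247, .negSucc 10, .negSucc 9, .ofNat 0, .ofNat 107, .ofNat 0⟩, ⟨.negSucc 139, .ofNat 0, .negSucc 28, .ofNat 0, .ofNat 63, .ofNat 0⟩, ⟨.negSucc 82, .ofNat 46, .ofNat 8, .ofNat 0, .negSucc 92, .ofNat 0⟩, ⟨.negSucc 685, .ofNat 74, .negSucc 5, .ofNat 0, .ofNat 291, .ofNat 0⟩, ⟨.negSucc 156, .negSucc 44, .ofNat 0, .ofNat 0, .ofNat 42, .ofNat 0⟩, .ofNat 454, .negSucc 204, .ofNat 0, .negSucc 204, .ofNat 695, .ofNat 0, .ofNat 2199, .ofNat 1238, .negSucc 1954, .ofNat 0, .ofNat 1889, .negSucc 727, .ofNat 0, .ofNat 0, .ofNat 4996, .ofNat 340595, .ofNat 0, .ofNat 0, .ofNat 0, .ofNat 0, .ofNat 0, .ofNat 338213560945560033121927568975462400, .ofNat 0, .ofNat 0, .ofNat 207499792173321587167925381785190400,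 .ofNat 440169843016741016834281702844006400, .ofNat 0, .ofNat 0, .ofNat 0, .ofNat 464907555584380831094447955089817600, .ofNat 0, .ofNat 0⟩)
    (by decide +kernel)
theorem L00665 : Good (Phi V4.P V4.D (-1) 1) ⟨2, 0, 3, 4, 1, 1, 1, 1, 2, 3⟩ :=
  out_sound (S := T4.ds_mp) T4.ok_mp (w := 24) (j := 2) (by decide +kernel)
theorem L00666 : Good (Phi V4.P V4.D (-1) 1) ⟨2, 0, 3, 5, 0, 0, 1, 1, 1, 1⟩ :=
  out_sound (S := T4.ds_mp) T4.ok_mp (w := 40) (j := 3) (by decide +kernel)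
theorem L00667 : Good (Phi V4.P V4.D (-1) 1) ⟨2, 0, 2, 3, 0, 0, 0, 0, 1, 1⟩ :=
  out_sound (S := T4.ds_mp) T4.ok_mp (w := 40) (j := 3) (by decide +kernel)
theorem L00668 : Good (Phi V4.P V4.D (-1) 1) ⟨2, 1, 2, 2, 1, 0, 1, 0, 3, 4⟩ :=
  leaf_sound (S := T4.ds_mp) T4.ok_mp (w := 152) (c := ⟨⟨.negSucc 562, .negSucc 127, .negSucc 39, .negSucc 194, .ofNat 209, .ofNat 48⟩, ⟨.negSucc 298, .negSucc 1, .negSucc 118, .negSucc 106, .ofNat 110, .ofNat 24⟩, ⟨.ofNat 371, .ofNat 191, .ofNat 47, .ofNat 268, .negSucc 377, .negSucc 45⟩, ⟨.negSucc 1566, .negSucc 86, .negSucc 40, .negSucc 208, .ofNat 545, .ofNat 122⟩, ⟨.ofNat 31, .negSucc 37, .negSucc 23, .negSucc 580, .ofNat 2, .negSucc 0⟩, .ofNat 826, .negSucc 759, .ofNat 0, .negSucc 759, .ofNat 1904, .ofNat 0, .ofNat 219, .ofNat 233, .negSucc 173, .ofNat 0, .ofNat 194, .negSucc 71, .ofNat 0, .ofNat 0, .ofNat 723, .ofNat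 9142, .ofNat 57583446593591338845025075200, .ofNat 0, .ofNat 8707698408637729603584000, .ofNat 0, .ofNat 0, .ofNat 0, .ofNat 0, .ofNat 0, .ofNat 0, .ofNat 0, .ofNat 0, .ofNat 0, .ofNat 6270743547305722992642962227200, .ofNat 0, .ofNat 1280408043074228048520806400, .ofNat 0⟩)
    (by decide +kernel)
theorem L00669 : Good (Phi V4.P V4.D (-1) 1) ⟨2, 1, 2, 2, 1, 0, 1, 0, 3, 5⟩ :=
  leaf_sound (S := T4.ds_mp) T4.ok_mp (w := 160) (c := ⟨⟨.negSucc 498, .negSucc 106, .negSucc 31, .negSucc 217, .ofNat 202, .ofNat 58⟩, ⟨.negSucc 256, .ofNat 7, .negSucc 104, .negSucc 119, .ofNat 97, .ofNat 27⟩, ⟨.ofNat 229, .ofNat 184, .ofNat 26, .ofNat 299, .negSucc 293, .negSucc 49⟩, ⟨.negSucc 1354, .negSucc 48, .negSucc 11, .negSucc 250, .ofNat 467, .ofNat 152⟩, ⟨.negSucc 22, .negSucc 48, .ofNat 1, .negSucc 628, .ofNat 100, .negSucc 13⟩, .ofNat 428, .negSucc 199, .ofNat 0, .negSucc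 199, .ofNat 715, .ofNat 0, .ofNat 287, .ofNat 159, .negSucc 199, .ofNat 0, .ofNat 232, .negSucc 55, .ofNat 0, .ofNat 0, .ofNat 702, .ofNat 29636, .ofNat 585342909533188731242859724800, .ofNat 0, .ofNat 54252256689725825699020800, .ofNat 0, .ofNat 9489434178516861813429318451200, .ofNat 0, .ofNat 0, .ofNat 0, .ofNat 4250248783106890734870567321600, .ofNat 0, .ofNat 0, .ofNat 0, .ofNat 10767097731433300440399426355200, .ofNat 0, .ofNat 0, .ofNat 0⟩)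
    (by decide +kernel)
theorem L00670 : Good (Phi V4.P V4.D (-1) 1) ⟨2, 1, 2, 2, 1, 1, 1, 0, 2, 2⟩ :=
  leaf_sound (S := T4.ds_mp) T4.ok_mp (w := 152) (c := ⟨⟨.negSucc 736, .negSucc 170, .negSucc 50, .negSucc 319, .ofNat 157, .ofNat 134⟩, ⟨.negSucc 396, .negSucc 3, .negSucc 153, .negSucc 158, .ofNat 82, .ofNat 68⟩, ⟨.ofNat 662, .ofNat 319, .ofNat 67, .ofNat 385, .negSucc 430, .negSucc 175⟩, ⟨.negSucc 1782, .negSucc 120, .negSucc 31, .negSucc 507, .ofNat 466, .ofNat 370⟩, ⟨.negSucc 475, .negSucc 84, .ofNat 23, .negSucc 612, .negSucc 110, .negSucc 51⟩, .ofNat 432, .negSucc 204, .ofNat 0, .negSucc 204, .ofNat 717, .ofNat 0, .ofNat 321, .ofNat 181, .negSucc 191, .ofNat 0, .ofNat 259, .negSucc 31, .ofNat 0, .ofNat 0, .ofNat 835, .ofNat 6332, .ofNat 9646420865851143927889920000, .ofNat 4476895081818136144301260800, .ofNat 854555407999696072396800, .ofNat 0,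 .ofNat 0, .ofNat 295801718347735276356580147200, .ofNat 0, .ofNat 0, .ofNat 0, .ofNat 254903685517079048567232921600, .ofNat 0, .ofNat 0, .ofNat 1455430123279942762697116876800, .ofNat 331843340825778982399613337600, .ofNat 91797806734604005500518400, .ofNat 0⟩)
    (by decide +kernel)
theorem L00671 : Good (Phi V4.P V4.D (-1) 1) ⟨2, 1, 2, 2, 1, 0, 1, 0, 2, 3⟩ :=
  out_sound (S := T4.ds_mp) T4.ok_mp (w := 24) (j := 1) (by decide +kernel)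
theorem L00672 : Good (Phi V4.P V4.D (-1) 1) ⟨2, 1, 2, 2, 1, 1, 1, 0, 2, 3⟩ :=
  out_sound (S := T4.ds_mp) T4.ok_mp (w := 24) (j := 2) (by decide +kernel)
theorem L00673 : Good (Phi V4.P V4.D (-1) 1) ⟨3, 2, 3, 4, 2, 0, 2, 2, 3, 4⟩ :=
  leaf_sound (S := T4.ds_mp) T4.ok_mp (w := 176) (c := ⟨⟨.negSucc 388, .negSucc 43, .negSucc 4, .negSucc 58, .ofNat 120, .ofNat 36⟩, ⟨.negSucc 204, .negSucc 2, .negSucc 41, .negSucc 32, .ofNat 63, .ofNat 19⟩, ⟨.ofNat 45, .ofNat 56, .ofNat 3, .ofNat 86, .negSucc 142, .negSucc 20⟩, ⟨.negSucc 1073, .negSucc 28, .negSucc 3, .negSucc 25, .ofNat 310, .ofNat 90⟩, ⟨.negSucc 5, .negSucc 5, .ofNat 6, .negSucc 245, .ofNat 18, .ofNat 9⟩, .ofNat 870, .negSucc 803, .ofNat 0, .negSucc 803, .ofNat 1932, .ofNat 0, .ofNat 218, .ofNat 242, .negSucc 215, .ofNat 0, .ofNat 203, .negSucc 97, .ofNat 0, .ofNat 0, .ofNat 695, .ofNat 32251, .ofNat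 0, .ofNat 0, .ofNat 0, .ofNat 0, .ofNat 0, .ofNat 0, .ofNat 0, .ofNat 0, .ofNat 0, .ofNat 0, .ofNat 1660853719027972583688713011200, .ofNat 0, .ofNat 0, .ofNat 0, .ofNat 0, .ofNat 0⟩)
    (by decide +kernel)
theorem L00674 : Good (Phi V4.P V4.D (-1) 1) ⟨3, 2, 3, 4, 4, 0, 2, 2, 4, 10⟩ :=
  leaf_sound (S := T4.ds_mp) T4.ok_mp (w := 200) (c := ⟨⟨.negSucc 363, .negSucc 38, .ofNat 0, .negSucc 4, .ofNat 111, .ofNat 10⟩, ⟨.negSucc 190, .negSucc 2, .negSucc 33, .negSucc 2, .ofNat 59, .ofNat 5⟩, ⟨.ofNat 26, .ofNat 41, .ofNat 0, .ofNat 13, .negSucc 111, .negSucc 1⟩, ⟨.negSucc 999, .negSucc 27, .ofNat 1, .ofNat 15, .ofNat 290, .ofNat 25⟩, ⟨.negSucc 2, .negSucc 0, .ofNat 0, .negSucc 48, .ofNat 6, .ofNat 1⟩, .ofNat 886, .negSucc 823, .ofNat 0, .negSucc 823, .ofNat 1943, .ofNat 0, .ofNat 199, .ofNat 225, .negSucc 206, .ofNat 0, .ofNat 189, .negSucc 96, .ofNat 0, .ofNat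 0, .ofNat 641, .ofNat 99081, .ofNat 0, .ofNat 0, .ofNat 0, .ofNat 0, .ofNat 6685219205241385127056845513314166374400, .ofNat 0, .ofNat 0, .ofNat 0, .ofNat 6106631184662582323251545729209152307200, .ofNat 0, .ofNat 0, .ofNat 0, .ofNat 0, .ofNat 0, .ofNat 0, .ofNat 0⟩)
    (by decide +kernel)
theorem L00675 : Good (Phi V4.P V4.D (-1) 1) ⟨3, 2, 3, 4, 4, 1, 3, 4, 4, 10⟩ :=
  leaf_sound (S := T4.ds_mp) T4.ok_mp (w := 200) (c := ⟨⟨.negSucc 364, .negSucc 38, .negSucc 3, .negSucc 10, .ofNat 48, .ofNat 16⟩, ⟨.negSucc 191, .negSucc 0, .negSucc 38, .negSucc 5, .ofNat 26, .ofNat 8⟩, ⟨.ofNat 36, .ofNat 47, .ofNat 3, .ofNat 19, .negSucc 53, .negSucc 6⟩, ⟨.negSucc 980, .negSucc 21, .negSucc 3, .ofNat 3, .ofNat 126, .ofNat 39⟩, ⟨.negSucc 56, .negSucc 1, .ofNat 0, .negSucc 57, .ofNat 7, .ofNat 2⟩, .ofNat 440, .negSucc 210, .ofNat 0, .negSucc 210, .ofNat 717, .ofNat 0,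 .ofNat 278, .ofNat 161, .negSucc 233, .ofNat 0, .ofNat 233, .negSucc 81, .ofNat 0, .ofNat 0, .ofNat 672, .ofNat 416088, .ofNat 18533522040932483973434082815205860966400, .ofNat 0, .ofNat 11098783661446029277537368657415372800, .ofNat 0, .ofNat 0, .ofNat 0, .ofNat 0, .ofNat 0, .ofNat 0, .ofNat 0, .ofNat 0, .ofNat 0, .ofNat 0, .ofNat 0, .ofNat 0, .ofNat 0⟩)
    (by decide +kernel)
theorem L00676 : Good (Phi V4.P V4.D (-1) 1) ⟨3, 2, 3, 4, 4, 1, 3, 5, 4, 10⟩ :=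
  leaf_sound (S := T4.ds_mp) T4.ok_mp (w := 200) (c := ⟨⟨.negSucc 320, .negSucc 32, .negSucc 4, .negSucc 7, .ofNat 67, .ofNat 14⟩, ⟨.negSucc 168, .negSucc 0, .negSucc 33, .negSucc 4, .ofNat 36, .ofNat 7⟩, ⟨.negSucc 13, .ofNat 40, .ofNat 3, .ofNat 15, .negSucc 65, .negSucc 2⟩, ⟨.negSucc 860, .negSucc 17, .negSucc 4, .ofNat 7, .ofNat 174, .ofNat 34⟩, ⟨.negSucc 52, .negSucc 2, .ofNat 0, .negSucc 53, .ofNat 10, .ofNat 3⟩, .ofNat 875, .negSucc 807, .ofNat 0, .negSucc 807, .ofNat 1932, .ofNat 0, .ofNat 206, .ofNat 228, .negSucc 218, .ofNat 0, .ofNat 192, .negSucc 101, .ofNat 0, .ofNat 0, .ofNat 645, .ofNat 175616, .ofNat 0, .ofNat 0, .ofNat 4470455841414157858038539201858764800, .ofNat 0, .ofNat 0, .ofNat 0, .ofNat 0, .ofNat 0, .ofNat 0, .ofNat 0, .ofNat 0, .ofNat 0, .ofNat 0, .ofNat 0, .ofNat 0, .ofNat 0⟩)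
    (by decide +kernel)
theorem L00677 : Good (Phi V4.P V4.D (-1) 1) ⟨3, 2, 3, 4, 3, 0, 3, 4, 4, 11⟩ :=
  leaf_sound (S := T4.ds_mp) T4.ok_mp (w := 200) (c := ⟨⟨.negSucc 315, .negSucc 34, .negSucc 4, .negSucc 23, .ofNat 26, .ofNat 0⟩, ⟨.negSucc 166, .ofNat 0, .negSucc 35, .negSucc 12, .ofNat 13, .ofNat 0⟩, ⟨.negSucc 20, .ofNat 45, .ofNat 3, .ofNat 39, .negSucc 22, .ofNat 0⟩, ⟨.negSucc 882, .negSucc 15, .negSucc 1, .ofNat 0, .ofNat 65, .ofNat 0⟩, ⟨.ofNat 3, .negSucc 2, .ofNat 0, .negSucc 113, .ofNat 7, .ofNat 0⟩, .ofNat 440, .negSucc 211, .ofNat 0, .negSucc 211, .ofNat 718, .ofNat 0, .ofNat 273, .ofNat 159, .negSucc 234, .ofNat 0, .ofNat 229, .negSucc 83, .ofNat 0, .ofNat 0, .ofNat 655, .ofNat 7566831, .ofNat 4839669311440155128342621202466367078400, .ofNat 0, .ofNat 401402196747840529905479675648409600, .ofNat 0, .ofNat 22890873074596214850583903655618936832000,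 .ofNat 0, .ofNat 0, .ofNat 0, .ofNat 17698492784408792211791125216608072499200, .ofNat 0, .ofNat 0, .ofNat 0, .ofNat 18808503492695302795659560669596247654400, .ofNat 0, .ofNat 0, .ofNat 0⟩)
    (by decide +kernel)
theorem L00678 : Good (Phi V4.P V4.D (-1) 1) ⟨3, 2, 3, 4, 4, 0, 3, 5, 4, 11⟩ :=
  leaf_sound (S := T4.ds_mp) T4.ok_mp (w := 200) (c := ⟨⟨.negSucc 307, .negSucc 32, .ofNat 0, .ofNat 1, .ofNat 62, .ofNat 8⟩, ⟨.negSucc 161, .negSucc 1, .negSucc 29, .ofNat 0, .ofNat 33, .ofNat 5⟩, ⟨.negSucc 24, .ofNat 35, .ofNat 0, .ofNat 6, .negSucc 56, .ofNat 3⟩, ⟨.negSucc 846, .negSucc 21, .ofNat 0, .ofNat 25, .ofNat 163, .ofNat 22⟩, ⟨.negSucc 1, .ofNat 0, .ofNat 0, .negSucc 44, .ofNat 3, .ofNat 0⟩, .ofNat 872, .negSucc 803, .ofNat 0, .negSucc 803, .ofNat 1926, .ofNat 0, .ofNat 197, .ofNat 217, .negSucc 211, .ofNat 0, .ofNat 183, .negSucc 97, .ofNat 0, .ofNat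 0, .ofNat 615, .ofNat 264018, .ofNat 14957984089028195137173993443220573388800, .ofNat 0, .ofNat 3596102824893453008800112949225062400, .ofNat 0, .ofNat 0, .ofNat 0, .ofNat 0, .ofNat 0, .ofNat 0, .ofNat 0, .ofNat 0, .ofNat 0, .ofNat 0, .ofNat 0, .ofNat 0, .ofNat 0⟩)
    (by decide +kernel)
theorem L00679 : Good (Phi V4.P V4.D (-1) 1) ⟨3, 2, 3, 4, 4, 1, 4, 10, 5, 22⟩ :=
  leaf_sound (S := T4.ds_mp) T4.ok_mp (w := 208) (c := ⟨⟨.negSucc 306, .negSucc 31, .negSucc 2, .negSucc 6, .ofNat 29, .ofNat 6⟩, ⟨.negSucc 161, .ofNat 0, .negSucc 33, .negSucc 3, .ofNat 16, .ofNat 4⟩, ⟨.negSucc 18, .ofNat 39, .ofNat 2, .ofNat 15, .negSucc 27, .negSucc 0⟩, ⟨.negSucc 824, .negSucc 13, .negSucc 0, .ofNat 9, .ofNat 75, .ofNat 16⟩, ⟨.negSucc 49, .negSucc 2, .ofNat 0, .negSucc 53, .ofNat 5, .ofNat 1⟩, .ofNat 442, .negSucc 212, .ofNat 0, .negSucc 212, .ofNat 717, .ofNat 0, .ofNat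 273, .ofNat 160, .negSucc 245, .ofNat 0, .ofNat 230, .negSucc 88, .ofNat 0, .ofNat 0, .ofNat 650, .ofNat 1339330, .ofNat 1238033542125427669178430925526514479923200, .ofNat 0, .ofNat 4110000244853338831534813881727922995200, .ofNat 0, .ofNat 164731945581785571480453260908683067392000, .ofNat 0, .ofNat 755228423391775763182878940764674457600, .ofNat 0, .ofNat 0, .ofNat 0, .ofNat 0, .ofNat 0, .ofNat 0, .ofNat 0, .ofNat 0, .ofNat 0⟩)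
    (by decide +kernel)
theorem L00680 : Good (Phi V4.P V4.D (-1) 1) ⟨3, 2, 3, 4, 4, 1, 4, 10, 5, 23⟩ :=
  leaf_sound (S := T4.ds_mp) T4.ok_mp (w := 216) (c := ⟨⟨.negSucc 299, .negSucc 29, .negSucc 3, .negSucc 5, .ofNat 27, .ofNat 8⟩, ⟨.negSucc 159, .ofNat 0, .negSucc 32, .negSucc 3, .ofNat 16, .ofNat 3⟩, ⟨.negSucc 21, .ofNat 38, .ofNat 3, .ofNat 14, .negSucc 25, .negSucc 2⟩, ⟨.negSucc 806, .negSucc 10, .negSucc 1, .ofNat 11, .ofNat 71, .ofNat 20⟩, ⟨.negSucc 49, .negSucc 2, .ofNat 0, .negSucc 52, .ofNat 6, .ofNat 0⟩, .ofNat 440, .negSucc 210, .ofNat 0, .negSucc 210, .ofNat 717, .ofNat 0, .ofNat 272, .ofNat 158, .negSucc 247, .ofNat 0, .ofNat 228, .negSucc 88, .ofNat 0, .ofNat 0, .ofNat 643, .ofNat 8929993, .ofNat 11012254162864877629461225272867418223411200, .ofNat 0, .ofNat 29862028584231523813898333486427458764800, .ofNat 0, .ofNat 9249834905814755956034025011236279261593600,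 .ofNat 0, .ofNat 0, .ofNat 0, .ofNat 0, .ofNat 0, .ofNat 0, .ofNat 0, .ofNat 0, .ofNat 0, .ofNat 0, .ofNat 0⟩)
    (by decide +kernel)
theorem L00681 : Good (Phi V4.P V4.D (-1) 1) ⟨3, 2, 3, 4, 4, 1, 4, 11, 5, 22⟩ :=
  leaf_sound (S := T4.ds_mp) T4.ok_mp (w := 208) (c := ⟨⟨.negSucc 279, .negSucc 28, .negSucc 3, .negSucc 4, .ofNat 35, .ofNat 5⟩, ⟨.negSucc 147, .ofNat 0, .negSucc 30, .negSucc 2, .ofNat 19, .ofNat 3⟩, ⟨.negSucc 44, .ofNat 36, .ofNat 3, .ofNat 12, .negSucc 32, .ofNat 0⟩, ⟨.negSucc 751, .negSucc 12, .negSucc 2, .ofNat 15, .ofNat 90, .ofNat 14⟩, ⟨.negSucc 45, .negSucc 2, .negSucc 0, .negSucc 51, .ofNat 5, .ofNat 1⟩, .ofNat 440, .negSucc 210, .ofNat 0, .negSucc 210, .ofNat 717, .ofNat 0, .ofNat 281, .ofNat 163, .negSucc 268, .ofNat 0, .ofNat 234, .negSucc 96, .ofNat 0, .ofNat 0, .ofNat 656, .ofNat 652194, .ofNat 0, .ofNat 0, .ofNat 1993086425320448321811569284190778163200,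 .ofNat 0, .ofNat 0, .ofNat 0, .ofNat 0, .ofNat 0, .ofNat 0, .ofNat 0, .ofNat 0, .ofNat 0, .ofNat 0, .ofNat 0, .ofNat 0, .ofNat 0⟩)
    (by decide +kernel)
theorem L00682 : Good (Phi V4.P V4.D (-1) 1) ⟨3, 2, 3, 4, 4, 1, 4, 11, 5, 23⟩ :=
  leaf_sound (S := T4.ds_mp) T4.ok_mp (w := 208) (c := ⟨⟨.negSucc 276, .negSucc 27, .negSucc 3, .negSucc 1, .ofNat 36, .ofNat 5⟩, ⟨.negSucc 146, .ofNat 1, .negSucc 29, .negSucc 1, .ofNat 19, .ofNat 3⟩, ⟨.negSucc 41, .ofNat 33, .ofNat 3, .ofNat 10, .negSucc 32, .ofNat 0⟩, ⟨.negSucc 742, .negSucc 9, .negSucc 3, .ofNat 20, .ofNat 92, .ofNat 13⟩, ⟨.negSucc 45, .negSucc 1, .ofNat 0, .negSucc 49, .ofNat 5, .ofNat 1⟩, .ofNat 437, .negSucc 208, .ofNat 0, .negSucc 208, .ofNat 717, .ofNat 0, .ofNat 276, .ofNat 159, .negSucc 266, .ofNat 0, .ofNat 229, .negSucc 95, .ofNat 0, .ofNat 0, .ofNat 643, .ofNat 849736, .ofNat 913452264793848255397552181114444552601600,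 .ofNat 0, .ofNat 2509093371492274153138103036973101875200, .ofNat 0, .ofNat 0, .ofNat 0, .ofNat 0, .ofNat 0, .ofNat 0, .ofNat 0, .ofNat 0, .ofNat 0, .ofNat 0, .ofNat 0, .ofNat 0, .ofNat 0⟩)
    (by decide +kernel)
theorem L00683 : Good (Phi V4.P V4.D (-1) 1) ⟨3, 2, 3, 4, 3, 1, 3, 4, 4, 10⟩ :=
  leaf_sound (S := T4.ds_mp) T4.ok_mp (w := 192) (c := ⟨⟨.negSucc 376, .negSucc 37, .negSucc 8, .negSucc 34, .ofNat 51, .ofNat 17⟩, ⟨.negSucc 200, .ofNat 1, .negSucc 40, .negSucc 19, .ofNat 27, .ofNat 9⟩, ⟨.ofNat 52, .ofNat 55, .ofNat 6, .ofNat 49, .negSucc 56, .negSucc 8⟩, ⟨.negSucc 986, .negSucc 13, .negSucc 4, .negSucc 22, .ofNat 132, .ofNat 44⟩, ⟨.negSucc 112, .negSucc 8, .ofNat 0, .negSucc 132, .ofNat 9, .ofNat 4⟩, .ofNat 871, .negSucc 799, .ofNat 0, .negSucc 799, .ofNat 1921, .ofNat 0, .ofNat 199, .ofNat 219, .negSucc 180, .ofNat 0, .ofNat 185, .negSucc 81,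 .ofNat 0, .ofNat 0, .ofNat 646, .ofNat 239323, .ofNat 92012973387258859422761855780860723200, .ofNat 0, .ofNat 12442753187455673795737871292825600, .ofNat 0, .ofNat 0, .ofNat 0, .ofNat 0, .ofNat 0, .ofNat 0, .ofNat 0, .ofNat 0, .ofNat 0, .ofNat 0, .ofNat 0, .ofNat 116663927265791073510612817202380800, .ofNat 0⟩)
    (by decide +kernel)
theorem L00684 : Good (Phi V4.P V4.D (-1) 1) ⟨3, 2, 3, 4, 3, 1, 3, 4, 4, 11⟩ :=
  leaf_sound (S := T4.ds_mp) T4.ok_mp (w := 192) (c := ⟨⟨.negSucc 374, .negSucc 33, .negSucc 8, .negSucc 30, .ofNat 64, .ofNat 17⟩, ⟨.negSucc 197, .ofNat 2, .negSucc 38, .negSucc 17, .ofNat 32, .ofNat 8⟩, ⟨.ofNat 50, .ofNat 53, .ofNat 8, .ofNat 49, .negSucc 62, .negSucc 8⟩, ⟨.negSucc 973, .negSucc 5, .negSucc 4, .negSucc 12, .ofNat 155, .ofNat 43⟩, ⟨.negSucc 108, .negSucc 13, .ofNat 0, .negSucc 134, .ofNat 14, .ofNat 6⟩, .ofNat 439, .negSucc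 209, .ofNat 0, .negSucc 209, .ofNat 717, .ofNat 0, .ofNat 275, .ofNat 159, .negSucc 226, .ofNat 0, .ofNat 228, .negSucc 77, .ofNat 0, .ofNat 0, .ofNat 653, .ofNat 1202034, .ofNat 772183839375635996513877118236072345600, .ofNat 0, .ofNat 72457576922074929136752854355148800, .ofNat 0, .ofNat 2092517440215546181628039846141362176000, .ofNat 0, .ofNat 74988944430877916287203030545203200, .ofNat 0, .ofNat 2005517075613921346384077521288586854400, .ofNat 0, .ofNat 0, .ofNat 0, .ofNat 2565241166605602316866165726813093888000, .ofNat 0, .ofNat 0, .ofNat 0⟩)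
    (by decide +kernel)
theorem L00685 : Good (Phi V4.P V4.D (-1) 1) ⟨3, 2, 3, 4, 4, 2, 3, 5, 4, 10⟩ :=
  leaf_sound (S := T4.ds_mp) T4.ok_mp (w := 200) (c := ⟨⟨.negSucc 332, .negSucc 30, .negSucc 4, .negSucc 11, .ofNat 71, .ofNat 14⟩, ⟨.negSucc 175, .ofNat 1, .negSucc 33, .negSucc 7, .ofNat 38, .ofNat 8⟩, ⟨.ofNat 2, .ofNat 42, .ofNat 4, .ofNat 19, .negSucc 68, .negSucc 3⟩, ⟨.negSucc 862, .negSucc 8, .ofNat 1, .negSucc 1, .ofNat 180, .ofNat 37⟩, ⟨.negSucc 106, .negSucc 6, .ofNat 0, .negSucc 59, .ofNat 15, .ofNat 3⟩, .ofNat 441, .negSucc 210, .ofNat 0, .negSucc 210, .ofNat 715, .ofNat 0, .ofNat 288, .ofNat 167, .negSucc 263, .ofNat 0, .ofNat 241, .negSucc 93, .ofNat 0, .ofNat 0, .ofNat 674, .ofNat 134086, .ofNat 0, .ofNat 0, .ofNat 3952789353800666232449357761531084800, .ofNat 0, .ofNat 0, .ofNat 0, .ofNat 0, .ofNat 0, .ofNat 0, .ofNat 0, .ofNat 0, .ofNat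 0, .ofNat 0, .ofNat 0, .ofNat 0, .ofNat 0⟩)
    (by decide +kernel)
theorem L00686 : Good (Phi V4.P V4.D (-1) 1) ⟨3, 2, 3, 4, 5, 4, 4, 10, 5, 22⟩ :=
  leaf_sound (S := T4.ds_mp) T4.ok_mp (w := 224) (c := ⟨⟨.negSucc 315, .negSucc 30, .negSucc 6, .negSucc 4, .ofNat 31, .ofNat 7⟩, ⟨.negSucc 167, .ofNat 1, .negSucc 34, .negSucc 2, .ofNat 17, .ofNat 4⟩, ⟨.negSucc 3, .ofNat 42, .ofNat 5, .ofNat 9, .negSucc 29, .negSucc 1⟩, ⟨.negSucc 821, .negSucc 8, .negSucc 3, .ofNat 2, .ofNat 79, .ofNat 17⟩, ⟨.negSucc 103, .negSucc 5, .ofNat 0, .negSucc 29, .ofNat 6, .ofNat 1⟩, .ofNat 440, .negSucc 211, .ofNat 0, .negSucc 211, .ofNat 718, .ofNat 0, .ofNat 275, .ofNat 160, .negSucc 243, .ofNat 0, .ofNat 229, .negSucc 86, .ofNat 0, .ofNat 0, .ofNat 650, .ofNat 1505409, .ofNat 187841344991037049397004784934259409079500800, .ofNat 0, .ofNat 2956261874230890455561382063887458762752000,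 .ofNat 0, .ofNat 0, .ofNat 0, .ofNat 0, .ofNat 0, .ofNat 0, .ofNat 0, .ofNat 0, .ofNat 0, .ofNat 0, .ofNat 0, .ofNat 0, .ofNat 0⟩)
    (by decide +kernel)
theorem L00687 : Good (Phi V4.P V4.D (-1) 1) ⟨3, 2, 3, 4, 5, 4, 4, 10, 5, 23⟩ :=
  leaf_sound (S := T4.ds_mp) T4.ok_mp (w := 224) (c := ⟨⟨.negSucc 312, .negSucc 27, .negSucc 6, .negSucc 3, .ofNat 33, .ofNat 6⟩, ⟨.negSucc 164, .ofNat 1, .negSucc 32, .negSucc 2, .ofNat 16, .ofNat 4⟩, ⟨.negSucc 2, .ofNat 39, .ofNat 5, .ofNat 8, .negSucc 30, .negSucc 0⟩, ⟨.negSucc 809, .negSucc 4, .negSucc 4, .ofNat 3, .ofNat 83, .ofNat 15⟩, ⟨.negSucc 101, .negSucc 5, .ofNat 0, .negSucc 28, .ofNat 6, .ofNat 2⟩, .ofNat 191, .negSucc 33, .ofNat 0, .negSucc 33, .ofNat 235, .ofNat 0, .ofNat 399, .ofNat 95, .negSucc 547, .ofNat 0, .ofNat 351, .negSucc 103, .ofNat 0, .ofNat 0, .ofNat 845, .ofNat 5565493, .ofNat 912359865433882119595797360848781396934656000,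 .ofNat 0, .ofNat 11694284556126104709142658982285931236556800, .ofNat 0, .ofNat 1183015615988360895060956134335898019954688000, .ofNat 0, .ofNat 0, .ofNat 0, .ofNat 0, .ofNat 0, .ofNat 0, .ofNat 0, .ofNat 1526604688104366727698218832006622122659020800, .ofNat 0, .ofNat 0, .ofNat 0⟩)
    (by decide +kernel)
theorem L00688 : Good (Phi V4.P V4.D (-1) 1) ⟨3, 2, 3, 4, 5, 5, 4, 10, 4, 11⟩ :=
  leaf_sound (S := T4.ds_mp) T4.ok_mp (w := 216) (c := ⟨⟨.negSucc 322, .negSucc 28, .negSucc 7, .negSucc 5, .ofNat 32, .ofNat 15⟩, ⟨.negSucc 171, .ofNat 2, .negSucc 34, .negSucc 3, .ofNat 17, .ofNat 8⟩, ⟨.ofNat 5, .ofNat 43, .ofNat 6, .ofNat 10, .negSucc 31, .negSucc 4⟩, ⟨.negSucc 824, .negSucc 3, .negSucc 4, .ofNat 0, .ofNat 81, .ofNat 37⟩, ⟨.negSucc 131, .negSucc 8, .ofNat 0, .negSucc 30, .ofNat 7, .ofNat 3⟩, .ofNat 439, .negSucc 209, .ofNat 0, .negSucc 209, .ofNat 717,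 .ofNat 0, .ofNat 276, .ofNat 159, .negSucc 242, .ofNat 0, .ofNat 229, .negSucc 85, .ofNat 0, .ofNat 0, .ofNat 648, .ofNat 1285438, .ofNat 47957230094976416000580833756268866410905600, .ofNat 0, .ofNat 182010063698997677536618789801866716774400, .ofNat 0, .ofNat 0, .ofNat 0, .ofNat 164439171417482602335443946194649848217600, .ofNat 0, .ofNat 0, .ofNat 0, .ofNat 0, .ofNat 0, .ofNat 0, .ofNat 0, .ofNat 0, .ofNat 0⟩)
    (by decide +kernel)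
theorem L00689 : Good (Phi V4.P V4.D (-1) 1) ⟨3, 2, 3, 4, 4, 2, 4, 11, 4, 11⟩ :=
  leaf_sound (S := T4.ds_mp) T4.ok_mp (w := 208) (c := ⟨⟨.negSucc 288, .negSucc 24, .negSucc 6, .negSucc 7, .ofNat 38, .ofNat 13⟩, ⟨.negSucc 152, .ofNat 2, .negSucc 30, .negSucc 4, .ofNat 20, .ofNat 6⟩, ⟨.negSucc 30, .ofNat 36, .ofNat 6, .ofNat 16, .negSucc 35, .negSucc 1⟩, ⟨.negSucc 748, .ofNat 0, .negSucc 4, .ofNat 9, .ofNat 97, .ofNat 32⟩, ⟨.negSucc 96, .negSucc 7, .ofNat 1, .negSucc 58, .ofNat 8, .ofNat 2⟩, .ofNat 867, .negSucc 799, .ofNat 0, .negSucc 799, .ofNat 1928, .ofNat 0, .ofNat 198, .ofNat 219, .negSucc 209, .ofNat 0, .ofNat 184, .negSucc 96, .ofNat 0, .ofNat 0, .ofNat 615, .ofNat 335083, .ofNat 75724925576453493535103764856416763904000, .ofNat 0, .ofNat 77202767000468630928748704588575539200, .ofNat 0, .ofNat 0, .ofNat 0, .ofNat 0, .ofNat 0, .ofNat 0, .ofNat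 0, .ofNat 0, .ofNat 0, .ofNat 0, .ofNat 0, .ofNat 0, .ofNat 0⟩)
    (by decide +kernel)
theorem L00690 : Good (Phi V4.P V4.D (-1) 1) ⟨3, 2, 3, 4, 4, 3, 3, 5, 3, 5⟩ :=
  leaf_sound (S := T4.ds_mp) T4.ok_mp (w := 200) (c := ⟨⟨.negSucc 348, .negSucc 24, .negSucc 10, .negSucc 14, .ofNat 75, .ofNat 32⟩, ⟨.negSucc 185, .ofNat 4, .negSucc 35, .negSucc 8, .ofNat 40, .ofNat 17⟩, ⟨.ofNat 24, .ofNat 42, .ofNat 10, .ofNat 21, .negSucc 72, .negSucc 10⟩, ⟨.negSucc 875, .ofNat 6, .negSucc 9, .negSucc 3, .ofNat 190, .ofNat 79⟩, ⟨.negSucc 164, .negSucc 15, .ofNat 0, .negSucc 66, .ofNat 19, .ofNat 7⟩, .ofNat 441, .negSucc 211, .ofNat 0, .negSucc 211, .ofNat 717, .ofNat 0, .ofNat 283, .ofNat 166, .negSucc 254, .ofNat 0, .ofNat 237, .negSucc 90, .ofNat 0, .ofNat 0, .ofNat 656, .ofNat 107363, .ofNat 1386842447395101439526474810116590796800, .ofNat 0, .ofNat 0, .ofNat 0, .ofNat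 0, .ofNat 0, .ofNat 0, .ofNat 0, .ofNat 0, .ofNat 0, .ofNat 0, .ofNat 0, .ofNat 0, .ofNat 0, .ofNat 0, .ofNat 0⟩)
    (by decide +kernel)
theorem L00691 : Good (Phi V4.P V4.D (-1) 1) ⟨3, 2, 3, 4, 3, 2, 3, 4, 3, 4⟩ :=
  leaf_sound (S := T4.ds_mp) T4.ok_mp (w := 192) (c := ⟨⟨.negSucc 455, .negSucc 48, .negSucc 16, .negSucc 58, .ofNat 58, .ofNat 49⟩, ⟨.negSucc 242, .negSucc 0, .negSucc 51, .negSucc 32, .ofNat 31, .ofNat 26⟩, ⟨.ofNat 130, .ofNat 80, .ofNat 14, .ofNat 69, .negSucc 74, .negSucc 33⟩, ⟨.negSucc 1130, .negSucc 23, .negSucc 9, .negSucc 73, .ofNat 148, .ofNat 126⟩, ⟨.negSucc 252, .negSucc 21, .ofNat 3, .negSucc 156, .ofNat 11, .ofNat 11⟩, .ofNat 872, .negSucc 801, .ofNat 0, .negSucc 801, .ofNat 1923, .ofNat 0, .ofNat 438, .ofNat 487, .negSucc 380, .ofNat 0, .ofNat 408, .negSucc 166, .ofNat 0, .ofNat 0, .ofNat 1410, .ofNat 142687, .ofNat 0, .ofNat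 0, .ofNat 0, .ofNat 0, .ofNat 0, .ofNat 0, .ofNat 0, .ofNat 0, .ofNat 0, .ofNat 0, .ofNat 0, .ofNat 0, .ofNat 0, .ofNat 0, .ofNat 0, .ofNat 0⟩)
    (by decide +kernel)
theorem L00692 : Good (Phi V4.P V4.D (-1) 1) ⟨3, 2, 3, 4, 3, 2, 3, 4, 3, 5⟩ :=
  leaf_sound (S := T4.ds_mp) T4.ok_mp (w := 192) (c := ⟨⟨.negSucc 416, .negSucc 37, .negSucc 16, .negSucc 48, .ofNat 58, .ofNat 42⟩, ⟨.negSucc 222, .ofNat 2, .negSucc 46, .negSucc 26, .ofNat 31, .ofNat 23⟩, ⟨.ofNat 102, .ofNat 68, .ofNat 14, .ofNat 62, .negSucc 66, .negSucc 23⟩, ⟨.negSucc 1028, .negSucc 5, .negSucc 10, .negSucc 46, .ofNat 147, .ofNat 107⟩, ⟨.negSucc 242, .negSucc 25, .ofNat 3, .negSucc 156, .ofNat 12, .ofNat 12⟩, .ofNat 874, .negSucc 804, .ofNat 0, .negSucc 804, .ofNat 1928, .ofNat 0, .ofNat 199, .ofNat 221, .negSucc 171, .ofNat 0, .ofNat 186, .negSucc 76, .ofNat 0, .ofNat 0, .ofNat 646, .ofNat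 139051, .ofNat 22889560422924533240617445035396300800, .ofNat 0, .ofNat 0, .ofNat 0, .ofNat 0, .ofNat 0, .ofNat 0, .ofNat 0, .ofNat 0, .ofNat 0, .ofNat 0, .ofNat 0, .ofNat 0, .ofNat 0, .ofNat 5485270206985778699140128885964800, .ofNat 0⟩)
    (by decide +kernel)
theorem L00693 : Good (Phi V4.P V4.D (-1) 1) ⟨3, 2, 3, 4, 3, 2, 3, 5, 2, 2⟩ :=
  leaf_sound (S := T4.ds_mp) T4.ok_mp (w := 184) (c := ⟨⟨.negSucc 403, .negSucc 38, .negSucc 13, .negSucc 53, .ofNat 81, .ofNat 88⟩, ⟨.negSucc 215, .ofNat 2, .negSucc 42, .negSucc 29, .ofNat 42, .ofNat 45⟩, ⟨.ofNat 61, .ofNat 65, .ofNat 10, .ofNat 64, .negSucc 84, .negSucc 43⟩, ⟨.negSucc 990, .negSucc 8, .negSucc 6, .negSucc 57, .ofNat 201, .ofNat 220⟩, ⟨.negSucc 236, .negSucc 29, .ofNat 1, .negSucc 157, .ofNat 23, .ofNat 20⟩, .ofNat 866, .negSucc 802, .ofNat 0, .negSucc 802, .ofNat 1936, .ofNat 0, .ofNat 220, .ofNat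 246, .negSucc 216, .ofNat 0, .ofNat 204, .negSucc 97, .ofNat 0, .ofNat 0, .ofNat 677, .ofNat 33183, .ofNat 0, .ofNat 0, .ofNat 0, .ofNat 0, .ofNat 0, .ofNat 0, .ofNat 0, .ofNat 0, .ofNat 0, .ofNat 0, .ofNat 0, .ofNat 0, .ofNat 0, .ofNat 0, .ofNat 0, .ofNat 0⟩)
    (by decide +kernel)
theorem L00694 : Good (Phi V4.P V4.D (-1) 1) ⟨3, 2, 3, 4, 3, 3, 2, 2, 2, 2⟩ :=
  leaf_sound (S := T4.ds_mp) T4.ok_mp (w := 176) (c := ⟨⟨.negSucc 509, .negSucc 57, .negSucc 21, .negSucc 78, .ofNat 125, .ofNat 105⟩, ⟨.negSucc 275, .negSucc 0, .negSucc 57, .negSucc 41, .ofNat 67, .ofNat 57⟩, ⟨.ofNat 189, .ofNat 100, .ofNat 22, .ofNat 84, .negSucc 161, .negSucc 69⟩, ⟨.negSucc 1207, .negSucc 27, .negSucc 12, .negSucc 112, .ofNat 320, .ofNat 278⟩, ⟨.negSucc 396, .negSucc 42, .ofNat 6, .negSucc 180, .ofNat 19, .ofNat 9⟩, .ofNat 438, .negSucc 209, .ofNat 0, .negSucc 209, .ofNat 718,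 .ofNat 0, .ofNat 644, .ofNat 378, .negSucc 481, .ofNat 0, .ofNat 529, .negSucc 138, .ofNat 0, .ofNat 0, .ofNat 1506, .ofNat 39335, .ofNat 0, .ofNat 0, .ofNat 0, .ofNat 0, .ofNat 0, .ofNat 3484477212546148528279548904184217600, .ofNat 0, .ofNat 0, .ofNat 0, .ofNat 2800224159133768922148798809191219200, .ofNat 0, .ofNat 0, .ofNat 0, .ofNat 2686966845254763046183712245520793600, .ofNat 0, .ofNat 0⟩)
    (by decide +kernel)
theorem L00695 : Good (Phi V4.P V4.D (-1) 1) ⟨3, 3, 3, 4, 2, 0, 2, 2, 3, 4⟩ :=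
  leaf_sound (S := T4.ds_mp) T4.ok_mp (w := 176) (c := ⟨⟨.negSucc 441, .negSucc 64, .negSucc 7, .negSucc 49, .ofNat 139, .ofNat 36⟩, ⟨.negSucc 204, .ofNat 2, .negSucc 41, .negSucc 27, .ofNat 63, .ofNat 16⟩, ⟨.ofNat 99, .ofNat 72, .ofNat 1, .ofNat 98, .negSucc 162, .negSucc 18⟩, ⟨.negSucc 1108, .negSucc 56, .negSucc 9, .negSucc 4, .ofNat 331, .ofNat 86⟩, ⟨.ofNat 3, .negSucc 12, .negSucc 4, .negSucc 255, .ofNat 17, .ofNat 4⟩, .ofNat 2099, .negSucc 3357, .ofNat 0, .negSucc 3357, .ofNat 7571, .ofNat 0, .ofNat 159, .ofNat 292, .negSucc 232, .ofNat 0, .ofNat 171, .negSucc 104, .ofNat 0, .ofNat 0, .ofNat 695, .ofNat 15140, .ofNat 0, .ofNat 0, .ofNat 0, .ofNat 0, .ofNat 0, .ofNat 0, .ofNat 9869283631314953283110436864000, .ofNat 0, .ofNat 0, .ofNat 0, .ofNat 3171719799517026244243960627200, .ofNat 0, .ofNat 0, .ofNat 0, .ofNat 0, .ofNat 0⟩)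
    (by decide +kernel)
theorem L00696 : Good (Phi V4.P V4.D (-1) 1) ⟨3, 3, 3, 4, 3, 0, 2, 2, 4, 10⟩ :=
  leaf_sound (S := T4.ds_mp) T4.ok_mp (w := 192) (c := ⟨⟨.negSucc 419, .negSucc 46, .ofNat 3, .negSucc 0, .ofNat 129, .ofNat 13⟩, ⟨.negSucc 194, .ofNat 7, .negSucc 33, .negSucc 2, .ofNat 59, .ofNat 6⟩, ⟨.ofNat 83, .ofNat 52, .ofNat 0, .ofNat 25, .negSucc 131, .negSucc 2⟩, ⟨.negSucc 1050, .negSucc 24, .ofNat 9, .ofNat 46, .ofNat 309, .ofNat 31⟩, ⟨.negSucc 4, .ofNat 0, .negSucc 0, .negSucc 106, .ofNat 12, .ofNat 1⟩, .ofNat 748, .negSucc 673, .ofNat 0, .negSucc 673, .ofNat 1851, .ofNat 0, .ofNat 226, .ofNat 217, .negSucc 228, .ofNat 0, .ofNat 183, .negSucc 91, .ofNat 0, .ofNat 0, .ofNat 656, .ofNat 63891, .ofNat 4432767195598441094387099266921267200, .ofNat 0, .ofNat 318927783101854865820634998374400, .ofNat 0, .ofNat 0, .ofNat 0, .ofNat 19679686422958733829040734260428800,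 .ofNat 0, .ofNat 0, .ofNat 0, .ofNat 0, .ofNat 0, .ofNat 59793603831347528236212809416625356800, .ofNat 0, .ofNat 0, .ofNat 0⟩)
    (by decide +kernel)

end Crest.Agent.R097C4.N4mp
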