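import Crest.Agent.R097C4.N4mp_000
import Crest.Agent.R097C4.N4mp_001
import Crest.Agent.R097C4.N4mp_002
import Crest.Agent.R097C4.N4mp_003
import Crest.Agent.R097C4.N4mp_004
import Crest.Agent.R097C4.N4mp_005
import Crest.Agent.R097C4.N4mp_006
import Crest.Agent.R097C4.N4mp_007
import Crest.Agent.R097C4.N4mp_008
import Crest.Agent.R097C4.N4mp_009
import Crest.Agent.R097C4.N4mp_010
import Crest.Agent.R097C4.N4mp_011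

/-!
# Row 97, box cover in dimension n = 4 (generated)
-/

set_option autoImplicit false
set_option Elab.async false
set_option maxHeartbeats 0
set_option maxRecDepth 100000

open Crest.Agent.R097 Crest.Agent.R097.KA


namespace Crest.Agent.R097C4.N4mp

theorem g00000 : Good (Phi V4.P V4.D (-1) 1) ⟨1, 0, 0, 0, 1, 0, 1, 0, 2, 0⟩ :=
  Good.n4 (Good.n1 (Good.n0 L00000 (Good.n3 L00001 L00002)) (Good.n3 L00003 L00004)) (Good.n1 (Good.n3 L00005 L00006) L00007)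
theorem g00001 : Good (Phi V4.P V4.D (-1) 1) ⟨1, 0, 1, 0, 1, 0, 2, 3, 3, 0⟩ :=
  Good.n3 (Good.n0 L00011 L00012) (Good.n0 (Good.n1 L00013 (Good.n2 L00014 L00015)) (Good.n1 L00016 L00017))
theorem g00002 : Good (Phi V4.P V4.D (-1) 1) ⟨1, 0, 0, 0, 1, 0, 1, 1, 3, 0⟩ :=
  Good.n3 (Good.n0 L00008 (Good.n1 L00009 L00010)) (Good.n1 g00001 (Good.n1 (Good.n0 L00018 L00019) L00020))
theorem g00003 : Good (Phi V4.P V4.D (-1) 1) ⟨1, 0, 1, 0, 1, 0, 2, 3, 3, 1⟩ :=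
  Good.n0 (Good.n1 L00025 (Good.n3 L00026 (Good.n2 L00027 L00028))) (Good.n3 L00029 (Good.n2 L00030 L00031))
theorem g00004 : Good (Phi V4.P V4.D (-1) 1) ⟨1, 0, 1, 1, 1, 0, 2, 3, 3, 1⟩ :=
  Good.n0 (Good.n3 L00032 (Good.n1 (Good.n2 L00033 L00034) L00035)) (Good.n3 L00036 (Good.n2 L00037 L00038))
theorem g00005 : Good (Phi V4.P V4.D (-1) 1) ⟨1, 0, 0, 0, 1, 0, 1, 1, 2, 0⟩ :=
  Good.n4 g00002 (Good.n3 (Good.n1 (Good.n0 L00021 L00022) (Good.n0 L00023 L00024)) (Good.n1 g00003 g00004))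
theorem g00006 : Good (Phi V4.P V4.D (-1) 1) ⟨2, 0, 3, 3, 1, 0, 2, 3, 3, 2⟩ :=
  Good.n3 L00053 (Good.n2 (Good.n3 L00054 (Good.n0 (Good.n2 L00055 L00056) (Good.n2 L00057 L00058))) L00059)
theorem g00007 : Good (Phi V4.P V4.D (-1) 1) ⟨1, 0, 1, 0, 1, 0, 2, 3, 3, 2⟩ :=
  Good.n0 (Good.n1 (Good.n2 L00048 L00049) (Good.n1 (Good.n2 (Good.n3 L00050 L00051) L00052) g00006)) (Good.n3 L00060 (Good.n2 L00061 L00062))
theorem g00008 : Good (Phi V4.P V4.D (-1) 1) ⟨2, 0, 1, 0, 1, 0, 3, 7, 3, 3⟩ :=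
  Good.n1 (Good.n2 L00064 L00065) (Good.n2 (Good.n2 (Good.n3 L00066 (Good.n0 L00067 L00068)) (Good.n3 L00069 L00070)) L00071)
theorem g00009 : Good (Phi V4.P V4.D (-1) 1) ⟨1, 0, 1, 0, 1, 0, 2, 3, 3, 3⟩ :=
  Good.n0 (Good.n3 L00063 g00008) (Good.n1 (Good.n0 (Good.n2 L00072 L00073) L00074) (Good.n0 (Good.n2 L00075 L00076) L00077))
theorem g00010 : Good (Phi V4.P V4.D (-1) 1) ⟨2, 0, 4, 8, 1, 0, 2, 3, 3, 2⟩ :=
  Good.n3 L00079 (Good.n2 (Good.n3 L00080 (Good.n0 (Good.n2 L00081 L00082) (Good.n2 L00083 L00084))) L00085)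
theorem g00011 : Good (Phi V4.P V4.D (-1) 1) ⟨2, 0, 3, 4, 1, 0, 1, 1, 3, 2⟩ :=
  Good.n1 (Good.n3 L00078 g00010) (Good.n0 L00086 (Good.n3 L00087 (Good.n2 (Good.n3 L00088 (Good.n3 L00089 L00090)) L00091)))
theorem g00012 : Good (Phi V4.P V4.D (-1) 1) ⟨2, 0, 3, 4, 1, 0, 1, 1, 3, 3⟩ :=
  Good.n3 L00093 (Good.n3 L00094 (Good.n2 (Good.n3 L00095 (Good.n2 (Good.n0 L00096 L00097) L00098)) L00099))
theorem g00013 : Good (Phi V4.P V4.D (-1) 1) ⟨2, 1, 1, 1, 1, 0, 1, 1, 2, 1⟩ :=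
  Good.n1 (Good.n1 (Good.n3 L00102 (Good.n2 (Good.n3 L00103 (Good.n0 L00104 L00105)) L00106)) L00107) L00108
theorem g00014 : Good (Phi V4.P V4.D (-1) 1) ⟨1, 0, 0, 0, 1, 0, 1, 1, 2, 1⟩ :=
  Good.n1 (Good.n3 (Good.n4 (Good.n2 L00045 L00046) L00047) (Good.n4 g00007 g00009)) (Good.n0 (Good.n1 (Good.n4 (Good.n1 g00011 L00092) (Good.n1 g00012 L00100)) L00101) g00013)
theorem g00015 : Good (Phi V4.P V4.D (-1) 1) ⟨1, 0, 0, 0, 1, 0, 0, 0, 2, 1⟩ :=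
  Good.n3 (Good.n4 (Good.n2 L00039 (Good.n0 L00040 (Good.n4 L00041 L00042))) (Good.n3 L00043 L00044)) g00014
theorem g00016 : Good (Phi V4.P V4.D (-1) 1) ⟨2, 1, 1, 0, 2, 2, 1, 0, 3, 0⟩ :=
  Good.n1 (Good.n0 L00113 (Good.n1 L00114 L00115)) (Good.n0 (Good.n3 L00116 L00117) (Good.n1 L00118 (Good.n3 L00119 L00120)))
theorem g00017 : Good (Phi V4.P V4.D (-1) 1) ⟨1, 0, 0, 0, 2, 2, 1, 0, 3, 0⟩ :=
  Good.n1 (Good.n0 (Good.n1 L00109 (Good.n1 L00110 (Good.n3 L00111 L00112))) g00016) (Good.n1 (Good.n0 (Good.n3 L00121 L00122) (Good.n3 (Good.n3 L00123 L00124) L00125)) L00126)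
theorem g00018 : Good (Phi V4.P V4.D (-1) 1) ⟨1, 0, 0, 0, 3, 6, 2, 0, 3, 0⟩ :=
  Good.n1 L00127 (Good.n1 (Good.n1 (Good.n0 (Good.n3 L00128 L00129) (Good.n4 L00130 L00131)) L00132) L00133)
theorem g00019 : Good (Phi V4.P V4.D (-1) 1) ⟨1, 0, 2, 2, 3, 7, 2, 0, 3, 0⟩ :=
  Good.n0 (Good.n1 (Good.n3 L00137 L00138) L00139) (Good.n1 (Good.n0 (Good.n3 (Good.n4 L00140 L00141) L00142) L00143) L00144)
theorem g00020 : Good (Phi V4.P V4.D (-1) 1) ⟨1, 0, 0, 0, 2, 3, 2, 1, 3, 0⟩ :=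
  Good.n1 (Good.n0 (Good.n4 L00146 L00147) (Good.n2 (Good.n1 L00148 L00149) (Good.n1 L00150 L00151))) (Good.n1 (Good.n4 L00152 L00153) L00154)
theorem g00021 : Good (Phi V4.P V4.D (-1) 1) ⟨1, 0, 0, 0, 2, 3, 1, 0, 3, 0⟩ :=
  Good.n3 (Good.n2 g00018 (Good.n1 (Good.n0 L00134 (Good.n1 L00135 L00136)) (Good.n1 g00019 L00145))) g00020
theorem g00022 : Good (Phi V4.P V4.D (-1) 1) ⟨2, 0, 1, 1, 1, 1, 2, 2, 3, 0⟩ :=
  Good.n1 (Good.n1 (Good.n2 L00158 (Good.n1 (Good.n0 L00159 L00160) (Good.n0 L00161 L00162))) L00163) L00164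
theorem g00023 : Good (Phi V4.P V4.D (-1) 1) ⟨2, 0, 0, 0, 2, 3, 2, 3, 3, 0⟩ :=
  Good.n1 (Good.n1 L00169 (Good.n4 L00170 L00171)) (Good.n1 (Good.n1 (Good.n4 L00172 L00173) L00174) L00175)
theorem g00024 : Good (Phi V4.P V4.D (-1) 1) ⟨2, 0, 0, 0, 1, 1, 1, 1, 3, 0⟩ :=
  Good.n3 (Good.n1 (Good.n2 L00155 (Good.n1 L00156 L00157)) g00022) (Good.n2 (Good.n1 (Good.n1 L00165 L00166) (Good.n1 L00167 L00168)) g00023)
theorem g00025 : Good (Phi V4.P V4.D (-1) 1) ⟨3, 2, 0, 0, 2, 3, 1, 1, 3, 0⟩ :=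
  Good.n1 (Good.n3 (Good.n1 L00180 (Good.n2 L00181 L00182)) (Good.n4 L00183 L00184)) (Good.n1 (Good.n3 (Good.n1 (Good.n4 L00185 L00186) L00187) (Good.n4 L00188 L00189)) L00190)
theorem g00026 : Good (Phi V4.P V4.D (-1) 1) ⟨3, 3, 1, 0, 2, 3, 1, 1, 3, 0⟩ :=
  Good.n1 (Good.n1 (Good.n3 L00196 (Good.n4 L00197 L00198)) (Good.n3 L00199 L00200)) (Good.n3 (Good.n4 L00201 L00202) (Good.n4 L00203 L00204))
theorem g00027 : Good (Phi V4.P V4.D (-1) 1) ⟨3, 3, 1, 1, 2, 3, 1, 1, 3, 0⟩ :=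
  Good.n1 (Good.n3 (Good.n1 (Good.n4 L00205 L00206) L00207) (Good.n1 (Good.n4 L00208 L00209) L00210)) L00211
theorem g00028 : Good (Phi V4.P V4.D (-1) 1) ⟨3, 3, 0, 0, 1, 1, 1, 1, 3, 0⟩ :=
  Good.n2 (Good.n3 (Good.n1 (Good.n4 L00191 L00192) L00193) (Good.n1 L00194 L00195)) (Good.n1 g00026 g00027)
theorem g00029 : Good (Phi V4.P V4.D (-1) 1) ⟨1, 0, 0, 0, 1, 1, 1, 1, 3, 0⟩ :=
  Good.n0 g00024 (Good.n0 (Good.n2 (Good.n1 (Good.n3 L00176 L00177) (Good.n3 L00178 L00179)) g00025) g00028)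
theorem g00030 : Good (Phi V4.P V4.D (-1) 1) ⟨1, 0, 1, 0, 1, 1, 1, 0, 3, 1⟩ :=
  Good.n3 (Good.n0 (Good.n2 L00212 L00213) (Good.n1 L00214 (Good.n2 L00215 L00216))) (Good.n0 L00217 (Good.n2 L00218 (Good.n1 L00219 (Good.n0 L00220 (Good.n4 L00221 L00222)))))
theorem g00031 : Good (Phi V4.P V4.D (-1) 1) ⟨1, 0, 1, 0, 1, 1, 2, 2, 3, 1⟩ :=
  Good.n0 (Good.n2 L00223 (Good.n4 L00224 L00225)) (Good.n2 L00226 (Good.n1 L00227 (Good.n0 L00228 (Good.n4 L00229 L00230))))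
theorem g00032 : Good (Phi V4.P V4.D (-1) 1) ⟨2, 0, 1, 0, 1, 1, 2, 3, 3, 1⟩ :=
  Good.n2 (Good.n1 L00231 (Good.n3 L00232 L00233)) (Good.n1 (Good.n4 L00234 L00235) (Good.n4 L00236 L00237))
theorem g00033 : Good (Phi V4.P V4.D (-1) 1) ⟨1, 0, 1, 0, 1, 1, 2, 3, 3, 1⟩ :=
  Good.n0 g00032 (Good.n2 (Good.n0 L00238 L00239) (Good.n4 (Good.n3 (Good.n0 L00240 L00241) L00242) L00243))
theorem g00034 : Good (Phi V4.P V4.D (-1) 1) ⟨3, 2, 3, 4, 2, 3, 2, 0, 3, 1⟩ :=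
  Good.n4 (Good.n3 (Good.n3 (Good.n1 L00253 L00254) L00255) L00256) (Good.n3 (Good.n1 L00257 L00258) L00259)
theorem g00035 : Good (Phi V4.P V4.D (-1) 1) ⟨1, 0, 3, 4, 2, 3, 2, 0, 3, 1⟩ :=
  Good.n0 (Good.n3 (Good.n3 (Good.n1 L00249 L00250) L00251) L00252) (Good.n0 g00034 (Good.n4 L00260 L00261))
theorem g00036 : Good (Phi V4.P V4.D (-1) 1) ⟨2, 1, 2, 2, 2, 3, 2, 1, 3, 1⟩ :=
  Good.n1 (Good.n0 (Good.n4 L00265 (Good.n3 L00266 L00267)) (Good.n4 L00268 (Good.n3 L00269 L00270))) L00271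
theorem g00037 : Good (Phi V4.P V4.D (-1) 1) ⟨1, 0, 2, 2, 1, 1, 1, 0, 3, 1⟩ :=
  Good.n2 (Good.n4 (Good.n3 L00244 L00245) (Good.n0 (Good.n3 L00246 L00247) L00248)) (Good.n3 (Good.n1 g00035 L00262) (Good.n0 (Good.n1 L00263 L00264) g00036))
theorem g00038 : Good (Phi V4.P V4.D (-1) 1) ⟨2, 1, 1, 1, 2, 2, 1, 1, 3, 1⟩ :=
  Good.n1 (Good.n1 (Good.n0 (Good.n3 L00276 L00277) (Good.n1 (Good.n3 L00278 L00279) L00280)) L00281) L00282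
theorem g00039 : Good (Phi V4.P V4.D (-1) 1) ⟨2, 1, 2, 2, 2, 3, 1, 1, 3, 1⟩ :=
  Good.n1 (Good.n0 (Good.n3 (Good.n4 L00286 L00287) L00288) (Good.n3 (Good.n4 L00289 L00290) L00291)) L00292
theorem g00040 : Good (Phi V4.P V4.D (-1) 1) ⟨1, 0, 1, 1, 1, 1, 1, 1, 3, 1⟩ :=
  Good.n2 (Good.n0 (Good.n3 L00273 (Good.n3 L00274 L00275)) g00038) (Good.n1 (Good.n0 (Good.n3 (Good.n1 L00283 L00284) L00285) g00039) L00293)
theorem g00041 : Good (Phi V4.P V4.D (-1) 1) ⟨1, 0, 0, 0, 1, 1, 0, 0, 2, 0⟩ :=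
  Good.n4 (Good.n3 (Good.n2 g00017 g00021) g00029) (Good.n1 (Good.n3 g00030 (Good.n3 g00031 g00033)) (Good.n3 (Good.n1 g00037 L00272) g00040))
theorem g00042 : Good (Phi V4.P V4.D (-1) 1) ⟨1, 0, 1, 0, 1, 1, 1, 0, 3, 2⟩ :=
  Good.n0 (Good.n2 L00294 L00295) (Good.n2 (Good.n3 L00296 L00297) (Good.n1 L00298 (Good.n3 L00299 L00300)))
theorem g00043 : Good (Phi V4.P V4.D (-1) 1) ⟨2, 0, 2, 2, 2, 3, 1, 0, 2, 1⟩ :=
  Good.n3 (Good.n1 (Good.n4 (Good.n3 (Good.n1 L00304 L00305) L00306) L00307) L00308) (Good.n4 (Good.n1 L00309 L00310) L00311)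
theorem g00044 : Good (Phi V4.P V4.D (-1) 1) ⟨3, 2, 3, 4, 2, 3, 2, 0, 3, 2⟩ :=
  Good.n3 (Good.n1 L00313 L00314) (Good.n4 (Good.n1 L00315 L00316) (Good.n1 L00317 (Good.n1 L00318 L00319)))
theorem g00045 : Good (Phi V4.P V4.D (-1) 1) ⟨3, 2, 3, 4, 1, 1, 1, 0, 3, 2⟩ :=
  Good.n3 (Good.n2 L00312 g00044) (Good.n2 L00320 (Good.n4 (Good.n3 (Good.n1 L00321 L00322) L00323) L00324))
theorem g00046 : Good (Phi V4.P V4.D (-1) 1) ⟨2, 1, 2, 2, 1, 1, 1, 0, 3, 2⟩ :=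
  Good.n1 (Good.n0 g00045 (Good.n2 L00325 (Good.n3 (Good.n1 L00326 L00327) (Good.n3 L00328 L00329)))) L00330
theorem g00047 : Good (Phi V4.P V4.D (-1) 1) ⟨1, 0, 2, 2, 1, 1, 1, 0, 2, 1⟩ :=
  Good.n0 (Good.n2 L00303 g00043) (Good.n4 g00046 (Good.n3 (Good.n2 L00331 L00332) (Good.n2 L00333 L00334)))
theorem g00048 : Good (Phi V4.P V4.D (-1) 1) ⟨1, 0, 1, 1, 1, 1, 1, 1, 2, 1⟩ :=
  Good.n0 (Good.n3 (Good.n2 L00341 (Good.n4 L00342 L00343)) (Good.n2 L00344 L00345)) (Good.n3 (Good.n1 (Good.n1 L00346 L00347) L00348) L00349)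
theorem g00049 : Good (Phi V4.P V4.D (-1) 1) ⟨1, 0, 0, 0, 1, 1, 0, 0, 2, 1⟩ :=
  Good.n3 (Good.n1 (Good.n4 g00042 (Good.n0 L00301 L00302)) (Good.n1 g00047 L00335)) (Good.n1 (Good.n3 (Good.n4 (Good.n2 (Good.n0 L00336 L00337) L00338) L00339) L00340) g00048)
theorem g00050 : Good (Phi V4.P V4.D (-1) 1) ⟨4, 10, 2, 0, 1, 0, 1, 0, 3, 0⟩ :=
  Good.n1 (Good.n3 (Good.n0 L00353 (Good.n4 L00354 L00355)) L00356) (Good.n0 (Good.n3 L00357 L00358) (Good.n1 (Good.n3 L00359 L00360) L00361))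
theorem g00051 : Good (Phi V4.P V4.D (-1) 1) ⟨3, 5, 1, 0, 1, 0, 1, 0, 3, 0⟩ :=
  Good.n1 (Good.n0 g00050 (Good.n1 (Good.n3 (Good.n4 L00362 (Good.n3 L00363 L00364)) L00365) L00366)) L00367
theorem g00052 : Good (Phi V4.P V4.D (-1) 1) ⟨2, 2, 0, 0, 1, 0, 1, 0, 2, 0⟩ :=
  Good.n4 (Good.n1 (Good.n0 (Good.n3 (Good.n4 L00350 L00351) L00352) g00051) L00368) (Good.n1 (Good.n0 (Good.n3 L00369 L00370) (Good.n1 L00371 L00372)) L00373)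
theorem g00053 : Good (Phi V4.P V4.D (-1) 1) ⟨2, 2, 0, 0, 1, 0, 2, 3, 2, 0⟩ :=
  Good.n1 (Good.n4 (Good.n0 (Good.n1 L00378 L00379) L00380) (Good.n0 (Good.n1 L00381 L00382) L00383)) L00384
theorem g00054 : Good (Phi V4.P V4.D (-1) 1) ⟨3, 5, 1, 0, 2, 2, 1, 0, 3, 0⟩ :=
  Good.n1 (Good.n0 (Good.n3 L00391 L00392) (Good.n1 (Good.n4 L00393 (Good.n3 L00394 L00395)) L00396)) L00397
theorem g00055 : Good (Phi V4.P V4.D (-1) 1) ⟨2, 2, 1, 0, 2, 2, 1, 0, 3, 0⟩ :=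
  Good.n0 (Good.n3 (Good.n1 L00385 (Good.n0 L00386 L00387)) (Good.n1 L00388 (Good.n0 L00389 L00390))) g00054
theorem g00056 : Good (Phi V4.P V4.D (-1) 1) ⟨2, 2, 1, 0, 2, 3, 1, 0, 4, 0⟩ :=
  Good.n2 (Good.n0 (Good.n3 L00398 L00399) (Good.n1 L00400 L00401)) (Good.n3 (Good.n0 L00402 L00403) (Good.n0 L00404 (Good.n1 L00405 L00406)))
theorem g00057 : Good (Phi V4.P V4.D (-1) 1) ⟨2, 2, 1, 0, 2, 3, 1, 0, 4, 1⟩ :=
  Good.n2 (Good.n0 (Good.n1 L00407 L00408) (Good.n1 (Good.n3 L00409 L00410) L00411)) (Good.n3 (Good.n0 L00412 (Good.n1 L00413 L00414)) (Good.n0 L00415 (Good.n1 L00416 L00417)))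
theorem g00058 : Good (Phi V4.P V4.D (-1) 1) ⟨3, 4, 1, 0, 2, 3, 1, 0, 4, 2⟩ :=
  Good.n1 (Good.n0 L00422 (Good.n3 L00423 L00424)) (Good.n0 (Good.n1 L00425 (Good.n3 L00426 L00427)) (Good.n3 L00428 L00429))
theorem g00059 : Good (Phi V4.P V4.D (-1) 1) ⟨2, 2, 1, 0, 2, 3, 1, 0, 4, 2⟩ :=
  Good.n0 g00058 (Good.n1 (Good.n0 (Good.n1 (Good.n3 L00430 L00431) L00432) (Good.n3 L00433 L00434)) L00435)
theorem g00060 : Good (Phi V4.P V4.D (-1) 1) ⟨2, 2, 1, 0, 2, 3, 1, 0, 4, 3⟩ :=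
  Good.n0 (Good.n3 (Good.n1 L00436 L00437) (Good.n1 L00438 L00439)) (Good.n1 (Good.n0 L00440 L00441) L00442)
theorem g00061 : Good (Phi V4.P V4.D (-1) 1) ⟨2, 2, 1, 0, 1, 1, 1, 0, 2, 0⟩ :=
  Good.n4 (Good.n2 g00055 (Good.n4 g00056 g00057)) (Good.n2 (Good.n0 (Good.n3 L00418 L00419) (Good.n3 L00420 L00421)) (Good.n4 g00059 g00060))
theorem g00062 : Good (Phi V4.P V4.D (-1) 1) ⟨3, 5, 2, 0, 2, 2, 1, 1, 2, 0⟩ :=
  Good.n4 (Good.n0 L00447 (Good.n3 L00448 L00449)) (Good.n0 (Good.n3 L00450 L00451) (Good.n3 L00452 L00453))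
theorem g00063 : Good (Phi V4.P V4.D (-1) 1) ⟨2, 2, 2, 1, 2, 2, 1, 1, 2, 0⟩ :=
  Good.n4 (Good.n0 (Good.n0 (Good.n3 L00454 L00455) L00456) L00457) (Good.n0 (Good.n3 L00458 L00459) L00460)
theorem g00064 : Good (Phi V4.P V4.D (-1) 1) ⟨3, 4, 1, 0, 3, 6, 2, 2, 2, 0⟩ :=
  Good.n4 (Good.n1 (Good.n0 L00461 L00462) (Good.n4 L00463 L00464)) (Good.n4 (Good.n1 L00465 L00466) L00467)
theorem g00065 : Good (Phi V4.P V4.D (-1) 1) ⟨3, 4, 1, 0, 3, 6, 2, 3, 2, 0⟩ :=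
  Good.n4 (Good.n1 (Good.n4 L00468 L00469) (Good.n0 L00470 L00471)) (Good.n4 (Good.n1 L00472 L00473) L00474)
theorem g00066 : Good (Phi V4.P V4.D (-1) 1) ⟨3, 5, 1, 0, 3, 6, 1, 1, 3, 0⟩ :=
  Good.n1 (Good.n0 (Good.n1 (Good.n3 L00475 L00476) (Good.n3 L00477 L00478)) (Good.n3 L00479 L00480)) L00481
theorem g00067 : Good (Phi V4.P V4.D (-1) 1) ⟨2, 2, 1, 0, 3, 6, 1, 1, 2, 0⟩ :=
  Good.n0 (Good.n3 g00064 g00065) (Good.n4 g00066 (Good.n1 (Good.n0 (Good.n3 L00482 L00483) (Good.n1 L00484 L00485)) L00486))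
theorem g00068 : Good (Phi V4.P V4.D (-1) 1) ⟨2, 2, 2, 0, 3, 7, 2, 2, 3, 0⟩ :=
  Good.n0 (Good.n0 L00487 (Good.n4 L00488 L00489)) (Good.n0 (Good.n1 (Good.n4 L00490 L00491) (Good.n4 L00492 L00493)) (Good.n4 L00494 L00495))
theorem g00069 : Good (Phi V4.P V4.D (-1) 1) ⟨2, 2, 2, 0, 3, 7, 1, 1, 2, 0⟩ :=
  Good.n4 (Good.n3 g00068 (Good.n0 (Good.n4 L00496 L00497) (Good.n4 L00498 (Good.n3 L00499 L00500)))) (Good.n3 (Good.n0 L00501 (Good.n4 L00502 L00503)) (Good.n0 L00504 L00505))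
theorem g00070 : Good (Phi V4.P V4.D (-1) 1) ⟨4, 8, 2, 1, 3, 7, 1, 1, 3, 0⟩ :=
  Good.n1 (Good.n3 L00506 (Good.n4 L00507 L00508)) (Good.n3 (Good.n4 L00509 L00510) (Good.n4 L00511 L00512))
theorem g00071 : Good (Phi V4.P V4.D (-1) 1) ⟨2, 2, 2, 1, 3, 7, 1, 1, 3, 0⟩ :=
  Good.n0 (Good.n0 g00070 (Good.n1 (Good.n3 (Good.n4 L00513 L00514) (Good.n4 L00515 L00516)) L00517)) L00518
theorem g00072 : Good (Phi V4.P V4.D (-1) 1) ⟨2, 2, 1, 0, 1, 1, 1, 1, 2, 0⟩ :=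
  Good.n2 (Good.n1 (Good.n0 (Good.n4 (Good.n3 L00443 L00444) (Good.n3 L00445 L00446)) g00062) g00063) (Good.n2 g00067 (Good.n1 g00069 (Good.n4 g00071 (Good.n0 (Good.n3 L00519 L00520) L00521))))
theorem g00073 : Good (Phi V4.P V4.D (-1) 1) ⟨2, 2, 0, 0, 0, 0, 0, 0, 2, 0⟩ :=
  Good.n2 (Good.n3 g00052 (Good.n3 (Good.n1 (Good.n4 (Good.n2 L00374 L00375) L00376) L00377) g00053)) (Good.n1 (Good.n3 g00061 g00072) L00522)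
theorem g00074 : Good (Phi V4.P V4.D (-1) 1) ⟨2, 2, 1, 0, 1, 1, 1, 0, 3, 2⟩ :=
  Good.n2 (Good.n0 (Good.n3 L00528 L00529) L00530) (Good.n0 (Good.n3 L00531 (Good.n4 (Good.n1 L00532 L00533) L00534)) (Good.n3 L00535 L00536))
theorem g00075 : Good (Phi V4.P V4.D (-1) 1) ⟨2, 2, 1, 0, 0, 0, 1, 0, 2, 1⟩ :=
  Good.n2 (Good.n4 (Good.n0 L00524 (Good.n1 L00525 L00526)) L00527) (Good.n4 g00074 (Good.n3 L00537 L00538))
theorem g00076 : Good (Phi V4.P V4.D (-1) 1) ⟨2, 2, 1, 0, 0, 0, 1, 1, 2, 1⟩ :=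
  Good.n3 (Good.n2 (Good.n0 L00539 L00540) (Good.n4 (Good.n0 (Good.n2 L00541 L00542) L00543) L00544)) (Good.n2 (Good.n0 (Good.n4 L00545 L00546) (Good.n1 (Good.n0 L00547 L00548) L00549)) L00550)
theorem g00077 : Good (Phi V4.P V4.D (-1) 1) ⟨0, 0, 0, 0, 0, 0, 0, 0, 1, 0⟩ :=
  Good.n0 (Good.n2 (Good.n4 (Good.n3 g00000 g00005) g00015) (Good.n4 g00041 g00049)) (Good.n4 (Good.n0 g00073 L00523) (Good.n0 (Good.n1 (Good.n3 g00075 g00076) L00551) L00552))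
theorem g00078 : Good (Phi V4.P V4.D (-1) 1) ⟨1, 0, 1, 0, 2, 0, 2, 2, 3, 5⟩ :=
  Good.n2 (Good.n4 L00559 (Good.n3 L00560 L00561)) (Good.n2 (Good.n1 L00562 (Good.n3 L00563 (Good.n0 L00564 L00565))) L00566)
theorem g00079 : Good (Phi V4.P V4.D (-1) 1) ⟨2, 0, 1, 0, 1, 0, 2, 3, 2, 2⟩ :=
  Good.n4 (Good.n2 (Good.n1 L00568 (Good.n3 L00569 L00570)) L00571) (Good.n1 L00572 (Good.n2 L00573 L00574))
theorem g00080 : Good (Phi V4.P V4.D (-1) 1) ⟨1, 0, 1, 0, 1, 0, 1, 1, 2, 2⟩ :=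
  Good.n3 (Good.n2 (Good.n4 L00558 g00078) L00567) (Good.n0 g00079 (Good.n3 (Good.n1 L00575 (Good.n2 L00576 L00577)) (Good.n2 L00578 L00579)))
theorem g00081 : Good (Phi V4.P V4.D (-1) 1) ⟨2, 0, 1, 0, 2, 0, 2, 3, 2, 3⟩ :=
  Good.n4 (Good.n3 L00583 L00584) (Good.n4 (Good.n3 L00585 (Good.n4 (Good.n3 L00586 (Good.n2 L00587 L00588)) L00589)) L00590)
theorem g00082 : Good (Phi V4.P V4.D (-1) 1) ⟨2, 1, 1, 0, 1, 0, 2, 3, 3, 7⟩ :=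
  Good.n2 (Good.n4 (Good.n3 L00595 (Good.n4 (Good.n3 L00596 (Good.n2 L00597 L00598)) L00599)) L00600) L00601
theorem g00083 : Good (Phi V4.P V4.D (-1) 1) ⟨1, 0, 1, 0, 1, 0, 1, 1, 2, 3⟩ :=
  Good.n3 (Good.n2 L00581 L00582) (Good.n0 (Good.n2 g00081 L00591) (Good.n4 (Good.n3 (Good.n2 L00592 L00593) L00594) g00082))
theorem g00084 : Good (Phi V4.P V4.D (-1) 1) ⟨1, 0, 1, 0, 0, 0, 0, 0, 1, 1⟩ :=
  Good.n3 (Good.n4 (Good.n2 (Good.n4 L00553 L00554) L00555) (Good.n2 L00556 L00557)) (Good.n4 (Good.n2 g00080 L00580) (Good.n2 g00083 L00602))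
theorem g00085 : Good (Phi V4.P V4.D (-1) 1) ⟨1, 1, 1, 0, 0, 0, 1, 0, 1, 1⟩ :=
  Good.n0 (Good.n4 (Good.n2 (Good.n3 L00603 (Good.n2 L00604 L00605)) L00606) (Good.n2 L00607 L00608)) L00609
theorem g00086 : Good (Phi V4.P V4.D (-1) 1) ⟨2, 2, 1, 0, 1, 0, 2, 2, 1, 1⟩ :=
  Good.n4 (Good.n4 L00610 (Good.n3 (Good.n2 L00611 L00612) (Good.n2 L00613 L00614))) (Good.n2 L00615 L00616)
theorem g00087 : Good (Phi V4.P V4.D (-1) 1) ⟨2, 2, 1, 0, 1, 0, 3, 6, 1, 1⟩ :=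
  Good.n4 (Good.n0 (Good.n2 L00617 L00618) (Good.n1 L00619 L00620)) (Good.n4 (Good.n0 (Good.n2 L00621 L00622) L00623) (Good.n2 L00624 L00625))
theorem g00088 : Good (Phi V4.P V4.D (-1) 1) ⟨2, 2, 1, 0, 1, 0, 1, 1, 1, 1⟩ :=
  Good.n3 g00086 (Good.n3 g00087 (Good.n4 (Good.n0 L00626 L00627) (Good.n0 L00628 (Good.n2 L00629 L00630))))
theorem g00089 : Good (Phi V4.P V4.D (-1) 1) ⟨2, 0, 3, 4, 3, 0, 2, 2, 3, 5⟩ :=
  Good.n4 L00639 (Good.n3 L00640 (Good.n2 L00641 (Good.n3 (Good.n4 L00642 L00643) (Good.n4 L00644 L00645))))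
theorem g00090 : Good (Phi V4.P V4.D (-1) 1) ⟨2, 0, 3, 4, 2, 0, 2, 2, 3, 5⟩ :=
  Good.n2 g00089 (Good.n3 (Good.n4 L00646 L00647) (Good.n2 (Good.n4 L00648 (Good.n3 L00649 L00650)) L00651))
theorem g00091 : Good (Phi V4.P V4.D (-1) 1) ⟨2, 0, 3, 4, 1, 0, 1, 1, 2, 2⟩ :=
  Good.n3 (Good.n2 (Good.n4 L00638 g00090) (Good.n2 (Good.n4 L00652 L00653) L00654)) (Good.n2 (Good.n3 L00655 L00656) L00657)
theorem g00092 : Good (Phi V4.P V4.D (-1) 1) ⟨2, 0, 3, 4, 0, 0, 1, 1, 2, 3⟩ :=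
  Good.n2 (Good.n3 (Good.n2 (Good.n4 L00659 L00660) L00661) (Good.n2 (Good.n2 L00662 L00663) L00664)) L00665
theorem g00093 : Good (Phi V4.P V4.D (-1) 1) ⟨2, 0, 2, 2, 0, 0, 0, 0, 1, 1⟩ :=
  Good.n3 (Good.n4 (Good.n2 (Good.n4 L00633 L00634) L00635) (Good.n2 L00636 L00637)) (Good.n1 (Good.n4 (Good.n2 g00091 L00658) g00092) L00666)
theorem g00094 : Good (Phi V4.P V4.D (-1) 1) ⟨3, 2, 3, 4, 3, 0, 2, 2, 3, 5⟩ :=
  Good.n4 (Good.n2 L00674 (Good.n3 L00675 L00676)) (Good.n3 L00677 (Good.n2 L00678 (Good.n3 (Good.n4 L00679 L00680) (Good.n4 L00681 L00682))))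
theorem g00095 : Good (Phi V4.P V4.D (-1) 1) ⟨3, 2, 3, 4, 3, 1, 2, 2, 3, 5⟩ :=
  Good.n3 (Good.n4 L00683 L00684) (Good.n2 (Good.n4 L00685 (Good.n3 (Good.n2 (Good.n4 L00686 L00687) L00688) L00689)) L00690)
theorem g00096 : Good (Phi V4.P V4.D (-1) 1) ⟨3, 2, 3, 4, 1, 0, 2, 2, 2, 2⟩ :=
  Good.n2 (Good.n4 L00673 (Good.n2 g00094 g00095)) (Good.n2 (Good.n3 (Good.n4 L00691 L00692) L00693) L00694)
theorem g00097 : Good (Phi V4.P V4.D (-1) 1) ⟨3, 3, 3, 4, 2, 0, 2, 2, 3, 5⟩ :=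
  Good.n2 (Good.n4 L00696 (Good.n3 L00697 (Good.n2 L00698 (Good.n3 L00699 L00700)))) (Good.n3 (Good.n4 L00701 L00702) (Good.n2 (Good.n4 L00703 L00704) L00705))
theorem g00098 : Good (Phi V4.P V4.D (-1) 1) ⟨2, 1, 3, 4, 1, 0, 1, 1, 2, 2⟩ :=
  Good.n3 (Good.n0 g00096 (Good.n2 (Good.n4 L00695 g00097) (Good.n2 L00706 L00707))) (Good.n2 (Good.n3 L00708 L00709) L00710)
theorem g00099 : Good (Phi V4.P V4.D (-1) 1) ⟨2, 1, 3, 4, 1, 0, 2, 3, 3, 7⟩ :=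
  Good.n2 (Good.n4 (Good.n3 L00720 (Good.n4 (Good.n3 L00721 (Good.n2 L00722 L00723)) L00724)) L00725) L00726
theorem g00100 : Good (Phi V4.P V4.D (-1) 1) ⟨2, 1, 3, 4, 1, 0, 1, 1, 2, 3⟩ :=
  Good.n3 (Good.n2 (Good.n4 L00712 L00713) L00714) (Good.n4 (Good.n2 (Good.n0 (Good.n3 L00715 L00716) (Good.n3 L00717 L00718)) L00719) g00099)
theorem g00101 : Good (Phi V4.P V4.D (-1) 1) ⟨2, 1, 2, 2, 0, 0, 0, 0, 1, 1⟩ :=
  Good.n3 (Good.n4 (Good.n2 (Good.n4 L00668 L00669) L00670) (Good.n2 L00671 L00672)) (Good.n1 (Good.n4 (Good.n2 g00098 L00711) (Good.n2 g00100 L00727)) L00728)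
theorem g00102 : Good (Phi V4.P V4.D (-1) 1) ⟨0, 0, 0, 0, 0, 0, 0, 0, 1, 1⟩ :=
  Good.n1 (Good.n0 g00084 (Good.n3 g00085 (Good.n2 (Good.n0 g00088 L00631) L00632))) (Good.n0 (Good.n0 (Good.n1 g00093 L00667) (Good.n1 g00101 L00729)) L00730)
theorem all : Good (Phi V4.P V4.D (-1) 1) ⟨0, 0, 0, 0, 0, 0, 0, 0, 0, 0⟩ :=
  Good.n4 g00077 g00102

end Crest.Agent.R097C4.N4mp
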