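import Crest.Agent.R097.T4

/-!
# Row 97, box cover in dimension n = 4 (generated)
-/

set_option autoImplicit false
set_option Elab.async false
set_option maxHeartbeats 0
set_option maxRecDepth 100000

open Crest.Agent.R097 Crest.Agent.R097.KA


namespace Crest.Agent.R097C4.N4pm

theorem L00065 : Good (Phi V4.P V4.D 1 (-1)) ⟨1, 0, 1, 1, 2, 2, 2, 1, 3, 1⟩ :=
  leaf_sound (S := T4.ds_pm) T4.ok_pm (w := 160) (c := ⟨⟨.negSucc 162, .negSucc 686, .ofNat 197, .negSucc 280, .ofNat 62, .negSucc 110⟩, ⟨.ofNat 115, .ofNat 255, .ofNat 326, .ofNat 142, .negSucc 34, .ofNat 64⟩, ⟨.ofNat 207, .ofNat 480, .negSucc 106, .ofNat 76, .negSucc 129, .negSucc 8⟩, ⟨.negSucc 1046, .negSucc 845, .ofNat 68, .negSucc 666, .ofNat 76, .negSucc 337⟩, ⟨.negSucc 555, .ofNat 703, .negSucc 144, .ofNat 144, .negSucc 159, .negSucc 34⟩, .ofNat 441, .ofNat 205, .ofNat 0, .ofNat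 205, .ofNat 708, .ofNat 0, .ofNat 509, .negSucc 344, .negSucc 481, .ofNat 0, .ofNat 413, .ofNat 255, .ofNat 0, .ofNat 0, .ofNat 928, .ofNat 5048, .ofNat 0, .ofNat 0, .ofNat 83332678691754779071846809600, .ofNat 0, .ofNat 0, .ofNat 0, .ofNat 17150388686415724107309200179200, .ofNat 0, .ofNat 0, .ofNat 0, .ofNat 28466059097810419210547468697600, .ofNat 0, .ofNat 0, .ofNat 0, .ofNat 0, .ofNat 0⟩)
    (by decide +kernel)
theorem L00066 : Good (Phi V4.P V4.D 1 (-1)) ⟨2, 0, 1, 0, 2, 3, 2, 1, 3, 1⟩ :=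
  leaf_sound (S := T4.ds_pm) T4.ok_pm (w := 160) (c := ⟨⟨.negSucc 410, .negSucc 240, .negSucc 32, .negSucc 337, .ofNat 54, .negSucc 229⟩, ⟨.negSucc 160, .ofNat 161, .ofNat 420, .ofNat 134, .negSucc 41, .ofNat 68⟩, ⟨.ofNat 344, .ofNat 97, .negSucc 46, .ofNat 72, .negSucc 48, .ofNat 44⟩, ⟨.negSucc 1438, .negSucc 346, .negSucc 175, .negSucc 854, .ofNat 108, .negSucc 644⟩, ⟨.negSucc 601, .ofNat 610, .negSucc 14, .ofNat 380, .negSucc 195, .ofNat 7⟩, .ofNat 414, .ofNat 99, .ofNat 0, .ofNat 99, .ofNat 649, .ofNat 0, .ofNat 645, .negSucc 289, .negSucc 405, .ofNat 0, .ofNat 454, .ofNat 167, .ofNat 0, .ofNat 0, .ofNat 924, .ofNat 2531, .ofNat 0, .ofNat 0, .ofNat 0, .ofNat 0, .ofNat 0, .ofNat 0, .ofNat 0, .ofNat 0, .ofNat 0, .ofNat 0, .ofNat 0, .ofNat 0, .ofNat 0, .ofNat 0, .ofNat 0, .ofNat 0⟩)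
    (by decide +kernel)
theorem L00067 : Good (Phi V4.P V4.D 1 (-1)) ⟨2, 1, 1, 0, 2, 3, 2, 1, 3, 1⟩ :=
  leaf_sound (S := T4.ds_pm) T4.ok_pm (w := 160) (c := ⟨⟨.negSucc 536, .negSucc 561, .negSucc 131, .negSucc 451, .ofNat 10, .negSucc 275⟩, ⟨.negSucc 72, .ofNat 41, .ofNat 534, .ofNat 163, .negSucc 13, .ofNat 97⟩, ⟨.ofNat 455, .ofNat 274, .negSucc 63, .negSucc 16, .ofNat 41, .ofNat 38⟩, ⟨.negSucc 1796, .negSucc 670, .negSucc 125, .negSucc 876, .negSucc 15, .negSucc 634⟩, ⟨.negSucc 295, .ofNat 712, .ofNat 98, .ofNat 882, .negSucc 225, .ofNat 151⟩, .ofNat 381, .ofNat 99, .ofNat 0, .ofNat 99, .ofNat 724, .ofNat 0, .ofNat 695, .negSucc 302, .negSucc 501, .ofNat 0, .ofNat 414, .ofNat 172, .ofNat 0, .ofNat 0, .ofNat 956, .ofNat 2250, .ofNat 0, .ofNat 0, .ofNat 0, .ofNat 0, .ofNat 0, .ofNat 0, .ofNat 0, .ofNat 0, .ofNat 0, .ofNat 0, .ofNat 3013298430228739913511075840000,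 .ofNat 0, .ofNat 0, .ofNat 0, .ofNat 0, .ofNat 0⟩)
    (by decide +kernel)
theorem L00068 : Good (Phi V4.P V4.D 1 (-1)) ⟨1, 0, 1, 1, 2, 3, 2, 1, 3, 1⟩ :=
  leaf_sound (S := T4.ds_pm) T4.ok_pm (w := 160) (c := ⟨⟨.negSucc 164, .negSucc 1072, .ofNat 391, .negSucc 474, .ofNat 56, .negSucc 274⟩, ⟨.ofNat 143, .ofNat 399, .ofNat 405, .ofNat 256, .negSucc 46, .ofNat 142⟩, ⟨.ofNat 169, .ofNat 435, .negSucc 300, .ofNat 30, .ofNat 48, .ofNat 88⟩, ⟨.negSucc 1389, .negSucc 1214, .ofNat 475, .negSucc 913, .ofNat 77, .negSucc 678⟩, ⟨.negSucc 910, .ofNat 1506, .negSucc 401, .ofNat 720, .negSucc 209, .ofNat 115⟩, .ofNat 842, .ofNat 748, .ofNat 0, .ofNat 748, .ofNat 1845, .ofNat 0, .ofNat 412, .negSucc 534, .negSucc 371, .ofNat 0, .ofNat 403, .ofNat 199, .ofNat 0, .ofNat 0, .ofNat 885, .ofNat 2134, .ofNat 0, .ofNat 0, .ofNat 132288797510288523404299468800,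 .ofNat 0, .ofNat 0, .ofNat 0, .ofNat 0, .ofNat 0, .ofNat 0, .ofNat 0, .ofNat 22211262341476606221627477196800, .ofNat 0, .ofNat 0, .ofNat 0, .ofNat 28380213183964817996575565414400, .ofNat 0⟩)
    (by decide +kernel)
theorem L00069 : Good (Phi V4.P V4.D 1 (-1)) ⟨1, 0, 1, 0, 1, 0, 2, 2, 3, 0⟩ :=
  leaf_sound (S := T4.ds_pm) T4.ok_pm (w := 152) (c := ⟨⟨.negSucc 245, .negSucc 246, .ofNat 54, .negSucc 36, .ofNat 70, .negSucc 83⟩, ⟨.negSucc 20, .ofNat 66, .ofNat 156, .negSucc 19, .negSucc 19, .ofNat 22⟩, ⟨.ofNat 34, .ofNat 282, .negSucc 23, .ofNat 140, .negSucc 344, .ofNat 35⟩, ⟨.negSucc 780, .negSucc 316, .ofNat 21, .negSucc 192, .ofNat 149, .negSucc 209⟩, ⟨.negSucc 81, .ofNat 119, .negSucc 6, .negSucc 407, .negSucc 90, .ofNat 45⟩, .ofNat 395, .ofNat 97, .ofNat 0, .ofNat 97, .ofNat 687, .ofNat 0, .ofNat 288, .negSucc 78, .negSucc 306, .ofNat 0,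 .ofNat 200, .ofNat 75, .ofNat 0, .ofNat 0, .ofNat 573, .ofNat 1475, .ofNat 0, .ofNat 0, .ofNat 0, .ofNat 0, .ofNat 0, .ofNat 0, .ofNat 0, .ofNat 0, .ofNat 0, .ofNat 0, .ofNat 0, .ofNat 0, .ofNat 0, .ofNat 0, .ofNat 0, .ofNat 0⟩)
    (by decide +kernel)
theorem L00070 : Good (Phi V4.P V4.D 1 (-1)) ⟨1, 0, 1, 1, 1, 0, 2, 2, 3, 0⟩ :=
  leaf_sound (S := T4.ds_pm) T4.ok_pm (w := 152) (c := ⟨⟨.negSucc 145, .negSucc 327, .ofNat 117, .negSucc 11, .ofNat 70, .negSucc 122⟩, ⟨.ofNat 98, .ofNat 114, .ofNat 156, .negSucc 3, .negSucc 33, .ofNat 60⟩, ⟨.negSucc 53, .ofNat 361, .ofNat 3, .ofNat 130, .negSucc 315, .ofNat 49⟩, ⟨.negSucc 641, .negSucc 445, .ofNat 76, .negSucc 226, .ofNat 142, .negSucc 288⟩, ⟨.negSucc 120, .ofNat 163, .negSucc 3, .negSucc 392, .negSucc 70, .ofNat 56⟩, .ofNat 861, .ofNat 763, .ofNat 0, .ofNat 763, .ofNat 1849, .ofNat 0, .ofNat 185,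 .negSucc 199, .negSucc 243, .ofNat 0, .ofNat 171, .ofNat 120, .ofNat 0, .ofNat 0, .ofNat 527, .ofNat 2166, .ofNat 0, .ofNat 0, .ofNat 92296568200825618720358400, .ofNat 0, .ofNat 0, .ofNat 0, .ofNat 20699141722135282027855872000, .ofNat 0, .ofNat 0, .ofNat 0, .ofNat 12882193447108244713714483200, .ofNat 0, .ofNat 0, .ofNat 0, .ofNat 15020391227039603385119539200, .ofNat 0⟩)
    (by decide +kernel)
theorem L00071 : Good (Phi V4.P V4.D 1 (-1)) ⟨2, 0, 1, 0, 2, 0, 2, 3, 3, 0⟩ :=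
  leaf_sound (S := T4.ds_pm) T4.ok_pm (w := 160) (c := ⟨⟨.negSucc 293, .negSucc 14, .ofNat 31, .negSucc 8, .ofNat 201, .ofNat 14⟩, ⟨.ofNat 18, .ofNat 13, .ofNat 93, .negSucc 21, .negSucc 49, .ofNat 10⟩, ⟨.negSucc 249, .ofNat 22, .negSucc 25, .ofNat 45, .negSucc 394, .ofNat 86⟩, ⟨.negSucc 851, .negSucc 0, .ofNat 8, .negSucc 107, .ofNat 600, .ofNat 59⟩, ⟨.negSucc 63, .ofNat 14, .negSucc 8, .negSucc 295, .ofNat 49, .ofNat 64⟩, .ofNat 414, .ofNat 97, .ofNat 0, .ofNat 97, .ofNat 647, .ofNat 0, .ofNat 299, .negSucc 79, .negSucc 343, .ofNat 0, .ofNat 226, .ofNat 71, .ofNat 0, .ofNat 0, .ofNat 614, .ofNat 2532, .ofNat 0, .ofNat 0, .ofNat 0, .ofNat 0, .ofNat 0, .ofNat 0, .ofNat 0, .ofNat 0, .ofNat 0, .ofNat 0, .ofNat 0, .ofNat 0, .ofNat 0, .ofNat 0, .ofNat 0, .ofNat 0⟩)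
    (by decide +kernel)
theorem L00072 : Good (Phi V4.P V4.D 1 (-1)) ⟨2, 0, 1, 0, 2, 1, 2, 3, 3, 0⟩ :=
  leaf_sound (S := T4.ds_pm) T4.ok_pm (w := 160) (c := ⟨⟨.negSucc 212, .negSucc 55, .ofNat 70, .negSucc 124, .ofNat 89, .negSucc 46⟩, ⟨.negSucc 73, .ofNat 58, .ofNat 123, .ofNat 21, .negSucc 6, .ofNat 22⟩, ⟨.negSucc 318, .ofNat 81, .negSucc 10, .ofNat 244, .negSucc 269, .ofNat 92⟩, ⟨.negSucc 683, .negSucc 107, .ofNat 19, .negSucc 390, .ofNat 292, .negSucc 99⟩, ⟨.negSucc 519, .ofNat 87, .ofNat 2, .negSucc 136, .ofNat 147, .ofNat 150⟩, .ofNat 633, .ofNat 273, .ofNat 0, .ofNat 273, .ofNat 1347, .ofNat 0, .ofNat 274, .negSucc 111, .negSucc 266, .ofNat 0, .ofNat 180, .ofNat 71, .ofNat 0, .ofNat 0, .ofNat 558, .ofNat 1003, .ofNat 0, .ofNat 0, .ofNat 0, .ofNat 0, .ofNat 0, .ofNat 0, .ofNat 0, .ofNat 0, .ofNat 0, .ofNat 0, .ofNat 0, .ofNat 0, .ofNat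 0, .ofNat 0, .ofNat 0, .ofNat 0⟩)
    (by decide +kernel)
theorem L00073 : Good (Phi V4.P V4.D 1 (-1)) ⟨2, 1, 1, 0, 2, 0, 2, 3, 3, 0⟩ :=
  leaf_sound (S := T4.ds_pm) T4.ok_pm (w := 160) (c := ⟨⟨.negSucc 344, .negSucc 107, .ofNat 45, .ofNat 3, .ofNat 246, .ofNat 14⟩, ⟨.ofNat 29, .ofNat 5, .ofNat 95, .ofNat 3, .negSucc 54, .negSucc 1⟩, ⟨.negSucc 197, .ofNat 119, .negSucc 21, .ofNat 48, .negSucc 468, .ofNat 79⟩, ⟨.negSucc 913, .negSucc 126, .ofNat 48, .negSucc 67, .ofNat 645, .ofNat 35⟩, ⟨.negSucc 68, .ofNat 27, .negSucc 15, .negSucc 254, .ofNat 54, .ofNat 47⟩, .ofNat 382, .ofNat 97, .ofNat 0, .ofNat 97, .ofNat 727, .ofNat 0, .ofNat 313, .negSucc 82, .negSucc 402, .ofNat 0, .ofNat 207, .ofNat 72, .ofNat 0, .ofNat 0, .ofNat 657, .ofNat 2128, .ofNat 0, .ofNat 0, .ofNat 0, .ofNat 0, .ofNat 0, .ofNat 0, .ofNat 0, .ofNat 0, .ofNat 0, .ofNat 0, .ofNat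 0, .ofNat 0, .ofNat 0, .ofNat 0, .ofNat 0, .ofNat 0⟩)
    (by decide +kernel)
theorem L00074 : Good (Phi V4.P V4.D 1 (-1)) ⟨2, 1, 1, 0, 2, 1, 2, 3, 3, 0⟩ :=
  leaf_sound (S := T4.ds_pm) T4.ok_pm (w := 160) (c := ⟨⟨.negSucc 134, .negSucc 268, .ofNat 20, .negSucc 216, .ofNat 109, .negSucc 101⟩, ⟨.negSucc 53, .ofNat 52, .ofNat 154, .ofNat 56, .negSucc 22, .ofNat 24⟩, ⟨.negSucc 335, .ofNat 273, .ofNat 48, .ofNat 321, .negSucc 314, .ofNat 101⟩, ⟨.negSucc 525, .negSucc 397, .negSucc 75, .negSucc 549, .ofNat 308, .negSucc 207⟩, ⟨.negSucc 487, .ofNat 123, .negSucc 6, .negSucc 27, .ofNat 120, .ofNat 149⟩, .ofNat 383, .ofNat 110, .ofNat 0, .ofNat 110, .ofNat 727, .ofNat 0, .ofNat 329, .negSucc 100, .negSucc 425, .ofNat 0, .ofNat 211, .ofNat 97, .ofNat 0, .ofNat 0, .ofNat 652, .ofNat 1482, .ofNat 0, .ofNat 0, .ofNat 0, .ofNat 0, .ofNat 0, .ofNat 0, .ofNat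 0, .ofNat 0, .ofNat 0, .ofNat 0, .ofNat 0, .ofNat 0, .ofNat 0, .ofNat 0, .ofNat 0, .ofNat 0⟩)
    (by decide +kernel)
theorem L00075 : Good (Phi V4.P V4.D 1 (-1)) ⟨2, 0, 2, 2, 2, 0, 2, 3, 3, 0⟩ :=
  leaf_sound (S := T4.ds_pm) T4.ok_pm (w := 168) (c := ⟨⟨.negSucc 248, .negSucc 46, .ofNat 12, .ofNat 23, .ofNat 204, .negSucc 8⟩, ⟨.ofNat 130, .ofNat 26, .ofNat 47, .negSucc 19, .negSucc 109, .ofNat 7⟩, ⟨.negSucc 288, .ofNat 61, .negSucc 6, .ofNat 31, .negSucc 404, .ofNat 89⟩, ⟨.negSucc 795, .negSucc 52, .negSucc 4, .negSucc 92, .ofNat 611, .negSucc 0⟩, ⟨.negSucc 78, .ofNat 37, .negSucc 3, .negSucc 288, .ofNat 45, .ofNat 53⟩, .ofNat 891, .ofNat 753, .ofNat 0, .ofNat 753, .ofNat 1775, .ofNat 0, .ofNat 194, .negSucc 200, .negSucc 259, .ofNat 0, .ofNat 185, .ofNat 126, .ofNat 0, .ofNat 0, .ofNat 556, .ofNat 3189, .ofNat 0, .ofNat 0, .ofNat 0, .ofNat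 0, .ofNat 0, .ofNat 0, .ofNat 0, .ofNat 0, .ofNat 0, .ofNat 0, .ofNat 2021639136152424937303729766400, .ofNat 0, .ofNat 0, .ofNat 0, .ofNat 0, .ofNat 0⟩)
    (by decide +kernel)
theorem L00076 : Good (Phi V4.P V4.D 1 (-1)) ⟨2, 0, 2, 2, 2, 1, 2, 3, 3, 0⟩ :=
  leaf_sound (S := T4.ds_pm) T4.ok_pm (w := 168) (c := ⟨⟨.negSucc 110, .negSucc 82, .ofNat 16, .negSucc 131, .ofNat 89, .negSucc 54⟩, ⟨.ofNat 40, .ofNat 53, .ofNat 70, .ofNat 68, .negSucc 45, .ofNat 34⟩, ⟨.negSucc 368, .ofNat 115, .ofNat 14, .ofNat 253, .negSucc 262, .ofNat 92⟩, ⟨.negSucc 643, .negSucc 119, .negSucc 12, .negSucc 460, .ofNat 337, .negSucc 76⟩, ⟨.negSucc 509, .ofNat 84, .ofNat 34, .negSucc 149, .ofNat 148, .ofNat 148⟩, .ofNat 2847, .ofNat 4003, .ofNat 0, .ofNat 4003, .ofNat 7520, .ofNat 0, .ofNat 122, .negSucc 256, .negSucc 253, .ofNat 0, .ofNat 171, .ofNat 139, .ofNat 0,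 .ofNat 0, .ofNat 542, .ofNat 3164, .ofNat 0, .ofNat 0, .ofNat 0, .ofNat 0, .ofNat 0, .ofNat 0, .ofNat 0, .ofNat 0, .ofNat 0, .ofNat 0, .ofNat 2364605196024496738024606924800, .ofNat 0, .ofNat 0, .ofNat 36589171856970386503187929497600, .ofNat 1434101709801498195829299609600, .ofNat 0⟩)
    (by decide +kernel)
theorem L00077 : Good (Phi V4.P V4.D 1 (-1)) ⟨2, 1, 2, 2, 1, 0, 3, 6, 3, 0⟩ :=
  leaf_sound (S := T4.ds_pm) T4.ok_pm (w := 160) (c := ⟨⟨.negSucc 167, .negSucc 187, .negSucc 24, .negSucc 130, .ofNat 52, .negSucc 65⟩, ⟨.ofNat 93, .ofNat 42, .ofNat 97, .ofNat 58, .negSucc 23, .ofNat 34⟩, ⟨.negSucc 343, .ofNat 191, .ofNat 37, .ofNat 346, .negSucc 168, .ofNat 81⟩, ⟨.negSucc 573, .negSucc 243, .negSucc 122, .negSucc 515, .ofNat 141, .negSucc 131⟩, ⟨.negSucc 143, .ofNat 67, .ofNat 36, .negSucc 365, .ofNat 20, .ofNat 74⟩, .ofNat 813, .ofNat 745,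 .ofNat 0, .ofNat 745, .ofNat 1893, .ofNat 0, .ofNat 204, .negSucc 216, .negSucc 299, .ofNat 0, .ofNat 179, .ofNat 136, .ofNat 0, .ofNat 0, .ofNat 575, .ofNat 2478, .ofNat 0, .ofNat 0, .ofNat 0, .ofNat 0, .ofNat 0, .ofNat 0, .ofNat 49868423905983495295677235200, .ofNat 0, .ofNat 0, .ofNat 0, .ofNat 23674776350429196548938137600, .ofNat 0, .ofNat 0, .ofNat 0, .ofNat 13354976436883118515814400000, .ofNat 0⟩)
    (by decide +kernel)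
theorem L00078 : Good (Phi V4.P V4.D 1 (-1)) ⟨2, 1, 2, 2, 2, 0, 3, 7, 3, 0⟩ :=
  leaf_sound (S := T4.ds_pm) T4.ok_pm (w := 168) (c := ⟨⟨.negSucc 205, .negSucc 95, .ofNat 45, .negSucc 24, .ofNat 162, .ofNat 12⟩, ⟨.ofNat 106, .ofNat 23, .ofNat 23, .ofNat 8, .negSucc 78, .negSucc 3⟩, ⟨.negSucc 457, .ofNat 97, .negSucc 44, .ofNat 85, .negSucc 242, .ofNat 109⟩, ⟨.negSucc 602, .negSucc 132, .ofNat 78, .negSucc 168, .ofNat 433, .ofNat 56⟩, ⟨.negSucc 71, .ofNat 14, .negSucc 9, .negSucc 225, .ofNat 41, .ofNat 56⟩, .ofNat 807, .ofNat 736, .ofNat 0, .ofNat 736, .ofNat 1883, .ofNat 0, .ofNat 212, .negSucc 218, .negSucc 335, .ofNat 0, .ofNat 184, .ofNat 147, .ofNat 0, .ofNat 0, .ofNat 606, .ofNat 5196, .ofNat 0, .ofNat 0, .ofNat 0, .ofNat 0, .ofNat 0, .ofNat 0, .ofNat 18329992907045950246401500774400, .ofNat 0, .ofNat 0, .ofNat 0, .ofNat 7935717082478161511476887552000,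 .ofNat 0, .ofNat 0, .ofNat 0, .ofNat 12564993461599909169405204889600, .ofNat 0⟩)
    (by decide +kernel)
theorem L00079 : Good (Phi V4.P V4.D 1 (-1)) ⟨2, 1, 2, 2, 2, 1, 3, 7, 3, 0⟩ :=
  leaf_sound (S := T4.ds_pm) T4.ok_pm (w := 168) (c := ⟨⟨.negSucc 74, .negSucc 195, .ofNat 6, .negSucc 268, .ofNat 58, .negSucc 85⟩, ⟨.ofNat 36, .ofNat 57, .ofNat 80, .ofNat 134, .negSucc 26, .ofNat 45⟩, ⟨.negSucc 483, .ofNat 197, .ofNat 36, .ofNat 421, .negSucc 145, .ofNat 130⟩, ⟨.negSucc 464, .negSucc 281, .negSucc 50, .negSucc 713, .ofNat 201, .negSucc 138⟩, ⟨.negSucc 426, .ofNat 74, .ofNat 7, .negSucc 42, .ofNat 104, .ofNat 161⟩, .ofNat 822, .ofNat 752, .ofNat 0, .ofNat 752, .ofNat 1892, .ofNat 0, .ofNat 215, .negSucc 232, .negSucc 338, .ofNat 0, .ofNat 190, .ofNat 153, .ofNat 0, .ofNat 0, .ofNat 595, .ofNat 1202, .ofNat 0, .ofNat 0, .ofNat 0, .ofNat 0,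 .ofNat 0, .ofNat 0, .ofNat 0, .ofNat 0, .ofNat 0, .ofNat 0, .ofNat 0, .ofNat 0, .ofNat 0, .ofNat 0, .ofNat 0, .ofNat 0⟩)
    (by decide +kernel)
theorem L00080 : Good (Phi V4.P V4.D 1 (-1)) ⟨1, 0, 2, 3, 1, 0, 2, 3, 3, 0⟩ :=
  out_sound (S := T4.ds_pm) T4.ok_pm (w := 32) (j := 3) (by decide +kernel)
theorem L00081 : Good (Phi V4.P V4.D 1 (-1)) ⟨1, 0, 1, 0, 2, 0, 2, 2, 3, 1⟩ :=
  leaf_sound (S := T4.ds_pm) T4.ok_pm (w := 160) (c := ⟨⟨.negSucc 352, .negSucc 193, .ofNat 22, .negSucc 13, .ofNat 122, .negSucc 6⟩, ⟨.negSucc 1, .ofNat 53, .ofNat 176, .negSucc 8, .negSucc 32, .ofNat 6⟩, ⟨.ofNat 95, .ofNat 193, .negSucc 8, .ofNat 27, .negSucc 305, .negSucc 17⟩, ⟨.negSucc 1078, .negSucc 220, .ofNat 6, .negSucc 98, .ofNat 329, .negSucc 24⟩, ⟨.negSucc 31, .ofNat 40, .ofNat 2, .negSucc 240, .negSucc 10, .ofNat 17⟩, .ofNat 400, .ofNat 96, .ofNat 0, .ofNat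 96, .ofNat 678, .ofNat 0, .ofNat 488, .negSucc 128, .negSucc 471, .ofNat 0, .ofNat 350, .ofNat 101, .ofNat 0, .ofNat 0, .ofNat 1000, .ofNat 6585, .ofNat 0, .ofNat 0, .ofNat 0, .ofNat 0, .ofNat 0, .ofNat 0, .ofNat 0, .ofNat 0, .ofNat 0, .ofNat 0, .ofNat 0, .ofNat 0, .ofNat 0, .ofNat 0, .ofNat 0, .ofNat 0⟩)
    (by decide +kernel)
theorem L00082 : Good (Phi V4.P V4.D 1 (-1)) ⟨1, 0, 1, 0, 2, 0, 2, 3, 3, 1⟩ :=
  leaf_sound (S := T4.ds_pm) T4.ok_pm (w := 160) (c := ⟨⟨.negSucc 252, .negSucc 142, .ofNat 10, .negSucc 57, .ofNat 261, .ofNat 9⟩, ⟨.ofNat 7, .ofNat 45, .ofNat 106, .negSucc 9, .negSucc 64, .ofNat 6⟩, ⟨.negSucc 225, .ofNat 132, .ofNat 4, .ofNat 71, .negSucc 358, .ofNat 47⟩, ⟨.negSucc 769, .negSucc 189, .negSucc 1, .negSucc 190, .ofNat 709, .ofNat 24⟩, ⟨.negSucc 63, .ofNat 25, .ofNat 12, .negSucc 205, .ofNat 72, .ofNat 34⟩, .ofNat 396, .ofNat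 96, .ofNat 0, .ofNat 96, .ofNat 683, .ofNat 0, .ofNat 267, .negSucc 69, .negSucc 312, .ofNat 0, .ofNat 189, .ofNat 58, .ofNat 0, .ofNat 0, .ofNat 549, .ofNat 1738, .ofNat 0, .ofNat 0, .ofNat 0, .ofNat 0, .ofNat 0, .ofNat 0, .ofNat 0, .ofNat 0, .ofNat 0, .ofNat 0, .ofNat 0, .ofNat 0, .ofNat 0, .ofNat 0, .ofNat 0, .ofNat 0⟩)
    (by decide +kernel)
theorem L00083 : Good (Phi V4.P V4.D 1 (-1)) ⟨1, 0, 1, 1, 2, 0, 1, 1, 3, 1⟩ :=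
  leaf_sound (S := T4.ds_pm) T4.ok_pm (w := 152) (c := ⟨⟨.negSucc 394, .negSucc 150, .ofNat 103, .ofNat 0, .ofNat 394, .ofNat 4⟩, ⟨.ofNat 217, .ofNat 42, .ofNat 86, .negSucc 0, .negSucc 204, .negSucc 0⟩, ⟨.ofNat 85, .ofNat 151, .negSucc 5, .ofNat 28, .negSucc 668, .ofNat 33⟩, ⟨.negSucc 1206, .negSucc 174, .ofNat 244, .negSucc 110, .ofNat 1093, .ofNat 5⟩, ⟨.negSucc 56, .ofNat 21, .negSucc 7, .negSucc 209, .ofNat 53, .ofNat 24⟩, .ofNat 442, .ofNat 203, .ofNat 0, .ofNat 203, .ofNat 705, .ofNat 0, .ofNat 234, .negSucc 130, .negSucc 292, .ofNat 0, .ofNat 196, .ofNat 109, .ofNat 0, .ofNat 0, .ofNat 534, .ofNat 1669, .ofNat 0, .ofNat 0, .ofNat 1832752809481342550645145600, .ofNat 0, .ofNat 0, .ofNat 0, .ofNat 525854186442029511697917542400, .ofNat 0, .ofNat 0, .ofNat 0, .ofNat 816547115785713115913728819200, .ofNat 0, .ofNat 0, .ofNat 80525053826002256040611020800,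 .ofNat 498992141498614723330965504000, .ofNat 0⟩)
    (by decide +kernel)
theorem L00084 : Good (Phi V4.P V4.D 1 (-1)) ⟨2, 0, 1, 0, 2, 1, 1, 1, 3, 1⟩ :=
  leaf_sound (S := T4.ds_pm) T4.ok_pm (w := 160) (c := ⟨⟨.negSucc 356, .negSucc 66, .ofNat 60, .negSucc 129, .ofNat 239, .negSucc 27⟩, ⟨.negSucc 32, .ofNat 48, .ofNat 169, .ofNat 14, .negSucc 42, .ofNat 11⟩, ⟨.ofNat 72, .ofNat 62, .negSucc 4, .ofNat 143, .negSucc 498, .ofNat 20⟩, ⟨.negSucc 1095, .negSucc 115, .ofNat 28, .negSucc 419, .ofNat 733, .negSucc 60⟩, ⟨.negSucc 350, .ofNat 72, .ofNat 12, .negSucc 172, .ofNat 136, .ofNat 53⟩, .ofNat 407, .ofNat 78, .ofNat 0, .ofNat 78, .ofNat 647, .ofNat 0, .ofNat 535, .negSucc 118, .negSucc 518, .ofNat 0, .ofNat 384, .ofNat 115, .ofNat 0, .ofNat 0, .ofNat 1015, .ofNat 2417, .ofNat 0, .ofNat 0, .ofNat 0, .ofNat 0, .ofNat 0, .ofNat 0, .ofNat 0, .ofNat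 0, .ofNat 0, .ofNat 0, .ofNat 0, .ofNat 0, .ofNat 0, .ofNat 0, .ofNat 0, .ofNat 0⟩)
    (by decide +kernel)
theorem L00085 : Good (Phi V4.P V4.D 1 (-1)) ⟨2, 1, 1, 0, 2, 1, 2, 2, 3, 1⟩ :=
  leaf_sound (S := T4.ds_pm) T4.ok_pm (w := 160) (c := ⟨⟨.negSucc 357, .negSucc 282, .ofNat 38, .negSucc 184, .ofNat 96, .negSucc 43⟩, ⟨.negSucc 3, .ofNat 21, .ofNat 226, .ofNat 32, .negSucc 31, .ofNat 7⟩, ⟨.ofNat 129, .ofNat 246, .ofNat 10, .ofNat 173, .negSucc 259, .negSucc 19⟩, ⟨.negSucc 1102, .negSucc 343, .negSucc 6, .negSucc 453, .ofNat 238, .negSucc 97⟩, ⟨.negSucc 315, .ofNat 145, .ofNat 5, .negSucc 28, .negSucc 35, .ofNat 30⟩, .ofNat 381, .ofNat 99, .ofNat 0, .ofNat 99, .ofNat 731, .ofNat 0, .ofNat 270, .negSucc 76, .negSucc 274, .ofNat 0, .ofNat 171, .ofNat 69, .ofNat 0, .ofNat 0, .ofNat 517, .ofNat 2885, .ofNat 0, .ofNat 0, .ofNat 0, .ofNat 0, .ofNat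 0, .ofNat 0, .ofNat 0, .ofNat 0, .ofNat 0, .ofNat 0, .ofNat 0, .ofNat 0, .ofNat 0, .ofNat 0, .ofNat 0, .ofNat 0⟩)
    (by decide +kernel)
theorem L00086 : Good (Phi V4.P V4.D 1 (-1)) ⟨2, 1, 1, 0, 2, 1, 2, 3, 3, 1⟩ :=
  leaf_sound (S := T4.ds_pm) T4.ok_pm (w := 160) (c := ⟨⟨.negSucc 217, .negSucc 258, .negSucc 15, .negSucc 277, .ofNat 177, .negSucc 34⟩, ⟨.negSucc 32, .ofNat 30, .ofNat 182, .ofNat 63, .negSucc 25, .ofNat 15⟩, ⟨.negSucc 250, .ofNat 231, .ofNat 77, .ofNat 311, .negSucc 272, .ofNat 54⟩, ⟨.negSucc 718, .negSucc 374, .negSucc 105, .negSucc 673, .ofNat 474, .negSucc 89⟩, ⟨.negSucc 358, .ofNat 88, .ofNat 23, .negSucc 15, .ofNat 164, .ofNat 70⟩, .ofNat 378, .ofNat 91, .ofNat 0, .ofNat 91, .ofNat 731, .ofNat 0, .ofNat 291, .negSucc 74, .negSucc 346, .ofNat 0, .ofNat 183, .ofNat 62, .ofNat 0, .ofNat 0, .ofNat 558, .ofNat 748, .ofNat 0,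 .ofNat 0, .ofNat 0, .ofNat 0, .ofNat 0, .ofNat 0, .ofNat 0, .ofNat 0, .ofNat 0, .ofNat 0, .ofNat 0, .ofNat 0, .ofNat 0, .ofNat 0, .ofNat 0, .ofNat 0⟩)
    (by decide +kernel)
theorem L00087 : Good (Phi V4.P V4.D 1 (-1)) ⟨2, 0, 1, 1, 2, 1, 1, 1, 3, 1⟩ :=
  leaf_sound (S := T4.ds_pm) T4.ok_pm (w := 160) (c := ⟨⟨.negSucc 245, .negSucc 133, .ofNat 18, .negSucc 140, .ofNat 204, .negSucc 17⟩, ⟨.ofNat 116, .ofNat 76, .ofNat 185, .ofNat 74, .negSucc 106, .ofNat 13⟩, ⟨.negSucc 9, .ofNat 124, .negSucc 13, .ofNat 183, .negSucc 441, .ofNat 12⟩, ⟨.negSucc 996, .negSucc 232, .negSucc 149, .negSucc 469, .ofNat 674, .negSucc 6⟩, ⟨.negSucc 395, .ofNat 74, .negSucc 141, .negSucc 115, .ofNat 159, .ofNat 78⟩, .ofNat 2882, .ofNat 4070, .ofNat 0, .ofNat 4070, .ofNat 7642, .ofNat 0, .ofNat 205, .negSucc 438, .negSucc 388, .ofNat 0, .ofNat 290, .ofNat 215, .ofNat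 0, .ofNat 0, .ofNat 928, .ofNat 3046, .ofNat 0, .ofNat 0, .ofNat 3412243539335001535414272000, .ofNat 0, .ofNat 0, .ofNat 0, .ofNat 0, .ofNat 0, .ofNat 0, .ofNat 7495037518261444524275820134400, .ofNat 1237522940284727324736434995200, .ofNat 0, .ofNat 0, .ofNat 13911158821277311393567290163200, .ofNat 767314553735942319861714124800, .ofNat 0⟩)
    (by decide +kernel)
theorem L00088 : Good (Phi V4.P V4.D 1 (-1)) ⟨2, 1, 1, 1, 2, 1, 1, 1, 3, 1⟩ :=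
  leaf_sound (S := T4.ds_pm) T4.ok_pm (w := 160) (c := ⟨⟨.negSucc 338, .negSucc 230, .ofNat 158, .negSucc 225, .ofNat 225, .negSucc 50⟩, ⟨.ofNat 182, .ofNat 47, .ofNat 114, .ofNat 111, .negSucc 108, .ofNat 22⟩, ⟨.ofNat 109, .ofNat 196, .negSucc 122, .ofNat 259, .negSucc 488, .ofNat 18⟩, ⟨.negSucc 1126, .negSucc 276, .ofNat 275, .negSucc 598, .ofNat 624, .negSucc 103⟩, ⟨.negSucc 309, .ofNat 98, .negSucc 32, .negSucc 45, .ofNat 103, .ofNat 38⟩, .ofNat 1650, .ofNat 2257, .ofNat 0, .ofNat 2257, .ofNat 4894, .ofNat 0, .ofNat 252, .negSucc 449, .negSucc 455, .ofNat 0, .ofNat 284, .ofNat 224, .ofNat 0, .ofNat 0, .ofNat 967, .ofNat 1514, .ofNat 0, .ofNat 0, .ofNat 1111418439587588472097996800, .ofNat 0, .ofNat 0, .ofNat 0, .ofNat 1658152986688746899067056947200, .ofNat 0, .ofNat 0, .ofNat 0, .ofNat 1388237610589770325270147891200, .ofNat 0, .ofNat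 0, .ofNat 17067106736732374847882212147200, .ofNat 869650247141111053404654796800, .ofNat 0⟩)
    (by decide +kernel)
theorem L00089 : Good (Phi V4.P V4.D 1 (-1)) ⟨1, 0, 1, 0, 2, 2, 2, 2, 3, 0⟩ :=
  leaf_sound (S := T4.ds_pm) T4.ok_pm (w := 160) (c := ⟨⟨.negSucc 51, .negSucc 478, .ofNat 46, .negSucc 76, .negSucc 17, .negSucc 285⟩, ⟨.negSucc 122, .ofNat 140, .ofNat 199, .ofNat 21, .negSucc 11, .ofNat 83⟩, ⟨.negSucc 60, .ofNat 498, .negSucc 12, .ofNat 97, .negSucc 171, .ofNat 135⟩, ⟨.negSucc 461, .negSucc 703, .negSucc 18, .negSucc 217, .negSucc 68, .negSucc 725⟩, ⟨.negSucc 670, .ofNat 501, .negSucc 9, .ofNat 86, .negSucc 79, .ofNat 95⟩, .ofNat 392, .ofNat 91, .ofNat 0, .ofNat 91, .ofNat 694, .ofNat 0, .ofNat 333, .negSucc 92, .negSucc 341, .ofNat 0, .ofNat 206, .ofNat 102, .ofNat 0, .ofNat 0, .ofNat 564, .ofNat 904, .ofNat 0, .ofNat 0, .ofNat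 0, .ofNat 0, .ofNat 0, .ofNat 0, .ofNat 0, .ofNat 0, .ofNat 0, .ofNat 0, .ofNat 0, .ofNat 0, .ofNat 0, .ofNat 0, .ofNat 0, .ofNat 0⟩)
    (by decide +kernel)
theorem L00090 : Good (Phi V4.P V4.D 1 (-1)) ⟨1, 0, 1, 1, 2, 2, 2, 2, 3, 0⟩ :=
  leaf_sound (S := T4.ds_pm) T4.ok_pm (w := 160) (c := ⟨⟨.ofNat 116, .negSucc 575, .ofNat 463, .negSucc 143, .negSucc 66, .negSucc 346⟩, ⟨.negSucc 41, .ofNat 234, .ofNat 88, .ofNat 71, .ofNat 28, .ofNat 172⟩, ⟨.negSucc 191, .ofNat 565, .negSucc 317, .ofNat 147, .negSucc 66, .ofNat 196⟩, ⟨.negSucc 320, .negSucc 789, .ofNat 705, .negSucc 319, .negSucc 178, .negSucc 848⟩, ⟨.negSucc 763, .ofNat 595, .negSucc 194, .ofNat 114, .negSucc 28, .ofNat 118⟩, .ofNat 442, .ofNat 203, .ofNat 0, .ofNat 203, .ofNat 705, .ofNat 0, .ofNat 296, .negSucc 187, .negSucc 340, .ofNat 0, .ofNat 231, .ofNat 165, .ofNat 0, .ofNat 0, .ofNat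 542, .ofNat 2104, .ofNat 0, .ofNat 0, .ofNat 92988104214113141617852416000, .ofNat 0, .ofNat 0, .ofNat 0, .ofNat 5191357411196247306336731136000, .ofNat 0, .ofNat 0, .ofNat 0, .ofNat 9166743890764841328325322342400, .ofNat 0, .ofNat 0, .ofNat 0, .ofNat 4559057193288267391686200524800, .ofNat 0⟩)
    (by decide +kernel)
theorem L00091 : Good (Phi V4.P V4.D 1 (-1)) ⟨2, 0, 1, 0, 2, 2, 2, 3, 3, 0⟩ :=
  leaf_sound (S := T4.ds_pm) T4.ok_pm (w := 160) (c := ⟨⟨.negSucc 225, .negSucc 106, .ofNat 69, .negSucc 203, .negSucc 35, .negSucc 100⟩, ⟨.negSucc 126, .ofNat 72, .ofNat 209, .ofNat 75, .ofNat 23, .ofNat 40⟩, ⟨.negSucc 217, .ofNat 137, .ofNat 34, .ofNat 308, .negSucc 76, .ofNat 83⟩, ⟨.negSucc 795, .negSucc 178, .negSucc 13, .negSucc 571, .negSucc 29, .negSucc 247⟩, ⟨.negSucc 800, .ofNat 219, .ofNat 31, .ofNat 90, .ofNat 225, .ofNat 177⟩, .ofNat 653,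 .ofNat 319, .ofNat 0, .ofNat 319, .ofNat 1379, .ofNat 0, .ofNat 284, .negSucc 137, .negSucc 262, .ofNat 0, .ofNat 184, .ofNat 85, .ofNat 0, .ofNat 0, .ofNat 532, .ofNat 1090, .ofNat 0, .ofNat 0, .ofNat 0, .ofNat 0, .ofNat 0, .ofNat 0, .ofNat 0, .ofNat 0, .ofNat 0, .ofNat 0, .ofNat 0, .ofNat 0, .ofNat 0, .ofNat 0, .ofNat 0, .ofNat 0⟩)
    (by decide +kernel)
theorem L00092 : Good (Phi V4.P V4.D 1 (-1)) ⟨2, 1, 1, 0, 2, 2, 2, 3, 3, 0⟩ :=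
  leaf_sound (S := T4.ds_pm) T4.ok_pm (w := 160) (c := ⟨⟨.negSucc 113, .negSucc 383, .negSucc 35, .negSucc 342, .negSucc 33, .negSucc 265⟩, ⟨.negSucc 90, .ofNat 51, .ofNat 272, .ofNat 79, .ofNat 17, .ofNat 78⟩, ⟨.negSucc 209, .ofNat 315, .ofNat 143, .ofNat 404, .negSucc 108, .ofNat 165⟩, ⟨.negSucc 559, .negSucc 553, .negSucc 170, .negSucc 788, .negSucc 67, .negSucc 608⟩, ⟨.negSucc 637, .ofNat 222, .ofNat 18, .ofNat 311, .ofNat 163, .ofNat 208⟩, .ofNat 378, .ofNat 97, .ofNat 0, .ofNat 97, .ofNat 732, .ofNat 0, .ofNat 374, .negSucc 98, .negSucc 453, .ofNat 0, .ofNat 216, .ofNat 101, .ofNat 0, .ofNat 0, .ofNat 636, .ofNat 785, .ofNat 0, .ofNat 0, .ofNat 0, .ofNat 0, .ofNat 0, .ofNat 0, .ofNat 0, .ofNat 0, .ofNat 0, .ofNat 0, .ofNat 0, .ofNat 0, .ofNat 0, .ofNat 0, .ofNat 0, .ofNat 0⟩)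
    (by decide +kernel)
theorem L00093 : Good (Phi V4.P V4.D 1 (-1)) ⟨1, 0, 1, 1, 2, 2, 2, 3, 3, 0⟩ :=
  leaf_sound (S := T4.ds_pm) T4.ok_pm (w := 160) (c := ⟨⟨.ofNat 157, .negSucc 680, .ofNat 191, .negSucc 343, .negSucc 133, .negSucc 193⟩, ⟨.negSucc 56, .ofNat 256, .ofNat 258, .ofNat 178, .ofNat 72, .ofNat 103⟩, ⟨.negSucc 460, .ofNat 667, .negSucc 65, .ofNat 453, .ofNat 32, .ofNat 138⟩, ⟨.negSucc 313, .negSucc 1003, .ofNat 189, .negSucc 767, .negSucc 233, .negSucc 454⟩, ⟨.negSucc 878, .ofNat 526, .ofNat 99, .ofNat 275, .ofNat 227, .ofNat 145⟩, .ofNat 439, .ofNat 202, .ofNat 0, .ofNat 202, .ofNat 705, .ofNat 0, .ofNat 321, .negSucc 189, .negSucc 411, .ofNat 0, .ofNat 244, .ofNat 171, .ofNat 0, .ofNat 0, .ofNat 601, .ofNat 1026, .ofNat 0, .ofNat 0, .ofNat 57684752920596071046551961600, .ofNat 0, .ofNat 0, .ofNat 480722640274028520527206809600,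 .ofNat 3841537492181262357755854848000, .ofNat 0, .ofNat 0, .ofNat 169445701752871060367002828800, .ofNat 8281178138636787552414282547200, .ofNat 0, .ofNat 0, .ofNat 559106385156441249310310400000, .ofNat 3270263298851160241628774400000, .ofNat 0⟩)
    (by decide +kernel)
theorem L00094 : Good (Phi V4.P V4.D 1 (-1)) ⟨2, 0, 1, 0, 2, 3, 1, 1, 3, 0⟩ :=
  leaf_sound (S := T4.ds_pm) T4.ok_pm (w := 160) (c := ⟨⟨.negSucc 120, .negSucc 153, .ofNat 42, .negSucc 65, .negSucc 249, .negSucc 381⟩, ⟨.negSucc 183, .ofNat 97, .ofNat 253, .ofNat 43, .ofNat 99, .ofNat 130⟩, ⟨.negSucc 28, .ofNat 134, .ofNat 7, .ofNat 115, .ofNat 129, .ofNat 200⟩, ⟨.negSucc 507, .negSucc 284, .ofNat 2, .negSucc 132, .negSucc 648, .negSucc 1098⟩, ⟨.negSucc 776, .ofNat 336, .ofNat 3, .ofNat 356, .ofNat 387, .ofNat 87⟩, .ofNat 413, .ofNat 95, .ofNat 0, .ofNat 95, .ofNat 648, .ofNat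 0, .ofNat 394, .negSucc 106, .negSucc 308, .ofNat 0, .ofNat 238, .ofNat 106, .ofNat 0, .ofNat 0, .ofNat 516, .ofNat 810, .ofNat 0, .ofNat 0, .ofNat 0, .ofNat 0, .ofNat 0, .ofNat 0, .ofNat 0, .ofNat 0, .ofNat 0, .ofNat 2780076107000466023857835212800, .ofNat 0, .ofNat 0, .ofNat 0, .ofNat 0, .ofNat 0, .ofNat 0⟩)
    (by decide +kernel)
theorem L00095 : Good (Phi V4.P V4.D 1 (-1)) ⟨2, 1, 1, 0, 2, 3, 2, 2, 3, 0⟩ :=
  leaf_sound (S := T4.ds_pm) T4.ok_pm (w := 160) (c := ⟨⟨.negSucc 12, .negSucc 455, .negSucc 1, .negSucc 118, .negSucc 108, .negSucc 767⟩, ⟨.negSucc 115, .ofNat 17, .ofNat 361, .ofNat 63, .ofNat 42, .ofNat 139⟩, ⟨.ofNat 95, .ofNat 275, .negSucc 70, .negSucc 11, .ofNat 72, .ofNat 384⟩, ⟨.negSucc 380, .negSucc 622, .ofNat 60, .negSucc 196, .negSucc 282, .negSucc 1829⟩, ⟨.negSucc 579, .ofNat 535, .negSucc 53, .ofNat 565, .ofNat 68, .ofNat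 312⟩, .ofNat 375, .ofNat 90, .ofNat 0, .ofNat 90, .ofNat 736, .ofNat 0, .ofNat 427, .negSucc 125, .negSucc 380, .ofNat 0, .ofNat 215, .ofNat 103, .ofNat 0, .ofNat 0, .ofNat 537, .ofNat 972, .ofNat 0, .ofNat 0, .ofNat 0, .ofNat 0, .ofNat 0, .ofNat 0, .ofNat 0, .ofNat 0, .ofNat 0, .ofNat 0, .ofNat 0, .ofNat 0, .ofNat 0, .ofNat 0, .ofNat 0, .ofNat 0⟩)
    (by decide +kernel)
theorem L00096 : Good (Phi V4.P V4.D 1 (-1)) ⟨2, 1, 1, 0, 2, 3, 2, 3, 3, 0⟩ :=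
  leaf_sound (S := T4.ds_pm) T4.ok_pm (w := 160) (c := ⟨⟨.negSucc 149, .negSucc 482, .negSucc 78, .negSucc 161, .negSucc 231, .negSucc 615⟩, ⟨.negSucc 105, .ofNat 29, .ofNat 403, .ofNat 53, .ofNat 70, .ofNat 136⟩, ⟨.negSucc 37, .ofNat 329, .ofNat 169, .ofNat 199, .ofNat 155, .ofNat 369⟩, ⟨.negSucc 782, .negSucc 705, .negSucc 54, .negSucc 203, .negSucc 439, .negSucc 1493⟩, ⟨.negSucc 610, .ofNat 441, .ofNat 44, .ofNat 836, .ofNat 392, .ofNat 325⟩, .ofNat 380, .ofNat 99, .ofNat 0, .ofNat 99, .ofNat 728, .ofNat 0, .ofNat 449, .negSucc 110, .negSucc 421, .ofNat 0, .ofNat 224, .ofNat 111, .ofNat 0, .ofNat 0, .ofNat 564, .ofNat 632, .ofNat 0, .ofNat 0, .ofNat 0, .ofNat 0, .ofNat 0, .ofNat 9165808058426664844157308108800, .ofNat 0, .ofNat 0, .ofNat 0, .ofNat 6151923758548961938562560819200, .ofNat 789891425702603432066757427200, .ofNat 0, .ofNat 0,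 .ofNat 8868586943855576189334926131200, .ofNat 0, .ofNat 0⟩)
    (by decide +kernel)
theorem L00097 : Good (Phi V4.P V4.D 1 (-1)) ⟨1, 0, 1, 1, 2, 3, 1, 1, 3, 0⟩ :=
  leaf_sound (S := T4.ds_pm) T4.ok_pm (w := 160) (c := ⟨⟨.ofNat 296, .negSucc 750, .ofNat 299, .negSucc 154, .negSucc 456, .negSucc 601⟩, ⟨.negSucc 123, .ofNat 276, .ofNat 231, .ofNat 88, .ofNat 247, .ofNat 317⟩, ⟨.negSucc 231, .ofNat 460, .negSucc 199, .ofNat 64, .ofNat 443, .ofNat 340⟩, ⟨.negSucc 73, .negSucc 923, .ofNat 584, .negSucc 144, .negSucc 948, .negSucc 1502⟩, ⟨.negSucc 1053, .ofNat 916, .negSucc 61, .ofNat 560, .ofNat 527, .ofNat 208⟩, .ofNat 837, .ofNat 739, .ofNat 0, .ofNat 739, .ofNat 1837, .ofNat 0, .ofNat 469, .negSucc 578, .negSucc 515, .ofNat 0, .ofNat 421, .ofNat 263, .ofNat 0, .ofNat 0, .ofNat 956, .ofNat 1079, .ofNat 0, .ofNat 0, .ofNat 13218534817542682564991385600,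 .ofNat 0, .ofNat 0, .ofNat 593794263164965291951128576000, .ofNat 0, .ofNat 0, .ofNat 0, .ofNat 941167154021354375050218700800, .ofNat 3035257802262375119798560358400, .ofNat 0, .ofNat 0, .ofNat 1365023970377021612406236774400, .ofNat 2487822072474520102520645222400, .ofNat 0⟩)
    (by decide +kernel)
theorem L00098 : Good (Phi V4.P V4.D 1 (-1)) ⟨2, 0, 1, 0, 2, 2, 2, 2, 3, 1⟩ :=
  leaf_sound (S := T4.ds_pm) T4.ok_pm (w := 160) (c := ⟨⟨.negSucc 376, .negSucc 155, .ofNat 80, .negSucc 192, .ofNat 35, .negSucc 58⟩, ⟨.negSucc 95, .ofNat 99, .ofNat 254, .ofNat 43, .negSucc 5, .ofNat 15⟩, ⟨.ofNat 102, .ofNat 149, .negSucc 14, .ofNat 165, .negSucc 122, .ofNat 1⟩, ⟨.negSucc 1194, .negSucc 301, .ofNat 8, .negSucc 558, .ofNat 124, .negSucc 166⟩, ⟨.negSucc 598, .ofNat 259, .negSucc 17, .negSucc 0, .ofNat 55, .ofNat 26⟩, .ofNat 408, .ofNat 77, .ofNat 0,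 .ofNat 77, .ofNat 645, .ofNat 0, .ofNat 585, .negSucc 143, .negSucc 490, .ofNat 0, .ofNat 395, .ofNat 153, .ofNat 0, .ofNat 0, .ofNat 983, .ofNat 2599, .ofNat 0, .ofNat 0, .ofNat 0, .ofNat 0, .ofNat 0, .ofNat 0, .ofNat 0, .ofNat 0, .ofNat 0, .ofNat 0, .ofNat 0, .ofNat 0, .ofNat 0, .ofNat 0, .ofNat 0, .ofNat 0⟩)
    (by decide +kernel)
theorem L00099 : Good (Phi V4.P V4.D 1 (-1)) ⟨2, 0, 2, 0, 2, 2, 2, 3, 3, 1⟩ :=
  leaf_sound (S := T4.ds_pm) T4.ok_pm (w := 168) (c := ⟨⟨.negSucc 302, .negSucc 147, .ofNat 11, .negSucc 251, .ofNat 46, .negSucc 36⟩, ⟨.negSucc 94, .ofNat 85, .ofNat 121, .ofNat 47, .ofNat 19, .ofNat 17⟩, ⟨.negSucc 106, .ofNat 126, .ofNat 27, .ofNat 269, .negSucc 111, .ofNat 24⟩, ⟨.negSucc 989, .negSucc 301, .negSucc 44, .negSucc 726, .ofNat 177, .negSucc 83⟩, ⟨.negSucc 629, .ofNat 231, .ofNat 9, .ofNat 76, .ofNat 255, .ofNat 88⟩,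 .ofNat 598, .ofNat 152, .ofNat 0, .ofNat 152, .ofNat 1306, .ofNat 0, .ofNat 549, .negSucc 130, .negSucc 410, .ofNat 0, .ofNat 316, .ofNat 79, .ofNat 0, .ofNat 0, .ofNat 939, .ofNat 3686, .ofNat 0, .ofNat 0, .ofNat 0, .ofNat 0, .ofNat 0, .ofNat 0, .ofNat 0, .ofNat 0, .ofNat 0, .ofNat 0, .ofNat 0, .ofNat 0, .ofNat 0, .ofNat 0, .ofNat 0, .ofNat 0⟩)
    (by decide +kernel)
theorem L00100 : Good (Phi V4.P V4.D 1 (-1)) ⟨2, 0, 2, 1, 2, 2, 2, 3, 3, 1⟩ :=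
  leaf_sound (S := T4.ds_pm) T4.ok_pm (w := 168) (c := ⟨⟨.negSucc 230, .negSucc 197, .ofNat 9, .negSucc 272, .ofNat 27, .negSucc 57⟩, ⟨.negSucc 26, .ofNat 118, .ofNat 134, .ofNat 115, .ofNat 5, .ofNat 30⟩, ⟨.negSucc 136, .ofNat 181, .ofNat 33, .ofNat 299, .negSucc 91, .ofNat 35⟩, ⟨.negSucc 942, .negSucc 381, .negSucc 44, .negSucc 752, .ofNat 174, .negSucc 124⟩, ⟨.negSucc 640, .ofNat 242, .ofNat 15, .ofNat 95, .ofNat 236, .ofNat 100⟩, .ofNat 428, .ofNat 140, .ofNat 0, .ofNat 140, .ofNat 664, .ofNat 0, .ofNat 591, .negSucc 248, .negSucc 567, .ofNat 0, .ofNat 427, .ofNat 195, .ofNat 0, .ofNat 0, .ofNat 1003, .ofNat 2023, .ofNat 0, .ofNat 0, .ofNat 0, .ofNat 0, .ofNat 0, .ofNat 0, .ofNat 0, .ofNat 0, .ofNat 0, .ofNat 0, .ofNat 0, .ofNat 0, .ofNat 0, .ofNat 0, .ofNat 0, .ofNat 0⟩)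
    (by decide +kernel)
theorem L00101 : Good (Phi V4.P V4.D 1 (-1)) ⟨2, 0, 1, 1, 2, 2, 1, 1, 3, 1⟩ :=
  leaf_sound (S := T4.ds_pm) T4.ok_pm (w := 160) (c := ⟨⟨.negSucc 177, .negSucc 262, .ofNat 40, .negSucc 285, .ofNat 24, .negSucc 72⟩, ⟨.ofNat 72, .ofNat 148, .ofNat 258, .ofNat 160, .negSucc 9, .ofNat 40⟩, ⟨.negSucc 16, .ofNat 199, .negSucc 2, .ofNat 270, .negSucc 146, .ofNat 21⟩, ⟨.negSucc 1034, .negSucc 401, .ofNat 4, .negSucc 756, .ofNat 189, .negSucc 177⟩, ⟨.negSucc 728, .ofNat 306, .ofNat 53, .ofNat 115, .ofNat 224, .ofNat 52⟩, .ofNat 1793, .ofNat 2207, .ofNat 0, .ofNat 2207, .ofNat 4365, .ofNat 0, .ofNat 262, .negSucc 481, .negSucc 394, .ofNat 0, .ofNat 331, .ofNat 219, .ofNat 0, .ofNat 0, .ofNat 912, .ofNat 1870, .ofNat 0, .ofNat 0, .ofNat 4066446180324873679876915200, .ofNat 0, .ofNat 0, .ofNat 0, .ofNat 0, .ofNat 0, .ofNat 0, .ofNat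 7169588996823664194564705484800, .ofNat 1224648110475619348083690700800, .ofNat 0, .ofNat 0, .ofNat 25152740772853852327672125849600, .ofNat 536196551813762910632961638400, .ofNat 0⟩)
    (by decide +kernel)
theorem L00102 : Good (Phi V4.P V4.D 1 (-1)) ⟨2, 0, 1, 0, 2, 3, 2, 2, 3, 1⟩ :=
  leaf_sound (S := T4.ds_pm) T4.ok_pm (w := 160) (c := ⟨⟨.negSucc 396, .negSucc 303, .negSucc 2, .negSucc 328, .negSucc 20, .negSucc 128⟩, ⟨.negSucc 158, .ofNat 157, .ofNat 413, .ofNat 122, .ofNat 9, .ofNat 31⟩, ⟨.ofNat 142, .ofNat 206, .ofNat 18, .ofNat 191, .ofNat 30, .ofNat 49⟩, ⟨.negSucc 1438, .negSucc 513, .negSucc 75, .negSucc 809, .negSucc 17, .negSucc 400⟩, ⟨.negSucc 827, .ofNat 616, .negSucc 4, .ofNat 457, .ofNat 118, .ofNat 15⟩, .ofNat 413, .ofNat 104, .ofNat 0, .ofNat 104, .ofNat 654, .ofNat 0, .ofNat 677, .negSucc 259, .negSucc 474, .ofNat 0, .ofNat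 448, .ofNat 191, .ofNat 0, .ofNat 0, .ofNat 949, .ofNat 2550, .ofNat 0, .ofNat 0, .ofNat 0, .ofNat 0, .ofNat 0, .ofNat 0, .ofNat 0, .ofNat 0, .ofNat 0, .ofNat 0, .ofNat 0, .ofNat 0, .ofNat 0, .ofNat 0, .ofNat 0, .ofNat 0⟩)
    (by decide +kernel)
theorem L00103 : Good (Phi V4.P V4.D 1 (-1)) ⟨2, 0, 1, 0, 2, 3, 2, 3, 3, 1⟩ :=
  leaf_sound (S := T4.ds_pm) T4.ok_pm (w := 160) (c := ⟨⟨.negSucc 394, .negSucc 323, .negSucc 18, .negSucc 322, .negSucc 76, .negSucc 128⟩, ⟨.negSucc 167, .ofNat 169, .ofNat 387, .ofNat 137, .ofNat 73, .ofNat 59⟩, ⟨.ofNat 32, .ofNat 259, .ofNat 99, .ofNat 322, .ofNat 74, .ofNat 70⟩, ⟨.negSucc 1459, .negSucc 584, .negSucc 92, .negSucc 762, .negSucc 79, .negSucc 319⟩, ⟨.negSucc 806, .ofNat 575, .ofNat 33, .ofNat 645, .ofNat 426, .ofNat 116⟩, .ofNat 413, .ofNat 97, .ofNat 0, .ofNat 97, .ofNat 648, .ofNat 0, .ofNat 745, .negSucc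 221, .negSucc 563, .ofNat 0, .ofNat 464, .ofNat 191, .ofNat 0, .ofNat 0, .ofNat 991, .ofNat 2221, .ofNat 0, .ofNat 0, .ofNat 0, .ofNat 0, .ofNat 0, .ofNat 48188595809288019758926528512000, .ofNat 0, .ofNat 0, .ofNat 0, .ofNat 59263739807395343777587947110400, .ofNat 0, .ofNat 0, .ofNat 0, .ofNat 62338711595990988838336148275200, .ofNat 0, .ofNat 0⟩)
    (by decide +kernel)
theorem L00104 : Good (Phi V4.P V4.D 1 (-1)) ⟨2, 0, 1, 1, 2, 3, 1, 1, 3, 1⟩ :=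
  leaf_sound (S := T4.ds_pm) T4.ok_pm (w := 160) (c := ⟨⟨.negSucc 222, .negSucc 447, .negSucc 40, .negSucc 391, .negSucc 154, .negSucc 161⟩, ⟨.ofNat 92, .ofNat 248, .ofNat 428, .ofNat 227, .ofNat 96, .ofNat 89⟩, ⟨.ofNat 32, .ofNat 279, .ofNat 116, .ofNat 232, .ofNat 245, .ofNat 60⟩, ⟨.negSucc 1357, .negSucc 649, .negSucc 122, .negSucc 811, .negSucc 179, .negSucc 451⟩, ⟨.negSucc 966, .ofNat 663, .negSucc 55, .ofNat 580, .ofNat 490, .ofNat 25⟩, .ofNat 1753, .ofNat 2144, .ofNat 0, .ofNat 2144, .ofNat 4274, .ofNat 0, .ofNat 299, .negSucc 574, .negSucc 374, .ofNat 0, .ofNat 385, .ofNat 211, .ofNat 0, .ofNat 0, .ofNat 891, .ofNat 1763, .ofNat 0, .ofNat 0, .ofNat 0, .ofNat 0, .ofNat 0, .ofNat 0, .ofNat 0, .ofNat 0, .ofNat 0, .ofNat 25961497536577383827899416576000, .ofNat 638280274912195821739337318400, .ofNat 0, .ofNat 0, .ofNat 8150657037732953277096945254400,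 .ofNat 526604589126278205072526540800, .ofNat 0⟩)
    (by decide +kernel)
theorem L00105 : Good (Phi V4.P V4.D 1 (-1)) ⟨2, 1, 1, 0, 2, 2, 2, 2, 3, 1⟩ :=
  leaf_sound (S := T4.ds_pm) T4.ok_pm (w := 160) (c := ⟨⟨.negSucc 244, .negSucc 490, .negSucc 70, .negSucc 405, .negSucc 45, .negSucc 155⟩, ⟨.negSucc 112, .ofNat 71, .ofNat 377, .ofNat 111, .ofNat 24, .ofNat 32⟩, ⟨.ofNat 50, .ofNat 376, .ofNat 117, .ofNat 299, .negSucc 62, .ofNat 44⟩, ⟨.negSucc 1003, .negSucc 676, .negSucc 183, .negSucc 902, .negSucc 70, .negSucc 357⟩, ⟨.negSucc 563, .ofNat 346, .ofNat 62, .ofNat 323, .ofNat 30, .ofNat 90⟩, .ofNat 379, .ofNat 105, .ofNat 0, .ofNat 105, .ofNat 727, .ofNat 0, .ofNat 315, .negSucc 106, .negSucc 308, .ofNat 0, .ofNat 188, .ofNat 90, .ofNat 0, .ofNat 0, .ofNat 517, .ofNat 1401, .ofNat 0, .ofNat 0, .ofNat 0, .ofNat 0, .ofNat 0, .ofNat 0, .ofNat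 0, .ofNat 0, .ofNat 0, .ofNat 0, .ofNat 0, .ofNat 0, .ofNat 0, .ofNat 0, .ofNat 0, .ofNat 0⟩)
    (by decide +kernel)
theorem L00106 : Good (Phi V4.P V4.D 1 (-1)) ⟨2, 1, 1, 0, 2, 2, 2, 3, 3, 1⟩ :=
  leaf_sound (S := T4.ds_pm) T4.ok_pm (w := 160) (c := ⟨⟨.negSucc 214, .negSucc 515, .negSucc 75, .negSucc 503, .negSucc 50, .negSucc 111⟩, ⟨.negSucc 109, .ofNat 49, .ofNat 364, .ofNat 143, .ofNat 59, .ofNat 36⟩, ⟨.negSucc 152, .ofNat 396, .ofNat 176, .ofNat 448, .negSucc 13, .ofNat 51⟩, ⟨.negSucc 876, .negSucc 787, .negSucc 237, .negSucc 1144, .negSucc 38, .negSucc 236⟩, ⟨.negSucc 519, .ofNat 287, .ofNat 29, .ofNat 358, .ofNat 156, .ofNat 115⟩, .ofNat 381, .ofNat 108, .ofNat 0, .ofNat 108, .ofNat 724, .ofNat 0, .ofNat 326, .negSucc 106, .negSucc 347, .ofNat 0, .ofNat 195, .ofNat 85, .ofNat 0, .ofNat 0, .ofNat 537, .ofNat 722, .ofNat 0, .ofNat 0,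 .ofNat 0, .ofNat 0, .ofNat 0, .ofNat 14230496798903040847375446835200, .ofNat 0, .ofNat 0, .ofNat 0, .ofNat 0, .ofNat 0, .ofNat 0, .ofNat 0, .ofNat 9273059304627012903356910796800, .ofNat 0, .ofNat 0⟩)
    (by decide +kernel)
theorem L00107 : Good (Phi V4.P V4.D 1 (-1)) ⟨2, 1, 1, 1, 2, 2, 2, 2, 3, 1⟩ :=
  leaf_sound (S := T4.ds_pm) T4.ok_pm (w := 168) (c := ⟨⟨.negSucc 296, .negSucc 502, .negSucc 10, .negSucc 404, .negSucc 17, .negSucc 133⟩, ⟨.ofNat 169, .ofNat 147, .ofNat 321, .ofNat 200, .ofNat 7, .ofNat 68⟩, ⟨.ofNat 129, .ofNat 394, .ofNat 79, .ofNat 294, .negSucc 48, .ofNat 33⟩, ⟨.negSucc 1188, .negSucc 677, .negSucc 66, .negSucc 891, .negSucc 22, .negSucc 312⟩, ⟨.negSucc 516, .ofNat 387, .ofNat 82, .ofNat 280, .ofNat 34, .ofNat 61⟩, .ofNat 824, .ofNat 753, .ofNat 0, .ofNat 753, .ofNat 1893, .ofNat 0, .ofNat 379, .negSucc 447, .negSucc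 457, .ofNat 0, .ofNat 341, .ofNat 228, .ofNat 0, .ofNat 0, .ofNat 931, .ofNat 3786, .ofNat 0, .ofNat 0, .ofNat 0, .ofNat 0, .ofNat 0, .ofNat 0, .ofNat 13351103364072814690653595238400, .ofNat 0, .ofNat 0, .ofNat 0, .ofNat 12046071007011225440232249753600, .ofNat 0, .ofNat 0, .ofNat 0, .ofNat 8254606150228162973733067161600, .ofNat 0⟩)
    (by decide +kernel)
theorem L00108 : Good (Phi V4.P V4.D 1 (-1)) ⟨2, 1, 1, 1, 2, 2, 2, 3, 3, 1⟩ :=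
  leaf_sound (S := T4.ds_pm) T4.ok_pm (w := 160) (c := ⟨⟨.negSucc 277, .negSucc 510, .negSucc 50, .negSucc 498, .negSucc 58, .negSucc 105⟩, ⟨.ofNat 152, .ofNat 158, .ofNat 331, .ofNat 254, .ofNat 28, .ofNat 57⟩, ⟨.negSucc 16, .ofNat 430, .ofNat 94, .ofNat 466, .negSucc 22, .ofNat 51⟩, ⟨.negSucc 1096, .negSucc 777, .negSucc 137, .negSucc 1132, .negSucc 41, .negSucc 229⟩, ⟨.negSucc 470, .ofNat 273, .ofNat 61, .ofNat 309, .ofNat 204, .ofNat 101⟩, .ofNat 824, .ofNat 753, .ofNat 0, .ofNat 753, .ofNat 1891, .ofNat 0, .ofNat 398, .negSucc 461, .negSucc 516, .ofNat 0, .ofNat 354, .ofNat 243, .ofNat 0, .ofNat 0, .ofNat 977, .ofNat 1155, .ofNat 0, .ofNat 0, .ofNat 0, .ofNat 0, .ofNat 0, .ofNat 40080906373390904245386372710400, .ofNat 0, .ofNat 0, .ofNat 0, .ofNat 39330465075864417895089124147200, .ofNat 9686757115483630052053509734400, .ofNat 0, .ofNat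 0, .ofNat 77080584167823227401852157952000, .ofNat 5511042653510769249399865344000, .ofNat 0⟩)
    (by decide +kernel)
theorem L00109 : Good (Phi V4.P V4.D 1 (-1)) ⟨2, 1, 1, 0, 2, 3, 2, 2, 3, 1⟩ :=
  leaf_sound (S := T4.ds_pm) T4.ok_pm (w := 160) (c := ⟨⟨.negSucc 468, .negSucc 682, .negSucc 138, .negSucc 436, .negSucc 75, .negSucc 267⟩, ⟨.negSucc 108, .ofNat 58, .ofNat 570, .ofNat 150, .ofNat 11, .ofNat 85⟩, ⟨.ofNat 287, .ofNat 351, .ofNat 39, .ofNat 172, .ofNat 115, .ofNat 95⟩, ⟨.negSucc 1693, .negSucc 914, .negSucc 123, .negSucc 891, .negSucc 191, .negSucc 594⟩, ⟨.negSucc 555, .ofNat 710, .ofNat 66, .ofNat 910, .ofNat 105, .ofNat 233⟩, .ofNat 378, .ofNat 94, .ofNat 0, .ofNat 94, .ofNat 729, .ofNat 0, .ofNat 749, .negSucc 266, .negSucc 572, .ofNat 0, .ofNat 416, .ofNat 178, .ofNat 0, .ofNat 0, .ofNat 984, .ofNat 1534, .ofNat 0, .ofNat 0,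 .ofNat 0, .ofNat 0, .ofNat 0, .ofNat 0, .ofNat 0, .ofNat 0, .ofNat 0, .ofNat 0, .ofNat 0, .ofNat 0, .ofNat 0, .ofNat 0, .ofNat 0, .ofNat 0⟩)
    (by decide +kernel)
theorem L00110 : Good (Phi V4.P V4.D 1 (-1)) ⟨3, 2, 1, 0, 2, 3, 2, 3, 3, 1⟩ :=
  leaf_sound (S := T4.ds_pm) T4.ok_pm (w := 168) (c := ⟨⟨.negSucc 543, .negSucc 302, .negSucc 142, .negSucc 495, .negSucc 159, .negSucc 249⟩, ⟨.negSucc 83, .ofNat 47, .ofNat 504, .ofNat 167, .ofNat 106, .ofNat 100⟩, ⟨.ofNat 217, .ofNat 203, .ofNat 175, .ofNat 382, .ofNat 116, .ofNat 108⟩, ⟨.negSucc 1749, .negSucc 488, .negSucc 242, .negSucc 1075, .negSucc 248, .negSucc 545⟩, ⟨.negSucc 435, .ofNat 323, .ofNat 62, .ofNat 984, .ofNat 431, .ofNat 241⟩, .ofNat 390, .ofNat 92, .ofNat 0, .ofNat 92, .ofNat 714, .ofNat 0, .ofNat 393, .negSucc 111, .negSucc 325, .ofNat 0, .ofNat 216, .ofNat 91, .ofNat 0, .ofNat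 0, .ofNat 516, .ofNat 763, .ofNat 0, .ofNat 2904378169321456263479741644800, .ofNat 0, .ofNat 0, .ofNat 0, .ofNat 219381208484609280993841800806400, .ofNat 0, .ofNat 0, .ofNat 0, .ofNat 194587427609966842464328010956800, .ofNat 0, .ofNat 0, .ofNat 0, .ofNat 292580072385187807407865488998400, .ofNat 0, .ofNat 0⟩)
    (by decide +kernel)
theorem L00111 : Good (Phi V4.P V4.D 1 (-1)) ⟨3, 3, 1, 0, 3, 6, 2, 3, 3, 1⟩ :=
  leaf_sound (S := T4.ds_pm) T4.ok_pm (w := 176) (c := ⟨⟨.negSucc 729, .negSucc 448, .negSucc 238, .negSucc 352, .negSucc 239, .negSucc 261⟩, ⟨.negSucc 83, .negSucc 2, .ofNat 629, .ofNat 107, .ofNat 92, .ofNat 86⟩, ⟨.ofNat 358, .ofNat 281, .ofNat 254, .ofNat 230, .ofNat 197, .ofNat 107⟩, ⟨.negSucc 2025, .negSucc 667, .negSucc 379, .negSucc 727, .negSucc 484, .negSucc 576⟩, ⟨.negSucc 107, .ofNat 279, .ofNat 78, .ofNat 499, .ofNat 234,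 .ofNat 203⟩, .ofNat 368, .ofNat 96, .ofNat 0, .ofNat 96, .ofNat 746, .ofNat 0, .ofNat 796, .negSucc 248, .negSucc 753, .ofNat 0, .ofNat 409, .ofNat 183, .ofNat 0, .ofNat 0, .ofNat 1064, .ofNat 2374, .ofNat 0, .ofNat 1969434039973285497782742810624000, .ofNat 0, .ofNat 0, .ofNat 0, .ofNat 201170523547862466005620841722675200, .ofNat 0, .ofNat 0, .ofNat 0, .ofNat 101727276716097273107621276024832000, .ofNat 0, .ofNat 0, .ofNat 0, .ofNat 191145094995052351321144677944524800, .ofNat 0, .ofNat 0⟩)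
    (by decide +kernel)
theorem L00112 : Good (Phi V4.P V4.D 1 (-1)) ⟨3, 3, 2, 0, 3, 7, 2, 3, 3, 1⟩ :=
  leaf_sound (S := T4.ds_pm) T4.ok_pm (w := 184) (c := ⟨⟨.negSucc 947, .negSucc 501, .negSucc 140, .negSucc 272, .negSucc 316, .negSucc 501⟩, ⟨.negSucc 3, .negSucc 20, .ofNat 362, .ofNat 52, .ofNat 55, .ofNat 77⟩, ⟨.ofNat 548, .ofNat 266, .ofNat 91, .ofNat 155, .ofNat 285, .ofNat 264⟩, ⟨.negSucc 2545, .negSucc 744, .negSucc 126, .negSucc 540, .negSucc 686, .negSucc 1128⟩, ⟨.ofNat 156, .ofNat 446, .ofNat 14, .ofNat 823, .ofNat 552, .ofNat 503⟩, .ofNat 361, .ofNat 58, .ofNat 0, .ofNat 58, .ofNat 779, .ofNat 0, .ofNat 1885, .negSucc 307, .negSucc 1537, .ofNat 0, .ofNat 831, .ofNat 305, .ofNat 0, .ofNat 0, .ofNat 2135, .ofNat 4260, .ofNat 0, .ofNat 25070143981615996412950212929126400, .ofNat 0, .ofNat 0, .ofNat 0, .ofNat 3907909355230534918806488135761920000,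 .ofNat 0, .ofNat 0, .ofNat 0, .ofNat 2974643845653306119833209090657484800, .ofNat 0, .ofNat 0, .ofNat 0, .ofNat 3390107771207309612225056584656486400, .ofNat 0, .ofNat 0⟩)
    (by decide +kernel)
theorem L00113 : Good (Phi V4.P V4.D 1 (-1)) ⟨3, 3, 2, 1, 3, 7, 2, 3, 3, 1⟩ :=
  leaf_sound (S := T4.ds_pm) T4.ok_pm (w := 184) (c := ⟨⟨.negSucc 1005, .negSucc 565, .negSucc 124, .negSucc 307, .negSucc 419, .negSucc 568⟩, ⟨.ofNat 231, .ofNat 77, .ofNat 371, .ofNat 126, .ofNat 158, .ofNat 194⟩, ⟨.ofNat 617, .ofNat 291, .ofNat 72, .ofNat 105, .ofNat 395, .ofNat 303⟩, ⟨.negSucc 2623, .negSucc 818, .negSucc 112, .negSucc 481, .negSucc 818, .negSucc 1188⟩, ⟨.ofNat 211, .ofNat 416, .negSucc 9, .ofNat 760, .ofNat 503, .ofNat 547⟩, .ofNat 629, .ofNat 487, .ofNat 0, .ofNat 487, .ofNat 1770, .ofNat 0, .ofNat 1255, .negSucc 1106, .negSucc 1076, .ofNat 0, .ofNat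 751, .ofNat 402, .ofNat 0, .ofNat 0, .ofNat 1896, .ofNat 3819, .ofNat 0, .ofNat 31727540812403695076494266492518400, .ofNat 0, .ofNat 0, .ofNat 0, .ofNat 2860610572619290877651678163212697600, .ofNat 0, .ofNat 0, .ofNat 0, .ofNat 3302550048000100867495933174087680000, .ofNat 0, .ofNat 0, .ofNat 0, .ofNat 2745582191814786802481530952220672000, .ofNat 0, .ofNat 0⟩)
    (by decide +kernel)
theorem L00114 : Good (Phi V4.P V4.D 1 (-1)) ⟨2, 1, 1, 1, 2, 3, 2, 2, 3, 1⟩ :=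
  leaf_sound (S := T4.ds_pm) T4.ok_pm (w := 168) (c := ⟨⟨.negSucc 489, .negSucc 717, .ofNat 50, .negSucc 527, .negSucc 102, .negSucc 337⟩, ⟨.ofNat 263, .ofNat 206, .ofNat 482, .ofNat 279, .ofNat 57, .ofNat 176⟩, ⟨.ofNat 259, .ofNat 374, .ofNat 17, .ofNat 160, .ofNat 181, .ofNat 165⟩, ⟨.negSucc 1773, .negSucc 895, .ofNat 84, .negSucc 888, .negSucc 186, .negSucc 727⟩, ⟨.negSucc 597, .ofNat 757, .negSucc 132, .ofNat 939, .ofNat 155, .ofNat 286⟩, .ofNat 821, .ofNat 750, .ofNat 0, .ofNat 750, .ofNat 1889, .ofNat 0, .ofNat 436, .negSucc 560, .negSucc 430, .ofNat 0, .ofNat 402, .ofNat 220, .ofNat 0, .ofNat 0, .ofNat 898, .ofNat 2331, .ofNat 0, .ofNat 0, .ofNat 0, .ofNat 0, .ofNat 0, .ofNat 0, .ofNat 0, .ofNat 0, .ofNat 0, .ofNat 27519665487729557217750496051200, .ofNat 5486547916763634377324652134400, .ofNat 0, .ofNat 0, .ofNat 0, .ofNat 0, .ofNat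 0⟩)
    (by decide +kernel)
theorem L00115 : Good (Phi V4.P V4.D 1 (-1)) ⟨3, 2, 1, 1, 2, 3, 2, 3, 3, 1⟩ :=
  leaf_sound (S := T4.ds_pm) T4.ok_pm (w := 168) (c := ⟨⟨.negSucc 582, .negSucc 344, .negSucc 241, .negSucc 560, .negSucc 264, .negSucc 304⟩, ⟨.ofNat 301, .ofNat 121, .ofNat 602, .ofNat 310, .ofNat 141, .ofNat 165⟩, ⟨.ofNat 349, .ofNat 213, .ofNat 90, .ofNat 321, .ofNat 278, .ofNat 160⟩, ⟨.negSucc 1887, .negSucc 488, .negSucc 315, .negSucc 984, .negSucc 499, .negSucc 687⟩, ⟨.negSucc 372, .ofNat 305, .ofNat 352, .ofNat 933, .ofNat 376, .ofNat 221⟩, .ofNat 1900, .ofNat 2600, .ofNat 0, .ofNat 2600, .ofNat 5317, .ofNat 0, .ofNat 281, .negSucc 644, .negSucc 466, .ofNat 0, .ofNat 389, .ofNat 247, .ofNat 0, .ofNat 0, .ofNat 928, .ofNat 1717, .ofNat 0, .ofNat 16887783404575376327080673280000, .ofNat 0, .ofNat 0, .ofNat 0, .ofNat 0, .ofNat 0,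 .ofNat 0, .ofNat 0, .ofNat 1377597277387870270430567517388800, .ofNat 1887460894893345582119229849600, .ofNat 0, .ofNat 0, .ofNat 1397146268119057470212972897894400, .ofNat 2035351191610131493078381363200, .ofNat 0⟩)
    (by decide +kernel)
theorem L00116 : Good (Phi V4.P V4.D 1 (-1)) ⟨3, 3, 2, 2, 2, 3, 3, 6, 3, 1⟩ :=
  leaf_sound (S := T4.ds_pm) T4.ok_pm (w := 176) (c := ⟨⟨.negSucc 864, .negSucc 511, .negSucc 245, .negSucc 643, .negSucc 144, .negSucc 381⟩, ⟨.ofNat 409, .ofNat 121, .ofNat 379, .ofNat 317, .ofNat 70, .ofNat 179⟩, ⟨.ofNat 571, .ofNat 286, .ofNat 145, .ofNat 268, .ofNat 160, .ofNat 193⟩, ⟨.negSucc 2294, .negSucc 742, .negSucc 421, .negSucc 1062, .negSucc 282, .negSucc 801⟩, ⟨.negSucc 138, .ofNat 316, .ofNat 100, .ofNat 1123, .ofNat 160, .ofNat 284⟩, .ofNat 1387, .ofNat 1896, .ofNat 0, .ofNat 1896, .ofNat 4466, .ofNat 0, .ofNat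 350, .negSucc 645, .negSucc 508, .ofNat 0, .ofNat 368, .ofNat 238, .ofNat 0, .ofNat 0, .ofNat 936, .ofNat 2986, .ofNat 0, .ofNat 229853078326527526535561006284800, .ofNat 0, .ofNat 0, .ofNat 0, .ofNat 7682553192548403731485846772121600, .ofNat 34147377630576606079180446105600, .ofNat 0, .ofNat 0, .ofNat 11619992901591365902403123124633600, .ofNat 15875195687758249962104055398400, .ofNat 0, .ofNat 0, .ofNat 0, .ofNat 27852812910105313114108565913600, .ofNat 0⟩)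
    (by decide +kernel)
theorem L00117 : Good (Phi V4.P V4.D 1 (-1)) ⟨3, 3, 2, 2, 2, 3, 3, 7, 3, 1⟩ :=
  leaf_sound (S := T4.ds_pm) T4.ok_pm (w := 176) (c := ⟨⟨.negSucc 980, .negSucc 541, .negSucc 169, .negSucc 676, .negSucc 237, .negSucc 544⟩, ⟨.ofNat 467, .ofNat 131, .ofNat 355, .ofNat 330, .ofNat 114, .ofNat 254⟩, ⟨.ofNat 668, .ofNat 331, .ofNat 195, .ofNat 351, .ofNat 201, .ofNat 301⟩, ⟨.negSucc 2494, .negSucc 825, .negSucc 348, .negSucc 1137, .negSucc 489, .negSucc 1190⟩, ⟨.ofNat 32, .ofNat 286, .negSucc 111, .ofNat 1142, .ofNat 218, .ofNat 322⟩, .ofNat 2062, .ofNat 3298, .ofNat 0, .ofNat 3298, .ofNat 7483, .ofNat 0, .ofNat 629, .negSucc 1390, .negSucc 1129, .ofNat 0, .ofNat 745, .ofNat 523, .ofNat 0, .ofNat 0, .ofNat 1947, .ofNat 3856, .ofNat 0, .ofNat 1103961195927757548204757667020800, .ofNat 0, .ofNat 0, .ofNat 0, .ofNat 52778438283207865457868682140057600,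 .ofNat 231585088371947093474349259161600, .ofNat 0, .ofNat 0, .ofNat 123063520110167267603273743545139200, .ofNat 119275381153852012141199386214400, .ofNat 0, .ofNat 0, .ofNat 10688620779487186592381144137728000, .ofNat 123302191225735192970716721971200, .ofNat 0⟩)
    (by decide +kernel)
theorem L00118 : Good (Phi V4.P V4.D 1 (-1)) ⟨3, 3, 2, 3, 2, 3, 2, 3, 3, 1⟩ :=
  out_sound (S := T4.ds_pm) T4.ok_pm (w := 48) (j := 3) (by decide +kernel)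
theorem L00119 : Good (Phi V4.P V4.D 1 (-1)) ⟨1, 0, 0, 0, 2, 0, 1, 0, 3, 2⟩ :=
  leaf_sound (S := T4.ds_pm) T4.ok_pm (w := 152) (c := ⟨⟨.negSucc 490, .negSucc 256, .ofNat 40, .negSucc 29, .ofNat 167, .ofNat 24⟩, ⟨.ofNat 35, .ofNat 37, .ofNat 461, .negSucc 8, .negSucc 46, .negSucc 15⟩, ⟨.ofNat 665, .ofNat 237, .negSucc 9, .negSucc 7, .negSucc 579, .negSucc 127⟩, ⟨.negSucc 1517, .negSucc 219, .ofNat 13, .negSucc 109, .ofNat 415, .ofNat 53⟩, ⟨.ofNat 12, .ofNat 68, .ofNat 1, .negSucc 167, .negSucc 79, .negSucc 14⟩, .ofNat 398, .ofNat 112, .ofNat 0, .ofNat 112, .ofNat 692, .ofNat 0, .ofNat 414, .negSucc 127, .negSucc 329, .ofNat 0, .ofNat 296, .ofNat 85, .ofNat 0, .ofNat 0, .ofNat 885, .ofNat 3742, .ofNat 0, .ofNat 0, .ofNat 3574772446408610224590028800, .ofNat 0, .ofNat 0, .ofNat 0, .ofNat 0, .ofNat 0, .ofNat 683847157334921099731795968000, .ofNat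 0, .ofNat 858872523715696494748945612800, .ofNat 0, .ofNat 0, .ofNat 0, .ofNat 0, .ofNat 0⟩)
    (by decide +kernel)
theorem L00120 : Good (Phi V4.P V4.D 1 (-1)) ⟨1, 0, 1, 0, 2, 1, 1, 0, 3, 2⟩ :=
  leaf_sound (S := T4.ds_pm) T4.ok_pm (w := 160) (c := ⟨⟨.negSucc 470, .negSucc 320, .ofNat 32, .negSucc 131, .ofNat 153, .ofNat 20⟩, ⟨.negSucc 2, .ofNat 83, .ofNat 261, .ofNat 13, .negSucc 54, .negSucc 13⟩, ⟨.ofNat 609, .ofNat 219, .negSucc 8, .ofNat 31, .negSucc 473, .negSucc 138⟩, ⟨.negSucc 1521, .negSucc 339, .ofNat 13, .negSucc 327, .ofNat 350, .ofNat 52⟩, ⟨.negSucc 161, .ofNat 242, .ofNat 4, .negSucc 53, .negSucc 219, .negSucc 55⟩, .ofNat 392, .ofNat 87, .ofNat 0, .ofNat 87, .ofNat 694, .ofNat 0, .ofNat 446, .negSucc 113, .negSucc 325, .ofNat 0, .ofNat 301, .ofNat 102, .ofNat 0, .ofNat 0, .ofNat 884, .ofNat 5909, .ofNat 0, .ofNat 0, .ofNat 0,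 .ofNat 0, .ofNat 0, .ofNat 0, .ofNat 0, .ofNat 0, .ofNat 0, .ofNat 0, .ofNat 0, .ofNat 0, .ofNat 0, .ofNat 0, .ofNat 0, .ofNat 0⟩)
    (by decide +kernel)
theorem L00121 : Good (Phi V4.P V4.D 1 (-1)) ⟨1, 0, 1, 1, 2, 1, 1, 0, 3, 2⟩ :=
  leaf_sound (S := T4.ds_pm) T4.ok_pm (w := 160) (c := ⟨⟨.negSucc 400, .negSucc 396, .ofNat 143, .negSucc 114, .ofNat 156, .ofNat 28⟩, ⟨.ofNat 238, .ofNat 119, .ofNat 281, .ofNat 61, .negSucc 90, .negSucc 14⟩, ⟨.ofNat 519, .ofNat 301, .negSucc 123, .ofNat 33, .negSucc 436, .negSucc 123⟩, ⟨.negSucc 1451, .negSucc 410, .ofNat 65, .negSucc 351, .ofNat 339, .ofNat 47⟩, ⟨.negSucc 183, .ofNat 250, .negSucc 22, .negSucc 72, .negSucc 187, .negSucc 45⟩, .ofNat 443, .ofNat 205, .ofNat 0, .ofNat 205, .ofNat 706, .ofNat 0, .ofNat 399, .negSucc 237, .negSucc 340, .ofNat 0, .ofNat 332, .ofNat 170, .ofNat 0, .ofNat 0, .ofNat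 861, .ofNat 8603, .ofNat 0, .ofNat 0, .ofNat 14864900314436434253787955200, .ofNat 0, .ofNat 1072087643258280849968411443200, .ofNat 0, .ofNat 4131439154860921090452593049600, .ofNat 0, .ofNat 2289699546601927087649665843200, .ofNat 0, .ofNat 3015111071291691597069444710400, .ofNat 0, .ofNat 0, .ofNat 0, .ofNat 3642773506245772301893946572800, .ofNat 0⟩)
    (by decide +kernel)
theorem L00122 : Good (Phi V4.P V4.D 1 (-1)) ⟨1, 0, 0, 0, 1, 0, 1, 0, 3, 3⟩ :=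
  leaf_sound (S := T4.ds_pm) T4.ok_pm (w := 144) (c := ⟨⟨.negSucc 413, .negSucc 260, .ofNat 64, .negSucc 139, .ofNat 127, .ofNat 26⟩, ⟨.negSucc 8, .ofNat 75, .ofNat 458, .ofNat 2, .negSucc 27, .negSucc 4⟩, ⟨.ofNat 390, .ofNat 196, .negSucc 4, .ofNat 37, .negSucc 354, .negSucc 97⟩, ⟨.negSucc 1311, .negSucc 271, .negSucc 15, .negSucc 420, .ofNat 332, .ofNat 80⟩, ⟨.negSucc 128, .ofNat 154, .ofNat 30, .negSucc 324, .ofNat 21, .ofNat 12⟩, .ofNat 398, .ofNat 96, .ofNat 0, .ofNat 96, .ofNat 681, .ofNat 0, .ofNat 371, .negSucc 99, .negSucc 250, .ofNat 0, .ofNat 264, .ofNat 66, .ofNat 0, .ofNat 0, .ofNat 795, .ofNat 2062, .ofNat 0, .ofNat 0, .ofNat 0, .ofNat 0, .ofNat 0, .ofNat 0, .ofNat 0, .ofNat 0, .ofNat 4773129353618265564040396800, .ofNat 0, .ofNat 1551398705679866449939660800, .ofNat 0, .ofNat 0, .ofNat 0, .ofNat 0, .ofNat 0⟩)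
    (by decide +kernel)
theorem L00123 : Good (Phi V4.P V4.D 1 (-1)) ⟨2, 0, 1, 0, 1, 0, 2, 2, 3, 2⟩ :=
  leaf_sound (S := T4.ds_pm) T4.ok_pm (w := 152) (c := ⟨⟨.negSucc 367, .negSucc 59, .ofNat 48, .negSucc 101, .ofNat 105, .ofNat 16⟩, ⟨.negSucc 11, .ofNat 48, .ofNat 180, .negSucc 5, .negSucc 30, .ofNat 0⟩, ⟨.ofNat 55, .ofNat 45, .negSucc 14, .ofNat 104, .negSucc 201, .negSucc 22⟩, ⟨.negSucc 1069, .negSucc 97, .ofNat 25, .negSucc 404, .ofNat 316, .ofNat 52⟩, ⟨.negSucc 63, .ofNat 39, .negSucc 2, .negSucc 400, .ofNat 27, .ofNat 25⟩, .ofNat 412, .ofNat 94, .ofNat 0, .ofNat 94, .ofNat 651, .ofNat 0, .ofNat 439, .negSucc 115, .negSucc 373, .ofNat 0, .ofNat 326, .ofNat 91, .ofNat 0, .ofNat 0, .ofNat 879, .ofNat 6202, .ofNat 0, .ofNat 0, .ofNat 0, .ofNat 0, .ofNat 0, .ofNat 0, .ofNat 0, .ofNat 0, .ofNat 0, .ofNat 0, .ofNat 0, .ofNat 0, .ofNat 0,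 .ofNat 0, .ofNat 0, .ofNat 0⟩)
    (by decide +kernel)
theorem L00124 : Good (Phi V4.P V4.D 1 (-1)) ⟨2, 1, 1, 0, 1, 0, 2, 2, 3, 2⟩ :=
  leaf_sound (S := T4.ds_pm) T4.ok_pm (w := 152) (c := ⟨⟨.negSucc 350, .negSucc 218, .ofNat 32, .negSucc 235, .ofNat 93, .ofNat 22⟩, ⟨.negSucc 5, .ofNat 4, .ofNat 213, .ofNat 52, .negSucc 25, .ofNat 1⟩, ⟨.ofNat 61, .ofNat 180, .ofNat 1, .ofNat 186, .negSucc 189, .negSucc 49⟩, ⟨.negSucc 992, .negSucc 259, .negSucc 2, .negSucc 657, .ofNat 246, .ofNat 55⟩, ⟨.negSucc 100, .ofNat 66, .negSucc 2, .negSucc 234, .ofNat 35, .ofNat 18⟩, .ofNat 383, .ofNat 105, .ofNat 0, .ofNat 105, .ofNat 725, .ofNat 0, .ofNat 454, .negSucc 133, .negSucc 422, .ofNat 0, .ofNat 300, .ofNat 95, .ofNat 0, .ofNat 0, .ofNat 906, .ofNat 3470, .ofNat 0, .ofNat 0, .ofNat 0, .ofNat 0, .ofNat 0, .ofNat 0, .ofNat 0, .ofNat 0, .ofNat 0, .ofNat 0,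 .ofNat 0, .ofNat 0, .ofNat 0, .ofNat 0, .ofNat 0, .ofNat 0⟩)
    (by decide +kernel)
theorem L00125 : Good (Phi V4.P V4.D 1 (-1)) ⟨1, 0, 1, 1, 1, 0, 2, 2, 3, 2⟩ :=
  leaf_sound (S := T4.ds_pm) T4.ok_pm (w := 152) (c := ⟨⟨.negSucc 206, .negSucc 348, .ofNat 74, .negSucc 189, .ofNat 97, .ofNat 20⟩, ⟨.ofNat 139, .ofNat 101, .ofNat 265, .ofNat 91, .negSucc 50, .negSucc 16⟩, ⟨.negSucc 66, .ofNat 292, .ofNat 9, .ofNat 203, .negSucc 184, .negSucc 45⟩, ⟨.negSucc 860, .negSucc 426, .negSucc 98, .negSucc 636, .ofNat 273, .ofNat 73⟩, ⟨.negSucc 133, .ofNat 144, .ofNat 21, .negSucc 273, .ofNat 19, .ofNat 6⟩, .ofNat 842, .ofNat 743, .ofNat 0, .ofNat 743, .ofNat 1835, .ofNat 0, .ofNat 297, .negSucc 312, .negSucc 328, .ofNat 0, .ofNat 269, .ofNat 157, .ofNat 0, .ofNat 0, .ofNat 846, .ofNat 3866, .ofNat 0, .ofNat 0, .ofNat 131918028333113138400460800, .ofNat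 0, .ofNat 0, .ofNat 0, .ofNat 84458559656764331610498662400, .ofNat 0, .ofNat 0, .ofNat 0, .ofNat 59297795644861313470955520000, .ofNat 0, .ofNat 0, .ofNat 0, .ofNat 48106498110479908333210828800, .ofNat 0⟩)
    (by decide +kernel)

end Crest.Agent.R097C4.N4pm
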