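import Crest.Agent.R097.T4

/-!
# Row 97, box cover in dimension n = 4 (generated)
-/

set_option autoImplicit false
set_option Elab.async false
set_option maxHeartbeats 0
set_option maxRecDepth 100000

open Crest.Agent.R097 Crest.Agent.R097.KA


namespace Crest.Agent.R097C4.N4pm

theorem L00126 : Good (Phi V4.P V4.D 1 (-1)) ⟨2, 0, 2, 0, 1, 0, 2, 3, 3, 2⟩ :=
  leaf_sound (S := T4.ds_pm) T4.ok_pm (w := 160) (c := ⟨⟨.negSucc 219, .negSucc 60, .ofNat 18, .negSucc 176, .ofNat 210, .ofNat 14⟩, ⟨.negSucc 12, .ofNat 35, .ofNat 61, .ofNat 1, .negSucc 28, .negSucc 1⟩, ⟨.negSucc 214, .ofNat 37, .negSucc 1, .ofNat 193, .negSucc 250, .ofNat 24⟩, ⟨.negSucc 657, .negSucc 124, .ofNat 12, .negSucc 568, .ofNat 635, .ofNat 46⟩, ⟨.negSucc 88, .ofNat 45, .negSucc 3, .negSucc 299, .ofNat 101, .ofNat 32⟩, .ofNat 403, .ofNat 48, .ofNat 0, .ofNat 48, .ofNat 640, .ofNat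 0, .ofNat 479, .negSucc 63, .negSucc 465, .ofNat 0, .ofNat 344, .ofNat 53, .ofNat 0, .ofNat 0, .ofNat 915, .ofNat 4494, .ofNat 0, .ofNat 0, .ofNat 0, .ofNat 0, .ofNat 0, .ofNat 1366734106518408010118725632000, .ofNat 0, .ofNat 0, .ofNat 0, .ofNat 1373731152535074694828444876800, .ofNat 0, .ofNat 0, .ofNat 0, .ofNat 1573463571422942908576589414400, .ofNat 0, .ofNat 0⟩)
    (by decide +kernel)
theorem L00127 : Good (Phi V4.P V4.D 1 (-1)) ⟨2, 0, 2, 1, 1, 0, 2, 3, 3, 2⟩ :=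
  leaf_sound (S := T4.ds_pm) T4.ok_pm (w := 160) (c := ⟨⟨.negSucc 209, .negSucc 95, .ofNat 27, .negSucc 165, .ofNat 213, .ofNat 13⟩, ⟨.ofNat 47, .ofNat 48, .ofNat 56, .ofNat 41, .negSucc 72, .negSucc 7⟩, ⟨.negSucc 221, .ofNat 76, .negSucc 9, .ofNat 204, .negSucc 250, .ofNat 19⟩, ⟨.negSucc 661, .negSucc 187, .ofNat 35, .negSucc 593, .ofNat 658, .ofNat 49⟩, ⟨.negSucc 87, .ofNat 75, .negSucc 2, .negSucc 300, .ofNat 88, .ofNat 29⟩, .ofNat 428, .ofNat 137, .ofNat 0, .ofNat 137, .ofNat 661, .ofNat 0, .ofNat 454, .negSucc 173, .negSucc 472, .ofNat 0, .ofNat 354, .ofNat 130, .ofNat 0, .ofNat 0, .ofNat 917, .ofNat 3785, .ofNat 0, .ofNat 0, .ofNat 0, .ofNat 0, .ofNat 0, .ofNat 0, .ofNat 0, .ofNat 0, .ofNat 0, .ofNat 0, .ofNat 0, .ofNat 0, .ofNat 0, .ofNat 1770564762983836969317118771200, .ofNat 0, .ofNat 0⟩)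
    (by decide +kernel)
theorem L00128 : Good (Phi V4.P V4.D 1 (-1)) ⟨3, 2, 2, 0, 1, 0, 2, 3, 3, 2⟩ :=
  leaf_sound (S := T4.ds_pm) T4.ok_pm (w := 160) (c := ⟨⟨.negSucc 231, .negSucc 83, .negSucc 1, .negSucc 308, .ofNat 245, .ofNat 29⟩, ⟨.negSucc 3, .ofNat 14, .ofNat 72, .ofNat 43, .negSucc 34, .negSucc 1⟩, ⟨.negSucc 208, .ofNat 67, .ofNat 21, .ofNat 286, .negSucc 277, .ofNat 7⟩, ⟨.negSucc 659, .negSucc 127, .negSucc 31, .negSucc 846, .ofNat 660, .ofNat 78⟩, ⟨.negSucc 108, .ofNat 28, .ofNat 5, .negSucc 170, .ofNat 98, .ofNat 27⟩, .ofNat 566, .ofNat 221, .ofNat 0, .ofNat 221, .ofNat 1694, .ofNat 0, .ofNat 444, .negSucc 138, .negSucc 411, .ofNat 0, .ofNat 227, .ofNat 64, .ofNat 0, .ofNat 0, .ofNat 882, .ofNat 4062, .ofNat 0, .ofNat 0, .ofNat 0, .ofNat 0, .ofNat 0, .ofNat 23635715468914515901616750592000, .ofNat 0, .ofNat 0, .ofNat 0, .ofNat 0,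 .ofNat 0, .ofNat 0, .ofNat 0, .ofNat 19408730698563554967242460364800, .ofNat 0, .ofNat 0⟩)
    (by decide +kernel)
theorem L00129 : Good (Phi V4.P V4.D 1 (-1)) ⟨3, 3, 2, 0, 1, 0, 2, 3, 3, 2⟩ :=
  leaf_sound (S := T4.ds_pm) T4.ok_pm (w := 160) (c := ⟨⟨.negSucc 258, .negSucc 138, .negSucc 1, .negSucc 419, .ofNat 277, .ofNat 8⟩, ⟨.ofNat 3, .negSucc 17, .ofNat 86, .ofNat 50, .negSucc 27, .ofNat 2⟩, ⟨.negSucc 165, .ofNat 119, .ofNat 23, .ofNat 350, .negSucc 313, .ofNat 19⟩, ⟨.negSucc 680, .negSucc 192, .negSucc 30, .negSucc 1015, .ofNat 667, .ofNat 20⟩, ⟨.negSucc 88, .ofNat 25, .ofNat 0, .negSucc 123, .ofNat 59, .ofNat 34⟩, .ofNat 358, .ofNat 53, .ofNat 0, .ofNat 53, .ofNat 784, .ofNat 0, .ofNat 516, .negSucc 74, .negSucc 598, .ofNat 0, .ofNat 295, .ofNat 55, .ofNat 0, .ofNat 0, .ofNat 997, .ofNat 2397, .ofNat 0, .ofNat 0, .ofNat 0, .ofNat 0, .ofNat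 0, .ofNat 30483424047813280667117656473600, .ofNat 0, .ofNat 0, .ofNat 0, .ofNat 0, .ofNat 0, .ofNat 0, .ofNat 0, .ofNat 31472534324493766567075302604800, .ofNat 0, .ofNat 0⟩)
    (by decide +kernel)
theorem L00130 : Good (Phi V4.P V4.D 1 (-1)) ⟨2, 1, 2, 1, 1, 0, 3, 6, 3, 2⟩ :=
  leaf_sound (S := T4.ds_pm) T4.ok_pm (w := 160) (c := ⟨⟨.negSucc 200, .negSucc 223, .negSucc 4, .negSucc 340, .ofNat 122, .ofNat 18⟩, ⟨.ofNat 51, .ofNat 26, .ofNat 82, .ofNat 103, .negSucc 33, .negSucc 1⟩, ⟨.negSucc 221, .ofNat 194, .ofNat 21, .ofNat 331, .negSucc 144, .ofNat 11⟩, ⟨.negSucc 626, .negSucc 320, .negSucc 36, .negSucc 893, .ofNat 301, .ofNat 46⟩, ⟨.negSucc 82, .ofNat 58, .ofNat 9, .negSucc 171, .ofNat 14, .ofNat 19⟩, .ofNat 649, .ofNat 486, .ofNat 0, .ofNat 486, .ofNat 1742, .ofNat 0, .ofNat 377, .negSucc 263, .negSucc 420, .ofNat 0, .ofNat 249, .ofNat 134,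 .ofNat 0, .ofNat 0, .ofNat 888, .ofNat 2813, .ofNat 0, .ofNat 0, .ofNat 0, .ofNat 0, .ofNat 0, .ofNat 2474420545233109171031349657600, .ofNat 0, .ofNat 0, .ofNat 0, .ofNat 0, .ofNat 0, .ofNat 0, .ofNat 0, .ofNat 0, .ofNat 0, .ofNat 0⟩)
    (by decide +kernel)
theorem L00131 : Good (Phi V4.P V4.D 1 (-1)) ⟨2, 1, 2, 1, 1, 0, 3, 7, 3, 2⟩ :=
  leaf_sound (S := T4.ds_pm) T4.ok_pm (w := 160) (c := ⟨⟨.negSucc 87, .negSucc 169, .negSucc 4, .negSucc 400, .ofNat 181, .negSucc 0⟩, ⟨.ofNat 21, .ofNat 32, .ofNat 51, .ofNat 125, .negSucc 63, .negSucc 2⟩, ⟨.negSucc 370, .ofNat 145, .ofNat 15, .ofNat 401, .negSucc 193, .ofNat 46⟩, ⟨.negSucc 322, .negSucc 263, .negSucc 13, .negSucc 1030, .ofNat 462, .ofNat 15⟩, ⟨.negSucc 69, .ofNat 29, .negSucc 4, .negSucc 112, .ofNat 51, .ofNat 22⟩, .ofNat 641, .ofNat 477, .ofNat 0, .ofNat 477, .ofNat 1742, .ofNat 0, .ofNat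 401, .negSucc 276, .negSucc 512, .ofNat 0, .ofNat 261, .ofNat 156, .ofNat 0, .ofNat 0, .ofNat 940, .ofNat 1986, .ofNat 0, .ofNat 0, .ofNat 0, .ofNat 0, .ofNat 0, .ofNat 5997610075713634090117339545600, .ofNat 0, .ofNat 0, .ofNat 0, .ofNat 5278389864212777525442301132800, .ofNat 0, .ofNat 0, .ofNat 0, .ofNat 5748798890475914110789327257600, .ofNat 0, .ofNat 0⟩)
    (by decide +kernel)
theorem L00132 : Good (Phi V4.P V4.D 1 (-1)) ⟨2, 0, 1, 1, 1, 0, 2, 3, 3, 2⟩ :=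
  leaf_sound (S := T4.ds_pm) T4.ok_pm (w := 152) (c := ⟨⟨.negSucc 178, .negSucc 104, .ofNat 28, .negSucc 206, .ofNat 234, .ofNat 32⟩, ⟨.ofNat 90, .ofNat 59, .ofNat 112, .ofNat 109, .negSucc 126, .negSucc 18⟩, ⟨.negSucc 252, .ofNat 95, .negSucc 2, .ofNat 259, .negSucc 271, .ofNat 3⟩, ⟨.negSucc 607, .negSucc 203, .ofNat 2, .negSucc 724, .ofNat 710, .ofNat 98⟩, ⟨.negSucc 95, .ofNat 57, .negSucc 39, .negSucc 243, .ofNat 74, .ofNat 13⟩, .ofNat 895, .ofNat 761, .ofNat 0, .ofNat 761, .ofNat 1784, .ofNat 0, .ofNat 307, .negSucc 326, .negSucc 380, .ofNat 0, .ofNat 294, .ofNat 184, .ofNat 0, .ofNat 0, .ofNat 854, .ofNat 3764, .ofNat 0, .ofNat 0, .ofNat 45896822496671897154355200, .ofNat 0, .ofNat 0, .ofNat 0, .ofNat 13145378512930049760008601600, .ofNat 0, .ofNat 0, .ofNat 359523635750568703101291724800, .ofNat 7099664099582219715713433600, .ofNat 0,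 .ofNat 0, .ofNat 496161967325587335157697740800, .ofNat 8100760514322583450445414400, .ofNat 0⟩)
    (by decide +kernel)
theorem L00133 : Good (Phi V4.P V4.D 1 (-1)) ⟨2, 1, 2, 2, 2, 0, 2, 3, 3, 2⟩ :=
  leaf_sound (S := T4.ds_pm) T4.ok_pm (w := 168) (c := ⟨⟨.negSucc 246, .negSucc 143, .ofNat 21, .negSucc 91, .ofNat 243, .negSucc 8⟩, ⟨.ofNat 131, .ofNat 38, .ofNat 47, .ofNat 46, .negSucc 123, .ofNat 4⟩, ⟨.negSucc 184, .ofNat 129, .negSucc 10, .ofNat 98, .negSucc 287, .ofNat 52⟩, ⟨.negSucc 720, .negSucc 221, .ofNat 32, .negSucc 303, .ofNat 670, .negSucc 6⟩, ⟨.negSucc 57, .ofNat 17, .negSucc 8, .negSucc 128, .ofNat 74, .ofNat 26⟩, .ofNat 840, .ofNat 774, .ofNat 0, .ofNat 774, .ofNat 1914, .ofNat 0, .ofNat 307, .negSucc 330, .negSucc 430, .ofNat 0, .ofNat 276, .ofNat 194, .ofNat 0, .ofNat 0, .ofNat 890, .ofNat 6081, .ofNat 0, .ofNat 0, .ofNat 0,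 .ofNat 0, .ofNat 0, .ofNat 0, .ofNat 12144923295429737111203558195200, .ofNat 0, .ofNat 0, .ofNat 0, .ofNat 7954393568404032953915749171200, .ofNat 0, .ofNat 0, .ofNat 185636945106773821339933763174400, .ofNat 1615561601953296436610413363200, .ofNat 0⟩)
    (by decide +kernel)
theorem L00134 : Good (Phi V4.P V4.D 1 (-1)) ⟨2, 1, 2, 2, 2, 1, 2, 3, 3, 2⟩ :=
  leaf_sound (S := T4.ds_pm) T4.ok_pm (w := 168) (c := ⟨⟨.negSucc 222, .negSucc 297, .ofNat 3, .negSucc 265, .ofNat 108, .negSucc 29⟩, ⟨.ofNat 123, .ofNat 81, .ofNat 97, .ofNat 135, .negSucc 55, .ofNat 12⟩, ⟨.negSucc 171, .ofNat 251, .ofNat 7, .ofNat 287, .negSucc 160, .ofNat 40⟩, ⟨.negSucc 809, .negSucc 455, .negSucc 25, .negSucc 693, .ofNat 371, .negSucc 32⟩, ⟨.negSucc 276, .ofNat 98, .ofNat 7, .negSucc 4, .ofNat 156, .ofNat 62⟩, .ofNat 431, .ofNat 203, .ofNat 0, .ofNat 203, .ofNat 716, .ofNat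 0, .ofNat 455, .negSucc 265, .negSucc 538, .ofNat 0, .ofNat 363, .ofNat 198, .ofNat 0, .ofNat 0, .ofNat 951, .ofNat 1328, .ofNat 0, .ofNat 0, .ofNat 0, .ofNat 0, .ofNat 0, .ofNat 0, .ofNat 0, .ofNat 0, .ofNat 0, .ofNat 0, .ofNat 0, .ofNat 0, .ofNat 0, .ofNat 0, .ofNat 0, .ofNat 0⟩)
    (by decide +kernel)
theorem L00135 : Good (Phi V4.P V4.D 1 (-1)) ⟨2, 1, 2, 3, 1, 0, 2, 3, 3, 2⟩ :=
  out_sound (S := T4.ds_pm) T4.ok_pm (w := 40) (j := 3) (by decide +kernel)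
theorem L00136 : Good (Phi V4.P V4.D 1 (-1)) ⟨1, 0, 1, 0, 1, 0, 3, 4, 3, 3⟩ :=
  leaf_sound (S := T4.ds_pm) T4.ok_pm (w := 152) (c := ⟨⟨.negSucc 281, .negSucc 265, .ofNat 45, .negSucc 181, .ofNat 34, .ofNat 51⟩, ⟨.negSucc 21, .ofNat 49, .ofNat 199, .ofNat 17, .negSucc 9, .negSucc 1⟩, ⟨.negSucc 15, .ofNat 191, .negSucc 0, .ofNat 112, .negSucc 63, .negSucc 57⟩, ⟨.negSucc 935, .negSucc 303, .ofNat 28, .negSucc 537, .ofNat 108, .ofNat 126⟩, ⟨.negSucc 93, .ofNat 112, .negSucc 22, .negSucc 278, .ofNat 18, .negSucc 0⟩, .ofNat 390, .ofNat 91, .ofNat 0, .ofNat 91, .ofNat 694, .ofNat 0, .ofNat 393, .negSucc 99, .negSucc 307, .ofNat 0, .ofNat 270, .ofNat 66, .ofNat 0, .ofNat 0, .ofNat 797, .ofNat 4333, .ofNat 0, .ofNat 0, .ofNat 0, .ofNat 0, .ofNat 0, .ofNat 0, .ofNat 0, .ofNat 0, .ofNat 0, .ofNat 0, .ofNat 0, .ofNat 0, .ofNat 0, .ofNat 0, .ofNat 0, .ofNat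 0⟩)
    (by decide +kernel)
theorem L00137 : Good (Phi V4.P V4.D 1 (-1)) ⟨2, 0, 1, 0, 1, 0, 3, 5, 4, 6⟩ :=
  leaf_sound (S := T4.ds_pm) T4.ok_pm (w := 160) (c := ⟨⟨.negSucc 292, .negSucc 75, .ofNat 43, .negSucc 114, .ofNat 65, .ofNat 10⟩, ⟨.negSucc 11, .ofNat 46, .ofNat 158, .negSucc 3, .negSucc 17, .negSucc 6⟩, ⟨.negSucc 76, .ofNat 54, .negSucc 10, .ofNat 108, .negSucc 87, .negSucc 3⟩, ⟨.negSucc 865, .negSucc 136, .ofNat 33, .negSucc 421, .ofNat 196, .ofNat 35⟩, ⟨.negSucc 49, .ofNat 49, .negSucc 7, .negSucc 352, .ofNat 20, .ofNat 7⟩, .ofNat 415, .ofNat 100, .ofNat 0, .ofNat 100, .ofNat 648, .ofNat 0, .ofNat 399, .negSucc 110, .negSucc 337, .ofNat 0, .ofNat 302, .ofNat 77, .ofNat 0, .ofNat 0, .ofNat 810, .ofNat 6769, .ofNat 0, .ofNat 0, .ofNat 0, .ofNat 0, .ofNat 0, .ofNat 0, .ofNat 0, .ofNat 0, .ofNat 0, .ofNat 0, .ofNat 0, .ofNat 0, .ofNat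 0, .ofNat 0, .ofNat 0, .ofNat 0⟩)
    (by decide +kernel)
theorem L00138 : Good (Phi V4.P V4.D 1 (-1)) ⟨2, 1, 1, 0, 1, 0, 3, 5, 4, 6⟩ :=
  leaf_sound (S := T4.ds_pm) T4.ok_pm (w := 160) (c := ⟨⟨.negSucc 209, .negSucc 259, .ofNat 7, .negSucc 309, .ofNat 29, .ofNat 8⟩, ⟨.negSucc 32, .ofNat 31, .ofNat 201, .ofNat 75, .negSucc 5, .negSucc 8⟩, ⟨.negSucc 141, .ofNat 217, .ofNat 29, .ofNat 236, .negSucc 49, .negSucc 8⟩, ⟨.negSucc 685, .negSucc 355, .negSucc 39, .negSucc 791, .ofNat 101, .ofNat 28⟩, ⟨.negSucc 131, .ofNat 100, .ofNat 6, .negSucc 160, .ofNat 36, .ofNat 14⟩, .ofNat 380, .ofNat 101, .ofNat 0, .ofNat 101, .ofNat 728, .ofNat 0, .ofNat 429, .negSucc 121, .negSucc 389, .ofNat 0, .ofNat 280, .ofNat 79, .ofNat 0, .ofNat 0, .ofNat 843, .ofNat 3559, .ofNat 0, .ofNat 0, .ofNat 0, .ofNat 0, .ofNat 0, .ofNat 0, .ofNat 0, .ofNat 0, .ofNat 0, .ofNat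 0, .ofNat 0, .ofNat 0, .ofNat 0, .ofNat 0, .ofNat 0, .ofNat 0⟩)
    (by decide +kernel)
theorem L00139 : Good (Phi V4.P V4.D 1 (-1)) ⟨1, 0, 1, 0, 1, 0, 3, 5, 4, 7⟩ :=
  leaf_sound (S := T4.ds_pm) T4.ok_pm (w := 160) (c := ⟨⟨.negSucc 201, .negSucc 277, .ofNat 26, .negSucc 193, .ofNat 72, .ofNat 6⟩, ⟨.negSucc 21, .ofNat 61, .ofNat 163, .ofNat 28, .negSucc 15, .negSucc 8⟩, ⟨.negSucc 128, .ofNat 210, .ofNat 5, .ofNat 131, .negSucc 85, .negSucc 2⟩, ⟨.negSucc 716, .negSucc 386, .ofNat 8, .negSucc 536, .ofNat 184, .ofNat 27⟩, ⟨.negSucc 100, .ofNat 113, .negSucc 5, .negSucc 245, .ofNat 17, .ofNat 17⟩, .ofNat 395, .ofNat 88, .ofNat 0, .ofNat 88, .ofNat 681, .ofNat 0, .ofNat 386, .negSucc 93, .negSucc 324, .ofNat 0, .ofNat 270, .ofNat 61, .ofNat 0, .ofNat 0, .ofNat 776, .ofNat 3445, .ofNat 0, .ofNat 0, .ofNat 0, .ofNat 0, .ofNat 0, .ofNat 151500134095352567847242956800,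 .ofNat 0, .ofNat 0, .ofNat 0, .ofNat 0, .ofNat 0, .ofNat 0, .ofNat 0, .ofNat 0, .ofNat 0, .ofNat 0⟩)
    (by decide +kernel)
theorem L00140 : Good (Phi V4.P V4.D 1 (-1)) ⟨1, 0, 1, 1, 1, 0, 2, 2, 3, 3⟩ :=
  leaf_sound (S := T4.ds_pm) T4.ok_pm (w := 152) (c := ⟨⟨.negSucc 212, .negSucc 305, .ofNat 207, .negSucc 149, .ofNat 82, .ofNat 13⟩, ⟨.ofNat 132, .ofNat 90, .ofNat 159, .ofNat 73, .negSucc 44, .negSucc 2⟩, ⟨.negSucc 79, .ofNat 243, .negSucc 167, .ofNat 140, .negSucc 133, .negSucc 20⟩, ⟨.negSucc 835, .negSucc 379, .ofNat 255, .negSucc 553, .ofNat 255, .ofNat 51⟩, ⟨.negSucc 122, .ofNat 103, .negSucc 73, .negSucc 280, .ofNat 44, .ofNat 35⟩, .ofNat 443, .ofNat 207, .ofNat 0, .ofNat 207, .ofNat 708, .ofNat 0, .ofNat 354, .negSucc 203, .negSucc 327, .ofNat 0, .ofNat 296, .ofNat 131, .ofNat 0, .ofNat 0, .ofNat 794, .ofNat 4124, .ofNat 0, .ofNat 0,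 .ofNat 180741196084173130314547200, .ofNat 0, .ofNat 0, .ofNat 0, .ofNat 85208076266643846485508096000, .ofNat 0, .ofNat 0, .ofNat 5935780550222466410505830400, .ofNat 44700897052882846066566758400, .ofNat 0, .ofNat 0, .ofNat 4472258799645275680722124800, .ofNat 54332623099567409823586713600, .ofNat 0⟩)
    (by decide +kernel)
theorem L00141 : Good (Phi V4.P V4.D 1 (-1)) ⟨2, 0, 1, 0, 1, 0, 2, 3, 3, 3⟩ :=
  leaf_sound (S := T4.ds_pm) T4.ok_pm (w := 152) (c := ⟨⟨.negSucc 207, .negSucc 71, .ofNat 16, .negSucc 133, .ofNat 213, .ofNat 0⟩, ⟨.negSucc 9, .ofNat 30, .ofNat 107, .ofNat 9, .negSucc 54, .ofNat 13⟩, ⟨.negSucc 183, .ofNat 50, .ofNat 0, .ofNat 130, .negSucc 220, .ofNat 29⟩, ⟨.negSucc 629, .negSucc 148, .negSucc 5, .negSucc 455, .ofNat 637, .ofNat 14⟩, ⟨.negSucc 70, .ofNat 45, .ofNat 7, .negSucc 255, .ofNat 65, .ofNat 14⟩, .ofNat 414, .ofNat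 99, .ofNat 0, .ofNat 99, .ofNat 649, .ofNat 0, .ofNat 410, .negSucc 111, .negSucc 406, .ofNat 0, .ofNat 309, .ofNat 80, .ofNat 0, .ofNat 0, .ofNat 821, .ofNat 3745, .ofNat 0, .ofNat 0, .ofNat 0, .ofNat 0, .ofNat 0, .ofNat 387141284678621899665073766400, .ofNat 0, .ofNat 0, .ofNat 0, .ofNat 383866493715728161604370432000, .ofNat 0, .ofNat 0, .ofNat 0, .ofNat 491821979308783964494862745600, .ofNat 0, .ofNat 0⟩)
    (by decide +kernel)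
theorem L00142 : Good (Phi V4.P V4.D 1 (-1)) ⟨2, 1, 2, 0, 1, 0, 2, 3, 3, 3⟩ :=
  leaf_sound (S := T4.ds_pm) T4.ok_pm (w := 152) (c := ⟨⟨.negSucc 214, .negSucc 171, .ofNat 16, .negSucc 329, .ofNat 248, .ofNat 15⟩, ⟨.negSucc 0, .negSucc 6, .ofNat 71, .ofNat 48, .negSucc 23, .ofNat 6⟩, ⟨.negSucc 174, .ofNat 135, .negSucc 2, .ofNat 259, .negSucc 250, .ofNat 16⟩, ⟨.negSucc 630, .negSucc 228, .ofNat 8, .negSucc 839, .ofNat 619, .ofNat 41⟩, ⟨.negSucc 70, .ofNat 42, .negSucc 7, .negSucc 145, .ofNat 64, .ofNat 12⟩, .ofNat 373, .ofNat 64, .ofNat 0, .ofNat 64, .ofNat 750, .ofNat 0, .ofNat 439, .negSucc 76, .negSucc 457, .ofNat 0, .ofNat 271, .ofNat 51, .ofNat 0, .ofNat 0, .ofNat 857, .ofNat 2157, .ofNat 0, .ofNat 0, .ofNat 0, .ofNat 0, .ofNat 0, .ofNat 2284082364405243766152521318400, .ofNat 0, .ofNat 0, .ofNat 0, .ofNat 0, .ofNat 0, .ofNat 0, .ofNat 0,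 .ofNat 2167588528690701252212608204800, .ofNat 0, .ofNat 0⟩)
    (by decide +kernel)
theorem L00143 : Good (Phi V4.P V4.D 1 (-1)) ⟨3, 2, 2, 1, 1, 0, 2, 3, 3, 3⟩ :=
  leaf_sound (S := T4.ds_pm) T4.ok_pm (w := 160) (c := ⟨⟨.negSucc 240, .negSucc 78, .ofNat 8, .negSucc 242, .ofNat 224, .ofNat 11⟩, ⟨.ofNat 63, .ofNat 21, .ofNat 62, .ofNat 89, .negSucc 83, .negSucc 3⟩, ⟨.negSucc 155, .ofNat 63, .ofNat 3, .ofNat 228, .negSucc 237, .ofNat 16⟩, ⟨.negSucc 688, .negSucc 125, .ofNat 1, .negSucc 721, .ofNat 626, .ofNat 37⟩, ⟨.negSucc 48, .ofNat 20, .negSucc 4, .negSucc 185, .ofNat 63, .ofNat 8⟩, .ofNat 412, .ofNat 152, .ofNat 0, .ofNat 152, .ofNat 704, .ofNat 0, .ofNat 408, .negSucc 171, .negSucc 445, .ofNat 0, .ofNat 304, .ofNat 121, .ofNat 0, .ofNat 0, .ofNat 849, .ofNat 2755, .ofNat 0, .ofNat 0, .ofNat 0, .ofNat 0, .ofNat 0, .ofNat 31983547478004604228369121280000,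 .ofNat 0, .ofNat 0, .ofNat 0, .ofNat 30002973781782255582320787456000, .ofNat 0, .ofNat 0, .ofNat 0, .ofNat 34771745950570193754428905881600, .ofNat 0, .ofNat 0⟩)
    (by decide +kernel)
theorem L00144 : Good (Phi V4.P V4.D 1 (-1)) ⟨3, 3, 2, 1, 1, 0, 2, 3, 3, 3⟩ :=
  leaf_sound (S := T4.ds_pm) T4.ok_pm (w := 160) (c := ⟨⟨.negSucc 248, .negSucc 119, .ofNat 21, .negSucc 428, .ofNat 244, .ofNat 5⟩, ⟨.ofNat 59, .negSucc 1, .ofNat 71, .ofNat 129, .negSucc 75, .ofNat 6⟩, ⟨.negSucc 146, .ofNat 102, .negSucc 6, .ofNat 371, .negSucc 251, .ofNat 28⟩, ⟨.negSucc 664, .negSucc 162, .ofNat 24, .negSucc 1045, .ofNat 599, .ofNat 13⟩, ⟨.negSucc 60, .ofNat 12, .negSucc 10, .negSucc 107, .ofNat 65, .ofNat 13⟩, .ofNat 609, .ofNat 454, .ofNat 0, .ofNat 454, .ofNat 1761, .ofNat 0, .ofNat 355, .negSucc 235, .negSucc 401, .ofNat 0, .ofNat 220, .ofNat 116, .ofNat 0,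 .ofNat 0, .ofNat 819, .ofNat 2542, .ofNat 0, .ofNat 0, .ofNat 0, .ofNat 0, .ofNat 0, .ofNat 33349400279225796008202574233600, .ofNat 0, .ofNat 0, .ofNat 0, .ofNat 33176704668544827761551736832000, .ofNat 0, .ofNat 0, .ofNat 0, .ofNat 33768798501164335841454273331200, .ofNat 0, .ofNat 0⟩)
    (by decide +kernel)
theorem L00145 : Good (Phi V4.P V4.D 1 (-1)) ⟨2, 0, 1, 1, 1, 0, 2, 3, 3, 3⟩ :=
  leaf_sound (S := T4.ds_pm) T4.ok_pm (w := 152) (c := ⟨⟨.negSucc 190, .negSucc 100, .ofNat 141, .negSucc 123, .ofNat 212, .ofNat 28⟩, ⟨.ofNat 98, .ofNat 58, .ofNat 45, .ofNat 60, .negSucc 115, .negSucc 14⟩, ⟨.negSucc 194, .ofNat 86, .negSucc 150, .ofNat 151, .negSucc 226, .negSucc 0⟩, ⟨.negSucc 640, .negSucc 183, .ofNat 335, .negSucc 497, .ofNat 646, .ofNat 87⟩, ⟨.negSucc 66, .ofNat 45, .negSucc 22, .negSucc 262, .ofNat 71, .ofNat 14⟩, .ofNat 894, .ofNat 758,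 .ofNat 0, .ofNat 758, .ofNat 1780, .ofNat 0, .ofNat 268, .negSucc 281, .negSucc 309, .ofNat 0, .ofNat 257, .ofNat 149, .ofNat 0, .ofNat 0, .ofNat 765, .ofNat 2980, .ofNat 0, .ofNat 0, .ofNat 30802736142717882738278400, .ofNat 0, .ofNat 0, .ofNat 0, .ofNat 9443083859423011390095360000, .ofNat 0, .ofNat 0, .ofNat 513639816441585821005381632000, .ofNat 7410962856005448252574924800, .ofNat 0, .ofNat 0, .ofNat 330247017301282742907961344000, .ofNat 13652499983272215645782016000, .ofNat 0⟩)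
    (by decide +kernel)
theorem L00146 : Good (Phi V4.P V4.D 1 (-1)) ⟨2, 1, 1, 1, 2, 0, 2, 3, 3, 3⟩ :=
  leaf_sound (S := T4.ds_pm) T4.ok_pm (w := 160) (c := ⟨⟨.negSucc 232, .negSucc 128, .negSucc 13, .negSucc 112, .ofNat 232, .negSucc 6⟩, ⟨.ofNat 125, .ofNat 28, .ofNat 102, .ofNat 53, .negSucc 113, .ofNat 3⟩, ⟨.negSucc 160, .ofNat 115, .ofNat 11, .ofNat 102, .negSucc 241, .ofNat 42⟩, ⟨.negSucc 678, .negSucc 189, .negSucc 39, .negSucc 335, .ofNat 627, .negSucc 5⟩, ⟨.negSucc 46, .ofNat 15, .ofNat 16, .negSucc 99, .ofNat 60, .ofNat 13⟩, .ofNat 810, .ofNat 738, .ofNat 0, .ofNat 738, .ofNat 1884, .ofNat 0, .ofNat 281, .negSucc 289, .negSucc 375, .ofNat 0, .ofNat 244, .ofNat 163, .ofNat 0, .ofNat 0, .ofNat 799, .ofNat 3586, .ofNat 0, .ofNat 0, .ofNat 0, .ofNat 0, .ofNat 0, .ofNat 0, .ofNat 0, .ofNat 0, .ofNat 0, .ofNat 0, .ofNat 10928481158548692363276346982400,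 .ofNat 0, .ofNat 0, .ofNat 46498536120361102176295688601600, .ofNat 4839521860569669920318973542400, .ofNat 0⟩)
    (by decide +kernel)
theorem L00147 : Good (Phi V4.P V4.D 1 (-1)) ⟨2, 1, 1, 1, 2, 1, 2, 3, 3, 3⟩ :=
  leaf_sound (S := T4.ds_pm) T4.ok_pm (w := 160) (c := ⟨⟨.negSucc 245, .negSucc 287, .ofNat 37, .negSucc 244, .ofNat 78, .ofNat 5⟩, ⟨.ofNat 135, .ofNat 79, .ofNat 198, .ofNat 119, .negSucc 37, .negSucc 3⟩, ⟨.negSucc 136, .ofNat 243, .ofNat 25, .ofNat 245, .negSucc 93, .ofNat 13⟩, ⟨.negSucc 836, .negSucc 439, .negSucc 22, .negSucc 626, .ofNat 273, .ofNat 31⟩, ⟨.negSucc 216, .ofNat 93, .ofNat 1, .negSucc 5, .ofNat 135, .ofNat 32⟩, .ofNat 429, .ofNat 202, .ofNat 0, .ofNat 202, .ofNat 716, .ofNat 0, .ofNat 399, .negSucc 230, .negSucc 428, .ofNat 0, .ofNat 319, .ofNat 155, .ofNat 0, .ofNat 0, .ofNat 838, .ofNat 2336, .ofNat 0, .ofNat 0,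 .ofNat 0, .ofNat 0, .ofNat 0, .ofNat 80856509995251816211967429836800, .ofNat 0, .ofNat 0, .ofNat 0, .ofNat 34588303170423844970690091417600, .ofNat 11569679886340912455213907968000, .ofNat 0, .ofNat 0, .ofNat 106469305115052182110387096780800, .ofNat 0, .ofNat 0⟩)
    (by decide +kernel)
theorem L00148 : Good (Phi V4.P V4.D 1 (-1)) ⟨1, 0, 1, 0, 2, 2, 2, 0, 4, 4⟩ :=
  leaf_sound (S := T4.ds_pm) T4.ok_pm (w := 160) (c := ⟨⟨.negSucc 450, .negSucc 550, .negSucc 12, .negSucc 264, .ofNat 79, .ofNat 15⟩, ⟨.negSucc 45, .ofNat 130, .ofNat 373, .ofNat 62, .negSucc 44, .negSucc 12⟩, ⟨.ofNat 602, .ofNat 237, .negSucc 63, .negSucc 58, .negSucc 153, .negSucc 85⟩, ⟨.negSucc 1658, .negSucc 584, .negSucc 69, .negSucc 637, .ofNat 168, .ofNat 11⟩, ⟨.negSucc 337, .ofNat 697, .negSucc 26, .ofNat 158, .negSucc 237, .negSucc 85⟩, .ofNat 394, .ofNat 96, .ofNat 0,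 .ofNat 96, .ofNat 686, .ofNat 0, .ofNat 504, .negSucc 178, .negSucc 299, .ofNat 0, .ofNat 340, .ofNat 132, .ofNat 0, .ofNat 0, .ofNat 882, .ofNat 7457, .ofNat 0, .ofNat 0, .ofNat 0, .ofNat 0, .ofNat 0, .ofNat 0, .ofNat 0, .ofNat 0, .ofNat 0, .ofNat 0, .ofNat 0, .ofNat 0, .ofNat 0, .ofNat 0, .ofNat 0, .ofNat 0⟩)
    (by decide +kernel)
theorem L00149 : Good (Phi V4.P V4.D 1 (-1)) ⟨1, 0, 1, 0, 2, 2, 2, 1, 4, 4⟩ :=
  leaf_sound (S := T4.ds_pm) T4.ok_pm (w := 160) (c := ⟨⟨.negSucc 461, .negSucc 485, .ofNat 42, .negSucc 215, .ofNat 67, .ofNat 17⟩, ⟨.negSucc 85, .ofNat 129, .ofNat 361, .ofNat 64, .negSucc 25, .negSucc 0⟩, ⟨.ofNat 310, .ofNat 310, .negSucc 25, .ofNat 60, .negSucc 125, .negSucc 49⟩, ⟨.negSucc 1510, .negSucc 640, .negSucc 41, .negSucc 616, .ofNat 150, .ofNat 29⟩, ⟨.negSucc 521, .ofNat 603, .negSucc 17, .ofNat 104, .negSucc 94, .negSucc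 45⟩, .ofNat 390, .ofNat 73, .ofNat 0, .ofNat 73, .ofNat 689, .ofNat 0, .ofNat 521, .negSucc 135, .negSucc 347, .ofNat 0, .ofNat 334, .ofNat 120, .ofNat 0, .ofNat 0, .ofNat 896, .ofNat 3846, .ofNat 0, .ofNat 0, .ofNat 0, .ofNat 0, .ofNat 0, .ofNat 0, .ofNat 0, .ofNat 0, .ofNat 0, .ofNat 0, .ofNat 0, .ofNat 0, .ofNat 0, .ofNat 0, .ofNat 0, .ofNat 0⟩)
    (by decide +kernel)
theorem L00150 : Good (Phi V4.P V4.D 1 (-1)) ⟨2, 0, 1, 1, 2, 2, 1, 0, 4, 4⟩ :=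
  leaf_sound (S := T4.ds_pm) T4.ok_pm (w := 168) (c := ⟨⟨.negSucc 459, .negSucc 248, .ofNat 16, .negSucc 247, .ofNat 173, .ofNat 10⟩, ⟨.ofNat 230, .ofNat 143, .ofNat 327, .ofNat 138, .negSucc 101, .negSucc 5⟩, ⟨.ofNat 427, .ofNat 148, .negSucc 31, .ofNat 35, .negSucc 272, .negSucc 23⟩, ⟨.negSucc 1670, .negSucc 323, .negSucc 60, .negSucc 666, .ofNat 341, .ofNat 0⟩, ⟨.negSucc 378, .ofNat 330, .ofNat 21, .ofNat 72, .negSucc 282, .negSucc 47⟩, .ofNat 898, .ofNat 766, .ofNat 0, .ofNat 766, .ofNat 1789, .ofNat 0, .ofNat 314, .negSucc 367, .negSucc 276, .ofNat 0, .ofNat 312, .ofNat 160, .ofNat 0, .ofNat 0, .ofNat 827, .ofNat 5404, .ofNat 0, .ofNat 0, .ofNat 36512205974068221345949286400, .ofNat 0, .ofNat 0, .ofNat 0, .ofNat 0, .ofNat 0, .ofNat 224815796998404534501029550489600, .ofNat 0, .ofNat 9425407380734443654261348761600, .ofNat 0, .ofNat 0, .ofNat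 0, .ofNat 0, .ofNat 0⟩)
    (by decide +kernel)
theorem L00151 : Good (Phi V4.P V4.D 1 (-1)) ⟨2, 1, 1, 1, 2, 2, 2, 0, 4, 4⟩ :=
  leaf_sound (S := T4.ds_pm) T4.ok_pm (w := 168) (c := ⟨⟨.negSucc 672, .negSucc 382, .ofNat 2, .negSucc 354, .ofNat 117, .ofNat 29⟩, ⟨.ofNat 352, .ofNat 74, .ofNat 375, .ofNat 187, .negSucc 54, .negSucc 11⟩, ⟨.ofNat 645, .ofNat 146, .negSucc 106, .negSucc 92, .negSucc 94, .negSucc 90⟩, ⟨.negSucc 1920, .negSucc 345, .negSucc 65, .negSucc 779, .ofNat 157, .ofNat 19⟩, ⟨.negSucc 71, .ofNat 372, .negSucc 56, .ofNat 292, .negSucc 258, .negSucc 95⟩, .ofNat 819, .ofNat 745, .ofNat 0, .ofNat 745, .ofNat 1884, .ofNat 0, .ofNat 329, .negSucc 389, .negSucc 276, .ofNat 0, .ofNat 302, .ofNat 150, .ofNat 0, .ofNat 0, .ofNat 829, .ofNat 12421, .ofNat 0, .ofNat 0, .ofNat 1171335062530537643785479782400, .ofNat 0, .ofNat 0, .ofNat 0,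 .ofNat 0, .ofNat 0, .ofNat 1584853677510787639309640505753600, .ofNat 0, .ofNat 91634795161989373736041159065600, .ofNat 0, .ofNat 0, .ofNat 0, .ofNat 0, .ofNat 0⟩)
    (by decide +kernel)
theorem L00152 : Good (Phi V4.P V4.D 1 (-1)) ⟨2, 1, 1, 1, 2, 2, 2, 1, 4, 4⟩ :=
  leaf_sound (S := T4.ds_pm) T4.ok_pm (w := 168) (c := ⟨⟨.negSucc 542, .negSucc 418, .negSucc 5, .negSucc 344, .ofNat 54, .ofNat 14⟩, ⟨.ofNat 291, .ofNat 101, .ofNat 362, .ofNat 176, .negSucc 30, .negSucc 4⟩, ⟨.ofNat 390, .ofNat 258, .negSucc 51, .ofNat 80, .negSucc 72, .negSucc 55⟩, ⟨.negSucc 1729, .negSucc 446, .negSucc 64, .negSucc 780, .ofNat 101, .ofNat 17⟩, ⟨.negSucc 323, .ofNat 365, .ofNat 53, .ofNat 220, .negSucc 85, .negSucc 31⟩, .ofNat 832, .ofNat 761, .ofNat 0, .ofNat 761, .ofNat 1899, .ofNat 0, .ofNat 326, .negSucc 385, .negSucc 311, .ofNat 0, .ofNat 300, .ofNat 163,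 .ofNat 0, .ofNat 0, .ofNat 835, .ofNat 7633, .ofNat 0, .ofNat 0, .ofNat 0, .ofNat 0, .ofNat 0, .ofNat 0, .ofNat 250107454908399086209448961638400, .ofNat 0, .ofNat 0, .ofNat 0, .ofNat 189748550682097832777096783462400, .ofNat 0, .ofNat 0, .ofNat 0, .ofNat 147142598787506768658933429043200, .ofNat 0⟩)
    (by decide +kernel)
theorem L00153 : Good (Phi V4.P V4.D 1 (-1)) ⟨1, 0, 0, 0, 2, 2, 2, 0, 4, 5⟩ :=
  leaf_sound (S := T4.ds_pm) T4.ok_pm (w := 160) (c := ⟨⟨.negSucc 439, .negSucc 512, .ofNat 20, .negSucc 256, .ofNat 36, .ofNat 40⟩, ⟨.negSucc 55, .ofNat 120, .ofNat 727, .ofNat 70, .negSucc 42, .negSucc 2⟩, ⟨.ofNat 486, .ofNat 202, .negSucc 80, .negSucc 44, .negSucc 101, .negSucc 98⟩, ⟨.negSucc 1678, .negSucc 520, .negSucc 140, .negSucc 620, .ofNat 148, .ofNat 77⟩, ⟨.negSucc 461, .ofNat 655, .negSucc 40, .ofNat 138, .negSucc 125, .negSucc 58⟩,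 .ofNat 397, .ofNat 104, .ofNat 0, .ofNat 104, .ofNat 688, .ofNat 0, .ofNat 457, .negSucc 164, .negSucc 251, .ofNat 0, .ofNat 318, .ofNat 118, .ofNat 0, .ofNat 0, .ofNat 856, .ofNat 5043, .ofNat 0, .ofNat 0, .ofNat 0, .ofNat 0, .ofNat 0, .ofNat 0, .ofNat 0, .ofNat 0, .ofNat 16419725961696750536753990860800, .ofNat 0, .ofNat 119089724748329635151427403776000, .ofNat 0, .ofNat 0, .ofNat 0, .ofNat 0, .ofNat 0⟩)
    (by decide +kernel)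
theorem L00154 : Good (Phi V4.P V4.D 1 (-1)) ⟨2, 0, 0, 0, 2, 2, 2, 1, 4, 5⟩ :=
  leaf_sound (S := T4.ds_pm) T4.ok_pm (w := 168) (c := ⟨⟨.negSucc 493, .negSucc 159, .ofNat 100, .negSucc 194, .ofNat 70, .ofNat 16⟩, ⟨.negSucc 90, .ofNat 109, .ofNat 621, .ofNat 60, .negSucc 28, .ofNat 3⟩, ⟨.ofNat 287, .ofNat 89, .negSucc 34, .ofNat 56, .negSucc 118, .negSucc 50⟩, ⟨.negSucc 1560, .negSucc 252, .negSucc 99, .negSucc 557, .ofNat 186, .ofNat 51⟩, ⟨.negSucc 514, .ofNat 287, .negSucc 30, .negSucc 11, .negSucc 50, .negSucc 22⟩, .ofNat 412, .ofNat 96, .ofNat 0, .ofNat 96, .ofNat 651, .ofNat 0, .ofNat 459, .negSucc 147, .negSucc 274, .ofNat 0, .ofNat 332, .ofNat 119, .ofNat 0, .ofNat 0, .ofNat 845, .ofNat 5145, .ofNat 0, .ofNat 0, .ofNat 0, .ofNat 0, .ofNat 0, .ofNat 0, .ofNat 0, .ofNat 0, .ofNat 0, .ofNat 0, .ofNat 23243290560517258540725829632000, .ofNat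 0, .ofNat 0, .ofNat 0, .ofNat 0, .ofNat 0⟩)
    (by decide +kernel)
theorem L00155 : Good (Phi V4.P V4.D 1 (-1)) ⟨2, 1, 0, 0, 2, 2, 2, 1, 4, 5⟩ :=
  leaf_sound (S := T4.ds_pm) T4.ok_pm (w := 168) (c := ⟨⟨.negSucc 538, .negSucc 397, .negSucc 34, .negSucc 313, .ofNat 30, .ofNat 53⟩, ⟨.negSucc 26, .ofNat 35, .ofNat 739, .ofNat 91, .negSucc 4, .negSucc 16⟩, ⟨.ofNat 324, .ofNat 190, .ofNat 62, .ofNat 72, .negSucc 48, .negSucc 77⟩, ⟨.negSucc 1669, .negSucc 404, .negSucc 175, .negSucc 706, .ofNat 68, .ofNat 96⟩, ⟨.negSucc 383, .ofNat 372, .ofNat 7, .ofNat 272, .negSucc 60, .negSucc 50⟩, .ofNat 383, .ofNat 109, .ofNat 0, .ofNat 109, .ofNat 724, .ofNat 0, .ofNat 479, .negSucc 173, .negSucc 307, .ofNat 0, .ofNat 310, .ofNat 117, .ofNat 0, .ofNat 0, .ofNat 853, .ofNat 3628, .ofNat 0, .ofNat 0, .ofNat 0, .ofNat 0, .ofNat 0, .ofNat 0, .ofNat 0, .ofNat 0,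 .ofNat 0, .ofNat 0, .ofNat 47346970721214742438709978726400, .ofNat 0, .ofNat 0, .ofNat 0, .ofNat 0, .ofNat 0⟩)
    (by decide +kernel)
theorem L00156 : Good (Phi V4.P V4.D 1 (-1)) ⟨1, 0, 0, 0, 2, 2, 1, 0, 3, 3⟩ :=
  leaf_sound (S := T4.ds_pm) T4.ok_pm (w := 152) (c := ⟨⟨.negSucc 471, .negSucc 446, .ofNat 49, .negSucc 219, .ofNat 107, .ofNat 64⟩, ⟨.negSucc 51, .ofNat 119, .ofNat 624, .ofNat 78, .negSucc 38, .negSucc 21⟩, ⟨.ofNat 335, .ofNat 176, .ofNat 19, .negSucc 15, .negSucc 179, .negSucc 129⟩, ⟨.negSucc 1650, .negSucc 471, .negSucc 132, .negSucc 533, .ofNat 283, .ofNat 158⟩, ⟨.negSucc 502, .ofNat 496, .ofNat 29, .ofNat 80, .negSucc 78, .negSucc 47⟩, .ofNat 398, .ofNat 103, .ofNat 0, .ofNat 103, .ofNat 685, .ofNat 0, .ofNat 404, .negSucc 130, .negSucc 223, .ofNat 0, .ofNat 284, .ofNat 93, .ofNat 0, .ofNat 0, .ofNat 808, .ofNat 1692, .ofNat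 3712980899323286065564876800, .ofNat 0, .ofNat 0, .ofNat 0, .ofNat 0, .ofNat 0, .ofNat 0, .ofNat 0, .ofNat 456866703642218346335069798400, .ofNat 7069041065131735353753600, .ofNat 865556241713116525145515622400, .ofNat 0, .ofNat 0, .ofNat 0, .ofNat 0, .ofNat 0⟩)
    (by decide +kernel)
theorem L00157 : Good (Phi V4.P V4.D 1 (-1)) ⟨2, 0, 1, 0, 2, 2, 1, 1, 2, 1⟩ :=
  leaf_sound (S := T4.ds_pm) T4.ok_pm (w := 160) (c := ⟨⟨.negSucc 424, .negSucc 167, .ofNat 42, .negSucc 207, .ofNat 133, .ofNat 53⟩, ⟨.negSucc 81, .ofNat 99, .ofNat 275, .ofNat 56, .negSucc 3, .negSucc 30⟩, ⟨.ofNat 95, .ofNat 120, .ofNat 30, .ofNat 158, .negSucc 223, .negSucc 98⟩, ⟨.negSucc 1365, .negSucc 300, .negSucc 63, .negSucc 597, .ofNat 425, .ofNat 174⟩, ⟨.negSucc 550, .ofNat 259, .ofNat 1, .negSucc 28, .ofNat 157, .negSucc 7⟩, .ofNat 412, .ofNat 95, .ofNat 0, .ofNat 95, .ofNat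 649, .ofNat 0, .ofNat 484, .negSucc 142, .negSucc 342, .ofNat 0, .ofNat 344, .ofNat 113, .ofNat 0, .ofNat 0, .ofNat 853, .ofNat 2417, .ofNat 0, .ofNat 0, .ofNat 0, .ofNat 0, .ofNat 0, .ofNat 6462121503781787330609676288000, .ofNat 0, .ofNat 0, .ofNat 0, .ofNat 3467833811268233984637036134400, .ofNat 0, .ofNat 0, .ofNat 0, .ofNat 6523115135369816232148598784000, .ofNat 0, .ofNat 0⟩)
    (by decide +kernel)
theorem L00158 : Good (Phi V4.P V4.D 1 (-1)) ⟨2, 1, 1, 0, 2, 2, 2, 2, 2, 1⟩ :=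
  leaf_sound (S := T4.ds_pm) T4.ok_pm (w := 160) (c := ⟨⟨.negSucc 460, .negSucc 414, .negSucc 34, .negSucc 365, .ofNat 26, .ofNat 27⟩, ⟨.negSucc 38, .ofNat 47, .ofNat 344, .ofNat 104, .ofNat 3, .negSucc 18⟩, ⟨.ofNat 138, .ofNat 282, .ofNat 95, .ofNat 245, .negSucc 64, .negSucc 124⟩, ⟨.negSucc 1453, .negSucc 523, .negSucc 133, .negSucc 854, .ofNat 63, .ofNat 96⟩, ⟨.negSucc 431, .ofNat 282, .ofNat 31, .ofNat 262, .ofNat 39, .ofNat 46⟩, .ofNat 380, .ofNat 104, .ofNat 0, .ofNat 104, .ofNat 728, .ofNat 0, .ofNat 514, .negSucc 167, .negSucc 403, .ofNat 0, .ofNat 320, .ofNat 118, .ofNat 0, .ofNat 0, .ofNat 885, .ofNat 2444, .ofNat 0, .ofNat 0, .ofNat 0, .ofNat 0, .ofNat 0, .ofNat 0, .ofNat 0, .ofNat 0, .ofNat 0, .ofNat 0, .ofNat 0, .ofNat 0, .ofNat 0, .ofNat 0, .ofNat 0, .ofNat 0⟩)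
    (by decide +kernel)
theorem L00159 : Good (Phi V4.P V4.D 1 (-1)) ⟨2, 1, 1, 0, 2, 2, 2, 3, 2, 1⟩ :=
  leaf_sound (S := T4.ds_pm) T4.ok_pm (w := 160) (c := ⟨⟨.negSucc 347, .negSucc 497, .negSucc 53, .negSucc 486, .ofNat 11, .negSucc 53⟩, ⟨.negSucc 47, .ofNat 50, .ofNat 345, .ofNat 117, .ofNat 6, .ofNat 22⟩, ⟨.negSucc 62, .ofNat 371, .ofNat 144, .ofNat 405, .negSucc 55, .ofNat 17⟩, ⟨.negSucc 1179, .negSucc 743, .negSucc 174, .negSucc 1105, .ofNat 92, .negSucc 53⟩, ⟨.negSucc 382, .ofNat 266, .ofNat 14, .ofNat 316, .ofNat 155, .ofNat 129⟩, .ofNat 382, .ofNat 106, .ofNat 0, .ofNat 106, .ofNat 727, .ofNat 0, .ofNat 566, .negSucc 180, .negSucc 535, .ofNat 0, .ofNat 347, .ofNat 124, .ofNat 0, .ofNat 0, .ofNat 950, .ofNat 1646, .ofNat 0, .ofNat 0, .ofNat 0, .ofNat 0, .ofNat 0, .ofNat 29311654567052676024319868928000, .ofNat 0, .ofNat 0, .ofNat 0,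 .ofNat 22282008352475037051206290636800, .ofNat 0, .ofNat 0, .ofNat 0, .ofNat 26341076617894542886548642201600, .ofNat 0, .ofNat 0⟩)
    (by decide +kernel)
theorem L00160 : Good (Phi V4.P V4.D 1 (-1)) ⟨1, 0, 1, 1, 2, 2, 1, 1, 2, 1⟩ :=
  leaf_sound (S := T4.ds_pm) T4.ok_pm (w := 152) (c := ⟨⟨.negSucc 180, .negSucc 731, .ofNat 247, .negSucc 298, .ofNat 22, .ofNat 47⟩, ⟨.ofNat 120, .ofNat 262, .ofNat 282, .ofNat 172, .negSucc 9, .negSucc 14⟩, ⟨.negSucc 61, .ofNat 566, .negSucc 93, .ofNat 241, .negSucc 88, .negSucc 88⟩, ⟨.negSucc 1117, .negSucc 1036, .ofNat 239, .negSucc 799, .ofNat 176, .ofNat 112⟩, ⟨.negSucc 628, .ofNat 533, .negSucc 99, .ofNat 104, .ofNat 206, .ofNat 34⟩, .ofNat 443, .ofNat 205, .ofNat 0, .ofNat 205, .ofNat 705, .ofNat 0, .ofNat 445, .negSucc 278, .negSucc 375, .ofNat 0, .ofNat 363, .ofNat 176, .ofNat 0, .ofNat 0, .ofNat 846,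 .ofNat 1623, .ofNat 0, .ofNat 0, .ofNat 976760819748915969156710400, .ofNat 0, .ofNat 0, .ofNat 379100076616552216064635699200, .ofNat 244441875488008013019611136000, .ofNat 0, .ofNat 0, .ofNat 277874819852268433040002252800, .ofNat 174478621846602093119196364800, .ofNat 0, .ofNat 0, .ofNat 531808303826718131191440998400, .ofNat 66807466140247213738033152000, .ofNat 0⟩)
    (by decide +kernel)
theorem L00161 : Good (Phi V4.P V4.D 1 (-1)) ⟨2, 0, 1, 0, 3, 6, 1, 0, 4, 4⟩ :=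
  leaf_sound (S := T4.ds_pm) T4.ok_pm (w := 176) (c := ⟨⟨.negSucc 742, .negSucc 226, .negSucc 7, .negSucc 155, .ofNat 176, .ofNat 17⟩, ⟨.negSucc 48, .ofNat 146, .ofNat 426, .ofNat 51, .negSucc 76, .negSucc 11⟩, ⟨.ofNat 490, .ofNat 75, .negSucc 54, .ofNat 14, .negSucc 140, .negSucc 56⟩, ⟨.negSucc 2269, .negSucc 342, .negSucc 159, .negSucc 408, .ofNat 412, .ofNat 18⟩, ⟨.negSucc 346, .ofNat 547, .negSucc 6, .ofNat 124, .negSucc 354, .negSucc 84⟩, .ofNat 411, .ofNat 91, .ofNat 0, .ofNat 91, .ofNat 648, .ofNat 0, .ofNat 539, .negSucc 217, .negSucc 270, .ofNat 0, .ofNat 394, .ofNat 127, .ofNat 0, .ofNat 0, .ofNat 881, .ofNat 1597, .ofNat 0, .ofNat 0, .ofNat 0, .ofNat 0, .ofNat 0, .ofNat 0, .ofNat 0, .ofNat 0, .ofNat 0, .ofNat 0, .ofNat 0, .ofNat 0, .ofNat 0, .ofNat 0, .ofNat 0, .ofNat 0⟩)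
    (by decide +kernel)
theorem L00162 : Good (Phi V4.P V4.D 1 (-1)) ⟨2, 1, 1, 0, 3, 6, 1, 0, 4, 4⟩ :=
  leaf_sound (S := T4.ds_pm) T4.ok_pm (w := 176) (c := ⟨⟨.negSucc 830, .negSucc 523, .negSucc 126, .negSucc 228, .ofNat 102, .ofNat 33⟩, ⟨.ofNat 16, .ofNat 19, .ofNat 542, .ofNat 88, .negSucc 53, .negSucc 2⟩, ⟨.ofNat 463, .ofNat 181, .negSucc 49, .negSucc 50, .ofNat 122, .negSucc 88⟩, ⟨.negSucc 2465, .negSucc 544, .negSucc 160, .negSucc 450, .ofNat 153, .ofNat 75⟩, ⟨.ofNat 23, .ofNat 680, .ofNat 92, .ofNat 422, .negSucc 438, .negSucc 59⟩, .ofNat 585, .ofNat 351, .ofNat 0, .ofNat 351, .ofNat 1759, .ofNat 0, .ofNat 479, .negSucc 299, .negSucc 253, .ofNat 0, .ofNat 267, .ofNat 86, .ofNat 0, .ofNat 0, .ofNat 863, .ofNat 2050, .ofNat 0, .ofNat 0, .ofNat 0, .ofNat 0, .ofNat 0, .ofNat 0, .ofNat 0, .ofNat 0, .ofNat 23131459425843141028239855373516800,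 .ofNat 0, .ofNat 0, .ofNat 0, .ofNat 0, .ofNat 0, .ofNat 0, .ofNat 0⟩)
    (by decide +kernel)
theorem L00163 : Good (Phi V4.P V4.D 1 (-1)) ⟨2, 0, 1, 1, 3, 6, 1, 0, 4, 4⟩ :=
  leaf_sound (S := T4.ds_pm) T4.ok_pm (w := 176) (c := ⟨⟨.negSucc 659, .negSucc 380, .negSucc 143, .negSucc 212, .ofNat 245, .ofNat 35⟩, ⟨.ofNat 339, .ofNat 216, .ofNat 500, .ofNat 121, .negSucc 143, .negSucc 20⟩, ⟨.ofNat 363, .ofNat 89, .ofNat 16, .negSucc 32, .ofNat 1, .negSucc 52⟩, ⟨.negSucc 2365, .negSucc 424, .negSucc 370, .negSucc 470, .ofNat 462, .ofNat 43⟩, ⟨.negSucc 487, .ofNat 693, .ofNat 181, .ofNat 246, .negSucc 445, .negSucc 95⟩, .ofNat 1779, .ofNat 2179, .ofNat 0, .ofNat 2179, .ofNat 4316, .ofNat 0, .ofNat 250, .negSucc 477, .negSucc 226, .ofNat 0, .ofNat 330, .ofNat 133, .ofNat 0, .ofNat 0, .ofNat 833, .ofNat 3746, .ofNat 0, .ofNat 0, .ofNat 0, .ofNat 0, .ofNat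 0, .ofNat 0, .ofNat 0, .ofNat 0, .ofNat 42905530653857089187047991672832000, .ofNat 0, .ofNat 5671907310792145682058238859673600, .ofNat 0, .ofNat 33708934547875652932602504098611200, .ofNat 0, .ofNat 0, .ofNat 0⟩)
    (by decide +kernel)
theorem L00164 : Good (Phi V4.P V4.D 1 (-1)) ⟨2, 1, 1, 1, 3, 6, 1, 0, 4, 4⟩ :=
  leaf_sound (S := T4.ds_pm) T4.ok_pm (w := 176) (c := ⟨⟨.negSucc 1022, .negSucc 517, .negSucc 97, .negSucc 296, .ofNat 212, .ofNat 84⟩, ⟨.ofNat 550, .ofNat 110, .ofNat 508, .ofNat 156, .negSucc 117, .negSucc 38⟩, ⟨.ofNat 409, .ofNat 122, .negSucc 125, .negSucc 86, .ofNat 208, .negSucc 97⟩, ⟨.negSucc 2759, .negSucc 429, .negSucc 130, .negSucc 493, .ofNat 265, .ofNat 133⟩, ⟨.ofNat 217, .ofNat 652, .negSucc 21, .ofNat 535, .negSucc 575, .negSucc 157⟩, .ofNat 831, .ofNat 764, .ofNat 0, .ofNat 764, .ofNat 1906, .ofNat 0, .ofNat 357,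 .negSucc 456, .negSucc 244, .ofNat 0, .ofNat 348, .ofNat 135, .ofNat 0, .ofNat 0, .ofNat 841, .ofNat 3022, .ofNat 0, .ofNat 0, .ofNat 48862227983190125837082741964800, .ofNat 0, .ofNat 0, .ofNat 0, .ofNat 0, .ofNat 0, .ofNat 49498037009795134171062815057510400, .ofNat 0, .ofNat 3863235732663396611149761871872000, .ofNat 0, .ofNat 26634773792581267996672471439769600, .ofNat 0, .ofNat 2429509189115392665117511385088000, .ofNat 0⟩)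
    (by decide +kernel)
theorem L00165 : Good (Phi V4.P V4.D 1 (-1)) ⟨1, 0, 0, 0, 3, 6, 2, 0, 4, 5⟩ :=
  leaf_sound (S := T4.ds_pm) T4.ok_pm (w := 168) (c := ⟨⟨.negSucc 680, .negSucc 661, .negSucc 91, .negSucc 134, .ofNat 93, .ofNat 87⟩, ⟨.negSucc 99, .ofNat 169, .ofNat 969, .ofNat 80, .negSucc 7, .negSucc 4⟩, ⟨.ofNat 442, .ofNat 28, .negSucc 154, .negSucc 59, .ofNat 17, .negSucc 73⟩, ⟨.negSucc 2267, .negSucc 603, .negSucc 315, .negSucc 381, .ofNat 188, .ofNat 124⟩, ⟨.negSucc 465, .ofNat 1227, .negSucc 61, .ofNat 236, .negSucc 242, .negSucc 130⟩, .ofNat 402, .ofNat 112, .ofNat 0, .ofNat 112, .ofNat 677, .ofNat 0, .ofNat 482, .negSucc 224, .negSucc 199, .ofNat 0, .ofNat 363, .ofNat 106, .ofNat 0, .ofNat 0, .ofNat 866, .ofNat 2815, .ofNat 0, .ofNat 0, .ofNat 0, .ofNat 0, .ofNat 0, .ofNat 0, .ofNat 0, .ofNat 0, .ofNat 2325653380000675549394897574297600,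 .ofNat 0, .ofNat 62144092486438667162314497589248000, .ofNat 0, .ofNat 0, .ofNat 0, .ofNat 0, .ofNat 0⟩)
    (by decide +kernel)
theorem L00166 : Good (Phi V4.P V4.D 1 (-1)) ⟨1, 0, 0, 0, 3, 6, 2, 1, 4, 5⟩ :=
  leaf_sound (S := T4.ds_pm) T4.ok_pm (w := 168) (c := ⟨⟨.negSucc 582, .negSucc 682, .negSucc 97, .negSucc 150, .ofNat 65, .ofNat 118⟩, ⟨.negSucc 95, .ofNat 166, .ofNat 936, .ofNat 40, .negSucc 2, .negSucc 13⟩, ⟨.ofNat 321, .ofNat 240, .negSucc 49, .negSucc 0, .negSucc 34, .negSucc 81⟩, ⟨.negSucc 2024, .negSucc 798, .negSucc 261, .negSucc 367, .ofNat 133, .ofNat 142⟩, ⟨.negSucc 681, .ofNat 1125, .ofNat 21, .ofNat 245, .negSucc 70, .negSucc 112⟩, .ofNat 392, .ofNat 88, .ofNat 0, .ofNat 88, .ofNat 687, .ofNat 0, .ofNat 510, .negSucc 180, .negSucc 260, .ofNat 0, .ofNat 345, .ofNat 110, .ofNat 0, .ofNat 0, .ofNat 861, .ofNat 2114, .ofNat 0,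 .ofNat 0, .ofNat 0, .ofNat 0, .ofNat 0, .ofNat 0, .ofNat 0, .ofNat 0, .ofNat 0, .ofNat 0, .ofNat 83513446923555207267958929752064000, .ofNat 0, .ofNat 0, .ofNat 0, .ofNat 0, .ofNat 0⟩)
    (by decide +kernel)
theorem L00167 : Good (Phi V4.P V4.D 1 (-1)) ⟨1, 0, 0, 0, 3, 6, 1, 0, 3, 3⟩ :=
  leaf_sound (S := T4.ds_pm) T4.ok_pm (w := 160) (c := ⟨⟨.negSucc 597, .negSucc 605, .negSucc 66, .negSucc 244, .ofNat 124, .ofNat 0⟩, ⟨.negSucc 23, .ofNat 116, .ofNat 861, .negSucc 71, .negSucc 91, .ofNat 0⟩, ⟨.ofNat 336, .ofNat 46, .negSucc 124, .negSucc 6, .ofNat 62, .ofNat 0⟩, ⟨.negSucc 2157, .negSucc 536, .negSucc 238, .negSucc 392, .ofNat 259, .ofNat 0⟩, ⟨.negSucc 526, .ofNat 956, .negSucc 22, .ofNat 194, .negSucc 298, .ofNat 0⟩, .ofNat 187, .ofNat 17, .ofNat 0, .ofNat 17, .ofNat 238, .ofNat 0, .ofNat 623, .negSucc 215, .negSucc 395, .ofNat 0, .ofNat 524,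 .ofNat 264, .ofNat 0, .ofNat 0, .ofNat 952, .ofNat 3845, .ofNat 0, .ofNat 0, .ofNat 0, .ofNat 0, .ofNat 337186025569880459156954441318400, .ofNat 417468639887000988296414861721600, .ofNat 0, .ofNat 0, .ofNat 189947455677373396565114014924800, .ofNat 278790300352425401570091545395200, .ofNat 442033190960618446374925290700800, .ofNat 0, .ofNat 222204062547757048012090638336000, .ofNat 384316707379149816277075859865600, .ofNat 0, .ofNat 0⟩)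
    (by decide +kernel)
theorem L00168 : Good (Phi V4.P V4.D 1 (-1)) ⟨1, 0, 1, 0, 3, 6, 1, 1, 3, 2⟩ :=
  leaf_sound (S := T4.ds_pm) T4.ok_pm (w := 168) (c := ⟨⟨.negSucc 484, .negSucc 789, .negSucc 25, .negSucc 164, .negSucc 12, .ofNat 66⟩, ⟨.negSucc 115, .ofNat 229, .ofNat 424, .ofNat 48, .ofNat 76, .ofNat 6⟩, ⟨.ofNat 162, .ofNat 496, .ofNat 55, .ofNat 90, .ofNat 33, .negSucc 94⟩, ⟨.negSucc 1740, .negSucc 1188, .negSucc 154, .negSucc 434, .ofNat 28, .ofNat 111⟩, ⟨.negSucc 739, .ofNat 1118, .negSucc 12, .ofNat 217, .ofNat 155, .negSucc 43⟩, .ofNat 395, .ofNat 83, .ofNat 0, .ofNat 83, .ofNat 680, .ofNat 0, .ofNat 592, .negSucc 182, .negSucc 384, .ofNat 0, .ofNat 377, .ofNat 132, .ofNat 0, .ofNat 0, .ofNat 901, .ofNat 1722, .ofNat 0, .ofNat 0, .ofNat 0, .ofNat 0, .ofNat 0, .ofNat 432418780830226174887327694848000, .ofNat 0, .ofNat 0, .ofNat 0,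 .ofNat 186462262379068861379979195187200, .ofNat 0, .ofNat 0, .ofNat 0, .ofNat 419795947465736544232415428608000, .ofNat 0, .ofNat 0⟩)
    (by decide +kernel)
theorem L00169 : Good (Phi V4.P V4.D 1 (-1)) ⟨1, 0, 1, 1, 3, 6, 2, 2, 3, 2⟩ :=
  leaf_sound (S := T4.ds_pm) T4.ok_pm (w := 168) (c := ⟨⟨.negSucc 277, .negSucc 1124, .ofNat 263, .negSucc 243, .negSucc 67, .negSucc 14⟩, ⟨.ofNat 207, .ofNat 403, .ofNat 498, .ofNat 138, .ofNat 25, .negSucc 9⟩, ⟨.ofNat 83, .ofNat 653, .negSucc 77, .ofNat 99, .ofNat 120, .negSucc 26⟩, ⟨.negSucc 1657, .negSucc 1454, .ofNat 158, .negSucc 510, .negSucc 111, .negSucc 2⟩, ⟨.negSucc 831, .ofNat 1233, .negSucc 140, .ofNat 310, .ofNat 91, .negSucc 7⟩, .ofNat 438, .ofNat 202, .ofNat 0, .ofNat 202, .ofNat 707, .ofNat 0, .ofNat 528, .negSucc 366, .negSucc 391, .ofNat 0, .ofNat 427, .ofNat 206, .ofNat 0, .ofNat 0, .ofNat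 867, .ofNat 4011, .ofNat 0, .ofNat 0, .ofNat 0, .ofNat 0, .ofNat 0, .ofNat 606896904988916142328163126476800, .ofNat 15506643621051791388946155228364800, .ofNat 0, .ofNat 0, .ofNat 514868737800873960434465714995200, .ofNat 16487740044949784383466942496768000, .ofNat 0, .ofNat 0, .ofNat 493843575941141326058316260966400, .ofNat 12268045265049358626030588474163200, .ofNat 0⟩)
    (by decide +kernel)
theorem L00170 : Good (Phi V4.P V4.D 1 (-1)) ⟨1, 0, 1, 1, 3, 6, 2, 3, 3, 2⟩ :=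
  leaf_sound (S := T4.ds_pm) T4.ok_pm (w := 168) (c := ⟨⟨.negSucc 307, .negSucc 1197, .ofNat 274, .negSucc 238, .negSucc 88, .ofNat 0⟩, ⟨.ofNat 213, .ofNat 454, .ofNat 455, .ofNat 125, .ofNat 3, .ofNat 0⟩, ⟨.ofNat 63, .ofNat 855, .negSucc 61, .ofNat 166, .ofNat 66, .ofNat 0⟩, ⟨.negSucc 1549, .negSucc 1834, .ofNat 219, .negSucc 535, .negSucc 96, .ofNat 0⟩, ⟨.negSucc 567, .ofNat 988, .negSucc 21, .ofNat 236, .ofNat 102, .ofNat 0⟩, .ofNat 437, .ofNat 201, .ofNat 0, .ofNat 201, .ofNat 706, .ofNat 0, .ofNat 1149, .negSucc 759, .negSucc 1037, .ofNat 0, .ofNat 879, .ofNat 469, .ofNat 0, .ofNat 0, .ofNat 1855, .ofNat 3080, .ofNat 0, .ofNat 110015330961838939986881780121600, .ofNat 0, .ofNat 0, .ofNat 0, .ofNat 11396899251422558379812632028774400, .ofNat 0, .ofNat 0, .ofNat 0, .ofNat 17370822478876179601036821921792000, .ofNat 0, .ofNat 0, .ofNat 0,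 .ofNat 30755027395842393995765331945062400, .ofNat 0, .ofNat 0⟩)
    (by decide +kernel)
theorem L00171 : Good (Phi V4.P V4.D 1 (-1)) ⟨1, 0, 0, 0, 3, 6, 1, 1, 3, 3⟩ :=
  out_sound (S := T4.ds_pm) T4.ok_pm (w := 32) (j := 2) (by decide +kernel)
theorem L00172 : Good (Phi V4.P V4.D 1 (-1)) ⟨2, 0, 1, 0, 3, 7, 2, 0, 3, 2⟩ :=
  leaf_sound (S := T4.ds_pm) T4.ok_pm (w := 168) (c := ⟨⟨.negSucc 865, .negSucc 298, .negSucc 121, .negSucc 186, .ofNat 160, .ofNat 104⟩, ⟨.negSucc 37, .ofNat 186, .ofNat 544, .ofNat 86, .negSucc 83, .negSucc 53⟩, ⟨.ofNat 544, .negSucc 83, .negSucc 104, .ofNat 1, .negSucc 4, .negSucc 137⟩, ⟨.negSucc 2718, .negSucc 356, .negSucc 266, .negSucc 442, .ofNat 320, .ofNat 174⟩, ⟨.negSucc 228, .ofNat 889, .ofNat 109, .ofNat 422, .negSucc 502, .negSucc 296⟩, .ofNat 410, .ofNat 87, .ofNat 0, .ofNat 87, .ofNat 649, .ofNat 0, .ofNat 546,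 .negSucc 273, .negSucc 207, .ofNat 0, .ofNat 439, .ofNat 72, .ofNat 0, .ofNat 0, .ofNat 919, .ofNat 1392, .ofNat 0, .ofNat 0, .ofNat 0, .ofNat 0, .ofNat 0, .ofNat 0, .ofNat 0, .ofNat 0, .ofNat 0, .ofNat 0, .ofNat 0, .ofNat 0, .ofNat 0, .ofNat 0, .ofNat 0, .ofNat 0⟩)
    (by decide +kernel)
theorem L00173 : Good (Phi V4.P V4.D 1 (-1)) ⟨2, 1, 1, 0, 3, 7, 2, 0, 3, 2⟩ :=
  leaf_sound (S := T4.ds_pm) T4.ok_pm (w := 176) (c := ⟨⟨.negSucc 1157, .negSucc 466, .negSucc 284, .negSucc 169, .ofNat 164, .ofNat 268⟩, ⟨.ofNat 122, .negSucc 35, .ofNat 695, .ofNat 40, .negSucc 68, .negSucc 112⟩, ⟨.ofNat 447, .negSucc 24, .negSucc 163, .negSucc 117, .ofNat 230, .negSucc 222⟩, ⟨.negSucc 3207, .negSucc 330, .negSucc 132, .negSucc 302, .ofNat 190, .ofNat 472⟩, ⟨.ofNat 549, .ofNat 1085, .ofNat 477, .ofNat 896, .negSucc 807, .negSucc 521⟩, .ofNat 573, .ofNat 316,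 .ofNat 0, .ofNat 316, .ofNat 1752, .ofNat 0, .ofNat 500, .negSucc 319, .negSucc 182, .ofNat 0, .ofNat 292, .ofNat 46, .ofNat 0, .ofNat 0, .ofNat 920, .ofNat 2361, .ofNat 0, .ofNat 0, .ofNat 0, .ofNat 0, .ofNat 0, .ofNat 0, .ofNat 0, .ofNat 0, .ofNat 0, .ofNat 0, .ofNat 0, .ofNat 0, .ofNat 0, .ofNat 0, .ofNat 0, .ofNat 0⟩)
    (by decide +kernel)
theorem L00174 : Good (Phi V4.P V4.D 1 (-1)) ⟨1, 0, 1, 1, 3, 7, 2, 0, 3, 2⟩ :=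
  leaf_sound (S := T4.ds_pm) T4.ok_pm (w := 168) (c := ⟨⟨.negSucc 919, .negSucc 1029, .negSucc 84, .negSucc 292, .ofNat 285, .ofNat 250⟩, ⟨.ofNat 575, .ofNat 321, .ofNat 768, .ofNat 182, .negSucc 171, .negSucc 153⟩, ⟨.ofNat 317, .negSucc 116, .negSucc 167, .negSucc 75, .ofNat 260, .negSucc 218⟩, ⟨.negSucc 3190, .negSucc 382, .ofNat 27, .negSucc 164, .ofNat 175, .ofNat 448⟩, ⟨.negSucc 255, .ofNat 2589, .ofNat 152, .ofNat 1241, .negSucc 1148, .negSucc 522⟩, .ofNat 847, .ofNat 750, .ofNat 0, .ofNat 750, .ofNat 1839, .ofNat 0, .ofNat 382, .negSucc 492, .negSucc 196, .ofNat 0, .ofNat 412, .ofNat 99, .ofNat 0, .ofNat 0, .ofNat 930, .ofNat 4232, .ofNat 0, .ofNat 0, .ofNat 222042438112418742728781515980800, .ofNat 0, .ofNat 0, .ofNat 0, .ofNat 15290953139296305602996879543500800, .ofNat 0, .ofNat 0, .ofNat 0, .ofNat 9477438135693134733975665560780800,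 .ofNat 0, .ofNat 0, .ofNat 136373568670168127449685242675200, .ofNat 6817370867752541336438976597196800, .ofNat 0⟩)
    (by decide +kernel)
theorem L00175 : Good (Phi V4.P V4.D 1 (-1)) ⟨1, 0, 1, 0, 3, 7, 2, 1, 3, 2⟩ :=
  leaf_sound (S := T4.ds_pm) T4.ok_pm (w := 168) (c := ⟨⟨.negSucc 626, .negSucc 870, .negSucc 117, .negSucc 185, .ofNat 53, .ofNat 125⟩, ⟨.negSucc 93, .ofNat 210, .ofNat 586, .ofNat 78, .negSucc 22, .negSucc 66⟩, ⟨.ofNat 354, .ofNat 255, .negSucc 28, .ofNat 4, .ofNat 78, .negSucc 145⟩, ⟨.negSucc 2364, .negSucc 1002, .negSucc 183, .negSucc 356, .ofNat 100, .ofNat 238⟩, ⟨.negSucc 747, .ofNat 1774, .ofNat 119, .ofNat 455, .negSucc 189, .negSucc 152⟩, .ofNat 394, .ofNat 95, .ofNat 0, .ofNat 95, .ofNat 691, .ofNat 0, .ofNat 588, .negSucc 263, .negSucc 296, .ofNat 0, .ofNat 411, .ofNat 116, .ofNat 0, .ofNat 0, .ofNat 896, .ofNat 2881,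 .ofNat 0, .ofNat 0, .ofNat 0, .ofNat 0, .ofNat 0, .ofNat 0, .ofNat 0, .ofNat 0, .ofNat 0, .ofNat 0, .ofNat 0, .ofNat 0, .ofNat 0, .ofNat 0, .ofNat 0, .ofNat 0⟩)
    (by decide +kernel)
theorem L00176 : Good (Phi V4.P V4.D 1 (-1)) ⟨1, 0, 1, 1, 3, 7, 2, 1, 3, 2⟩ :=
  leaf_sound (S := T4.ds_pm) T4.ok_pm (w := 168) (c := ⟨⟨.negSucc 583, .negSucc 1146, .ofNat 44, .negSucc 265, .ofNat 80, .ofNat 117⟩, ⟨.ofNat 362, .ofNat 409, .ofNat 733, .ofNat 140, .negSucc 35, .negSucc 45⟩, ⟨.ofNat 272, .ofNat 265, .negSucc 42, .ofNat 27, .ofNat 140, .negSucc 96⟩, ⟨.negSucc 2575, .negSucc 913, .negSucc 257, .negSucc 330, .ofNat 68, .ofNat 210⟩, ⟨.negSucc 916, .ofNat 2201, .negSucc 180, .ofNat 709, .negSucc 255, .negSucc 129⟩, .ofNat 855, .ofNat 761, .ofNat 0, .ofNat 761, .ofNat 1850, .ofNat 0, .ofNat 379, .negSucc 478, .negSucc 251, .ofNat 0, .ofNat 386, .ofNat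 140, .ofNat 0, .ofNat 0, .ofNat 865, .ofNat 5011, .ofNat 0, .ofNat 0, .ofNat 298237717870713519414322397184000, .ofNat 0, .ofNat 0, .ofNat 174547969478392590169602313420800, .ofNat 14493023309797541100238471063142400, .ofNat 0, .ofNat 0, .ofNat 0, .ofNat 7450294466641441230288888791040000, .ofNat 0, .ofNat 0, .ofNat 241140389306904050907019109990400, .ofNat 0, .ofNat 0⟩)
    (by decide +kernel)
theorem L00177 : Good (Phi V4.P V4.D 1 (-1)) ⟨1, 0, 1, 0, 3, 7, 2, 2, 3, 2⟩ :=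
  leaf_sound (S := T4.ds_pm) T4.ok_pm (w := 168) (c := ⟨⟨.negSucc 544, .negSucc 1001, .negSucc 75, .negSucc 198, .negSucc 34, .ofNat 26⟩, ⟨.negSucc 142, .ofNat 231, .ofNat 590, .ofNat 75, .ofNat 64, .negSucc 10⟩, ⟨.ofNat 265, .ofNat 497, .ofNat 26, .ofNat 73, .ofNat 40, .negSucc 79⟩, ⟨.negSucc 2110, .negSucc 1360, .negSucc 150, .negSucc 412, .ofNat 12, .ofNat 70⟩, ⟨.negSucc 886, .ofNat 1724, .ofNat 26, .ofNat 535, .ofNat 272, .ofNat 228⟩, .ofNat 395, .ofNat 99, .ofNat 0, .ofNat 99, .ofNat 686, .ofNat 0, .ofNat 636, .negSucc 257, .negSucc 372, .ofNat 0, .ofNat 419, .ofNat 146, .ofNat 0, .ofNat 0, .ofNat 904, .ofNat 2316, .ofNat 0, .ofNat 0, .ofNat 0, .ofNat 0, .ofNat 0, .ofNat 903731634028384390237763351347200, .ofNat 0, .ofNat 0, .ofNat 0, .ofNat 802389453175701007723951187558400, .ofNat 0, .ofNat 0, .ofNat 0, .ofNat 1079489314942302491989487124480000,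 .ofNat 0, .ofNat 0⟩)
    (by decide +kernel)
theorem L00178 : Good (Phi V4.P V4.D 1 (-1)) ⟨1, 0, 1, 1, 3, 7, 2, 2, 3, 2⟩ :=
  leaf_sound (S := T4.ds_pm) T4.ok_pm (w := 168) (c := ⟨⟨.negSucc 435, .negSucc 1330, .ofNat 127, .negSucc 247, .negSucc 23, .ofNat 137⟩, ⟨.ofNat 284, .ofNat 482, .ofNat 629, .ofNat 150, .ofNat 38, .ofNat 25⟩, ⟨.ofNat 220, .ofNat 592, .negSucc 107, .ofNat 82, .ofNat 159, .negSucc 46⟩, ⟨.negSucc 2163, .negSucc 1514, .ofNat 131, .negSucc 441, .negSucc 81, .ofNat 81⟩, ⟨.negSucc 906, .ofNat 1914, .ofNat 181, .ofNat 497, .ofNat 77, .negSucc 147⟩, .ofNat 435, .ofNat 199, .ofNat 0, .ofNat 199, .ofNat 706, .ofNat 0, .ofNat 574, .negSucc 419, .negSucc 379, .ofNat 0, .ofNat 476, .ofNat 209, .ofNat 0, .ofNat 0, .ofNat 878, .ofNat 2709, .ofNat 0, .ofNat 5499655176881614951259150745600, .ofNat 0, .ofNat 0, .ofNat 0, .ofNat 543693183142784983952345844940800,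 .ofNat 16239960211523665009123201646592000, .ofNat 0, .ofNat 0, .ofNat 603644300366837306114226467635200, .ofNat 19282123467616151639035470466252800, .ofNat 0, .ofNat 0, .ofNat 870549099657541612640107757568000, .ofNat 0, .ofNat 0⟩)
    (by decide +kernel)
theorem L00179 : Good (Phi V4.P V4.D 1 (-1)) ⟨1, 0, 0, 0, 3, 7, 2, 3, 3, 2⟩ :=
  out_sound (S := T4.ds_pm) T4.ok_pm (w := 32) (j := 2) (by decide +kernel)
theorem L00180 : Good (Phi V4.P V4.D 1 (-1)) ⟨1, 0, 0, 0, 3, 7, 0, 0, 3, 3⟩ :=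
  out_sound (S := T4.ds_pm) T4.ok_pm (w := 32) (j := 2) (by decide +kernel)
theorem L00181 : Good (Phi V4.P V4.D 1 (-1)) ⟨1, 0, 1, 0, 1, 0, 1, 0, 2, 2⟩ :=
  leaf_sound (S := T4.ds_pm) T4.ok_pm (w := 144) (c := ⟨⟨.negSucc 395, .negSucc 230, .ofNat 18, .negSucc 110, .ofNat 108, .ofNat 100⟩, ⟨.negSucc 1, .ofNat 48, .ofNat 195, .ofNat 0, .negSucc 14, .negSucc 21⟩, ⟨.ofNat 185, .ofNat 141, .ofNat 9, .ofNat 18, .negSucc 177, .negSucc 136⟩, ⟨.negSucc 1242, .negSucc 222, .negSucc 14, .negSucc 358, .ofNat 302, .ofNat 240⟩, ⟨.negSucc 81, .ofNat 104, .ofNat 9, .negSucc 329, .ofNat 6, .ofNat 23⟩, .ofNat 391, .ofNat 84, .ofNat 0, .ofNat 84, .ofNat 692, .ofNat 0, .ofNat 333, .negSucc 77, .negSucc 216, .ofNat 0, .ofNat 230, .ofNat 47, .ofNat 0, .ofNat 0, .ofNat 724, .ofNat 7842, .ofNat 334465360270446695546880000, .ofNat 0, .ofNat 0, .ofNat 0, .ofNat 0, .ofNat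 0, .ofNat 0, .ofNat 0, .ofNat 0, .ofNat 0, .ofNat 0, .ofNat 0, .ofNat 17445747724397004491587584000, .ofNat 0, .ofNat 0, .ofNat 0⟩)
    (by decide +kernel)
theorem L00182 : Good (Phi V4.P V4.D 1 (-1)) ⟨1, 0, 1, 1, 2, 0, 1, 0, 2, 2⟩ :=
  leaf_sound (S := T4.ds_pm) T4.ok_pm (w := 152) (c := ⟨⟨.negSucc 386, .negSucc 206, .ofNat 110, .negSucc 7, .ofNat 98, .ofNat 71⟩, ⟨.ofNat 233, .ofNat 43, .ofNat 179, .negSucc 1, .negSucc 59, .negSucc 36⟩, ⟨.ofNat 226, .ofNat 162, .negSucc 49, .negSucc 9, .negSucc 246, .negSucc 79⟩, ⟨.negSucc 1299, .negSucc 174, .ofNat 106, .negSucc 117, .ofNat 321, .ofNat 193⟩, ⟨.negSucc 59, .ofNat 35, .negSucc 24, .negSucc 191, .ofNat 39, .ofNat 10⟩, .ofNat 441, .ofNat 202, .ofNat 0, .ofNat 202, .ofNat 705, .ofNat 0, .ofNat 297, .negSucc 164, .negSucc 228, .ofNat 0, .ofNat 248, .ofNat 88, .ofNat 0, .ofNat 0, .ofNat 722, .ofNat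 26589, .ofNat 155660951889410715929699942400, .ofNat 0, .ofNat 0, .ofNat 0, .ofNat 1132604094774931890953099673600, .ofNat 0, .ofNat 237938118305781360948255129600, .ofNat 0, .ofNat 1293307735557258856020049920000, .ofNat 0, .ofNat 0, .ofNat 0, .ofNat 3379207895601025062694551552000, .ofNat 0, .ofNat 128720339466933926553137971200, .ofNat 0⟩)
    (by decide +kernel)
theorem L00183 : Good (Phi V4.P V4.D 1 (-1)) ⟨1, 0, 1, 1, 2, 1, 1, 0, 2, 2⟩ :=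
  leaf_sound (S := T4.ds_pm) T4.ok_pm (w := 152) (c := ⟨⟨.negSucc 354, .negSucc 299, .ofNat 83, .negSucc 82, .ofNat 106, .ofNat 82⟩, ⟨.ofNat 194, .ofNat 90, .ofNat 220, .ofNat 45, .negSucc 46, .negSucc 40⟩, ⟨.ofNat 153, .ofNat 185, .negSucc 31, .ofNat 53, .negSucc 182, .negSucc 110⟩, ⟨.negSucc 1335, .negSucc 311, .ofNat 13, .negSucc 294, .ofNat 308, .ofNat 231⟩, ⟨.negSucc 337, .ofNat 150, .ofNat 26, .negSucc 113, .ofNat 59, .ofNat 25⟩, .ofNat 442, .ofNat 204, .ofNat 0, .ofNat 204, .ofNat 705, .ofNat 0, .ofNat 303, .negSucc 171, .negSucc 218, .ofNat 0, .ofNat 253, .ofNat 96, .ofNat 0, .ofNat 0, .ofNat 712, .ofNat 6171, .ofNat 0, .ofNat 0, .ofNat 0, .ofNat 0, .ofNat 0, .ofNat 0, .ofNat 0, .ofNat 0, .ofNat 0, .ofNat 0, .ofNat 0, .ofNat 0, .ofNat 1965962142769231525030605619200, .ofNat 0, .ofNat 0, .ofNat 0⟩)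
    (by decide +kernel)
theorem L00184 : Good (Phi V4.P V4.D 1 (-1)) ⟨1, 0, 0, 0, 1, 0, 1, 0, 2, 3⟩ :=
  out_sound (S := T4.ds_pm) T4.ok_pm (w := 24) (j := 1) (by decide +kernel)
theorem L00185 : Good (Phi V4.P V4.D 1 (-1)) ⟨2, 0, 1, 0, 2, 0, 2, 2, 2, 2⟩ :=
  leaf_sound (S := T4.ds_pm) T4.ok_pm (w := 160) (c := ⟨⟨.negSucc 326, .negSucc 49, .ofNat 16, .negSucc 21, .ofNat 95, .ofNat 31⟩, ⟨.ofNat 8, .ofNat 29, .ofNat 134, .negSucc 6, .negSucc 19, .negSucc 5⟩, ⟨.negSucc 12, .ofNat 32, .negSucc 4, .ofNat 11, .negSucc 104, .ofNat 1⟩, ⟨.negSucc 981, .negSucc 74, .ofNat 6, .negSucc 106, .ofNat 283, .ofNat 97⟩, ⟨.negSucc 34, .ofNat 14, .negSucc 0, .negSucc 171, .ofNat 27, .ofNat 17⟩, .ofNat 409, .ofNat 84, .ofNat 0, .ofNat 84, .ofNat 649, .ofNat 0, .ofNat 317, .negSucc 72, .negSucc 241, .ofNat 0, .ofNat 237, .ofNat 42, .ofNat 0, .ofNat 0, .ofNat 668,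 .ofNat 15190, .ofNat 1320833337735107252755995033600, .ofNat 0, .ofNat 0, .ofNat 0, .ofNat 0, .ofNat 0, .ofNat 0, .ofNat 0, .ofNat 0, .ofNat 0, .ofNat 0, .ofNat 0, .ofNat 0, .ofNat 0, .ofNat 0, .ofNat 0⟩)
    (by decide +kernel)
theorem L00186 : Good (Phi V4.P V4.D 1 (-1)) ⟨2, 0, 1, 0, 2, 0, 2, 3, 2, 2⟩ :=
  leaf_sound (S := T4.ds_pm) T4.ok_pm (w := 160) (c := ⟨⟨.negSucc 206, .negSucc 45, .ofNat 6, .negSucc 51, .ofNat 200, .ofNat 7⟩, ⟨.negSucc 3, .ofNat 28, .ofNat 93, .ofNat 6, .negSucc 41, .negSucc 1⟩, ⟨.negSucc 152, .ofNat 27, .ofNat 4, .ofNat 42, .negSucc 187, .ofNat 47⟩, ⟨.negSucc 622, .negSucc 87, .negSucc 18, .negSucc 176, .ofNat 593, .ofNat 28⟩, ⟨.negSucc 40, .ofNat 18, .ofNat 2, .negSucc 109, .ofNat 52, .ofNat 8⟩, .ofNat 412, .ofNat 91, .ofNat 0, .ofNat 91, .ofNat 648, .ofNat 0, .ofNat 347, .negSucc 86, .negSucc 326, .ofNat 0, .ofNat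 261, .ofNat 56, .ofNat 0, .ofNat 0, .ofNat 704, .ofNat 4597, .ofNat 0, .ofNat 0, .ofNat 0, .ofNat 0, .ofNat 0, .ofNat 0, .ofNat 0, .ofNat 0, .ofNat 0, .ofNat 0, .ofNat 0, .ofNat 0, .ofNat 0, .ofNat 0, .ofNat 0, .ofNat 0⟩)
    (by decide +kernel)
theorem L00187 : Good (Phi V4.P V4.D 1 (-1)) ⟨2, 1, 1, 0, 2, 0, 2, 2, 2, 2⟩ :=
  leaf_sound (S := T4.ds_pm) T4.ok_pm (w := 160) (c := ⟨⟨.negSucc 351, .negSucc 141, .ofNat 13, .negSucc 74, .ofNat 93, .ofNat 41⟩, ⟨.ofNat 28, .negSucc 1, .ofNat 156, .ofNat 9, .negSucc 21, .negSucc 11⟩, ⟨.ofNat 13, .ofNat 119, .ofNat 2, .ofNat 23, .negSucc 97, .negSucc 11⟩, ⟨.negSucc 979, .negSucc 146, .ofNat 2, .negSucc 210, .ofNat 236, .ofNat 110⟩, ⟨.negSucc 26, .ofNat 14, .negSucc 0, .negSucc 137, .ofNat 15, .ofNat 14⟩, .ofNat 379, .ofNat 101, .ofNat 0, .ofNat 101, .ofNat 727, .ofNat 0, .ofNat 336, .negSucc 92, .negSucc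 283, .ofNat 0, .ofNat 223, .ofNat 51, .ofNat 0, .ofNat 0, .ofNat 701, .ofNat 12061, .ofNat 1121207759658697584171338956800, .ofNat 0, .ofNat 0, .ofNat 0, .ofNat 0, .ofNat 0, .ofNat 0, .ofNat 0, .ofNat 0, .ofNat 0, .ofNat 0, .ofNat 0, .ofNat 0, .ofNat 0, .ofNat 0, .ofNat 0⟩)
    (by decide +kernel)
theorem L00188 : Good (Phi V4.P V4.D 1 (-1)) ⟨2, 1, 1, 0, 2, 0, 2, 3, 2, 2⟩ :=
  leaf_sound (S := T4.ds_pm) T4.ok_pm (w := 160) (c := ⟨⟨.negSucc 196, .negSucc 149, .ofNat 18, .negSucc 161, .ofNat 202, .negSucc 4⟩, ⟨.negSucc 4, .ofNat 7, .ofNat 111, .ofNat 43, .negSucc 45, .ofNat 10⟩, ⟨.negSucc 170, .ofNat 131, .negSucc 7, .ofNat 127, .negSucc 182, .ofNat 64⟩, ⟨.negSucc 578, .negSucc 214, .ofNat 21, .negSucc 412, .ofNat 514, .ofNat 0⟩, ⟨.negSucc 45, .ofNat 15, .ofNat 1, .negSucc 71, .ofNat 51, .ofNat 14⟩, .ofNat 380, .ofNat 99, .ofNat 0, .ofNat 99,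 .ofNat 726, .ofNat 0, .ofNat 363, .negSucc 97, .negSucc 382, .ofNat 0, .ofNat 240, .ofNat 62, .ofNat 0, .ofNat 0, .ofNat 738, .ofNat 2947, .ofNat 0, .ofNat 0, .ofNat 0, .ofNat 0, .ofNat 0, .ofNat 0, .ofNat 0, .ofNat 0, .ofNat 0, .ofNat 0, .ofNat 0, .ofNat 0, .ofNat 0, .ofNat 9564608200999691537933244825600, .ofNat 0, .ofNat 0⟩)
    (by decide +kernel)

end Crest.Agent.R097C4.N4pm
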