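import Crest.Agent.R097.T4

/-!
# Row 97, box cover in dimension n = 4 (generated)
-/

set_option autoImplicit false
set_option Elab.async false
set_option maxHeartbeats 0
set_option maxRecDepth 100000

open Crest.Agent.R097 Crest.Agent.R097.KA


namespace Crest.Agent.R097C4.N4pm

theorem L00189 : Good (Phi V4.P V4.D 1 (-1)) ⟨2, 0, 1, 1, 2, 0, 2, 2, 2, 2⟩ :=
  leaf_sound (S := T4.ds_pm) T4.ok_pm (w := 160) (c := ⟨⟨.negSucc 310, .negSucc 54, .negSucc 4, .negSucc 4, .ofNat 88, .ofNat 33⟩, ⟨.ofNat 164, .ofNat 30, .ofNat 140, .ofNat 0, .negSucc 47, .negSucc 17⟩, ⟨.negSucc 22, .ofNat 33, .ofNat 29, .ofNat 2, .negSucc 92, .negSucc 1⟩, ⟨.negSucc 972, .negSucc 67, .negSucc 51, .negSucc 105, .ofNat 267, .ofNat 107⟩, ⟨.negSucc 28, .ofNat 3, .negSucc 1, .negSucc 169, .ofNat 26, .ofNat 19⟩, .ofNat 893, .ofNat 757, .ofNat 0, .ofNat 757, .ofNat 1778, .ofNat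 0, .ofNat 207, .negSucc 214, .negSucc 194, .ofNat 0, .ofNat 198, .ofNat 94, .ofNat 0, .ofNat 0, .ofNat 641, .ofNat 13848, .ofNat 1231996953533596352819232768000, .ofNat 0, .ofNat 0, .ofNat 0, .ofNat 13242687750822530667702229401600, .ofNat 0, .ofNat 445482234598116112572874752000, .ofNat 0, .ofNat 0, .ofNat 0, .ofNat 561264672566836981346284339200, .ofNat 0, .ofNat 28274312819988045054770518425600, .ofNat 0, .ofNat 406861474008316120003510272000, .ofNat 0⟩)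
    (by decide +kernel)
theorem L00190 : Good (Phi V4.P V4.D 1 (-1)) ⟨2, 0, 1, 1, 2, 0, 2, 3, 2, 2⟩ :=
  leaf_sound (S := T4.ds_pm) T4.ok_pm (w := 160) (c := ⟨⟨.negSucc 210, .negSucc 44, .negSucc 57, .negSucc 35, .ofNat 189, .ofNat 17⟩, ⟨.ofNat 110, .ofNat 25, .ofNat 127, .ofNat 18, .negSucc 101, .negSucc 8⟩, ⟨.negSucc 146, .ofNat 31, .ofNat 66, .ofNat 31, .negSucc 174, .ofNat 38⟩, ⟨.negSucc 660, .negSucc 65, .negSucc 187, .negSucc 166, .ofNat 566, .ofNat 53⟩, ⟨.negSucc 27, .ofNat 11, .negSucc 12, .negSucc 113, .ofNat 47, .ofNat 5⟩, .ofNat 892, .ofNat 756, .ofNat 0, .ofNat 756, .ofNat 1777, .ofNat 0, .ofNat 223, .negSucc 231, .negSucc 248, .ofNat 0, .ofNat 213, .ofNat 119, .ofNat 0, .ofNat 0, .ofNat 652, .ofNat 4242, .ofNat 0, .ofNat 0, .ofNat 1717115746600179152820633600, .ofNat 0, .ofNat 0, .ofNat 0, .ofNat 0, .ofNat 0, .ofNat 0, .ofNat 0,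 .ofNat 490250816677099933065333964800, .ofNat 0, .ofNat 0, .ofNat 0, .ofNat 305778628072953326543988326400, .ofNat 0⟩)
    (by decide +kernel)
theorem L00191 : Good (Phi V4.P V4.D 1 (-1)) ⟨2, 1, 1, 1, 2, 0, 2, 2, 2, 2⟩ :=
  leaf_sound (S := T4.ds_pm) T4.ok_pm (w := 160) (c := ⟨⟨.negSucc 345, .negSucc 125, .ofNat 34, .negSucc 56, .ofNat 90, .ofNat 35⟩, ⟨.ofNat 181, .ofNat 14, .ofNat 147, .ofNat 26, .negSucc 43, .negSucc 16⟩, ⟨.ofNat 9, .ofNat 107, .negSucc 35, .ofNat 30, .negSucc 99, .negSucc 1⟩, ⟨.negSucc 976, .negSucc 130, .ofNat 24, .negSucc 211, .ofNat 239, .ofNat 97⟩, ⟨.negSucc 36, .ofNat 9, .ofNat 2, .negSucc 133, .ofNat 22, .ofNat 19⟩, .ofNat 818, .ofNat 749, .ofNat 0, .ofNat 749, .ofNat 1893, .ofNat 0, .ofNat 218, .negSucc 228, .negSucc 224, .ofNat 0, .ofNat 192, .ofNat 100, .ofNat 0, .ofNat 0, .ofNat 661, .ofNat 13024, .ofNat 1287957286945287387012818534400,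 .ofNat 0, .ofNat 0, .ofNat 0, .ofNat 0, .ofNat 0, .ofNat 844212795049316130859096473600, .ofNat 0, .ofNat 0, .ofNat 0, .ofNat 503683719253097178179882188800, .ofNat 0, .ofNat 0, .ofNat 0, .ofNat 190205487873939599333838028800, .ofNat 0⟩)
    (by decide +kernel)
theorem L00192 : Good (Phi V4.P V4.D 1 (-1)) ⟨2, 1, 1, 1, 2, 0, 2, 3, 2, 2⟩ :=
  leaf_sound (S := T4.ds_pm) T4.ok_pm (w := 160) (c := ⟨⟨.negSucc 214, .negSucc 118, .ofNat 63, .negSucc 142, .ofNat 203, .ofNat 11⟩, ⟨.ofNat 117, .ofNat 22, .ofNat 93, .ofNat 65, .negSucc 99, .negSucc 4⟩, ⟨.negSucc 148, .ofNat 104, .negSucc 44, .ofNat 121, .negSucc 185, .ofNat 46⟩, ⟨.negSucc 626, .negSucc 167, .ofNat 74, .negSucc 390, .ofNat 541, .ofNat 34⟩, ⟨.negSucc 36, .ofNat 5, .negSucc 16, .negSucc 76, .ofNat 47, .ofNat 15⟩, .ofNat 1663, .ofNat 2280, .ofNat 0, .ofNat 2280, .ofNat 4933, .ofNat 0, .ofNat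 168, .negSucc 292, .negSucc 280, .ofNat 0, .ofNat 188, .ofNat 135, .ofNat 0, .ofNat 0, .ofNat 673, .ofNat 3038, .ofNat 0, .ofNat 0, .ofNat 559117974525130377422438400, .ofNat 0, .ofNat 0, .ofNat 714646597145251659756915916800, .ofNat 882273089283513980121671270400, .ofNat 0, .ofNat 0, .ofNat 0, .ofNat 576967365516920578054815744000, .ofNat 0, .ofNat 0, .ofNat 5858070555630586360933593907200, .ofNat 490301615596181364813909196800, .ofNat 0⟩)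
    (by decide +kernel)
theorem L00193 : Good (Phi V4.P V4.D 1 (-1)) ⟨1, 0, 0, 0, 2, 0, 2, 2, 3, 6⟩ :=
  leaf_sound (S := T4.ds_pm) T4.ok_pm (w := 160) (c := ⟨⟨.negSucc 249, .negSucc 232, .ofNat 36, .negSucc 57, .ofNat 107, .negSucc 89⟩, ⟨.negSucc 39, .ofNat 44, .ofNat 266, .ofNat 12, .ofNat 15, .negSucc 25⟩, ⟨.negSucc 60, .ofNat 187, .negSucc 10, .ofNat 38, .negSucc 98, .ofNat 99⟩, ⟨.negSucc 737, .negSucc 351, .ofNat 7, .negSucc 181, .ofNat 239, .negSucc 122⟩, ⟨.negSucc 74, .ofNat 51, .negSucc 0, .negSucc 122, .ofNat 47, .ofNat 61⟩, .ofNat 396, .ofNat 101, .ofNat 0, .ofNat 101, .ofNat 684, .ofNat 0, .ofNat 302, .negSucc 83, .negSucc 250, .ofNat 0, .ofNat 215, .ofNat 46, .ofNat 0, .ofNat 0, .ofNat 628, .ofNat 67713, .ofNat 15130468993307468461393733222400, .ofNat 0, .ofNat 0, .ofNat 0, .ofNat 24056823964988412913286696140800, .ofNat 0, .ofNat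 0, .ofNat 0, .ofNat 15481166512008404787840575078400, .ofNat 0, .ofNat 9163595824599851514055360512000, .ofNat 0, .ofNat 20397897331174765175548516761600, .ofNat 0, .ofNat 0, .ofNat 0⟩)
    (by decide +kernel)
theorem L00194 : Good (Phi V4.P V4.D 1 (-1)) ⟨1, 0, 0, 0, 2, 0, 2, 3, 3, 6⟩ :=
  leaf_sound (S := T4.ds_pm) T4.ok_pm (w := 160) (c := ⟨⟨.negSucc 170, .negSucc 168, .ofNat 23, .negSucc 87, .ofNat 194, .ofNat 3⟩, ⟨.ofNat 20, .ofNat 42, .ofNat 154, .ofNat 8, .negSucc 67, .negSucc 2⟩, ⟨.negSucc 143, .ofNat 149, .negSucc 10, .ofNat 75, .negSucc 163, .ofNat 21⟩, ⟨.negSucc 539, .negSucc 308, .ofNat 36, .negSucc 249, .ofNat 546, .ofNat 8⟩, ⟨.negSucc 31, .ofNat 19, .negSucc 0, .negSucc 87, .ofNat 37, .ofNat 0⟩, .ofNat 401, .ofNat 107, .ofNat 0, .ofNat 107, .ofNat 676, .ofNat 0, .ofNat 317, .negSucc 92, .negSucc 333, .ofNat 0, .ofNat 231, .ofNat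 63, .ofNat 0, .ofNat 0, .ofNat 654, .ofNat 6151, .ofNat 99526973054952501623232921600, .ofNat 0, .ofNat 0, .ofNat 0, .ofNat 0, .ofNat 740492917314177189020486860800, .ofNat 0, .ofNat 0, .ofNat 1068562593714683252129660928000, .ofNat 0, .ofNat 8576229973151421978595924377600, .ofNat 0, .ofNat 0, .ofNat 942928269110141725327962931200, .ofNat 3067128586368068393273131008000, .ofNat 0⟩)
    (by decide +kernel)
theorem L00195 : Good (Phi V4.P V4.D 1 (-1)) ⟨1, 0, 0, 0, 2, 0, 2, 2, 3, 7⟩ :=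
  out_sound (S := T4.ds_pm) T4.ok_pm (w := 24) (j := 1) (by decide +kernel)
theorem L00196 : Good (Phi V4.P V4.D 1 (-1)) ⟨1, 0, 0, 0, 2, 0, 3, 6, 4, 14⟩ :=
  out_sound (S := T4.ds_pm) T4.ok_pm (w := 32) (j := 1) (by decide +kernel)
theorem L00197 : Good (Phi V4.P V4.D 1 (-1)) ⟨1, 0, 0, 0, 2, 0, 4, 14, 5, 28⟩ :=
  out_sound (S := T4.ds_pm) T4.ok_pm (w := 32) (j := 1) (by decide +kernel)
theorem L00198 : Good (Phi V4.P V4.D 1 (-1)) ⟨1, 0, 0, 0, 3, 0, 4, 15, 5, 28⟩ :=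
  out_sound (S := T4.ds_pm) T4.ok_pm (w := 32) (j := 1) (by decide +kernel)
theorem L00199 : Good (Phi V4.P V4.D 1 (-1)) ⟨1, 0, 0, 0, 3, 1, 4, 15, 5, 28⟩ :=
  out_sound (S := T4.ds_pm) T4.ok_pm (w := 40) (j := 2) (by decide +kernel)
theorem L00200 : Good (Phi V4.P V4.D 1 (-1)) ⟨1, 0, 0, 0, 2, 0, 3, 7, 5, 29⟩ :=
  out_sound (S := T4.ds_pm) T4.ok_pm (w := 32) (j := 1) (by decide +kernel)
theorem L00201 : Good (Phi V4.P V4.D 1 (-1)) ⟨1, 0, 0, 0, 2, 0, 2, 3, 4, 15⟩ :=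
  out_sound (S := T4.ds_pm) T4.ok_pm (w := 24) (j := 1) (by decide +kernel)
theorem L00202 : Good (Phi V4.P V4.D 1 (-1)) ⟨2, 0, 0, 0, 2, 1, 1, 1, 1, 1⟩ :=
  leaf_sound (S := T4.ds_pm) T4.ok_pm (w := 152) (c := ⟨⟨.negSucc 320, .negSucc 99, .ofNat 80, .negSucc 83, .ofNat 157, .ofNat 85⟩, ⟨.negSucc 26, .ofNat 48, .ofNat 324, .ofNat 5, .negSucc 23, .negSucc 11⟩, ⟨.negSucc 25, .ofNat 57, .negSucc 11, .ofNat 61, .negSucc 167, .negSucc 44⟩, ⟨.negSucc 997, .negSucc 187, .ofNat 6, .negSucc 270, .ofNat 501, .ofNat 252⟩, ⟨.negSucc 268, .ofNat 71, .negSucc 5, .negSucc 143, .ofNat 143, .ofNat 60⟩, .ofNat 410, .ofNat 93, .ofNat 0, .ofNat 93, .ofNat 652, .ofNat 0, .ofNat 336, .negSucc 86, .negSucc 235, .ofNat 0, .ofNat 249, .ofNat 54, .ofNat 0, .ofNat 0, .ofNat 694, .ofNat 2683, .ofNat 5887313368612737620587315200, .ofNat 0, .ofNat 0, .ofNat 0, .ofNat 0, .ofNat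 499547228277827437161401548800, .ofNat 0, .ofNat 0, .ofNat 40018856869948948840710144000, .ofNat 103393636650664921820823552000, .ofNat 691903826072921327114649600, .ofNat 0, .ofNat 0, .ofNat 477834491709292484977754112000, .ofNat 0, .ofNat 0⟩)
    (by decide +kernel)
theorem L00203 : Good (Phi V4.P V4.D 1 (-1)) ⟨2, 1, 0, 0, 2, 1, 1, 1, 1, 1⟩ :=
  leaf_sound (S := T4.ds_pm) T4.ok_pm (w := 152) (c := ⟨⟨.negSucc 365, .negSucc 226, .ofNat 45, .negSucc 153, .ofNat 90, .ofNat 101⟩, ⟨.ofNat 0, .ofNat 5, .ofNat 406, .ofNat 45, .negSucc 18, .negSucc 23⟩, ⟨.negSucc 18, .ofNat 164, .ofNat 52, .ofNat 94, .negSucc 83, .negSucc 63⟩, ⟨.negSucc 1067, .negSucc 276, .negSucc 34, .negSucc 394, .ofNat 258, .ofNat 261⟩, ⟨.negSucc 232, .ofNat 78, .ofNat 0, .negSucc 31, .ofNat 136, .ofNat 61⟩, .ofNat 381, .ofNat 108, .ofNat 0, .ofNat 108, .ofNat 724, .ofNat 0, .ofNat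 353, .negSucc 106, .negSucc 272, .ofNat 0, .ofNat 234, .ofNat 60, .ofNat 0, .ofNat 0, .ofNat 713, .ofNat 1479, .ofNat 7694024068125108559518105600, .ofNat 0, .ofNat 0, .ofNat 0, .ofNat 0, .ofNat 393348734183225188485483724800, .ofNat 0, .ofNat 0, .ofNat 0, .ofNat 91251748747965632382133862400, .ofNat 974920661175029407993036800, .ofNat 0, .ofNat 0, .ofNat 392714552112028133070628454400, .ofNat 0, .ofNat 0⟩)
    (by decide +kernel)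
theorem L00204 : Good (Phi V4.P V4.D 1 (-1)) ⟨1, 0, 0, 0, 1, 1, 1, 0, 2, 2⟩ :=
  leaf_sound (S := T4.ds_pm) T4.ok_pm (w := 144) (c := ⟨⟨.negSucc 464, .negSucc 351, .ofNat 91, .negSucc 444, .ofNat 88, .ofNat 126⟩, ⟨.negSucc 39, .ofNat 95, .ofNat 505, .ofNat 73, .negSucc 14, .ofNat 6⟩, ⟨.ofNat 182, .ofNat 133, .ofNat 48, .ofNat 221, .negSucc 135, .negSucc 202⟩, ⟨.negSucc 1565, .negSucc 361, .negSucc 66, .negSucc 851, .ofNat 259, .ofNat 338⟩, ⟨.negSucc 518, .ofNat 338, .ofNat 2, .negSucc 28, .ofNat 47, .ofNat 0⟩, .ofNat 188, .ofNat 17, .ofNat 0, .ofNat 17, .ofNat 236, .ofNat 0, .ofNat 482, .negSucc 73, .negSucc 375, .ofNat 0, .ofNat 400, .ofNat 151, .ofNat 0, .ofNat 0, .ofNat 853, .ofNat 3224, .ofNat 0, .ofNat 0, .ofNat 0, .ofNat 0, .ofNat 0, .ofNat 1097027929755813857565081600, .ofNat 0, .ofNat 0, .ofNat 0, .ofNat 1365079950905218512401203200,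 .ofNat 0, .ofNat 0, .ofNat 3693253653613596679077888000, .ofNat 1015426104144360161830502400, .ofNat 0, .ofNat 0⟩)
    (by decide +kernel)
theorem L00205 : Good (Phi V4.P V4.D 1 (-1)) ⟨1, 0, 0, 0, 1, 1, 1, 1, 2, 2⟩ :=
  leaf_sound (S := T4.ds_pm) T4.ok_pm (w := 144) (c := ⟨⟨.negSucc 356, .negSucc 394, .ofNat 81, .ofNat 0, .ofNat 0, .ofNat 0⟩, ⟨.negSucc 56, .ofNat 118, .ofNat 483, .ofNat 0, .ofNat 0, .ofNat 0⟩, ⟨.ofNat 0, .ofNat 233, .ofNat 60, .ofNat 0, .ofNat 0, .ofNat 0⟩, ⟨.negSucc 1238, .negSucc 513, .negSucc 64, .ofNat 0, .ofNat 0, .ofNat 0⟩, ⟨.negSucc 468, .ofNat 337, .ofNat 4, .ofNat 0, .ofNat 0, .ofNat 0⟩, .ofNat 189, .ofNat 19, .ofNat 0, .ofNat 19, .ofNat 236, .ofNat 0, .ofNat 516, .negSucc 81, .negSucc 490, .ofNat 0, .ofNat 421, .ofNat 148, .ofNat 0, .ofNat 0, .ofNat 881, .ofNat 7661, .ofNat 0, .ofNat 0, .ofNat 0, .ofNat 0, .ofNat 0,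 .ofNat 14466882376000001417202892800, .ofNat 109472748548000318285414400, .ofNat 0, .ofNat 0, .ofNat 9470560729772332668262809600, .ofNat 0, .ofNat 0, .ofNat 0, .ofNat 31220965087732029850229145600, .ofNat 71807562773599047686553600, .ofNat 0⟩)
    (by decide +kernel)
theorem L00206 : Good (Phi V4.P V4.D 1 (-1)) ⟨1, 0, 0, 0, 1, 1, 0, 0, 2, 3⟩ :=
  out_sound (S := T4.ds_pm) T4.ok_pm (w := 24) (j := 2) (by decide +kernel)
theorem L00207 : Good (Phi V4.P V4.D 1 (-1)) ⟨3, 4, 3, 0, 1, 0, 2, 0, 3, 0⟩ :=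
  leaf_sound (S := T4.ds_pm) T4.ok_pm (w := 160) (c := ⟨⟨.negSucc 384, .negSucc 227, .ofNat 11, .negSucc 108, .negSucc 20, .negSucc 352⟩, ⟨.negSucc 2, .negSucc 53, .ofNat 70, .ofNat 7, .negSucc 3, .ofNat 3⟩, ⟨.ofNat 870, .ofNat 225, .negSucc 14, .ofNat 119, .negSucc 214, .ofNat 149⟩, ⟨.negSucc 913, .negSucc 287, .ofNat 34, .negSucc 224, .negSucc 38, .negSucc 746⟩, ⟨.ofNat 22, .ofNat 71, .negSucc 18, .ofNat 352, .negSucc 174, .ofNat 10⟩, .ofNat 446, .ofNat 11, .ofNat 0, .ofNat 11, .ofNat 2022, .ofNat 0, .ofNat 548, .negSucc 11, .negSucc 557, .ofNat 0, .ofNat 199, .ofNat 21, .ofNat 0, .ofNat 0, .ofNat 995, .ofNat 8158, .ofNat 0, .ofNat 0, .ofNat 0, .ofNat 0, .ofNat 0, .ofNat 0, .ofNat 0, .ofNat 0, .ofNat 0, .ofNat 0, .ofNat 0, .ofNat 0, .ofNat 0, .ofNat 0, .ofNat 0, .ofNat 0⟩)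
    (by decide +kernel)
theorem L00208 : Good (Phi V4.P V4.D 1 (-1)) ⟨3, 4, 3, 0, 1, 0, 2, 1, 3, 0⟩ :=
  leaf_sound (S := T4.ds_pm) T4.ok_pm (w := 160) (c := ⟨⟨.negSucc 424, .negSucc 229, .negSucc 7, .negSucc 172, .ofNat 30, .negSucc 218⟩, ⟨.negSucc 3, .negSucc 52, .ofNat 64, .ofNat 6, .negSucc 4, .ofNat 5⟩, ⟨.ofNat 646, .ofNat 214, .ofNat 4, .ofNat 202, .negSucc 315, .ofNat 43⟩, ⟨.negSucc 994, .negSucc 273, .negSucc 13, .negSucc 365, .ofNat 59, .negSucc 463⟩, ⟨.ofNat 5, .ofNat 63, .ofNat 7, .ofNat 89, .negSucc 161, .negSucc 25⟩, .ofNat 450, .ofNat 37, .ofNat 0, .ofNat 37, .ofNat 2015, .ofNat 0, .ofNat 281, .negSucc 15, .negSucc 277, .ofNat 0, .ofNat 104, .ofNat 14, .ofNat 0, .ofNat 0, .ofNat 528, .ofNat 3132, .ofNat 0, .ofNat 0, .ofNat 0, .ofNat 0, .ofNat 0, .ofNat 0, .ofNat 0, .ofNat 0, .ofNat 0, .ofNat 0, .ofNat 0, .ofNat 0, .ofNat 0, .ofNat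 0, .ofNat 0, .ofNat 0⟩)
    (by decide +kernel)
theorem L00209 : Good (Phi V4.P V4.D 1 (-1)) ⟨4, 8, 3, 1, 1, 0, 1, 0, 3, 0⟩ :=
  leaf_sound (S := T4.ds_pm) T4.ok_pm (w := 160) (c := ⟨⟨.negSucc 407, .negSucc 106, .ofNat 5, .negSucc 140, .negSucc 6, .negSucc 249⟩, ⟨.ofNat 37, .negSucc 14, .ofNat 58, .ofNat 22, .negSucc 7, .ofNat 28⟩, ⟨.ofNat 855, .ofNat 121, .negSucc 25, .ofNat 173, .negSucc 508, .ofNat 80⟩, ⟨.negSucc 923, .negSucc 145, .ofNat 12, .negSucc 290, .negSucc 39, .negSucc 542⟩, ⟨.ofNat 105, .negSucc 6, .ofNat 3, .ofNat 138, .negSucc 245, .negSucc 12⟩, .ofNat 471, .ofNat 162, .ofNat 0, .ofNat 162, .ofNat 1818, .ofNat 0, .ofNat 267, .negSucc 65, .negSucc 278, .ofNat 0, .ofNat 114, .ofNat 36, .ofNat 0, .ofNat 0, .ofNat 516, .ofNat 3373, .ofNat 0, .ofNat 0, .ofNat 0, .ofNat 0, .ofNat 0, .ofNat 0, .ofNat 0, .ofNat 0, .ofNat 0, .ofNat 0,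 .ofNat 0, .ofNat 0, .ofNat 0, .ofNat 0, .ofNat 0, .ofNat 0⟩)
    (by decide +kernel)
theorem L00210 : Good (Phi V4.P V4.D 1 (-1)) ⟨4, 9, 3, 1, 1, 0, 2, 0, 3, 0⟩ :=
  leaf_sound (S := T4.ds_pm) T4.ok_pm (w := 168) (c := ⟨⟨.negSucc 460, .negSucc 115, .negSucc 0, .negSucc 138, .ofNat 9, .negSucc 382⟩, ⟨.ofNat 14, .negSucc 24, .ofNat 72, .ofNat 40, .negSucc 12, .ofNat 31⟩, ⟨.ofNat 946, .ofNat 152, .negSucc 15, .ofNat 87, .negSucc 226, .ofNat 178⟩, ⟨.negSucc 994, .negSucc 140, .ofNat 18, .negSucc 252, .ofNat 3, .negSucc 776⟩, ⟨.ofNat 4, .negSucc 3, .ofNat 3, .ofNat 438, .negSucc 156, .ofNat 37⟩, .ofNat 508, .ofNat 194, .ofNat 0, .ofNat 194, .ofNat 2633, .ofNat 0, .ofNat 535, .negSucc 113, .negSucc 559, .ofNat 0, .ofNat 207, .ofNat 60, .ofNat 0, .ofNat 0, .ofNat 981, .ofNat 9247, .ofNat 0, .ofNat 0, .ofNat 0, .ofNat 0, .ofNat 0, .ofNat 0, .ofNat 0,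 .ofNat 0, .ofNat 0, .ofNat 0, .ofNat 0, .ofNat 0, .ofNat 0, .ofNat 0, .ofNat 0, .ofNat 0⟩)
    (by decide +kernel)
theorem L00211 : Good (Phi V4.P V4.D 1 (-1)) ⟨4, 9, 3, 1, 1, 0, 2, 1, 3, 0⟩ :=
  leaf_sound (S := T4.ds_pm) T4.ok_pm (w := 168) (c := ⟨⟨.negSucc 526, .negSucc 109, .ofNat 7, .negSucc 183, .ofNat 29, .negSucc 219⟩, ⟨.ofNat 27, .negSucc 25, .ofNat 62, .ofNat 18, .negSucc 10, .ofNat 12⟩, ⟨.ofNat 735, .ofNat 89, .ofNat 4, .ofNat 226, .negSucc 314, .ofNat 46⟩, ⟨.negSucc 1126, .negSucc 114, .ofNat 9, .negSucc 366, .ofNat 45, .negSucc 447⟩, ⟨.ofNat 18, .ofNat 61, .negSucc 33, .ofNat 109, .negSucc 147, .negSucc 25⟩, .ofNat 439, .ofNat 91, .ofNat 0, .ofNat 91, .ofNat 1523, .ofNat 0, .ofNat 287, .negSucc 43, .negSucc 302, .ofNat 0, .ofNat 129, .ofNat 32, .ofNat 0, .ofNat 0, .ofNat 541, .ofNat 3896, .ofNat 0, .ofNat 0, .ofNat 0, .ofNat 0,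 .ofNat 0, .ofNat 0, .ofNat 0, .ofNat 0, .ofNat 0, .ofNat 0, .ofNat 0, .ofNat 0, .ofNat 0, .ofNat 0, .ofNat 0, .ofNat 0⟩)
    (by decide +kernel)
theorem L00212 : Good (Phi V4.P V4.D 1 (-1)) ⟨4, 8, 2, 1, 1, 0, 2, 0, 3, 0⟩ :=
  leaf_sound (S := T4.ds_pm) T4.ok_pm (w := 160) (c := ⟨⟨.negSucc 401, .negSucc 103, .negSucc 8, .negSucc 134, .ofNat 4, .negSucc 315⟩, ⟨.ofNat 72, .negSucc 12, .ofNat 129, .ofNat 48, .negSucc 11, .ofNat 66⟩, ⟨.ofNat 876, .ofNat 115, .negSucc 16, .ofNat 80, .negSucc 229, .ofNat 136⟩, ⟨.negSucc 923, .negSucc 133, .ofNat 8, .negSucc 228, .negSucc 22, .negSucc 682⟩, ⟨.ofNat 12, .ofNat 22, .ofNat 26, .ofNat 293, .negSucc 140, .ofNat 18⟩, .ofNat 350, .ofNat 94, .ofNat 0, .ofNat 94, .ofNat 700, .ofNat 0, .ofNat 274, .negSucc 77, .negSucc 345, .ofNat 0, .ofNat 172, .ofNat 78, .ofNat 0, .ofNat 0, .ofNat 538, .ofNat 4439, .ofNat 0,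 .ofNat 0, .ofNat 2074750573675871584051200, .ofNat 0, .ofNat 0, .ofNat 0, .ofNat 0, .ofNat 0, .ofNat 0, .ofNat 0, .ofNat 0, .ofNat 0, .ofNat 0, .ofNat 0, .ofNat 0, .ofNat 0⟩)
    (by decide +kernel)
theorem L00213 : Good (Phi V4.P V4.D 1 (-1)) ⟨4, 8, 2, 1, 1, 0, 2, 1, 3, 0⟩ :=
  leaf_sound (S := T4.ds_pm) T4.ok_pm (w := 160) (c := ⟨⟨.negSucc 452, .negSucc 86, .ofNat 27, .negSucc 142, .ofNat 30, .negSucc 219⟩, ⟨.ofNat 82, .negSucc 16, .ofNat 116, .ofNat 35, .negSucc 15, .ofNat 47⟩, ⟨.ofNat 660, .ofNat 85, .negSucc 62, .ofNat 162, .negSucc 290, .ofNat 59⟩, ⟨.negSucc 1033, .negSucc 85, .ofNat 59, .negSucc 298, .ofNat 31, .negSucc 481⟩, ⟨.negSucc 7, .ofNat 34, .ofNat 55, .ofNat 52, .negSucc 160, .negSucc 14⟩, .ofNat 632, .ofNat 564, .ofNat 0, .ofNat 564, .ofNat 2876, .ofNat 0, .ofNat 243, .negSucc 136, .negSucc 270, .ofNat 0, .ofNat 117, .ofNat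 63, .ofNat 0, .ofNat 0, .ofNat 521, .ofNat 1813, .ofNat 0, .ofNat 0, .ofNat 1319497641838356021043200, .ofNat 0, .ofNat 0, .ofNat 0, .ofNat 0, .ofNat 0, .ofNat 0, .ofNat 0, .ofNat 413350720200304838207078400, .ofNat 0, .ofNat 0, .ofNat 0, .ofNat 0, .ofNat 0⟩)
    (by decide +kernel)
theorem L00214 : Good (Phi V4.P V4.D 1 (-1)) ⟨4, 9, 3, 2, 1, 0, 2, 0, 3, 0⟩ :=
  leaf_sound (S := T4.ds_pm) T4.ok_pm (w := 168) (c := ⟨⟨.negSucc 471, .negSucc 134, .negSucc 31, .negSucc 141, .ofNat 11, .negSucc 349⟩, ⟨.ofNat 68, .negSucc 17, .ofNat 71, .ofNat 50, .negSucc 13, .ofNat 48⟩, ⟨.ofNat 946, .ofNat 166, .ofNat 42, .ofNat 87, .negSucc 244, .ofNat 151⟩, ⟨.negSucc 1001, .negSucc 176, .negSucc 61, .negSucc 244, .ofNat 3, .negSucc 720⟩, ⟨.ofNat 47, .ofNat 5, .negSucc 23, .ofNat 370, .negSucc 146, .negSucc 11⟩, .ofNat 567, .ofNat 385, .ofNat 0, .ofNat 385, .ofNat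 2896, .ofNat 0, .ofNat 511, .negSucc 180, .negSucc 560, .ofNat 0, .ofNat 223, .ofNat 93, .ofNat 0, .ofNat 0, .ofNat 989, .ofNat 9667, .ofNat 0, .ofNat 0, .ofNat 7815103782629268090470400, .ofNat 0, .ofNat 0, .ofNat 0, .ofNat 0, .ofNat 0, .ofNat 10503865200344209995128768770867200, .ofNat 0, .ofNat 2600660652645046871811686400, .ofNat 0, .ofNat 0, .ofNat 0, .ofNat 1773485906176742036550451200, .ofNat 0⟩)
    (by decide +kernel)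
theorem L00215 : Good (Phi V4.P V4.D 1 (-1)) ⟨4, 9, 3, 2, 1, 0, 2, 1, 3, 0⟩ :=
  leaf_sound (S := T4.ds_pm) T4.ok_pm (w := 168) (c := ⟨⟨.negSucc 516, .negSucc 129, .negSucc 10, .negSucc 177, .ofNat 27, .negSucc 219⟩, ⟨.ofNat 75, .negSucc 18, .ofNat 61, .ofNat 32, .negSucc 13, .ofNat 29⟩, ⟨.ofNat 733, .ofNat 108, .ofNat 1, .ofNat 201, .negSucc 310, .ofNat 50⟩, ⟨.negSucc 1097, .negSucc 155, .negSucc 29, .negSucc 351, .ofNat 34, .negSucc 457⟩, ⟨.ofNat 15, .ofNat 61, .negSucc 25, .ofNat 98, .negSucc 148, .negSucc 31⟩, .ofNat 538, .ofNat 313, .ofNat 0, .ofNat 313, .ofNat 2393, .ofNat 0, .ofNat 268, .negSucc 91, .negSucc 285, .ofNat 0, .ofNat 120, .ofNat 48, .ofNat 0, .ofNat 0, .ofNat 531, .ofNat 3257, .ofNat 0, .ofNat 0, .ofNat 0, .ofNat 0, .ofNat 0, .ofNat 0, .ofNat 0, .ofNat 0, .ofNat 0, .ofNat 0, .ofNat 774232184072174164770816000, .ofNat 0, .ofNat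 0, .ofNat 0, .ofNat 0, .ofNat 0⟩)
    (by decide +kernel)
theorem L00216 : Good (Phi V4.P V4.D 1 (-1)) ⟨4, 9, 3, 3, 1, 0, 1, 0, 3, 0⟩ :=
  out_sound (S := T4.ds_pm) T4.ok_pm (w := 56) (j := 3) (by decide +kernel)
theorem L00217 : Good (Phi V4.P V4.D 1 (-1)) ⟨3, 5, 2, 0, 1, 0, 2, 0, 3, 0⟩ :=
  leaf_sound (S := T4.ds_pm) T4.ok_pm (w := 160) (c := ⟨⟨.negSucc 574, .negSucc 301, .ofNat 17, .negSucc 175, .ofNat 2, .negSucc 375⟩, ⟨.negSucc 56, .negSucc 89, .ofNat 166, .ofNat 28, .negSucc 9, .negSucc 26⟩, ⟨.ofNat 1126, .ofNat 213, .negSucc 79, .ofNat 122, .negSucc 242, .ofNat 168⟩, ⟨.negSucc 1167, .negSucc 338, .ofNat 68, .negSucc 368, .ofNat 16, .negSucc 711⟩, ⟨.negSucc 46, .ofNat 108, .ofNat 9, .ofNat 539, .negSucc 148, .ofNat 32⟩, .ofNat 412, .negSucc 93, .ofNat 0, .negSucc 93, .ofNat 1409, .ofNat 0, .ofNat 280, .ofNat 45, .negSucc 324, .ofNat 0,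 .ofNat 128, .negSucc 11, .ofNat 0, .ofNat 0, .ofNat 524, .ofNat 3671, .ofNat 0, .ofNat 0, .ofNat 10677405577890058511155200, .ofNat 0, .ofNat 0, .ofNat 0, .ofNat 0, .ofNat 0, .ofNat 45967837436772290224680075264000, .ofNat 0, .ofNat 1719744673640711396209459200, .ofNat 0, .ofNat 0, .ofNat 0, .ofNat 0, .ofNat 0⟩)
    (by decide +kernel)
theorem L00218 : Good (Phi V4.P V4.D 1 (-1)) ⟨3, 5, 2, 0, 1, 0, 2, 1, 3, 0⟩ :=
  leaf_sound (S := T4.ds_pm) T4.ok_pm (w := 160) (c := ⟨⟨.negSucc 610, .negSucc 274, .ofNat 34, .negSucc 229, .ofNat 30, .negSucc 256⟩, ⟨.negSucc 49, .negSucc 108, .ofNat 147, .ofNat 6, .negSucc 8, .negSucc 20⟩, ⟨.ofNat 845, .ofNat 287, .negSucc 24, .ofNat 228, .negSucc 320, .ofNat 54⟩, ⟨.negSucc 1222, .negSucc 289, .ofNat 73, .negSucc 452, .ofNat 66, .negSucc 485⟩, ⟨.negSucc 2, .ofNat 38, .negSucc 27, .ofNat 263, .negSucc 160, .negSucc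 19⟩, .ofNat 410, .negSucc 79, .ofNat 0, .negSucc 79, .ofNat 1375, .ofNat 0, .ofNat 296, .ofNat 41, .negSucc 326, .ofNat 0, .ofNat 137, .negSucc 6, .ofNat 0, .ofNat 0, .ofNat 556, .ofNat 3489, .ofNat 0, .ofNat 0, .ofNat 0, .ofNat 0, .ofNat 0, .ofNat 0, .ofNat 1644463215771271923813580800, .ofNat 0, .ofNat 0, .ofNat 0, .ofNat 2585860826347147740630220800, .ofNat 0, .ofNat 0, .ofNat 0, .ofNat 0, .ofNat 0⟩)
    (by decide +kernel)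
theorem L00219 : Good (Phi V4.P V4.D 1 (-1)) ⟨3, 5, 2, 1, 1, 0, 1, 0, 3, 0⟩ :=
  out_sound (S := T4.ds_pm) T4.ok_pm (w := 48) (j := 3) (by decide +kernel)
theorem L00220 : Good (Phi V4.P V4.D 1 (-1)) ⟨3, 4, 1, 0, 2, 0, 1, 0, 3, 1⟩ :=
  leaf_sound (S := T4.ds_pm) T4.ok_pm (w := 160) (c := ⟨⟨.negSucc 745, .negSucc 188, .ofNat 5, .negSucc 72, .ofNat 177, .negSucc 28⟩, ⟨.ofNat 4, .negSucc 50, .ofNat 277, .ofNat 6, .negSucc 18, .negSucc 0⟩, ⟨.ofNat 1094, .ofNat 186, .negSucc 16, .ofNat 54, .negSucc 710, .negSucc 99⟩, ⟨.negSucc 1676, .negSucc 169, .ofNat 6, .negSucc 158, .ofNat 359, .negSucc 63⟩, ⟨.ofNat 60, .ofNat 31, .negSucc 1, .negSucc 29, .negSucc 131, .negSucc 19⟩, .ofNat 333, .ofNat 37, .ofNat 0, .ofNat 37, .ofNat 733, .ofNat 0, .ofNat 263, .negSucc 27, .negSucc 276, .ofNat 0, .ofNat 153, .ofNat 27, .ofNat 0, .ofNat 0, .ofNat 520, .ofNat 4078,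 .ofNat 0, .ofNat 0, .ofNat 327926267269954181450956800, .ofNat 0, .ofNat 0, .ofNat 0, .ofNat 0, .ofNat 0, .ofNat 66639278599408225253343205785600, .ofNat 0, .ofNat 35012609489862430611524812800, .ofNat 0, .ofNat 0, .ofNat 0, .ofNat 0, .ofNat 0⟩)
    (by decide +kernel)
theorem L00221 : Good (Phi V4.P V4.D 1 (-1)) ⟨3, 5, 1, 0, 2, 0, 1, 0, 3, 1⟩ :=
  leaf_sound (S := T4.ds_pm) T4.ok_pm (w := 160) (c := ⟨⟨.negSucc 967, .negSucc 271, .ofNat 14, .negSucc 98, .ofNat 212, .ofNat 5⟩, ⟨.negSucc 64, .negSucc 121, .ofNat 296, .negSucc 6, .ofNat 3, .negSucc 0⟩, ⟨.ofNat 1327, .ofNat 256, .negSucc 37, .ofNat 54, .negSucc 755, .negSucc 133⟩, ⟨.negSucc 1913, .negSucc 257, .ofNat 19, .negSucc 188, .ofNat 413, .ofNat 11⟩, ⟨.ofNat 106, .ofNat 9, .negSucc 41, .negSucc 2, .negSucc 145, .negSucc 43⟩, .ofNat 311, .negSucc 27, .ofNat 0, .negSucc 27, .ofNat 676, .ofNat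 0, .ofNat 278, .ofNat 24, .negSucc 311, .ofNat 0, .ofNat 163, .negSucc 1, .ofNat 0, .ofNat 0, .ofNat 547, .ofNat 2466, .ofNat 0, .ofNat 0, .ofNat 517697616432291659749785600, .ofNat 0, .ofNat 0, .ofNat 0, .ofNat 0, .ofNat 0, .ofNat 175714840586821510040558292172800, .ofNat 0, .ofNat 44923219135941197259236966400, .ofNat 0, .ofNat 0, .ofNat 0, .ofNat 0, .ofNat 0⟩)
    (by decide +kernel)
theorem L00222 : Good (Phi V4.P V4.D 1 (-1)) ⟨3, 4, 2, 0, 2, 1, 1, 0, 3, 1⟩ :=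
  leaf_sound (S := T4.ds_pm) T4.ok_pm (w := 168) (c := ⟨⟨.negSucc 772, .negSucc 234, .negSucc 8, .negSucc 194, .ofNat 142, .negSucc 37⟩, ⟨.negSucc 7, .negSucc 62, .ofNat 173, .ofNat 20, .negSucc 22, .ofNat 6⟩, ⟨.ofNat 1157, .ofNat 170, .negSucc 22, .ofNat 34, .negSucc 606, .negSucc 164⟩, ⟨.negSucc 1765, .negSucc 226, .negSucc 2, .negSucc 399, .ofNat 279, .negSucc 71⟩, ⟨.ofNat 191, .ofNat 95, .negSucc 16, .ofNat 175, .negSucc 406, .negSucc 100⟩, .ofNat 330, .ofNat 21, .ofNat 0, .ofNat 21, .ofNat 743, .ofNat 0, .ofNat 290, .negSucc 21, .negSucc 280, .ofNat 0, .ofNat 156, .ofNat 41, .ofNat 0, .ofNat 0, .ofNat 513, .ofNat 4079, .ofNat 0, .ofNat 0, .ofNat 0, .ofNat 0, .ofNat 0, .ofNat 0, .ofNat 0, .ofNat 0, .ofNat 0, .ofNat 0, .ofNat 0, .ofNat 0, .ofNat 0, .ofNat 0, .ofNat 0, .ofNat 0⟩)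
    (by decide +kernel)
theorem L00223 : Good (Phi V4.P V4.D 1 (-1)) ⟨3, 4, 2, 1, 2, 1, 2, 0, 3, 1⟩ :=
  leaf_sound (S := T4.ds_pm) T4.ok_pm (w := 168) (c := ⟨⟨.negSucc 783, .negSucc 238, .negSucc 9, .negSucc 168, .ofNat 79, .negSucc 58⟩, ⟨.ofNat 159, .negSucc 43, .ofNat 166, .ofNat 47, .negSucc 29, .ofNat 4⟩, ⟨.ofNat 1140, .ofNat 193, .negSucc 29, .negSucc 23, .negSucc 299, .negSucc 149⟩, ⟨.negSucc 1741, .negSucc 243, .negSucc 1, .negSucc 318, .ofNat 121, .negSucc 144⟩, ⟨.ofNat 186, .ofNat 97, .negSucc 2, .ofNat 215, .negSucc 242, .negSucc 119⟩, .ofNat 340, .ofNat 75, .ofNat 0, .ofNat 75, .ofNat 687, .ofNat 0, .ofNat 559, .negSucc 138, .negSucc 561, .ofNat 0, .ofNat 338, .ofNat 146, .ofNat 0, .ofNat 0, .ofNat 1001, .ofNat 20438, .ofNat 0, .ofNat 0, .ofNat 20381217018552564006990643200, .ofNat 0, .ofNat 0, .ofNat 0, .ofNat 0, .ofNat 0, .ofNat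 20804961690120986765556639281971200, .ofNat 0, .ofNat 847622900418402356840890368000, .ofNat 0, .ofNat 0, .ofNat 0, .ofNat 0, .ofNat 0⟩)
    (by decide +kernel)
theorem L00224 : Good (Phi V4.P V4.D 1 (-1)) ⟨3, 4, 2, 1, 2, 1, 2, 1, 3, 1⟩ :=
  leaf_sound (S := T4.ds_pm) T4.ok_pm (w := 168) (c := ⟨⟨.negSucc 689, .negSucc 238, .ofNat 6, .negSucc 223, .ofNat 71, .negSucc 36⟩, ⟨.ofNat 136, .negSucc 49, .ofNat 150, .ofNat 47, .negSucc 23, .ofNat 2⟩, ⟨.ofNat 758, .ofNat 199, .ofNat 1, .ofNat 100, .negSucc 277, .negSucc 129⟩, ⟨.negSucc 1577, .negSucc 240, .negSucc 6, .negSucc 453, .ofNat 125, .negSucc 89⟩, ⟨.negSucc 27, .ofNat 87, .negSucc 16, .ofNat 117, .negSucc 157, .negSucc 64⟩, .ofNat 481, .ofNat 222, .ofNat 0, .ofNat 222, .ofNat 1512, .ofNat 0, .ofNat 503, .negSucc 187, .negSucc 470, .ofNat 0, .ofNat 254, .ofNat 108, .ofNat 0, .ofNat 0, .ofNat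 968, .ofNat 14647, .ofNat 0, .ofNat 0, .ofNat 26633237543660182089970483200, .ofNat 0, .ofNat 0, .ofNat 0, .ofNat 2633548775902894180874059776000, .ofNat 0, .ofNat 0, .ofNat 0, .ofNat 3563096974117191788526777139200, .ofNat 0, .ofNat 0, .ofNat 0, .ofNat 0, .ofNat 0⟩)
    (by decide +kernel)
theorem L00225 : Good (Phi V4.P V4.D 1 (-1)) ⟨3, 5, 1, 0, 2, 1, 2, 0, 3, 1⟩ :=
  leaf_sound (S := T4.ds_pm) T4.ok_pm (w := 168) (c := ⟨⟨.negSucc 1012, .negSucc 280, .negSucc 24, .negSucc 205, .ofNat 58, .negSucc 4⟩, ⟨.negSucc 66, .negSucc 108, .ofNat 393, .ofNat 12, .negSucc 14, .negSucc 13⟩, ⟨.ofNat 1385, .ofNat 226, .negSucc 24, .negSucc 11, .negSucc 300, .negSucc 240⟩, ⟨.negSucc 2030, .negSucc 252, .ofNat 19, .negSucc 410, .ofNat 130, .ofNat 1⟩, ⟨.ofNat 270, .ofNat 125, .negSucc 4, .ofNat 305, .negSucc 253, .negSucc 147⟩, .ofNat 411, .negSucc 76, .ofNat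 0, .negSucc 76, .ofNat 1393, .ofNat 0, .ofNat 562, .ofNat 71, .negSucc 482, .ofNat 0, .ofNat 250, .ofNat 11, .ofNat 0, .ofNat 0, .ofNat 968, .ofNat 11910, .ofNat 0, .ofNat 0, .ofNat 25593233345442066499161292800, .ofNat 0, .ofNat 4420399339004960083678478519500800, .ofNat 0, .ofNat 1861418310260812101869528678400, .ofNat 0, .ofNat 3996948342721629661724367912960000, .ofNat 0, .ofNat 3508073979300284470842831667200, .ofNat 0, .ofNat 0, .ofNat 0, .ofNat 0, .ofNat 0⟩)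
    (by decide +kernel)
theorem L00226 : Good (Phi V4.P V4.D 1 (-1)) ⟨3, 5, 1, 0, 2, 1, 2, 1, 3, 1⟩ :=
  leaf_sound (S := T4.ds_pm) T4.ok_pm (w := 168) (c := ⟨⟨.negSucc 927, .negSucc 294, .ofNat 35, .negSucc 255, .ofNat 64, .negSucc 15⟩, ⟨.negSucc 65, .negSucc 128, .ofNat 342, .negSucc 1, .negSucc 11, .negSucc 6⟩, ⟨.ofNat 998, .ofNat 243, .negSucc 33, .ofNat 91, .negSucc 292, .negSucc 189⟩, ⟨.negSucc 1842, .negSucc 277, .ofNat 65, .negSucc 497, .ofNat 135, .negSucc 27⟩, ⟨.ofNat 47, .ofNat 93, .ofNat 15, .ofNat 194, .negSucc 185, .negSucc 77⟩, .ofNat 413, .negSucc 81, .ofNat 0, .negSucc 81, .ofNat 1434, .ofNat 0, .ofNat 567, .ofNat 79, .negSucc 521, .ofNat 0, .ofNat 251, .ofNat 3, .ofNat 0, .ofNat 0, .ofNat 1013, .ofNat 5111, .ofNat 0, .ofNat 0, .ofNat 15260033084608536019520716800, .ofNat 0, .ofNat 0, .ofNat 0, .ofNat 2923876184017998878216080588800,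 .ofNat 0, .ofNat 0, .ofNat 0, .ofNat 3483567899264398204398993408000, .ofNat 0, .ofNat 0, .ofNat 0, .ofNat 0, .ofNat 0⟩)
    (by decide +kernel)
theorem L00227 : Good (Phi V4.P V4.D 1 (-1)) ⟨3, 4, 1, 0, 2, 2, 1, 0, 4, 0⟩ :=
  leaf_sound (S := T4.ds_pm) T4.ok_pm (w := 168) (c := ⟨⟨.negSucc 303, .negSucc 177, .ofNat 46, .ofNat 77, .negSucc 230, .negSucc 383⟩, ⟨.negSucc 16, .negSucc 24, .ofNat 256, .ofNat 4, .negSucc 18, .ofNat 30⟩, ⟨.ofNat 878, .ofNat 153, .negSucc 146, .negSucc 194, .negSucc 245, .ofNat 153⟩, ⟨.negSucc 711, .negSucc 214, .ofNat 182, .ofNat 164, .negSucc 513, .negSucc 799⟩, ⟨.ofNat 367, .ofNat 206, .negSucc 43, .ofNat 304, .negSucc 571, .ofNat 62⟩, .ofNat 330, .ofNat 28, .ofNat 0, .ofNat 28, .ofNat 731, .ofNat 0, .ofNat 381, .negSucc 51, .negSucc 414, .ofNat 0, .ofNat 182, .ofNat 63, .ofNat 0, .ofNat 0, .ofNat 554, .ofNat 1615,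 .ofNat 0, .ofNat 0, .ofNat 0, .ofNat 0, .ofNat 0, .ofNat 0, .ofNat 0, .ofNat 0, .ofNat 752656677639075649542945138278400, .ofNat 0, .ofNat 513838968335443455382860595200, .ofNat 0, .ofNat 0, .ofNat 0, .ofNat 0, .ofNat 0⟩)
    (by decide +kernel)
theorem L00228 : Good (Phi V4.P V4.D 1 (-1)) ⟨3, 4, 1, 0, 3, 6, 1, 0, 4, 0⟩ :=
  leaf_sound (S := T4.ds_pm) T4.ok_pm (w := 176) (c := ⟨⟨.negSucc 21, .negSucc 126, .ofNat 27, .ofNat 106, .negSucc 397, .negSucc 665⟩, ⟨.negSucc 54, .ofNat 19, .ofNat 233, .ofNat 3, .ofNat 11, .ofNat 75⟩, ⟨.ofNat 590, .ofNat 96, .negSucc 251, .negSucc 185, .negSucc 65, .ofNat 278⟩, ⟨.negSucc 93, .negSucc 169, .ofNat 277, .ofNat 235, .negSucc 899, .negSucc 1417⟩, ⟨.ofNat 657, .ofNat 268, .negSucc 6, .ofNat 254, .negSucc 693, .ofNat 118⟩, .ofNat 332, .ofNat 43, .ofNat 0, .ofNat 43, .ofNat 716, .ofNat 0, .ofNat 452, .negSucc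 112, .negSucc 429, .ofNat 0, .ofNat 201, .ofNat 64, .ofNat 0, .ofNat 0, .ofNat 525, .ofNat 1886, .ofNat 0, .ofNat 0, .ofNat 0, .ofNat 0, .ofNat 0, .ofNat 0, .ofNat 0, .ofNat 0, .ofNat 71268917061170360710212130072166400, .ofNat 0, .ofNat 293473435580512042737984130252800, .ofNat 0, .ofNat 0, .ofNat 0, .ofNat 0, .ofNat 0⟩)
    (by decide +kernel)
theorem L00229 : Good (Phi V4.P V4.D 1 (-1)) ⟨3, 4, 2, 0, 3, 7, 2, 0, 4, 0⟩ :=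
  leaf_sound (S := T4.ds_pm) T4.ok_pm (w := 184) (c := ⟨⟨.ofNat 211, .negSucc 0, .ofNat 3, .ofNat 209, .negSucc 223, .negSucc 1079⟩, ⟨.negSucc 35, .ofNat 46, .ofNat 140, .ofNat 9, .negSucc 39, .ofNat 53⟩, ⟨.ofNat 457, .negSucc 52, .negSucc 271, .negSucc 390, .ofNat 38, .ofNat 430⟩, ⟨.ofNat 395, .ofNat 7, .ofNat 223, .ofNat 479, .negSucc 530, .negSucc 2252⟩, ⟨.ofNat 790, .ofNat 460, .ofNat 246, .ofNat 673, .negSucc 688, .ofNat 187⟩, .ofNat 448, .ofNat 75, .ofNat 0, .ofNat 75, .ofNat 1798, .ofNat 0, .ofNat 890, .negSucc 228, .negSucc 629, .ofNat 0, .ofNat 280, .ofNat 18, .ofNat 0, .ofNat 0, .ofNat 988, .ofNat 3282, .ofNat 0, .ofNat 0, .ofNat 0, .ofNat 0, .ofNat 0, .ofNat 0, .ofNat 0, .ofNat 0, .ofNat 0, .ofNat 0, .ofNat 0, .ofNat 0, .ofNat 0, .ofNat 0, .ofNat 22564043271873856134134692105420800, .ofNat 0⟩)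
    (by decide +kernel)
theorem L00230 : Good (Phi V4.P V4.D 1 (-1)) ⟨3, 4, 2, 1, 3, 7, 2, 0, 4, 0⟩ :=
  leaf_sound (S := T4.ds_pm) T4.ok_pm (w := 184) (c := ⟨⟨.ofNat 130, .ofNat 35, .ofNat 1, .ofNat 219, .negSucc 191, .negSucc 1027⟩, ⟨.ofNat 1, .ofNat 71, .ofNat 108, .ofNat 31, .negSucc 27, .ofNat 198⟩, ⟨.ofNat 296, .negSucc 144, .negSucc 244, .negSucc 510, .ofNat 88, .ofNat 385⟩, ⟨.ofNat 426, .ofNat 145, .ofNat 269, .ofNat 603, .negSucc 550, .negSucc 2145⟩, ⟨.ofNat 943, .ofNat 651, .ofNat 183, .ofNat 898, .negSucc 906, .ofNat 216⟩, .ofNat 585, .ofNat 440, .ofNat 0, .ofNat 440, .ofNat 2621, .ofNat 0, .ofNat 735, .negSucc 514, .negSucc 579, .ofNat 0, .ofNat 318, .ofNat 91, .ofNat 0, .ofNat 0, .ofNat 985, .ofNat 2495, .ofNat 0, .ofNat 0, .ofNat 0, .ofNat 0, .ofNat 0, .ofNat 0, .ofNat 30628216213141613348548385125171200, .ofNat 0, .ofNat 0, .ofNat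 0, .ofNat 22443527799404900024160532561920000, .ofNat 0, .ofNat 0, .ofNat 0, .ofNat 22707438790065496890928085650636800, .ofNat 0⟩)
    (by decide +kernel)
theorem L00231 : Good (Phi V4.P V4.D 1 (-1)) ⟨3, 4, 1, 0, 3, 7, 2, 1, 4, 0⟩ :=
  leaf_sound (S := T4.ds_pm) T4.ok_pm (w := 176) (c := ⟨⟨.negSucc 48, .negSucc 102, .ofNat 67, .ofNat 131, .negSucc 243, .negSucc 844⟩, ⟨.negSucc 54, .ofNat 9, .ofNat 250, .ofNat 18, .ofNat 5, .ofNat 66⟩, ⟨.ofNat 328, .ofNat 50, .negSucc 316, .negSucc 231, .ofNat 82, .ofNat 354⟩, ⟨.negSucc 184, .negSucc 90, .ofNat 363, .ofNat 292, .negSucc 543, .negSucc 1766⟩, ⟨.ofNat 477, .ofNat 349, .negSucc 32, .ofNat 363, .negSucc 319, .ofNat 162⟩, .ofNat 334, .ofNat 38, .ofNat 0, .ofNat 38, .ofNat 740, .ofNat 0, .ofNat 513, .negSucc 93, .negSucc 471, .ofNat 0, .ofNat 208, .ofNat 55, .ofNat 0, .ofNat 0, .ofNat 546, .ofNat 1519,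 .ofNat 0, .ofNat 0, .ofNat 0, .ofNat 0, .ofNat 0, .ofNat 0, .ofNat 0, .ofNat 0, .ofNat 0, .ofNat 0, .ofNat 2823551493487874494252870061260800, .ofNat 0, .ofNat 0, .ofNat 0, .ofNat 3988492869765671025537203778355200, .ofNat 0⟩)
    (by decide +kernel)
theorem L00232 : Good (Phi V4.P V4.D 1 (-1)) ⟨3, 5, 2, 0, 2, 2, 1, 0, 4, 0⟩ :=
  leaf_sound (S := T4.ds_pm) T4.ok_pm (w := 168) (c := ⟨⟨.negSucc 360, .negSucc 378, .negSucc 3, .ofNat 99, .negSucc 345, .negSucc 493⟩, ⟨.negSucc 10, .negSucc 45, .ofNat 167, .ofNat 35, .negSucc 67, .negSucc 28⟩, ⟨.ofNat 998, .ofNat 305, .negSucc 66, .negSucc 213, .negSucc 220, .ofNat 211⟩, ⟨.negSucc 789, .negSucc 572, .ofNat 58, .ofNat 170, .negSucc 608, .negSucc 939⟩, ⟨.ofNat 489, .ofNat 228, .negSucc 30, .ofNat 386, .negSucc 527, .ofNat 103⟩, .ofNat 412, .negSucc 94, .ofNat 0, .negSucc 94, .ofNat 1408, .ofNat 0, .ofNat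 363, .ofNat 60, .negSucc 358, .ofNat 0, .ofNat 143, .negSucc 2, .ofNat 0, .ofNat 0, .ofNat 521, .ofNat 1906, .ofNat 0, .ofNat 0, .ofNat 0, .ofNat 0, .ofNat 0, .ofNat 0, .ofNat 0, .ofNat 0, .ofNat 1375189466973592548498838703308800, .ofNat 0, .ofNat 1966210616679849627095767449600, .ofNat 0, .ofNat 0, .ofNat 0, .ofNat 0, .ofNat 0⟩)
    (by decide +kernel)
theorem L00233 : Good (Phi V4.P V4.D 1 (-1)) ⟨4, 10, 2, 0, 3, 6, 1, 0, 4, 0⟩ :=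
  leaf_sound (S := T4.ds_pm) T4.ok_pm (w := 184) (c := ⟨⟨.negSucc 25, .negSucc 70, .negSucc 12, .ofNat 161, .negSucc 551, .negSucc 895⟩, ⟨.ofNat 2, .ofNat 22, .ofNat 186, .ofNat 44, .negSucc 82, .negSucc 39⟩, ⟨.ofNat 663, .ofNat 61, .negSucc 129, .negSucc 222, .negSucc 17, .ofNat 370⟩, ⟨.negSucc 164, .negSucc 93, .ofNat 115, .ofNat 282, .negSucc 1012, .negSucc 1709⟩, ⟨.ofNat 864, .ofNat 128, .ofNat 11, .ofNat 286, .negSucc 631, .ofNat 211⟩, .ofNat 413, .negSucc 72, .ofNat 0, .negSucc 72, .ofNat 1441, .ofNat 0, .ofNat 879, .ofNat 93, .negSucc 760, .ofNat 0, .ofNat 298, .negSucc 5, .ofNat 0, .ofNat 0, .ofNat 1023, .ofNat 3806, .ofNat 0, .ofNat 0, .ofNat 0, .ofNat 0, .ofNat 0, .ofNat 0, .ofNat 0, .ofNat 0, .ofNat 0, .ofNat 0, .ofNat 1113986315509269545586889064448000, .ofNat 0, .ofNat 0, .ofNat 0, .ofNat 0, .ofNat 0⟩)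
    (by decide +kernel)
theorem L00234 : Good (Phi V4.P V4.D 1 (-1)) ⟨4, 10, 2, 0, 3, 7, 1, 0, 4, 0⟩ :=
  leaf_sound (S := T4.ds_pm) T4.ok_pm (w := 184) (c := ⟨⟨.ofNat 249, .ofNat 122, .ofNat 126, .ofNat 302, .negSucc 702, .negSucc 1279⟩, ⟨.ofNat 31, .ofNat 76, .ofNat 211, .ofNat 70, .negSucc 112, .negSucc 62⟩, ⟨.ofNat 344, .negSucc 81, .negSucc 294, .negSucc 422, .ofNat 242, .ofNat 561⟩, ⟨.ofNat 357, .ofNat 201, .ofNat 451, .ofNat 529, .negSucc 1287, .negSucc 2453⟩, ⟨.ofNat 1216, .ofNat 251, .ofNat 159, .ofNat 666, .negSucc 1045, .ofNat 190⟩, .ofNat 469, .negSucc 109, .ofNat 0, .negSucc 109, .ofNat 2453, .ofNat 0, .ofNat 482, .ofNat 50, .negSucc 377, .ofNat 0, .ofNat 135, .negSucc 14, .ofNat 0, .ofNat 0, .ofNat 515, .ofNat 458, .ofNat 0, .ofNat 0, .ofNat 0, .ofNat 0, .ofNat 0, .ofNat 0, .ofNat 0, .ofNat 0, .ofNat 0, .ofNat 0, .ofNat 423125419658435142511450757529600,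 .ofNat 0, .ofNat 0, .ofNat 0, .ofNat 311196680060473191900266260070400, .ofNat 0⟩)
    (by decide +kernel)
theorem L00235 : Good (Phi V4.P V4.D 1 (-1)) ⟨4, 11, 2, 0, 2, 3, 1, 0, 4, 0⟩ :=
  leaf_sound (S := T4.ds_pm) T4.ok_pm (w := 176) (c := ⟨⟨.ofNat 96, .negSucc 1, .ofNat 993, .ofNat 616, .negSucc 755, .negSucc 1387⟩, ⟨.ofNat 94, .ofNat 44, .ofNat 381, .ofNat 167, .negSucc 174, .negSucc 156⟩, ⟨.ofNat 586, .ofNat 67, .negSucc 833, .negSucc 744, .ofNat 210, .ofNat 643⟩, ⟨.ofNat 35, .ofNat 2, .ofNat 1927, .ofNat 1001, .negSucc 1269, .negSucc 2553⟩, ⟨.ofNat 1076, .negSucc 9, .ofNat 513, .ofNat 983, .negSucc 898, .ofNat 153⟩, .ofNat 470, .negSucc 240, .ofNat 0, .negSucc 240, .ofNat 2034, .ofNat 0, .ofNat 454, .ofNat 149, .negSucc 419, .ofNat 0, .ofNat 153, .negSucc 44, .ofNat 0, .ofNat 0, .ofNat 531, .ofNat 1103, .ofNat 0, .ofNat 0, .ofNat 16600134711598672457288908800,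 .ofNat 0, .ofNat 0, .ofNat 0, .ofNat 1234561057217097340814150860800, .ofNat 0, .ofNat 0, .ofNat 0, .ofNat 2638571542161331976325719654400, .ofNat 0, .ofNat 0, .ofNat 0, .ofNat 902986117959771473539026124800, .ofNat 0⟩)
    (by decide +kernel)
theorem L00236 : Good (Phi V4.P V4.D 1 (-1)) ⟨3, 5, 2, 1, 1, 1, 1, 0, 4, 0⟩ :=
  out_sound (S := T4.ds_pm) T4.ok_pm (w := 48) (j := 3) (by decide +kernel)
theorem L00237 : Good (Phi V4.P V4.D 1 (-1)) ⟨2, 2, 1, 0, 2, 2, 2, 0, 4, 1⟩ :=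
  leaf_sound (S := T4.ds_pm) T4.ok_pm (w := 168) (c := ⟨⟨.negSucc 520, .negSucc 637, .negSucc 25, .negSucc 195, .negSucc 55, .negSucc 322⟩, ⟨.negSucc 6, .negSucc 104, .ofNat 383, .ofNat 23, .negSucc 19, .ofNat 9⟩, ⟨.ofNat 1018, .ofNat 460, .negSucc 158, .negSucc 166, .negSucc 138, .ofNat 74⟩, ⟨.negSucc 1280, .negSucc 824, .ofNat 147, .negSucc 392, .negSucc 104, .negSucc 649⟩, ⟨.ofNat 320, .ofNat 530, .negSucc 28, .ofNat 518, .negSucc 358, .ofNat 58⟩, .ofNat 319, .negSucc 1, .ofNat 0, .negSucc 1, .ofNat 695, .ofNat 0, .ofNat 386, .negSucc 25, .negSucc 381, .ofNat 0, .ofNat 182, .ofNat 49, .ofNat 0, .ofNat 0, .ofNat 525, .ofNat 3190, .ofNat 0, .ofNat 0, .ofNat 247847938476232234829768294400, .ofNat 0, .ofNat 0, .ofNat 0, .ofNat 0, .ofNat 0, .ofNat 172508045087951742691353349324800, .ofNat 0, .ofNat 20093524355141087586504671232000, .ofNat 0, .ofNat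 0, .ofNat 0, .ofNat 0, .ofNat 0⟩)
    (by decide +kernel)
theorem L00238 : Good (Phi V4.P V4.D 1 (-1)) ⟨2, 2, 1, 0, 2, 2, 2, 1, 4, 1⟩ :=
  leaf_sound (S := T4.ds_pm) T4.ok_pm (w := 168) (c := ⟨⟨.negSucc 552, .negSucc 696, .negSucc 37, .negSucc 261, .negSucc 68, .negSucc 232⟩, ⟨.negSucc 14, .negSucc 137, .ofNat 364, .ofNat 32, .negSucc 13, .ofNat 12⟩, ⟨.ofNat 739, .ofNat 502, .negSucc 59, .ofNat 15, .negSucc 132, .ofNat 60⟩, ⟨.negSucc 1347, .negSucc 864, .negSucc 1, .negSucc 528, .negSucc 141, .negSucc 468⟩, ⟨.ofNat 54, .ofNat 482, .ofNat 3, .ofNat 409, .negSucc 247, .ofNat 17⟩, .ofNat 324, .ofNat 9, .ofNat 0, .ofNat 9, .ofNat 712, .ofNat 0, .ofNat 381, .negSucc 24, .negSucc 413, .ofNat 0, .ofNat 184, .ofNat 61, .ofNat 0, .ofNat 0, .ofNat 575, .ofNat 1535, .ofNat 0, .ofNat 0, .ofNat 125066239007853199728889036800, .ofNat 0, .ofNat 0, .ofNat 0,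 .ofNat 0, .ofNat 0, .ofNat 0, .ofNat 0, .ofNat 27092131736786016810461193830400, .ofNat 0, .ofNat 0, .ofNat 0, .ofNat 0, .ofNat 0⟩)
    (by decide +kernel)
theorem L00239 : Good (Phi V4.P V4.D 1 (-1)) ⟨3, 4, 1, 0, 3, 6, 1, 0, 4, 1⟩ :=
  leaf_sound (S := T4.ds_pm) T4.ok_pm (w := 176) (c := ⟨⟨.negSucc 545, .negSucc 348, .negSucc 122, .negSucc 155, .negSucc 156, .negSucc 531⟩, ⟨.negSucc 50, .negSucc 19, .ofNat 510, .ofNat 36, .negSucc 31, .ofNat 50⟩, ⟨.ofNat 780, .ofNat 180, .negSucc 219, .negSucc 121, .negSucc 52, .ofNat 142⟩, ⟨.negSucc 1325, .negSucc 459, .ofNat 60, .negSucc 291, .negSucc 396, .negSucc 1096⟩, ⟨.ofNat 715, .ofNat 359, .ofNat 83, .ofNat 419, .negSucc 801, .ofNat 215⟩, .ofNat 331, .ofNat 34, .ofNat 0, .ofNat 34, .ofNat 725, .ofNat 0, .ofNat 449, .negSucc 116, .negSucc 397, .ofNat 0, .ofNat 200, .ofNat 66, .ofNat 0, .ofNat 0, .ofNat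 518, .ofNat 1145, .ofNat 0, .ofNat 0, .ofNat 3196515316194532612516714905600, .ofNat 0, .ofNat 0, .ofNat 0, .ofNat 0, .ofNat 0, .ofNat 74385574365509272934366241934540800, .ofNat 0, .ofNat 381629066966893610886599855308800, .ofNat 0, .ofNat 0, .ofNat 0, .ofNat 0, .ofNat 0⟩)
    (by decide +kernel)
theorem L00240 : Good (Phi V4.P V4.D 1 (-1)) ⟨3, 4, 2, 0, 3, 7, 1, 0, 4, 1⟩ :=
  leaf_sound (S := T4.ds_pm) T4.ok_pm (w := 176) (c := ⟨⟨.negSucc 641, .negSucc 341, .negSucc 92, .negSucc 77, .negSucc 130, .negSucc 694⟩, ⟨.negSucc 34, .negSucc 29, .ofNat 318, .ofNat 27, .negSucc 28, .ofNat 25⟩, ⟨.ofNat 596, .ofNat 146, .negSucc 136, .negSucc 163, .ofNat 67, .ofNat 231⟩, ⟨.negSucc 1525, .negSucc 449, .ofNat 52, .negSucc 159, .negSucc 309, .negSucc 1460⟩, ⟨.ofNat 1080, .ofNat 530, .ofNat 164, .ofNat 574, .negSucc 1129, .ofNat 412⟩, .ofNat 331, .ofNat 15,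 .ofNat 0, .ofNat 15, .ofNat 766, .ofNat 0, .ofNat 503, .negSucc 120, .negSucc 402, .ofNat 0, .ofNat 205, .ofNat 31, .ofNat 0, .ofNat 0, .ofNat 525, .ofNat 366, .ofNat 0, .ofNat 0, .ofNat 0, .ofNat 0, .ofNat 0, .ofNat 0, .ofNat 0, .ofNat 0, .ofNat 0, .ofNat 0, .ofNat 0, .ofNat 0, .ofNat 0, .ofNat 0, .ofNat 0, .ofNat 0⟩)
    (by decide +kernel)
theorem L00241 : Good (Phi V4.P V4.D 1 (-1)) ⟨3, 4, 2, 1, 3, 7, 1, 0, 4, 1⟩ :=
  leaf_sound (S := T4.ds_pm) T4.ok_pm (w := 184) (c := ⟨⟨.negSucc 728, .negSucc 359, .negSucc 87, .negSucc 204, .ofNat 35, .negSucc 773⟩, ⟨.ofNat 183, .ofNat 42, .ofNat 310, .ofNat 111, .negSucc 121, .ofNat 184⟩, ⟨.ofNat 386, .ofNat 137, .negSucc 130, .negSucc 213, .ofNat 210, .ofNat 248⟩, ⟨.negSucc 1476, .negSucc 456, .ofNat 71, .negSucc 212, .negSucc 224, .negSucc 1543⟩, ⟨.ofNat 1280, .ofNat 486, .ofNat 143, .ofNat 1137, .negSucc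 1683, .ofNat 566⟩, .ofNat 591, .ofNat 454, .ofNat 0, .ofNat 454, .ofNat 2613, .ofNat 0, .ofNat 726, .negSucc 524, .negSucc 541, .ofNat 0, .ofNat 328, .ofNat 111, .ofNat 0, .ofNat 0, .ofNat 971, .ofNat 1987, .ofNat 0, .ofNat 0, .ofNat 12211552119514550164445881958400, .ofNat 0, .ofNat 0, .ofNat 0, .ofNat 4912414260277238523784652547686400, .ofNat 0, .ofNat 0, .ofNat 0, .ofNat 2925972493178942644833866062233600, .ofNat 0, .ofNat 0, .ofNat 0, .ofNat 2344120499395047275753247866880000, .ofNat 0⟩)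
    (by decide +kernel)
theorem L00242 : Good (Phi V4.P V4.D 1 (-1)) ⟨4, 10, 3, 0, 2, 3, 1, 0, 4, 1⟩ :=
  leaf_sound (S := T4.ds_pm) T4.ok_pm (w := 176) (c := ⟨⟨.negSucc 777, .negSucc 214, .negSucc 63, .negSucc 223, .negSucc 304, .negSucc 684⟩, ⟨.negSucc 50, .ofNat 4, .ofNat 179, .ofNat 76, .negSucc 106, .negSucc 23⟩, ⟨.ofNat 936, .ofNat 87, .negSucc 87, .negSucc 341, .ofNat 85, .ofNat 205⟩, ⟨.negSucc 1645, .negSucc 312, .negSucc 17, .negSucc 505, .negSucc 519, .negSucc 1326⟩, ⟨.ofNat 950, .ofNat 302, .ofNat 132, .ofNat 1226, .negSucc 1065, .ofNat 333⟩, .ofNat 414, .negSucc 81, .ofNat 0, .negSucc 81, .ofNat 1481, .ofNat 0, .ofNat 912, .ofNat 72, .negSucc 687, .ofNat 0, .ofNat 302, .negSucc 7, .ofNat 0, .ofNat 0, .ofNat 1010, .ofNat 2266, .ofNat 0, .ofNat 0, .ofNat 0, .ofNat 0, .ofNat 0, .ofNat 0, .ofNat 0, .ofNat 0, .ofNat 0, .ofNat 0, .ofNat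 2173233444664796079742726963200, .ofNat 0, .ofNat 0, .ofNat 0, .ofNat 0, .ofNat 0⟩)
    (by decide +kernel)
theorem L00243 : Good (Phi V4.P V4.D 1 (-1)) ⟨4, 10, 3, 1, 2, 3, 2, 0, 4, 1⟩ :=
  leaf_sound (S := T4.ds_pm) T4.ok_pm (w := 176) (c := ⟨⟨.negSucc 798, .negSucc 250, .negSucc 51, .negSucc 316, .negSucc 28, .negSucc 751⟩, ⟨.ofNat 52, .ofNat 46, .ofNat 194, .ofNat 137, .negSucc 80, .ofNat 58⟩, ⟨.ofNat 909, .ofNat 75, .negSucc 97, .negSucc 416, .ofNat 38, .ofNat 158⟩, ⟨.negSucc 1595, .negSucc 377, .ofNat 27, .negSucc 605, .negSucc 56, .negSucc 1453⟩, ⟨.ofNat 917, .ofNat 387, .ofNat 169, .ofNat 1495, .negSucc 886, .ofNat 606⟩, .ofNat 467, .ofNat 5, .ofNat 0, .ofNat 5, .ofNat 2129, .ofNat 0, .ofNat 883, .negSucc 122, .negSucc 597, .ofNat 0, .ofNat 287, .ofNat 22, .ofNat 0, .ofNat 0, .ofNat 976, .ofNat 4650, .ofNat 0, .ofNat 0, .ofNat 0, .ofNat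 0, .ofNat 0, .ofNat 0, .ofNat 0, .ofNat 0, .ofNat 0, .ofNat 0, .ofNat 25860614588823649632399654912000, .ofNat 0, .ofNat 0, .ofNat 0, .ofNat 16527609141863042944491061248000, .ofNat 0⟩)
    (by decide +kernel)
theorem L00244 : Good (Phi V4.P V4.D 1 (-1)) ⟨4, 10, 3, 1, 2, 3, 2, 1, 4, 1⟩ :=
  leaf_sound (S := T4.ds_pm) T4.ok_pm (w := 184) (c := ⟨⟨.negSucc 985, .negSucc 213, .ofNat 20, .negSucc 275, .negSucc 150, .negSucc 604⟩, ⟨.ofNat 45, .negSucc 19, .ofNat 140, .ofNat 84, .negSucc 31, .ofNat 30⟩, ⟨.ofNat 825, .ofNat 116, .negSucc 90, .negSucc 229, .ofNat 57, .ofNat 221⟩, ⟨.negSucc 1957, .negSucc 270, .ofNat 116, .negSucc 524, .negSucc 294, .negSucc 1165⟩, ⟨.ofNat 623, .ofNat 201, .negSucc 28, .ofNat 883, .negSucc 318, .ofNat 273⟩, .ofNat 415, .ofNat 9, .ofNat 0, .ofNat 9, .ofNat 1337, .ofNat 0, .ofNat 894, .negSucc 71, .negSucc 704, .ofNat 0,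 .ofNat 324, .ofNat 64, .ofNat 0, .ofNat 0, .ofNat 1019, .ofNat 4763, .ofNat 0, .ofNat 0, .ofNat 0, .ofNat 0, .ofNat 0, .ofNat 0, .ofNat 0, .ofNat 0, .ofNat 0, .ofNat 0, .ofNat 28290534990259919271706283212800, .ofNat 0, .ofNat 0, .ofNat 0, .ofNat 0, .ofNat 0⟩)
    (by decide +kernel)
theorem L00245 : Good (Phi V4.P V4.D 1 (-1)) ⟨4, 11, 2, 0, 2, 3, 1, 0, 4, 1⟩ :=
  leaf_sound (S := T4.ds_pm) T4.ok_pm (w := 176) (c := ⟨⟨.negSucc 989, .negSucc 207, .ofNat 98, .negSucc 225, .negSucc 393, .negSucc 669⟩, ⟨.negSucc 36, .ofNat 6, .ofNat 452, .ofNat 103, .negSucc 149, .negSucc 50⟩, ⟨.ofNat 1065, .ofNat 148, .negSucc 384, .negSucc 404, .ofNat 119, .ofNat 184⟩, ⟨.negSucc 1978, .negSucc 283, .ofNat 366, .negSucc 582, .negSucc 585, .negSucc 1261⟩, ⟨.ofNat 1162, .ofNat 193, .ofNat 437, .ofNat 1394, .negSucc 1054, .ofNat 344⟩, .ofNat 471, .negSucc 244, .ofNat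 0, .negSucc 244, .ofNat 2043, .ofNat 0, .ofNat 876, .ofNat 248, .negSucc 670, .ofNat 0, .ofNat 297, .negSucc 53, .ofNat 0, .ofNat 0, .ofNat 1003, .ofNat 2781, .ofNat 0, .ofNat 0, .ofNat 27955378758263636803505356800, .ofNat 0, .ofNat 115776786918965743198166103097344000, .ofNat 0, .ofNat 2355603817683420687805238476800, .ofNat 0, .ofNat 0, .ofNat 0, .ofNat 9381642268707645395408466739200, .ofNat 0, .ofNat 0, .ofNat 0, .ofNat 5601863392741910378628041932800, .ofNat 0⟩)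
    (by decide +kernel)
theorem L00246 : Good (Phi V4.P V4.D 1 (-1)) ⟨3, 5, 2, 1, 2, 3, 1, 0, 4, 1⟩ :=
  out_sound (S := T4.ds_pm) T4.ok_pm (w := 48) (j := 3) (by decide +kernel)
theorem L00247 : Good (Phi V4.P V4.D 1 (-1)) ⟨3, 4, 2, 0, 2, 2, 2, 0, 3, 1⟩ :=
  leaf_sound (S := T4.ds_pm) T4.ok_pm (w := 168) (c := ⟨⟨.negSucc 809, .negSucc 289, .negSucc 42, .negSucc 373, .ofNat 23, .negSucc 153⟩, ⟨.negSucc 16, .negSucc 68, .ofNat 245, .ofNat 44, .negSucc 9, .negSucc 6⟩, ⟨.ofNat 1117, .ofNat 162, .negSucc 49, .negSucc 131, .negSucc 150, .negSucc 174⟩, ⟨.negSucc 1874, .negSucc 305, .negSucc 6, .negSucc 746, .ofNat 31, .negSucc 340⟩, ⟨.ofNat 369, .ofNat 221, .ofNat 19, .ofNat 542, .negSucc 330, .negSucc 140⟩, .ofNat 449, .ofNat 75, .ofNat 0, .ofNat 75, .ofNat 1822, .ofNat 0, .ofNat 605, .negSucc 102, .negSucc 401, .ofNat 0, .ofNat 221, .ofNat 53, .ofNat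 0, .ofNat 0, .ofNat 908, .ofNat 8379, .ofNat 0, .ofNat 0, .ofNat 0, .ofNat 0, .ofNat 0, .ofNat 0, .ofNat 0, .ofNat 0, .ofNat 20540928941087405541714401270169600, .ofNat 0, .ofNat 0, .ofNat 0, .ofNat 0, .ofNat 0, .ofNat 0, .ofNat 0⟩)
    (by decide +kernel)
theorem L00248 : Good (Phi V4.P V4.D 1 (-1)) ⟨3, 4, 2, 1, 2, 2, 2, 0, 3, 1⟩ :=
  leaf_sound (S := T4.ds_pm) T4.ok_pm (w := 168) (c := ⟨⟨.negSucc 826, .negSucc 305, .negSucc 76, .negSucc 416, .ofNat 36, .negSucc 174⟩, ⟨.ofNat 168, .negSucc 27, .ofNat 245, .ofNat 118, .negSucc 30, .ofNat 28⟩, ⟨.ofNat 1004, .ofNat 199, .negSucc 17, .negSucc 112, .negSucc 128, .negSucc 131⟩, ⟨.negSucc 1830, .negSucc 320, .negSucc 82, .negSucc 784, .ofNat 18, .negSucc 392⟩, ⟨.ofNat 374, .ofNat 230, .ofNat 10, .ofNat 560, .negSucc 338, .negSucc 118⟩, .ofNat 487, .ofNat 236, .ofNat 0, .ofNat 236, .ofNat 1519, .ofNat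 0, .ofNat 562, .negSucc 266, .negSucc 420, .ofNat 0, .ofNat 277, .ofNat 118, .ofNat 0, .ofNat 0, .ofNat 898, .ofNat 8849, .ofNat 0, .ofNat 0, .ofNat 9188798733435505926891110400, .ofNat 0, .ofNat 0, .ofNat 0, .ofNat 0, .ofNat 0, .ofNat 21592817225327950054329964245811200, .ofNat 0, .ofNat 1391827146155923092955516108800, .ofNat 0, .ofNat 0, .ofNat 0, .ofNat 0, .ofNat 0⟩)
    (by decide +kernel)
theorem L00249 : Good (Phi V4.P V4.D 1 (-1)) ⟨3, 5, 1, 0, 2, 2, 2, 0, 3, 1⟩ :=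
  leaf_sound (S := T4.ds_pm) T4.ok_pm (w := 168) (c := ⟨⟨.negSucc 1097, .negSucc 349, .negSucc 228, .negSucc 409, .negSucc 11, .negSucc 77⟩, ⟨.negSucc 71, .negSucc 82, .ofNat 575, .ofNat 27, .negSucc 28, .negSucc 25⟩, ⟨.ofNat 1310, .ofNat 199, .negSucc 70, .negSucc 103, .negSucc 142, .negSucc 272⟩, ⟨.negSucc 2239, .negSucc 372, .negSucc 217, .negSucc 822, .ofNat 5, .negSucc 124⟩, ⟨.ofNat 581, .ofNat 268, .ofNat 119, .ofNat 669, .negSucc 341, .negSucc 210⟩, .ofNat 309, .negSucc 34, .ofNat 0, .negSucc 34, .ofNat 662, .ofNat 0, .ofNat 707, .ofNat 35, .negSucc 574, .ofNat 0, .ofNat 354, .ofNat 69, .ofNat 0, .ofNat 0, .ofNat 1000, .ofNat 9720, .ofNat 0, .ofNat 0, .ofNat 22253011805727573747852902400, .ofNat 0, .ofNat 3125034427023129801057717819801600, .ofNat 0, .ofNat 720985967329719602277620121600, .ofNat 0, .ofNat 5283378543142968434304686751744000,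 .ofNat 0, .ofNat 1844725253953925125582199193600, .ofNat 0, .ofNat 4683899209070405518461141988147200, .ofNat 0, .ofNat 562357530557518174623262310400, .ofNat 0⟩)
    (by decide +kernel)
theorem L00250 : Good (Phi V4.P V4.D 1 (-1)) ⟨2, 2, 2, 0, 3, 6, 2, 0, 4, 2⟩ :=
  leaf_sound (S := T4.ds_pm) T4.ok_pm (w := 176) (c := ⟨⟨.negSucc 1011, .negSucc 792, .negSucc 138, .negSucc 294, .ofNat 13, .negSucc 223⟩, ⟨.negSucc 33, .negSucc 95, .ofNat 359, .ofNat 50, .negSucc 42, .ofNat 9⟩, ⟨.ofNat 948, .ofNat 367, .negSucc 126, .negSucc 145, .negSucc 13, .negSucc 72⟩, ⟨.negSucc 2385, .negSucc 976, .negSucc 62, .negSucc 570, .ofNat 21, .negSucc 448⟩, ⟨.ofNat 748, .ofNat 907, .ofNat 163, .ofNat 702, .negSucc 571, .ofNat 114⟩, .ofNat 427, .negSucc 2, .ofNat 0, .negSucc 2, .ofNat 1569, .ofNat 0, .ofNat 781, .negSucc 89, .negSucc 455, .ofNat 0, .ofNat 273, .ofNat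 36, .ofNat 0, .ofNat 0, .ofNat 927, .ofNat 2602, .ofNat 0, .ofNat 0, .ofNat 296097476800377147035841095270400, .ofNat 0, .ofNat 0, .ofNat 0, .ofNat 0, .ofNat 0, .ofNat 533145309396474987069456570856243200, .ofNat 0, .ofNat 52485327602451497810148980686848000, .ofNat 0, .ofNat 0, .ofNat 0, .ofNat 0, .ofNat 0⟩)
    (by decide +kernel)
theorem L00251 : Good (Phi V4.P V4.D 1 (-1)) ⟨2, 2, 2, 0, 3, 7, 2, 0, 4, 2⟩ :=
  leaf_sound (S := T4.ds_pm) T4.ok_pm (w := 176) (c := ⟨⟨.negSucc 1286, .negSucc 790, .negSucc 220, .negSucc 194, .ofNat 32, .negSucc 220⟩, ⟨.negSucc 47, .negSucc 22, .ofNat 445, .ofNat 85, .negSucc 68, .ofNat 18⟩, ⟨.ofNat 820, .ofNat 240, .negSucc 143, .negSucc 236, .ofNat 116, .negSucc 83⟩, ⟨.negSucc 2953, .negSucc 1016, .negSucc 86, .negSucc 380, .ofNat 54, .negSucc 468⟩, ⟨.ofNat 1245, .ofNat 1375, .ofNat 465, .ofNat 1237, .negSucc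 1028, .ofNat 242⟩, .ofNat 432, .negSucc 1, .ofNat 0, .negSucc 1, .ofNat 1656, .ofNat 0, .ofNat 825, .negSucc 141, .negSucc 432, .ofNat 0, .ofNat 285, .ofNat 13, .ofNat 0, .ofNat 0, .ofNat 956, .ofNat 2070, .ofNat 0, .ofNat 0, .ofNat 418171463814726925387914490675200, .ofNat 0, .ofNat 0, .ofNat 0, .ofNat 0, .ofNat 0, .ofNat 0, .ofNat 0, .ofNat 72579423862591402868435721388032000, .ofNat 0, .ofNat 0, .ofNat 0, .ofNat 0, .ofNat 0⟩)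
    (by decide +kernel)
theorem L00252 : Good (Phi V4.P V4.D 1 (-1)) ⟨3, 4, 2, 0, 3, 6, 2, 0, 4, 3⟩ :=
  leaf_sound (S := T4.ds_pm) T4.ok_pm (w := 184) (c := ⟨⟨.negSucc 1290, .negSucc 325, .negSucc 131, .negSucc 269, .ofNat 45, .ofNat 0⟩, ⟨.negSucc 19, .negSucc 66, .ofNat 353, .ofNat 45, .negSucc 18, .negSucc 7⟩, ⟨.ofNat 861, .ofNat 119, .negSucc 76, .negSucc 132, .ofNat 43, .negSucc 150⟩, ⟨.negSucc 2946, .negSucc 322, .negSucc 81, .negSucc 527, .ofNat 76, .negSucc 6⟩, ⟨.ofNat 842, .ofNat 422, .ofNat 107, .ofNat 664, .negSucc 503, .negSucc 80⟩, .ofNat 331, .ofNat 23, .ofNat 0, .ofNat 23, .ofNat 747, .ofNat 0, .ofNat 725, .negSucc 175, .negSucc 416, .ofNat 0, .ofNat 355, .ofNat 92, .ofNat 0, .ofNat 0, .ofNat 933, .ofNat 6902, .ofNat 0, .ofNat 0, .ofNat 0, .ofNat 0, .ofNat 0, .ofNat 0, .ofNat 0, .ofNat 0, .ofNat 0, .ofNat 0, .ofNat 0, .ofNat 0,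 .ofNat 0, .ofNat 0, .ofNat 0, .ofNat 0⟩)
    (by decide +kernel)
theorem L00253 : Good (Phi V4.P V4.D 1 (-1)) ⟨3, 4, 2, 0, 3, 7, 2, 0, 4, 3⟩ :=
  leaf_sound (S := T4.ds_pm) T4.ok_pm (w := 184) (c := ⟨⟨.negSucc 1567, .negSucc 340, .negSucc 209, .negSucc 181, .ofNat 74, .ofNat 49⟩, ⟨.negSucc 19, .negSucc 26, .ofNat 450, .ofNat 52, .negSucc 44, .negSucc 16⟩, ⟨.ofNat 655, .ofNat 73, .negSucc 93, .negSucc 193, .ofNat 234, .negSucc 159⟩, ⟨.negSucc 3539, .negSucc 344, .negSucc 94, .negSucc 336, .ofNat 110, .ofNat 81⟩, ⟨.ofNat 1564, .ofNat 637, .ofNat 335, .ofNat 1256, .negSucc 1006, .negSucc 59⟩, .ofNat 446, .ofNat 65, .ofNat 0, .ofNat 65, .ofNat 1806, .ofNat 0, .ofNat 694, .negSucc 188, .negSucc 298, .ofNat 0, .ofNat 261, .ofNat 25, .ofNat 0, .ofNat 0, .ofNat 931, .ofNat 1568, .ofNat 0, .ofNat 0, .ofNat 0, .ofNat 0, .ofNat 0, .ofNat 0, .ofNat 0, .ofNat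 0, .ofNat 0, .ofNat 0, .ofNat 0, .ofNat 0, .ofNat 0, .ofNat 0, .ofNat 0, .ofNat 0⟩)
    (by decide +kernel)
theorem L00254 : Good (Phi V4.P V4.D 1 (-1)) ⟨4, 10, 3, 0, 3, 6, 2, 0, 4, 3⟩ :=
  leaf_sound (S := T4.ds_pm) T4.ok_pm (w := 192) (c := ⟨⟨.negSucc 1603, .negSucc 194, .negSucc 71, .negSucc 269, .negSucc 12, .ofNat 34⟩, ⟨.negSucc 94, .negSucc 18, .ofNat 202, .ofNat 36, .negSucc 31, .negSucc 7⟩, ⟨.ofNat 978, .ofNat 83, .negSucc 33, .negSucc 123, .ofNat 71, .negSucc 187⟩, ⟨.negSucc 3275, .negSucc 206, .negSucc 33, .negSucc 565, .ofNat 18, .ofNat 71⟩, ⟨.ofNat 1249, .ofNat 209, .ofNat 41, .ofNat 744, .negSucc 507, .negSucc 116⟩, .ofNat 311, .negSucc 30, .ofNat 0, .negSucc 30, .ofNat 681, .ofNat 0, .ofNat 789, .negSucc 50, .negSucc 478, .ofNat 0, .ofNat 369, .ofNat 64, .ofNat 0, .ofNat 0, .ofNat 959, .ofNat 7231, .ofNat 0, .ofNat 0, .ofNat 0,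 .ofNat 0, .ofNat 0, .ofNat 0, .ofNat 0, .ofNat 0, .ofNat 0, .ofNat 0, .ofNat 0, .ofNat 0, .ofNat 0, .ofNat 0, .ofNat 0, .ofNat 0⟩)
    (by decide +kernel)
theorem L00255 : Good (Phi V4.P V4.D 1 (-1)) ⟨4, 10, 3, 0, 3, 7, 2, 0, 4, 3⟩ :=
  leaf_sound (S := T4.ds_pm) T4.ok_pm (w := 192) (c := ⟨⟨.negSucc 1910, .negSucc 177, .negSucc 128, .negSucc 105, .ofNat 10, .ofNat 83⟩, ⟨.negSucc 106, .ofNat 31, .ofNat 278, .ofNat 95, .negSucc 74, .ofNat 7⟩, ⟨.ofNat 803, .ofNat 26, .negSucc 76, .negSucc 264, .ofNat 280, .negSucc 221⟩, ⟨.negSucc 3925, .negSucc 219, .negSucc 63, .negSucc 292, .ofNat 77, .ofNat 154⟩, ⟨.ofNat 2001, .ofNat 366, .ofNat 289, .ofNat 1325, .negSucc 985, .negSucc 5⟩, .ofNat 413, .negSucc 78, .ofNat 0, .negSucc 78, .ofNat 1457, .ofNat 0, .ofNat 752, .negSucc 33, .negSucc 324, .ofNat 0, .ofNat 292, .negSucc 3, .ofNat 0, .ofNat 0, .ofNat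 944, .ofNat 6051, .ofNat 0, .ofNat 0, .ofNat 0, .ofNat 0, .ofNat 0, .ofNat 0, .ofNat 0, .ofNat 0, .ofNat 0, .ofNat 0, .ofNat 10837864356998245923131703794073600, .ofNat 0, .ofNat 0, .ofNat 0, .ofNat 0, .ofNat 0⟩)
    (by decide +kernel)

end Crest.Agent.R097C4.N4pm
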