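import Crest.Agent.R097.T4

/-!
# Row 97, box cover in dimension n = 4 (generated)
-/

set_option autoImplicit false
set_option Elab.async false
set_option maxHeartbeats 0
set_option maxRecDepth 100000

open Crest.Agent.R097 Crest.Agent.R097.KA


namespace Crest.Agent.R097C4.N4pm

theorem L00256 : Good (Phi V4.P V4.D 1 (-1)) ⟨4, 11, 3, 0, 2, 3, 2, 0, 4, 3⟩ :=
  leaf_sound (S := T4.ds_pm) T4.ok_pm (w := 184) (c := ⟨⟨.negSucc 1851, .negSucc 200, .negSucc 144, .negSucc 368, .negSucc 24, .ofNat 89⟩, ⟨.negSucc 122, .ofNat 25, .ofNat 243, .ofNat 158, .negSucc 78, .negSucc 2⟩, ⟨.ofNat 1023, .ofNat 110, .negSucc 41, .negSucc 413, .ofNat 218, .negSucc 209⟩, ⟨.negSucc 3591, .negSucc 249, .negSucc 121, .negSucc 935, .ofNat 48, .ofNat 178⟩, ⟨.ofNat 1472, .ofNat 208, .ofNat 71, .ofNat 2145, .negSucc 788, .negSucc 120⟩, .ofNat 469, .negSucc 233, .ofNat 0, .negSucc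 233, .ofNat 2032, .ofNat 0, .ofNat 713, .ofNat 127, .negSucc 338, .ofNat 0, .ofNat 269, .negSucc 14, .ofNat 0, .ofNat 0, .ofNat 930, .ofNat 6892, .ofNat 0, .ofNat 0, .ofNat 167430179434201061431600742400, .ofNat 0, .ofNat 0, .ofNat 0, .ofNat 0, .ofNat 0, .ofNat 0, .ofNat 0, .ofNat 65393634461059046251555297689600, .ofNat 0, .ofNat 0, .ofNat 0, .ofNat 29430353660763475008987070464000, .ofNat 0⟩)
    (by decide +kernel)
theorem L00257 : Good (Phi V4.P V4.D 1 (-1)) ⟨4, 10, 3, 1, 3, 6, 2, 0, 4, 3⟩ :=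
  leaf_sound (S := T4.ds_pm) T4.ok_pm (w := 192) (c := ⟨⟨.negSucc 1689, .negSucc 190, .negSucc 82, .negSucc 287, .ofNat 23, .ofNat 41⟩, ⟨.ofNat 96, .negSucc 5, .ofNat 207, .ofNat 75, .negSucc 52, .negSucc 9⟩, ⟨.ofNat 948, .ofNat 73, .negSucc 56, .negSucc 166, .ofNat 108, .negSucc 191⟩, ⟨.negSucc 3328, .negSucc 198, .negSucc 49, .negSucc 551, .ofNat 42, .ofNat 75⟩, ⟨.ofNat 1285, .ofNat 224, .ofNat 108, .ofNat 813, .negSucc 576, .negSucc 101⟩, .ofNat 491, .ofNat 4, .ofNat 0, .ofNat 4, .ofNat 2741, .ofNat 0, .ofNat 696, .negSucc 81, .negSucc 326, .ofNat 0, .ofNat 247, .ofNat 33, .ofNat 0, .ofNat 0, .ofNat 899, .ofNat 7056, .ofNat 0, .ofNat 0, .ofNat 0, .ofNat 0, .ofNat 0, .ofNat 0, .ofNat 0, .ofNat 0, .ofNat 1343127905242241378590182257793486028800, .ofNat 0, .ofNat 17941155503395576181813017155993600, .ofNat 0, .ofNat 0, .ofNat 0, .ofNat 0, .ofNat 0⟩)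
    (by decide +kernel)
theorem L00258 : Good (Phi V4.P V4.D 1 (-1)) ⟨4, 10, 3, 1, 3, 7, 2, 0, 4, 3⟩ :=
  leaf_sound (S := T4.ds_pm) T4.ok_pm (w := 192) (c := ⟨⟨.negSucc 2019, .negSucc 186, .negSucc 125, .negSucc 153, .ofNat 48, .ofNat 77⟩, ⟨.ofNat 160, .ofNat 50, .ofNat 296, .ofNat 144, .negSucc 104, .ofNat 0⟩, ⟨.ofNat 721, .ofNat 16, .negSucc 157, .negSucc 301, .ofNat 322, .negSucc 209⟩, ⟨.negSucc 3974, .negSucc 209, .negSucc 29, .negSucc 293, .ofNat 82, .ofNat 157⟩, ⟨.ofNat 2232, .ofNat 446, .ofNat 481, .ofNat 1557, .negSucc 1135, .negSucc 51⟩, .ofNat 485, .ofNat 4, .ofNat 0, .ofNat 4, .ofNat 2537, .ofNat 0, .ofNat 720, .negSucc 130, .negSucc 305, .ofNat 0, .ofNat 272, .ofNat 14, .ofNat 0, .ofNat 0, .ofNat 939, .ofNat 5904, .ofNat 0, .ofNat 0, .ofNat 0, .ofNat 0, .ofNat 0, .ofNat 0, .ofNat 0, .ofNat 0, .ofNat 0, .ofNat 0, .ofNat 19502930804628814960186684027699200,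 .ofNat 0, .ofNat 0, .ofNat 0, .ofNat 0, .ofNat 0⟩)
    (by decide +kernel)
theorem L00259 : Good (Phi V4.P V4.D 1 (-1)) ⟨4, 11, 3, 1, 2, 3, 2, 0, 4, 3⟩ :=
  out_sound (S := T4.ds_pm) T4.ok_pm (w := 56) (j := 3) (by decide +kernel)
theorem L00260 : Good (Phi V4.P V4.D 1 (-1)) ⟨3, 4, 2, 1, 2, 3, 2, 0, 4, 2⟩ :=
  leaf_sound (S := T4.ds_pm) T4.ok_pm (w := 176) (c := ⟨⟨.negSucc 1192, .negSucc 352, .negSucc 230, .negSucc 650, .ofNat 188, .negSucc 261⟩, ⟨.ofNat 217, .ofNat 28, .ofNat 441, .ofNat 282, .negSucc 116, .ofNat 67⟩, ⟨.ofNat 839, .ofNat 80, .negSucc 158, .negSucc 363, .ofNat 108, .negSucc 26⟩, ⟨.negSucc 2600, .negSucc 358, .negSucc 20, .negSucc 914, .ofNat 142, .negSucc 531⟩, ⟨.ofNat 739, .ofNat 556, .ofNat 588, .ofNat 2289, .negSucc 1171, .ofNat 203⟩, .ofNat 600, .ofNat 478, .ofNat 0, .ofNat 478, .ofNat 2626, .ofNat 0, .ofNat 647, .negSucc 483,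 .negSucc 412, .ofNat 0, .ofNat 317, .ofNat 95, .ofNat 0, .ofNat 0, .ofNat 937, .ofNat 3765, .ofNat 0, .ofNat 0, .ofNat 53496775350572128947457228800, .ofNat 0, .ofNat 0, .ofNat 0, .ofNat 0, .ofNat 0, .ofNat 0, .ofNat 0, .ofNat 47150197414589196309809332224000, .ofNat 0, .ofNat 0, .ofNat 0, .ofNat 0, .ofNat 0⟩)
    (by decide +kernel)
theorem L00261 : Good (Phi V4.P V4.D 1 (-1)) ⟨4, 8, 3, 2, 2, 3, 2, 0, 4, 3⟩ :=
  leaf_sound (S := T4.ds_pm) T4.ok_pm (w := 184) (c := ⟨⟨.negSucc 1480, .negSucc 167, .negSucc 81, .negSucc 573, .ofNat 142, .ofNat 31⟩, ⟨.ofNat 287, .ofNat 0, .ofNat 202, .ofNat 253, .negSucc 75, .negSucc 3⟩, ⟨.ofNat 756, .ofNat 37, .negSucc 26, .negSucc 379, .ofNat 184, .negSucc 163⟩, ⟨.negSucc 3218, .negSucc 139, .negSucc 17, .negSucc 776, .ofNat 135, .ofNat 75⟩, ⟨.ofNat 838, .ofNat 276, .ofNat 79, .ofNat 2256, .negSucc 876, .negSucc 8⟩,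 .ofNat 637, .ofNat 573, .ofNat 0, .ofNat 573, .ofNat 2872, .ofNat 0, .ofNat 550, .negSucc 421, .negSucc 291, .ofNat 0, .ofNat 281, .ofNat 80, .ofNat 0, .ofNat 0, .ofNat 900, .ofNat 3212, .ofNat 0, .ofNat 0, .ofNat 0, .ofNat 0, .ofNat 0, .ofNat 0, .ofNat 0, .ofNat 0, .ofNat 0, .ofNat 0, .ofNat 6238511095721500558296612864000, .ofNat 0, .ofNat 0, .ofNat 0, .ofNat 0, .ofNat 0⟩)
    (by decide +kernel)
theorem L00262 : Good (Phi V4.P V4.D 1 (-1)) ⟨4, 8, 3, 3, 2, 3, 2, 0, 4, 3⟩ :=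
  leaf_sound (S := T4.ds_pm) T4.ok_pm (w := 184) (c := ⟨⟨.negSucc 1552, .negSucc 166, .negSucc 103, .negSucc 654, .ofNat 197, .ofNat 16⟩, ⟨.ofNat 485, .negSucc 9, .ofNat 200, .ofNat 339, .negSucc 131, .ofNat 10⟩, ⟨.ofNat 689, .ofNat 57, .negSucc 50, .negSucc 421, .ofNat 246, .negSucc 163⟩, ⟨.negSucc 3204, .negSucc 220, .negSucc 32, .negSucc 684, .ofNat 65, .ofNat 112⟩, ⟨.ofNat 1040, .negSucc 16, .ofNat 74, .ofNat 2740, .negSucc 1320, .ofNat 247⟩, .ofNat 867, .ofNat 1135, .ofNat 0, .ofNat 1135, .ofNat 4174, .ofNat 0, .ofNat 493, .negSucc 500, .negSucc 303, .ofNat 0, .ofNat 304, .ofNat 100, .ofNat 0, .ofNat 0, .ofNat 900, .ofNat 5530, .ofNat 0, .ofNat 0, .ofNat 0, .ofNat 0, .ofNat 0, .ofNat 0, .ofNat 21498653707406594381797392384000, .ofNat 0, .ofNat 0, .ofNat 0, .ofNat 18310326125030808201108180172800, .ofNat 0, .ofNat 0, .ofNat 0, .ofNat 0, .ofNat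 0⟩)
    (by decide +kernel)
theorem L00263 : Good (Phi V4.P V4.D 1 (-1)) ⟨4, 9, 3, 2, 2, 3, 2, 0, 4, 3⟩ :=
  leaf_sound (S := T4.ds_pm) T4.ok_pm (w := 184) (c := ⟨⟨.negSucc 1649, .negSucc 155, .negSucc 69, .negSucc 549, .ofNat 112, .ofNat 42⟩, ⟨.ofNat 273, .ofNat 28, .ofNat 254, .ofNat 282, .negSucc 104, .negSucc 1⟩, ⟨.ofNat 838, .ofNat 3, .negSucc 157, .negSucc 451, .ofNat 249, .negSucc 189⟩, ⟨.negSucc 3349, .negSucc 92, .ofNat 82, .negSucc 767, .ofNat 70, .ofNat 80⟩, ⟨.ofNat 950, .ofNat 442, .ofNat 617, .ofNat 2579, .negSucc 1099, .ofNat 19⟩, .ofNat 536, .ofNat 306, .ofNat 0, .ofNat 306, .ofNat 2365, .ofNat 0, .ofNat 629, .negSucc 326, .negSucc 313, .ofNat 0, .ofNat 283, .ofNat 66, .ofNat 0, .ofNat 0, .ofNat 911, .ofNat 4650, .ofNat 0, .ofNat 0, .ofNat 14942378528532999762975129600, .ofNat 0, .ofNat 0, .ofNat 0, .ofNat 0, .ofNat 0, .ofNat 0, .ofNat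 0, .ofNat 13956189513522716742433269350400, .ofNat 0, .ofNat 0, .ofNat 0, .ofNat 0, .ofNat 0⟩)
    (by decide +kernel)
theorem L00264 : Good (Phi V4.P V4.D 1 (-1)) ⟨4, 9, 3, 3, 2, 3, 2, 0, 4, 3⟩ :=
  out_sound (S := T4.ds_pm) T4.ok_pm (w := 56) (j := 3) (by decide +kernel)
theorem L00265 : Good (Phi V4.P V4.D 1 (-1)) ⟨3, 5, 2, 1, 2, 3, 2, 0, 3, 1⟩ :=
  out_sound (S := T4.ds_pm) T4.ok_pm (w := 48) (j := 3) (by decide +kernel)
theorem L00266 : Good (Phi V4.P V4.D 1 (-1)) ⟨3, 4, 1, 0, 2, 2, 2, 1, 3, 1⟩ :=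
  leaf_sound (S := T4.ds_pm) T4.ok_pm (w := 168) (c := ⟨⟨.negSucc 745, .negSucc 340, .negSucc 79, .negSucc 451, .negSucc 11, .negSucc 110⟩, ⟨.negSucc 30, .negSucc 67, .ofNat 455, .ofNat 57, .negSucc 12, .ofNat 2⟩, ⟨.ofNat 746, .ofNat 221, .ofNat 16, .ofNat 107, .negSucc 95, .negSucc 114⟩, ⟨.negSucc 1753, .negSucc 380, .negSucc 90, .negSucc 908, .negSucc 38, .negSucc 245⟩, ⟨.negSucc 4, .ofNat 231, .ofNat 30, .ofNat 501, .negSucc 183, .negSucc 59⟩, .ofNat 332, .ofNat 33, .ofNat 0, .ofNat 33, .ofNat 732, .ofNat 0, .ofNat 668, .negSucc 98, .negSucc 589, .ofNat 0, .ofNat 339, .ofNat 122, .ofNat 0, .ofNat 0, .ofNat 1017, .ofNat 5315, .ofNat 0, .ofNat 0, .ofNat 6293847066394599602572492800, .ofNat 0, .ofNat 0, .ofNat 0, .ofNat 0, .ofNat 0, .ofNat 0, .ofNat 0, .ofNat 1732092641619601120514644377600, .ofNat 0, .ofNat 0, .ofNat 0, .ofNat 0, .ofNat 0⟩)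
    (by decide +kernel)
theorem L00267 : Good (Phi V4.P V4.D 1 (-1)) ⟨3, 5, 1, 0, 2, 2, 2, 1, 3, 1⟩ :=
  leaf_sound (S := T4.ds_pm) T4.ok_pm (w := 168) (c := ⟨⟨.negSucc 1065, .negSucc 407, .negSucc 24, .negSucc 500, .negSucc 28, .negSucc 97⟩, ⟨.negSucc 81, .negSucc 130, .ofNat 507, .ofNat 14, .negSucc 19, .negSucc 8⟩, ⟨.ofNat 982, .ofNat 284, .negSucc 19, .ofNat 96, .negSucc 102, .negSucc 153⟩, ⟨.negSucc 2142, .negSucc 449, .ofNat 68, .negSucc 987, .negSucc 40, .negSucc 181⟩, ⟨.ofNat 208, .ofNat 240, .negSucc 24, .ofNat 620, .negSucc 215, .negSucc 74⟩, .ofNat 310, .negSucc 28, .ofNat 0, .negSucc 28, .ofNat 672, .ofNat 0, .ofNat 353, .ofNat 21, .negSucc 330, .ofNat 0, .ofNat 178, .ofNat 35, .ofNat 0, .ofNat 0, .ofNat 532, .ofNat 3245, .ofNat 0, .ofNat 0, .ofNat 10267181613428262765487718400, .ofNat 0, .ofNat 0, .ofNat 0, .ofNat 529571399773614456380483174400,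 .ofNat 0, .ofNat 0, .ofNat 0, .ofNat 855791578980549191739742617600, .ofNat 0, .ofNat 0, .ofNat 0, .ofNat 667910506479530278250977689600, .ofNat 0⟩)
    (by decide +kernel)
theorem L00268 : Good (Phi V4.P V4.D 1 (-1)) ⟨3, 4, 2, 0, 2, 3, 2, 1, 3, 1⟩ :=
  leaf_sound (S := T4.ds_pm) T4.ok_pm (w := 168) (c := ⟨⟨.negSucc 1039, .negSucc 436, .negSucc 127, .negSucc 478, .negSucc 54, .negSucc 202⟩, ⟨.negSucc 88, .negSucc 50, .ofNat 371, .ofNat 90, .negSucc 18, .ofNat 43⟩, ⟨.ofNat 741, .ofNat 184, .negSucc 13, .negSucc 76, .ofNat 114, .negSucc 51⟩, ⟨.negSucc 2481, .negSucc 503, .negSucc 71, .negSucc 935, .negSucc 141, .negSucc 398⟩, ⟨.ofNat 236, .ofNat 439, .ofNat 134, .ofNat 1314, .negSucc 341, .ofNat 194⟩, .ofNat 445, .ofNat 71, .ofNat 0, .ofNat 71, .ofNat 1765, .ofNat 0, .ofNat 722, .negSucc 141, .negSucc 450, .ofNat 0, .ofNat 256, .ofNat 56, .ofNat 0,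 .ofNat 0, .ofNat 939, .ofNat 2684, .ofNat 0, .ofNat 0, .ofNat 2666502727840659340158566400, .ofNat 0, .ofNat 0, .ofNat 0, .ofNat 0, .ofNat 0, .ofNat 0, .ofNat 0, .ofNat 0, .ofNat 0, .ofNat 0, .ofNat 0, .ofNat 0, .ofNat 0⟩)
    (by decide +kernel)
theorem L00269 : Good (Phi V4.P V4.D 1 (-1)) ⟨3, 4, 2, 1, 2, 3, 2, 1, 3, 1⟩ :=
  leaf_sound (S := T4.ds_pm) T4.ok_pm (w := 168) (c := ⟨⟨.negSucc 1129, .negSucc 401, .negSucc 130, .negSucc 548, .negSucc 73, .negSucc 240⟩, ⟨.ofNat 211, .negSucc 21, .ofNat 360, .ofNat 200, .negSucc 12, .ofNat 56⟩, ⟨.ofNat 687, .ofNat 187, .negSucc 20, .negSucc 111, .ofNat 176, .negSucc 11⟩, ⟨.negSucc 2539, .negSucc 423, .negSucc 98, .negSucc 893, .negSucc 211, .negSucc 479⟩, ⟨.ofNat 258, .ofNat 416, .negSucc 0, .ofNat 1489, .negSucc 287, .ofNat 237⟩, .ofNat 585, .ofNat 437, .ofNat 0, .ofNat 437, .ofNat 2525, .ofNat 0, .ofNat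 626, .negSucc 384, .negSucc 424, .ofNat 0, .ofNat 287, .ofNat 109, .ofNat 0, .ofNat 0, .ofNat 915, .ofNat 2282, .ofNat 0, .ofNat 0, .ofNat 7920279335989921174467379200, .ofNat 0, .ofNat 0, .ofNat 0, .ofNat 0, .ofNat 0, .ofNat 0, .ofNat 0, .ofNat 2772053508585350573176179916800, .ofNat 0, .ofNat 0, .ofNat 0, .ofNat 0, .ofNat 0⟩)
    (by decide +kernel)
theorem L00270 : Good (Phi V4.P V4.D 1 (-1)) ⟨4, 10, 3, 0, 2, 3, 2, 1, 3, 1⟩ :=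
  leaf_sound (S := T4.ds_pm) T4.ok_pm (w := 176) (c := ⟨⟨.negSucc 1483, .negSucc 265, .negSucc 47, .negSucc 409, .negSucc 149, .negSucc 180⟩, ⟨.negSucc 134, .negSucc 23, .ofNat 219, .ofNat 82, .negSucc 39, .ofNat 1⟩, ⟨.ofNat 1012, .ofNat 118, .negSucc 44, .negSucc 156, .ofNat 139, .negSucc 104⟩, ⟨.negSucc 3018, .negSucc 330, .ofNat 20, .negSucc 868, .negSucc 263, .negSucc 355⟩, ⟨.ofNat 609, .ofNat 267, .ofNat 57, .ofNat 1412, .negSucc 317, .ofNat 226⟩, .ofNat 414, .negSucc 81, .ofNat 0, .negSucc 81, .ofNat 1469, .ofNat 0, .ofNat 807, .ofNat 68, .negSucc 526, .ofNat 0, .ofNat 292, .ofNat 16, .ofNat 0, .ofNat 0, .ofNat 970, .ofNat 5066, .ofNat 0, .ofNat 0, .ofNat 4732236400570515296826163200, .ofNat 0, .ofNat 0, .ofNat 0, .ofNat 0, .ofNat 0, .ofNat 0, .ofNat 0, .ofNat 1741177906254054186621390028800, .ofNat 0, .ofNat 0, .ofNat 0, .ofNat 0, .ofNat 0⟩)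
    (by decide +kernel)
theorem L00271 : Good (Phi V4.P V4.D 1 (-1)) ⟨4, 11, 3, 0, 2, 3, 2, 1, 4, 2⟩ :=
  leaf_sound (S := T4.ds_pm) T4.ok_pm (w := 184) (c := ⟨⟨.negSucc 1691, .negSucc 352, .negSucc 50, .negSucc 425, .negSucc 180, .negSucc 145⟩, ⟨.negSucc 155, .negSucc 19, .ofNat 231, .ofNat 86, .negSucc 52, .negSucc 0⟩, ⟨.ofNat 1133, .ofNat 120, .negSucc 63, .negSucc 151, .ofNat 131, .negSucc 34⟩, ⟨.negSucc 3223, .negSucc 494, .ofNat 21, .negSucc 960, .negSucc 291, .negSucc 289⟩, ⟨.ofNat 824, .ofNat 372, .ofNat 40, .ofNat 1481, .negSucc 294, .ofNat 171⟩, .ofNat 471, .negSucc 243, .ofNat 0, .negSucc 243, .ofNat 2036, .ofNat 0, .ofNat 799, .ofNat 231, .negSucc 564, .ofNat 0, .ofNat 290, .negSucc 25, .ofNat 0, .ofNat 0, .ofNat 985, .ofNat 6965, .ofNat 0, .ofNat 0, .ofNat 504191024095963290344305459200, .ofNat 0, .ofNat 0, .ofNat 0, .ofNat 45696455189555425896729201868800,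 .ofNat 0, .ofNat 0, .ofNat 0, .ofNat 82102900587524342544158687232000, .ofNat 0, .ofNat 0, .ofNat 0, .ofNat 38697450268353474705705507225600, .ofNat 0⟩)
    (by decide +kernel)
theorem L00272 : Good (Phi V4.P V4.D 1 (-1)) ⟨4, 11, 3, 0, 2, 3, 2, 1, 4, 3⟩ :=
  leaf_sound (S := T4.ds_pm) T4.ok_pm (w := 184) (c := ⟨⟨.negSucc 1846, .negSucc 256, .negSucc 68, .negSucc 397, .negSucc 197, .ofNat 43⟩, ⟨.negSucc 179, .negSucc 12, .ofNat 247, .ofNat 118, .negSucc 45, .ofNat 10⟩, ⟨.ofNat 1014, .ofNat 161, .negSucc 10, .negSucc 122, .ofNat 225, .negSucc 87⟩, ⟨.negSucc 3504, .negSucc 314, .negSucc 21, .negSucc 940, .negSucc 335, .ofNat 77⟩, ⟨.ofNat 793, .ofNat 306, .ofNat 180, .ofNat 1766, .negSucc 227, .ofNat 34⟩, .ofNat 471, .negSucc 240, .ofNat 0, .negSucc 240, .ofNat 2053, .ofNat 0, .ofNat 723, .ofNat 185, .negSucc 431, .ofNat 0, .ofNat 273, .negSucc 11, .ofNat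 0, .ofNat 0, .ofNat 941, .ofNat 6294, .ofNat 0, .ofNat 0, .ofNat 278332332089988902459277312000, .ofNat 0, .ofNat 0, .ofNat 0, .ofNat 45979126776976657080764281651200, .ofNat 0, .ofNat 0, .ofNat 0, .ofNat 75158485945967726513363091456000, .ofNat 0, .ofNat 0, .ofNat 0, .ofNat 42569726523653974640004012441600, .ofNat 0⟩)
    (by decide +kernel)
theorem L00273 : Good (Phi V4.P V4.D 1 (-1)) ⟨3, 5, 3, 1, 2, 3, 2, 1, 3, 1⟩ :=
  leaf_sound (S := T4.ds_pm) T4.ok_pm (w := 176) (c := ⟨⟨.negSucc 1506, .negSucc 457, .negSucc 106, .negSucc 479, .negSucc 141, .negSucc 193⟩, ⟨.ofNat 36, .ofNat 4, .ofNat 216, .ofNat 143, .negSucc 28, .ofNat 11⟩, ⟨.ofNat 944, .ofNat 127, .negSucc 12, .negSucc 135, .ofNat 177, .negSucc 68⟩, ⟨.negSucc 2984, .negSucc 489, .negSucc 88, .negSucc 929, .negSucc 273, .negSucc 376⟩, ⟨.ofNat 614, .ofNat 839, .ofNat 35, .ofNat 1559, .negSucc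 312, .ofNat 130⟩, .ofNat 494, .ofNat 3, .ofNat 0, .ofNat 3, .ofNat 2808, .ofNat 0, .ofNat 762, .negSucc 62, .negSucc 461, .ofNat 0, .ofNat 262, .ofNat 39, .ofNat 0, .ofNat 0, .ofNat 940, .ofNat 4045, .ofNat 0, .ofNat 0, .ofNat 24271761262299054539695718400, .ofNat 0, .ofNat 0, .ofNat 0, .ofNat 5353636240530757376747451187200, .ofNat 0, .ofNat 0, .ofNat 0, .ofNat 12941520287549686250263805952000, .ofNat 0, .ofNat 0, .ofNat 0, .ofNat 4321986775066393112824145510400, .ofNat 0⟩)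
    (by decide +kernel)
theorem L00274 : Good (Phi V4.P V4.D 1 (-1)) ⟨3, 5, 2, 1, 2, 3, 2, 1, 3, 1⟩ :=
  out_sound (S := T4.ds_pm) T4.ok_pm (w := 48) (j := 3) (by decide +kernel)
theorem L00275 : Good (Phi V4.P V4.D 1 (-1)) ⟨3, 4, 1, 0, 1, 0, 2, 2, 2, 0⟩ :=
  leaf_sound (S := T4.ds_pm) T4.ok_pm (w := 152) (c := ⟨⟨.negSucc 395, .negSucc 220, .ofNat 12, .negSucc 365, .ofNat 113, .negSucc 137⟩, ⟨.negSucc 19, .negSucc 51, .ofNat 229, .ofNat 34, .negSucc 11, .ofNat 16⟩, ⟨.ofNat 268, .ofNat 200, .ofNat 15, .ofNat 343, .negSucc 323, .negSucc 33⟩, ⟨.negSucc 933, .negSucc 245, .negSucc 21, .negSucc 775, .ofNat 230, .negSucc 291⟩, ⟨.negSucc 110, .ofNat 60, .negSucc 5, .negSucc 76, .negSucc 81, .ofNat 45⟩, .ofNat 334, .ofNat 43, .ofNat 0, .ofNat 43, .ofNat 727, .ofNat 0, .ofNat 305, .negSucc 38, .negSucc 354, .ofNat 0, .ofNat 174, .ofNat 45, .ofNat 0, .ofNat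 0, .ofNat 584, .ofNat 1250, .ofNat 0, .ofNat 0, .ofNat 0, .ofNat 0, .ofNat 0, .ofNat 0, .ofNat 0, .ofNat 0, .ofNat 0, .ofNat 0, .ofNat 0, .ofNat 0, .ofNat 0, .ofNat 0, .ofNat 0, .ofNat 0⟩)
    (by decide +kernel)
theorem L00276 : Good (Phi V4.P V4.D 1 (-1)) ⟨3, 5, 1, 0, 1, 0, 2, 2, 2, 0⟩ :=
  leaf_sound (S := T4.ds_pm) T4.ok_pm (w := 152) (c := ⟨⟨.negSucc 500, .negSucc 268, .ofNat 17, .negSucc 468, .ofNat 70, .negSucc 211⟩, ⟨.negSucc 45, .negSucc 116, .ofNat 279, .negSucc 27, .negSucc 0, .negSucc 10⟩, ⟨.ofNat 421, .ofNat 258, .ofNat 80, .ofNat 386, .negSucc 321, .negSucc 14⟩, ⟨.negSucc 1010, .negSucc 270, .negSucc 7, .negSucc 885, .ofNat 139, .negSucc 398⟩, ⟨.negSucc 97, .ofNat 84, .negSucc 8, .ofNat 60, .negSucc 101, .ofNat 27⟩, .ofNat 409, .negSucc 82, .ofNat 0, .negSucc 82, .ofNat 1345, .ofNat 0, .ofNat 305, .ofNat 45, .negSucc 341, .ofNat 0, .ofNat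 143, .negSucc 9, .ofNat 0, .ofNat 0, .ofNat 575, .ofNat 1482, .ofNat 0, .ofNat 0, .ofNat 0, .ofNat 0, .ofNat 0, .ofNat 0, .ofNat 35482843353915410920243200, .ofNat 0, .ofNat 0, .ofNat 0, .ofNat 104333435232865719209164800, .ofNat 0, .ofNat 0, .ofNat 0, .ofNat 80335073392980959585894400, .ofNat 0⟩)
    (by decide +kernel)
theorem L00277 : Good (Phi V4.P V4.D 1 (-1)) ⟨3, 4, 2, 0, 1, 0, 2, 3, 3, 0⟩ :=
  leaf_sound (S := T4.ds_pm) T4.ok_pm (w := 160) (c := ⟨⟨.negSucc 230, .negSucc 202, .negSucc 27, .negSucc 438, .ofNat 266, .negSucc 106⟩, ⟨.negSucc 12, .negSucc 39, .ofNat 79, .ofNat 9, .negSucc 9, .ofNat 20⟩, ⟨.negSucc 259, .ofNat 180, .ofNat 29, .ofNat 528, .negSucc 471, .ofNat 132⟩, ⟨.negSucc 554, .negSucc 273, .negSucc 94, .negSucc 928, .ofNat 561, .negSucc 220⟩, ⟨.negSucc 216, .ofNat 56, .ofNat 11, .negSucc 172, .ofNat 47, .ofNat 127⟩, .ofNat 446,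 .ofNat 53, .ofNat 0, .ofNat 53, .ofNat 1870, .ofNat 0, .ofNat 338, .negSucc 25, .negSucc 422, .ofNat 0, .ofNat 132, .ofNat 18, .ofNat 0, .ofNat 0, .ofNat 659, .ofNat 900, .ofNat 0, .ofNat 0, .ofNat 0, .ofNat 0, .ofNat 0, .ofNat 0, .ofNat 0, .ofNat 0, .ofNat 0, .ofNat 0, .ofNat 0, .ofNat 0, .ofNat 0, .ofNat 0, .ofNat 0, .ofNat 0⟩)
    (by decide +kernel)
theorem L00278 : Good (Phi V4.P V4.D 1 (-1)) ⟨3, 4, 2, 1, 1, 0, 2, 3, 3, 0⟩ :=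
  leaf_sound (S := T4.ds_pm) T4.ok_pm (w := 160) (c := ⟨⟨.negSucc 263, .negSucc 155, .negSucc 28, .negSucc 502, .ofNat 277, .negSucc 51⟩, ⟨.ofNat 46, .negSucc 29, .ofNat 73, .ofNat 77, .negSucc 42, .ofNat 17⟩, ⟨.negSucc 269, .ofNat 163, .ofNat 69, .ofNat 651, .negSucc 474, .ofNat 91⟩, ⟨.negSucc 648, .negSucc 170, .negSucc 75, .negSucc 1097, .ofNat 591, .negSucc 104⟩, ⟨.negSucc 161, .ofNat 19, .ofNat 10, .negSucc 182, .ofNat 50, .ofNat 92⟩, .ofNat 482, .ofNat 223, .ofNat 0, .ofNat 223, .ofNat 1515, .ofNat 0, .ofNat 317, .negSucc 113, .negSucc 426, .ofNat 0, .ofNat 162, .ofNat 75, .ofNat 0, .ofNat 0, .ofNat 660, .ofNat 760, .ofNat 0, .ofNat 0, .ofNat 0, .ofNat 0, .ofNat 0, .ofNat 0, .ofNat 0, .ofNat 0, .ofNat 0, .ofNat 0, .ofNat 0, .ofNat 0, .ofNat 0, .ofNat 0, .ofNat 0, .ofNat 0⟩)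
    (by decide +kernel)
theorem L00279 : Good (Phi V4.P V4.D 1 (-1)) ⟨4, 8, 2, 0, 1, 0, 2, 3, 3, 1⟩ :=
  leaf_sound (S := T4.ds_pm) T4.ok_pm (w := 160) (c := ⟨⟨.negSucc 347, .negSucc 95, .negSucc 18, .negSucc 547, .ofNat 325, .ofNat 12⟩, ⟨.negSucc 16, .negSucc 11, .ofNat 81, .ofNat 36, .negSucc 19, .ofNat 14⟩, ⟨.negSucc 125, .ofNat 85, .ofNat 27, .ofNat 519, .negSucc 414, .ofNat 28⟩, ⟨.negSucc 789, .negSucc 138, .negSucc 56, .negSucc 1197, .ofNat 715, .ofNat 23⟩, ⟨.negSucc 97, .ofNat 16, .ofNat 1, .negSucc 116, .ofNat 75, .ofNat 20⟩, .ofNat 466, .ofNat 126, .ofNat 0, .ofNat 126, .ofNat 1950, .ofNat 0, .ofNat 282, .negSucc 51, .negSucc 332, .ofNat 0, .ofNat 113, .ofNat 25, .ofNat 0, .ofNat 0, .ofNat 556, .ofNat 982, .ofNat 0, .ofNat 0, .ofNat 0, .ofNat 0, .ofNat 0, .ofNat 0, .ofNat 0, .ofNat 0, .ofNat 0, .ofNat 0, .ofNat 0, .ofNat 0, .ofNat 0, .ofNat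 0, .ofNat 0, .ofNat 0⟩)
    (by decide +kernel)
theorem L00280 : Good (Phi V4.P V4.D 1 (-1)) ⟨4, 9, 3, 0, 1, 0, 2, 3, 3, 1⟩ :=
  leaf_sound (S := T4.ds_pm) T4.ok_pm (w := 168) (c := ⟨⟨.negSucc 364, .negSucc 83, .negSucc 19, .negSucc 620, .ofNat 293, .negSucc 24⟩, ⟨.negSucc 14, .negSucc 31, .ofNat 45, .negSucc 16, .ofNat 11, .ofNat 0⟩, ⟨.negSucc 89, .ofNat 67, .ofNat 28, .ofNat 565, .negSucc 407, .ofNat 54⟩, ⟨.negSucc 780, .negSucc 92, .negSucc 50, .negSucc 1260, .ofNat 592, .negSucc 46⟩, ⟨.negSucc 108, .negSucc 3, .ofNat 3, .negSucc 102, .ofNat 86, .ofNat 25⟩, .ofNat 433, .negSucc 24, .ofNat 0, .negSucc 24, .ofNat 1872, .ofNat 0, .ofNat 299, .ofNat 12, .negSucc 369, .ofNat 0, .ofNat 115, .negSucc 2, .ofNat 0, .ofNat 0, .ofNat 583, .ofNat 904, .ofNat 0, .ofNat 0, .ofNat 0, .ofNat 0, .ofNat 0, .ofNat 0, .ofNat 0, .ofNat 0, .ofNat 0, .ofNat 0, .ofNat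 0, .ofNat 0, .ofNat 0, .ofNat 0, .ofNat 0, .ofNat 0⟩)
    (by decide +kernel)
theorem L00281 : Good (Phi V4.P V4.D 1 (-1)) ⟨4, 9, 3, 1, 1, 0, 2, 3, 3, 1⟩ :=
  leaf_sound (S := T4.ds_pm) T4.ok_pm (w := 168) (c := ⟨⟨.negSucc 316, .negSucc 157, .negSucc 11, .negSucc 684, .ofNat 330, .negSucc 39⟩, ⟨.ofNat 6, .negSucc 27, .ofNat 58, .ofNat 44, .negSucc 23, .ofNat 12⟩, ⟨.negSucc 140, .ofNat 150, .ofNat 21, .ofNat 639, .negSucc 427, .ofNat 58⟩, ⟨.negSucc 693, .negSucc 227, .negSucc 37, .negSucc 1395, .ofNat 679, .negSucc 86⟩, ⟨.negSucc 130, .ofNat 35, .ofNat 16, .negSucc 66, .ofNat 34, .ofNat 49⟩, .ofNat 503, .ofNat 171, .ofNat 0, .ofNat 171, .ofNat 2639, .ofNat 0, .ofNat 294, .negSucc 52, .negSucc 360, .ofNat 0, .ofNat 114, .ofNat 27, .ofNat 0, .ofNat 0, .ofNat 573, .ofNat 1128, .ofNat 0, .ofNat 0, .ofNat 0, .ofNat 0, .ofNat 0, .ofNat 375859146175992234001965042892800,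 .ofNat 0, .ofNat 0, .ofNat 0, .ofNat 0, .ofNat 0, .ofNat 0, .ofNat 0, .ofNat 316270830583336586271430960742400, .ofNat 0, .ofNat 0⟩)
    (by decide +kernel)
theorem L00282 : Good (Phi V4.P V4.D 1 (-1)) ⟨3, 4, 2, 1, 1, 0, 2, 3, 3, 1⟩ :=
  leaf_sound (S := T4.ds_pm) T4.ok_pm (w := 160) (c := ⟨⟨.negSucc 252, .negSucc 175, .ofNat 36, .negSucc 640, .ofNat 275, .negSucc 107⟩, ⟨.ofNat 48, .negSucc 32, .ofNat 74, .ofNat 106, .negSucc 45, .ofNat 26⟩, ⟨.negSucc 211, .ofNat 168, .negSucc 1, .ofNat 641, .negSucc 385, .ofNat 139⟩, ⟨.negSucc 626, .negSucc 205, .ofNat 64, .negSucc 1377, .ofNat 599, .negSucc 220⟩, ⟨.negSucc 133, .ofNat 8, .negSucc 10, .negSucc 98, .ofNat 76, .ofNat 85⟩, .ofNat 483, .ofNat 227, .ofNat 0, .ofNat 227, .ofNat 1522, .ofNat 0, .ofNat 274, .negSucc 99, .negSucc 342, .ofNat 0, .ofNat 140, .ofNat 59, .ofNat 0, .ofNat 0, .ofNat 562, .ofNat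 836, .ofNat 0, .ofNat 0, .ofNat 0, .ofNat 0, .ofNat 0, .ofNat 5332953499530526765704491827200, .ofNat 0, .ofNat 0, .ofNat 0, .ofNat 0, .ofNat 0, .ofNat 0, .ofNat 0, .ofNat 3224106184921110656647063142400, .ofNat 399520573434243209311027200, .ofNat 0⟩)
    (by decide +kernel)
theorem L00283 : Good (Phi V4.P V4.D 1 (-1)) ⟨3, 5, 2, 0, 1, 0, 2, 3, 3, 0⟩ :=
  leaf_sound (S := T4.ds_pm) T4.ok_pm (w := 160) (c := ⟨⟨.negSucc 285, .negSucc 448, .negSucc 144, .negSucc 660, .ofNat 330, .negSucc 128⟩, ⟨.negSucc 34, .negSucc 103, .ofNat 100, .negSucc 52, .ofNat 25, .negSucc 2⟩, ⟨.negSucc 195, .ofNat 447, .ofNat 186, .ofNat 684, .negSucc 538, .ofNat 125⟩, ⟨.negSucc 581, .negSucc 661, .negSucc 301, .negSucc 1242, .ofNat 625, .negSucc 248⟩, ⟨.negSucc 205, .ofNat 102, .ofNat 45, .negSucc 80, .ofNat 21, .ofNat 99⟩, .ofNat 412, .negSucc 86, .ofNat 0, .negSucc 86, .ofNat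 1413, .ofNat 0, .ofNat 347, .ofNat 54, .negSucc 492, .ofNat 0, .ofNat 159, .negSucc 26, .ofNat 0, .ofNat 0, .ofNat 702, .ofNat 523, .ofNat 0, .ofNat 0, .ofNat 0, .ofNat 0, .ofNat 0, .ofNat 0, .ofNat 0, .ofNat 0, .ofNat 0, .ofNat 0, .ofNat 0, .ofNat 0, .ofNat 0, .ofNat 0, .ofNat 1866502836994766187213619200, .ofNat 0⟩)
    (by decide +kernel)
theorem L00284 : Good (Phi V4.P V4.D 1 (-1)) ⟨3, 5, 2, 0, 1, 0, 3, 6, 3, 1⟩ :=
  leaf_sound (S := T4.ds_pm) T4.ok_pm (w := 160) (c := ⟨⟨.negSucc 382, .negSucc 298, .negSucc 41, .negSucc 710, .ofNat 66, .negSucc 100⟩, ⟨.negSucc 39, .negSucc 129, .ofNat 141, .negSucc 49, .ofNat 14, .negSucc 1⟩, ⟨.negSucc 39, .ofNat 252, .ofNat 74, .ofNat 587, .negSucc 127, .ofNat 92⟩, ⟨.negSucc 775, .negSucc 329, .negSucc 106, .negSucc 1342, .ofNat 114, .negSucc 192⟩, ⟨.negSucc 135, .ofNat 46, .ofNat 23, .negSucc 26, .ofNat 20,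 .ofNat 73⟩, .ofNat 413, .negSucc 77, .ofNat 0, .negSucc 77, .ofNat 1437, .ofNat 0, .ofNat 300, .ofNat 41, .negSucc 373, .ofNat 0, .ofNat 136, .negSucc 16, .ofNat 0, .ofNat 0, .ofNat 581, .ofNat 1691, .ofNat 0, .ofNat 0, .ofNat 0, .ofNat 0, .ofNat 0, .ofNat 0, .ofNat 17438155154794122471014400000, .ofNat 0, .ofNat 0, .ofNat 0, .ofNat 18065294666232171096283545600, .ofNat 0, .ofNat 0, .ofNat 0, .ofNat 16838681268482457740299468800, .ofNat 0⟩)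
    (by decide +kernel)
theorem L00285 : Good (Phi V4.P V4.D 1 (-1)) ⟨3, 5, 2, 0, 2, 0, 3, 7, 3, 1⟩ :=
  leaf_sound (S := T4.ds_pm) T4.ok_pm (w := 168) (c := ⟨⟨.negSucc 386, .negSucc 220, .negSucc 9, .negSucc 303, .ofNat 336, .ofNat 27⟩, ⟨.negSucc 33, .negSucc 62, .ofNat 57, .negSucc 26, .ofNat 26, .ofNat 8⟩, ⟨.negSucc 157, .ofNat 214, .ofNat 15, .ofNat 262, .negSucc 369, .ofNat 53⟩, ⟨.negSucc 754, .negSucc 305, .negSucc 27, .negSucc 568, .ofNat 632, .ofNat 47⟩, ⟨.negSucc 44, .ofNat 12, .ofNat 2, .negSucc 109, .ofNat 32, .ofNat 24⟩, .ofNat 411, .negSucc 91, .ofNat 0, .negSucc 91, .ofNat 1388, .ofNat 0, .ofNat 605, .ofNat 95, .negSucc 978, .ofNat 0, .ofNat 288, .negSucc 70, .ofNat 0, .ofNat 0, .ofNat 1346, .ofNat 1922, .ofNat 0, .ofNat 0, .ofNat 0, .ofNat 0, .ofNat 0, .ofNat 0, .ofNat 0, .ofNat 0, .ofNat 0, .ofNat 0, .ofNat 0, .ofNat 0, .ofNat 0, .ofNat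 15292306651608304909646704725196800, .ofNat 0, .ofNat 0⟩)
    (by decide +kernel)
theorem L00286 : Good (Phi V4.P V4.D 1 (-1)) ⟨3, 5, 2, 0, 2, 1, 3, 7, 3, 1⟩ :=
  leaf_sound (S := T4.ds_pm) T4.ok_pm (w := 168) (c := ⟨⟨.negSucc 377, .negSucc 528, .negSucc 85, .negSucc 702, .ofNat 82, .negSucc 154⟩, ⟨.negSucc 33, .negSucc 145, .ofNat 111, .negSucc 49, .ofNat 2, .negSucc 3⟩, ⟨.negSucc 138, .ofNat 468, .ofNat 111, .ofNat 592, .negSucc 126, .ofNat 158⟩, ⟨.negSucc 781, .negSucc 731, .negSucc 160, .negSucc 1336, .ofNat 161, .negSucc 298⟩, ⟨.negSucc 231, .ofNat 40, .ofNat 4, .ofNat 130, .ofNat 73, .ofNat 97⟩, .ofNat 310, .negSucc 30, .ofNat 0, .negSucc 30, .ofNat 676, .ofNat 0, .ofNat 697, .ofNat 74, .negSucc 1239, .ofNat 0, .ofNat 387, .negSucc 57, .ofNat 0, .ofNat 0, .ofNat 1484, .ofNat 971, .ofNat 0, .ofNat 0, .ofNat 0, .ofNat 0, .ofNat 0, .ofNat 0, .ofNat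 0, .ofNat 0, .ofNat 0, .ofNat 0, .ofNat 0, .ofNat 0, .ofNat 0, .ofNat 17456599649382142094981565146726400, .ofNat 1669723250916232898722293350400, .ofNat 0⟩)
    (by decide +kernel)
theorem L00287 : Good (Phi V4.P V4.D 1 (-1)) ⟨3, 5, 2, 1, 1, 0, 2, 3, 2, 0⟩ :=
  out_sound (S := T4.ds_pm) T4.ok_pm (w := 48) (j := 3) (by decide +kernel)
theorem L00288 : Good (Phi V4.P V4.D 1 (-1)) ⟨3, 4, 2, 0, 2, 2, 1, 1, 3, 0⟩ :=
  leaf_sound (S := T4.ds_pm) T4.ok_pm (w := 168) (c := ⟨⟨.negSucc 283, .negSucc 339, .negSucc 88, .negSucc 374, .negSucc 139, .negSucc 447⟩, ⟨.negSucc 31, .negSucc 68, .ofNat 177, .ofNat 28, .ofNat 14, .ofNat 21⟩, ⟨.ofNat 254, .ofNat 241, .ofNat 127, .ofNat 308, .negSucc 242, .ofNat 214⟩, ⟨.negSucc 716, .negSucc 463, .negSucc 191, .negSucc 774, .negSucc 302, .negSucc 944⟩, ⟨.negSucc 277, .ofNat 102, .ofNat 15, .ofNat 397, .negSucc 41, .ofNat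 164⟩, .ofNat 449, .ofNat 70, .ofNat 0, .ofNat 70, .ofNat 1846, .ofNat 0, .ofNat 372, .negSucc 38, .negSucc 393, .ofNat 0, .ofNat 133, .ofNat 31, .ofNat 0, .ofNat 0, .ofNat 592, .ofNat 769, .ofNat 0, .ofNat 0, .ofNat 0, .ofNat 0, .ofNat 0, .ofNat 0, .ofNat 0, .ofNat 0, .ofNat 0, .ofNat 0, .ofNat 0, .ofNat 0, .ofNat 0, .ofNat 183642341729298685271374351564800, .ofNat 0, .ofNat 0⟩)
    (by decide +kernel)
theorem L00289 : Good (Phi V4.P V4.D 1 (-1)) ⟨3, 4, 3, 0, 2, 3, 1, 1, 3, 0⟩ :=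
  leaf_sound (S := T4.ds_pm) T4.ok_pm (w := 168) (c := ⟨⟨.negSucc 37, .negSucc 495, .negSucc 15, .negSucc 257, .negSucc 679, .negSucc 1093⟩, ⟨.negSucc 44, .negSucc 48, .ofNat 122, .ofNat 34, .ofNat 7, .ofNat 35⟩, ⟨.ofNat 130, .ofNat 309, .negSucc 14, .ofNat 115, .ofNat 350, .ofNat 552⟩, ⟨.negSucc 281, .negSucc 745, .ofNat 20, .negSucc 521, .negSucc 1400, .negSucc 2287⟩, ⟨.negSucc 366, .ofNat 358, .negSucc 53, .ofNat 983, .ofNat 414, .ofNat 443⟩, .ofNat 444, .ofNat 13, .ofNat 0, .ofNat 13, .ofNat 1984, .ofNat 0, .ofNat 457, .ofNat 10, .negSucc 400, .ofNat 0, .ofNat 133, .ofNat 20, .ofNat 0, .ofNat 0, .ofNat 555, .ofNat 658, .ofNat 0, .ofNat 0, .ofNat 0, .ofNat 0, .ofNat 0, .ofNat 491393051646176994072917232844800, .ofNat 0, .ofNat 0, .ofNat 0, .ofNat 0, .ofNat 0, .ofNat 0, .ofNat 0, .ofNat 0, .ofNat 0, .ofNat 0⟩)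
    (by decide +kernel)
theorem L00290 : Good (Phi V4.P V4.D 1 (-1)) ⟨3, 4, 3, 1, 2, 3, 1, 1, 3, 0⟩ :=
  leaf_sound (S := T4.ds_pm) T4.ok_pm (w := 168) (c := ⟨⟨.negSucc 182, .negSucc 376, .negSucc 26, .negSucc 186, .negSucc 651, .negSucc 1094⟩, ⟨.negSucc 14, .negSucc 39, .ofNat 131, .ofNat 71, .ofNat 87, .ofNat 112⟩, ⟨.ofNat 225, .ofNat 155, .ofNat 20, .negSucc 10, .ofNat 457, .ofNat 554⟩, ⟨.negSucc 574, .negSucc 484, .ofNat 23, .negSucc 321, .negSucc 1348, .negSucc 2256⟩, ⟨.negSucc 284, .ofNat 192, .negSucc 5, .ofNat 959, .ofNat 415, .ofNat 451⟩, .ofNat 451, .ofNat 114, .ofNat 0, .ofNat 114, .ofNat 1653, .ofNat 0, .ofNat 450, .negSucc 83, .negSucc 385, .ofNat 0, .ofNat 152, .ofNat 51, .ofNat 0, .ofNat 0, .ofNat 537, .ofNat 424, .ofNat 0, .ofNat 0, .ofNat 0, .ofNat 0, .ofNat 0, .ofNat 0, .ofNat 0, .ofNat 0, .ofNat 0, .ofNat 0, .ofNat 0, .ofNat 0,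 .ofNat 0, .ofNat 0, .ofNat 0, .ofNat 0⟩)
    (by decide +kernel)
theorem L00291 : Good (Phi V4.P V4.D 1 (-1)) ⟨3, 5, 2, 0, 2, 2, 2, 2, 3, 0⟩ :=
  leaf_sound (S := T4.ds_pm) T4.ok_pm (w := 168) (c := ⟨⟨.negSucc 573, .negSucc 358, .negSucc 17, .negSucc 293, .negSucc 126, .negSucc 644⟩, ⟨.negSucc 55, .negSucc 108, .ofNat 202, .ofNat 15, .negSucc 27, .negSucc 44⟩, ⟨.ofNat 602, .ofNat 248, .ofNat 10, .ofNat 164, .negSucc 128, .ofNat 282⟩, ⟨.negSucc 1158, .negSucc 425, .negSucc 33, .negSucc 593, .negSucc 229, .negSucc 1217⟩, ⟨.negSucc 85, .ofNat 209, .ofNat 7, .ofNat 464, .negSucc 167, .ofNat 139⟩, .ofNat 412, .negSucc 94, .ofNat 0, .negSucc 94, .ofNat 1425, .ofNat 0, .ofNat 386, .ofNat 76, .negSucc 431, .ofNat 0, .ofNat 155, .negSucc 2, .ofNat 0, .ofNat 0, .ofNat 609, .ofNat 1699, .ofNat 0, .ofNat 0, .ofNat 0, .ofNat 0, .ofNat 0, .ofNat 0, .ofNat 956114612728152409887473664000,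 .ofNat 0, .ofNat 0, .ofNat 0, .ofNat 1585005607475629727894470656000, .ofNat 0, .ofNat 0, .ofNat 0, .ofNat 928102033015236516720830054400, .ofNat 0⟩)
    (by decide +kernel)
theorem L00292 : Good (Phi V4.P V4.D 1 (-1)) ⟨3, 5, 2, 0, 2, 2, 2, 3, 4, 0⟩ :=
  leaf_sound (S := T4.ds_pm) T4.ok_pm (w := 176) (c := ⟨⟨.negSucc 496, .negSucc 554, .negSucc 90, .negSucc 511, .negSucc 209, .negSucc 357⟩, ⟨.negSucc 54, .negSucc 159, .ofNat 168, .negSucc 4, .negSucc 16, .negSucc 20⟩, ⟨.ofNat 200, .ofNat 409, .ofNat 126, .ofNat 442, .negSucc 33, .ofNat 236⟩, ⟨.negSucc 1015, .negSucc 739, .negSucc 165, .negSucc 999, .negSucc 401, .negSucc 681⟩, ⟨.negSucc 319, .ofNat 179, .ofNat 52, .ofNat 517, .ofNat 29, .ofNat 109⟩, .ofNat 412, .negSucc 83, .ofNat 0, .negSucc 83, .ofNat 1410, .ofNat 0, .ofNat 423, .ofNat 86, .negSucc 571, .ofNat 0, .ofNat 174, .negSucc 17, .ofNat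 0, .ofNat 0, .ofNat 708, .ofNat 501, .ofNat 0, .ofNat 0, .ofNat 0, .ofNat 0, .ofNat 0, .ofNat 3421669487811963638980943020032000, .ofNat 12409363978875122002606581350400, .ofNat 0, .ofNat 0, .ofNat 0, .ofNat 24996445164796964269513192243200, .ofNat 0, .ofNat 0, .ofNat 0, .ofNat 0, .ofNat 0⟩)
    (by decide +kernel)
theorem L00293 : Good (Phi V4.P V4.D 1 (-1)) ⟨3, 5, 2, 0, 3, 4, 2, 3, 4, 1⟩ :=
  leaf_sound (S := T4.ds_pm) T4.ok_pm (w := 184) (c := ⟨⟨.negSucc 750, .negSucc 627, .negSucc 135, .negSucc 384, .negSucc 115, .negSucc 202⟩, ⟨.negSucc 67, .negSucc 175, .ofNat 202, .negSucc 17, .negSucc 7, .negSucc 8⟩, ⟨.ofNat 339, .ofNat 491, .ofNat 179, .ofNat 306, .negSucc 67, .ofNat 127⟩, ⟨.negSucc 1518, .negSucc 841, .negSucc 256, .negSucc 735, .negSucc 219, .negSucc 384⟩, ⟨.negSucc 176, .ofNat 151, .ofNat 24, .ofNat 215, .ofNat 13, .ofNat 59⟩, .ofNat 411,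 .negSucc 94, .ofNat 0, .negSucc 94, .ofNat 1402, .ofNat 0, .ofNat 388, .ofNat 78, .negSucc 520, .ofNat 0, .ofNat 163, .negSucc 23, .ofNat 0, .ofNat 0, .ofNat 669, .ofNat 510, .ofNat 0, .ofNat 0, .ofNat 0, .ofNat 0, .ofNat 0, .ofNat 0, .ofNat 0, .ofNat 0, .ofNat 0, .ofNat 0, .ofNat 12151807254909355957841609883648000, .ofNat 0, .ofNat 0, .ofNat 620009139797509755522469685782118400, .ofNat 0, .ofNat 0⟩)
    (by decide +kernel)
theorem L00294 : Good (Phi V4.P V4.D 1 (-1)) ⟨4, 10, 2, 0, 3, 5, 2, 3, 4, 1⟩ :=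
  leaf_sound (S := T4.ds_pm) T4.ok_pm (w := 184) (c := ⟨⟨.negSucc 882, .negSucc 386, .negSucc 215, .negSucc 446, .negSucc 385, .negSucc 342⟩, ⟨.negSucc 95, .negSucc 90, .ofNat 281, .ofNat 3, .negSucc 17, .negSucc 4⟩, ⟨.ofNat 461, .ofNat 277, .ofNat 248, .ofNat 305, .ofNat 184, .ofNat 208⟩, ⟨.negSucc 1791, .negSucc 541, .negSucc 373, .negSucc 874, .negSucc 733, .negSucc 660⟩, ⟨.negSucc 16, .ofNat 110, .ofNat 45, .ofNat 378, .ofNat 28, .ofNat 105⟩, .ofNat 412, .negSucc 67, .ofNat 0, .negSucc 67, .ofNat 1419, .ofNat 0, .ofNat 846, .ofNat 144, .negSucc 1038, .ofNat 0, .ofNat 330, .negSucc 15, .ofNat 0, .ofNat 0, .ofNat 1283, .ofNat 2092, .ofNat 0, .ofNat 0, .ofNat 0, .ofNat 0, .ofNat 0, .ofNat 47674352354225212291485810953709158400, .ofNat 0, .ofNat 0, .ofNat 0, .ofNat 0, .ofNat 10173502843130511114473765339136000, .ofNat 0, .ofNat 0, .ofNat 27918984714705225543597290784659865600,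 .ofNat 0, .ofNat 0⟩)
    (by decide +kernel)
theorem L00295 : Good (Phi V4.P V4.D 1 (-1)) ⟨4, 11, 3, 0, 3, 5, 2, 3, 4, 1⟩ :=
  leaf_sound (S := T4.ds_pm) T4.ok_pm (w := 192) (c := ⟨⟨.negSucc 1141, .negSucc 544, .negSucc 106, .negSucc 528, .negSucc 503, .negSucc 406⟩, ⟨.negSucc 138, .negSucc 137, .ofNat 155, .negSucc 27, .negSucc 64, .negSucc 40⟩, ⟨.ofNat 673, .ofNat 395, .ofNat 137, .ofNat 333, .ofNat 250, .ofNat 236⟩, ⟨.negSucc 2126, .negSucc 783, .negSucc 178, .negSucc 1011, .negSucc 913, .negSucc 754⟩, ⟨.ofNat 87, .ofNat 120, .ofNat 18, .ofNat 411, .negSucc 17, .ofNat 116⟩, .ofNat 494, .negSucc 296, .ofNat 0, .negSucc 296, .ofNat 2420, .ofNat 0, .ofNat 827, .ofNat 335, .negSucc 1111, .ofNat 0, .ofNat 324, .negSucc 108, .ofNat 0, .ofNat 0, .ofNat 1314, .ofNat 1026, .ofNat 0, .ofNat 0, .ofNat 0, .ofNat 0, .ofNat 0, .ofNat 140767963450504137632442582898311168000,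 .ofNat 27431011952153577012204670235443200, .ofNat 0, .ofNat 0, .ofNat 0, .ofNat 45780604573925059242308797464576000, .ofNat 0, .ofNat 0, .ofNat 0, .ofNat 0, .ofNat 0⟩)
    (by decide +kernel)
theorem L00296 : Good (Phi V4.P V4.D 1 (-1)) ⟨4, 11, 3, 1, 3, 5, 2, 3, 4, 1⟩ :=
  out_sound (S := T4.ds_pm) T4.ok_pm (w := 56) (j := 3) (by decide +kernel)
theorem L00297 : Good (Phi V4.P V4.D 1 (-1)) ⟨4, 10, 2, 0, 2, 3, 2, 2, 3, 0⟩ :=
  leaf_sound (S := T4.ds_pm) T4.ok_pm (w := 176) (c := ⟨⟨.negSucc 359, .negSucc 253, .ofNat 15, .negSucc 113, .negSucc 416, .negSucc 1423⟩, ⟨.negSucc 79, .negSucc 19, .ofNat 293, .ofNat 44, .negSucc 25, .negSucc 43⟩, ⟨.ofNat 430, .ofNat 150, .negSucc 51, .negSucc 132, .ofNat 201, .ofNat 668⟩, ⟨.negSucc 810, .negSucc 350, .ofNat 166, .negSucc 262, .negSucc 790, .negSucc 2738⟩, ⟨.ofNat 11, .ofNat 246, .negSucc 77, .ofNat 819, .ofNat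 14, .ofNat 623⟩, .ofNat 412, .negSucc 62, .ofNat 0, .negSucc 62, .ofNat 1423, .ofNat 0, .ofNat 478, .ofNat 82, .negSucc 434, .ofNat 0, .ofNat 165, .ofNat 8, .ofNat 0, .ofNat 0, .ofNat 555, .ofNat 798, .ofNat 0, .ofNat 0, .ofNat 0, .ofNat 0, .ofNat 0, .ofNat 0, .ofNat 0, .ofNat 0, .ofNat 0, .ofNat 0, .ofNat 268718882628888616200516403200, .ofNat 0, .ofNat 0, .ofNat 0, .ofNat 0, .ofNat 0⟩)
    (by decide +kernel)
theorem L00298 : Good (Phi V4.P V4.D 1 (-1)) ⟨4, 10, 3, 0, 2, 3, 2, 3, 3, 0⟩ :=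
  leaf_sound (S := T4.ds_pm) T4.ok_pm (w := 176) (c := ⟨⟨.negSucc 325, .negSucc 453, .negSucc 125, .negSucc 402, .negSucc 642, .negSucc 1570⟩, ⟨.negSucc 108, .negSucc 75, .ofNat 175, .ofNat 75, .negSucc 5, .negSucc 36⟩, ⟨.ofNat 260, .ofNat 262, .ofNat 97, .ofNat 153, .ofNat 379, .ofNat 837⟩, ⟨.negSucc 766, .negSucc 656, .negSucc 163, .negSucc 852, .negSucc 1226, .negSucc 3010⟩, ⟨.negSucc 176, .ofNat 87, .negSucc 28, .ofNat 1277, .ofNat 330, .ofNat 666⟩, .ofNat 489, .negSucc 181, .ofNat 0, .negSucc 181, .ofNat 2949, .ofNat 0, .ofNat 488, .ofNat 147, .negSucc 486, .ofNat 0, .ofNat 148, .negSucc 12, .ofNat 0, .ofNat 0, .ofNat 582, .ofNat 414, .ofNat 0, .ofNat 0, .ofNat 0, .ofNat 0, .ofNat 0, .ofNat 34759517756217451688825543511244800, .ofNat 0, .ofNat 0, .ofNat 0, .ofNat 6041291836728304139407055231385600, .ofNat 0, .ofNat 0, .ofNat 0, .ofNat 0, .ofNat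 0, .ofNat 0⟩)
    (by decide +kernel)
theorem L00299 : Good (Phi V4.P V4.D 1 (-1)) ⟨4, 10, 3, 1, 2, 3, 2, 3, 3, 0⟩ :=
  leaf_sound (S := T4.ds_pm) T4.ok_pm (w := 176) (c := ⟨⟨.negSucc 520, .negSucc 440, .negSucc 136, .negSucc 365, .negSucc 649, .negSucc 1479⟩, ⟨.negSucc 27, .negSucc 25, .ofNat 186, .ofNat 105, .ofNat 31, .ofNat 59⟩, ⟨.ofNat 398, .ofNat 238, .ofNat 91, .ofNat 94, .ofNat 415, .ofNat 792⟩, ⟨.negSucc 1079, .negSucc 660, .negSucc 195, .negSucc 698, .negSucc 1254, .negSucc 2850⟩, ⟨.negSucc 166, .ofNat 279, .ofNat 36, .ofNat 1141, .ofNat 314, .ofNat 629⟩, .ofNat 467, .ofNat 6, .ofNat 0, .ofNat 6, .ofNat 2116, .ofNat 0, .ofNat 502, .ofNat 38, .negSucc 472, .ofNat 0, .ofNat 158, .ofNat 22, .ofNat 0, .ofNat 0, .ofNat 574, .ofNat 565, .ofNat 0, .ofNat 0, .ofNat 0, .ofNat 0, .ofNat 0, .ofNat 41708095617356803822526550717235200, .ofNat 306324461144335621387242700800,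 .ofNat 0, .ofNat 0, .ofNat 8937007310719624788986712765235200, .ofNat 605771001992803700509035724800, .ofNat 0, .ofNat 0, .ofNat 0, .ofNat 0, .ofNat 0⟩)
    (by decide +kernel)
theorem L00300 : Good (Phi V4.P V4.D 1 (-1)) ⟨4, 11, 2, 0, 2, 3, 2, 2, 3, 0⟩ :=
  leaf_sound (S := T4.ds_pm) T4.ok_pm (w := 176) (c := ⟨⟨.negSucc 493, .negSucc 409, .negSucc 44, .ofNat 7, .negSucc 461, .negSucc 1713⟩, ⟨.negSucc 63, .negSucc 50, .ofNat 350, .ofNat 84, .negSucc 55, .negSucc 147⟩, ⟨.ofNat 544, .ofNat 177, .ofNat 19, .negSucc 189, .ofNat 209, .ofNat 798⟩, ⟨.negSucc 947, .negSucc 637, .ofNat 32, .negSucc 93, .negSucc 838, .negSucc 3204⟩, ⟨.ofNat 161, .ofNat 268, .ofNat 99, .ofNat 883, .negSucc 18, .ofNat 666⟩, .ofNat 470, .negSucc 240, .ofNat 0, .negSucc 240, .ofNat 2048, .ofNat 0, .ofNat 459, .ofNat 197, .negSucc 453, .ofNat 0, .ofNat 165, .negSucc 29, .ofNat 0,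 .ofNat 0, .ofNat 562, .ofNat 1368, .ofNat 0, .ofNat 0, .ofNat 0, .ofNat 0, .ofNat 0, .ofNat 0, .ofNat 544280958634137736896420249600, .ofNat 0, .ofNat 0, .ofNat 0, .ofNat 1183514790137982053407889817600, .ofNat 0, .ofNat 0, .ofNat 0, .ofNat 317237091147836086532073062400, .ofNat 0⟩)
    (by decide +kernel)
theorem L00301 : Good (Phi V4.P V4.D 1 (-1)) ⟨4, 11, 2, 0, 2, 3, 2, 3, 4, 0⟩ :=
  leaf_sound (S := T4.ds_pm) T4.ok_pm (w := 176) (c := ⟨⟨.negSucc 830, .negSucc 554, .negSucc 41, .negSucc 118, .negSucc 662, .negSucc 923⟩, ⟨.negSucc 105, .negSucc 127, .ofNat 280, .ofNat 97, .negSucc 59, .negSucc 84⟩, ⟨.ofNat 548, .ofNat 298, .ofNat 46, .ofNat 26, .ofNat 356, .ofNat 509⟩, ⟨.negSucc 1560, .negSucc 811, .ofNat 124, .negSucc 363, .negSucc 1237, .negSucc 1717⟩, ⟨.ofNat 79, .negSucc 127, .negSucc 412, .ofNat 1200, .ofNat 255, .ofNat 315⟩, .ofNat 494, .negSucc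 297, .ofNat 0, .negSucc 297, .ofNat 2443, .ofNat 0, .ofNat 976, .ofNat 533, .negSucc 1169, .ofNat 0, .ofNat 366, .negSucc 104, .ofNat 0, .ofNat 0, .ofNat 1249, .ofNat 1303, .ofNat 0, .ofNat 0, .ofNat 0, .ofNat 0, .ofNat 0, .ofNat 132134316123246901595251885788364800, .ofNat 32551880968263663388504306483200, .ofNat 0, .ofNat 0, .ofNat 0, .ofNat 76210743734910187608703028428800, .ofNat 0, .ofNat 0, .ofNat 190138405500354990130102414186905600, .ofNat 26772397208898033225322148659200, .ofNat 0⟩)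
    (by decide +kernel)
theorem L00302 : Good (Phi V4.P V4.D 1 (-1)) ⟨4, 11, 3, 0, 2, 3, 2, 3, 4, 1⟩ :=
  leaf_sound (S := T4.ds_pm) T4.ok_pm (w := 184) (c := ⟨⟨.negSucc 1442, .negSucc 533, .negSucc 187, .negSucc 689, .negSucc 821, .negSucc 703⟩, ⟨.negSucc 170, .negSucc 130, .ofNat 215, .ofNat 61, .negSucc 84, .negSucc 61⟩, ⟨.ofNat 905, .ofNat 302, .ofNat 155, .ofNat 238, .ofNat 475, .ofNat 370⟩, ⟨.negSucc 2714, .negSucc 677, .negSucc 217, .negSucc 1458, .negSucc 1518, .negSucc 1317⟩, ⟨.ofNat 281, .negSucc 126, .negSucc 261, .ofNat 1578, .ofNat 207, .ofNat 305⟩, .ofNat 471, .negSucc 243, .ofNat 0, .negSucc 243, .ofNat 2029, .ofNat 0, .ofNat 960, .ofNat 472, .negSucc 1076, .ofNat 0, .ofNat 359, .negSucc 89, .ofNat 0, .ofNat 0, .ofNat 1197, .ofNat 1425, .ofNat 0, .ofNat 17280045698549060027925467548876800, .ofNat 124058873651989975985553408000, .ofNat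 0, .ofNat 0, .ofNat 1068431734272575488466302760543846400, .ofNat 15680779035788664979583297126400, .ofNat 0, .ofNat 0, .ofNat 0, .ofNat 62129752250365410171616965427200, .ofNat 0, .ofNat 0, .ofNat 1339436992871891217120692586047078400, .ofNat 12993110650555832015561687040000, .ofNat 0⟩)
    (by decide +kernel)
theorem L00303 : Good (Phi V4.P V4.D 1 (-1)) ⟨4, 11, 3, 1, 2, 3, 2, 3, 4, 1⟩ :=
  out_sound (S := T4.ds_pm) T4.ok_pm (w := 56) (j := 3) (by decide +kernel)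
theorem L00304 : Good (Phi V4.P V4.D 1 (-1)) ⟨3, 4, 2, 0, 2, 2, 2, 2, 4, 2⟩ :=
  leaf_sound (S := T4.ds_pm) T4.ok_pm (w := 176) (c := ⟨⟨.negSucc 631, .negSucc 389, .negSucc 71, .negSucc 529, .negSucc 58, .negSucc 115⟩, ⟨.negSucc 42, .negSucc 72, .ofNat 225, .ofNat 46, .ofNat 7, .ofNat 12⟩, ⟨.ofNat 413, .ofNat 277, .ofNat 81, .ofNat 327, .negSucc 72, .ofNat 9⟩, ⟨.negSucc 1517, .negSucc 491, .negSucc 128, .negSucc 1091, .negSucc 119, .negSucc 236⟩, ⟨.negSucc 239, .ofNat 198, .ofNat 27, .ofNat 501, .negSucc 67, .ofNat 47⟩, .ofNat 331, .ofNat 23, .ofNat 0, .ofNat 23, .ofNat 750, .ofNat 0, .ofNat 368, .negSucc 30, .negSucc 400, .ofNat 0, .ofNat 179, .ofNat 56, .ofNat 0, .ofNat 0, .ofNat 576, .ofNat 2443, .ofNat 0, .ofNat 0, .ofNat 0, .ofNat 0, .ofNat 0, .ofNat 0, .ofNat 0, .ofNat 0, .ofNat 0, .ofNat 0, .ofNat 0, .ofNat 0, .ofNat 0, .ofNat 0, .ofNat 0,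 .ofNat 0⟩)
    (by decide +kernel)
theorem L00305 : Good (Phi V4.P V4.D 1 (-1)) ⟨3, 4, 2, 0, 2, 2, 2, 3, 4, 2⟩ :=
  leaf_sound (S := T4.ds_pm) T4.ok_pm (w := 176) (c := ⟨⟨.negSucc 447, .negSucc 533, .negSucc 137, .negSucc 783, .negSucc 90, .negSucc 149⟩, ⟨.negSucc 57, .negSucc 64, .ofNat 237, .ofNat 77, .ofNat 3, .ofNat 11⟩, ⟨.ofNat 85, .ofNat 385, .ofNat 169, .ofNat 593, .negSucc 21, .ofNat 80⟩, ⟨.negSucc 1163, .negSucc 754, .negSucc 266, .negSucc 1597, .negSucc 186, .negSucc 298⟩, ⟨.negSucc 351, .ofNat 181, .ofNat 44, .ofNat 566, .ofNat 80, .ofNat 77⟩, .ofNat 448, .ofNat 74, .ofNat 0, .ofNat 74, .ofNat 1799, .ofNat 0, .ofNat 356, .negSucc 40, .negSucc 369, .ofNat 0, .ofNat 129, .ofNat 26, .ofNat 0, .ofNat 0, .ofNat 557, .ofNat 1057, .ofNat 0, .ofNat 0, .ofNat 0, .ofNat 0, .ofNat 0, .ofNat 4307277808252222744788765927014400, .ofNat 0, .ofNat 0, .ofNat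 0, .ofNat 0, .ofNat 0, .ofNat 0, .ofNat 0, .ofNat 2582108598308455657076086643097600, .ofNat 0, .ofNat 0⟩)
    (by decide +kernel)
theorem L00306 : Good (Phi V4.P V4.D 1 (-1)) ⟨3, 4, 2, 0, 2, 3, 2, 2, 4, 2⟩ :=
  leaf_sound (S := T4.ds_pm) T4.ok_pm (w := 176) (c := ⟨⟨.negSucc 906, .negSucc 559, .negSucc 116, .negSucc 566, .negSucc 287, .negSucc 247⟩, ⟨.negSucc 79, .negSucc 76, .ofNat 380, .ofNat 84, .ofNat 27, .ofNat 13⟩, ⟨.ofNat 563, .ofNat 286, .ofNat 34, .ofNat 133, .ofNat 244, .ofNat 130⟩, ⟨.negSucc 2198, .negSucc 740, .negSucc 80, .negSucc 1123, .negSucc 582, .negSucc 530⟩, ⟨.negSucc 73, .ofNat 451, .ofNat 18, .ofNat 1260, .ofNat 131, .ofNat 222⟩, .ofNat 330, .ofNat 25, .ofNat 0, .ofNat 25, .ofNat 741, .ofNat 0, .ofNat 461, .negSucc 51, .negSucc 415, .ofNat 0, .ofNat 200, .ofNat 67, .ofNat 0, .ofNat 0, .ofNat 546, .ofNat 1318, .ofNat 0, .ofNat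 0, .ofNat 0, .ofNat 0, .ofNat 0, .ofNat 0, .ofNat 0, .ofNat 0, .ofNat 0, .ofNat 0, .ofNat 0, .ofNat 0, .ofNat 0, .ofNat 0, .ofNat 0, .ofNat 0⟩)
    (by decide +kernel)
theorem L00307 : Good (Phi V4.P V4.D 1 (-1)) ⟨3, 4, 3, 0, 2, 3, 2, 3, 4, 2⟩ :=
  leaf_sound (S := T4.ds_pm) T4.ok_pm (w := 176) (c := ⟨⟨.negSucc 979, .negSucc 697, .negSucc 135, .negSucc 723, .negSucc 454, .negSucc 246⟩, ⟨.negSucc 40, .negSucc 101, .ofNat 210, .ofNat 50, .ofNat 10, .ofNat 11⟩, ⟨.ofNat 577, .ofNat 369, .ofNat 98, .ofNat 371, .ofNat 312, .ofNat 116⟩, ⟨.negSucc 2359, .negSucc 981, .negSucc 188, .negSucc 1507, .negSucc 934, .negSucc 510⟩, ⟨.negSucc 99, .ofNat 377, .ofNat 3, .ofNat 1628, .ofNat 275, .ofNat 248⟩, .ofNat 329, .ofNat 0, .ofNat 0, .ofNat 0, .ofNat 780, .ofNat 0, .ofNat 984, .ofNat 44, .negSucc 1026, .ofNat 0, .ofNat 399, .ofNat 75, .ofNat 0, .ofNat 0, .ofNat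 1187, .ofNat 1421, .ofNat 0, .ofNat 867818714366665629286474029465600, .ofNat 0, .ofNat 0, .ofNat 0, .ofNat 122068096107929214313096514057011200, .ofNat 0, .ofNat 0, .ofNat 0, .ofNat 0, .ofNat 0, .ofNat 0, .ofNat 0, .ofNat 99783375793113135190674300626534400, .ofNat 0, .ofNat 0⟩)
    (by decide +kernel)
theorem L00308 : Good (Phi V4.P V4.D 1 (-1)) ⟨3, 4, 3, 1, 2, 3, 3, 6, 4, 2⟩ :=
  leaf_sound (S := T4.ds_pm) T4.ok_pm (w := 176) (c := ⟨⟨.negSucc 1036, .negSucc 743, .negSucc 114, .negSucc 751, .negSucc 214, .negSucc 282⟩, ⟨.ofNat 54, .negSucc 41, .ofNat 214, .ofNat 157, .ofNat 33, .ofNat 41⟩, ⟨.ofNat 646, .ofNat 405, .ofNat 78, .ofNat 331, .ofNat 160, .ofNat 140⟩, ⟨.negSucc 2472, .negSucc 1059, .negSucc 139, .negSucc 1429, .negSucc 430, .negSucc 582⟩, ⟨.negSucc 80, .ofNat 367, .ofNat 29, .ofNat 1542, .ofNat 182, .ofNat 255⟩, .ofNat 460, .ofNat 141,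 .ofNat 0, .ofNat 141, .ofNat 1681, .ofNat 0, .ofNat 849, .negSucc 212, .negSucc 694, .ofNat 0, .ofNat 301, .ofNat 103, .ofNat 0, .ofNat 0, .ofNat 1032, .ofNat 2883, .ofNat 0, .ofNat 0, .ofNat 0, .ofNat 0, .ofNat 0, .ofNat 113207298512368760759732002829107200, .ofNat 0, .ofNat 0, .ofNat 0, .ofNat 131862757212505488819466496743833600, .ofNat 0, .ofNat 0, .ofNat 0, .ofNat 0, .ofNat 0, .ofNat 0⟩)
    (by decide +kernel)
theorem L00309 : Good (Phi V4.P V4.D 1 (-1)) ⟨3, 4, 3, 1, 2, 3, 3, 7, 4, 2⟩ :=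
  leaf_sound (S := T4.ds_pm) T4.ok_pm (w := 184) (c := ⟨⟨.negSucc 1136, .negSucc 861, .negSucc 122, .negSucc 873, .negSucc 320, .negSucc 364⟩, ⟨.ofNat 85, .negSucc 53, .ofNat 217, .ofNat 162, .ofNat 42, .ofNat 46⟩, ⟨.ofNat 694, .ofNat 513, .ofNat 111, .ofNat 439, .ofNat 213, .ofNat 181⟩, ⟨.negSucc 2663, .negSucc 1297, .negSucc 170, .negSucc 1690, .negSucc 653, .negSucc 738⟩, ⟨.ofNat 199, .ofNat 278, .ofNat 6, .ofNat 1494, .ofNat 70, .ofNat 163⟩, .ofNat 453, .ofNat 124, .ofNat 0, .ofNat 124, .ofNat 1632, .ofNat 0, .ofNat 879, .negSucc 176, .negSucc 810, .ofNat 0, .ofNat 309, .ofNat 99, .ofNat 0, .ofNat 0, .ofNat 1091, .ofNat 3182, .ofNat 0, .ofNat 12108598319908729652479792880025600, .ofNat 0, .ofNat 0, .ofNat 0, .ofNat 528619958770696645576437330975129600, .ofNat 0, .ofNat 0, .ofNat 0, .ofNat 395708395847165045950129136625254400, .ofNat 111799359198887739417816779980800,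 .ofNat 0, .ofNat 0, .ofNat 380200974589802574937183008640204800, .ofNat 0, .ofNat 0⟩)
    (by decide +kernel)
theorem L00310 : Good (Phi V4.P V4.D 1 (-1)) ⟨4, 10, 2, 0, 2, 2, 2, 2, 4, 2⟩ :=
  leaf_sound (S := T4.ds_pm) T4.ok_pm (w := 176) (c := ⟨⟨.negSucc 928, .negSucc 264, .negSucc 75, .negSucc 657, .negSucc 93, .negSucc 127⟩, ⟨.negSucc 96, .negSucc 75, .ofNat 254, .ofNat 11, .negSucc 16, .ofNat 0⟩, ⟨.ofNat 656, .ofNat 190, .ofNat 68, .ofNat 351, .negSucc 54, .ofNat 20⟩, ⟨.negSucc 1871, .negSucc 330, .negSucc 111, .negSucc 1281, .negSucc 170, .negSucc 237⟩, ⟨.negSucc 72, .ofNat 118, .ofNat 22, .ofNat 616, .negSucc 103, .ofNat 29⟩, .ofNat 413, .negSucc 66, .ofNat 0, .negSucc 66, .ofNat 1428, .ofNat 0, .ofNat 353, .ofNat 44, .negSucc 345, .ofNat 0, .ofNat 142, .ofNat 6, .ofNat 0, .ofNat 0, .ofNat 544, .ofNat 2624, .ofNat 0, .ofNat 0, .ofNat 0, .ofNat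 0, .ofNat 0, .ofNat 0, .ofNat 4456781453440669201443953049600, .ofNat 0, .ofNat 0, .ofNat 0, .ofNat 6829874877425274373879627776000, .ofNat 0, .ofNat 0, .ofNat 0, .ofNat 0, .ofNat 0⟩)
    (by decide +kernel)
theorem L00311 : Good (Phi V4.P V4.D 1 (-1)) ⟨4, 10, 2, 0, 2, 2, 2, 3, 4, 2⟩ :=
  leaf_sound (S := T4.ds_pm) T4.ok_pm (w := 176) (c := ⟨⟨.negSucc 770, .negSucc 343, .negSucc 144, .negSucc 1031, .negSucc 278, .negSucc 198⟩, ⟨.negSucc 91, .negSucc 103, .ofNat 276, .negSucc 12, .negSucc 8, .ofNat 0⟩, ⟨.ofNat 354, .ofNat 249, .ofNat 198, .ofNat 694, .ofNat 113, .ofNat 106⟩, ⟨.negSucc 1557, .negSucc 465, .negSucc 256, .negSucc 2002, .negSucc 531, .negSucc 382⟩, ⟨.negSucc 221, .ofNat 85, .ofNat 9, .ofNat 689, .ofNat 45, .ofNat 99⟩, .ofNat 413, .negSucc 72, .ofNat 0, .negSucc 72, .ofNat 1443, .ofNat 0, .ofNat 379, .ofNat 59, .negSucc 441, .ofNat 0, .ofNat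 151, .negSucc 9, .ofNat 0, .ofNat 0, .ofNat 594, .ofNat 623, .ofNat 0, .ofNat 865464305831941800356849752473600, .ofNat 3716866175952308682306355200, .ofNat 0, .ofNat 0, .ofNat 89155406371194278196144827793408000, .ofNat 0, .ofNat 0, .ofNat 0, .ofNat 0, .ofNat 5753938349034995816538832896000, .ofNat 0, .ofNat 0, .ofNat 50396672063258335527744497201971200, .ofNat 0, .ofNat 0⟩)
    (by decide +kernel)
theorem L00312 : Good (Phi V4.P V4.D 1 (-1)) ⟨4, 11, 2, 0, 2, 2, 2, 2, 4, 2⟩ :=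
  leaf_sound (S := T4.ds_pm) T4.ok_pm (w := 176) (c := ⟨⟨.negSucc 1152, .negSucc 236, .negSucc 91, .negSucc 734, .negSucc 148, .negSucc 108⟩, ⟨.negSucc 144, .negSucc 90, .ofNat 266, .negSucc 24, .negSucc 29, .negSucc 11⟩, ⟨.ofNat 826, .ofNat 130, .ofNat 53, .ofNat 394, .negSucc 23, .ofNat 12⟩, ⟨.negSucc 2133, .negSucc 254, .negSucc 146, .negSucc 1423, .negSucc 256, .negSucc 198⟩, ⟨.ofNat 26, .ofNat 127, .ofNat 124, .ofNat 692, .negSucc 116, .ofNat 9⟩, .ofNat 494, .negSucc 297, .ofNat 0, .negSucc 297, .ofNat 2408, .ofNat 0, .ofNat 341, .ofNat 118, .negSucc 348, .ofNat 0, .ofNat 137, .negSucc 23, .ofNat 0, .ofNat 0, .ofNat 545, .ofNat 3160, .ofNat 0, .ofNat 0, .ofNat 549355922714693549334881894400, .ofNat 0, .ofNat 0, .ofNat 0, .ofNat 11347414804840357114478906572800, .ofNat 0, .ofNat 0, .ofNat 0, .ofNat 25153328114513671877828385177600, .ofNat 0, .ofNat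 0, .ofNat 0, .ofNat 13430955404371124433511356825600, .ofNat 0⟩)
    (by decide +kernel)
theorem L00313 : Good (Phi V4.P V4.D 1 (-1)) ⟨4, 11, 3, 0, 2, 2, 3, 6, 4, 2⟩ :=
  leaf_sound (S := T4.ds_pm) T4.ok_pm (w := 184) (c := ⟨⟨.negSucc 1093, .negSucc 454, .negSucc 94, .negSucc 1038, .negSucc 176, .negSucc 176⟩, ⟨.negSucc 153, .negSucc 131, .ofNat 144, .negSucc 55, .negSucc 21, .negSucc 16⟩, ⟨.ofNat 602, .ofNat 300, .ofNat 99, .ofNat 672, .ofNat 87, .ofNat 92⟩, ⟨.negSucc 2009, .negSucc 624, .negSucc 161, .negSucc 1978, .negSucc 321, .negSucc 331⟩, ⟨.negSucc 122, .ofNat 166, .ofNat 57, .ofNat 716, .negSucc 11, .ofNat 66⟩, .ofNat 469, .negSucc 232, .ofNat 0, .negSucc 232, .ofNat 2049, .ofNat 0, .ofNat 732, .ofNat 248, .negSucc 880, .ofNat 0, .ofNat 295, .negSucc 75, .ofNat 0, .ofNat 0, .ofNat 1187, .ofNat 3064, .ofNat 0, .ofNat 0, .ofNat 0, .ofNat 0,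 .ofNat 0, .ofNat 2930032241632518516605107197444096000, .ofNat 143389040552120823227557399756800, .ofNat 0, .ofNat 0, .ofNat 0, .ofNat 709617978543915015510595888742400, .ofNat 0, .ofNat 0, .ofNat 0, .ofNat 0, .ofNat 0⟩)
    (by decide +kernel)
theorem L00314 : Good (Phi V4.P V4.D 1 (-1)) ⟨4, 11, 3, 0, 2, 2, 3, 7, 4, 2⟩ :=
  leaf_sound (S := T4.ds_pm) T4.ok_pm (w := 184) (c := ⟨⟨.negSucc 1125, .negSucc 522, .negSucc 63, .negSucc 1298, .negSucc 241, .negSucc 225⟩, ⟨.negSucc 150, .negSucc 157, .ofNat 147, .negSucc 98, .negSucc 31, .negSucc 19⟩, ⟨.ofNat 563, .ofNat 417, .ofNat 150, .ofNat 855, .ofNat 143, .ofNat 138⟩, ⟨.negSucc 2072, .negSucc 725, .negSucc 97, .negSucc 2451, .negSucc 438, .negSucc 422⟩, ⟨.negSucc 109, .ofNat 3, .negSucc 97, .ofNat 717, .ofNat 0, .ofNat 97⟩, .ofNat 505, .negSucc 330, .ofNat 0, .negSucc 330, .ofNat 2623, .ofNat 0, .ofNat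 1503, .ofNat 574, .negSucc 2081, .ofNat 0, .ofNat 603, .negSucc 236, .ofNat 0, .ofNat 0, .ofNat 2555, .ofNat 4886, .ofNat 0, .ofNat 221893205687273460045388873885286400, .ofNat 0, .ofNat 0, .ofNat 0, .ofNat 21859747593512612808060308424543436800, .ofNat 821404710284601125965889588428800, .ofNat 0, .ofNat 0, .ofNat 0, .ofNat 2676291419077076382774456641126400, .ofNat 0, .ofNat 0, .ofNat 24711061505087079674258476436029440000, .ofNat 106051523538160618495394866790400, .ofNat 0⟩)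
    (by decide +kernel)
theorem L00315 : Good (Phi V4.P V4.D 1 (-1)) ⟨4, 11, 3, 1, 2, 2, 2, 3, 4, 2⟩ :=
  out_sound (S := T4.ds_pm) T4.ok_pm (w := 56) (j := 3) (by decide +kernel)
theorem L00316 : Good (Phi V4.P V4.D 1 (-1)) ⟨3, 5, 2, 0, 2, 3, 2, 2, 4, 2⟩ :=
  leaf_sound (S := T4.ds_pm) T4.ok_pm (w := 176) (c := ⟨⟨.negSucc 1341, .negSucc 788, .negSucc 194, .negSucc 579, .negSucc 441, .negSucc 253⟩, ⟨.negSucc 139, .negSucc 120, .ofNat 434, .ofNat 72, .negSucc 32, .ofNat 3⟩, ⟨.ofNat 817, .ofNat 464, .ofNat 62, .ofNat 83, .ofNat 311, .ofNat 109⟩, ⟨.negSucc 2724, .negSucc 1077, .negSucc 151, .negSucc 1211, .negSucc 844, .negSucc 504⟩, ⟨.ofNat 153, .ofNat 582, .ofNat 1, .ofNat 1532, .ofNat 95, .ofNat 320⟩, .ofNat 309, .negSucc 32, .ofNat 0, .negSucc 32, .ofNat 665, .ofNat 0, .ofNat 492, .ofNat 53, .negSucc 487, .ofNat 0, .ofNat 215, .ofNat 33, .ofNat 0,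 .ofNat 0, .ofNat 577, .ofNat 1381, .ofNat 0, .ofNat 0, .ofNat 376090426533040187895919411200, .ofNat 0, .ofNat 0, .ofNat 0, .ofNat 10148887301808775519959986995200, .ofNat 0, .ofNat 0, .ofNat 0, .ofNat 17936411313564021457820005171200, .ofNat 0, .ofNat 0, .ofNat 0, .ofNat 0, .ofNat 0⟩)
    (by decide +kernel)

end Crest.Agent.R097C4.N4pm
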