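import Crest.Agent.R097.T4

/-!
# Row 97, box cover in dimension n = 4 (generated)
-/

set_option autoImplicit false
set_option Elab.async false
set_option maxHeartbeats 0
set_option maxRecDepth 100000

open Crest.Agent.R097 Crest.Agent.R097.KA


namespace Crest.Agent.R097C4.N4pm

theorem L00317 : Good (Phi V4.P V4.D 1 (-1)) ⟨4, 10, 2, 0, 2, 3, 3, 6, 4, 2⟩ :=
  leaf_sound (S := T4.ds_pm) T4.ok_pm (w := 184) (c := ⟨⟨.negSucc 1540, .negSucc 483, .negSucc 267, .negSucc 830, .negSucc 389, .negSucc 350⟩, ⟨.negSucc 175, .negSucc 88, .ofNat 505, .ofNat 96, .negSucc 15, .ofNat 2⟩, ⟨.ofNat 920, .ofNat 264, .ofNat 184, .ofNat 321, .ofNat 255, .ofNat 187⟩, ⟨.negSucc 3129, .negSucc 662, .negSucc 308, .negSucc 1685, .negSucc 751, .negSucc 689⟩, ⟨.ofNat 237, .ofNat 235, .negSucc 16, .ofNat 1769, .ofNat 78, .ofNat 267⟩, .ofNat 413, .negSucc 58, .ofNat 0, .negSucc 58, .ofNat 1437,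 .ofNat 0, .ofNat 479, .ofNat 83, .negSucc 435, .ofNat 0, .ofNat 167, .ofNat 5, .ofNat 0, .ofNat 0, .ofNat 551, .ofNat 1161, .ofNat 0, .ofNat 8134791797681879694659190521856000, .ofNat 105993151836847578875009433600, .ofNat 0, .ofNat 0, .ofNat 156044005042964233534480137270067200, .ofNat 20766574825496154390635583897600, .ofNat 0, .ofNat 0, .ofNat 78362397077366697706347990456729600, .ofNat 52192468813963454001682631884800, .ofNat 0, .ofNat 0, .ofNat 0, .ofNat 0, .ofNat 0⟩)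
    (by decide +kernel)
theorem L00318 : Good (Phi V4.P V4.D 1 (-1)) ⟨5, 22, 3, 0, 2, 3, 3, 6, 4, 2⟩ :=
  leaf_sound (S := T4.ds_pm) T4.ok_pm (w := 184) (c := ⟨⟨.negSucc 1988, .negSucc 332, .negSucc 377, .negSucc 824, .negSucc 468, .negSucc 325⟩, ⟨.negSucc 229, .negSucc 61, .ofNat 228, .ofNat 73, .negSucc 50, .negSucc 15⟩, ⟨.ofNat 1190, .ofNat 191, .ofNat 233, .ofNat 299, .ofNat 281, .ofNat 166⟩, ⟨.negSucc 3725, .negSucc 478, .negSucc 556, .negSucc 1741, .negSucc 864, .negSucc 625⟩, ⟨.ofNat 421, .ofNat 104, .negSucc 181, .ofNat 1884, .ofNat 73, .ofNat 256⟩, .ofNat 470, .negSucc 239, .ofNat 0, .negSucc 239, .ofNat 2041, .ofNat 0, .ofNat 452, .ofNat 192, .negSucc 445, .ofNat 0, .ofNat 167, .negSucc 31, .ofNat 0, .ofNat 0, .ofNat 557, .ofNat 1280, .ofNat 0, .ofNat 578624151035724204946271881081651200, .ofNat 118098820388008917123622502400, .ofNat 0, .ofNat 0, .ofNat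 7583492719119623220304767189673574400, .ofNat 20296502394167820670540657459200, .ofNat 0, .ofNat 0, .ofNat 0, .ofNat 42718470270827682353526079488000, .ofNat 0, .ofNat 0, .ofNat 0, .ofNat 0, .ofNat 0⟩)
    (by decide +kernel)
theorem L00319 : Good (Phi V4.P V4.D 1 (-1)) ⟨5, 23, 3, 0, 2, 3, 3, 6, 4, 2⟩ :=
  out_sound (S := T4.ds_pm) T4.ok_pm (w := 64) (j := 3) (by decide +kernel)
theorem L00320 : Good (Phi V4.P V4.D 1 (-1)) ⟨4, 11, 3, 1, 2, 3, 3, 6, 4, 2⟩ :=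
  out_sound (S := T4.ds_pm) T4.ok_pm (w := 56) (j := 3) (by decide +kernel)
theorem L00321 : Good (Phi V4.P V4.D 1 (-1)) ⟨4, 10, 2, 0, 2, 3, 3, 7, 4, 2⟩ :=
  leaf_sound (S := T4.ds_pm) T4.ok_pm (w := 184) (c := ⟨⟨.negSucc 1863, .negSucc 583, .negSucc 349, .negSucc 921, .negSucc 267, .negSucc 259⟩, ⟨.negSucc 203, .negSucc 102, .ofNat 511, .ofNat 121, .ofNat 15, .ofNat 22⟩, ⟨.ofNat 1128, .ofNat 342, .ofNat 274, .ofNat 358, .ofNat 154, .ofNat 114⟩, ⟨.negSucc 3757, .negSucc 846, .negSucc 475, .negSucc 1840, .negSucc 532, .negSucc 524⟩, ⟨.ofNat 232, .ofNat 200, .negSucc 27, .ofNat 1892, .ofNat 286, .ofNat 381⟩, .ofNat 412, .negSucc 42, .ofNat 0, .negSucc 42, .ofNat 1391, .ofNat 0, .ofNat 981, .ofNat 158, .negSucc 984, .ofNat 0, .ofNat 345, .ofNat 6, .ofNat 0, .ofNat 0, .ofNat 1153, .ofNat 2503, .ofNat 0, .ofNat 48152547886271940542009040489676800, .ofNat 0, .ofNat 0,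 .ofNat 0, .ofNat 2408940957388803529707761198904115200, .ofNat 49638393238127816865939141427200, .ofNat 0, .ofNat 0, .ofNat 1360617475351154146029074369426227200, .ofNat 85482273801908262231117869875200, .ofNat 0, .ofNat 0, .ofNat 1728320469355194037017700671789465600, .ofNat 51142751484958227494504654438400, .ofNat 0⟩)
    (by decide +kernel)
theorem L00322 : Good (Phi V4.P V4.D 1 (-1)) ⟨4, 11, 3, 0, 3, 6, 3, 7, 4, 2⟩ :=
  leaf_sound (S := T4.ds_pm) T4.ok_pm (w := 192) (c := ⟨⟨.negSucc 2245, .negSucc 805, .negSucc 236, .negSucc 739, .negSucc 596, .negSucc 421⟩, ⟨.negSucc 239, .negSucc 182, .ofNat 239, .negSucc 18, .negSucc 74, .negSucc 34⟩, ⟨.ofNat 1332, .ofNat 484, .ofNat 187, .ofNat 355, .ofNat 356, .ofNat 227⟩, ⟨.negSucc 4221, .negSucc 1158, .negSucc 359, .negSucc 1442, .negSucc 1080, .negSucc 788⟩, ⟨.ofNat 594, .ofNat 128, .ofNat 21, .ofNat 774, .negSucc 13,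 .ofNat 171⟩, .ofNat 409, .negSucc 137, .ofNat 0, .negSucc 137, .ofNat 1300, .ofNat 0, .ofNat 1859, .ofNat 720, .negSucc 2301, .ofNat 0, .ofNat 755, .negSucc 193, .ofNat 0, .ofNat 0, .ofNat 2498, .ofNat 6310, .ofNat 0, .ofNat 78792060217365794667271411216259481600, .ofNat 1225231913112968262978720969523200, .ofNat 0, .ofNat 0, .ofNat 5956030227906180209413129514615046144000, .ofNat 390517492082509662057355503520972800, .ofNat 0, .ofNat 0, .ofNat 2263840085190310107593378589516496896000, .ofNat 1307473419480830896330346698742169600, .ofNat 0, .ofNat 0, .ofNat 6247226156767677060733608589928064614400, .ofNat 192186286967414829755717311581388800, .ofNat 0⟩)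
    (by decide +kernel)
theorem L00323 : Good (Phi V4.P V4.D 1 (-1)) ⟨4, 11, 3, 1, 3, 6, 3, 7, 4, 2⟩ :=
  out_sound (S := T4.ds_pm) T4.ok_pm (w := 56) (j := 3) (by decide +kernel)
theorem L00324 : Good (Phi V4.P V4.D 1 (-1)) ⟨4, 11, 2, 0, 3, 7, 3, 7, 4, 2⟩ :=
  leaf_sound (S := T4.ds_pm) T4.ok_pm (w := 192) (c := ⟨⟨.negSucc 2963, .negSucc 842, .negSucc 464, .negSucc 280, .negSucc 711, .negSucc 530⟩, ⟨.negSucc 279, .negSucc 147, .ofNat 605, .ofNat 83, .negSucc 73, .negSucc 18⟩, ⟨.ofNat 1682, .ofNat 418, .ofNat 238, .ofNat 69, .ofNat 409, .ofNat 294⟩, ⟨.negSucc 5610, .negSucc 1231, .negSucc 562, .negSucc 673, .negSucc 1311, .negSucc 1034⟩, ⟨.ofNat 1229, .ofNat 175, .negSucc 143, .ofNat 1274, .ofNat 187, .ofNat 538⟩, .ofNat 470, .negSucc 241, .ofNat 0, .negSucc 241, .ofNat 2035, .ofNat 0, .ofNat 2041, .ofNat 1058, .negSucc 2102, .ofNat 0, .ofNat 744, .negSucc 173,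 .ofNat 0, .ofNat 0, .ofNat 2299, .ofNat 4853, .ofNat 0, .ofNat 20869243513282107775832111564665651200, .ofNat 1542575358839963609244456556953600, .ofNat 0, .ofNat 0, .ofNat 1676188457200366855838682424509726720000, .ofNat 1045124706590820325341604199006208000, .ofNat 0, .ofNat 0, .ofNat 1404859293548678491718183775106183987200, .ofNat 1207914619789404232162933090340044800, .ofNat 0, .ofNat 0, .ofNat 1621096939071127068932913237124448256000, .ofNat 635973819245579179895867174603980800, .ofNat 0⟩)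
    (by decide +kernel)
theorem L00325 : Good (Phi V4.P V4.D 1 (-1)) ⟨3, 4, 2, 0, 2, 2, 2, 2, 4, 3⟩ :=
  leaf_sound (S := T4.ds_pm) T4.ok_pm (w := 176) (c := ⟨⟨.negSucc 746, .negSucc 355, .negSucc 63, .negSucc 569, .negSucc 37, .negSucc 34⟩, ⟨.negSucc 30, .negSucc 73, .ofNat 234, .ofNat 41, .ofNat 5, .negSucc 5⟩, ⟨.ofNat 434, .ofNat 230, .ofNat 80, .ofNat 332, .negSucc 51, .negSucc 27⟩, ⟨.negSucc 1760, .negSucc 401, .negSucc 104, .negSucc 1179, .negSucc 85, .negSucc 74⟩, ⟨.negSucc 209, .ofNat 169, .ofNat 12, .ofNat 529, .negSucc 32, .ofNat 16⟩, .ofNat 330, .ofNat 21, .ofNat 0, .ofNat 21, .ofNat 747, .ofNat 0, .ofNat 339, .negSucc 27, .negSucc 333, .ofNat 0, .ofNat 168, .ofNat 45, .ofNat 0, .ofNat 0, .ofNat 529, .ofNat 1622, .ofNat 0, .ofNat 0, .ofNat 0, .ofNat 0, .ofNat 0, .ofNat 0, .ofNat 0, .ofNat 0, .ofNat 0, .ofNat 0, .ofNat 0, .ofNat 0, .ofNat 0, .ofNat 0,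 .ofNat 0, .ofNat 0⟩)
    (by decide +kernel)
theorem L00326 : Good (Phi V4.P V4.D 1 (-1)) ⟨3, 4, 2, 0, 2, 3, 2, 2, 4, 3⟩ :=
  leaf_sound (S := T4.ds_pm) T4.ok_pm (w := 176) (c := ⟨⟨.negSucc 1151, .negSucc 511, .negSucc 167, .negSucc 589, .negSucc 233, .negSucc 19⟩, ⟨.negSucc 58, .negSucc 83, .ofNat 394, .ofNat 77, .ofNat 15, .negSucc 0⟩, ⟨.ofNat 638, .ofNat 273, .ofNat 79, .ofNat 195, .ofNat 213, .negSucc 25⟩, ⟨.negSucc 2704, .negSucc 634, .negSucc 169, .negSucc 1191, .negSucc 497, .negSucc 43⟩, ⟨.ofNat 16, .ofNat 418, .ofNat 59, .ofNat 1482, .ofNat 137, .ofNat 103⟩, .ofNat 332, .ofNat 21, .ofNat 0, .ofNat 21, .ofNat 761, .ofNat 0, .ofNat 811, .negSucc 96, .negSucc 639, .ofNat 0, .ofNat 370, .ofNat 102, .ofNat 0, .ofNat 0, .ofNat 1014, .ofNat 2301, .ofNat 0, .ofNat 0, .ofNat 0, .ofNat 0, .ofNat 0, .ofNat 0, .ofNat 0, .ofNat 0, .ofNat 0, .ofNat 6974859618389465034446054463897600,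 .ofNat 0, .ofNat 0, .ofNat 0, .ofNat 0, .ofNat 0, .ofNat 0⟩)
    (by decide +kernel)
theorem L00327 : Good (Phi V4.P V4.D 1 (-1)) ⟨3, 4, 2, 0, 2, 2, 2, 3, 4, 3⟩ :=
  leaf_sound (S := T4.ds_pm) T4.ok_pm (w := 176) (c := ⟨⟨.negSucc 567, .negSucc 523, .negSucc 145, .negSucc 793, .negSucc 132, .negSucc 38⟩, ⟨.negSucc 69, .negSucc 66, .ofNat 264, .ofNat 87, .ofNat 12, .negSucc 3⟩, ⟨.ofNat 149, .ofNat 377, .ofNat 172, .ofNat 568, .ofNat 35, .ofNat 2⟩, ⟨.negSucc 1411, .negSucc 716, .negSucc 263, .negSucc 1637, .negSucc 277, .negSucc 91⟩, ⟨.negSucc 297, .ofNat 163, .ofNat 47, .ofNat 599, .ofNat 127, .ofNat 48⟩, .ofNat 332, .ofNat 29, .ofNat 0, .ofNat 29, .ofNat 746, .ofNat 0, .ofNat 371, .negSucc 31, .negSucc 423, .ofNat 0, .ofNat 181, .ofNat 41, .ofNat 0, .ofNat 0, .ofNat 571, .ofNat 615, .ofNat 0, .ofNat 0, .ofNat 0, .ofNat 0, .ofNat 0, .ofNat 6297183883955464298133740480102400,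 .ofNat 0, .ofNat 0, .ofNat 0, .ofNat 0, .ofNat 0, .ofNat 0, .ofNat 0, .ofNat 4414096751432535418728901666406400, .ofNat 0, .ofNat 0⟩)
    (by decide +kernel)
theorem L00328 : Good (Phi V4.P V4.D 1 (-1)) ⟨3, 4, 3, 0, 2, 3, 2, 3, 4, 3⟩ :=
  leaf_sound (S := T4.ds_pm) T4.ok_pm (w := 176) (c := ⟨⟨.negSucc 1234, .negSucc 682, .negSucc 96, .negSucc 785, .negSucc 408, .negSucc 90⟩, ⟨.negSucc 20, .negSucc 119, .ofNat 197, .ofNat 38, .ofNat 20, .ofNat 7⟩, ⟨.ofNat 673, .ofNat 397, .ofNat 85, .ofNat 437, .ofNat 260, .ofNat 28⟩, ⟨.negSucc 2868, .negSucc 971, .negSucc 123, .negSucc 1648, .negSucc 839, .negSucc 189⟩, ⟨.ofNat 158, .ofNat 356, .ofNat 31, .ofNat 1546, .ofNat 196, .ofNat 92⟩, .ofNat 332, .ofNat 4, .ofNat 0, .ofNat 4, .ofNat 790, .ofNat 0, .ofNat 440, .negSucc 1, .negSucc 410, .ofNat 0, .ofNat 186, .ofNat 35, .ofNat 0, .ofNat 0, .ofNat 548, .ofNat 1108, .ofNat 0,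 .ofNat 1412319470963530784480137366732800, .ofNat 0, .ofNat 0, .ofNat 0, .ofNat 58639328684077703141774560591872000, .ofNat 0, .ofNat 0, .ofNat 0, .ofNat 44740474272168074081093508975820800, .ofNat 0, .ofNat 0, .ofNat 0, .ofNat 49881844921442036897495421812736000, .ofNat 0, .ofNat 0⟩)
    (by decide +kernel)
theorem L00329 : Good (Phi V4.P V4.D 1 (-1)) ⟨3, 4, 3, 1, 2, 3, 3, 6, 4, 3⟩ :=
  leaf_sound (S := T4.ds_pm) T4.ok_pm (w := 184) (c := ⟨⟨.negSucc 1298, .negSucc 699, .negSucc 118, .negSucc 841, .negSucc 198, .negSucc 87⟩, ⟨.ofNat 98, .negSucc 44, .ofNat 210, .ofNat 168, .ofNat 23, .ofNat 18⟩, ⟨.ofNat 771, .ofNat 389, .ofNat 87, .ofNat 377, .ofNat 140, .ofNat 21⟩, ⟨.negSucc 2997, .negSucc 952, .negSucc 161, .negSucc 1625, .negSucc 413, .negSucc 181⟩, ⟨.ofNat 150, .ofNat 408, .ofNat 5, .ofNat 1598, .ofNat 128, .ofNat 113⟩, .ofNat 334, .ofNat 44, .ofNat 0, .ofNat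 44, .ofNat 723, .ofNat 0, .ofNat 869, .negSucc 133, .negSucc 803, .ofNat 0, .ofNat 399, .ofNat 132, .ofNat 0, .ofNat 0, .ofNat 1069, .ofNat 3566, .ofNat 0, .ofNat 6922263142626831696059790734131200, .ofNat 0, .ofNat 0, .ofNat 0, .ofNat 411526039920792440619912833846476800, .ofNat 0, .ofNat 0, .ofNat 0, .ofNat 329782495874076821416055905714176000, .ofNat 0, .ofNat 0, .ofNat 0, .ofNat 308790860950614605180831734431744000, .ofNat 0, .ofNat 0⟩)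
    (by decide +kernel)
theorem L00330 : Good (Phi V4.P V4.D 1 (-1)) ⟨3, 4, 3, 1, 2, 3, 3, 7, 4, 3⟩ :=
  out_sound (S := T4.ds_pm) T4.ok_pm (w := 32) (j := 2) (by decide +kernel)
theorem L00331 : Good (Phi V4.P V4.D 1 (-1)) ⟨3, 5, 2, 0, 2, 2, 2, 2, 4, 3⟩ :=
  leaf_sound (S := T4.ds_pm) T4.ok_pm (w := 176) (c := ⟨⟨.negSucc 951, .negSucc 556, .negSucc 117, .negSucc 719, .negSucc 181, .negSucc 51⟩, ⟨.negSucc 97, .negSucc 169, .ofNat 281, .ofNat 3, .negSucc 17, .ofNat 5⟩, ⟨.ofNat 586, .ofNat 367, .ofNat 114, .ofNat 377, .ofNat 68, .negSucc 24⟩, ⟨.negSucc 1924, .negSucc 676, .negSucc 182, .negSucc 1406, .negSucc 335, .negSucc 92⟩, ⟨.negSucc 135, .ofNat 265, .ofNat 60, .ofNat 685, .negSucc 42, .ofNat 32⟩, .ofNat 412, .negSucc 91, .ofNat 0, .negSucc 91, .ofNat 1415, .ofNat 0, .ofNat 670, .ofNat 114, .negSucc 605, .ofNat 0, .ofNat 275, .negSucc 0, .ofNat 0, .ofNat 0, .ofNat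 1022, .ofNat 3544, .ofNat 0, .ofNat 0, .ofNat 727356639156955206265287475200, .ofNat 0, .ofNat 0, .ofNat 0, .ofNat 81339122541357190418972383641600, .ofNat 0, .ofNat 0, .ofNat 0, .ofNat 100013095515405751525482430464000, .ofNat 0, .ofNat 0, .ofNat 0, .ofNat 0, .ofNat 0⟩)
    (by decide +kernel)
theorem L00332 : Good (Phi V4.P V4.D 1 (-1)) ⟨3, 5, 2, 0, 2, 3, 3, 4, 4, 3⟩ :=
  leaf_sound (S := T4.ds_pm) T4.ok_pm (w := 176) (c := ⟨⟨.negSucc 1624, .negSucc 652, .negSucc 229, .negSucc 531, .negSucc 203, .negSucc 0⟩, ⟨.negSucc 164, .negSucc 76, .ofNat 447, .ofNat 88, .negSucc 11, .ofNat 6⟩, ⟨.ofNat 915, .ofNat 346, .ofNat 99, .ofNat 107, .ofNat 164, .negSucc 42⟩, ⟨.negSucc 3268, .negSucc 831, .negSucc 236, .negSucc 1150, .negSucc 383, .negSucc 6⟩, ⟨.ofNat 368, .ofNat 511, .ofNat 40, .ofNat 1748, .ofNat 2, .ofNat 76⟩, .ofNat 310, .negSucc 33, .ofNat 0, .negSucc 33, .ofNat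 672, .ofNat 0, .ofNat 429, .ofNat 26, .negSucc 342, .ofNat 0, .ofNat 199, .ofNat 32, .ofNat 0, .ofNat 0, .ofNat 517, .ofNat 2124, .ofNat 0, .ofNat 169021221006798970139867244134400, .ofNat 2073985258107479219237604556800, .ofNat 0, .ofNat 0, .ofNat 0, .ofNat 136446675012264085501147663564800, .ofNat 0, .ofNat 0, .ofNat 6510413676508568928669613739212800, .ofNat 151341247881288181497885150412800, .ofNat 0, .ofNat 0, .ofNat 0, .ofNat 151501594387902204263023824076800, .ofNat 0⟩)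
    (by decide +kernel)
theorem L00333 : Good (Phi V4.P V4.D 1 (-1)) ⟨4, 10, 2, 0, 3, 6, 3, 5, 4, 3⟩ :=
  leaf_sound (S := T4.ds_pm) T4.ok_pm (w := 192) (c := ⟨⟨.negSucc 1657, .negSucc 388, .negSucc 214, .negSucc 451, .negSucc 266, .negSucc 23⟩, ⟨.negSucc 144, .negSucc 81, .ofNat 428, .ofNat 36, .negSucc 11, .ofNat 12⟩, ⟨.ofNat 937, .ofNat 221, .ofNat 153, .ofNat 188, .ofNat 184, .negSucc 27⟩, ⟨.negSucc 3352, .negSucc 511, .negSucc 263, .negSucc 894, .negSucc 507, .negSucc 44⟩, ⟨.ofNat 453, .ofNat 223, .ofNat 96, .ofNat 740, .ofNat 58, .ofNat 72⟩, .ofNat 311, .negSucc 24, .ofNat 0, .negSucc 24, .ofNat 674, .ofNat 0, .ofNat 435, .ofNat 34, .negSucc 416, .ofNat 0, .ofNat 199, .ofNat 29, .ofNat 0, .ofNat 0, .ofNat 548, .ofNat 5314, .ofNat 0, .ofNat 1977419495909997802698842338806988800, .ofNat 0, .ofNat 0, .ofNat 0, .ofNat 334368133965078131329796979818496000, .ofNat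 11842284231585136813668854818406400, .ofNat 0, .ofNat 0, .ofNat 9908212925448344064197683677914726400, .ofNat 20081250464875188867596779152998400, .ofNat 0, .ofNat 0, .ofNat 0, .ofNat 8912644202940709573916857309593600, .ofNat 0⟩)
    (by decide +kernel)
theorem L00334 : Good (Phi V4.P V4.D 1 (-1)) ⟨4, 10, 2, 0, 3, 7, 3, 5, 4, 3⟩ :=
  leaf_sound (S := T4.ds_pm) T4.ok_pm (w := 192) (c := ⟨⟨.negSucc 2101, .negSucc 371, .negSucc 262, .negSucc 207, .negSucc 320, .negSucc 22⟩, ⟨.negSucc 179, .negSucc 33, .ofNat 553, .ofNat 78, .negSucc 7, .ofNat 22⟩, ⟨.ofNat 1121, .ofNat 192, .ofNat 108, .ofNat 43, .ofNat 245, .ofNat 3⟩, ⟨.negSucc 4261, .negSucc 486, .negSucc 208, .negSucc 472, .negSucc 628, .negSucc 52⟩, ⟨.ofNat 994, .ofNat 312, .ofNat 106, .ofNat 1197, .ofNat 188, .ofNat 225⟩, .ofNat 311, .negSucc 26, .ofNat 0, .negSucc 26, .ofNat 678, .ofNat 0, .ofNat 479, .ofNat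 32, .negSucc 382, .ofNat 0, .ofNat 212, .ofNat 35, .ofNat 0, .ofNat 0, .ofNat 526, .ofNat 2021, .ofNat 0, .ofNat 1036758745136471562964125461407334400, .ofNat 300798403556373061838780026060800, .ofNat 0, .ofNat 0, .ofNat 0, .ofNat 0, .ofNat 0, .ofNat 0, .ofNat 22038529508272587429770497038168883200, .ofNat 14537191490387994652759287241113600, .ofNat 0, .ofNat 0, .ofNat 0, .ofNat 0, .ofNat 0⟩)
    (by decide +kernel)
theorem L00335 : Good (Phi V4.P V4.D 1 (-1)) ⟨5, 22, 3, 0, 3, 6, 3, 5, 4, 3⟩ :=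
  leaf_sound (S := T4.ds_pm) T4.ok_pm (w := 200) (c := ⟨⟨.negSucc 2005, .negSucc 236, .negSucc 177, .negSucc 470, .negSucc 318, .negSucc 3⟩, ⟨.negSucc 205, .negSucc 46, .ofNat 227, .ofNat 16, .negSucc 33, .ofNat 5⟩, ⟨.ofNat 1142, .ofNat 139, .ofNat 125, .ofNat 196, .ofNat 209, .negSucc 40⟩, ⟨.negSucc 3780, .negSucc 320, .negSucc 247, .negSucc 959, .negSucc 587, .negSucc 14⟩, ⟨.ofNat 643, .ofNat 132, .ofNat 43, .ofNat 806, .ofNat 63, .ofNat 57⟩, .ofNat 508, .negSucc 335, .ofNat 0, .negSucc 335, .ofNat 2690, .ofNat 0, .ofNat 758, .ofNat 279, .negSucc 635, .ofNat 0, .ofNat 284, .negSucc 40, .ofNat 0, .ofNat 0, .ofNat 1009, .ofNat 7548, .ofNat 0, .ofNat 192535523513720626744550044086357196800, .ofNat 416804276708899830052927045632000, .ofNat 0, .ofNat 0, .ofNat 0, .ofNat 79015031812843155566772659159040000, .ofNat 0, .ofNat 0, .ofNat 3489669131160364725872092747841667072000,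 .ofNat 103668906712666515967749552655564800, .ofNat 0, .ofNat 0, .ofNat 0, .ofNat 0, .ofNat 0⟩)
    (by decide +kernel)
theorem L00336 : Good (Phi V4.P V4.D 1 (-1)) ⟨5, 22, 3, 0, 3, 7, 3, 5, 4, 3⟩ :=
  leaf_sound (S := T4.ds_pm) T4.ok_pm (w := 200) (c := ⟨⟨.negSucc 2476, .negSucc 183, .negSucc 131, .negSucc 183, .negSucc 384, .negSucc 2⟩, ⟨.negSucc 219, .negSucc 14, .ofNat 295, .ofNat 96, .negSucc 25, .ofNat 19⟩, ⟨.ofNat 1315, .ofNat 103, .ofNat 62, .ofNat 37, .ofNat 269, .negSucc 12⟩, ⟨.negSucc 4721, .negSucc 237, .negSucc 102, .negSucc 486, .negSucc 727, .negSucc 31⟩, ⟨.ofNat 1278, .ofNat 170, .ofNat 78, .ofNat 1239, .ofNat 211, .ofNat 210⟩, .ofNat 408, .negSucc 133, .ofNat 0, .negSucc 133, .ofNat 1302, .ofNat 0, .ofNat 858, .ofNat 238, .negSucc 617, .ofNat 0, .ofNat 343, .negSucc 9, .ofNat 0, .ofNat 0, .ofNat 999, .ofNat 4968, .ofNat 0, .ofNat 154838397990151521126929423282680627200,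 .ofNat 337679492248865574177808475750400, .ofNat 0, .ofNat 0, .ofNat 0, .ofNat 0, .ofNat 0, .ofNat 0, .ofNat 7217132684152034351416220866526891212800, .ofNat 38592806800832397466422488963481600, .ofNat 0, .ofNat 0, .ofNat 0, .ofNat 0, .ofNat 0⟩)
    (by decide +kernel)
theorem L00337 : Good (Phi V4.P V4.D 1 (-1)) ⟨5, 22, 3, 1, 2, 3, 3, 5, 4, 3⟩ :=
  out_sound (S := T4.ds_pm) T4.ok_pm (w := 64) (j := 3) (by decide +kernel)
theorem L00338 : Good (Phi V4.P V4.D 1 (-1)) ⟨5, 23, 2, 0, 2, 3, 3, 5, 4, 3⟩ :=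
  out_sound (S := T4.ds_pm) T4.ok_pm (w := 56) (j := 3) (by decide +kernel)
theorem L00339 : Good (Phi V4.P V4.D 1 (-1)) ⟨4, 10, 2, 0, 3, 4, 2, 3, 4, 3⟩ :=
  leaf_sound (S := T4.ds_pm) T4.ok_pm (w := 184) (c := ⟨⟨.negSucc 1015, .negSucc 315, .negSucc 123, .negSucc 450, .negSucc 252, .negSucc 61⟩, ⟨.negSucc 96, .negSucc 90, .ofNat 253, .negSucc 6, .negSucc 10, .ofNat 0⟩, ⟨.ofNat 478, .ofNat 239, .ofNat 168, .ofNat 313, .ofNat 136, .ofNat 27⟩, ⟨.negSucc 2031, .negSucc 409, .negSucc 223, .negSucc 871, .negSucc 482, .negSucc 118⟩, ⟨.negSucc 86, .ofNat 69, .ofNat 19, .ofNat 249, .ofNat 44, .ofNat 42⟩, .ofNat 413, .negSucc 72, .ofNat 0, .negSucc 72, .ofNat 1433, .ofNat 0, .ofNat 683, .ofNat 99, .negSucc 770, .ofNat 0, .ofNat 282, .negSucc 23, .ofNat 0, .ofNat 0, .ofNat 1111, .ofNat 1659, .ofNat 0, .ofNat 0, .ofNat 0, .ofNat 0, .ofNat 0, .ofNat 47748940880657440040763988320976896000,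 .ofNat 0, .ofNat 0, .ofNat 0, .ofNat 0, .ofNat 0, .ofNat 0, .ofNat 0, .ofNat 43626410285581484012498680269294796800, .ofNat 0, .ofNat 0⟩)
    (by decide +kernel)
theorem L00340 : Good (Phi V4.P V4.D 1 (-1)) ⟨4, 11, 2, 0, 3, 4, 2, 3, 4, 3⟩ :=
  leaf_sound (S := T4.ds_pm) T4.ok_pm (w := 184) (c := ⟨⟨.negSucc 1263, .negSucc 371, .negSucc 84, .negSucc 510, .negSucc 363, .negSucc 81⟩, ⟨.negSucc 160, .negSucc 121, .ofNat 254, .negSucc 39, .negSucc 44, .negSucc 4⟩, ⟨.ofNat 671, .ofNat 285, .ofNat 131, .ofNat 344, .ofNat 219, .ofNat 43⟩, ⟨.negSucc 2331, .negSucc 478, .negSucc 139, .negSucc 962, .negSucc 664, .negSucc 153⟩, ⟨.negSucc 14, .ofNat 66, .ofNat 24, .ofNat 264, .ofNat 23, .ofNat 40⟩, .ofNat 494, .negSucc 298, .ofNat 0, .negSucc 298, .ofNat 2446, .ofNat 0, .ofNat 657, .ofNat 227, .negSucc 788, .ofNat 0, .ofNat 269, .negSucc 81, .ofNat 0, .ofNat 0, .ofNat 1121, .ofNat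 1840, .ofNat 0, .ofNat 537899989320048032406883636818739200, .ofNat 80564321040689619084375805132800, .ofNat 0, .ofNat 0, .ofNat 62104216567318537988683571791292006400, .ofNat 20324957583947956715958036332544000, .ofNat 0, .ofNat 0, .ofNat 0, .ofNat 39269026376764872013001356266700800, .ofNat 0, .ofNat 0, .ofNat 53967117966442348051561291865653248000, .ofNat 3581595141206202204120840300134400, .ofNat 0⟩)
    (by decide +kernel)
theorem L00341 : Good (Phi V4.P V4.D 1 (-1)) ⟨4, 10, 2, 0, 3, 5, 3, 6, 4, 3⟩ :=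
  leaf_sound (S := T4.ds_pm) T4.ok_pm (w := 192) (c := ⟨⟨.negSucc 1348, .negSucc 392, .negSucc 194, .negSucc 541, .negSucc 232, .negSucc 66⟩, ⟨.negSucc 136, .negSucc 86, .ofNat 345, .ofNat 16, .negSucc 6, .ofNat 3⟩, ⟨.ofNat 736, .ofNat 261, .ofNat 205, .ofNat 319, .ofNat 152, .ofNat 12⟩, ⟨.negSucc 2711, .negSucc 515, .negSucc 305, .negSucc 1059, .negSucc 448, .negSucc 130⟩, ⟨.ofNat 109, .ofNat 122, .ofNat 51, .ofNat 468, .ofNat 25, .ofNat 55⟩, .ofNat 312, .negSucc 19, .ofNat 0, .negSucc 19, .ofNat 676, .ofNat 0, .ofNat 817, .ofNat 71, .negSucc 986, .ofNat 0, .ofNat 393, .ofNat 24, .ofNat 0, .ofNat 0, .ofNat 1196, .ofNat 4159, .ofNat 0, .ofNat 0, .ofNat 0, .ofNat 0, .ofNat 0, .ofNat 140892007867599435967157930415253094400, .ofNat 0, .ofNat 0, .ofNat 0, .ofNat 0, .ofNat 0, .ofNat 0, .ofNat 0, .ofNat 81537087357103576529334966617427148800, .ofNat 0, .ofNat 0⟩)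
    (by decide +kernel)
theorem L00342 : Good (Phi V4.P V4.D 1 (-1)) ⟨4, 11, 2, 0, 3, 5, 3, 6, 4, 3⟩ :=
  leaf_sound (S := T4.ds_pm) T4.ok_pm (w := 192) (c := ⟨⟨.negSucc 1685, .negSucc 511, .negSucc 271, .negSucc 596, .negSucc 309, .negSucc 64⟩, ⟨.negSucc 195, .negSucc 138, .ofNat 332, .negSucc 25, .negSucc 35, .negSucc 3⟩, ⟨.ofNat 967, .ofNat 349, .ofNat 274, .ofNat 338, .ofNat 198, .ofNat 10⟩, ⟨.negSucc 3139, .negSucc 698, .negSucc 435, .negSucc 1147, .negSucc 564, .negSucc 125⟩, ⟨.ofNat 230, .ofNat 123, .ofNat 48, .ofNat 498, .ofNat 12, .ofNat 56⟩, .ofNat 470, .negSucc 237, .ofNat 0, .negSucc 237, .ofNat 2043, .ofNat 0, .ofNat 1443, .ofNat 506, .negSucc 1539, .ofNat 0, .ofNat 573, .negSucc 135, .ofNat 0, .ofNat 0, .ofNat 2171, .ofNat 8690, .ofNat 0, .ofNat 8113791726018052886142151341952204800, .ofNat 974161022288358781594644774912000, .ofNat 0, .ofNat 0, .ofNat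 572793968464001394728346139202106163200, .ofNat 263341064319215575631020349718528000, .ofNat 0, .ofNat 0, .ofNat 0, .ofNat 1582974964363836935547178920286617600, .ofNat 0, .ofNat 0, .ofNat 432077491439256290848561260423806976000, .ofNat 633169078323855281467608223501516800, .ofNat 0⟩)
    (by decide +kernel)
theorem L00343 : Good (Phi V4.P V4.D 1 (-1)) ⟨3, 5, 2, 0, 3, 5, 3, 7, 4, 3⟩ :=
  leaf_sound (S := T4.ds_pm) T4.ok_pm (w := 184) (c := ⟨⟨.negSucc 1473, .negSucc 966, .negSucc 239, .negSucc 663, .negSucc 294, .negSucc 166⟩, ⟨.negSucc 113, .negSucc 241, .ofNat 325, .negSucc 11, .negSucc 10, .negSucc 5⟩, ⟨.ofNat 782, .ofNat 688, .ofNat 270, .ofNat 413, .ofNat 189, .ofNat 94⟩, ⟨.negSucc 2958, .negSucc 1338, .negSucc 409, .negSucc 1277, .negSucc 563, .negSucc 310⟩, ⟨.ofNat 165, .ofNat 179, .ofNat 30, .ofNat 439, .ofNat 28, .ofNat 68⟩, .ofNat 309, .negSucc 30, .ofNat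 0, .negSucc 30, .ofNat 661, .ofNat 0, .ofNat 1700, .ofNat 247, .negSucc 2525, .ofNat 0, .ofNat 834, .negSucc 67, .ofNat 0, .ofNat 0, .ofNat 2724, .ofNat 2787, .ofNat 0, .ofNat 833552525850780678191687500038144000, .ofNat 2624096542596071289053362362777600, .ofNat 0, .ofNat 0, .ofNat 122491591728967019696517339439693824000, .ofNat 0, .ofNat 0, .ofNat 0, .ofNat 79043985404133228841645814732292096000, .ofNat 0, .ofNat 0, .ofNat 0, .ofNat 106057747428839802346112390201868288000, .ofNat 0, .ofNat 0⟩)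
    (by decide +kernel)
theorem L00344 : Good (Phi V4.P V4.D 1 (-1)) ⟨4, 10, 2, 0, 3, 6, 3, 6, 4, 3⟩ :=
  leaf_sound (S := T4.ds_pm) T4.ok_pm (w := 192) (c := ⟨⟨.negSucc 1810, .negSucc 457, .negSucc 247, .negSucc 553, .negSucc 355, .negSucc 92⟩, ⟨.negSucc 157, .negSucc 88, .ofNat 453, .ofNat 35, .negSucc 13, .ofNat 6⟩, ⟨.ofNat 1031, .ofNat 270, .ofNat 202, .ofNat 264, .ofNat 233, .ofNat 24⟩, ⟨.negSucc 3656, .negSucc 612, .negSucc 327, .negSucc 1094, .negSucc 680, .negSucc 177⟩, ⟨.ofNat 526, .ofNat 184, .ofNat 55, .ofNat 764, .ofNat 66, .ofNat 86⟩, .ofNat 311, .negSucc 19, .ofNat 0, .negSucc 19, .ofNat 669, .ofNat 0, .ofNat 919, .ofNat 85, .negSucc 986, .ofNat 0, .ofNat 415, .ofNat 47, .ofNat 0, .ofNat 0, .ofNat 1160, .ofNat 3244, .ofNat 0, .ofNat 3895825109746440560933097755482521600, .ofNat 453334948918791388782257818828800, .ofNat 0, .ofNat 0, .ofNat 236542871113498722765464950505943859200,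 .ofNat 0, .ofNat 0, .ofNat 0, .ofNat 0, .ofNat 0, .ofNat 0, .ofNat 0, .ofNat 0, .ofNat 0, .ofNat 0⟩)
    (by decide +kernel)
theorem L00345 : Good (Phi V4.P V4.D 1 (-1)) ⟨5, 22, 2, 0, 3, 6, 3, 6, 4, 3⟩ :=
  leaf_sound (S := T4.ds_pm) T4.ok_pm (w := 200) (c := ⟨⟨.negSucc 2248, .negSucc 257, .negSucc 255, .negSucc 582, .negSucc 448, .negSucc 81⟩, ⟨.negSucc 226, .negSucc 63, .ofNat 470, .ofNat 3, .negSucc 54, .negSucc 3⟩, ⟨.ofNat 1292, .ofNat 154, .ofNat 214, .ofNat 273, .ofNat 287, .ofNat 19⟩, ⟨.negSucc 4235, .negSucc 337, .negSucc 319, .negSucc 1159, .negSucc 820, .negSucc 158⟩, ⟨.ofNat 714, .ofNat 93, .ofNat 72, .ofNat 795, .ofNat 23, .ofNat 72⟩, .ofNat 409, .negSucc 136, .ofNat 0, .negSucc 136, .ofNat 1301, .ofNat 0, .ofNat 1646, .ofNat 530, .negSucc 1612, .ofNat 0, .ofNat 675, .negSucc 96, .ofNat 0, .ofNat 0, .ofNat 2166, .ofNat 9549, .ofNat 0, .ofNat 167154628862954168307933995528198553600,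 .ofNat 617761173013934643902902645555200, .ofNat 0, .ofNat 0, .ofNat 17982777675492978845257214236290554265600, .ofNat 55423382847968736687811581915955200, .ofNat 0, .ofNat 0, .ofNat 9300031767192241849353166179502601011200, .ofNat 294742025324061819965197441302528000, .ofNat 0, .ofNat 0, .ofNat 14239962090334351667434803959321277235200, .ofNat 0, .ofNat 0⟩)
    (by decide +kernel)
theorem L00346 : Good (Phi V4.P V4.D 1 (-1)) ⟨5, 23, 2, 0, 3, 6, 3, 6, 4, 3⟩ :=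
  out_sound (S := T4.ds_pm) T4.ok_pm (w := 56) (j := 3) (by decide +kernel)
theorem L00347 : Good (Phi V4.P V4.D 1 (-1)) ⟨3, 5, 2, 0, 3, 7, 3, 6, 4, 3⟩ :=
  leaf_sound (S := T4.ds_pm) T4.ok_pm (w := 184) (c := ⟨⟨.negSucc 2327, .negSucc 976, .negSucc 281, .negSucc 291, .negSucc 484, .negSucc 100⟩, ⟨.negSucc 164, .negSucc 145, .ofNat 566, .ofNat 79, .negSucc 34, .ofNat 13⟩, ⟨.ofNat 1296, .ofNat 519, .ofNat 155, .ofNat 88, .ofNat 316, .ofNat 44⟩, ⟨.negSucc 4702, .negSucc 1343, .negSucc 280, .negSucc 644, .negSucc 923, .negSucc 223⟩, ⟨.ofNat 1203, .ofNat 569, .ofNat 70, .ofNat 1204, .ofNat 130, .ofNat 241⟩, .ofNat 411, .negSucc 82, .ofNat 0, .negSucc 82, .ofNat 1396, .ofNat 0, .ofNat 922, .ofNat 182, .negSucc 721, .ofNat 0, .ofNat 333, .ofNat 6, .ofNat 0, .ofNat 0, .ofNat 1033, .ofNat 2956, .ofNat 0, .ofNat 282810890602307829727943988137164800, .ofNat 3899410402026989596120477964697600,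 .ofNat 0, .ofNat 0, .ofNat 21307922275098355617315925152025804800, .ofNat 214155706004141032588125129198796800, .ofNat 0, .ofNat 0, .ofNat 11147602715854064467806958738263244800, .ofNat 397908087078824147813941500287385600, .ofNat 0, .ofNat 0, .ofNat 14017728548856276689681978149463654400, .ofNat 0, .ofNat 0⟩)
    (by decide +kernel)
theorem L00348 : Good (Phi V4.P V4.D 1 (-1)) ⟨3, 5, 2, 0, 2, 3, 3, 7, 4, 3⟩ :=
  out_sound (S := T4.ds_pm) T4.ok_pm (w := 32) (j := 2) (by decide +kernel)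
theorem L00349 : Good (Phi V4.P V4.D 1 (-1)) ⟨4, 8, 2, 1, 2, 2, 2, 2, 3, 0⟩ :=
  leaf_sound (S := T4.ds_pm) T4.ok_pm (w := 176) (c := ⟨⟨.negSucc 358, .negSucc 159, .ofNat 33, .negSucc 226, .negSucc 102, .negSucc 521⟩, ⟨.ofNat 38, .ofNat 0, .ofNat 148, .ofNat 66, .ofNat 20, .ofNat 123⟩, ⟨.ofNat 342, .ofNat 136, .negSucc 0, .ofNat 132, .negSucc 57, .ofNat 262⟩, ⟨.negSucc 906, .negSucc 200, .ofNat 73, .negSucc 419, .negSucc 241, .negSucc 1103⟩, ⟨.negSucc 262, .ofNat 108, .ofNat 11, .ofNat 332, .negSucc 98, .ofNat 143⟩, .ofNat 647, .ofNat 596, .ofNat 0, .ofNat 596, .ofNat 2881, .ofNat 0, .ofNat 291, .negSucc 190, .negSucc 326, .ofNat 0, .ofNat 136, .ofNat 85, .ofNat 0, .ofNat 0, .ofNat 540, .ofNat 1542, .ofNat 0, .ofNat 0, .ofNat 0, .ofNat 0, .ofNat 0, .ofNat 0, .ofNat 0, .ofNat 0, .ofNat 0, .ofNat 0, .ofNat 244451108008938729549437337600, .ofNat 0, .ofNat 0, .ofNat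 0, .ofNat 0, .ofNat 0⟩)
    (by decide +kernel)
theorem L00350 : Good (Phi V4.P V4.D 1 (-1)) ⟨4, 8, 2, 1, 2, 3, 2, 2, 3, 0⟩ :=
  leaf_sound (S := T4.ds_pm) T4.ok_pm (w := 176) (c := ⟨⟨.negSucc 220, .negSucc 109, .negSucc 34, .negSucc 160, .negSucc 263, .negSucc 1105⟩, ⟨.ofNat 0, .negSucc 7, .ofNat 206, .ofNat 76, .ofNat 59, .ofNat 261⟩, ⟨.ofNat 247, .ofNat 58, .negSucc 34, .negSucc 100, .ofNat 200, .ofNat 558⟩, ⟨.negSucc 601, .negSucc 88, .negSucc 5, .negSucc 218, .negSucc 559, .negSucc 2306⟩, ⟨.negSucc 175, .ofNat 129, .negSucc 34, .ofNat 652, .ofNat 67, .ofNat 456⟩, .ofNat 640, .ofNat 581, .ofNat 0, .ofNat 581, .ofNat 2892, .ofNat 0, .ofNat 686, .negSucc 482, .negSucc 632, .ofNat 0, .ofNat 297, .ofNat 163, .ofNat 0, .ofNat 0, .ofNat 997, .ofNat 1630, .ofNat 0, .ofNat 0, .ofNat 0, .ofNat 0, .ofNat 0, .ofNat 0, .ofNat 0, .ofNat 0, .ofNat 0, .ofNat 0, .ofNat 995451386775090057347648716800,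 .ofNat 0, .ofNat 0, .ofNat 0, .ofNat 0, .ofNat 0⟩)
    (by decide +kernel)
theorem L00351 : Good (Phi V4.P V4.D 1 (-1)) ⟨4, 9, 3, 2, 1, 1, 2, 2, 3, 0⟩ :=
  leaf_sound (S := T4.ds_pm) T4.ok_pm (w := 168) (c := ⟨⟨.negSucc 245, .negSucc 197, .ofNat 89, .negSucc 348, .negSucc 263, .negSucc 1080⟩, ⟨.ofNat 10, .negSucc 22, .ofNat 70, .ofNat 122, .ofNat 38, .ofNat 182⟩, ⟨.ofNat 359, .ofNat 144, .negSucc 50, .negSucc 25, .ofNat 95, .ofNat 524⟩, ⟨.negSucc 619, .negSucc 246, .ofNat 216, .negSucc 568, .negSucc 546, .negSucc 2166⟩, ⟨.negSucc 406, .ofNat 116, .negSucc 10, .ofNat 1056, .negSucc 3, .ofNat 439⟩, .ofNat 531, .ofNat 292, .ofNat 0, .ofNat 292, .ofNat 2329, .ofNat 0, .ofNat 370, .negSucc 138, .negSucc 344, .ofNat 0, .ofNat 144, .ofNat 66, .ofNat 0, .ofNat 0, .ofNat 530, .ofNat 1051, .ofNat 0, .ofNat 0, .ofNat 0, .ofNat 0, .ofNat 0, .ofNat 0, .ofNat 401596877443999725099417600,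 .ofNat 0, .ofNat 0, .ofNat 0, .ofNat 826751323272560452514611200, .ofNat 0, .ofNat 0, .ofNat 0, .ofNat 0, .ofNat 0⟩)
    (by decide +kernel)
theorem L00352 : Good (Phi V4.P V4.D 1 (-1)) ⟨4, 9, 3, 3, 1, 1, 2, 2, 3, 0⟩ :=
  out_sound (S := T4.ds_pm) T4.ok_pm (w := 56) (j := 3) (by decide +kernel)
theorem L00353 : Good (Phi V4.P V4.D 1 (-1)) ⟨3, 4, 2, 1, 2, 2, 2, 2, 3, 1⟩ :=
  leaf_sound (S := T4.ds_pm) T4.ok_pm (w := 168) (c := ⟨⟨.negSucc 651, .negSucc 420, .negSucc 71, .negSucc 575, .negSucc 88, .negSucc 166⟩, ⟨.ofNat 112, .negSucc 40, .ofNat 227, .ofNat 137, .ofNat 12, .ofNat 40⟩, ⟨.ofNat 427, .ofNat 279, .ofNat 61, .ofNat 338, .ofNat 8, .ofNat 30⟩, ⟨.negSucc 1582, .negSucc 510, .negSucc 124, .negSucc 1128, .negSucc 193, .negSucc 341⟩, ⟨.negSucc 234, .ofNat 231, .ofNat 53, .ofNat 512, .negSucc 39, .ofNat 42⟩, .ofNat 482, .ofNat 225, .ofNat 0, .ofNat 225, .ofNat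 1510, .ofNat 0, .ofNat 604, .negSucc 249, .negSucc 569, .ofNat 0, .ofNat 288, .ofNat 133, .ofNat 0, .ofNat 0, .ofNat 999, .ofNat 3878, .ofNat 0, .ofNat 0, .ofNat 0, .ofNat 0, .ofNat 0, .ofNat 0, .ofNat 2936408433731213452084091289600, .ofNat 0, .ofNat 0, .ofNat 0, .ofNat 3383754056577238896839806156800, .ofNat 0, .ofNat 0, .ofNat 0, .ofNat 0, .ofNat 0⟩)
    (by decide +kernel)
theorem L00354 : Good (Phi V4.P V4.D 1 (-1)) ⟨3, 4, 2, 1, 2, 3, 2, 2, 4, 2⟩ :=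
  leaf_sound (S := T4.ds_pm) T4.ok_pm (w := 176) (c := ⟨⟨.negSucc 987, .negSucc 568, .negSucc 124, .negSucc 624, .negSucc 274, .negSucc 263⟩, ⟨.ofNat 167, .negSucc 1, .ofNat 366, .ofNat 194, .ofNat 50, .ofNat 64⟩, ⟨.ofNat 617, .ofNat 272, .ofNat 12, .ofNat 94, .ofNat 268, .ofNat 118⟩, ⟨.negSucc 2307, .negSucc 724, .negSucc 105, .negSucc 1096, .negSucc 576, .negSucc 517⟩, ⟨.ofNat 22, .ofNat 408, .negSucc 11, .ofNat 1227, .ofNat 85, .ofNat 229⟩, .ofNat 339, .ofNat 76, .ofNat 0, .ofNat 76, .ofNat 679, .ofNat 0, .ofNat 439, .negSucc 141, .negSucc 393, .ofNat 0, .ofNat 222, .ofNat 108, .ofNat 0, .ofNat 0, .ofNat 524, .ofNat 2208, .ofNat 0, .ofNat 0, .ofNat 0, .ofNat 0, .ofNat 0, .ofNat 0, .ofNat 0, .ofNat 0, .ofNat 0, .ofNat 0, .ofNat 12119379281622891491783344128000, .ofNat 0, .ofNat 0, .ofNat 0, .ofNat 0, .ofNat 0⟩)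
    (by decide +kernel)
theorem L00355 : Good (Phi V4.P V4.D 1 (-1)) ⟨3, 4, 2, 1, 2, 3, 2, 2, 4, 3⟩ :=
  leaf_sound (S := T4.ds_pm) T4.ok_pm (w := 176) (c := ⟨⟨.negSucc 1211, .negSucc 584, .negSucc 197, .negSucc 651, .negSucc 313, .negSucc 34⟩, ⟨.ofNat 205, .negSucc 9, .ofNat 420, .ofNat 220, .ofNat 62, .ofNat 23⟩, ⟨.ofNat 675, .ofNat 290, .ofNat 56, .ofNat 146, .ofNat 314, .negSucc 1⟩, ⟨.negSucc 2800, .negSucc 738, .negSucc 179, .negSucc 1104, .negSucc 649, .negSucc 37⟩, ⟨.ofNat 52, .ofNat 420, .ofNat 43, .ofNat 1529, .ofNat 81, .ofNat 175⟩, .ofNat 485, .ofNat 233, .ofNat 0, .ofNat 233, .ofNat 1517, .ofNat 0, .ofNat 675, .negSucc 327, .negSucc 464, .ofNat 0, .ofNat 319, .ofNat 123, .ofNat 0, .ofNat 0, .ofNat 923, .ofNat 3270, .ofNat 0, .ofNat 111429960557785719974335925452800, .ofNat 156319356501106723412508672000, .ofNat 0, .ofNat 0, .ofNat 0, .ofNat 0, .ofNat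 0, .ofNat 0, .ofNat 5628264322001472406902258479923200, .ofNat 54584232256733273678917140480000, .ofNat 0, .ofNat 0, .ofNat 0, .ofNat 0, .ofNat 0⟩)
    (by decide +kernel)
theorem L00356 : Good (Phi V4.P V4.D 1 (-1)) ⟨3, 4, 2, 1, 2, 2, 2, 3, 3, 0⟩ :=
  leaf_sound (S := T4.ds_pm) T4.ok_pm (w := 168) (c := ⟨⟨.negSucc 238, .negSucc 443, .negSucc 96, .negSucc 626, .negSucc 186, .negSucc 435⟩, ⟨.ofNat 34, .negSucc 22, .ofNat 206, .ofNat 133, .ofNat 41, .ofNat 83⟩, ⟨.negSucc 26, .ofNat 355, .ofNat 167, .ofNat 581, .ofNat 36, .ofNat 294⟩, ⟨.negSucc 711, .negSucc 632, .negSucc 215, .negSucc 1245, .negSucc 375, .negSucc 883⟩, ⟨.negSucc 431, .ofNat 131, .negSucc 4, .ofNat 476, .ofNat 109, .ofNat 196⟩, .ofNat 480, .ofNat 219, .ofNat 0, .ofNat 219, .ofNat 1510, .ofNat 0, .ofNat 360, .negSucc 131, .negSucc 440, .ofNat 0, .ofNat 167, .ofNat 84, .ofNat 0, .ofNat 0, .ofNat 622,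 .ofNat 718, .ofNat 0, .ofNat 0, .ofNat 0, .ofNat 0, .ofNat 0, .ofNat 0, .ofNat 0, .ofNat 0, .ofNat 0, .ofNat 0, .ofNat 813568489504444386441481420800, .ofNat 0, .ofNat 0, .ofNat 0, .ofNat 0, .ofNat 0⟩)
    (by decide +kernel)
theorem L00357 : Good (Phi V4.P V4.D 1 (-1)) ⟨3, 4, 2, 1, 3, 4, 2, 3, 3, 1⟩ :=
  leaf_sound (S := T4.ds_pm) T4.ok_pm (w := 176) (c := ⟨⟨.negSucc 618, .negSucc 469, .negSucc 102, .negSucc 378, .negSucc 113, .negSucc 169⟩, ⟨.ofNat 110, .negSucc 34, .ofNat 207, .ofNat 85, .ofNat 27, .ofNat 36⟩, ⟨.ofNat 235, .ofNat 364, .ofNat 142, .ofNat 313, .ofNat 15, .ofNat 92⟩, ⟨.negSucc 1504, .negSucc 646, .negSucc 211, .negSucc 765, .negSucc 217, .negSucc 336⟩, ⟨.negSucc 241, .ofNat 123, .ofNat 23, .ofNat 202, .ofNat 101, .ofNat 107⟩, .ofNat 342, .ofNat 81, .ofNat 0, .ofNat 81, .ofNat 685, .ofNat 0, .ofNat 702, .negSucc 179, .negSucc 903, .ofNat 0, .ofNat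 399, .ofNat 169, .ofNat 0, .ofNat 0, .ofNat 1199, .ofNat 1017, .ofNat 0, .ofNat 0, .ofNat 0, .ofNat 0, .ofNat 0, .ofNat 0, .ofNat 0, .ofNat 0, .ofNat 0, .ofNat 0, .ofNat 0, .ofNat 0, .ofNat 0, .ofNat 0, .ofNat 0, .ofNat 0⟩)
    (by decide +kernel)
theorem L00358 : Good (Phi V4.P V4.D 1 (-1)) ⟨3, 4, 2, 1, 3, 5, 3, 6, 3, 1⟩ :=
  leaf_sound (S := T4.ds_pm) T4.ok_pm (w := 184) (c := ⟨⟨.negSucc 852, .negSucc 602, .negSucc 115, .negSucc 459, .negSucc 152, .negSucc 223⟩, ⟨.ofNat 162, .negSucc 27, .ofNat 297, .ofNat 103, .ofNat 25, .ofNat 50⟩, ⟨.ofNat 472, .ofNat 418, .ofNat 148, .ofNat 301, .ofNat 106, .ofNat 95⟩, ⟨.negSucc 2008, .negSucc 847, .negSucc 216, .negSucc 899, .negSucc 311, .negSucc 452⟩, ⟨.negSucc 96, .ofNat 228, .ofNat 32, .ofNat 378, .ofNat 45, .ofNat 120⟩, .ofNat 340, .ofNat 76, .ofNat 0, .ofNat 76, .ofNat 686, .ofNat 0, .ofNat 765, .negSucc 194, .negSucc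 873, .ofNat 0, .ofNat 406, .ofNat 176, .ofNat 0, .ofNat 0, .ofNat 1139, .ofNat 3639, .ofNat 0, .ofNat 0, .ofNat 0, .ofNat 0, .ofNat 0, .ofNat 0, .ofNat 0, .ofNat 0, .ofNat 0, .ofNat 0, .ofNat 0, .ofNat 0, .ofNat 0, .ofNat 0, .ofNat 0, .ofNat 0⟩)
    (by decide +kernel)
theorem L00359 : Good (Phi V4.P V4.D 1 (-1)) ⟨3, 4, 2, 1, 3, 5, 3, 7, 3, 1⟩ :=
  leaf_sound (S := T4.ds_pm) T4.ok_pm (w := 184) (c := ⟨⟨.negSucc 925, .negSucc 639, .negSucc 151, .negSucc 503, .negSucc 178, .negSucc 319⟩, ⟨.ofNat 165, .negSucc 23, .ofNat 310, .ofNat 121, .ofNat 41, .ofNat 80⟩, ⟨.ofNat 483, .ofNat 464, .ofNat 200, .ofNat 369, .ofNat 127, .ofNat 182⟩, ⟨.negSucc 2144, .negSucc 924, .negSucc 287, .negSucc 1006, .negSucc 374, .negSucc 664⟩, ⟨.negSucc 34, .ofNat 166, .ofNat 25, .ofNat 378, .ofNat 60, .ofNat 156⟩, .ofNat 341, .ofNat 76, .ofNat 0, .ofNat 76, .ofNat 686, .ofNat 0, .ofNat 1635,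 .negSucc 382, .negSucc 2145, .ofNat 0, .ofNat 855, .ofNat 363, .ofNat 0, .ofNat 0, .ofNat 2523, .ofNat 5127, .ofNat 0, .ofNat 116207316302529711093116218166476800, .ofNat 0, .ofNat 0, .ofNat 0, .ofNat 14663965226409213007066569106469683200, .ofNat 0, .ofNat 0, .ofNat 0, .ofNat 0, .ofNat 0, .ofNat 0, .ofNat 0, .ofNat 15627983750641723098198050685635788800, .ofNat 0, .ofNat 0⟩)
    (by decide +kernel)
theorem L00360 : Good (Phi V4.P V4.D 1 (-1)) ⟨3, 4, 2, 1, 2, 3, 2, 3, 3, 0⟩ :=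
  leaf_sound (S := T4.ds_pm) T4.ok_pm (w := 168) (c := ⟨⟨.negSucc 309, .negSucc 497, .negSucc 175, .negSucc 157, .negSucc 517, .negSucc 1240⟩, ⟨.ofNat 21, .ofNat 0, .ofNat 298, .ofNat 100, .ofNat 121, .ofNat 266⟩, ⟨.ofNat 236, .ofNat 285, .ofNat 125, .negSucc 1, .ofNat 412, .ofNat 684⟩, ⟨.negSucc 881, .negSucc 699, .negSucc 227, .negSucc 170, .negSucc 1025, .negSucc 2512⟩, ⟨.negSucc 277, .ofNat 193, .negSucc 18, .ofNat 1008, .ofNat 391, .ofNat 555⟩, .ofNat 478, .ofNat 216, .ofNat 0, .ofNat 216, .ofNat 1498, .ofNat 0, .ofNat 442, .negSucc 162, .negSucc 404, .ofNat 0, .ofNat 175, .ofNat 87, .ofNat 0, .ofNat 0, .ofNat 542, .ofNat 584, .ofNat 0, .ofNat 0, .ofNat 0, .ofNat 0, .ofNat 0, .ofNat 549487202115562235652820539801600, .ofNat 0, .ofNat 0, .ofNat 0, .ofNat 278935174562018460603714109440000, .ofNat 834789946305512688549101568000, .ofNat 0, .ofNat 0, .ofNat 0, .ofNat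 0, .ofNat 0⟩)
    (by decide +kernel)
theorem L00361 : Good (Phi V4.P V4.D 1 (-1)) ⟨3, 4, 2, 1, 3, 6, 3, 6, 4, 2⟩ :=
  leaf_sound (S := T4.ds_pm) T4.ok_pm (w := 184) (c := ⟨⟨.negSucc 1140, .negSucc 685, .negSucc 133, .negSucc 456, .negSucc 229, .negSucc 269⟩, ⟨.ofNat 214, .negSucc 14, .ofNat 355, .ofNat 123, .ofNat 46, .ofNat 64⟩, ⟨.ofNat 696, .ofNat 414, .ofNat 132, .ofNat 221, .ofNat 179, .ofNat 136⟩, ⟨.negSucc 2601, .negSucc 963, .negSucc 184, .negSucc 859, .negSucc 471, .negSucc 547⟩, ⟨.ofNat 151, .ofNat 322, .ofNat 27, .ofNat 583, .ofNat 96, .ofNat 163⟩, .ofNat 343, .ofNat 81, .ofNat 0, .ofNat 81, .ofNat 691, .ofNat 0, .ofNat 1778, .negSucc 489, .negSucc 1927, .ofNat 0, .ofNat 873, .ofNat 435, .ofNat 0, .ofNat 0, .ofNat 2296, .ofNat 6994, .ofNat 0, .ofNat 0, .ofNat 0, .ofNat 0, .ofNat 0, .ofNat 34417513350398037987258500916235468800, .ofNat 133535640765526318826838425390284800,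 .ofNat 0, .ofNat 0, .ofNat 10663948122620011638675754627104768000, .ofNat 678899794871904873800443498384588800, .ofNat 0, .ofNat 0, .ofNat 0, .ofNat 0, .ofNat 0⟩)
    (by decide +kernel)
theorem L00362 : Good (Phi V4.P V4.D 1 (-1)) ⟨3, 4, 2, 1, 3, 6, 3, 6, 4, 3⟩ :=
  leaf_sound (S := T4.ds_pm) T4.ok_pm (w := 192) (c := ⟨⟨.negSucc 1379, .negSucc 686, .negSucc 156, .negSucc 489, .negSucc 224, .negSucc 96⟩, ⟨.ofNat 260, .negSucc 16, .ofNat 400, .ofNat 136, .ofNat 50, .ofNat 23⟩, ⟨.ofNat 815, .ofNat 410, .ofNat 141, .ofNat 238, .ofNat 181, .ofNat 35⟩, ⟨.negSucc 3096, .negSucc 937, .negSucc 214, .negSucc 925, .negSucc 469, .negSucc 195⟩, ⟨.ofNat 286, .ofNat 334, .ofNat 35, .ofNat 642, .ofNat 83, .ofNat 86⟩, .ofNat 487, .ofNat 236, .ofNat 0, .ofNat 236, .ofNat 1516, .ofNat 0, .ofNat 1400, .negSucc 635, .negSucc 1204, .ofNat 0, .ofNat 633, .ofNat 276, .ofNat 0, .ofNat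 0, .ofNat 1960, .ofNat 7549, .ofNat 0, .ofNat 525588460097729842425308262904627200, .ofNat 0, .ofNat 0, .ofNat 0, .ofNat 45961521826169096437822469494013952000, .ofNat 0, .ofNat 0, .ofNat 0, .ofNat 27287571493410672658340466601544908800, .ofNat 884204115621780684715425946769817600, .ofNat 0, .ofNat 0, .ofNat 35392987903628568455009918975685427200, .ofNat 0, .ofNat 0⟩)
    (by decide +kernel)
theorem L00363 : Good (Phi V4.P V4.D 1 (-1)) ⟨3, 4, 2, 1, 3, 7, 3, 6, 3, 1⟩ :=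
  leaf_sound (S := T4.ds_pm) T4.ok_pm (w := 184) (c := ⟨⟨.negSucc 1438, .negSucc 787, .negSucc 184, .negSucc 332, .negSucc 324, .negSucc 744⟩, ⟨.ofNat 279, .ofNat 6, .ofNat 459, .ofNat 120, .ofNat 73, .ofNat 182⟩, ⟨.ofNat 856, .ofNat 400, .ofNat 103, .ofNat 63, .ofNat 257, .ofNat 390⟩, ⟨.negSucc 3216, .negSucc 1113, .negSucc 169, .negSucc 531, .negSucc 645, .negSucc 1456⟩, ⟨.ofNat 526, .ofNat 464, .negSucc 15, .ofNat 915, .ofNat 200, .ofNat 707⟩, .ofNat 343, .ofNat 81, .ofNat 0, .ofNat 81, .ofNat 687, .ofNat 0, .ofNat 1001, .negSucc 288, .negSucc 883, .ofNat 0, .ofNat 460, .ofNat 221, .ofNat 0, .ofNat 0, .ofNat 1065, .ofNat 2928, .ofNat 0, .ofNat 65011610484663548821347255504076800, .ofNat 0, .ofNat 0, .ofNat 0, .ofNat 2241376436004770845015557880047206400, .ofNat 4176134359543756171462723397222400, .ofNat 0, .ofNat 0, .ofNat 1745893337274166789456721942151168000,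 .ofNat 5260741289166066734937448592179200, .ofNat 0, .ofNat 0, .ofNat 755273883379666059099893540900044800, .ofNat 0, .ofNat 0⟩)
    (by decide +kernel)
theorem L00364 : Good (Phi V4.P V4.D 1 (-1)) ⟨3, 4, 2, 1, 2, 3, 3, 7, 3, 1⟩ :=
  leaf_sound (S := T4.ds_pm) T4.ok_pm (w := 176) (c := ⟨⟨.negSucc 1292, .negSucc 814, .negSucc 121, .negSucc 850, .negSucc 341, .negSucc 748⟩, ⟨.ofNat 246, .negSucc 12, .ofNat 416, .ofNat 246, .ofNat 73, .ofNat 136⟩, ⟨.ofNat 853, .ofNat 455, .ofNat 108, .ofNat 365, .ofNat 256, .ofNat 433⟩, ⟨.negSucc 2959, .negSucc 1180, .negSucc 93, .negSucc 1533, .negSucc 696, .negSucc 1548⟩, ⟨.ofNat 183, .ofNat 347, .ofNat 67, .ofNat 1412, .ofNat 95, .ofNat 300⟩, .ofNat 482, .ofNat 226, .ofNat 0, .ofNat 226, .ofNat 1503, .ofNat 0, .ofNat 829, .negSucc 344, .negSucc 788, .ofNat 0, .ofNat 346, .ofNat 165, .ofNat 0, .ofNat 0, .ofNat 1069, .ofNat 2157,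 .ofNat 0, .ofNat 782947582096627426793785550438400, .ofNat 0, .ofNat 0, .ofNat 0, .ofNat 30065699571201017596196695100620800, .ofNat 0, .ofNat 0, .ofNat 0, .ofNat 21113829149881125023006807870668800, .ofNat 25626430559497550886674104320000, .ofNat 0, .ofNat 0, .ofNat 26155760615147776702446395876966400, .ofNat 0, .ofNat 0⟩)
    (by decide +kernel)
theorem L00365 : Good (Phi V4.P V4.D 1 (-1)) ⟨3, 5, 2, 1, 1, 1, 1, 1, 2, 0⟩ :=
  out_sound (S := T4.ds_pm) T4.ok_pm (w := 48) (j := 3) (by decide +kernel)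
theorem L00366 : Good (Phi V4.P V4.D 1 (-1)) ⟨2, 2, 1, 1, 0, 0, 0, 0, 2, 0⟩ :=
  out_sound (S := T4.ds_pm) T4.ok_pm (w := 40) (j := 3) (by decide +kernel)
theorem L00367 : Good (Phi V4.P V4.D 1 (-1)) ⟨2, 3, 0, 0, 0, 0, 0, 0, 2, 0⟩ :=
  out_sound (S := T4.ds_pm) T4.ok_pm (w := 40) (j := 3) (by decide +kernel)
theorem L00368 : Good (Phi V4.P V4.D 1 (-1)) ⟨2, 2, 1, 0, 2, 0, 1, 0, 3, 2⟩ :=
  leaf_sound (S := T4.ds_pm) T4.ok_pm (w := 160) (c := ⟨⟨.negSucc 775, .negSucc 359, .ofNat 18, .negSucc 78, .ofNat 183, .ofNat 61⟩, ⟨.ofNat 20, .negSucc 165, .ofNat 247, .negSucc 6, .negSucc 5, .ofNat 1⟩, ⟨.ofNat 970, .ofNat 319, .negSucc 19, .ofNat 6, .negSucc 617, .negSucc 177⟩, ⟨.negSucc 1737, .negSucc 276, .ofNat 7, .negSucc 169, .ofNat 375, .ofNat 123⟩, ⟨.ofNat 56, .ofNat 16, .negSucc 29, .negSucc 86, .negSucc 85, .negSucc 28⟩, .ofNat 321, .ofNat 5, .ofNat 0, .ofNat 5, .ofNat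 705, .ofNat 0, .ofNat 483, .negSucc 6, .negSucc 433, .ofNat 0, .ofNat 281, .ofNat 21, .ofNat 0, .ofNat 0, .ofNat 951, .ofNat 5128, .ofNat 0, .ofNat 0, .ofNat 0, .ofNat 0, .ofNat 0, .ofNat 0, .ofNat 0, .ofNat 0, .ofNat 77963723620084728185824582041600, .ofNat 0, .ofNat 323664952315862500385174323200, .ofNat 0, .ofNat 0, .ofNat 0, .ofNat 0, .ofNat 0⟩)
    (by decide +kernel)
theorem L00369 : Good (Phi V4.P V4.D 1 (-1)) ⟨2, 2, 1, 0, 2, 1, 1, 0, 4, 4⟩ :=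
  leaf_sound (S := T4.ds_pm) T4.ok_pm (w := 168) (c := ⟨⟨.negSucc 776, .negSucc 446, .ofNat 12, .negSucc 247, .ofNat 98, .ofNat 51⟩, ⟨.ofNat 11, .negSucc 180, .ofNat 330, .ofNat 19, .negSucc 25, .ofNat 5⟩, ⟨.ofNat 893, .ofNat 315, .negSucc 3, .ofNat 57, .negSucc 444, .negSucc 134⟩, ⟨.negSucc 1769, .negSucc 369, .negSucc 2, .negSucc 496, .ofNat 194, .ofNat 99⟩, ⟨.ofNat 36, .ofNat 144, .negSucc 2, .ofNat 142, .negSucc 248, .negSucc 59⟩, .ofNat 320, .ofNat 9, .ofNat 0, .ofNat 9, .ofNat 689, .ofNat 0, .ofNat 536, .negSucc 20, .negSucc 456, .ofNat 0, .ofNat 303, .ofNat 64, .ofNat 0, .ofNat 0, .ofNat 958, .ofNat 6079, .ofNat 0, .ofNat 0, .ofNat 60753219904473729115933900800, .ofNat 0, .ofNat 0, .ofNat 0, .ofNat 0, .ofNat 0, .ofNat 221144492290070154514974061363200, .ofNat 0, .ofNat 7147552836513835900461278822400, .ofNat 0, .ofNat 0, .ofNat 0, .ofNat 0, .ofNat 0⟩)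
    (by decide +kernel)
theorem L00370 : Good (Phi V4.P V4.D 1 (-1)) ⟨2, 2, 1, 0, 2, 1, 1, 0, 4, 5⟩ :=
  leaf_sound (S := T4.ds_pm) T4.ok_pm (w := 168) (c := ⟨⟨.negSucc 692, .negSucc 456, .negSucc 2, .negSucc 264, .ofNat 68, .ofNat 49⟩, ⟨.ofNat 18, .negSucc 185, .ofNat 301, .ofNat 4, .negSucc 14, .ofNat 2⟩, ⟨.ofNat 695, .ofNat 287, .ofNat 15, .ofNat 52, .negSucc 323, .negSucc 118⟩, ⟨.negSucc 1624, .negSucc 372, .negSucc 33, .negSucc 522, .ofNat 143, .ofNat 97⟩, ⟨.negSucc 73, .ofNat 169, .ofNat 10, .ofNat 118, .negSucc 162, .negSucc 42⟩, .ofNat 320, .ofNat 1, .ofNat 0, .ofNat 1, .ofNat 700, .ofNat 0, .ofNat 500, .negSucc 5, .negSucc 396, .ofNat 0, .ofNat 282, .ofNat 48, .ofNat 0, .ofNat 0, .ofNat 911, .ofNat 7237, .ofNat 0, .ofNat 0, .ofNat 0, .ofNat 0, .ofNat 0, .ofNat 0, .ofNat 0, .ofNat 0, .ofNat 280411172454725367149642121216000, .ofNat 0, .ofNat 9018781243474560486192709632000,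 .ofNat 0, .ofNat 310859601441028543380391251148800, .ofNat 0, .ofNat 6622840364481096891406221312000, .ofNat 0⟩)
    (by decide +kernel)
theorem L00371 : Good (Phi V4.P V4.D 1 (-1)) ⟨2, 2, 1, 0, 1, 0, 1, 0, 3, 3⟩ :=
  leaf_sound (S := T4.ds_pm) T4.ok_pm (w := 152) (c := ⟨⟨.negSucc 672, .negSucc 311, .ofNat 33, .negSucc 263, .ofNat 100, .ofNat 94⟩, ⟨.ofNat 13, .negSucc 152, .ofNat 243, .negSucc 2, .negSucc 10, .ofNat 4⟩, ⟨.ofNat 608, .ofNat 223, .negSucc 2, .negSucc 39, .negSucc 253, .negSucc 176⟩, ⟨.negSucc 1519, .negSucc 197, .ofNat 29, .negSucc 539, .ofNat 211, .ofNat 179⟩, ⟨.ofNat 12, .ofNat 53, .negSucc 21, .negSucc 108, .negSucc 58, .negSucc 19⟩, .ofNat 324, .ofNat 12, .ofNat 0, .ofNat 12, .ofNat 711, .ofNat 0, .ofNat 426, .negSucc 16, .negSucc 320, .ofNat 0, .ofNat 246, .ofNat 26, .ofNat 0, .ofNat 0, .ofNat 838, .ofNat 2851, .ofNat 0, .ofNat 0, .ofNat 0, .ofNat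 0, .ofNat 0, .ofNat 0, .ofNat 0, .ofNat 0, .ofNat 300267104285079243272591769600, .ofNat 0, .ofNat 0, .ofNat 0, .ofNat 0, .ofNat 0, .ofNat 0, .ofNat 0⟩)
    (by decide +kernel)
theorem L00372 : Good (Phi V4.P V4.D 1 (-1)) ⟨2, 2, 1, 1, 1, 0, 1, 0, 2, 1⟩ :=
  out_sound (S := T4.ds_pm) T4.ok_pm (w := 40) (j := 3) (by decide +kernel)
theorem L00373 : Good (Phi V4.P V4.D 1 (-1)) ⟨2, 3, 0, 0, 1, 0, 1, 0, 2, 1⟩ :=
  out_sound (S := T4.ds_pm) T4.ok_pm (w := 40) (j := 3) (by decide +kernel)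
theorem L00374 : Good (Phi V4.P V4.D 1 (-1)) ⟨2, 2, 1, 0, 2, 0, 2, 2, 2, 1⟩ :=
  leaf_sound (S := T4.ds_pm) T4.ok_pm (w := 160) (c := ⟨⟨.negSucc 547, .negSucc 356, .ofNat 27, .negSucc 152, .ofNat 111, .ofNat 99⟩, ⟨.ofNat 21, .negSucc 146, .ofNat 207, .negSucc 15, .negSucc 1, .negSucc 2⟩, ⟨.ofNat 247, .ofNat 319, .negSucc 2, .ofNat 70, .negSucc 175, .negSucc 117⟩, ⟨.negSucc 1248, .negSucc 340, .ofNat 3, .negSucc 298, .ofNat 224, .ofNat 202⟩, ⟨.negSucc 29, .ofNat 26, .negSucc 13, .negSucc 125, .ofNat 6, .ofNat 9⟩, .ofNat 320, .ofNat 7, .ofNat 0, .ofNat 7, .ofNat 690, .ofNat 0, .ofNat 468, .negSucc 9, .negSucc 477, .ofNat 0, .ofNat 276, .ofNat 17, .ofNat 0, .ofNat 0, .ofNat 918, .ofNat 3785, .ofNat 0, .ofNat 0, .ofNat 0, .ofNat 0, .ofNat 0, .ofNat 0, .ofNat 0, .ofNat 0, .ofNat 0, .ofNat 0, .ofNat 0, .ofNat 0, .ofNat 0, .ofNat 0, .ofNat 0, .ofNat 0⟩)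
    (by decide +kernel)
theorem L00375 : Good (Phi V4.P V4.D 1 (-1)) ⟨3, 4, 1, 0, 2, 0, 2, 3, 2, 1⟩ :=
  leaf_sound (S := T4.ds_pm) T4.ok_pm (w := 160) (c := ⟨⟨.negSucc 368, .negSucc 139, .negSucc 4, .negSucc 230, .ofNat 358, .negSucc 12⟩, ⟨.ofNat 2, .negSucc 15, .ofNat 113, .ofNat 27, .negSucc 33, .ofNat 4⟩, ⟨.negSucc 65, .ofNat 141, .ofNat 9, .ofNat 180, .negSucc 389, .ofNat 89⟩, ⟨.negSucc 831, .negSucc 189, .negSucc 14, .negSucc 496, .ofNat 761, .negSucc 26⟩, ⟨.negSucc 41, .ofNat 1, .negSucc 0, .negSucc 95, .ofNat 43, .ofNat 33⟩, .ofNat 332, .ofNat 39, .ofNat 0, .ofNat 39, .ofNat 721, .ofNat 0, .ofNat 251, .negSucc 27, .negSucc 341, .ofNat 0, .ofNat 148, .ofNat 23, .ofNat 0, .ofNat 0, .ofNat 521, .ofNat 938, .ofNat 0, .ofNat 0, .ofNat 0, .ofNat 0, .ofNat 0, .ofNat 0, .ofNat 0, .ofNat 0, .ofNat 0, .ofNat 0, .ofNat 0, .ofNat 0, .ofNat 0, .ofNat 76948294204600779622760998502400,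 .ofNat 5170502269544757744107520000, .ofNat 0⟩)
    (by decide +kernel)
theorem L00376 : Good (Phi V4.P V4.D 1 (-1)) ⟨4, 10, 2, 0, 2, 0, 2, 3, 2, 1⟩ :=
  leaf_sound (S := T4.ds_pm) T4.ok_pm (w := 168) (c := ⟨⟨.negSucc 519, .negSucc 74, .ofNat 22, .negSucc 375, .ofNat 352, .ofNat 42⟩, ⟨.negSucc 43, .negSucc 32, .ofNat 81, .negSucc 25, .ofNat 20, .ofNat 9⟩, ⟨.ofNat 76, .ofNat 76, .negSucc 11, .ofNat 302, .negSucc 366, .ofNat 42⟩, ⟨.negSucc 1020, .negSucc 70, .ofNat 36, .negSucc 707, .ofNat 667, .ofNat 74⟩, ⟨.negSucc 31, .negSucc 2, .negSucc 1, .negSucc 82, .ofNat 39, .ofNat 17⟩, .ofNat 469, .negSucc 136, .ofNat 0, .negSucc 136, .ofNat 2401, .ofNat 0, .ofNat 474, .ofNat 72, .negSucc 607, .ofNat 0, .ofNat 192, .negSucc 35, .ofNat 0, .ofNat 0, .ofNat 975, .ofNat 1463, .ofNat 0, .ofNat 0, .ofNat 0, .ofNat 0, .ofNat 0, .ofNat 0, .ofNat 0, .ofNat 0, .ofNat 0, .ofNat 0,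 .ofNat 92069813702349695626090905600, .ofNat 0, .ofNat 0, .ofNat 0, .ofNat 0, .ofNat 0⟩)
    (by decide +kernel)
theorem L00377 : Good (Phi V4.P V4.D 1 (-1)) ⟨4, 11, 2, 0, 2, 0, 2, 3, 2, 1⟩ :=
  leaf_sound (S := T4.ds_pm) T4.ok_pm (w := 168) (c := ⟨⟨.negSucc 534, .negSucc 151, .ofNat 14, .negSucc 427, .ofNat 344, .negSucc 13⟩, ⟨.negSucc 70, .negSucc 53, .ofNat 75, .negSucc 58, .ofNat 48, .ofNat 1⟩, ⟨.ofNat 102, .ofNat 136, .negSucc 41, .ofNat 342, .negSucc 367, .ofNat 92⟩, ⟨.negSucc 978, .negSucc 198, .ofNat 22, .negSucc 769, .ofNat 620, .negSucc 27⟩, ⟨.negSucc 49, .ofNat 22, .ofNat 27, .negSucc 71, .ofNat 43, .ofNat 30⟩, .ofNat 470, .negSucc 242, .ofNat 0, .negSucc 242, .ofNat 2015, .ofNat 0, .ofNat 243, .ofNat 71, .negSucc 333, .ofNat 0, .ofNat 113, .negSucc 41, .ofNat 0, .ofNat 0, .ofNat 517, .ofNat 697, .ofNat 0, .ofNat 0, .ofNat 0, .ofNat 0, .ofNat 0, .ofNat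 1534490304262578258087743638732800, .ofNat 54259866774915915944086732800, .ofNat 0, .ofNat 0, .ofNat 0, .ofNat 82399058497740616681232793600, .ofNat 0, .ofNat 0, .ofNat 4551214025328720392213104479436800, .ofNat 18332622662746942126581350400, .ofNat 0⟩)
    (by decide +kernel)
theorem L00378 : Good (Phi V4.P V4.D 1 (-1)) ⟨3, 5, 2, 1, 2, 0, 2, 3, 2, 1⟩ :=
  out_sound (S := T4.ds_pm) T4.ok_pm (w := 48) (j := 3) (by decide +kernel)
theorem L00379 : Good (Phi V4.P V4.D 1 (-1)) ⟨2, 2, 1, 0, 2, 1, 2, 2, 2, 1⟩ :=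
  leaf_sound (S := T4.ds_pm) T4.ok_pm (w := 160) (c := ⟨⟨.negSucc 582, .negSucc 477, .ofNat 0, .negSucc 311, .ofNat 17, .ofNat 71⟩, ⟨.ofNat 5, .negSucc 176, .ofNat 263, .ofNat 13, .ofNat 3, .negSucc 2⟩, ⟨.ofNat 248, .ofNat 358, .ofNat 49, .ofNat 178, .negSucc 64, .negSucc 129⟩, ⟨.negSucc 1365, .negSucc 466, .negSucc 42, .negSucc 638, .ofNat 31, .ofNat 151⟩, ⟨.negSucc 239, .ofNat 117, .ofNat 13, .ofNat 78, .ofNat 29, .ofNat 52⟩, .ofNat 323, .ofNat 11, .ofNat 0, .ofNat 11, .ofNat 704, .ofNat 0, .ofNat 492, .negSucc 17, .negSucc 459, .ofNat 0, .ofNat 279, .ofNat 34, .ofNat 0, .ofNat 0, .ofNat 898, .ofNat 1384, .ofNat 0, .ofNat 0, .ofNat 0, .ofNat 0, .ofNat 0, .ofNat 0, .ofNat 0, .ofNat 0, .ofNat 0, .ofNat 0, .ofNat 0, .ofNat 0, .ofNat 0, .ofNat 0, .ofNat 0, .ofNat 0⟩)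
    (by decide +kernel)
theorem L00380 : Good (Phi V4.P V4.D 1 (-1)) ⟨3, 4, 1, 0, 2, 1, 2, 3, 2, 1⟩ :=
  leaf_sound (S := T4.ds_pm) T4.ok_pm (w := 160) (c := ⟨⟨.negSucc 418, .negSucc 306, .negSucc 31, .negSucc 442, .ofNat 84, .negSucc 15⟩, ⟨.negSucc 14, .negSucc 54, .ofNat 273, .ofNat 27, .negSucc 9, .negSucc 0⟩, ⟨.negSucc 26, .ofNat 253, .ofNat 102, .ofNat 340, .negSucc 116, .ofNat 39⟩, ⟨.negSucc 1013, .negSucc 404, .negSucc 98, .negSucc 914, .ofNat 186, .negSucc 24⟩, ⟨.negSucc 222, .ofNat 62, .negSucc 2, .ofNat 102, .ofNat 99, .ofNat 80⟩, .ofNat 332, .ofNat 38, .ofNat 0, .ofNat 38, .ofNat 721, .ofNat 0, .ofNat 534, .negSucc 59, .negSucc 615, .ofNat 0, .ofNat 301, .ofNat 49, .ofNat 0, .ofNat 0, .ofNat 982, .ofNat 1375, .ofNat 0, .ofNat 0, .ofNat 0, .ofNat 0, .ofNat 0, .ofNat 262987176195930033924549378048000, .ofNat 0, .ofNat 0, .ofNat 0, .ofNat 0, .ofNat 0, .ofNat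 0, .ofNat 0, .ofNat 302237831288742631394099016499200, .ofNat 0, .ofNat 0⟩)
    (by decide +kernel)
theorem L00381 : Good (Phi V4.P V4.D 1 (-1)) ⟨3, 5, 1, 0, 2, 1, 2, 3, 2, 1⟩ :=
  leaf_sound (S := T4.ds_pm) T4.ok_pm (w := 160) (c := ⟨⟨.negSucc 624, .negSucc 415, .negSucc 79, .negSucc 562, .negSucc 28, .negSucc 21⟩, ⟨.negSucc 68, .negSucc 139, .ofNat 328, .negSucc 22, .ofNat 4, .ofNat 10⟩, ⟨.ofNat 144, .ofNat 357, .ofNat 152, .ofNat 405, .ofNat 10, .ofNat 55⟩, ⟨.negSucc 1247, .negSucc 516, .negSucc 178, .negSucc 1073, .negSucc 56, .negSucc 45⟩, ⟨.negSucc 181, .ofNat 46, .ofNat 25, .ofNat 149, .ofNat 81, .ofNat 73⟩, .ofNat 411, .negSucc 93, .ofNat 0, .negSucc 93, .ofNat 1403, .ofNat 0, .ofNat 511, .ofNat 85, .negSucc 561, .ofNat 0, .ofNat 233, .negSucc 35, .ofNat 0, .ofNat 0, .ofNat 941, .ofNat 1040, .ofNat 0, .ofNat 1334614468131116598944386252800, .ofNat 0, .ofNat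 0, .ofNat 0, .ofNat 302558904889554768063692695142400, .ofNat 85495344035128835981495500800, .ofNat 0, .ofNat 0, .ofNat 71935879509819125592802040217600, .ofNat 209939149213132843200282624000, .ofNat 0, .ofNat 0, .ofNat 336245328714937509755980716441600, .ofNat 42701714980025073393047961600, .ofNat 0⟩)
    (by decide +kernel)
theorem L00382 : Good (Phi V4.P V4.D 1 (-1)) ⟨2, 2, 1, 1, 1, 0, 1, 1, 2, 1⟩ :=
  out_sound (S := T4.ds_pm) T4.ok_pm (w := 40) (j := 3) (by decide +kernel)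
theorem L00383 : Good (Phi V4.P V4.D 1 (-1)) ⟨2, 3, 0, 0, 1, 0, 1, 1, 2, 1⟩ :=
  out_sound (S := T4.ds_pm) T4.ok_pm (w := 40) (j := 3) (by decide +kernel)
theorem L00384 : Good (Phi V4.P V4.D 1 (-1)) ⟨3, 4, 1, 0, 2, 2, 2, 0, 3, 2⟩ :=
  leaf_sound (S := T4.ds_pm) T4.ok_pm (w := 168) (c := ⟨⟨.negSucc 935, .negSucc 261, .negSucc 105, .negSucc 396, .ofNat 12, .ofNat 144⟩, ⟨.negSucc 27, .negSucc 62, .ofNat 468, .ofNat 62, .ofNat 2, .negSucc 31⟩, ⟨.ofNat 857, .ofNat 90, .negSucc 18, .negSucc 112, .negSucc 55, .negSucc 310⟩, ⟨.negSucc 2160, .negSucc 214, .negSucc 113, .negSucc 788, .ofNat 24, .ofNat 271⟩, ⟨.ofNat 159, .ofNat 217, .ofNat 51, .ofNat 526, .negSucc 202, .negSucc 265⟩, .ofNat 332, .ofNat 31, .ofNat 0, .ofNat 31, .ofNat 741, .ofNat 0, .ofNat 554, .negSucc 86, .negSucc 326, .ofNat 0, .ofNat 296, .ofNat 87, .ofNat 0, .ofNat 0, .ofNat 898, .ofNat 7003, .ofNat 0,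 .ofNat 0, .ofNat 8240663102532298880738918400, .ofNat 0, .ofNat 0, .ofNat 0, .ofNat 0, .ofNat 0, .ofNat 7701999071443009920831069565747200, .ofNat 0, .ofNat 983634218595727127216337715200, .ofNat 0, .ofNat 0, .ofNat 0, .ofNat 0, .ofNat 0⟩)
    (by decide +kernel)

end Crest.Agent.R097C4.N4pm
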