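import Crest.Agent.R097.T4

/-!
# Row 97, box cover in dimension n = 4 (generated)
-/

set_option autoImplicit false
set_option Elab.async false
set_option maxHeartbeats 0
set_option maxRecDepth 100000

open Crest.Agent.R097 Crest.Agent.R097.KA


namespace Crest.Agent.R097C4.N4pm

theorem L00385 : Good (Phi V4.P V4.D 1 (-1)) ⟨3, 4, 1, 0, 2, 2, 2, 1, 3, 2⟩ :=
  leaf_sound (S := T4.ds_pm) T4.ok_pm (w := 168) (c := ⟨⟨.negSucc 869, .negSucc 291, .negSucc 72, .negSucc 460, .negSucc 32, .ofNat 127⟩, ⟨.negSucc 32, .negSucc 79, .ofNat 461, .ofNat 71, .negSucc 0, .negSucc 18⟩, ⟨.ofNat 641, .ofNat 116, .ofNat 29, .ofNat 96, .ofNat 13, .negSucc 259⟩, ⟨.negSucc 2025, .negSucc 266, .negSucc 93, .negSucc 915, .negSucc 79, .ofNat 252⟩, ⟨.negSucc 106, .ofNat 206, .ofNat 24, .ofNat 534, .negSucc 85, .negSucc 117⟩, .ofNat 334, .ofNat 41, .ofNat 0, .ofNat 41, .ofNat 726, .ofNat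 0, .ofNat 574, .negSucc 97, .negSucc 408, .ofNat 0, .ofNat 310, .ofNat 97, .ofNat 0, .ofNat 0, .ofNat 911, .ofNat 6538, .ofNat 0, .ofNat 0, .ofNat 11720535769712269511884800000, .ofNat 0, .ofNat 0, .ofNat 0, .ofNat 0, .ofNat 0, .ofNat 0, .ofNat 0, .ofNat 1686818485127945384092709683200, .ofNat 0, .ofNat 0, .ofNat 0, .ofNat 0, .ofNat 0⟩)
    (by decide +kernel)
theorem L00386 : Good (Phi V4.P V4.D 1 (-1)) ⟨3, 5, 2, 0, 2, 2, 2, 0, 3, 2⟩ :=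
  leaf_sound (S := T4.ds_pm) T4.ok_pm (w := 168) (c := ⟨⟨.negSucc 1176, .negSucc 289, .negSucc 79, .negSucc 408, .negSucc 13, .ofNat 174⟩, ⟨.negSucc 86, .negSucc 102, .ofNat 276, .ofNat 25, .negSucc 20, .negSucc 12⟩, ⟨.ofNat 953, .ofNat 103, .negSucc 1, .negSucc 123, .negSucc 2, .negSucc 369⟩, ⟨.negSucc 2361, .negSucc 234, .negSucc 71, .negSucc 821, .negSucc 9, .ofNat 345⟩, ⟨.ofNat 294, .ofNat 226, .ofNat 74, .ofNat 654, .negSucc 218, .negSucc 271⟩, .ofNat 411, .negSucc 90, .ofNat 0, .negSucc 90, .ofNat 1396, .ofNat 0, .ofNat 549, .ofNat 64, .negSucc 287, .ofNat 0, .ofNat 237, .ofNat 23, .ofNat 0, .ofNat 0, .ofNat 886, .ofNat 8045, .ofNat 0, .ofNat 0, .ofNat 30494735973944136697695436800, .ofNat 0, .ofNat 0, .ofNat 0, .ofNat 0, .ofNat 0, .ofNat 30606397670447227147565611037491200, .ofNat 0, .ofNat 4194696993244872550787108044800, .ofNat 0, .ofNat 39414633854649126591293473318502400,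 .ofNat 0, .ofNat 0, .ofNat 0⟩)
    (by decide +kernel)
theorem L00387 : Good (Phi V4.P V4.D 1 (-1)) ⟨3, 5, 2, 0, 2, 2, 2, 1, 3, 2⟩ :=
  leaf_sound (S := T4.ds_pm) T4.ok_pm (w := 168) (c := ⟨⟨.negSucc 1130, .negSucc 337, .negSucc 53, .negSucc 479, .negSucc 63, .ofNat 133⟩, ⟨.negSucc 99, .negSucc 120, .ofNat 249, .ofNat 17, .negSucc 13, .negSucc 0⟩, ⟨.ofNat 757, .ofNat 172, .ofNat 39, .ofNat 92, .ofNat 27, .negSucc 255⟩, ⟨.negSucc 2260, .negSucc 304, .negSucc 62, .negSucc 951, .negSucc 113, .ofNat 264⟩, ⟨.ofNat 30, .ofNat 244, .ofNat 71, .ofNat 632, .negSucc 101, .negSucc 133⟩, .ofNat 310, .negSucc 30, .ofNat 0, .negSucc 30, .ofNat 668, .ofNat 0, .ofNat 593, .ofNat 38, .negSucc 433, .ofNat 0, .ofNat 318, .ofNat 53, .ofNat 0, .ofNat 0, .ofNat 935, .ofNat 4214, .ofNat 0, .ofNat 0, .ofNat 20491392649449173014491955200, .ofNat 0, .ofNat 0, .ofNat 0, .ofNat 0, .ofNat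 0, .ofNat 0, .ofNat 0, .ofNat 5317731460135171983089546035200, .ofNat 0, .ofNat 0, .ofNat 0, .ofNat 0, .ofNat 0⟩)
    (by decide +kernel)
theorem L00388 : Good (Phi V4.P V4.D 1 (-1)) ⟨3, 5, 2, 1, 2, 2, 1, 0, 3, 2⟩ :=
  out_sound (S := T4.ds_pm) T4.ok_pm (w := 48) (j := 3) (by decide +kernel)
theorem L00389 : Good (Phi V4.P V4.D 1 (-1)) ⟨2, 2, 1, 0, 2, 2, 1, 0, 3, 3⟩ :=
  leaf_sound (S := T4.ds_pm) T4.ok_pm (w := 160) (c := ⟨⟨.negSucc 805, .negSucc 461, .negSucc 49, .negSucc 341, .negSucc 80, .ofNat 134⟩, ⟨.negSucc 0, .negSucc 189, .ofNat 382, .ofNat 40, .negSucc 1, .negSucc 10⟩, ⟨.ofNat 367, .ofNat 191, .ofNat 70, .negSucc 30, .ofNat 133, .negSucc 224⟩, ⟨.negSucc 1860, .negSucc 352, .negSucc 98, .negSucc 680, .negSucc 158, .ofNat 265⟩, ⟨.negSucc 128, .ofNat 278, .ofNat 17, .ofNat 395, .negSucc 45, .negSucc 83⟩, .ofNat 322, .ofNat 9, .ofNat 0, .ofNat 9, .ofNat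 700, .ofNat 0, .ofNat 471, .negSucc 27, .negSucc 270, .ofNat 0, .ofNat 266, .ofNat 56, .ofNat 0, .ofNat 0, .ofNat 838, .ofNat 1679, .ofNat 0, .ofNat 0, .ofNat 1285144901267451829184102400, .ofNat 0, .ofNat 0, .ofNat 0, .ofNat 0, .ofNat 0, .ofNat 39839885450475090968289529036800, .ofNat 0, .ofNat 546164002836808460519709081600, .ofNat 0, .ofNat 58419817408840616271074348236800, .ofNat 0, .ofNat 0, .ofNat 0⟩)
    (by decide +kernel)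
theorem L00390 : Good (Phi V4.P V4.D 1 (-1)) ⟨2, 2, 1, 1, 2, 2, 1, 0, 2, 1⟩ :=
  out_sound (S := T4.ds_pm) T4.ok_pm (w := 40) (j := 3) (by decide +kernel)
theorem L00391 : Good (Phi V4.P V4.D 1 (-1)) ⟨3, 4, 3, 0, 2, 3, 2, 0, 4, 4⟩ :=
  leaf_sound (S := T4.ds_pm) T4.ok_pm (w := 176) (c := ⟨⟨.negSucc 1338, .negSucc 273, .negSucc 93, .negSucc 349, .ofNat 22, .ofNat 114⟩, ⟨.negSucc 30, .negSucc 57, .ofNat 195, .ofNat 58, .negSucc 18, .negSucc 9⟩, ⟨.ofNat 674, .ofNat 32, .negSucc 38, .negSucc 346, .ofNat 217, .negSucc 178⟩, ⟨.negSucc 3049, .negSucc 235, .negSucc 60, .negSucc 722, .ofNat 42, .ofNat 228⟩, ⟨.ofNat 673, .ofNat 504, .ofNat 45, .ofNat 1824, .negSucc 595, .negSucc 200⟩, .ofNat 444, .ofNat 22, .ofNat 0, .ofNat 22, .ofNat 1940, .ofNat 0, .ofNat 603, .negSucc 90, .negSucc 232, .ofNat 0, .ofNat 217, .ofNat 20, .ofNat 0, .ofNat 0, .ofNat 910, .ofNat 3919,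 .ofNat 0, .ofNat 0, .ofNat 0, .ofNat 0, .ofNat 0, .ofNat 0, .ofNat 0, .ofNat 0, .ofNat 0, .ofNat 0, .ofNat 0, .ofNat 0, .ofNat 0, .ofNat 0, .ofNat 0, .ofNat 0⟩)
    (by decide +kernel)
theorem L00392 : Good (Phi V4.P V4.D 1 (-1)) ⟨3, 4, 3, 1, 2, 3, 2, 0, 4, 4⟩ :=
  leaf_sound (S := T4.ds_pm) T4.ok_pm (w := 176) (c := ⟨⟨.negSucc 1392, .negSucc 299, .negSucc 75, .negSucc 430, .ofNat 45, .ofNat 119⟩, ⟨.ofNat 118, .negSucc 21, .ofNat 199, .ofNat 170, .negSucc 47, .negSucc 31⟩, ⟨.ofNat 630, .ofNat 19, .negSucc 41, .negSucc 429, .ofNat 295, .negSucc 183⟩, ⟨.negSucc 3108, .negSucc 256, .negSucc 1, .negSucc 676, .ofNat 23, .ofNat 220⟩, ⟨.ofNat 629, .ofNat 558, .ofNat 204, .ofNat 2181, .negSucc 740, .negSucc 252⟩, .ofNat 456, .ofNat 133, .ofNat 0, .ofNat 133, .ofNat 1648, .ofNat 0, .ofNat 580, .negSucc 205, .negSucc 234, .ofNat 0, .ofNat 259, .ofNat 44, .ofNat 0, .ofNat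 0, .ofNat 904, .ofNat 2934, .ofNat 0, .ofNat 0, .ofNat 0, .ofNat 0, .ofNat 0, .ofNat 0, .ofNat 0, .ofNat 0, .ofNat 0, .ofNat 0, .ofNat 0, .ofNat 0, .ofNat 0, .ofNat 0, .ofNat 0, .ofNat 0⟩)
    (by decide +kernel)
theorem L00393 : Good (Phi V4.P V4.D 1 (-1)) ⟨3, 5, 3, 0, 2, 3, 3, 0, 4, 4⟩ :=
  leaf_sound (S := T4.ds_pm) T4.ok_pm (w := 176) (c := ⟨⟨.negSucc 1628, .negSucc 309, .negSucc 87, .negSucc 330, .ofNat 5, .ofNat 138⟩, ⟨.negSucc 132, .ofNat 27, .ofNat 231, .ofNat 142, .negSucc 33, .negSucc 11⟩, ⟨.ofNat 797, .ofNat 53, .negSucc 83, .negSucc 495, .ofNat 160, .negSucc 251⟩, ⟨.negSucc 3280, .negSucc 340, .negSucc 42, .negSucc 794, .ofNat 23, .ofNat 284⟩, ⟨.ofNat 1015, .ofNat 507, .ofNat 200, .ofNat 2114, .negSucc 386, .negSucc 294⟩, .ofNat 412, .negSucc 102, .ofNat 0, .negSucc 102, .ofNat 1428, .ofNat 0, .ofNat 633, .ofNat 22, .negSucc 235, .ofNat 0, .ofNat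 263, .ofNat 7, .ofNat 0, .ofNat 0, .ofNat 920, .ofNat 5870, .ofNat 0, .ofNat 0, .ofNat 0, .ofNat 0, .ofNat 0, .ofNat 0, .ofNat 0, .ofNat 0, .ofNat 0, .ofNat 0, .ofNat 565724841335161865051974926336000, .ofNat 0, .ofNat 0, .ofNat 0, .ofNat 0, .ofNat 0⟩)
    (by decide +kernel)
theorem L00394 : Good (Phi V4.P V4.D 1 (-1)) ⟨3, 5, 3, 0, 2, 3, 3, 1, 4, 4⟩ :=
  leaf_sound (S := T4.ds_pm) T4.ok_pm (w := 176) (c := ⟨⟨.negSucc 1634, .negSucc 317, .negSucc 80, .negSucc 304, .negSucc 33, .ofNat 139⟩, ⟨.negSucc 155, .ofNat 12, .ofNat 224, .ofNat 125, .negSucc 23, .ofNat 2⟩, ⟨.ofNat 837, .ofNat 74, .negSucc 38, .negSucc 314, .ofNat 133, .negSucc 220⟩, ⟨.negSucc 3284, .negSucc 320, .negSucc 28, .negSucc 738, .negSucc 45, .ofNat 276⟩, ⟨.ofNat 680, .ofNat 571, .ofNat 105, .ofNat 1890, .negSucc 214, .negSucc 160⟩, .ofNat 412, .negSucc 100, .ofNat 0, .negSucc 100, .ofNat 1429,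 .ofNat 0, .ofNat 631, .ofNat 36, .negSucc 269, .ofNat 0, .ofNat 262, .ofNat 12, .ofNat 0, .ofNat 0, .ofNat 908, .ofNat 7752, .ofNat 0, .ofNat 0, .ofNat 4856794574542904914237351526400, .ofNat 0, .ofNat 0, .ofNat 0, .ofNat 0, .ofNat 0, .ofNat 0, .ofNat 7052318350831005892222670969241600, .ofNat 707060396856292299451624587264000, .ofNat 0, .ofNat 0, .ofNat 0, .ofNat 0, .ofNat 0⟩)
    (by decide +kernel)
theorem L00395 : Good (Phi V4.P V4.D 1 (-1)) ⟨4, 10, 3, 1, 2, 3, 3, 0, 4, 4⟩ :=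
  leaf_sound (S := T4.ds_pm) T4.ok_pm (w := 184) (c := ⟨⟨.negSucc 1708, .negSucc 185, .negSucc 137, .negSucc 348, .ofNat 17, .ofNat 158⟩, ⟨.ofNat 75, .ofNat 12, .ofNat 218, .ofNat 219, .negSucc 45, .negSucc 24⟩, ⟨.ofNat 686, .ofNat 52, .ofNat 1, .negSucc 550, .ofNat 216, .negSucc 239⟩, ⟨.negSucc 3370, .negSucc 206, .negSucc 107, .negSucc 671, .ofNat 37, .ofNat 302⟩, ⟨.ofNat 1177, .ofNat 130, .negSucc 76, .ofNat 2452, .negSucc 527, .negSucc 236⟩, .ofNat 491, .ofNat 4, .ofNat 0, .ofNat 4, .ofNat 2731, .ofNat 0, .ofNat 616, .negSucc 88, .negSucc 221, .ofNat 0, .ofNat 241, .ofNat 20, .ofNat 0, .ofNat 0, .ofNat 911, .ofNat 7586, .ofNat 0, .ofNat 0, .ofNat 0, .ofNat 0, .ofNat 0, .ofNat 0, .ofNat 0, .ofNat 0, .ofNat 0, .ofNat 0, .ofNat 236349215256184374563426009088000, .ofNat 0, .ofNat 0, .ofNat 0, .ofNat 0, .ofNat 0⟩)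
    (by decide +kernel)
theorem L00396 : Good (Phi V4.P V4.D 1 (-1)) ⟨4, 10, 3, 1, 2, 3, 3, 1, 4, 4⟩ :=
  leaf_sound (S := T4.ds_pm) T4.ok_pm (w := 184) (c := ⟨⟨.negSucc 1664, .negSucc 177, .negSucc 91, .negSucc 374, .negSucc 29, .ofNat 129⟩, ⟨.ofNat 57, .negSucc 4, .ofNat 210, .ofNat 187, .negSucc 30, .negSucc 22⟩, ⟨.ofNat 772, .ofNat 56, .negSucc 26, .negSucc 351, .ofNat 163, .negSucc 178⟩, ⟨.negSucc 3284, .negSucc 204, .negSucc 47, .negSucc 702, .negSucc 63, .ofNat 249⟩, ⟨.ofNat 890, .ofNat 118, .ofNat 49, .ofNat 2050, .negSucc 342, .negSucc 233⟩, .ofNat 469, .ofNat 19, .ofNat 0, .ofNat 19, .ofNat 2131, .ofNat 0, .ofNat 619, .negSucc 91, .negSucc 252, .ofNat 0, .ofNat 249, .ofNat 28, .ofNat 0, .ofNat 0, .ofNat 900, .ofNat 8560, .ofNat 0, .ofNat 0, .ofNat 0, .ofNat 0, .ofNat 0, .ofNat 0, .ofNat 0, .ofNat 0, .ofNat 0, .ofNat 0, .ofNat 329257931114323446216818216140800,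 .ofNat 0, .ofNat 0, .ofNat 0, .ofNat 0, .ofNat 0⟩)
    (by decide +kernel)
theorem L00397 : Good (Phi V4.P V4.D 1 (-1)) ⟨4, 11, 3, 1, 2, 3, 2, 0, 4, 4⟩ :=
  out_sound (S := T4.ds_pm) T4.ok_pm (w := 56) (j := 3) (by decide +kernel)
theorem L00398 : Good (Phi V4.P V4.D 1 (-1)) ⟨3, 4, 2, 1, 2, 3, 2, 0, 4, 4⟩ :=
  leaf_sound (S := T4.ds_pm) T4.ok_pm (w := 176) (c := ⟨⟨.negSucc 1461, .negSucc 298, .negSucc 151, .negSucc 469, .ofNat 74, .ofNat 115⟩, ⟨.ofNat 281, .negSucc 5, .ofNat 391, .ofNat 234, .negSucc 54, .negSucc 32⟩, ⟨.ofNat 518, .ofNat 95, .negSucc 55, .negSucc 406, .ofNat 326, .negSucc 193⟩, ⟨.negSucc 3167, .negSucc 264, .negSucc 9, .negSucc 566, .ofNat 34, .ofNat 218⟩, ⟨.ofNat 833, .ofNat 308, .ofNat 143, .ofNat 2250, .negSucc 668, .negSucc 199⟩, .ofNat 484, .ofNat 230, .ofNat 0, .ofNat 230, .ofNat 1503, .ofNat 0, .ofNat 543, .negSucc 292, .negSucc 232,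 .ofNat 0, .ofNat 299, .ofNat 68, .ofNat 0, .ofNat 0, .ofNat 895, .ofNat 2927, .ofNat 0, .ofNat 0, .ofNat 62446756802354630753255424000, .ofNat 0, .ofNat 0, .ofNat 0, .ofNat 0, .ofNat 0, .ofNat 0, .ofNat 0, .ofNat 22504344472985795509186304409600, .ofNat 0, .ofNat 0, .ofNat 0, .ofNat 0, .ofNat 0⟩)
    (by decide +kernel)
theorem L00399 : Good (Phi V4.P V4.D 1 (-1)) ⟨3, 5, 2, 1, 2, 3, 2, 0, 4, 4⟩ :=
  out_sound (S := T4.ds_pm) T4.ok_pm (w := 48) (j := 3) (by decide +kernel)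
theorem L00400 : Good (Phi V4.P V4.D 1 (-1)) ⟨3, 4, 1, 0, 2, 3, 2, 1, 4, 4⟩ :=
  leaf_sound (S := T4.ds_pm) T4.ok_pm (w := 168) (c := ⟨⟨.negSucc 1211, .negSucc 362, .negSucc 253, .negSucc 472, .negSucc 125, .ofNat 86⟩, ⟨.negSucc 67, .negSucc 59, .ofNat 715, .ofNat 124, .ofNat 10, .negSucc 17⟩, ⟨.ofNat 608, .ofNat 139, .ofNat 29, .negSucc 42, .ofNat 229, .negSucc 115⟩, ⟨.negSucc 2835, .negSucc 363, .negSucc 178, .negSucc 862, .negSucc 262, .ofNat 162⟩, ⟨.ofNat 174, .ofNat 504, .ofNat 206, .ofNat 1519, .negSucc 147, .negSucc 76⟩, .ofNat 331, .ofNat 35, .ofNat 0, .ofNat 35, .ofNat 723, .ofNat 0, .ofNat 669, .negSucc 155, .negSucc 393, .ofNat 0, .ofNat 355, .ofNat 98, .ofNat 0, .ofNat 0, .ofNat 916, .ofNat 2282, .ofNat 0, .ofNat 0, .ofNat 106702200651346593699594240000, .ofNat 0, .ofNat 0, .ofNat 0, .ofNat 0, .ofNat 0, .ofNat 0, .ofNat 0, .ofNat 19660487735821397066118070272000,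 .ofNat 0, .ofNat 0, .ofNat 0, .ofNat 0, .ofNat 0⟩)
    (by decide +kernel)
theorem L00401 : Good (Phi V4.P V4.D 1 (-1)) ⟨4, 10, 2, 0, 2, 3, 2, 1, 4, 4⟩ :=
  leaf_sound (S := T4.ds_pm) T4.ok_pm (w := 176) (c := ⟨⟨.negSucc 1580, .negSucc 198, .negSucc 154, .negSucc 363, .negSucc 176, .ofNat 84⟩, ⟨.negSucc 156, .negSucc 4, .ofNat 423, .ofNat 105, .negSucc 22, .ofNat 12⟩, ⟨.ofNat 782, .ofNat 73, .ofNat 2, .negSucc 101, .ofNat 249, .negSucc 140⟩, ⟨.negSucc 3202, .negSucc 186, .negSucc 93, .negSucc 807, .negSucc 333, .ofNat 185⟩, ⟨.ofNat 569, .ofNat 241, .ofNat 142, .ofNat 1760, .negSucc 150, .negSucc 139⟩, .ofNat 312, .negSucc 25, .ofNat 0, .negSucc 25, .ofNat 686, .ofNat 0, .ofNat 706, .negSucc 32, .negSucc 413, .ofNat 0, .ofNat 358, .ofNat 60, .ofNat 0, .ofNat 0, .ofNat 938, .ofNat 3804, .ofNat 0, .ofNat 0, .ofNat 62663234919588005796642816000, .ofNat 0, .ofNat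 0, .ofNat 0, .ofNat 0, .ofNat 0, .ofNat 0, .ofNat 0, .ofNat 16272982973140995571423012454400, .ofNat 0, .ofNat 0, .ofNat 0, .ofNat 0, .ofNat 0⟩)
    (by decide +kernel)
theorem L00402 : Good (Phi V4.P V4.D 1 (-1)) ⟨4, 11, 3, 0, 2, 3, 2, 1, 4, 4⟩ :=
  leaf_sound (S := T4.ds_pm) T4.ok_pm (w := 184) (c := ⟨⟨.negSucc 1810, .negSucc 222, .negSucc 82, .negSucc 332, .negSucc 222, .ofNat 154⟩, ⟨.negSucc 178, .negSucc 19, .ofNat 233, .ofNat 129, .negSucc 35, .ofNat 11⟩, ⟨.ofNat 884, .ofNat 114, .ofNat 53, .negSucc 119, .ofNat 268, .negSucc 190⟩, ⟨.negSucc 3432, .negSucc 257, .negSucc 38, .negSucc 831, .negSucc 386, .ofNat 292⟩, ⟨.ofNat 746, .ofNat 222, .ofNat 139, .ofNat 1801, .negSucc 106, .negSucc 86⟩, .ofNat 409, .negSucc 139, .ofNat 0, .negSucc 139, .ofNat 1310, .ofNat 0, .ofNat 654, .ofNat 119, .negSucc 348, .ofNat 0, .ofNat 284, .ofNat 5, .ofNat 0, .ofNat 0,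 .ofNat 914, .ofNat 8631, .ofNat 0, .ofNat 837593717244606645202893511065600, .ofNat 356690531635639715124530380800, .ofNat 0, .ofNat 0, .ofNat 0, .ofNat 27904274023496595477589131264000, .ofNat 0, .ofNat 0, .ofNat 347487338897370693736311562017177600, .ofNat 49217420529880101845548086067200, .ofNat 0, .ofNat 0, .ofNat 506669508732939333475644631469260800, .ofNat 13987158811926857183453301964800, .ofNat 0⟩)
    (by decide +kernel)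
theorem L00403 : Good (Phi V4.P V4.D 1 (-1)) ⟨4, 11, 3, 1, 2, 3, 2, 1, 4, 4⟩ :=
  out_sound (S := T4.ds_pm) T4.ok_pm (w := 56) (j := 3) (by decide +kernel)
theorem L00404 : Good (Phi V4.P V4.D 1 (-1)) ⟨3, 5, 2, 1, 2, 3, 2, 1, 4, 4⟩ :=
  out_sound (S := T4.ds_pm) T4.ok_pm (w := 48) (j := 3) (by decide +kernel)
theorem L00405 : Good (Phi V4.P V4.D 1 (-1)) ⟨2, 2, 1, 0, 3, 6, 2, 0, 4, 5⟩ :=
  leaf_sound (S := T4.ds_pm) T4.ok_pm (w := 176) (c := ⟨⟨.negSucc 1241, .negSucc 522, .negSucc 175, .negSucc 194, .negSucc 21, .ofNat 131⟩, ⟨.negSucc 10, .negSucc 140, .ofNat 609, .ofNat 46, .negSucc 17, .negSucc 26⟩, ⟨.ofNat 454, .ofNat 83, .negSucc 86, .negSucc 156, .ofNat 232, .negSucc 178⟩, ⟨.negSucc 2815, .negSucc 410, .negSucc 114, .negSucc 392, .negSucc 39, .ofNat 246⟩, ⟨.ofNat 508, .ofNat 677, .ofNat 156, .ofNat 694, .negSucc 262, .negSucc 186⟩, .ofNat 322, .ofNat 9,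 .ofNat 0, .ofNat 9, .ofNat 700, .ofNat 0, .ofNat 578, .negSucc 96, .negSucc 246, .ofNat 0, .ofNat 321, .ofNat 69, .ofNat 0, .ofNat 0, .ofNat 894, .ofNat 3431, .ofNat 0, .ofNat 0, .ofNat 441336311323437984918893966131200, .ofNat 0, .ofNat 0, .ofNat 0, .ofNat 0, .ofNat 0, .ofNat 201004018323895461095896212150681600, .ofNat 0, .ofNat 43739674477982261871755275114905600, .ofNat 0, .ofNat 0, .ofNat 0, .ofNat 0, .ofNat 0⟩)
    (by decide +kernel)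
theorem L00406 : Good (Phi V4.P V4.D 1 (-1)) ⟨2, 2, 1, 0, 3, 7, 2, 0, 4, 5⟩ :=
  leaf_sound (S := T4.ds_pm) T4.ok_pm (w := 176) (c := ⟨⟨.negSucc 1434, .negSucc 514, .negSucc 282, .negSucc 147, .ofNat 14, .ofNat 209⟩, ⟨.negSucc 27, .negSucc 51, .ofNat 767, .ofNat 94, .negSucc 43, .negSucc 31⟩, ⟨.ofNat 278, .ofNat 14, .negSucc 214, .negSucc 215, .ofNat 375, .negSucc 135⟩, ⟨.negSucc 3226, .negSucc 421, .negSucc 60, .negSucc 281, .negSucc 17, .ofNat 336⟩, ⟨.ofNat 1192, .ofNat 969, .ofNat 455, .ofNat 1035, .negSucc 534, .negSucc 449⟩, .ofNat 323, .ofNat 15, .ofNat 0, .ofNat 15, .ofNat 694, .ofNat 0, .ofNat 600, .negSucc 157, .negSucc 217, .ofNat 0, .ofNat 354, .ofNat 52, .ofNat 0, .ofNat 0, .ofNat 916, .ofNat 3437, .ofNat 0, .ofNat 392647546027018239249392389324800, .ofNat 621872556841103311863150752563200, .ofNat 0, .ofNat 0, .ofNat 0, .ofNat 0, .ofNat 0, .ofNat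 0, .ofNat 119210364856688088204387655719321600, .ofNat 42213878058126495198317771331993600, .ofNat 0, .ofNat 0, .ofNat 124608741533147357188146905009356800, .ofNat 0, .ofNat 0⟩)
    (by decide +kernel)
theorem L00407 : Good (Phi V4.P V4.D 1 (-1)) ⟨3, 4, 1, 0, 2, 3, 2, 1, 4, 5⟩ :=
  leaf_sound (S := T4.ds_pm) T4.ok_pm (w := 168) (c := ⟨⟨.negSucc 1212, .negSucc 310, .negSucc 178, .negSucc 405, .negSucc 73, .ofNat 105⟩, ⟨.negSucc 20, .negSucc 72, .ofNat 594, .ofNat 67, .ofNat 2, .negSucc 13⟩, ⟨.ofNat 525, .ofNat 122, .ofNat 30, .negSucc 69, .ofNat 172, .negSucc 112⟩, ⟨.negSucc 2763, .negSucc 288, .negSucc 165, .negSucc 808, .negSucc 166, .ofNat 207⟩, ⟨.ofNat 300, .ofNat 317, .ofNat 93, .ofNat 1093, .negSucc 65, .negSucc 90⟩, .ofNat 333, .ofNat 42, .ofNat 0, .ofNat 42, .ofNat 722, .ofNat 0, .ofNat 583, .negSucc 130, .negSucc 319, .ofNat 0, .ofNat 322, .ofNat 90,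 .ofNat 0, .ofNat 0, .ofNat 878, .ofNat 1814, .ofNat 0, .ofNat 20205016395716678602687355289600, .ofNat 28309325699959711699304448000, .ofNat 0, .ofNat 0, .ofNat 0, .ofNat 0, .ofNat 0, .ofNat 0, .ofNat 6676693597161087371357490826444800, .ofNat 0, .ofNat 0, .ofNat 0, .ofNat 0, .ofNat 0, .ofNat 0⟩)
    (by decide +kernel)
theorem L00408 : Good (Phi V4.P V4.D 1 (-1)) ⟨3, 5, 2, 0, 2, 3, 2, 1, 4, 5⟩ :=
  leaf_sound (S := T4.ds_pm) T4.ok_pm (w := 176) (c := ⟨⟨.negSucc 1491, .negSucc 358, .negSucc 120, .negSucc 421, .negSucc 174, .ofNat 118⟩, ⟨.negSucc 108, .negSucc 87, .ofNat 337, .ofNat 66, .negSucc 18, .ofNat 2⟩, ⟨.ofNat 634, .ofNat 153, .ofNat 22, .negSucc 50, .ofNat 230, .negSucc 159⟩, ⟨.negSucc 3004, .negSucc 345, .negSucc 95, .negSucc 889, .negSucc 316, .ofNat 238⟩, ⟨.ofNat 588, .ofNat 342, .ofNat 76, .ofNat 1249, .negSucc 59, .negSucc 125⟩, .ofNat 309, .negSucc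 35, .ofNat 0, .negSucc 35, .ofNat 670, .ofNat 0, .ofNat 626, .ofNat 14, .negSucc 354, .ofNat 0, .ofNat 329, .ofNat 55, .ofNat 0, .ofNat 0, .ofNat 910, .ofNat 3552, .ofNat 0, .ofNat 101441173482884358405228802867200, .ofNat 136097489119306026068213760000, .ofNat 0, .ofNat 0, .ofNat 31106517416094753303575771322777600, .ofNat 0, .ofNat 0, .ofNat 0, .ofNat 39884118836768707013612766285004800, .ofNat 33842655319974447380305438310400, .ofNat 0, .ofNat 0, .ofNat 0, .ofNat 0, .ofNat 0⟩)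
    (by decide +kernel)
theorem L00409 : Good (Phi V4.P V4.D 1 (-1)) ⟨3, 5, 2, 1, 2, 3, 2, 1, 4, 5⟩ :=
  out_sound (S := T4.ds_pm) T4.ok_pm (w := 48) (j := 3) (by decide +kernel)
theorem L00410 : Good (Phi V4.P V4.D 1 (-1)) ⟨2, 2, 1, 0, 2, 3, 1, 0, 3, 3⟩ :=
  leaf_sound (S := T4.ds_pm) T4.ok_pm (w := 160) (c := ⟨⟨.negSucc 1140, .negSucc 487, .negSucc 134, .ofNat 0, .negSucc 58, .ofNat 0⟩, ⟨.ofNat 1, .negSucc 163, .ofNat 525, .ofNat 0, .negSucc 19, .ofNat 0⟩, ⟨.ofNat 283, .ofNat 66, .negSucc 39, .ofNat 0, .ofNat 402, .ofNat 0⟩, ⟨.negSucc 2595, .negSucc 340, .negSucc 118, .ofNat 0, .negSucc 113, .ofNat 0⟩, ⟨.ofNat 390, .ofNat 508, .ofNat 67, .ofNat 0, .negSucc 269, .ofNat 0⟩, .ofNat 171, .ofNat 1, .ofNat 0, .ofNat 1, .ofNat 240, .ofNat 0, .ofNat 681, .negSucc 152, .negSucc 479, .ofNat 0, .ofNat 498, .ofNat 242, .ofNat 0, .ofNat 0, .ofNat 1004, .ofNat 3815, .ofNat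 0, .ofNat 1845966009655393161320595456000, .ofNat 0, .ofNat 0, .ofNat 0, .ofNat 202988533420157884167924744192000, .ofNat 0, .ofNat 0, .ofNat 0, .ofNat 215645459390405458966489124044800, .ofNat 670385423580405366452649984000, .ofNat 0, .ofNat 0, .ofNat 237201532961062647120535329177600, .ofNat 0, .ofNat 0⟩)
    (by decide +kernel)
theorem L00411 : Good (Phi V4.P V4.D 1 (-1)) ⟨2, 2, 1, 1, 2, 3, 1, 0, 2, 1⟩ :=
  out_sound (S := T4.ds_pm) T4.ok_pm (w := 40) (j := 3) (by decide +kernel)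
theorem L00412 : Good (Phi V4.P V4.D 1 (-1)) ⟨3, 4, 1, 0, 2, 2, 2, 2, 3, 2⟩ :=
  leaf_sound (S := T4.ds_pm) T4.ok_pm (w := 168) (c := ⟨⟨.negSucc 755, .negSucc 354, .negSucc 118, .negSucc 564, .negSucc 89, .ofNat 47⟩, ⟨.negSucc 52, .negSucc 68, .ofNat 456, .ofNat 86, .ofNat 6, .negSucc 6⟩, ⟨.ofNat 381, .ofNat 219, .ofNat 148, .ofNat 300, .ofNat 50, .negSucc 113⟩, ⟨.negSucc 1801, .negSucc 394, .negSucc 204, .negSucc 1138, .negSucc 194, .ofNat 107⟩, ⟨.negSucc 271, .ofNat 190, .ofNat 76, .ofNat 536, .ofNat 42, .ofNat 11⟩, .ofNat 333, .ofNat 41, .ofNat 0, .ofNat 41, .ofNat 723, .ofNat 0, .ofNat 593, .negSucc 86, .negSucc 501, .ofNat 0, .ofNat 316, .ofNat 85, .ofNat 0, .ofNat 0, .ofNat 935, .ofNat 2548, .ofNat 0, .ofNat 0, .ofNat 0, .ofNat 0, .ofNat 0, .ofNat 60892528147652311085750000025600, .ofNat 483115843751786015913462988800, .ofNat 0, .ofNat 0, .ofNat 0, .ofNat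 1529992026977335781531163033600, .ofNat 0, .ofNat 0, .ofNat 0, .ofNat 0, .ofNat 0⟩)
    (by decide +kernel)
theorem L00413 : Good (Phi V4.P V4.D 1 (-1)) ⟨3, 5, 1, 0, 3, 4, 2, 2, 3, 2⟩ :=
  leaf_sound (S := T4.ds_pm) T4.ok_pm (w := 176) (c := ⟨⟨.negSucc 1078, .negSucc 432, .negSucc 66, .negSucc 316, .negSucc 165, .ofNat 61⟩, ⟨.negSucc 83, .negSucc 164, .ofNat 440, .negSucc 6, .negSucc 11, .ofNat 5⟩, ⟨.ofNat 593, .ofNat 283, .ofNat 111, .ofNat 170, .ofNat 94, .negSucc 124⟩, ⟨.negSucc 2152, .negSucc 467, .negSucc 97, .negSucc 611, .negSucc 312, .ofNat 117⟩, ⟨.negSucc 47, .ofNat 156, .ofNat 5, .ofNat 242, .ofNat 16, .negSucc 4⟩, .ofNat 310, .negSucc 28, .ofNat 0, .negSucc 28, .ofNat 665, .ofNat 0, .ofNat 615, .ofNat 53, .negSucc 584, .ofNat 0, .ofNat 330, .ofNat 24, .ofNat 0, .ofNat 0, .ofNat 985, .ofNat 2676, .ofNat 0, .ofNat 0, .ofNat 13171984278113220312290033664000,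 .ofNat 0, .ofNat 0, .ofNat 0, .ofNat 1452929892045723735807682097971200, .ofNat 0, .ofNat 0, .ofNat 0, .ofNat 1896486579577342913532560356147200, .ofNat 0, .ofNat 0, .ofNat 0, .ofNat 0, .ofNat 0⟩)
    (by decide +kernel)
theorem L00414 : Good (Phi V4.P V4.D 1 (-1)) ⟨3, 5, 1, 0, 3, 5, 2, 2, 3, 2⟩ :=
  leaf_sound (S := T4.ds_pm) T4.ok_pm (w := 176) (c := ⟨⟨.negSucc 1355, .negSucc 459, .negSucc 168, .negSucc 343, .negSucc 287, .ofNat 121⟩, ⟨.negSucc 104, .negSucc 157, .ofNat 579, .ofNat 8, .negSucc 23, .ofNat 6⟩, ⟨.ofNat 742, .ofNat 268, .ofNat 179, .ofNat 149, .ofNat 205, .negSucc 181⟩, ⟨.negSucc 2704, .negSucc 495, .negSucc 217, .negSucc 681, .negSucc 540, .ofNat 229⟩, ⟨.ofNat 155, .ofNat 256, .ofNat 77, .ofNat 433, .ofNat 27, .negSucc 37⟩, .ofNat 410, .negSucc 85, .ofNat 0, .negSucc 85, .ofNat 1374, .ofNat 0, .ofNat 606, .ofNat 90, .negSucc 442, .ofNat 0,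 .ofNat 256, .ofNat 5, .ofNat 0, .ofNat 0, .ofNat 912, .ofNat 2504, .ofNat 0, .ofNat 689151631591938738670417634918400, .ofNat 5429872818570200289801928704000, .ofNat 0, .ofNat 0, .ofNat 51170389864355976784429621601894400, .ofNat 1251568250595410178686551326720000, .ofNat 0, .ofNat 0, .ofNat 73551787211525487442167846666240000, .ofNat 1804603992173659740316363023974400, .ofNat 0, .ofNat 0, .ofNat 79952709115186226977110697495756800, .ofNat 1171017121961144263284973633536000, .ofNat 0⟩)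
    (by decide +kernel)
theorem L00415 : Good (Phi V4.P V4.D 1 (-1)) ⟨3, 4, 1, 0, 2, 3, 3, 4, 3, 2⟩ :=
  leaf_sound (S := T4.ds_pm) T4.ok_pm (w := 168) (c := ⟨⟨.negSucc 1236, .negSucc 443, .negSucc 267, .negSucc 556, .negSucc 118, .ofNat 97⟩, ⟨.negSucc 65, .negSucc 69, .ofNat 741, .ofNat 119, .ofNat 1, .negSucc 2⟩, ⟨.ofNat 678, .ofNat 218, .ofNat 106, .ofNat 125, .ofNat 122, .negSucc 161⟩, ⟨.negSucc 2904, .negSucc 517, .negSucc 210, .negSucc 1036, .negSucc 254, .ofNat 216⟩, ⟨.ofNat 124, .ofNat 385, .ofNat 192, .ofNat 1470, .ofNat 1, .ofNat 28⟩, .ofNat 332, .ofNat 33, .ofNat 0, .ofNat 33, .ofNat 734, .ofNat 0, .ofNat 703, .negSucc 127, .negSucc 472, .ofNat 0, .ofNat 354, .ofNat 100, .ofNat 0, .ofNat 0, .ofNat 936, .ofNat 2520, .ofNat 0, .ofNat 8052475409681117039199623577600, .ofNat 108950201474113094307073228800, .ofNat 0, .ofNat 0, .ofNat 2577103244722379591666913352089600,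 .ofNat 0, .ofNat 0, .ofNat 0, .ofNat 1311066562523605288646208808550400, .ofNat 13882044707955395522183194214400, .ofNat 0, .ofNat 0, .ofNat 0, .ofNat 0, .ofNat 0⟩)
    (by decide +kernel)
theorem L00416 : Good (Phi V4.P V4.D 1 (-1)) ⟨3, 4, 1, 0, 2, 3, 3, 5, 3, 2⟩ :=
  leaf_sound (S := T4.ds_pm) T4.ok_pm (w := 168) (c := ⟨⟨.negSucc 1251, .negSucc 524, .negSucc 275, .negSucc 756, .negSucc 144, .negSucc 14⟩, ⟨.negSucc 61, .negSucc 77, .ofNat 706, .ofNat 163, .ofNat 21, .ofNat 66⟩, ⟨.ofNat 657, .ofNat 299, .ofNat 216, .ofNat 330, .ofNat 121, .negSucc 73⟩, ⟨.negSucc 2913, .negSucc 663, .negSucc 346, .negSucc 1459, .negSucc 297, .ofNat 40⟩, ⟨.ofNat 226, .ofNat 347, .ofNat 127, .ofNat 1264, .ofNat 71, .ofNat 69⟩, .ofNat 335, .ofNat 37, .ofNat 0, .ofNat 37, .ofNat 741, .ofNat 0, .ofNat 736, .negSucc 114, .negSucc 586, .ofNat 0, .ofNat 356, .ofNat 103, .ofNat 0, .ofNat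 0, .ofNat 977, .ofNat 2344, .ofNat 0, .ofNat 43939374051270689222478004224000, .ofNat 0, .ofNat 0, .ofNat 0, .ofNat 5478733017638801684749449009561600, .ofNat 0, .ofNat 0, .ofNat 0, .ofNat 5202583251918383980214558392320000, .ofNat 10255424114947033912900268851200, .ofNat 0, .ofNat 0, .ofNat 4119283195082875579009625122406400, .ofNat 0, .ofNat 0⟩)
    (by decide +kernel)
theorem L00417 : Good (Phi V4.P V4.D 1 (-1)) ⟨3, 5, 2, 0, 2, 3, 3, 4, 3, 2⟩ :=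
  leaf_sound (S := T4.ds_pm) T4.ok_pm (w := 176) (c := ⟨⟨.negSucc 1660, .negSucc 545, .negSucc 183, .negSucc 545, .negSucc 184, .ofNat 172⟩, ⟨.negSucc 155, .negSucc 78, .ofNat 460, .ofNat 89, .negSucc 13, .ofNat 5⟩, ⟨.ofNat 881, .ofNat 285, .ofNat 79, .ofNat 131, .ofNat 154, .negSucc 210⟩, ⟨.negSucc 3350, .negSucc 622, .negSucc 127, .negSucc 1153, .negSucc 358, .ofNat 328⟩, ⟨.ofNat 487, .ofNat 449, .ofNat 149, .ofNat 1647, .negSucc 10, .negSucc 70⟩, .ofNat 412, .negSucc 90, .ofNat 0, .negSucc 90, .ofNat 1429, .ofNat 0, .ofNat 693, .ofNat 90, .negSucc 435, .ofNat 0, .ofNat 275, .ofNat 13, .ofNat 0, .ofNat 0, .ofNat 926, .ofNat 2769, .ofNat 0, .ofNat 59526234044092789873034290790400, .ofNat 181227727672688887687072972800, .ofNat 0, .ofNat 0, .ofNat 9480774228048839897797156562534400, .ofNat 0, .ofNat 0, .ofNat 0, .ofNat 5678750765214044753279358232166400, .ofNat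 47796250708205660478786188083200, .ofNat 0, .ofNat 0, .ofNat 0, .ofNat 0, .ofNat 0⟩)
    (by decide +kernel)
theorem L00418 : Good (Phi V4.P V4.D 1 (-1)) ⟨3, 5, 2, 0, 2, 3, 3, 5, 3, 2⟩ :=
  leaf_sound (S := T4.ds_pm) T4.ok_pm (w := 176) (c := ⟨⟨.negSucc 1753, .negSucc 659, .negSucc 194, .negSucc 762, .negSucc 240, .ofNat 112⟩, ⟨.negSucc 142, .negSucc 135, .ofNat 415, .ofNat 82, .negSucc 8, .negSucc 1⟩, ⟨.ofNat 948, .ofNat 376, .ofNat 141, .ofNat 301, .ofNat 175, .negSucc 150⟩, ⟨.negSucc 3528, .negSucc 806, .negSucc 228, .negSucc 1545, .negSucc 455, .ofNat 207⟩, ⟨.ofNat 519, .ofNat 413, .ofNat 89, .ofNat 1572, .ofNat 52, .ofNat 46⟩, .ofNat 411, .negSucc 80, .ofNat 0, .negSucc 80, .ofNat 1390, .ofNat 0, .ofNat 718, .ofNat 103, .negSucc 528, .ofNat 0, .ofNat 284, .ofNat 8, .ofNat 0, .ofNat 0, .ofNat 956, .ofNat 2451, .ofNat 0, .ofNat 199764564061425286607729904844800,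 .ofNat 215736292136535320440288051200, .ofNat 0, .ofNat 0, .ofNat 23286909235525794467820212532019200, .ofNat 0, .ofNat 0, .ofNat 0, .ofNat 19687429731379846928705111929651200, .ofNat 34401380582827202629183576473600, .ofNat 0, .ofNat 0, .ofNat 16258919249624078737744236380160000, .ofNat 0, .ofNat 0⟩)
    (by decide +kernel)
theorem L00419 : Good (Phi V4.P V4.D 1 (-1)) ⟨3, 5, 2, 1, 2, 3, 2, 2, 3, 2⟩ :=
  out_sound (S := T4.ds_pm) T4.ok_pm (w := 48) (j := 3) (by decide +kernel)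
theorem L00420 : Good (Phi V4.P V4.D 1 (-1)) ⟨2, 2, 1, 0, 2, 2, 2, 2, 3, 3⟩ :=
  leaf_sound (S := T4.ds_pm) T4.ok_pm (w := 160) (c := ⟨⟨.negSucc 781, .negSucc 622, .negSucc 49, .negSucc 436, .negSucc 127, .ofNat 87⟩, ⟨.ofNat 21, .negSucc 217, .ofNat 368, .negSucc 1, .negSucc 16, .negSucc 7⟩, ⟨.ofNat 306, .ofNat 393, .ofNat 114, .ofNat 200, .ofNat 102, .negSucc 126⟩, ⟨.negSucc 1827, .negSucc 637, .negSucc 112, .negSucc 875, .negSucc 235, .ofNat 176⟩, ⟨.negSucc 183, .ofNat 261, .ofNat 30, .ofNat 389, .ofNat 63, .ofNat 10⟩, .ofNat 319, .negSucc 1, .ofNat 0, .negSucc 1, .ofNat 698, .ofNat 0, .ofNat 507, .negSucc 2, .negSucc 386, .ofNat 0, .ofNat 278, .ofNat 36, .ofNat 0, .ofNat 0, .ofNat 851, .ofNat 2638, .ofNat 0, .ofNat 676603546957489465784165990400, .ofNat 0, .ofNat 0, .ofNat 0, .ofNat 129076408237158526446269890560000, .ofNat 0, .ofNat 0, .ofNat 0, .ofNat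 45484348754351190588559825305600, .ofNat 4013452260067075682890206412800, .ofNat 0, .ofNat 0, .ofNat 94418647851879349668169541222400, .ofNat 0, .ofNat 0⟩)
    (by decide +kernel)
theorem L00421 : Good (Phi V4.P V4.D 1 (-1)) ⟨2, 2, 1, 0, 2, 3, 2, 2, 3, 3⟩ :=
  out_sound (S := T4.ds_pm) T4.ok_pm (w := 32) (j := 2) (by decide +kernel)
theorem L00422 : Good (Phi V4.P V4.D 1 (-1)) ⟨3, 4, 1, 0, 2, 2, 2, 3, 2, 1⟩ :=
  leaf_sound (S := T4.ds_pm) T4.ok_pm (w := 160) (c := ⟨⟨.negSucc 727, .negSucc 445, .negSucc 158, .negSucc 718, .negSucc 107, .negSucc 23⟩, ⟨.negSucc 37, .negSucc 74, .ofNat 450, .ofNat 85, .ofNat 16, .ofNat 12⟩, ⟨.ofNat 233, .ofNat 332, .ofNat 246, .ofNat 511, .ofNat 50, .negSucc 22⟩, ⟨.negSucc 1719, .negSucc 591, .negSucc 311, .negSucc 1477, .negSucc 208, .negSucc 46⟩, ⟨.negSucc 172, .ofNat 132, .ofNat 23, .ofNat 494, .ofNat 97, .ofNat 112⟩, .ofNat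 332, .ofNat 40, .ofNat 0, .ofNat 40, .ofNat 721, .ofNat 0, .ofNat 637, .negSucc 80, .negSucc 663, .ofNat 0, .ofNat 335, .ofNat 75, .ofNat 0, .ofNat 0, .ofNat 1016, .ofNat 1584, .ofNat 0, .ofNat 4682582381492128638285801062400, .ofNat 0, .ofNat 0, .ofNat 0, .ofNat 663227564390067230440413777100800, .ofNat 0, .ofNat 0, .ofNat 0, .ofNat 62169830500890992660351601868800, .ofNat 91572496354012484202607411200, .ofNat 0, .ofNat 0, .ofNat 600109431439898950880157971251200, .ofNat 0, .ofNat 0⟩)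
    (by decide +kernel)
theorem L00423 : Good (Phi V4.P V4.D 1 (-1)) ⟨3, 5, 2, 0, 2, 2, 3, 6, 2, 1⟩ :=
  leaf_sound (S := T4.ds_pm) T4.ok_pm (w := 168) (c := ⟨⟨.negSucc 1084, .negSucc 602, .negSucc 88, .negSucc 936, .negSucc 156, .negSucc 59⟩, ⟨.negSucc 97, .negSucc 189, .ofNat 282, .negSucc 15, .negSucc 9, .ofNat 6⟩, ⟨.ofNat 520, .ofNat 448, .ofNat 137, .ofNat 576, .ofNat 104, .negSucc 11⟩, ⟨.negSucc 2168, .negSucc 748, .negSucc 146, .negSucc 1810, .negSucc 297, .negSucc 122⟩, ⟨.negSucc 78, .ofNat 128, .ofNat 4, .ofNat 708, .ofNat 41, .ofNat 124⟩, .ofNat 309, .negSucc 35, .ofNat 0, .negSucc 35, .ofNat 666, .ofNat 0, .ofNat 692, .ofNat 89, .negSucc 826, .ofNat 0, .ofNat 362, .negSucc 14, .ofNat 0, .ofNat 0, .ofNat 1113, .ofNat 2321, .ofNat 0, .ofNat 68399503988143048079377327718400, .ofNat 5686765740886321215936921600, .ofNat 0, .ofNat 0, .ofNat 6035756683565443404257769082060800,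 .ofNat 242412893194730614038724608000, .ofNat 0, .ofNat 0, .ofNat 0, .ofNat 0, .ofNat 0, .ofNat 0, .ofNat 4598024170129634408822071728537600, .ofNat 0, .ofNat 0⟩)
    (by decide +kernel)
theorem L00424 : Good (Phi V4.P V4.D 1 (-1)) ⟨3, 5, 2, 0, 2, 2, 3, 7, 2, 1⟩ :=
  leaf_sound (S := T4.ds_pm) T4.ok_pm (w := 176) (c := ⟨⟨.negSucc 1175, .negSucc 704, .negSucc 123, .negSucc 960, .negSucc 137, .negSucc 243⟩, ⟨.negSucc 87, .negSucc 201, .ofNat 227, .negSucc 52, .negSucc 17, .negSucc 10⟩, ⟨.ofNat 546, .ofNat 562, .ofNat 172, .ofNat 691, .ofNat 91, .ofNat 192⟩, ⟨.negSucc 2341, .negSucc 948, .negSucc 230, .negSucc 1829, .negSucc 257, .negSucc 450⟩, ⟨.ofNat 11, .ofNat 90, .ofNat 9, .ofNat 374, .ofNat 28, .ofNat 124⟩, .ofNat 310, .negSucc 29, .ofNat 0, .negSucc 29, .ofNat 666, .ofNat 0, .ofNat 2832, .ofNat 323, .negSucc 4201, .ofNat 0, .ofNat 1504, .negSucc 167, .ofNat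 0, .ofNat 0, .ofNat 5077, .ofNat 15629, .ofNat 0, .ofNat 2064754633921628354133801880780800, .ofNat 0, .ofNat 0, .ofNat 0, .ofNat 410503152692082808049631738671923200, .ofNat 0, .ofNat 0, .ofNat 0, .ofNat 244491784513870200301244933524684800, .ofNat 0, .ofNat 0, .ofNat 0, .ofNat 356077324259938978794185821677158400, .ofNat 0, .ofNat 0⟩)
    (by decide +kernel)
theorem L00425 : Good (Phi V4.P V4.D 1 (-1)) ⟨3, 5, 2, 1, 2, 2, 2, 3, 2, 1⟩ :=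
  out_sound (S := T4.ds_pm) T4.ok_pm (w := 48) (j := 3) (by decide +kernel)
theorem L00426 : Good (Phi V4.P V4.D 1 (-1)) ⟨2, 2, 1, 0, 2, 3, 2, 3, 2, 1⟩ :=
  leaf_sound (S := T4.ds_pm) T4.ok_pm (w := 160) (c := ⟨⟨.negSucc 1326, .negSucc 1326, .negSucc 304, .ofNat 0, .negSucc 238, .ofNat 0⟩, ⟨.ofNat 4, .negSucc 269, .ofNat 687, .ofNat 0, .negSucc 60, .ofNat 0⟩, ⟨.ofNat 680, .ofNat 826, .ofNat 316, .ofNat 0, .ofNat 171, .ofNat 0⟩, ⟨.negSucc 3058, .negSucc 1765, .negSucc 468, .ofNat 0, .negSucc 524, .ofNat 0⟩, ⟨.ofNat 342, .ofNat 594, .ofNat 92, .ofNat 0, .ofNat 92, .ofNat 0⟩, .ofNat 325, .ofNat 14, .ofNat 0, .ofNat 14, .ofNat 719, .ofNat 0, .ofNat 784, .negSucc 39, .negSucc 745, .ofNat 0, .ofNat 368, .ofNat 76, .ofNat 0, .ofNat 0, .ofNat 1052, .ofNat 3433, .ofNat 0, .ofNat 1928651744257828591070556979200, .ofNat 13229809278257626603742822400, .ofNat 0, .ofNat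 0, .ofNat 268547454235955908651668996096000, .ofNat 441754085124431923832369971200, .ofNat 0, .ofNat 0, .ofNat 170689384670398157219067592704000, .ofNat 318778708010025996944356147200, .ofNat 0, .ofNat 0, .ofNat 262118515045574898149865239347200, .ofNat 0, .ofNat 0⟩)
    (by decide +kernel)
theorem L00427 : Good (Phi V4.P V4.D 1 (-1)) ⟨2, 2, 1, 1, 1, 1, 1, 1, 2, 1⟩ :=
  out_sound (S := T4.ds_pm) T4.ok_pm (w := 40) (j := 3) (by decide +kernel)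
theorem L00428 : Good (Phi V4.P V4.D 1 (-1)) ⟨2, 3, 0, 0, 1, 1, 0, 0, 2, 1⟩ :=
  out_sound (S := T4.ds_pm) T4.ok_pm (w := 40) (j := 3) (by decide +kernel)
theorem L00429 : Good (Phi V4.P V4.D 1 (-1)) ⟨2, 2, 0, 0, 1, 0, 1, 0, 2, 2⟩ :=
  leaf_sound (S := T4.ds_pm) T4.ok_pm (w := 144) (c := ⟨⟨.negSucc 499, .negSucc 336, .ofNat 20, .negSucc 297, .ofNat 45, .ofNat 125⟩, ⟨.ofNat 24, .negSucc 165, .ofNat 432, .negSucc 7, .negSucc 0, .negSucc 4⟩, ⟨.ofNat 225, .ofNat 221, .ofNat 29, .negSucc 0, .negSucc 20, .negSucc 165⟩, ⟨.negSucc 1181, .negSucc 239, .negSucc 21, .negSucc 596, .ofNat 91, .ofNat 261⟩, ⟨.negSucc 63, .ofNat 85, .ofNat 20, .negSucc 95, .negSucc 32, .ofNat 15⟩, .ofNat 320, .ofNat 2, .ofNat 0, .ofNat 2, .ofNat 700, .ofNat 0, .ofNat 385, .negSucc 2, .negSucc 277, .ofNat 0, .ofNat 224, .ofNat 17, .ofNat 0, .ofNat 0, .ofNat 763, .ofNat 4110, .ofNat 566660696291771583194726400,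 .ofNat 0, .ofNat 98937391884971151628800, .ofNat 0, .ofNat 12726978943576923807783321600, .ofNat 0, .ofNat 0, .ofNat 0, .ofNat 22323441006337557683345817600, .ofNat 279836328073230013169664000, .ofNat 40912129695137249673216000, .ofNat 0, .ofNat 68043651558674897912935219200, .ofNat 0, .ofNat 0, .ofNat 0⟩)
    (by decide +kernel)
theorem L00430 : Good (Phi V4.P V4.D 1 (-1)) ⟨2, 2, 0, 0, 1, 0, 1, 0, 2, 3⟩ :=
  out_sound (S := T4.ds_pm) T4.ok_pm (w := 24) (j := 1) (by decide +kernel)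
theorem L00431 : Good (Phi V4.P V4.D 1 (-1)) ⟨2, 2, 1, 0, 3, 0, 2, 2, 2, 2⟩ :=
  leaf_sound (S := T4.ds_pm) T4.ok_pm (w := 168) (c := ⟨⟨.negSucc 464, .negSucc 272, .ofNat 15, .negSucc 85, .ofNat 93, .ofNat 69⟩, ⟨.ofNat 13, .negSucc 115, .ofNat 160, .negSucc 1, .negSucc 0, .negSucc 0⟩, ⟨.ofNat 121, .ofNat 261, .negSucc 9, .ofNat 42, .negSucc 103, .negSucc 25⟩, ⟨.negSucc 1057, .negSucc 244, .ofNat 19, .negSucc 171, .ofNat 190, .ofNat 138⟩, ⟨.negSucc 18, .ofNat 5, .negSucc 1, .negSucc 63, .ofNat 12, .ofNat 8⟩, .ofNat 321, .ofNat 4, .ofNat 0, .ofNat 4, .ofNat 705, .ofNat 0, .ofNat 380, .negSucc 3, .negSucc 371, .ofNat 0, .ofNat 222, .ofNat 4, .ofNat 0, .ofNat 0, .ofNat 756, .ofNat 9817, .ofNat 194345311075650592356499351142400, .ofNat 0, .ofNat 0, .ofNat 0, .ofNat 0, .ofNat 0, .ofNat 0, .ofNat 0, .ofNat 0, .ofNat 0, .ofNat 0, .ofNat 0, .ofNat 0, .ofNat 0, .ofNat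 0, .ofNat 0⟩)
    (by decide +kernel)
theorem L00432 : Good (Phi V4.P V4.D 1 (-1)) ⟨2, 2, 1, 0, 3, 1, 2, 2, 2, 2⟩ :=
  leaf_sound (S := T4.ds_pm) T4.ok_pm (w := 168) (c := ⟨⟨.negSucc 458, .negSucc 352, .ofNat 7, .negSucc 115, .ofNat 22, .ofNat 62⟩, ⟨.ofNat 14, .negSucc 137, .ofNat 180, .negSucc 4, .negSucc 1, .ofNat 2⟩, ⟨.ofNat 65, .ofNat 318, .ofNat 15, .ofNat 61, .negSucc 8, .negSucc 27⟩, ⟨.negSucc 1063, .negSucc 355, .negSucc 12, .negSucc 225, .ofNat 48, .ofNat 122⟩, ⟨.negSucc 115, .ofNat 30, .ofNat 2, .negSucc 19, .ofNat 32, .ofNat 20⟩, .ofNat 320, .ofNat 2, .ofNat 0, .ofNat 2, .ofNat 696, .ofNat 0, .ofNat 379, .negSucc 1, .negSucc 353, .ofNat 0, .ofNat 222, .ofNat 5, .ofNat 0, .ofNat 0, .ofNat 742, .ofNat 7708, .ofNat 0, .ofNat 0, .ofNat 0, .ofNat 0, .ofNat 0, .ofNat 0, .ofNat 0, .ofNat 0, .ofNat 0, .ofNat 0, .ofNat 0, .ofNat 0, .ofNat 0, .ofNat 0, .ofNat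 0, .ofNat 0⟩)
    (by decide +kernel)
theorem L00433 : Good (Phi V4.P V4.D 1 (-1)) ⟨2, 2, 1, 0, 2, 0, 2, 2, 2, 3⟩ :=
  leaf_sound (S := T4.ds_pm) T4.ok_pm (w := 160) (c := ⟨⟨.negSucc 392, .negSucc 291, .ofNat 3, .negSucc 232, .ofNat 109, .negSucc 144⟩, ⟨.ofNat 2, .negSucc 107, .ofNat 155, .ofNat 1, .ofNat 4, .ofNat 131⟩, ⟨.ofNat 11, .ofNat 276, .ofNat 5, .ofNat 154, .negSucc 36, .ofNat 164⟩, ⟨.negSucc 837, .negSucc 298, .negSucc 7, .negSucc 477, .ofNat 159, .negSucc 298⟩, ⟨.ofNat 40, .ofNat 2, .ofNat 0, .negSucc 70, .negSucc 52, .ofNat 229⟩, .ofNat 320, .ofNat 2, .ofNat 0, .ofNat 2, .ofNat 696, .ofNat 0, .ofNat 351, .negSucc 1, .negSucc 348, .ofNat 0, .ofNat 206, .ofNat 1, .ofNat 0, .ofNat 0, .ofNat 690, .ofNat 40638, .ofNat 158559725607539287611388251340800, .ofNat 0, .ofNat 0, .ofNat 0, .ofNat 361352228346438235820479689523200, .ofNat 0, .ofNat 0, .ofNat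 0, .ofNat 323714792419097811993160895692800, .ofNat 0, .ofNat 0, .ofNat 0, .ofNat 478896941265410635300473510297600, .ofNat 0, .ofNat 0, .ofNat 0⟩)
    (by decide +kernel)
theorem L00434 : Good (Phi V4.P V4.D 1 (-1)) ⟨3, 4, 1, 0, 2, 0, 3, 6, 2, 2⟩ :=
  leaf_sound (S := T4.ds_pm) T4.ok_pm (w := 168) (c := ⟨⟨.negSucc 296, .negSucc 158, .negSucc 4, .negSucc 256, .ofNat 64, .ofNat 27⟩, ⟨.negSucc 9, .negSucc 26, .ofNat 149, .ofNat 29, .negSucc 8, .negSucc 3⟩, ⟨.negSucc 70, .ofNat 151, .ofNat 12, .ofNat 192, .negSucc 55, .ofNat 29⟩, ⟨.negSucc 693, .negSucc 200, .negSucc 17, .negSucc 546, .ofNat 142, .ofNat 59⟩, ⟨.negSucc 29, .ofNat 9, .ofNat 2, .negSucc 62, .ofNat 18, .ofNat 11⟩, .ofNat 334, .ofNat 47, .ofNat 0, .ofNat 47, .ofNat 715, .ofNat 0, .ofNat 394, .negSucc 52, .negSucc 442, .ofNat 0, .ofNat 235, .ofNat 34, .ofNat 0, .ofNat 0, .ofNat 786, .ofNat 5707, .ofNat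 0, .ofNat 0, .ofNat 0, .ofNat 0, .ofNat 0, .ofNat 0, .ofNat 0, .ofNat 0, .ofNat 0, .ofNat 0, .ofNat 0, .ofNat 0, .ofNat 0, .ofNat 0, .ofNat 0, .ofNat 0⟩)
    (by decide +kernel)
theorem L00435 : Good (Phi V4.P V4.D 1 (-1)) ⟨3, 4, 1, 0, 2, 0, 3, 7, 2, 2⟩ :=
  leaf_sound (S := T4.ds_pm) T4.ok_pm (w := 168) (c := ⟨⟨.negSucc 187, .negSucc 121, .negSucc 3, .negSucc 380, .ofNat 211, .negSucc 12⟩, ⟨.negSucc 5, .negSucc 24, .ofNat 111, .ofNat 20, .negSucc 12, .ofNat 1⟩, ⟨.negSucc 180, .ofNat 115, .ofNat 11, .ofNat 322, .negSucc 198, .ofNat 81⟩, ⟨.negSucc 439, .negSucc 165, .negSucc 15, .negSucc 798, .ofNat 444, .negSucc 24⟩, ⟨.negSucc 18, .ofNat 3, .ofNat 3, .negSucc 35, .ofNat 17, .ofNat 4⟩, .ofNat 331, .ofNat 27, .ofNat 0, .ofNat 27, .ofNat 745, .ofNat 0, .ofNat 423, .negSucc 31, .negSucc 604, .ofNat 0, .ofNat 242, .ofNat 23, .ofNat 0, .ofNat 0, .ofNat 892, .ofNat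 2784, .ofNat 0, .ofNat 0, .ofNat 0, .ofNat 0, .ofNat 0, .ofNat 665927596167363877929137838489600, .ofNat 0, .ofNat 0, .ofNat 0, .ofNat 0, .ofNat 0, .ofNat 0, .ofNat 0, .ofNat 962228125234480661191033513574400, .ofNat 0, .ofNat 0⟩)
    (by decide +kernel)
theorem L00436 : Good (Phi V4.P V4.D 1 (-1)) ⟨4, 10, 3, 0, 2, 0, 3, 6, 2, 2⟩ :=
  leaf_sound (S := T4.ds_pm) T4.ok_pm (w := 176) (c := ⟨⟨.negSucc 391, .negSucc 109, .negSucc 3, .negSucc 361, .ofNat 51, .ofNat 22⟩, ⟨.negSucc 29, .negSucc 41, .ofNat 45, .negSucc 29, .ofNat 7, .ofNat 0⟩, ⟨.ofNat 27, .ofNat 102, .ofNat 8, .ofNat 269, .negSucc 39, .ofNat 34⟩, ⟨.negSucc 784, .negSucc 125, .negSucc 11, .negSucc 684, .ofNat 94, .ofNat 44⟩, ⟨.negSucc 37, .ofNat 10, .ofNat 1, .negSucc 50, .ofNat 18, .ofNat 19⟩, .ofNat 473, .negSucc 172, .ofNat 0, .negSucc 172, .ofNat 2540, .ofNat 0, .ofNat 381, .ofNat 71, .negSucc 403,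 .ofNat 0, .ofNat 150, .negSucc 28, .ofNat 0, .ofNat 0, .ofNat 761, .ofNat 6919, .ofNat 0, .ofNat 0, .ofNat 0, .ofNat 0, .ofNat 0, .ofNat 0, .ofNat 0, .ofNat 0, .ofNat 0, .ofNat 0, .ofNat 0, .ofNat 0, .ofNat 0, .ofNat 0, .ofNat 0, .ofNat 0⟩)
    (by decide +kernel)
theorem L00437 : Good (Phi V4.P V4.D 1 (-1)) ⟨4, 10, 3, 0, 2, 0, 3, 7, 2, 2⟩ :=
  leaf_sound (S := T4.ds_pm) T4.ok_pm (w := 176) (c := ⟨⟨.negSucc 226, .negSucc 139, .negSucc 5, .negSucc 538, .ofNat 180, .negSucc 15⟩, ⟨.negSucc 18, .negSucc 39, .ofNat 41, .negSucc 37, .ofNat 13, .ofNat 0⟩, ⟨.negSucc 140, .ofNat 135, .ofNat 10, .ofNat 459, .negSucc 164, .ofNat 85⟩, ⟨.negSucc 464, .negSucc 194, .negSucc 16, .negSucc 1020, .ofNat 347, .negSucc 31⟩, ⟨.negSucc 14, .ofNat 2, .ofNat 1, .negSucc 34, .ofNat 15, .ofNat 2⟩, .ofNat 414, .negSucc 76, .ofNat 0, .negSucc 76, .ofNat 1470, .ofNat 0, .ofNat 407, .ofNat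 53, .negSucc 535, .ofNat 0, .ofNat 186, .negSucc 33, .ofNat 0, .ofNat 0, .ofNat 839, .ofNat 3324, .ofNat 0, .ofNat 0, .ofNat 0, .ofNat 0, .ofNat 0, .ofNat 187168237651362627375295741349068800, .ofNat 0, .ofNat 0, .ofNat 0, .ofNat 0, .ofNat 0, .ofNat 0, .ofNat 0, .ofNat 233221096184457487882310854587187200, .ofNat 0, .ofNat 0⟩)
    (by decide +kernel)
theorem L00438 : Good (Phi V4.P V4.D 1 (-1)) ⟨4, 10, 3, 1, 3, 0, 2, 3, 2, 2⟩ :=
  leaf_sound (S := T4.ds_pm) T4.ok_pm (w := 184) (c := ⟨⟨.negSucc 424, .negSucc 8, .ofNat 51, .negSucc 254, .ofNat 300, .negSucc 5⟩, ⟨.ofNat 0, .negSucc 21, .ofNat 33, .negSucc 3, .ofNat 3, .ofNat 1⟩, ⟨.ofNat 51, .ofNat 6, .negSucc 48, .ofNat 220, .negSucc 279, .ofNat 69⟩, ⟨.negSucc 836, .ofNat 35, .ofNat 94, .negSucc 488, .ofNat 578, .negSucc 11⟩, ⟨.negSucc 23, .negSucc 0, .ofNat 3, .negSucc 29, .ofNat 32, .ofNat 3⟩, .ofNat 414, .ofNat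 3, .ofNat 0, .ofNat 3, .ofNat 1340, .ofNat 0, .ofNat 400, .negSucc 1, .negSucc 495, .ofNat 0, .ofNat 194, .ofNat 0, .ofNat 0, .ofNat 0, .ofNat 815, .ofNat 3332, .ofNat 0, .ofNat 0, .ofNat 0, .ofNat 0, .ofNat 0, .ofNat 0, .ofNat 0, .ofNat 0, .ofNat 0, .ofNat 0, .ofNat 0, .ofNat 0, .ofNat 0, .ofNat 0, .ofNat 0, .ofNat 0⟩)
    (by decide +kernel)
theorem L00439 : Good (Phi V4.P V4.D 1 (-1)) ⟨4, 10, 3, 1, 3, 1, 2, 3, 2, 2⟩ :=
  leaf_sound (S := T4.ds_pm) T4.ok_pm (w := 184) (c := ⟨⟨.negSucc 515, .negSucc 135, .negSucc 16, .negSucc 217, .ofNat 55, .ofNat 7⟩, ⟨.negSucc 1, .negSucc 37, .ofNat 51, .ofNat 0, .ofNat 5, .ofNat 1⟩, ⟨.ofNat 108, .ofNat 129, .ofNat 24, .ofNat 169, .negSucc 28, .ofNat 53⟩, ⟨.negSucc 1022, .negSucc 172, .negSucc 38, .negSucc 419, .ofNat 107, .ofNat 13⟩, ⟨.negSucc 77, .ofNat 5, .negSucc 1, .ofNat 1, .ofNat 58, .ofNat 17⟩, .ofNat 466, .ofNat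 0, .ofNat 0, .ofNat 0, .ofNat 2107, .ofNat 0, .ofNat 396, .ofNat 0, .negSucc 428, .ofNat 0, .ofNat 170, .negSucc 0, .ofNat 0, .ofNat 0, .ofNat 775, .ofNat 3158, .ofNat 0, .ofNat 0, .ofNat 0, .ofNat 0, .ofNat 0, .ofNat 8120609295914198324114647776283852800, .ofNat 0, .ofNat 0, .ofNat 0, .ofNat 0, .ofNat 0, .ofNat 0, .ofNat 0, .ofNat 10222519943251060275134041564800614400, .ofNat 0, .ofNat 0⟩)
    (by decide +kernel)
theorem L00440 : Good (Phi V4.P V4.D 1 (-1)) ⟨4, 11, 2, 0, 2, 0, 3, 6, 2, 2⟩ :=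
  leaf_sound (S := T4.ds_pm) T4.ok_pm (w := 176) (c := ⟨⟨.negSucc 478, .negSucc 117, .ofNat 58, .negSucc 419, .ofNat 36, .ofNat 47⟩, ⟨.negSucc 60, .negSucc 53, .ofNat 106, .negSucc 57, .ofNat 5, .ofNat 7⟩, ⟨.ofNat 111, .ofNat 111, .negSucc 53, .ofNat 316, .negSucc 23, .ofNat 12⟩, ⟨.negSucc 881, .negSucc 126, .ofNat 96, .negSucc 758, .ofNat 64, .ofNat 84⟩, ⟨.negSucc 24, .ofNat 0, .negSucc 11, .negSucc 44, .ofNat 12, .ofNat 8⟩, .ofNat 472, .negSucc 247, .ofNat 0, .negSucc 247, .ofNat 2056, .ofNat 0, .ofNat 375, .ofNat 111, .negSucc 427, .ofNat 0, .ofNat 173, .negSucc 53, .ofNat 0, .ofNat 0, .ofNat 772, .ofNat 6659, .ofNat 0, .ofNat 0, .ofNat 0, .ofNat 0, .ofNat 0, .ofNat 14870109397680563190930454295347200, .ofNat 370751762638832402247450624000, .ofNat 0, .ofNat 0, .ofNat 0, .ofNat 3073298140652153516165431296000, .ofNat 0, .ofNat 0, .ofNat 22610749614036195350284788459110400,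 .ofNat 294782831302583464983370137600, .ofNat 0⟩)
    (by decide +kernel)
theorem L00441 : Good (Phi V4.P V4.D 1 (-1)) ⟨4, 11, 2, 0, 2, 0, 3, 7, 2, 2⟩ :=
  leaf_sound (S := T4.ds_pm) T4.ok_pm (w := 176) (c := ⟨⟨.negSucc 300, .negSucc 214, .negSucc 72, .negSucc 621, .ofNat 178, .negSucc 18⟩, ⟨.negSucc 38, .negSucc 58, .ofNat 89, .negSucc 80, .ofNat 24, .negSucc 1⟩, ⟨.negSucc 67, .ofNat 210, .ofNat 82, .ofNat 535, .negSucc 162, .ofNat 89⟩, ⟨.negSucc 556, .negSucc 320, .negSucc 152, .negSucc 1126, .ofNat 324, .negSucc 34⟩, ⟨.negSucc 11, .ofNat 13, .ofNat 8, .negSucc 37, .ofNat 12, .negSucc 1⟩, .ofNat 470, .negSucc 238, .ofNat 0, .negSucc 238, .ofNat 2027, .ofNat 0, .ofNat 392, .ofNat 113, .negSucc 544, .ofNat 0, .ofNat 181, .negSucc 68, .ofNat 0, .ofNat 0, .ofNat 842, .ofNat 3174, .ofNat 0, .ofNat 0, .ofNat 0, .ofNat 0, .ofNat 0, .ofNat 46225713820910638126784064572620800,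 .ofNat 1306208165264492946399638323200, .ofNat 0, .ofNat 0, .ofNat 21504205957248158982843919446835200, .ofNat 2767700367164285485603356672000, .ofNat 0, .ofNat 0, .ofNat 58176342161143051131911219340902400, .ofNat 900357427680757427639785881600, .ofNat 0⟩)
    (by decide +kernel)
theorem L00442 : Good (Phi V4.P V4.D 1 (-1)) ⟨3, 5, 2, 1, 2, 0, 2, 3, 2, 2⟩ :=
  out_sound (S := T4.ds_pm) T4.ok_pm (w := 48) (j := 3) (by decide +kernel)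
theorem L00443 : Good (Phi V4.P V4.D 1 (-1)) ⟨3, 4, 1, 0, 2, 0, 3, 6, 2, 3⟩ :=
  leaf_sound (S := T4.ds_pm) T4.ok_pm (w := 168) (c := ⟨⟨.negSucc 242, .negSucc 146, .ofNat 0, .negSucc 296, .ofNat 43, .negSucc 9⟩, ⟨.negSucc 1, .negSucc 35, .ofNat 151, .ofNat 8, .negSucc 2, .ofNat 21⟩, ⟨.negSucc 73, .ofNat 138, .ofNat 12, .ofNat 228, .negSucc 24, .ofNat 67⟩, ⟨.negSucc 578, .negSucc 179, .negSucc 15, .negSucc 616, .ofNat 92, .negSucc 24⟩, ⟨.negSucc 24, .ofNat 5, .negSucc 1, .negSucc 45, .ofNat 15, .negSucc 9⟩, .ofNat 330, .ofNat 30, .ofNat 0, .ofNat 30, .ofNat 731, .ofNat 0, .ofNat 355, .negSucc 29, .negSucc 397, .ofNat 0, .ofNat 206, .ofNat 17, .ofNat 0, .ofNat 0, .ofNat 707, .ofNat 22137, .ofNat 739702503408358196096003997696000, .ofNat 0, .ofNat 0, .ofNat 0, .ofNat 0, .ofNat 0, .ofNat 0, .ofNat 0, .ofNat 1914345361575238311165072664166400, .ofNat 0, .ofNat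 750912488884916858706827673600, .ofNat 0, .ofNat 0, .ofNat 97891282951240558717675398758400, .ofNat 0, .ofNat 0⟩)
    (by decide +kernel)
theorem L00444 : Good (Phi V4.P V4.D 1 (-1)) ⟨3, 4, 1, 0, 2, 0, 3, 7, 2, 3⟩ :=
  leaf_sound (S := T4.ds_pm) T4.ok_pm (w := 168) (c := ⟨⟨.negSucc 164, .negSucc 114, .negSucc 5, .negSucc 454, .ofNat 187, .negSucc 64⟩, ⟨.negSucc 7, .negSucc 16, .ofNat 108, .ofNat 23, .negSucc 10, .ofNat 11⟩, ⟨.negSucc 140, .ofNat 112, .ofNat 12, .ofNat 403, .negSucc 171, .ofNat 119⟩, ⟨.negSucc 395, .negSucc 153, .negSucc 17, .negSucc 942, .ofNat 387, .negSucc 120⟩, ⟨.negSucc 10, .ofNat 2, .ofNat 0, .negSucc 43, .ofNat 12, .ofNat 5⟩, .ofNat 330, .ofNat 35, .ofNat 0, .ofNat 35, .ofNat 722, .ofNat 0, .ofNat 371, .negSucc 36, .negSucc 518, .ofNat 0, .ofNat 218, .ofNat 26, .ofNat 0, .ofNat 0, .ofNat 784, .ofNat 8255, .ofNat 208017037195706535467781036441600,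 .ofNat 0, .ofNat 0, .ofNat 0, .ofNat 3925725087963891063529360746086400, .ofNat 798708321035450677259074849996800, .ofNat 0, .ofNat 0, .ofNat 0, .ofNat 0, .ofNat 571318718812018209382308249600, .ofNat 0, .ofNat 1156790253865602666707971316121600, .ofNat 1023706833473701168063856404070400, .ofNat 238246908697030873250267136000, .ofNat 0⟩)
    (by decide +kernel)
theorem L00445 : Good (Phi V4.P V4.D 1 (-1)) ⟨3, 5, 1, 0, 2, 0, 3, 6, 2, 3⟩ :=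
  leaf_sound (S := T4.ds_pm) T4.ok_pm (w := 168) (c := ⟨⟨.negSucc 321, .negSucc 197, .negSucc 9, .negSucc 414, .ofNat 18, .ofNat 20⟩, ⟨.negSucc 27, .negSucc 77, .ofNat 166, .negSucc 30, .ofNat 4, .ofNat 8⟩, ⟨.ofNat 0, .ofNat 191, .ofNat 23, .ofNat 332, .ofNat 5, .ofNat 41⟩, ⟨.negSucc 650, .negSucc 220, .negSucc 28, .negSucc 780, .ofNat 31, .ofNat 29⟩, ⟨.negSucc 10, .negSucc 4, .negSucc 3, .negSucc 46, .ofNat 5, .negSucc 7⟩, .ofNat 410, .negSucc 82, .ofNat 0, .negSucc 82, .ofNat 1377, .ofNat 0, .ofNat 347, .ofNat 49, .negSucc 377, .ofNat 0, .ofNat 166, .negSucc 26, .ofNat 0, .ofNat 0, .ofNat 695, .ofNat 11305, .ofNat 419997586751810574010539835392000, .ofNat 0, .ofNat 0, .ofNat 0, .ofNat 1225964135646468422126344234598400, .ofNat 418948063105060911763670276505600, .ofNat 603971401355850751249534156800, .ofNat 0, .ofNat 3683283839982706180298271149260800, .ofNat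 0, .ofNat 1717447950491740943313744691200, .ofNat 0, .ofNat 999456525960694543471027735756800, .ofNat 287826809995873921864864628736000, .ofNat 0, .ofNat 0⟩)
    (by decide +kernel)
theorem L00446 : Good (Phi V4.P V4.D 1 (-1)) ⟨3, 5, 1, 0, 2, 0, 3, 7, 2, 3⟩ :=
  leaf_sound (S := T4.ds_pm) T4.ok_pm (w := 168) (c := ⟨⟨.negSucc 222, .negSucc 196, .negSucc 16, .negSucc 652, .ofNat 186, .negSucc 39⟩, ⟨.negSucc 13, .negSucc 64, .ofNat 130, .negSucc 60, .ofNat 16, .ofNat 6⟩, ⟨.negSucc 84, .ofNat 195, .ofNat 27, .ofNat 588, .negSucc 168, .ofNat 94⟩, ⟨.negSucc 455, .negSucc 262, .negSucc 50, .negSucc 1214, .ofNat 349, .negSucc 76⟩, ⟨.negSucc 5, .negSucc 2, .negSucc 2, .negSucc 48, .ofNat 10, .negSucc 2⟩, .ofNat 411, .negSucc 89, .ofNat 0, .negSucc 89, .ofNat 1385, .ofNat 0, .ofNat 364, .ofNat 56, .negSucc 494, .ofNat 0, .ofNat 174, .negSucc 37, .ofNat 0, .ofNat 0,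 .ofNat 766, .ofNat 3687, .ofNat 111273801676187036843788310937600, .ofNat 0, .ofNat 0, .ofNat 0, .ofNat 3071439304436900646613655381606400, .ofNat 604448494196589265636888569446400, .ofNat 956484236470910951116033228800, .ofNat 0, .ofNat 1590995369342695359302553776947200, .ofNat 370379737583728506594096316416000, .ofNat 1898369008438065668939789107200, .ofNat 0, .ofNat 2285995083588264031193822920704000, .ofNat 712357070694809958691053030604800, .ofNat 1327442953490529436268966707200, .ofNat 0⟩)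
    (by decide +kernel)
theorem L00447 : Good (Phi V4.P V4.D 1 (-1)) ⟨2, 2, 1, 1, 2, 0, 1, 1, 1, 1⟩ :=
  out_sound (S := T4.ds_pm) T4.ok_pm (w := 40) (j := 3) (by decide +kernel)
theorem L00448 : Good (Phi V4.P V4.D 1 (-1)) ⟨2, 2, 1, 0, 2, 1, 2, 2, 1, 1⟩ :=
  leaf_sound (S := T4.ds_pm) T4.ok_pm (w := 152) (c := ⟨⟨.negSucc 492, .negSucc 439, .ofNat 9, .negSucc 301, .negSucc 62, .ofNat 200⟩, ⟨.ofNat 5, .negSucc 163, .ofNat 243, .ofNat 6, .negSucc 6, .ofNat 33⟩, ⟨.ofNat 74, .ofNat 334, .ofNat 41, .ofNat 152, .ofNat 83, .negSucc 153⟩, ⟨.negSucc 1167, .negSucc 438, .negSucc 23, .negSucc 596, .negSucc 112, .ofNat 374⟩, ⟨.negSucc 210, .ofNat 110, .ofNat 13, .ofNat 96, .ofNat 65, .ofNat 59⟩, .ofNat 320, .negSucc 1, .ofNat 0, .negSucc 1, .ofNat 704, .ofNat 0, .ofNat 399, .ofNat 2, .negSucc 325, .ofNat 0, .ofNat 229, .ofNat 11, .ofNat 0, .ofNat 0, .ofNat 747, .ofNat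 2857, .ofNat 326994069020196632731110604800, .ofNat 0, .ofNat 0, .ofNat 0, .ofNat 0, .ofNat 3095251018733195519325319987200, .ofNat 0, .ofNat 0, .ofNat 0, .ofNat 0, .ofNat 0, .ofNat 0, .ofNat 11872820921170140943192424448000, .ofNat 2709955323755770419374299545600, .ofNat 3870957708666324708124262400, .ofNat 0⟩)
    (by decide +kernel)
theorem L00449 : Good (Phi V4.P V4.D 1 (-1)) ⟨2, 2, 1, 0, 2, 1, 2, 3, 1, 1⟩ :=
  leaf_sound (S := T4.ds_pm) T4.ok_pm (w := 152) (c := ⟨⟨.negSucc 478, .negSucc 529, .negSucc 6, .negSucc 373, .ofNat 18, .ofNat 41⟩, ⟨.ofNat 11, .negSucc 167, .ofNat 216, .ofNat 3, .ofNat 21, .ofNat 3⟩, ⟨.ofNat 49, .ofNat 464, .ofNat 45, .ofNat 255, .ofNat 8, .ofNat 58⟩, ⟨.negSucc 1120, .negSucc 635, .negSucc 36, .negSucc 756, .ofNat 6, .ofNat 78⟩, ⟨.negSucc 114, .ofNat 56, .ofNat 1, .ofNat 65, .ofNat 74, .ofNat 69⟩, .ofNat 322, .ofNat 8, .ofNat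 0, .ofNat 8, .ofNat 702, .ofNat 0, .ofNat 429, .negSucc 9, .negSucc 454, .ofNat 0, .ofNat 247, .ofNat 7, .ofNat 0, .ofNat 0, .ofNat 808, .ofNat 2277, .ofNat 0, .ofNat 0, .ofNat 0, .ofNat 0, .ofNat 0, .ofNat 8972407152618723147714763161600, .ofNat 0, .ofNat 0, .ofNat 0, .ofNat 3494493404048210639437430784000, .ofNat 0, .ofNat 0, .ofNat 0, .ofNat 9708701544427948699103841484800, .ofNat 0, .ofNat 0⟩)
    (by decide +kernel)
theorem L00450 : Good (Phi V4.P V4.D 1 (-1)) ⟨2, 2, 1, 1, 2, 1, 1, 1, 1, 1⟩ :=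
  out_sound (S := T4.ds_pm) T4.ok_pm (w := 40) (j := 3) (by decide +kernel)
theorem L00451 : Good (Phi V4.P V4.D 1 (-1)) ⟨2, 3, 0, 0, 1, 0, 0, 0, 1, 1⟩ :=
  out_sound (S := T4.ds_pm) T4.ok_pm (w := 40) (j := 3) (by decide +kernel)
theorem L00452 : Good (Phi V4.P V4.D 1 (-1)) ⟨2, 2, 0, 0, 1, 1, 1, 0, 2, 2⟩ :=
  leaf_sound (S := T4.ds_pm) T4.ok_pm (w := 144) (c := ⟨⟨.negSucc 727, .negSucc 394, .negSucc 22, .negSucc 453, .negSucc 78, .ofNat 240⟩, ⟨.ofNat 5, .negSucc 179, .ofNat 597, .ofNat 92, .ofNat 1, .ofNat 3⟩, ⟨.ofNat 128, .ofNat 164, .ofNat 145, .ofNat 34, .ofNat 167, .negSucc 309⟩, ⟨.negSucc 1669, .negSucc 275, .negSucc 121, .negSucc 940, .negSucc 156, .ofNat 477⟩, ⟨.negSucc 200, .ofNat 188, .ofNat 33, .ofNat 399, .ofNat 64, .negSucc 59⟩, .ofNat 323, .ofNat 13, .ofNat 0, .ofNat 13, .ofNat 696, .ofNat 0, .ofNat 410, .negSucc 22, .negSucc 235, .ofNat 0, .ofNat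 238, .ofNat 42, .ofNat 0, .ofNat 0, .ofNat 783, .ofNat 3601, .ofNat 0, .ofNat 0, .ofNat 0, .ofNat 0, .ofNat 0, .ofNat 16322254022585386684278374400, .ofNat 18149000203203538776883200, .ofNat 0, .ofNat 0, .ofNat 21330929135983685060159078400, .ofNat 46046348262451689888153600, .ofNat 0, .ofNat 86971761629607305200376217600, .ofNat 46348037352088317310323916800, .ofNat 7602853129071258732134400, .ofNat 0⟩)
    (by decide +kernel)
theorem L00453 : Good (Phi V4.P V4.D 1 (-1)) ⟨2, 2, 0, 0, 1, 1, 1, 1, 2, 2⟩ :=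
  leaf_sound (S := T4.ds_pm) T4.ok_pm (w := 152) (c := ⟨⟨.negSucc 774, .negSucc 481, .negSucc 45, .ofNat 0, .ofNat 0, .ofNat 0⟩, ⟨.ofNat 9, .negSucc 184, .ofNat 615, .ofNat 0, .ofNat 0, .ofNat 0⟩, ⟨.ofNat 237, .ofNat 296, .ofNat 195, .ofNat 0, .ofNat 0, .ofNat 0⟩, ⟨.negSucc 1766, .negSucc 440, .negSucc 167, .ofNat 0, .ofNat 0, .ofNat 0⟩, ⟨.negSucc 133, .ofNat 195, .ofNat 33, .ofNat 0, .ofNat 0, .ofNat 0⟩, .ofNat 171, .ofNat 2, .ofNat 0, .ofNat 2, .ofNat 239, .ofNat 0, .ofNat 1119, .negSucc 38, .negSucc 1203, .ofNat 0, .ofNat 825, .ofNat 215, .ofNat 0, .ofNat 0, .ofNat 1907, .ofNat 32597, .ofNat 0, .ofNat 0, .ofNat 0, .ofNat 0, .ofNat 0, .ofNat 3859626403824463583663829811200, .ofNat 305874953794319707039334400, .ofNat 0, .ofNat 0, .ofNat 3450675946040018608234011033600, .ofNat 229386602194157808569548800, .ofNat 0, .ofNat 0, .ofNat 5060108852620067764070409830400,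 .ofNat 0, .ofNat 0⟩)
    (by decide +kernel)
theorem L00454 : Good (Phi V4.P V4.D 1 (-1)) ⟨2, 2, 0, 0, 1, 1, 0, 0, 2, 3⟩ :=
  out_sound (S := T4.ds_pm) T4.ok_pm (w := 24) (j := 2) (by decide +kernel)
theorem L00455 : Good (Phi V4.P V4.D 1 (-1)) ⟨2, 3, 0, 0, 1, 1, 0, 0, 1, 1⟩ :=
  out_sound (S := T4.ds_pm) T4.ok_pm (w := 40) (j := 3) (by decide +kernel)

end Crest.Agent.R097C4.N4pm
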