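import Crest.Agent.R097C4.N4pm_000
import Crest.Agent.R097C4.N4pm_001
import Crest.Agent.R097C4.N4pm_002
import Crest.Agent.R097C4.N4pm_003
import Crest.Agent.R097C4.N4pm_004
import Crest.Agent.R097C4.N4pm_005
import Crest.Agent.R097C4.N4pm_006

/-!
# Row 97, box cover in dimension n = 4 (generated)
-/

set_option autoImplicit false
set_option Elab.async false
set_option maxHeartbeats 0
set_option maxRecDepth 100000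

open Crest.Agent.R097 Crest.Agent.R097.KA


namespace Crest.Agent.R097C4.N4pm

theorem g00000 : Good (Phi V4.P V4.D 1 (-1)) ⟨1, 0, 1, 1, 1, 0, 2, 0, 3, 1⟩ :=
  Good.n0 (Good.n2 L00011 (Good.n1 (Good.n4 L00012 L00013) L00014)) (Good.n1 (Good.n2 L00015 (Good.n3 L00016 L00017)) L00018)
theorem g00001 : Good (Phi V4.P V4.D 1 (-1)) ⟨1, 0, 0, 0, 1, 0, 2, 0, 2, 0⟩ :=
  Good.n1 (Good.n4 (Good.n0 L00000 (Good.n2 L00001 L00002)) (Good.n0 L00003 (Good.n2 L00004 L00005))) (Good.n4 (Good.n2 L00006 (Good.n0 L00007 (Good.n4 L00008 (Good.n1 L00009 L00010)))) g00000)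
theorem g00002 : Good (Phi V4.P V4.D 1 (-1)) ⟨1, 0, 0, 0, 2, 2, 2, 0, 3, 0⟩ :=
  Good.n1 (Good.n0 L00019 (Good.n4 L00020 (Good.n1 L00021 L00022))) (Good.n1 (Good.n4 L00023 L00024) L00025)
theorem g00003 : Good (Phi V4.P V4.D 1 (-1)) ⟨1, 0, 0, 0, 2, 3, 2, 0, 3, 0⟩ :=
  Good.n1 (Good.n0 (Good.n1 L00026 L00027) (Good.n1 L00028 (Good.n2 L00029 L00030))) (Good.n2 L00031 L00032)
theorem g00004 : Good (Phi V4.P V4.D 1 (-1)) ⟨1, 0, 0, 0, 2, 2, 2, 0, 3, 1⟩ :=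
  Good.n1 (Good.n0 L00033 (Good.n1 L00034 (Good.n0 L00035 (Good.n2 L00036 L00037)))) (Good.n0 L00038 (Good.n1 (Good.n3 L00039 L00040) L00041))
theorem g00005 : Good (Phi V4.P V4.D 1 (-1)) ⟨1, 0, 0, 0, 2, 3, 2, 0, 3, 1⟩ :=
  Good.n1 (Good.n4 (Good.n2 L00042 L00043) (Good.n2 L00044 L00045)) (Good.n0 L00046 (Good.n1 (Good.n1 L00047 L00048) L00049))
theorem g00006 : Good (Phi V4.P V4.D 1 (-1)) ⟨1, 0, 0, 0, 1, 1, 2, 1, 3, 0⟩ :=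
  Good.n1 (Good.n4 (Good.n2 L00056 L00057) (Good.n2 L00058 L00059)) (Good.n1 (Good.n2 L00060 L00061) L00062)
theorem g00007 : Good (Phi V4.P V4.D 1 (-1)) ⟨1, 0, 0, 0, 1, 1, 2, 1, 2, 0⟩ :=
  Good.n4 g00006 (Good.n2 (Good.n1 (Good.n0 L00063 L00064) L00065) (Good.n1 (Good.n0 L00066 L00067) L00068))
theorem g00008 : Good (Phi V4.P V4.D 1 (-1)) ⟨1, 0, 0, 0, 0, 0, 2, 1, 2, 0⟩ :=
  Good.n2 (Good.n1 (Good.n4 (Good.n0 L00050 L00051) L00052) (Good.n4 L00053 (Good.n0 L00054 L00055))) g00007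
theorem g00009 : Good (Phi V4.P V4.D 1 (-1)) ⟨1, 0, 0, 0, 1, 0, 2, 3, 3, 0⟩ :=
  Good.n1 (Good.n0 (Good.n2 L00071 L00072) (Good.n2 L00073 L00074)) (Good.n1 (Good.n0 (Good.n2 L00075 L00076) (Good.n3 L00077 (Good.n2 L00078 L00079))) L00080)
theorem g00010 : Good (Phi V4.P V4.D 1 (-1)) ⟨1, 0, 0, 0, 1, 0, 1, 1, 3, 1⟩ :=
  Good.n2 (Good.n1 (Good.n3 L00081 L00082) L00083) (Good.n1 (Good.n0 L00084 (Good.n3 L00085 L00086)) (Good.n0 L00087 L00088))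
theorem g00011 : Good (Phi V4.P V4.D 1 (-1)) ⟨1, 0, 0, 0, 1, 1, 1, 1, 3, 0⟩ :=
  Good.n2 (Good.n3 (Good.n1 L00089 L00090) (Good.n1 (Good.n0 L00091 L00092) L00093)) (Good.n1 (Good.n0 L00094 (Good.n3 L00095 L00096)) L00097)
theorem g00012 : Good (Phi V4.P V4.D 1 (-1)) ⟨2, 0, 0, 0, 1, 1, 1, 1, 3, 1⟩ :=
  Good.n2 (Good.n1 (Good.n3 L00098 (Good.n1 L00099 L00100)) L00101) (Good.n1 (Good.n3 L00102 L00103) L00104)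
theorem g00013 : Good (Phi V4.P V4.D 1 (-1)) ⟨2, 1, 0, 0, 2, 3, 1, 1, 3, 1⟩ :=
  Good.n1 (Good.n3 L00109 (Good.n0 L00110 (Good.n2 L00111 (Good.n1 L00112 L00113)))) (Good.n3 L00114 (Good.n0 L00115 (Good.n1 (Good.n3 L00116 L00117) L00118)))
theorem g00014 : Good (Phi V4.P V4.D 1 (-1)) ⟨1, 0, 0, 0, 1, 1, 1, 1, 2, 0⟩ :=
  Good.n4 g00011 (Good.n0 g00012 (Good.n2 (Good.n1 (Good.n3 L00105 L00106) (Good.n3 L00107 L00108)) g00013))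
theorem g00015 : Good (Phi V4.P V4.D 1 (-1)) ⟨1, 0, 0, 0, 0, 0, 0, 0, 2, 0⟩ :=
  Good.n3 (Good.n3 (Good.n2 g00001 (Good.n4 (Good.n2 g00002 g00003) (Good.n2 g00004 g00005))) g00008) (Good.n2 (Good.n4 (Good.n3 (Good.n1 L00069 L00070) g00009) g00010) g00014)
theorem g00016 : Good (Phi V4.P V4.D 1 (-1)) ⟨1, 0, 0, 0, 1, 0, 2, 3, 3, 2⟩ :=
  Good.n1 (Good.n0 (Good.n1 L00126 L00127) (Good.n1 (Good.n0 L00128 L00129) (Good.n3 L00130 L00131))) (Good.n0 L00132 (Good.n1 (Good.n2 L00133 L00134) L00135))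
theorem g00017 : Good (Phi V4.P V4.D 1 (-1)) ⟨1, 0, 0, 0, 1, 0, 2, 3, 3, 3⟩ :=
  Good.n1 (Good.n0 L00141 (Good.n1 L00142 (Good.n0 L00143 L00144))) (Good.n0 L00145 (Good.n2 L00146 L00147))
theorem g00018 : Good (Phi V4.P V4.D 1 (-1)) ⟨1, 0, 0, 0, 1, 0, 1, 1, 2, 1⟩ :=
  Good.n4 (Good.n3 (Good.n1 (Good.n0 L00123 L00124) L00125) g00016) (Good.n3 (Good.n1 (Good.n3 L00136 (Good.n4 (Good.n0 L00137 L00138) L00139)) L00140) g00017)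
theorem g00019 : Good (Phi V4.P V4.D 1 (-1)) ⟨1, 0, 0, 0, 2, 2, 1, 0, 3, 2⟩ :=
  Good.n4 (Good.n1 (Good.n3 L00148 L00149) (Good.n0 L00150 (Good.n3 L00151 L00152))) (Good.n3 L00153 (Good.n0 L00154 L00155))
theorem g00020 : Good (Phi V4.P V4.D 1 (-1)) ⟨1, 0, 0, 0, 3, 6, 1, 0, 2, 1⟩ :=
  Good.n4 (Good.n4 (Good.n1 (Good.n0 L00161 L00162) (Good.n0 L00163 L00164)) (Good.n3 L00165 L00166)) L00167
theorem g00021 : Good (Phi V4.P V4.D 1 (-1)) ⟨1, 0, 0, 0, 3, 7, 0, 0, 3, 2⟩ :=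
  Good.n3 (Good.n3 (Good.n1 (Good.n0 L00172 L00173) L00174) (Good.n1 L00175 L00176)) (Good.n3 (Good.n1 L00177 L00178) L00179)
theorem g00022 : Good (Phi V4.P V4.D 1 (-1)) ⟨1, 0, 0, 0, 2, 3, 0, 0, 2, 1⟩ :=
  Good.n2 (Good.n3 g00020 (Good.n4 (Good.n1 L00168 (Good.n3 L00169 L00170)) L00171)) (Good.n4 g00021 L00180)
theorem g00023 : Good (Phi V4.P V4.D 1 (-1)) ⟨1, 0, 0, 0, 1, 1, 0, 0, 2, 1⟩ :=
  Good.n2 (Good.n3 (Good.n4 g00019 L00156) (Good.n1 (Good.n0 L00157 (Good.n3 L00158 L00159)) L00160)) g00022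
theorem g00024 : Good (Phi V4.P V4.D 1 (-1)) ⟨1, 0, 0, 0, 0, 0, 0, 0, 1, 0⟩ :=
  Good.n4 g00015 (Good.n2 (Good.n3 (Good.n4 (Good.n2 L00119 (Good.n1 L00120 L00121)) L00122) g00018) g00023)
theorem g00025 : Good (Phi V4.P V4.D 1 (-1)) ⟨1, 0, 0, 0, 2, 0, 1, 1, 2, 2⟩ :=
  Good.n1 (Good.n0 (Good.n3 L00185 L00186) (Good.n3 L00187 L00188)) (Good.n0 (Good.n3 L00189 L00190) (Good.n3 L00191 L00192))
theorem g00026 : Good (Phi V4.P V4.D 1 (-1)) ⟨1, 0, 0, 0, 2, 0, 1, 1, 3, 7⟩ :=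
  Good.n3 L00195 (Good.n4 (Good.n3 L00196 (Good.n4 (Good.n3 L00197 (Good.n2 L00198 L00199)) L00200)) L00201)
theorem g00027 : Good (Phi V4.P V4.D 1 (-1)) ⟨1, 0, 0, 0, 1, 0, 0, 0, 1, 1⟩ :=
  Good.n3 (Good.n4 (Good.n1 L00181 (Good.n2 L00182 L00183)) L00184) (Good.n2 (Good.n4 g00025 (Good.n4 (Good.n3 L00193 L00194) g00026)) (Good.n0 L00202 L00203))
theorem g00028 : Good (Phi V4.P V4.D 1 (-1)) ⟨3, 4, 1, 0, 1, 0, 1, 0, 3, 0⟩ :=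
  Good.n1 (Good.n1 (Good.n3 L00207 L00208) (Good.n0 L00209 (Good.n3 L00210 L00211))) (Good.n0 (Good.n3 L00212 L00213) (Good.n1 (Good.n3 L00214 L00215) L00216))
theorem g00029 : Good (Phi V4.P V4.D 1 (-1)) ⟨2, 2, 1, 0, 1, 0, 1, 0, 3, 1⟩ :=
  Good.n2 (Good.n0 L00220 L00221) (Good.n0 (Good.n1 L00222 (Good.n3 L00223 L00224)) (Good.n3 L00225 L00226))
theorem g00030 : Good (Phi V4.P V4.D 1 (-1)) ⟨2, 2, 1, 0, 1, 1, 1, 0, 4, 0⟩ :=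
  Good.n0 (Good.n2 L00227 (Good.n2 L00228 (Good.n3 (Good.n1 L00229 L00230) L00231))) (Good.n1 (Good.n2 L00232 (Good.n0 (Good.n2 L00233 L00234) L00235)) L00236)
theorem g00031 : Good (Phi V4.P V4.D 1 (-1)) ⟨2, 2, 1, 0, 2, 3, 1, 0, 4, 1⟩ :=
  Good.n0 (Good.n2 L00239 (Good.n1 L00240 L00241)) (Good.n1 (Good.n0 (Good.n1 L00242 (Good.n3 L00243 L00244)) L00245) L00246)
theorem g00032 : Good (Phi V4.P V4.D 1 (-1)) ⟨2, 2, 2, 0, 2, 3, 2, 0, 4, 3⟩ :=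
  Good.n0 (Good.n2 L00252 L00253) (Good.n1 (Good.n0 (Good.n2 L00254 L00255) L00256) (Good.n0 (Good.n2 L00257 L00258) L00259))
theorem g00033 : Good (Phi V4.P V4.D 1 (-1)) ⟨2, 2, 1, 0, 2, 3, 2, 0, 3, 1⟩ :=
  Good.n1 (Good.n4 (Good.n2 L00250 L00251) g00032) (Good.n0 (Good.n4 L00260 (Good.n0 (Good.n1 L00261 L00262) (Good.n1 L00263 L00264))) L00265)
theorem g00034 : Good (Phi V4.P V4.D 1 (-1)) ⟨2, 2, 1, 0, 2, 3, 2, 1, 3, 1⟩ :=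
  Good.n0 (Good.n1 L00268 L00269) (Good.n1 (Good.n1 (Good.n0 L00270 (Good.n4 L00271 L00272)) L00273) L00274)
theorem g00035 : Good (Phi V4.P V4.D 1 (-1)) ⟨2, 2, 1, 0, 1, 1, 1, 0, 3, 1⟩ :=
  Good.n3 (Good.n2 (Good.n0 (Good.n1 L00247 L00248) L00249) g00033) (Good.n2 (Good.n0 L00266 L00267) g00034)
theorem g00036 : Good (Phi V4.P V4.D 1 (-1)) ⟨2, 2, 1, 0, 0, 0, 1, 0, 2, 0⟩ :=
  Good.n2 (Good.n4 (Good.n0 g00028 (Good.n1 (Good.n3 L00217 L00218) L00219)) g00029) (Good.n4 (Good.n4 g00030 (Good.n2 (Good.n3 L00237 L00238) g00031)) g00035)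
theorem g00037 : Good (Phi V4.P V4.D 1 (-1)) ⟨2, 2, 1, 0, 1, 0, 2, 3, 2, 0⟩ :=
  Good.n0 (Good.n4 (Good.n1 L00277 L00278) (Good.n1 (Good.n0 L00279 (Good.n1 L00280 L00281)) L00282)) (Good.n1 (Good.n4 L00283 (Good.n3 L00284 (Good.n2 L00285 L00286))) L00287)
theorem g00038 : Good (Phi V4.P V4.D 1 (-1)) ⟨3, 5, 2, 0, 2, 3, 1, 1, 3, 0⟩ :=
  Good.n0 (Good.n3 L00297 (Good.n1 L00298 L00299)) (Good.n3 L00300 (Good.n4 L00301 (Good.n1 L00302 L00303)))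
theorem g00039 : Good (Phi V4.P V4.D 1 (-1)) ⟨3, 5, 2, 0, 1, 1, 1, 1, 3, 0⟩ :=
  Good.n2 (Good.n3 L00291 (Good.n4 L00292 (Good.n2 L00293 (Good.n0 L00294 (Good.n1 L00295 L00296))))) g00038
theorem g00040 : Good (Phi V4.P V4.D 1 (-1)) ⟨3, 5, 2, 0, 2, 3, 2, 3, 4, 2⟩ :=
  Good.n3 (Good.n0 L00317 (Good.n1 (Good.n0 L00318 L00319) L00320)) (Good.n0 L00321 (Good.n2 (Good.n1 L00322 L00323) L00324))
theorem g00041 : Good (Phi V4.P V4.D 1 (-1)) ⟨3, 5, 2, 0, 1, 1, 1, 1, 4, 2⟩ :=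
  Good.n2 (Good.n0 (Good.n3 L00310 L00311) (Good.n3 L00312 (Good.n1 (Good.n3 L00313 L00314) L00315))) (Good.n3 L00316 g00040)
theorem g00042 : Good (Phi V4.P V4.D 1 (-1)) ⟨2, 2, 2, 0, 1, 1, 1, 1, 4, 2⟩ :=
  Good.n0 (Good.n2 (Good.n3 L00304 L00305) (Good.n3 L00306 (Good.n1 L00307 (Good.n3 L00308 L00309)))) g00041
theorem g00043 : Good (Phi V4.P V4.D 1 (-1)) ⟨3, 5, 2, 0, 2, 3, 2, 2, 4, 3⟩ :=
  Good.n3 L00332 (Good.n0 (Good.n2 L00333 L00334) (Good.n0 (Good.n1 (Good.n2 L00335 L00336) L00337) L00338))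
theorem g00044 : Good (Phi V4.P V4.D 1 (-1)) ⟨3, 5, 2, 0, 1, 1, 2, 3, 4, 3⟩ :=
  Good.n2 (Good.n2 (Good.n0 L00339 L00340) (Good.n3 (Good.n0 L00341 L00342) L00343)) (Good.n3 (Good.n2 (Good.n0 L00344 (Good.n0 L00345 L00346)) L00347) L00348)
theorem g00045 : Good (Phi V4.P V4.D 1 (-1)) ⟨2, 2, 2, 0, 1, 1, 1, 1, 4, 3⟩ :=
  Good.n0 (Good.n3 (Good.n2 L00325 L00326) (Good.n2 L00327 (Good.n1 L00328 (Good.n3 L00329 L00330)))) (Good.n3 (Good.n2 L00331 g00043) g00044)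
theorem g00046 : Good (Phi V4.P V4.D 1 (-1)) ⟨3, 4, 2, 1, 1, 1, 2, 2, 2, 0⟩ :=
  Good.n4 (Good.n0 (Good.n2 L00349 L00350) (Good.n1 L00351 L00352)) (Good.n2 L00353 (Good.n4 L00354 L00355))
theorem g00047 : Good (Phi V4.P V4.D 1 (-1)) ⟨3, 4, 2, 1, 1, 1, 2, 3, 2, 0⟩ :=
  Good.n2 (Good.n4 L00356 (Good.n2 L00357 (Good.n3 L00358 L00359))) (Good.n4 L00360 (Good.n3 (Good.n2 (Good.n4 L00361 L00362) L00363) L00364))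
theorem g00048 : Good (Phi V4.P V4.D 1 (-1)) ⟨2, 2, 1, 0, 1, 1, 1, 1, 2, 0⟩ :=
  Good.n1 (Good.n4 (Good.n0 (Good.n2 L00288 (Good.n1 L00289 L00290)) g00039) (Good.n4 g00042 g00045)) (Good.n0 (Good.n3 g00046 g00047) L00365)
theorem g00049 : Good (Phi V4.P V4.D 1 (-1)) ⟨1, 1, 0, 0, 0, 0, 0, 0, 2, 0⟩ :=
  Good.n0 (Good.n1 (Good.n3 g00036 (Good.n2 (Good.n3 (Good.n0 L00275 L00276) g00037) g00048)) L00366) L00367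
theorem g00050 : Good (Phi V4.P V4.D 1 (-1)) ⟨2, 2, 1, 0, 1, 0, 1, 1, 2, 1⟩ :=
  Good.n2 (Good.n3 L00374 (Good.n0 L00375 (Good.n1 (Good.n0 L00376 L00377) L00378))) (Good.n3 L00379 (Good.n0 L00380 L00381))
theorem g00051 : Good (Phi V4.P V4.D 1 (-1)) ⟨1, 1, 0, 0, 1, 0, 0, 0, 2, 1⟩ :=
  Good.n3 (Good.n0 (Good.n1 (Good.n4 (Good.n2 L00368 (Good.n4 L00369 L00370)) L00371) L00372) L00373) (Good.n0 (Good.n1 g00050 L00382) L00383)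
theorem g00052 : Good (Phi V4.P V4.D 1 (-1)) ⟨2, 2, 0, 0, 2, 2, 1, 0, 2, 1⟩ :=
  Good.n1 (Good.n4 (Good.n0 (Good.n3 L00384 L00385) (Good.n1 (Good.n3 L00386 L00387) L00388)) L00389) L00390
theorem g00053 : Good (Phi V4.P V4.D 1 (-1)) ⟨2, 2, 2, 0, 2, 3, 2, 0, 4, 4⟩ :=
  Good.n0 (Good.n1 L00391 L00392) (Good.n1 (Good.n3 L00393 L00394) (Good.n0 (Good.n3 L00395 L00396) L00397))
theorem g00054 : Good (Phi V4.P V4.D 1 (-1)) ⟨2, 2, 1, 0, 2, 3, 1, 0, 4, 4⟩ :=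
  Good.n3 (Good.n1 g00053 (Good.n0 L00398 L00399)) (Good.n0 L00400 (Good.n1 (Good.n0 L00401 (Good.n1 L00402 L00403)) L00404))
theorem g00055 : Good (Phi V4.P V4.D 1 (-1)) ⟨2, 2, 1, 0, 2, 3, 1, 0, 2, 1⟩ :=
  Good.n4 (Good.n4 g00054 (Good.n3 (Good.n2 L00405 L00406) (Good.n0 L00407 (Good.n1 L00408 L00409)))) L00410
theorem g00056 : Good (Phi V4.P V4.D 1 (-1)) ⟨2, 2, 1, 0, 1, 1, 2, 2, 3, 2⟩ :=
  Good.n2 (Good.n0 L00412 (Good.n2 L00413 L00414)) (Good.n0 (Good.n3 L00415 L00416) (Good.n1 (Good.n3 L00417 L00418) L00419))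
theorem g00057 : Good (Phi V4.P V4.D 1 (-1)) ⟨2, 2, 1, 0, 1, 1, 1, 1, 2, 1⟩ :=
  Good.n3 (Good.n4 g00056 (Good.n2 L00420 L00421)) (Good.n2 (Good.n0 L00422 (Good.n1 (Good.n3 L00423 L00424) L00425)) L00426)
theorem g00058 : Good (Phi V4.P V4.D 1 (-1)) ⟨1, 1, 0, 0, 0, 0, 0, 0, 2, 1⟩ :=
  Good.n2 g00051 (Good.n0 (Good.n3 (Good.n2 g00052 (Good.n1 g00055 L00411)) (Good.n1 g00057 L00427)) L00428)
theorem g00059 : Good (Phi V4.P V4.D 1 (-1)) ⟨3, 5, 1, 0, 2, 0, 2, 3, 2, 2⟩ :=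
  Good.n1 (Good.n0 (Good.n1 (Good.n3 L00436 L00437) (Good.n2 L00438 L00439)) (Good.n3 L00440 L00441)) L00442
theorem g00060 : Good (Phi V4.P V4.D 1 (-1)) ⟨2, 2, 1, 0, 2, 0, 2, 3, 1, 1⟩ :=
  Good.n4 (Good.n0 (Good.n3 L00434 L00435) g00059) (Good.n0 (Good.n3 L00443 L00444) (Good.n3 L00445 L00446))
theorem g00061 : Good (Phi V4.P V4.D 1 (-1)) ⟨2, 2, 0, 0, 1, 0, 1, 1, 1, 1⟩ :=
  Good.n2 (Good.n1 (Good.n3 (Good.n4 (Good.n2 L00431 L00432) L00433) g00060) L00447) (Good.n1 (Good.n3 L00448 L00449) L00450)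
theorem g00062 : Good (Phi V4.P V4.D 1 (-1)) ⟨1, 1, 0, 0, 0, 0, 0, 0, 1, 1⟩ :=
  Good.n2 (Good.n0 (Good.n3 (Good.n4 L00429 L00430) g00061) L00451) (Good.n0 (Good.n4 (Good.n3 L00452 L00453) L00454) L00455)
theorem all : Good (Phi V4.P V4.D 1 (-1)) ⟨0, 0, 0, 0, 0, 0, 0, 0, 0, 0⟩ :=
  Good.n0 (Good.n4 g00024 (Good.n2 g00027 (Good.n4 (Good.n3 L00204 L00205) L00206))) (Good.n4 (Good.n4 g00049 g00058) g00062)

end Crest.Agent.R097C4.N4pm
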