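import Crest.Agent.R097C4.N4pp
import Crest.Agent.R097C4.N4pm
import Crest.Agent.R097C4.N4mp
import Crest.Agent.R097C4.N4mm
import Crest.Agent.R097.V4S

/-!
# Row 97: `Cert 4`
-/

set_option autoImplicit false

namespace Crest.Agent.R097C4

open Crest.Agent.R097 Crest.Agent.R097.KA

theorem cover4 : CoverS1 V4.P V4.D :=
  coverS1_of_charts (by simp [CQ.nOK, V4.P]) (by norm_num [CQ.Par.A0, V4.P])
    (by norm_num [CQ.Par.A0, V4.P]) N4pp.all N4pm.all N4mp.all N4mm.all

theorem cert4 : ∃ (C : CertData) (Lam : ℝ), Cert 4 C Lam := ⟨_, _, V4.cert cover4⟩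

end Crest.Agent.R097C4
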