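import Crest.Agent.R097.T4

/-!
# Row 97, box cover in dimension n = 4 (generated)
-/

set_option autoImplicit false
set_option Elab.async false
set_option maxHeartbeats 0
set_option maxRecDepth 100000

open Crest.Agent.R097 Crest.Agent.R097.KA


namespace Crest.Agent.R097C4.N4mm

theorem L00000 : Good (Phi V4.P V4.D (-1) (-1)) ⟨1, 0, 1, 0, 1, 0, 2, 0, 3, 0⟩ :=
  leaf_sound (S := T4.ds_mm) T4.ok_mm (w := 152) (c := ⟨⟨.negSucc 150, .negSucc 168, .ofNat 21, .ofNat 138, .negSucc 55, .negSucc 273⟩, ⟨.negSucc 26, .ofNat 15, .ofNat 169, .negSucc 7, .negSucc 0, .ofNat 7⟩, ⟨.ofNat 599, .ofNat 72, .negSucc 57, .negSucc 290, .negSucc 183, .ofNat 194⟩, ⟨.negSucc 582, .negSucc 124, .ofNat 19, .ofNat 394, .negSucc 148, .negSucc 736⟩, ⟨.ofNat 111, .negSucc 28, .ofNat 33, .negSucc 235, .negSucc 126, .negSucc 31⟩, .ofNat 378, .ofNat 7, .ofNat 0, .ofNat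 7, .ofNat 742, .ofNat 0, .ofNat 521, .negSucc 11, .negSucc 521, .ofNat 0, .ofNat 317, .ofNat 40, .ofNat 0, .ofNat 0, .ofNat 980, .ofNat 7325, .ofNat 0, .ofNat 0, .ofNat 0, .ofNat 0, .ofNat 0, .ofNat 0, .ofNat 16896734469171879298360934400, .ofNat 0, .ofNat 0, .ofNat 0, .ofNat 18885628613757279011025715200, .ofNat 0, .ofNat 0, .ofNat 0, .ofNat 0, .ofNat 0⟩)
    (by decide +kernel)
theorem L00001 : Good (Phi V4.P V4.D (-1) (-1)) ⟨2, 0, 1, 0, 2, 2, 2, 0, 3, 0⟩ :=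
  leaf_sound (S := T4.ds_mm) T4.ok_mm (w := 160) (c := ⟨⟨.ofNat 18, .ofNat 61, .ofNat 55, .ofNat 50, .negSucc 132, .negSucc 476⟩, ⟨.negSucc 18, .negSucc 18, .ofNat 106, .negSucc 1, .negSucc 21, .ofNat 26⟩, ⟨.ofNat 367, .negSucc 117, .negSucc 115, .negSucc 77, .negSucc 123, .ofNat 283⟩, ⟨.ofNat 44, .ofNat 234, .ofNat 46, .ofNat 128, .negSucc 405, .negSucc 1376⟩, ⟨.ofNat 81, .negSucc 132, .negSucc 57, .negSucc 54, .negSucc 310, .negSucc 123⟩, .ofNat 400, .ofNat 34, .ofNat 0, .ofNat 34, .ofNat 666, .ofNat 0, .ofNat 618, .negSucc 98, .negSucc 471, .ofNat 0, .ofNat 378, .ofNat 107, .ofNat 0, .ofNat 0, .ofNat 913, .ofNat 10224, .ofNat 0, .ofNat 0, .ofNat 0, .ofNat 0, .ofNat 0, .ofNat 0, .ofNat 0, .ofNat 0, .ofNat 0, .ofNat 0, .ofNat 2706302777218504962648676761600, .ofNat 0, .ofNat 0, .ofNat 0, .ofNat 0, .ofNat 0⟩)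
    (by decide +kernel)
theorem L00002 : Good (Phi V4.P V4.D (-1) (-1)) ⟨2, 1, 1, 0, 2, 2, 2, 0, 3, 0⟩ :=
  leaf_sound (S := T4.ds_mm) T4.ok_mm (w := 160) (c := ⟨⟨.ofNat 185, .negSucc 44, .ofNat 12, .ofNat 55, .negSucc 196, .negSucc 654⟩, ⟨.negSucc 20, .ofNat 33, .ofNat 129, .ofNat 1, .negSucc 11, .negSucc 15⟩, ⟨.ofNat 130, .negSucc 56, .negSucc 72, .negSucc 51, .negSucc 70, .ofNat 465⟩, ⟨.ofNat 429, .negSucc 29, .negSucc 145, .ofNat 149, .negSucc 500, .negSucc 1640⟩, ⟨.negSucc 20, .negSucc 113, .negSucc 136, .negSucc 59, .negSucc 309, .negSucc 145⟩, .ofNat 512, .negSucc 28, .ofNat 0, .negSucc 28, .ofNat 2161, .ofNat 0, .ofNat 602, .ofNat 10, .negSucc 421, .ofNat 0, .ofNat 204, .ofNat 16, .ofNat 0, .ofNat 0, .ofNat 899, .ofNat 6366, .ofNat 0, .ofNat 0, .ofNat 36760348795768390574250393600, .ofNat 0, .ofNat 0, .ofNat 0, .ofNat 6767163465363398206373127782400,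 .ofNat 0, .ofNat 0, .ofNat 0, .ofNat 6949588825116645941101304217600, .ofNat 0, .ofNat 0, .ofNat 0, .ofNat 0, .ofNat 0⟩)
    (by decide +kernel)
theorem L00003 : Good (Phi V4.P V4.D (-1) (-1)) ⟨1, 0, 1, 0, 3, 6, 2, 0, 3, 0⟩ :=
  leaf_sound (S := T4.ds_mm) T4.ok_mm (w := 168) (c := ⟨⟨.ofNat 293, .negSucc 29, .ofNat 36, .negSucc 16, .negSucc 177, .negSucc 790⟩, ⟨.negSucc 28, .ofNat 9, .ofNat 75, .ofNat 7, .negSucc 0, .ofNat 8⟩, ⟨.ofNat 147, .negSucc 74, .negSucc 83, .ofNat 47, .negSucc 111, .ofNat 450⟩, ⟨.ofNat 715, .ofNat 94, .negSucc 6, .negSucc 33, .negSucc 508, .negSucc 2129⟩, ⟨.ofNat 71, .negSucc 176, .negSucc 31, .ofNat 96, .negSucc 341, .negSucc 271⟩, .ofNat 381, .ofNat 13, .ofNat 0, .ofNat 13, .ofNat 732, .ofNat 0, .ofNat 775, .negSucc 124, .negSucc 518, .ofNat 0, .ofNat 383, .ofNat 56, .ofNat 0, .ofNat 0, .ofNat 928, .ofNat 3238,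 .ofNat 0, .ofNat 0, .ofNat 0, .ofNat 0, .ofNat 0, .ofNat 0, .ofNat 0, .ofNat 0, .ofNat 0, .ofNat 0, .ofNat 0, .ofNat 0, .ofNat 0, .ofNat 0, .ofNat 0, .ofNat 0⟩)
    (by decide +kernel)
theorem L00004 : Good (Phi V4.P V4.D (-1) (-1)) ⟨2, 0, 2, 0, 3, 7, 2, 0, 3, 0⟩ :=
  leaf_sound (S := T4.ds_mm) T4.ok_mm (w := 176) (c := ⟨⟨.ofNat 273, .ofNat 8, .ofNat 10, .negSucc 73, .negSucc 132, .negSucc 832⟩, ⟨.negSucc 12, .negSucc 19, .ofNat 60, .ofNat 3, .negSucc 17, .ofNat 16⟩, ⟨.ofNat 176, .ofNat 29, .negSucc 21, .ofNat 81, .negSucc 145, .ofNat 403⟩, ⟨.ofNat 784, .ofNat 94, .ofNat 14, .negSucc 197, .negSucc 427, .negSucc 2441⟩, ⟨.ofNat 249, .negSucc 190, .ofNat 8, .ofNat 126, .negSucc 353, .negSucc 351⟩, .ofNat 399, .ofNat 19, .ofNat 0, .ofNat 19, .ofNat 658, .ofNat 0, .ofNat 803, .negSucc 192, .negSucc 466, .ofNat 0, .ofNat 450, .ofNat 9, .ofNat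 0, .ofNat 0, .ofNat 944, .ofNat 3183, .ofNat 0, .ofNat 0, .ofNat 0, .ofNat 0, .ofNat 0, .ofNat 0, .ofNat 0, .ofNat 0, .ofNat 0, .ofNat 0, .ofNat 0, .ofNat 0, .ofNat 0, .ofNat 0, .ofNat 0, .ofNat 0⟩)
    (by decide +kernel)
theorem L00005 : Good (Phi V4.P V4.D (-1) (-1)) ⟨2, 0, 2, 1, 3, 7, 2, 0, 3, 0⟩ :=
  leaf_sound (S := T4.ds_mm) T4.ok_mm (w := 176) (c := ⟨⟨.ofNat 229, .ofNat 43, .negSucc 71, .negSucc 89, .negSucc 75, .negSucc 812⟩, ⟨.negSucc 40, .negSucc 43, .ofNat 85, .ofNat 34, .negSucc 8, .ofNat 180⟩, ⟨.ofNat 171, .ofNat 79, .ofNat 33, .ofNat 107, .negSucc 170, .ofNat 351⟩, ⟨.ofNat 737, .ofNat 101, .negSucc 271, .negSucc 234, .negSucc 320, .negSucc 2490⟩, ⟨.ofNat 270, .negSucc 275, .negSucc 47, .ofNat 117, .negSucc 386, .negSucc 313⟩, .ofNat 826, .ofNat 559, .ofNat 0, .ofNat 559, .ofNat 2437, .ofNat 0, .ofNat 566, .negSucc 406, .negSucc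 292, .ofNat 0, .ofNat 336, .ofNat 59, .ofNat 0, .ofNat 0, .ofNat 903, .ofNat 5209, .ofNat 0, .ofNat 0, .ofNat 0, .ofNat 0, .ofNat 0, .ofNat 0, .ofNat 0, .ofNat 0, .ofNat 0, .ofNat 0, .ofNat 1912921357314947023336767278284800, .ofNat 0, .ofNat 0, .ofNat 0, .ofNat 1842059297976525904662736404480000, .ofNat 0⟩)
    (by decide +kernel)
theorem L00006 : Good (Phi V4.P V4.D (-1) (-1)) ⟨2, 1, 1, 0, 3, 7, 2, 0, 3, 0⟩ :=
  leaf_sound (S := T4.ds_mm) T4.ok_mm (w := 176) (c := ⟨⟨.ofNat 548, .negSucc 44, .ofNat 34, .negSucc 3, .negSucc 310, .negSucc 1259⟩, ⟨.ofNat 7, .ofNat 18, .ofNat 89, .ofNat 0, .negSucc 19, .negSucc 35⟩, ⟨.negSucc 8, .ofNat 29, .ofNat 72, .ofNat 115, .negSucc 75, .ofNat 704⟩, ⟨.ofNat 1339, .negSucc 13, .negSucc 198, .negSucc 57, .negSucc 777, .negSucc 3106⟩, ⟨.ofNat 189, .ofNat 141, .ofNat 31, .ofNat 220, .negSucc 418, .negSucc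 664⟩, .ofNat 513, .negSucc 26, .ofNat 0, .negSucc 26, .ofNat 2117, .ofNat 0, .ofNat 784, .negSucc 34, .negSucc 421, .ofNat 0, .ofNat 240, .negSucc 14, .ofNat 0, .ofNat 0, .ofNat 928, .ofNat 5070, .ofNat 0, .ofNat 0, .ofNat 0, .ofNat 0, .ofNat 0, .ofNat 0, .ofNat 3090473259815771541220941103104000, .ofNat 0, .ofNat 0, .ofNat 0, .ofNat 3031304527128311193605111178854400, .ofNat 0, .ofNat 0, .ofNat 0, .ofNat 3513181991478944741923605184512000, .ofNat 0⟩)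
    (by decide +kernel)
theorem L00007 : Good (Phi V4.P V4.D (-1) (-1)) ⟨1, 0, 1, 0, 1, 0, 2, 0, 3, 1⟩ :=
  leaf_sound (S := T4.ds_mm) T4.ok_mm (w := 152) (c := ⟨⟨.negSucc 371, .negSucc 229, .ofNat 16, .negSucc 32, .ofNat 34, .negSucc 114⟩, ⟨.negSucc 21, .ofNat 14, .ofNat 252, .negSucc 13, .negSucc 14, .ofNat 4⟩, ⟨.ofNat 712, .ofNat 193, .negSucc 33, .negSucc 112, .negSucc 294, .ofNat 30⟩, ⟨.negSucc 1225, .negSucc 149, .ofNat 13, .negSucc 91, .ofNat 66, .negSucc 292⟩, ⟨.ofNat 100, .ofNat 9, .ofNat 38, .negSucc 344, .negSucc 118, .negSucc 29⟩, .ofNat 381, .ofNat 17, .ofNat 0, .ofNat 17, .ofNat 727, .ofNat 0, .ofNat 490, .negSucc 24, .negSucc 403, .ofNat 0, .ofNat 306, .ofNat 48, .ofNat 0, .ofNat 0, .ofNat 938, .ofNat 9409, .ofNat 936471446313801926521651200, .ofNat 0, .ofNat 116737894415323703830118400, .ofNat 0, .ofNat 0, .ofNat 0, .ofNat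 0, .ofNat 0, .ofNat 0, .ofNat 0, .ofNat 0, .ofNat 0, .ofNat 0, .ofNat 0, .ofNat 0, .ofNat 0⟩)
    (by decide +kernel)
theorem L00008 : Good (Phi V4.P V4.D (-1) (-1)) ⟨1, 0, 1, 0, 2, 2, 2, 0, 3, 1⟩ :=
  leaf_sound (S := T4.ds_mm) T4.ok_mm (w := 160) (c := ⟨⟨.negSucc 270, .negSucc 310, .ofNat 29, .negSucc 185, .ofNat 4, .negSucc 243⟩, ⟨.negSucc 66, .ofNat 42, .ofNat 303, .ofNat 9, .negSucc 23, .ofNat 15⟩, ⟨.ofNat 460, .ofNat 231, .negSucc 81, .ofNat 53, .negSucc 203, .ofNat 129⟩, ⟨.negSucc 1010, .negSucc 277, .negSucc 86, .negSucc 456, .negSucc 20, .negSucc 622⟩, ⟨.ofNat 2, .negSucc 250, .negSucc 89, .negSucc 159, .negSucc 258, .negSucc 138⟩, .ofNat 384, .ofNat 20, .ofNat 0, .ofNat 20, .ofNat 714, .ofNat 0, .ofNat 587, .negSucc 71, .negSucc 379, .ofNat 0, .ofNat 339, .ofNat 96, .ofNat 0, .ofNat 0, .ofNat 917, .ofNat 8740, .ofNat 0, .ofNat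 0, .ofNat 0, .ofNat 0, .ofNat 19670247704502112396619494195200, .ofNat 0, .ofNat 5448882183184660316070032179200, .ofNat 0, .ofNat 0, .ofNat 0, .ofNat 0, .ofNat 0, .ofNat 0, .ofNat 0, .ofNat 0, .ofNat 0⟩)
    (by decide +kernel)
theorem L00009 : Good (Phi V4.P V4.D (-1) (-1)) ⟨2, 0, 2, 0, 2, 3, 2, 0, 3, 1⟩ :=
  leaf_sound (S := T4.ds_mm) T4.ok_mm (w := 168) (c := ⟨⟨.negSucc 510, .negSucc 37, .ofNat 5, .negSucc 261, .ofNat 66, .negSucc 270⟩, ⟨.negSucc 29, .negSucc 67, .ofNat 186, .ofNat 30, .negSucc 31, .ofNat 8⟩, ⟨.ofNat 502, .ofNat 119, .negSucc 45, .ofNat 182, .negSucc 205, .ofNat 70⟩, ⟨.negSucc 1532, .ofNat 63, .negSucc 86, .negSucc 776, .ofNat 154, .negSucc 791⟩, ⟨.ofNat 52, .negSucc 394, .negSucc 41, .ofNat 52, .negSucc 348, .negSucc 200⟩, .ofNat 584, .ofNat 73, .ofNat 0, .ofNat 73, .ofNat 1352, .ofNat 0, .ofNat 585, .negSucc 150,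 .negSucc 228, .ofNat 0, .ofNat 314, .ofNat 34, .ofNat 0, .ofNat 0, .ofNat 892, .ofNat 4138, .ofNat 0, .ofNat 0, .ofNat 0, .ofNat 0, .ofNat 0, .ofNat 0, .ofNat 0, .ofNat 0, .ofNat 0, .ofNat 0, .ofNat 0, .ofNat 0, .ofNat 0, .ofNat 0, .ofNat 0, .ofNat 0⟩)
    (by decide +kernel)
theorem L00010 : Good (Phi V4.P V4.D (-1) (-1)) ⟨2, 0, 2, 1, 2, 3, 2, 0, 3, 1⟩ :=
  leaf_sound (S := T4.ds_mm) T4.ok_mm (w := 168) (c := ⟨⟨.negSucc 511, .ofNat 79, .negSucc 17, .negSucc 341, .ofNat 85, .negSucc 272⟩, ⟨.ofNat 123, .negSucc 110, .ofNat 203, .ofNat 101, .negSucc 49, .ofNat 55⟩, ⟨.ofNat 434, .ofNat 122, .negSucc 34, .ofNat 208, .negSucc 195, .ofNat 72⟩, ⟨.negSucc 1547, .ofNat 241, .negSucc 121, .negSucc 976, .ofNat 154, .negSucc 862⟩, ⟨.ofNat 67, .negSucc 555, .negSucc 78, .ofNat 135, .negSucc 391, .negSucc 222⟩, .ofNat 643, .ofNat 287, .ofNat 0, .ofNat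 287, .ofNat 1441, .ofNat 0, .ofNat 539, .negSucc 333, .negSucc 241, .ofNat 0, .ofNat 354, .ofNat 74, .ofNat 0, .ofNat 0, .ofNat 892, .ofNat 2561, .ofNat 0, .ofNat 0, .ofNat 0, .ofNat 0, .ofNat 0, .ofNat 0, .ofNat 0, .ofNat 0, .ofNat 0, .ofNat 0, .ofNat 0, .ofNat 0, .ofNat 0, .ofNat 0, .ofNat 0, .ofNat 0⟩)
    (by decide +kernel)
theorem L00011 : Good (Phi V4.P V4.D (-1) (-1)) ⟨2, 1, 1, 0, 2, 3, 2, 0, 3, 1⟩ :=
  leaf_sound (S := T4.ds_mm) T4.ok_mm (w := 160) (c := ⟨⟨.negSucc 414, .negSucc 302, .ofNat 92, .negSucc 357, .negSucc 35, .negSucc 376⟩, ⟨.negSucc 73, .ofNat 79, .ofNat 404, .negSucc 12, .negSucc 5, .negSucc 9⟩, ⟨.ofNat 450, .ofNat 232, .negSucc 63, .ofNat 333, .negSucc 211, .ofNat 244⟩, ⟨.negSucc 1267, .negSucc 296, .negSucc 36, .negSucc 895, .negSucc 75, .negSucc 913⟩, ⟨.negSucc 183, .negSucc 103, .negSucc 46, .negSucc 139, .negSucc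 273, .negSucc 348⟩, .ofNat 512, .negSucc 33, .ofNat 0, .negSucc 33, .ofNat 2133, .ofNat 0, .ofNat 658, .negSucc 35, .negSucc 274, .ofNat 0, .ofNat 219, .ofNat 6, .ofNat 0, .ofNat 0, .ofNat 905, .ofNat 8753, .ofNat 0, .ofNat 0, .ofNat 0, .ofNat 0, .ofNat 0, .ofNat 0, .ofNat 5417024976690756428977982668800, .ofNat 0, .ofNat 0, .ofNat 0, .ofNat 4144874955849831984768693043200, .ofNat 0, .ofNat 0, .ofNat 0, .ofNat 6293726963658223844425570713600, .ofNat 0⟩)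
    (by decide +kernel)
theorem L00012 : Good (Phi V4.P V4.D (-1) (-1)) ⟨1, 0, 1, 0, 1, 0, 2, 0, 2, 1⟩ :=
  leaf_sound (S := T4.ds_mm) T4.ok_mm (w := 144) (c := ⟨⟨.negSucc 443, .negSucc 255, .ofNat 18, .negSucc 89, .ofNat 42, .ofNat 52⟩, ⟨.negSucc 44, .ofNat 35, .ofNat 269, .negSucc 19, .ofNat 4, .negSucc 7⟩, ⟨.ofNat 583, .ofNat 300, .negSucc 8, .ofNat 32, .negSucc 263, .negSucc 167⟩, ⟨.negSucc 1463, .negSucc 184, .negSucc 10, .negSucc 246, .ofNat 151, .ofNat 117⟩, ⟨.ofNat 154, .negSucc 32, .negSucc 19, .negSucc 491, .negSucc 103, .negSucc 97⟩, .ofNat 377, .ofNat 6, .ofNat 0, .ofNat 6, .ofNat 740, .ofNat 0, .ofNat 430, .negSucc 8, .negSucc 282, .ofNat 0, .ofNat 265, .ofNat 36, .ofNat 0, .ofNat 0, .ofNat 872, .ofNat 11289, .ofNat 0, .ofNat 0, .ofNat 0, .ofNat 0, .ofNat 0, .ofNat 0, .ofNat 0, .ofNat 0, .ofNat 38412744451119237254086656000,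 .ofNat 0, .ofNat 0, .ofNat 0, .ofNat 0, .ofNat 0, .ofNat 0, .ofNat 0⟩)
    (by decide +kernel)
theorem L00013 : Good (Phi V4.P V4.D (-1) (-1)) ⟨1, 0, 1, 0, 2, 2, 2, 0, 3, 2⟩ :=
  leaf_sound (S := T4.ds_mm) T4.ok_mm (w := 160) (c := ⟨⟨.negSucc 512, .negSucc 346, .negSucc 5, .negSucc 158, .ofNat 85, .negSucc 4⟩, ⟨.negSucc 94, .ofNat 87, .ofNat 386, .negSucc 6, .negSucc 24, .ofNat 4⟩, ⟨.ofNat 479, .ofNat 433, .negSucc 25, .ofNat 30, .negSucc 242, .negSucc 13⟩, ⟨.negSucc 1730, .negSucc 240, .negSucc 138, .negSucc 420, .ofNat 199, .ofNat 5⟩, ⟨.negSucc 134, .negSucc 247, .negSucc 22, .negSucc 289, .negSucc 194, .negSucc 119⟩, .ofNat 380, .ofNat 10, .ofNat 0, .ofNat 10, .ofNat 735, .ofNat 0, .ofNat 501, .negSucc 40, .negSucc 260, .ofNat 0, .ofNat 295, .ofNat 72, .ofNat 0, .ofNat 0, .ofNat 884, .ofNat 9940, .ofNat 0, .ofNat 0, .ofNat 0, .ofNat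 0, .ofNat 7879948551531655789009069670400, .ofNat 0, .ofNat 7567518123622033444137074688000, .ofNat 0, .ofNat 0, .ofNat 0, .ofNat 0, .ofNat 0, .ofNat 0, .ofNat 0, .ofNat 0, .ofNat 0⟩)
    (by decide +kernel)
theorem L00014 : Good (Phi V4.P V4.D (-1) (-1)) ⟨2, 0, 1, 0, 2, 3, 2, 0, 3, 2⟩ :=
  leaf_sound (S := T4.ds_mm) T4.ok_mm (w := 160) (c := ⟨⟨.negSucc 790, .negSucc 36, .ofNat 65, .negSucc 229, .ofNat 91, .ofNat 42⟩, ⟨.negSucc 35, .negSucc 49, .ofNat 397, .ofNat 19, .negSucc 29, .negSucc 26⟩, ⟨.ofNat 557, .ofNat 157, .negSucc 71, .ofNat 165, .negSucc 205, .negSucc 83⟩, ⟨.negSucc 2340, .ofNat 88, .negSucc 114, .negSucc 710, .ofNat 239, .ofNat 86⟩, ⟨.negSucc 143, .negSucc 391, .negSucc 161, .negSucc 125, .negSucc 236, .negSucc 230⟩, .ofNat 589, .ofNat 109, .ofNat 0, .ofNat 109, .ofNat 1360, .ofNat 0, .ofNat 470, .negSucc 127, .negSucc 158,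 .ofNat 0, .ofNat 273, .ofNat 45, .ofNat 0, .ofNat 0, .ofNat 875, .ofNat 1316, .ofNat 0, .ofNat 0, .ofNat 0, .ofNat 0, .ofNat 0, .ofNat 0, .ofNat 0, .ofNat 0, .ofNat 0, .ofNat 0, .ofNat 927722145694104454570809753600, .ofNat 0, .ofNat 0, .ofNat 0, .ofNat 0, .ofNat 0⟩)
    (by decide +kernel)
theorem L00015 : Good (Phi V4.P V4.D (-1) (-1)) ⟨2, 1, 1, 0, 2, 3, 2, 0, 3, 2⟩ :=
  leaf_sound (S := T4.ds_mm) T4.ok_mm (w := 160) (c := ⟨⟨.negSucc 830, .negSucc 266, .ofNat 109, .negSucc 241, .ofNat 77, .ofNat 55⟩, ⟨.negSucc 102, .ofNat 103, .ofNat 482, .negSucc 11, .negSucc 6, .negSucc 2⟩, ⟨.ofNat 682, .ofNat 300, .negSucc 117, .ofNat 267, .negSucc 270, .ofNat 18⟩, ⟨.negSucc 2304, .negSucc 176, .negSucc 55, .negSucc 604, .ofNat 196, .ofNat 145⟩, ⟨.negSucc 400, .negSucc 231, .negSucc 79, .negSucc 399, .negSucc 241, .negSucc 333⟩, .ofNat 603, .negSucc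 82, .ofNat 0, .negSucc 82, .ofNat 4952, .ofNat 0, .ofNat 518, .ofNat 1, .negSucc 165, .ofNat 0, .ofNat 138, .ofNat 3, .ofNat 0, .ofNat 0, .ofNat 896, .ofNat 4987, .ofNat 0, .ofNat 0, .ofNat 0, .ofNat 0, .ofNat 0, .ofNat 4900887340627089192348391833600, .ofNat 8224056621615324070210122547200, .ofNat 0, .ofNat 10770395839473903874552627200, .ofNat 8923888247814788869523924582400, .ofNat 2477846987241762427146495590400, .ofNat 0, .ofNat 0, .ofNat 0, .ofNat 5368206391045095390623406489600, .ofNat 0⟩)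
    (by decide +kernel)
theorem L00016 : Good (Phi V4.P V4.D (-1) (-1)) ⟨1, 0, 1, 0, 1, 1, 2, 0, 3, 3⟩ :=
  leaf_sound (S := T4.ds_mm) T4.ok_mm (w := 152) (c := ⟨⟨.negSucc 587, .negSucc 253, .ofNat 85, .negSucc 242, .ofNat 82, .ofNat 71⟩, ⟨.negSucc 75, .ofNat 73, .ofNat 302, .negSucc 35, .negSucc 13, .negSucc 3⟩, ⟨.ofNat 445, .ofNat 451, .negSucc 37, .ofNat 92, .negSucc 230, .negSucc 85⟩, ⟨.negSucc 1826, .negSucc 124, .ofNat 2, .negSucc 651, .ofNat 211, .ofNat 174⟩, ⟨.negSucc 306, .negSucc 262, .negSucc 68, .negSucc 738, .negSucc 84, .negSucc 40⟩, .ofNat 382, .ofNat 14, .ofNat 0, .ofNat 14, .ofNat 721, .ofNat 0, .ofNat 410, .negSucc 28, .negSucc 194, .ofNat 0, .ofNat 256, .ofNat 56, .ofNat 0, .ofNat 0, .ofNat 831, .ofNat 4566, .ofNat 0, .ofNat 0, .ofNat 0, .ofNat 0, .ofNat 0, .ofNat 0, .ofNat 0, .ofNat 0, .ofNat 0, .ofNat 15902265861502309861687296000,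 .ofNat 0, .ofNat 0, .ofNat 0, .ofNat 32693278890524811908559667200, .ofNat 0, .ofNat 0⟩)
    (by decide +kernel)
theorem L00017 : Good (Phi V4.P V4.D (-1) (-1)) ⟨1, 0, 1, 0, 1, 0, 2, 1, 3, 0⟩ :=
  leaf_sound (S := T4.ds_mm) T4.ok_mm (w := 152) (c := ⟨⟨.negSucc 243, .negSucc 110, .ofNat 84, .ofNat 79, .negSucc 46, .negSucc 207⟩, ⟨.negSucc 25, .ofNat 30, .ofNat 172, .negSucc 26, .negSucc 10, .ofNat 7⟩, ⟨.ofNat 410, .ofNat 20, .negSucc 101, .negSucc 184, .negSucc 214, .ofNat 144⟩, ⟨.negSucc 793, .negSucc 0, .ofNat 138, .ofNat 194, .negSucc 122, .negSucc 548⟩, ⟨.ofNat 139, .negSucc 77, .negSucc 57, .negSucc 499, .negSucc 103, .negSucc 32⟩, .ofNat 382, .ofNat 23, .ofNat 0, .ofNat 23, .ofNat 727, .ofNat 0, .ofNat 276, .negSucc 17, .negSucc 265, .ofNat 0, .ofNat 172, .ofNat 31, .ofNat 0, .ofNat 0, .ofNat 526, .ofNat 2618, .ofNat 0, .ofNat 0,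 .ofNat 0, .ofNat 0, .ofNat 0, .ofNat 0, .ofNat 0, .ofNat 0, .ofNat 0, .ofNat 0, .ofNat 0, .ofNat 0, .ofNat 0, .ofNat 0, .ofNat 0, .ofNat 0⟩)
    (by decide +kernel)
theorem L00018 : Good (Phi V4.P V4.D (-1) (-1)) ⟨1, 0, 1, 0, 2, 2, 2, 1, 3, 0⟩ :=
  leaf_sound (S := T4.ds_mm) T4.ok_mm (w := 160) (c := ⟨⟨.negSucc 11, .negSucc 176, .ofNat 111, .negSucc 35, .negSucc 131, .negSucc 384⟩, ⟨.negSucc 62, .ofNat 54, .ofNat 148, .negSucc 7, .negSucc 17, .ofNat 15⟩, ⟨.ofNat 109, .ofNat 19, .negSucc 106, .ofNat 14, .negSucc 87, .ofNat 253⟩, ⟨.negSucc 180, .negSucc 168, .ofNat 42, .negSucc 64, .negSucc 326, .negSucc 1058⟩, ⟨.negSucc 237, .negSucc 205, .negSucc 58, .negSucc 132, .negSucc 232, .negSucc 64⟩, .ofNat 384, .ofNat 16, .ofNat 0, .ofNat 16, .ofNat 715, .ofNat 0, .ofNat 332, .negSucc 23, .negSucc 282, .ofNat 0, .ofNat 186, .ofNat 53, .ofNat 0,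 .ofNat 0, .ofNat 513, .ofNat 1979, .ofNat 0, .ofNat 0, .ofNat 13063028766078131958605414400, .ofNat 0, .ofNat 0, .ofNat 0, .ofNat 2166470968122481338882824601600, .ofNat 0, .ofNat 0, .ofNat 0, .ofNat 0, .ofNat 0, .ofNat 0, .ofNat 0, .ofNat 0, .ofNat 0⟩)
    (by decide +kernel)
theorem L00019 : Good (Phi V4.P V4.D (-1) (-1)) ⟨2, 0, 1, 0, 2, 3, 2, 1, 3, 0⟩ :=
  leaf_sound (S := T4.ds_mm) T4.ok_mm (w := 160) (c := ⟨⟨.negSucc 15, .negSucc 12, .ofNat 88, .negSucc 25, .negSucc 113, .negSucc 536⟩, ⟨.negSucc 78, .negSucc 14, .ofNat 169, .ofNat 34, .negSucc 7, .ofNat 45⟩, ⟨.ofNat 104, .negSucc 15, .negSucc 72, .ofNat 92, .negSucc 77, .ofNat 265⟩, ⟨.negSucc 50, .ofNat 45, .ofNat 3, .negSucc 57, .negSucc 361, .negSucc 1591⟩, ⟨.negSucc 273, .negSucc 179, .negSucc 60, .ofNat 220, .negSucc 256, .negSucc 207⟩, .ofNat 402, .ofNat 41, .ofNat 0, .ofNat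 41, .ofNat 662, .ofNat 0, .ofNat 766, .negSucc 139, .negSucc 521, .ofNat 0, .ofNat 437, .ofNat 116, .ofNat 0, .ofNat 0, .ofNat 968, .ofNat 3969, .ofNat 0, .ofNat 0, .ofNat 0, .ofNat 0, .ofNat 0, .ofNat 0, .ofNat 0, .ofNat 0, .ofNat 0, .ofNat 0, .ofNat 0, .ofNat 0, .ofNat 0, .ofNat 0, .ofNat 0, .ofNat 0⟩)
    (by decide +kernel)
theorem L00020 : Good (Phi V4.P V4.D (-1) (-1)) ⟨2, 1, 1, 0, 2, 3, 2, 1, 3, 0⟩ :=
  leaf_sound (S := T4.ds_mm) T4.ok_mm (w := 160) (c := ⟨⟨.ofNat 98, .negSucc 171, .ofNat 52, .negSucc 80, .negSucc 189, .negSucc 704⟩, ⟨.negSucc 46, .ofNat 51, .ofNat 179, .ofNat 6, .negSucc 10, .negSucc 11⟩, ⟨.negSucc 20, .ofNat 82, .ofNat 0, .ofNat 134, .negSucc 46, .ofNat 419⟩, ⟨.ofNat 227, .negSucc 255, .negSucc 89, .negSucc 229, .negSucc 480, .negSucc 1824⟩, ⟨.negSucc 386, .negSucc 4, .ofNat 2, .ofNat 176, .negSucc 317, .negSucc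 298⟩, .ofNat 520, .negSucc 21, .ofNat 0, .negSucc 21, .ofNat 2042, .ofNat 0, .ofNat 734, .ofNat 7, .negSucc 451, .ofNat 0, .ofNat 242, .ofNat 17, .ofNat 0, .ofNat 0, .ofNat 946, .ofNat 4100, .ofNat 0, .ofNat 0, .ofNat 33219329739865944752966860800, .ofNat 0, .ofNat 0, .ofNat 0, .ofNat 8923944087726056549087654707200, .ofNat 0, .ofNat 0, .ofNat 0, .ofNat 5004757487008055008911635251200, .ofNat 0, .ofNat 0, .ofNat 0, .ofNat 6926189801569035593024589004800, .ofNat 0⟩)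
    (by decide +kernel)
theorem L00021 : Good (Phi V4.P V4.D (-1) (-1)) ⟨1, 0, 1, 0, 1, 0, 2, 1, 3, 1⟩ :=
  leaf_sound (S := T4.ds_mm) T4.ok_mm (w := 152) (c := ⟨⟨.negSucc 373, .negSucc 223, .ofNat 19, .negSucc 41, .ofNat 49, .negSucc 43⟩, ⟨.negSucc 22, .ofNat 21, .ofNat 225, .negSucc 25, .negSucc 8, .negSucc 1⟩, ⟨.ofNat 412, .ofNat 179, .negSucc 35, .negSucc 44, .negSucc 270, .negSucc 4⟩, ⟨.negSucc 1189, .negSucc 187, .ofNat 15, .negSucc 138, .ofNat 133, .negSucc 142⟩, ⟨.ofNat 65, .negSucc 14, .negSucc 5, .negSucc 513, .negSucc 83, .negSucc 11⟩, .ofNat 383, .ofNat 22, .ofNat 0, .ofNat 22, .ofNat 724, .ofNat 0, .ofNat 506, .negSucc 32, .negSucc 431, .ofNat 0, .ofNat 318, .ofNat 54, .ofNat 0, .ofNat 0, .ofNat 973, .ofNat 8353, .ofNat 0, .ofNat 0, .ofNat 0, .ofNat 0, .ofNat 0, .ofNat 0, .ofNat 0, .ofNat 0, .ofNat 0, .ofNat 0, .ofNat 13324011282283185951473664000,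 .ofNat 0, .ofNat 0, .ofNat 0, .ofNat 0, .ofNat 0⟩)
    (by decide +kernel)
theorem L00022 : Good (Phi V4.P V4.D (-1) (-1)) ⟨2, 0, 1, 0, 2, 2, 2, 1, 3, 1⟩ :=
  leaf_sound (S := T4.ds_mm) T4.ok_mm (w := 160) (c := ⟨⟨.negSucc 421, .negSucc 72, .ofNat 102, .negSucc 112, .ofNat 19, .negSucc 115⟩, ⟨.negSucc 62, .negSucc 7, .ofNat 273, .negSucc 2, .negSucc 10, .ofNat 6⟩, ⟨.ofNat 345, .ofNat 36, .negSucc 74, .ofNat 41, .negSucc 178, .ofNat 43⟩, ⟨.negSucc 1253, .negSucc 61, .ofNat 21, .negSucc 353, .ofNat 34, .negSucc 356⟩, ⟨.negSucc 280, .negSucc 165, .negSucc 56, .negSucc 178, .negSucc 155, .negSucc 67⟩, .ofNat 400, .ofNat 35, .ofNat 0, .ofNat 35, .ofNat 669, .ofNat 0, .ofNat 580, .negSucc 82, .negSucc 413, .ofNat 0, .ofNat 365, .ofNat 120, .ofNat 0, .ofNat 0, .ofNat 944, .ofNat 4614, .ofNat 0, .ofNat 0, .ofNat 0, .ofNat 0, .ofNat 0, .ofNat 0,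 .ofNat 0, .ofNat 0, .ofNat 0, .ofNat 0, .ofNat 0, .ofNat 0, .ofNat 0, .ofNat 0, .ofNat 0, .ofNat 0⟩)
    (by decide +kernel)
theorem L00023 : Good (Phi V4.P V4.D (-1) (-1)) ⟨2, 0, 1, 0, 2, 3, 2, 1, 3, 1⟩ :=
  leaf_sound (S := T4.ds_mm) T4.ok_mm (w := 160) (c := ⟨⟨.negSucc 555, .negSucc 52, .ofNat 117, .negSucc 227, .ofNat 44, .negSucc 152⟩, ⟨.negSucc 73, .negSucc 35, .ofNat 376, .ofNat 23, .negSucc 12, .ofNat 2⟩, ⟨.ofNat 336, .ofNat 59, .negSucc 73, .ofNat 165, .negSucc 138, .ofNat 61⟩, ⟨.negSucc 1658, .ofNat 28, .negSucc 14, .negSucc 647, .ofNat 96, .negSucc 467⟩, ⟨.negSucc 292, .negSucc 359, .negSucc 74, .negSucc 20, .negSucc 178, .negSucc 181⟩, .ofNat 586, .ofNat 113, .ofNat 0, .ofNat 113, .ofNat 1416, .ofNat 0, .ofNat 584, .negSucc 149, .negSucc 280, .ofNat 0, .ofNat 304, .ofNat 68, .ofNat 0, .ofNat 0, .ofNat 889, .ofNat 2696, .ofNat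 0, .ofNat 0, .ofNat 0, .ofNat 0, .ofNat 0, .ofNat 0, .ofNat 0, .ofNat 0, .ofNat 0, .ofNat 0, .ofNat 2391817873806372149188676812800, .ofNat 0, .ofNat 0, .ofNat 0, .ofNat 0, .ofNat 0⟩)
    (by decide +kernel)
theorem L00024 : Good (Phi V4.P V4.D (-1) (-1)) ⟨2, 1, 1, 0, 1, 1, 2, 1, 3, 1⟩ :=
  leaf_sound (S := T4.ds_mm) T4.ok_mm (w := 152) (c := ⟨⟨.negSucc 380, .negSucc 266, .ofNat 218, .negSucc 475, .ofNat 2, .negSucc 150⟩, ⟨.negSucc 83, .ofNat 90, .ofNat 368, .negSucc 12, .ofNat 0, .negSucc 6⟩, ⟨.ofNat 289, .ofNat 206, .negSucc 181, .ofNat 253, .negSucc 159, .ofNat 124⟩, ⟨.negSucc 1169, .negSucc 255, .ofNat 340, .negSucc 1157, .ofNat 26, .negSucc 363⟩, ⟨.negSucc 273, .negSucc 140, .negSucc 160, .negSucc 465, .negSucc 223, .negSucc 189⟩, .ofNat 510, .negSucc 31, .ofNat 0, .negSucc 31, .ofNat 2166, .ofNat 0, .ofNat 603, .ofNat 6, .negSucc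 349, .ofNat 0, .ofNat 205, .ofNat 19, .ofNat 0, .ofNat 0, .ofNat 916, .ofNat 4993, .ofNat 0, .ofNat 0, .ofNat 24668525883003739383398400, .ofNat 0, .ofNat 0, .ofNat 0, .ofNat 9496552299842537295917875200, .ofNat 0, .ofNat 0, .ofNat 0, .ofNat 10547881986539814689282457600, .ofNat 0, .ofNat 0, .ofNat 0, .ofNat 14263871195640944806959513600, .ofNat 0⟩)
    (by decide +kernel)
theorem L00025 : Good (Phi V4.P V4.D (-1) (-1)) ⟨1, 0, 1, 0, 1, 0, 2, 1, 2, 1⟩ :=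
  leaf_sound (S := T4.ds_mm) T4.ok_mm (w := 144) (c := ⟨⟨.negSucc 401, .negSucc 235, .ofNat 21, .negSucc 113, .ofNat 91, .ofNat 52⟩, ⟨.negSucc 39, .ofNat 33, .ofNat 229, .negSucc 15, .negSucc 4, .negSucc 0⟩, ⟨.ofNat 238, .ofNat 294, .ofNat 20, .ofNat 118, .negSucc 238, .negSucc 113⟩, ⟨.negSucc 1318, .negSucc 169, .negSucc 15, .negSucc 287, .ofNat 245, .ofNat 140⟩, ⟨.ofNat 85, .negSucc 60, .ofNat 12, .negSucc 584, .negSucc 25, .negSucc 43⟩, .ofNat 379, .ofNat 9, .ofNat 0, .ofNat 9, .ofNat 737, .ofNat 0, .ofNat 421, .negSucc 11, .negSucc 291, .ofNat 0, .ofNat 261, .ofNat 30, .ofNat 0, .ofNat 0, .ofNat 845, .ofNat 5577, .ofNat 0, .ofNat 0, .ofNat 0, .ofNat 0, .ofNat 0, .ofNat 0, .ofNat 0, .ofNat 0, .ofNat 0, .ofNat 0, .ofNat 722037518511758425246924800, .ofNat 0, .ofNat 0, .ofNat 0, .ofNat 0, .ofNat 0⟩)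
    (by decide +kernel)
theorem L00026 : Good (Phi V4.P V4.D (-1) (-1)) ⟨1, 0, 1, 0, 2, 2, 2, 1, 3, 2⟩ :=
  leaf_sound (S := T4.ds_mm) T4.ok_mm (w := 160) (c := ⟨⟨.negSucc 519, .negSucc 259, .ofNat 100, .negSucc 147, .ofNat 82, .ofNat 34⟩, ⟨.negSucc 85, .ofNat 62, .ofNat 314, .negSucc 6, .negSucc 8, .negSucc 3⟩, ⟨.ofNat 308, .ofNat 312, .negSucc 77, .ofNat 70, .negSucc 195, .negSucc 35⟩, ⟨.negSucc 1637, .negSucc 160, .negSucc 12, .negSucc 413, .ofNat 215, .ofNat 88⟩, ⟨.negSucc 298, .negSucc 325, .negSucc 63, .negSucc 313, .negSucc 98, .negSucc 75⟩, .ofNat 385, .ofNat 19, .ofNat 0, .ofNat 19, .ofNat 716, .ofNat 0, .ofNat 506, .negSucc 45, .negSucc 304, .ofNat 0, .ofNat 305, .ofNat 75, .ofNat 0, .ofNat 0, .ofNat 876, .ofNat 6504, .ofNat 0, .ofNat 0, .ofNat 0, .ofNat 0, .ofNat 0, .ofNat 1108325488211684776134416793600, .ofNat 0, .ofNat 0,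 .ofNat 0, .ofNat 0, .ofNat 5831752924630187296691532595200, .ofNat 0, .ofNat 0, .ofNat 0, .ofNat 0, .ofNat 0⟩)
    (by decide +kernel)
theorem L00027 : Good (Phi V4.P V4.D (-1) (-1)) ⟨1, 0, 1, 0, 2, 3, 2, 1, 3, 2⟩ :=
  leaf_sound (S := T4.ds_mm) T4.ok_mm (w := 160) (c := ⟨⟨.negSucc 657, .negSucc 360, .ofNat 101, .negSucc 168, .ofNat 89, .ofNat 81⟩, ⟨.negSucc 123, .ofNat 107, .ofNat 374, .negSucc 15, .negSucc 0, .negSucc 12⟩, ⟨.ofNat 342, .ofNat 388, .negSucc 75, .ofNat 113, .negSucc 182, .negSucc 54⟩, ⟨.negSucc 2099, .negSucc 214, .negSucc 61, .negSucc 498, .ofNat 234, .ofNat 189⟩, ⟨.negSucc 351, .negSucc 614, .negSucc 178, .negSucc 338, .negSucc 170, .negSucc 225⟩, .ofNat 379, .ofNat 10, .ofNat 0, .ofNat 10, .ofNat 736, .ofNat 0, .ofNat 574, .negSucc 71, .negSucc 285, .ofNat 0, .ofNat 329, .ofNat 68, .ofNat 0, .ofNat 0, .ofNat 891, .ofNat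 1575, .ofNat 0, .ofNat 0, .ofNat 0, .ofNat 0, .ofNat 0, .ofNat 0, .ofNat 0, .ofNat 0, .ofNat 0, .ofNat 0, .ofNat 0, .ofNat 0, .ofNat 0, .ofNat 0, .ofNat 0, .ofNat 0⟩)
    (by decide +kernel)
theorem L00028 : Good (Phi V4.P V4.D (-1) (-1)) ⟨1, 0, 1, 0, 1, 1, 2, 1, 3, 3⟩ :=
  leaf_sound (S := T4.ds_mm) T4.ok_mm (w := 152) (c := ⟨⟨.negSucc 526, .negSucc 224, .ofNat 80, .negSucc 200, .ofNat 96, .ofNat 63⟩, ⟨.negSucc 84, .ofNat 71, .ofNat 284, .negSucc 25, .negSucc 6, .negSucc 1⟩, ⟨.ofNat 248, .ofNat 373, .negSucc 35, .ofNat 66, .negSucc 196, .negSucc 56⟩, ⟨.negSucc 1639, .negSucc 98, .negSucc 23, .negSucc 599, .ofNat 258, .ofNat 172⟩, ⟨.negSucc 390, .negSucc 273, .negSucc 18, .negSucc 799, .negSucc 56, .negSucc 25⟩, .ofNat 380, .ofNat 15, .ofNat 0, .ofNat 15, .ofNat 726, .ofNat 0, .ofNat 423, .negSucc 26, .negSucc 230, .ofNat 0, .ofNat 260,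 .ofNat 50, .ofNat 0, .ofNat 0, .ofNat 814, .ofNat 4029, .ofNat 0, .ofNat 0, .ofNat 0, .ofNat 0, .ofNat 0, .ofNat 21334675753474652576415744000, .ofNat 0, .ofNat 0, .ofNat 0, .ofNat 19715049488340702790366003200, .ofNat 0, .ofNat 0, .ofNat 0, .ofNat 22549410077709360404260454400, .ofNat 0, .ofNat 0⟩)
    (by decide +kernel)
theorem L00029 : Good (Phi V4.P V4.D (-1) (-1)) ⟨1, 0, 1, 0, 1, 0, 2, 2, 3, 0⟩ :=
  leaf_sound (S := T4.ds_mm) T4.ok_mm (w := 152) (c := ⟨⟨.negSucc 255, .negSucc 187, .ofNat 97, .negSucc 29, .ofNat 19, .negSucc 80⟩, ⟨.negSucc 33, .ofNat 39, .ofNat 160, .negSucc 29, .negSucc 3, .ofNat 3⟩, ⟨.ofNat 61, .ofNat 139, .negSucc 78, .ofNat 1, .negSucc 262, .ofNat 75⟩, ⟨.negSucc 821, .negSucc 187, .ofNat 113, .negSucc 87, .ofNat 59, .negSucc 227⟩, ⟨.ofNat 24, .negSucc 22, .ofNat 11, .negSucc 663, .negSucc 70, .ofNat 37⟩, .ofNat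 381, .ofNat 17, .ofNat 0, .ofNat 17, .ofNat 723, .ofNat 0, .ofNat 295, .negSucc 13, .negSucc 292, .ofNat 0, .ofNat 185, .ofNat 28, .ofNat 0, .ofNat 0, .ofNat 567, .ofNat 2125, .ofNat 0, .ofNat 0, .ofNat 0, .ofNat 0, .ofNat 0, .ofNat 0, .ofNat 0, .ofNat 0, .ofNat 0, .ofNat 0, .ofNat 0, .ofNat 0, .ofNat 0, .ofNat 0, .ofNat 0, .ofNat 0⟩)
    (by decide +kernel)
theorem L00030 : Good (Phi V4.P V4.D (-1) (-1)) ⟨2, 0, 1, 0, 1, 0, 3, 6, 3, 0⟩ :=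
  leaf_sound (S := T4.ds_mm) T4.ok_mm (w := 160) (c := ⟨⟨.negSucc 228, .negSucc 58, .ofNat 76, .negSucc 104, .ofNat 57, .negSucc 21⟩, ⟨.negSucc 26, .ofNat 6, .ofNat 143, .negSucc 38, .negSucc 6, .ofNat 12⟩, ⟨.negSucc 312, .ofNat 53, .negSucc 48, .ofNat 185, .negSucc 153, .ofNat 96⟩, ⟨.negSucc 688, .negSucc 80, .ofNat 59, .negSucc 364, .ofNat 177, .negSucc 50⟩, ⟨.negSucc 79, .negSucc 14, .ofNat 4, .negSucc 636, .ofNat 6, .ofNat 113⟩, .ofNat 399, .ofNat 33, .ofNat 0, .ofNat 33, .ofNat 666, .ofNat 0, .ofNat 305, .negSucc 26, .negSucc 313, .ofNat 0, .ofNat 210, .ofNat 34, .ofNat 0, .ofNat 0, .ofNat 585, .ofNat 2983, .ofNat 0, .ofNat 0, .ofNat 0, .ofNat 0, .ofNat 0, .ofNat 0, .ofNat 0, .ofNat 0, .ofNat 0, .ofNat 0, .ofNat 0, .ofNat 0, .ofNat 0, .ofNat 0, .ofNat 0, .ofNat 0⟩)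
    (by decide +kernel)
theorem L00031 : Good (Phi V4.P V4.D (-1) (-1)) ⟨2, 0, 2, 0, 1, 0, 3, 7, 3, 0⟩ :=
  leaf_sound (S := T4.ds_mm) T4.ok_mm (w := 160) (c := ⟨⟨.negSucc 167, .negSucc 37, .ofNat 33, .negSucc 209, .ofNat 95, .ofNat 46⟩, ⟨.negSucc 19, .ofNat 1, .ofNat 53, .negSucc 32, .ofNat 3, .ofNat 3⟩, ⟨.negSucc 522, .ofNat 38, .negSucc 19, .ofNat 330, .negSucc 148, .ofNat 77⟩, ⟨.negSucc 502, .negSucc 46, .ofNat 29, .negSucc 646, .ofNat 276, .ofNat 145⟩, ⟨.negSucc 82, .negSucc 66, .ofNat 5, .negSucc 553, .ofNat 65, .ofNat 123⟩, .ofNat 582, .ofNat 73, .ofNat 0, .ofNat 73, .ofNat 1367, .ofNat 0, .ofNat 291, .negSucc 29, .negSucc 271, .ofNat 0, .ofNat 167, .ofNat 20, .ofNat 0, .ofNat 0, .ofNat 560, .ofNat 2594, .ofNat 0, .ofNat 0, .ofNat 0, .ofNat 0, .ofNat 0, .ofNat 0, .ofNat 0, .ofNat 0, .ofNat 0, .ofNat 0, .ofNat 0, .ofNat 0, .ofNat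 0, .ofNat 0, .ofNat 0, .ofNat 0⟩)
    (by decide +kernel)
theorem L00032 : Good (Phi V4.P V4.D (-1) (-1)) ⟨2, 0, 2, 1, 1, 0, 3, 7, 3, 0⟩ :=
  leaf_sound (S := T4.ds_mm) T4.ok_mm (w := 160) (c := ⟨⟨.negSucc 149, .negSucc 23, .ofNat 36, .negSucc 129, .ofNat 85, .ofNat 1⟩, ⟨.ofNat 23, .ofNat 2, .ofNat 40, .negSucc 1, .negSucc 16, .ofNat 9⟩, ⟨.negSucc 529, .ofNat 15, .negSucc 21, .ofNat 275, .negSucc 159, .ofNat 124⟩, ⟨.negSucc 480, .negSucc 34, .ofNat 45, .negSucc 524, .ofNat 275, .ofNat 40⟩, ⟨.negSucc 120, .negSucc 38, .negSucc 29, .negSucc 517, .ofNat 89, .ofNat 139⟩, .ofNat 852, .ofNat 606, .ofNat 0, .ofNat 606, .ofNat 2411, .ofNat 0, .ofNat 245, .negSucc 134, .negSucc 245, .ofNat 0, .ofNat 154, .ofNat 68, .ofNat 0, .ofNat 0, .ofNat 542, .ofNat 2155, .ofNat 0, .ofNat 0, .ofNat 9343375978353873533337600, .ofNat 0, .ofNat 0, .ofNat 0, .ofNat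 0, .ofNat 0, .ofNat 0, .ofNat 0, .ofNat 21303253230298963146650419200, .ofNat 0, .ofNat 0, .ofNat 0, .ofNat 0, .ofNat 0⟩)
    (by decide +kernel)
theorem L00033 : Good (Phi V4.P V4.D (-1) (-1)) ⟨2, 1, 1, 0, 1, 0, 2, 3, 3, 0⟩ :=
  leaf_sound (S := T4.ds_mm) T4.ok_mm (w := 152) (c := ⟨⟨.negSucc 178, .negSucc 181, .negSucc 100, .negSucc 290, .ofNat 154, .ofNat 13⟩, ⟨.negSucc 39, .ofNat 43, .ofNat 168, .negSucc 15, .ofNat 4, .ofNat 5⟩, ⟨.negSucc 386, .ofNat 152, .ofNat 43, .ofNat 364, .negSucc 287, .ofNat 97⟩, ⟨.negSucc 549, .negSucc 267, .negSucc 326, .negSucc 693, .ofNat 376, .ofNat 45⟩, ⟨.negSucc 63, .negSucc 43, .negSucc 81, .negSucc 696, .ofNat 67, .ofNat 106⟩, .ofNat 510, .negSucc 25, .ofNat 0, .negSucc 25, .ofNat 2163, .ofNat 0, .ofNat 307, .ofNat 11, .negSucc 311, .ofNat 0, .ofNat 117, .ofNat 0, .ofNat 0, .ofNat 0, .ofNat 586, .ofNat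 1382, .ofNat 0, .ofNat 0, .ofNat 4919501114054727885619200, .ofNat 0, .ofNat 0, .ofNat 32644856844258315194282803200, .ofNat 2745451155440028434300928000, .ofNat 0, .ofNat 0, .ofNat 0, .ofNat 2764517692373169403959705600, .ofNat 0, .ofNat 0, .ofNat 0, .ofNat 1707951004691348885549875200, .ofNat 0⟩)
    (by decide +kernel)
theorem L00034 : Good (Phi V4.P V4.D (-1) (-1)) ⟨2, 0, 2, 0, 1, 0, 2, 2, 3, 1⟩ :=
  leaf_sound (S := T4.ds_mm) T4.ok_mm (w := 160) (c := ⟨⟨.negSucc 352, .negSucc 50, .ofNat 26, .negSucc 74, .ofNat 92, .negSucc 16⟩, ⟨.negSucc 9, .negSucc 8, .ofNat 92, .negSucc 42, .negSucc 6, .ofNat 2⟩, ⟨.ofNat 72, .ofNat 46, .negSucc 13, .ofNat 86, .negSucc 251, .ofNat 14⟩, ⟨.negSucc 1057, .negSucc 55, .ofNat 8, .negSucc 257, .ofNat 272, .negSucc 41⟩, ⟨.negSucc 0, .negSucc 28, .ofNat 1, .negSucc 570, .negSucc 8, .ofNat 30⟩, .ofNat 585,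 .ofNat 75, .ofNat 0, .ofNat 75, .ofNat 1339, .ofNat 0, .ofNat 458, .negSucc 50, .negSucc 341, .ofNat 0, .ofNat 269, .ofNat 39, .ofNat 0, .ofNat 0, .ofNat 920, .ofNat 7489, .ofNat 0, .ofNat 0, .ofNat 0, .ofNat 0, .ofNat 0, .ofNat 0, .ofNat 0, .ofNat 0, .ofNat 0, .ofNat 0, .ofNat 0, .ofNat 0, .ofNat 0, .ofNat 0, .ofNat 0, .ofNat 0⟩)
    (by decide +kernel)
theorem L00035 : Good (Phi V4.P V4.D (-1) (-1)) ⟨2, 0, 2, 0, 1, 0, 2, 3, 3, 1⟩ :=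
  leaf_sound (S := T4.ds_mm) T4.ok_mm (w := 152) (c := ⟨⟨.negSucc 263, .negSucc 27, .ofNat 15, .negSucc 155, .ofNat 231, .ofNat 42⟩, ⟨.negSucc 12, .negSucc 2, .ofNat 63, .negSucc 37, .ofNat 0, .ofNat 4⟩, ⟨.negSucc 235, .ofNat 37, .negSucc 2, .ofNat 213, .negSucc 307, .ofNat 19⟩, ⟨.negSucc 784, .negSucc 24, .negSucc 17, .negSucc 472, .ofNat 673, .ofNat 126⟩, ⟨.negSucc 42, .negSucc 45, .ofNat 18, .negSucc 505, .ofNat 105, .ofNat 43⟩, .ofNat 400, .ofNat 25, .ofNat 0, .ofNat 25, .ofNat 660, .ofNat 0, .ofNat 273, .negSucc 17, .negSucc 284, .ofNat 0, .ofNat 190, .ofNat 20, .ofNat 0, .ofNat 0, .ofNat 524, .ofNat 2454, .ofNat 0, .ofNat 0, .ofNat 0, .ofNat 0, .ofNat 0, .ofNat 0, .ofNat 0, .ofNat 0, .ofNat 0, .ofNat 0, .ofNat 0, .ofNat 0, .ofNat 0, .ofNat 251110387650279913475486515200, .ofNat 0, .ofNat 0⟩)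
    (by decide +kernel)
theorem L00036 : Good (Phi V4.P V4.D (-1) (-1)) ⟨3, 0, 2, 1, 1, 0, 1, 1, 3, 1⟩ :=
  leaf_sound (S := T4.ds_mm) T4.ok_mm (w := 160) (c := ⟨⟨.negSucc 356, .negSucc 12, .ofNat 58, .negSucc 88, .ofNat 287, .negSucc 10⟩, ⟨.ofNat 83, .negSucc 3, .ofNat 61, .negSucc 11, .negSucc 73, .ofNat 9⟩, ⟨.ofNat 63, .negSucc 7, .negSucc 68, .ofNat 141, .negSucc 549, .ofNat 41⟩, ⟨.negSucc 1085, .negSucc 23, .ofNat 113, .negSucc 389, .ofNat 886, .negSucc 16⟩, ⟨.negSucc 54, .negSucc 39, .negSucc 20, .negSucc 478, .ofNat 104, .ofNat 42⟩, .ofNat 652, .ofNat 303, .ofNat 0, .ofNat 303, .ofNat 1430, .ofNat 0, .ofNat 445, .negSucc 194, .negSucc 395, .ofNat 0, .ofNat 293, .ofNat 107, .ofNat 0, .ofNat 0, .ofNat 948, .ofNat 3657, .ofNat 0, .ofNat 0, .ofNat 0, .ofNat 0, .ofNat 0, .ofNat 0, .ofNat 0, .ofNat 0, .ofNat 0, .ofNat 0, .ofNat 249760400583894904406016000,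 .ofNat 0, .ofNat 0, .ofNat 0, .ofNat 0, .ofNat 0⟩)
    (by decide +kernel)
theorem L00037 : Good (Phi V4.P V4.D (-1) (-1)) ⟨3, 1, 2, 1, 1, 0, 1, 1, 3, 1⟩ :=
  leaf_sound (S := T4.ds_mm) T4.ok_mm (w := 160) (c := ⟨⟨.negSucc 363, .ofNat 28, .ofNat 127, .negSucc 96, .ofNat 290, .negSucc 12⟩, ⟨.ofNat 69, .negSucc 8, .ofNat 43, .negSucc 12, .negSucc 52, .ofNat 6⟩, ⟨.ofNat 40, .negSucc 6, .negSucc 154, .ofNat 142, .negSucc 519, .ofNat 38⟩, ⟨.negSucc 1087, .ofNat 146, .ofNat 341, .negSucc 390, .ofNat 873, .negSucc 33⟩, ⟨.negSucc 88, .ofNat 38, .ofNat 132, .negSucc 512, .ofNat 115, .ofNat 35⟩, .ofNat 869, .ofNat 689, .ofNat 0, .ofNat 689, .ofNat 3385, .ofNat 0, .ofNat 424, .negSucc 205, .negSucc 361, .ofNat 0, .ofNat 225, .ofNat 83, .ofNat 0, .ofNat 0, .ofNat 917, .ofNat 3342, .ofNat 0, .ofNat 0, .ofNat 929736177838964003635200, .ofNat 0, .ofNat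 0, .ofNat 0, .ofNat 859576156288504915348684800, .ofNat 0, .ofNat 0, .ofNat 0, .ofNat 1564139140412062343941324800, .ofNat 0, .ofNat 0, .ofNat 0, .ofNat 1041996422916159851357798400, .ofNat 0⟩)
    (by decide +kernel)
theorem L00038 : Good (Phi V4.P V4.D (-1) (-1)) ⟨2, 1, 1, 0, 1, 0, 2, 2, 3, 1⟩ :=
  leaf_sound (S := T4.ds_mm) T4.ok_mm (w := 152) (c := ⟨⟨.negSucc 400, .negSucc 155, .ofNat 101, .negSucc 126, .ofNat 111, .ofNat 1⟩, ⟨.negSucc 38, .ofNat 40, .ofNat 201, .negSucc 17, .ofNat 4, .ofNat 2⟩, ⟨.ofNat 92, .ofNat 172, .negSucc 36, .ofNat 132, .negSucc 253, .ofNat 18⟩, ⟨.negSucc 1106, .negSucc 157, .ofNat 111, .negSucc 315, .ofNat 280, .negSucc 1⟩, ⟨.ofNat 16, .negSucc 8, .ofNat 14, .negSucc 635, .negSucc 20, .ofNat 19⟩, .ofNat 367, .negSucc 7, .ofNat 0, .negSucc 7, .ofNat 794, .ofNat 0, .ofNat 272, .ofNat 6, .negSucc 263, .ofNat 0,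 .ofNat 155, .ofNat 10, .ofNat 0, .ofNat 0, .ofNat 518, .ofNat 3130, .ofNat 0, .ofNat 0, .ofNat 0, .ofNat 0, .ofNat 0, .ofNat 0, .ofNat 2679858782090528262665011200, .ofNat 0, .ofNat 0, .ofNat 0, .ofNat 3065379190375793295989145600, .ofNat 0, .ofNat 0, .ofNat 0, .ofNat 1906978906801557331771392000, .ofNat 0⟩)
    (by decide +kernel)
theorem L00039 : Good (Phi V4.P V4.D (-1) (-1)) ⟨2, 1, 1, 0, 1, 0, 2, 3, 3, 1⟩ :=
  leaf_sound (S := T4.ds_mm) T4.ok_mm (w := 152) (c := ⟨⟨.negSucc 290, .negSucc 119, .ofNat 8, .negSucc 207, .ofNat 281, .ofNat 44⟩, ⟨.negSucc 27, .ofNat 30, .ofNat 116, .negSucc 16, .ofNat 8, .ofNat 1⟩, ⟨.negSucc 216, .ofNat 134, .ofNat 28, .ofNat 271, .negSucc 346, .ofNat 31⟩, ⟨.negSucc 793, .negSucc 149, .negSucc 2, .negSucc 524, .ofNat 711, .ofNat 107⟩, ⟨.negSucc 42, .negSucc 13, .ofNat 55, .negSucc 586, .ofNat 83, .ofNat 41⟩,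 .ofNat 515, .negSucc 23, .ofNat 0, .negSucc 23, .ofNat 2100, .ofNat 0, .ofNat 541, .ofNat 18, .negSucc 532, .ofNat 0, .ofNat 212, .negSucc 2, .ofNat 0, .ofNat 0, .ofNat 1023, .ofNat 4018, .ofNat 0, .ofNat 0, .ofNat 19203713069537618229657600, .ofNat 0, .ofNat 0, .ofNat 432940608349298436762029260800, .ofNat 6336691624000560553367961600, .ofNat 0, .ofNat 0, .ofNat 0, .ofNat 13438235733478925139129139200, .ofNat 0, .ofNat 0, .ofNat 279645320528331847693133414400, .ofNat 7437918331037041947574272000, .ofNat 0⟩)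
    (by decide +kernel)
theorem L00040 : Good (Phi V4.P V4.D (-1) (-1)) ⟨2, 0, 1, 0, 1, 0, 2, 2, 2, 1⟩ :=
  leaf_sound (S := T4.ds_mm) T4.ok_mm (w := 152) (c := ⟨⟨.negSucc 389, .negSucc 41, .ofNat 36, .negSucc 73, .ofNat 124, .ofNat 59⟩, ⟨.negSucc 3, .negSucc 4, .ofNat 174, .negSucc 33, .negSucc 14, .negSucc 7⟩, ⟨.ofNat 49, .ofNat 52, .negSucc 5, .ofNat 88, .negSucc 191, .negSucc 40⟩, ⟨.negSucc 1155, .negSucc 27, .negSucc 12, .negSucc 275, .ofNat 367, .ofNat 177⟩, ⟨.negSucc 2, .negSucc 48, .ofNat 4, .negSucc 533, .ofNat 36, .ofNat 39⟩, .ofNat 401, .ofNat 39, .ofNat 0, .ofNat 39, .ofNat 664, .ofNat 0, .ofNat 420, .negSucc 45, .negSucc 329, .ofNat 0, .ofNat 293, .ofNat 40, .ofNat 0, .ofNat 0, .ofNat 826, .ofNat 6088, .ofNat 0, .ofNat 0, .ofNat 0, .ofNat 0, .ofNat 0, .ofNat 0, .ofNat 0, .ofNat 0, .ofNat 0, .ofNat 0, .ofNat 0, .ofNat 0, .ofNat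 0, .ofNat 0, .ofNat 0, .ofNat 0⟩)
    (by decide +kernel)
theorem L00041 : Good (Phi V4.P V4.D (-1) (-1)) ⟨2, 0, 2, 0, 1, 0, 2, 3, 3, 2⟩ :=
  leaf_sound (S := T4.ds_mm) T4.ok_mm (w := 160) (c := ⟨⟨.negSucc 279, .negSucc 10, .ofNat 16, .negSucc 101, .ofNat 254, .ofNat 26⟩, ⟨.negSucc 6, .negSucc 9, .ofNat 55, .negSucc 31, .negSucc 6, .ofNat 5⟩, ⟨.negSucc 178, .ofNat 29, .negSucc 8, .ofNat 145, .negSucc 280, .ofNat 25⟩, ⟨.negSucc 817, .ofNat 25, .ofNat 0, .negSucc 327, .ofNat 744, .ofNat 66⟩, ⟨.negSucc 40, .negSucc 38, .ofNat 13, .negSucc 423, .ofNat 101, .ofNat 33⟩, .ofNat 400, .ofNat 27, .ofNat 0, .ofNat 27, .ofNat 660, .ofNat 0, .ofNat 479, .negSucc 35, .negSucc 475, .ofNat 0, .ofNat 333, .ofNat 30, .ofNat 0, .ofNat 0, .ofNat 914, .ofNat 5106, .ofNat 0, .ofNat 0, .ofNat 0, .ofNat 0, .ofNat 0, .ofNat 0, .ofNat 0, .ofNat 0, .ofNat 0, .ofNat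 1563035521421194875715033497600, .ofNat 0, .ofNat 0, .ofNat 0, .ofNat 1522341012564820779498838425600, .ofNat 0, .ofNat 0⟩)
    (by decide +kernel)
theorem L00042 : Good (Phi V4.P V4.D (-1) (-1)) ⟨2, 0, 2, 1, 1, 0, 2, 3, 3, 2⟩ :=
  leaf_sound (S := T4.ds_mm) T4.ok_mm (w := 160) (c := ⟨⟨.negSucc 256, .ofNat 13, .ofNat 22, .negSucc 101, .ofNat 226, .ofNat 23⟩, ⟨.ofNat 59, .negSucc 13, .ofNat 51, .negSucc 3, .negSucc 52, .negSucc 3⟩, ⟨.negSucc 183, .ofNat 4, .negSucc 9, .ofNat 149, .negSucc 265, .ofNat 18⟩, ⟨.negSucc 777, .ofNat 68, .ofNat 17, .negSucc 405, .ofNat 699, .ofNat 75⟩, ⟨.negSucc 31, .negSucc 75, .negSucc 4, .negSucc 410, .ofNat 106, .ofNat 36⟩, .ofNat 644, .ofNat 291, .ofNat 0, .ofNat 291, .ofNat 1445, .ofNat 0, .ofNat 406, .negSucc 170, .negSucc 353, .ofNat 0, .ofNat 261, .ofNat 85, .ofNat 0, .ofNat 0, .ofNat 843, .ofNat 4101,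 .ofNat 0, .ofNat 0, .ofNat 7267625059103887070822400, .ofNat 0, .ofNat 0, .ofNat 0, .ofNat 0, .ofNat 0, .ofNat 0, .ofNat 0, .ofNat 7036507594473913473564672000, .ofNat 0, .ofNat 0, .ofNat 0, .ofNat 0, .ofNat 0⟩)
    (by decide +kernel)
theorem L00043 : Good (Phi V4.P V4.D (-1) (-1)) ⟨2, 0, 1, 0, 1, 0, 2, 3, 3, 3⟩ :=
  leaf_sound (S := T4.ds_mm) T4.ok_mm (w := 152) (c := ⟨⟨.negSucc 272, .ofNat 2, .ofNat 23, .negSucc 54, .ofNat 233, .ofNat 29⟩, ⟨.ofNat 1, .negSucc 11, .ofNat 94, .negSucc 15, .negSucc 17, .negSucc 4⟩, ⟨.negSucc 138, .ofNat 15, .negSucc 11, .ofNat 92, .negSucc 240, .ofNat 8⟩, ⟨.negSucc 805, .ofNat 67, .negSucc 6, .negSucc 221, .ofNat 701, .ofNat 93⟩, ⟨.ofNat 3, .negSucc 33, .negSucc 14, .negSucc 399, .ofNat 70, .ofNat 0⟩, .ofNat 402, .ofNat 40, .ofNat 0, .ofNat 40, .ofNat 659, .ofNat 0, .ofNat 424, .negSucc 46, .negSucc 393,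 .ofNat 0, .ofNat 298, .ofNat 33, .ofNat 0, .ofNat 0, .ofNat 815, .ofNat 4963, .ofNat 0, .ofNat 0, .ofNat 0, .ofNat 0, .ofNat 0, .ofNat 449070962987222802612250214400, .ofNat 0, .ofNat 0, .ofNat 0, .ofNat 214863551620755632421234278400, .ofNat 2671945805784030135504076800, .ofNat 0, .ofNat 0, .ofNat 0, .ofNat 0, .ofNat 0⟩)
    (by decide +kernel)
theorem L00044 : Good (Phi V4.P V4.D (-1) (-1)) ⟨2, 1, 1, 0, 1, 0, 2, 2, 2, 1⟩ :=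
  leaf_sound (S := T4.ds_mm) T4.ok_mm (w := 152) (c := ⟨⟨.negSucc 446, .negSucc 122, .ofNat 46, .negSucc 90, .ofNat 144, .ofNat 85⟩, ⟨.negSucc 42, .ofNat 43, .ofNat 204, .negSucc 13, .ofNat 4, .ofNat 4⟩, ⟨.ofNat 109, .ofNat 147, .negSucc 26, .ofNat 127, .negSucc 224, .negSucc 50⟩, ⟨.negSucc 1224, .negSucc 89, .negSucc 23, .negSucc 218, .ofNat 363, .ofNat 220⟩, ⟨.ofNat 46, .negSucc 43, .negSucc 26, .negSucc 655, .ofNat 18, .ofNat 6⟩, .ofNat 512, .negSucc 33, .ofNat 0, .negSucc 33, .ofNat 2140, .ofNat 0, .ofNat 413, .ofNat 18, .negSucc 302, .ofNat 0, .ofNat 160, .ofNat 0, .ofNat 0, .ofNat 0, .ofNat 816, .ofNat 3521, .ofNat 0, .ofNat 0, .ofNat 0, .ofNat 0, .ofNat 0, .ofNat 57584075159798546921894707200, .ofNat 456621423702938261913600000, .ofNat 0, .ofNat 0, .ofNat 0, .ofNat 623051439911576516689920000, .ofNat 0, .ofNat 0, .ofNat 0, .ofNat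 0, .ofNat 0⟩)
    (by decide +kernel)
theorem L00045 : Good (Phi V4.P V4.D (-1) (-1)) ⟨2, 1, 2, 0, 1, 0, 3, 6, 2, 1⟩ :=
  leaf_sound (S := T4.ds_mm) T4.ok_mm (w := 152) (c := ⟨⟨.negSucc 325, .negSucc 69, .ofNat 24, .negSucc 71, .ofNat 125, .ofNat 76⟩, ⟨.negSucc 25, .ofNat 29, .ofNat 68, .negSucc 15, .ofNat 4, .negSucc 0⟩, ⟨.negSucc 118, .ofNat 94, .negSucc 7, .ofNat 130, .negSucc 137, .ofNat 5⟩, ⟨.negSucc 885, .negSucc 39, .ofNat 33, .negSucc 176, .ofNat 322, .ofNat 190⟩, ⟨.ofNat 3, .negSucc 31, .negSucc 9, .negSucc 567, .ofNat 37, .ofNat 39⟩, .ofNat 519, .negSucc 22, .ofNat 0, .negSucc 22, .ofNat 2085, .ofNat 0, .ofNat 432, .ofNat 13, .negSucc 371, .ofNat 0, .ofNat 172, .negSucc 2, .ofNat 0, .ofNat 0, .ofNat 832, .ofNat 4527, .ofNat 0, .ofNat 0, .ofNat 0, .ofNat 0, .ofNat 0, .ofNat 533834807881471056081321984000, .ofNat 3001191938846461171807027200,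 .ofNat 0, .ofNat 0, .ofNat 0, .ofNat 0, .ofNat 0, .ofNat 0, .ofNat 615410043271818751132670361600, .ofNat 0, .ofNat 0⟩)
    (by decide +kernel)
theorem L00046 : Good (Phi V4.P V4.D (-1) (-1)) ⟨2, 1, 2, 0, 1, 0, 3, 7, 2, 1⟩ :=
  leaf_sound (S := T4.ds_mm) T4.ok_mm (w := 152) (c := ⟨⟨.negSucc 240, .negSucc 23, .ofNat 23, .negSucc 59, .ofNat 202, .ofNat 112⟩, ⟨.negSucc 15, .ofNat 19, .ofNat 42, .negSucc 13, .ofNat 2, .ofNat 2⟩, ⟨.negSucc 232, .ofNat 42, .negSucc 11, .ofNat 136, .negSucc 207, .negSucc 5⟩, ⟨.negSucc 636, .ofNat 23, .ofNat 42, .negSucc 142, .ofNat 500, .ofNat 270⟩, ⟨.ofNat 4, .negSucc 38, .negSucc 6, .negSucc 459, .ofNat 35, .ofNat 47⟩, .ofNat 518, .negSucc 25, .ofNat 0, .negSucc 25, .ofNat 2072, .ofNat 0, .ofNat 442, .ofNat 15, .negSucc 441, .ofNat 0, .ofNat 178, .negSucc 6, .ofNat 0, .ofNat 0, .ofNat 859, .ofNat 4416, .ofNat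 0, .ofNat 0, .ofNat 0, .ofNat 0, .ofNat 0, .ofNat 1239111519525120956070415564800, .ofNat 3693435285049261845538406400, .ofNat 0, .ofNat 0, .ofNat 0, .ofNat 3994084616925078055865548800, .ofNat 0, .ofNat 0, .ofNat 1404284577953449600746101145600, .ofNat 2150707880942585039447654400, .ofNat 0⟩)
    (by decide +kernel)
theorem L00047 : Good (Phi V4.P V4.D (-1) (-1)) ⟨2, 1, 2, 1, 1, 0, 2, 3, 2, 1⟩ :=
  out_sound (S := T4.ds_mm) T4.ok_mm (w := 40) (j := 3) (by decide +kernel)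
theorem L00048 : Good (Phi V4.P V4.D (-1) (-1)) ⟨2, 0, 2, 0, 2, 2, 1, 1, 3, 0⟩ :=
  leaf_sound (S := T4.ds_mm) T4.ok_mm (w := 160) (c := ⟨⟨.negSucc 183, .negSucc 110, .ofNat 61, .negSucc 102, .negSucc 94, .negSucc 153⟩, ⟨.negSucc 106, .negSucc 1, .ofNat 113, .ofNat 8, .ofNat 22, .ofNat 29⟩, ⟨.negSucc 71, .ofNat 32, .negSucc 4, .ofNat 161, .negSucc 149, .ofNat 126⟩, ⟨.negSucc 583, .negSucc 205, .ofNat 31, .negSucc 299, .negSucc 263, .negSucc 446⟩, ⟨.negSucc 627, .negSucc 241, .ofNat 50, .negSucc 44, .ofNat 117, .ofNat 112⟩, .ofNat 700, .ofNat 157, .ofNat 0, .ofNat 157, .ofNat 2180, .ofNat 0, .ofNat 595, .negSucc 89, .negSucc 431, .ofNat 0, .ofNat 287, .ofNat 64, .ofNat 0, .ofNat 0, .ofNat 1001, .ofNat 2350, .ofNat 0, .ofNat 0, .ofNat 0, .ofNat 0, .ofNat 0, .ofNat 0, .ofNat 0, .ofNat 0, .ofNat 0, .ofNat 0, .ofNat 0, .ofNat 0, .ofNat 0, .ofNat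 0, .ofNat 0, .ofNat 0⟩)
    (by decide +kernel)
theorem L00049 : Good (Phi V4.P V4.D (-1) (-1)) ⟨2, 0, 2, 1, 2, 2, 1, 1, 3, 0⟩ :=
  leaf_sound (S := T4.ds_mm) T4.ok_mm (w := 160) (c := ⟨⟨.negSucc 147, .negSucc 5, .ofNat 51, .negSucc 115, .negSucc 102, .negSucc 173⟩, ⟨.negSucc 19, .negSucc 8, .ofNat 84, .ofNat 23, .ofNat 35, .ofNat 51⟩, ⟨.negSucc 71, .negSucc 21, .negSucc 43, .ofNat 189, .negSucc 157, .ofNat 122⟩, ⟨.negSucc 607, .ofNat 53, .negSucc 34, .negSucc 362, .negSucc 277, .negSucc 498⟩, ⟨.negSucc 617, .negSucc 102, .negSucc 124, .negSucc 64, .ofNat 115, .ofNat 69⟩, .ofNat 649, .ofNat 296, .ofNat 0, .ofNat 296, .ofNat 1429, .ofNat 0, .ofNat 553, .negSucc 250, .negSucc 462, .ofNat 0, .ofNat 341, .ofNat 150, .ofNat 0, .ofNat 0, .ofNat 1013, .ofNat 2553, .ofNat 0, .ofNat 0, .ofNat 986295306073677707398348800, .ofNat 0, .ofNat 0, .ofNat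 38559527256403841759157053030400, .ofNat 263708279299853559303399014400, .ofNat 0, .ofNat 0, .ofNat 0, .ofNat 0, .ofNat 0, .ofNat 0, .ofNat 0, .ofNat 0, .ofNat 0⟩)
    (by decide +kernel)
theorem L00050 : Good (Phi V4.P V4.D (-1) (-1)) ⟨2, 0, 2, 0, 2, 3, 2, 2, 3, 0⟩ :=
  leaf_sound (S := T4.ds_mm) T4.ok_mm (w := 168) (c := ⟨⟨.negSucc 187, .negSucc 73, .ofNat 81, .negSucc 85, .negSucc 101, .negSucc 353⟩, ⟨.negSucc 99, .negSucc 7, .ofNat 122, .ofNat 24, .ofNat 7, .ofNat 20⟩, ⟨.ofNat 13, .ofNat 12, .negSucc 18, .ofNat 136, .negSucc 15, .ofNat 199⟩, ⟨.negSucc 601, .negSucc 63, .ofNat 73, .negSucc 238, .negSucc 295, .negSucc 1037⟩, ⟨.negSucc 600, .negSucc 277, .ofNat 7, .ofNat 200, .negSucc 31, .negSucc 32⟩, .ofNat 582, .ofNat 79, .ofNat 0, .ofNat 79, .ofNat 1380, .ofNat 0, .ofNat 690, .negSucc 80, .negSucc 408, .ofNat 0, .ofNat 334, .ofNat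 83, .ofNat 0, .ofNat 0, .ofNat 954, .ofNat 4396, .ofNat 0, .ofNat 0, .ofNat 0, .ofNat 0, .ofNat 0, .ofNat 0, .ofNat 413078476571317178905028198400, .ofNat 0, .ofNat 0, .ofNat 0, .ofNat 0, .ofNat 0, .ofNat 0, .ofNat 0, .ofNat 0, .ofNat 0⟩)
    (by decide +kernel)
theorem L00051 : Good (Phi V4.P V4.D (-1) (-1)) ⟨2, 0, 2, 0, 2, 3, 2, 3, 4, 0⟩ :=
  leaf_sound (S := T4.ds_mm) T4.ok_mm (w := 168) (c := ⟨⟨.negSucc 320, .negSucc 91, .ofNat 64, .negSucc 49, .negSucc 147, .negSucc 146⟩, ⟨.negSucc 93, .negSucc 29, .ofNat 141, .ofNat 40, .ofNat 36, .ofNat 6⟩, ⟨.negSucc 16, .negSucc 6, .ofNat 17, .ofNat 184, .ofNat 92, .ofNat 82⟩, ⟨.negSucc 1011, .negSucc 130, .ofNat 59, .negSucc 104, .negSucc 399, .negSucc 430⟩, ⟨.negSucc 729, .negSucc 360, .ofNat 69, .ofNat 394, .ofNat 326, .ofNat 9⟩, .ofNat 583, .ofNat 71, .ofNat 0, .ofNat 71, .ofNat 1359, .ofNat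 0, .ofNat 742, .negSucc 30, .negSucc 461, .ofNat 0, .ofNat 358, .ofNat 90, .ofNat 0, .ofNat 0, .ofNat 1000, .ofNat 3684, .ofNat 0, .ofNat 0, .ofNat 0, .ofNat 0, .ofNat 0, .ofNat 0, .ofNat 0, .ofNat 0, .ofNat 0, .ofNat 0, .ofNat 0, .ofNat 0, .ofNat 0, .ofNat 0, .ofNat 0, .ofNat 0⟩)
    (by decide +kernel)
theorem L00052 : Good (Phi V4.P V4.D (-1) (-1)) ⟨2, 0, 2, 0, 2, 3, 2, 3, 4, 1⟩ :=
  leaf_sound (S := T4.ds_mm) T4.ok_mm (w := 168) (c := ⟨⟨.negSucc 479, .negSucc 64, .ofNat 70, .negSucc 121, .negSucc 62, .negSucc 82⟩, ⟨.negSucc 88, .negSucc 41, .ofNat 153, .ofNat 38, .ofNat 41, .ofNat 11⟩, ⟨.ofNat 91, .negSucc 24, .ofNat 1, .ofNat 196, .ofNat 45, .ofNat 44⟩, ⟨.negSucc 1475, .negSucc 22, .ofNat 82, .negSucc 345, .negSucc 163, .negSucc 241⟩, ⟨.negSucc 675, .negSucc 430, .ofNat 20, .ofNat 350, .ofNat 397, .ofNat 15⟩, .ofNat 581, .ofNat 69,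 .ofNat 0, .ofNat 69, .ofNat 1379, .ofNat 0, .ofNat 740, .negSucc 41, .negSucc 458, .ofNat 0, .ofNat 354, .ofNat 81, .ofNat 0, .ofNat 0, .ofNat 986, .ofNat 3709, .ofNat 0, .ofNat 0, .ofNat 0, .ofNat 0, .ofNat 0, .ofNat 0, .ofNat 0, .ofNat 0, .ofNat 0, .ofNat 816396143777330453132079425126400, .ofNat 0, .ofNat 0, .ofNat 0, .ofNat 0, .ofNat 0, .ofNat 0⟩)
    (by decide +kernel)
theorem L00053 : Good (Phi V4.P V4.D (-1) (-1)) ⟨3, 0, 2, 1, 2, 3, 1, 1, 3, 0⟩ :=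
  leaf_sound (S := T4.ds_mm) T4.ok_mm (w := 168) (c := ⟨⟨.negSucc 109, .negSucc 14, .ofNat 27, .negSucc 74, .negSucc 263, .negSucc 331⟩, ⟨.negSucc 40, .negSucc 17, .ofNat 121, .ofNat 46, .ofNat 101, .ofNat 86⟩, ⟨.negSucc 51, .negSucc 20, .ofNat 16, .ofNat 187, .ofNat 130, .ofNat 181⟩, ⟨.negSucc 537, .negSucc 45, .negSucc 19, .negSucc 116, .negSucc 675, .negSucc 991⟩, ⟨.negSucc 759, .negSucc 173, .ofNat 16, .ofNat 383, .ofNat 401, .negSucc 16⟩, .ofNat 952, .ofNat 799, .ofNat 0, .ofNat 799, .ofNat 3024, .ofNat 0, .ofNat 562, .negSucc 360, .negSucc 392, .ofNat 0, .ofNat 317, .ofNat 139, .ofNat 0, .ofNat 0, .ofNat 940, .ofNat 1414, .ofNat 0, .ofNat 0, .ofNat 195020793524462550043852800, .ofNat 0, .ofNat 0, .ofNat 0, .ofNat 0, .ofNat 0, .ofNat 0, .ofNat 401330419334138445120375305011200, .ofNat 179728786867298252513240678400, .ofNat 0, .ofNat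 0, .ofNat 0, .ofNat 0, .ofNat 0⟩)
    (by decide +kernel)
theorem L00054 : Good (Phi V4.P V4.D (-1) (-1)) ⟨3, 1, 2, 1, 2, 3, 1, 1, 3, 0⟩ :=
  leaf_sound (S := T4.ds_mm) T4.ok_mm (w := 168) (c := ⟨⟨.negSucc 175, .ofNat 12, .ofNat 37, .negSucc 68, .negSucc 216, .negSucc 298⟩, ⟨.negSucc 22, .ofNat 1, .ofNat 110, .ofNat 35, .ofNat 68, .ofNat 59⟩, ⟨.negSucc 32, .ofNat 39, .ofNat 11, .ofNat 176, .ofNat 76, .ofNat 158⟩, ⟨.negSucc 702, .ofNat 143, .negSucc 37, .negSucc 136, .negSucc 560, .negSucc 889⟩, ⟨.negSucc 878, .ofNat 107, .negSucc 76, .ofNat 309, .ofNat 353, .negSucc 63⟩, .ofNat 907, .ofNat 784, .ofNat 0, .ofNat 784, .ofNat 3758, .ofNat 0, .ofNat 601, .negSucc 326, .negSucc 392, .ofNat 0, .ofNat 285, .ofNat 112, .ofNat 0, .ofNat 0, .ofNat 937, .ofNat 3466, .ofNat 0, .ofNat 6356297797451595049122083635200, .ofNat 419230206787764965710233600,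 .ofNat 0, .ofNat 0, .ofNat 611076779905788015225196039372800, .ofNat 77740693979693786214904627200, .ofNat 0, .ofNat 0, .ofNat 915462590811266933051774887526400, .ofNat 644351710266374205297446092800, .ofNat 0, .ofNat 0, .ofNat 0, .ofNat 0, .ofNat 0⟩)
    (by decide +kernel)
theorem L00055 : Good (Phi V4.P V4.D (-1) (-1)) ⟨2, 1, 1, 0, 2, 2, 2, 2, 3, 0⟩ :=
  leaf_sound (S := T4.ds_mm) T4.ok_mm (w := 160) (c := ⟨⟨.negSucc 180, .negSucc 224, .ofNat 129, .negSucc 91, .negSucc 133, .negSucc 275⟩, ⟨.negSucc 67, .ofNat 73, .ofNat 237, .negSucc 4, .negSucc 3, .negSucc 4⟩, ⟨.negSucc 88, .ofNat 166, .negSucc 25, .ofNat 90, .negSucc 35, .ofNat 250⟩, ⟨.negSucc 546, .negSucc 312, .ofNat 66, .negSucc 227, .negSucc 335, .negSucc 699⟩, ⟨.negSucc 614, .negSucc 65, .ofNat 32, .negSucc 199, .negSucc 131, .ofNat 37⟩, .ofNat 515, .negSucc 27, .ofNat 0, .negSucc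 27, .ofNat 2103, .ofNat 0, .ofNat 328, .ofNat 15, .negSucc 264, .ofNat 0, .ofNat 116, .ofNat 11, .ofNat 0, .ofNat 0, .ofNat 526, .ofNat 2877, .ofNat 0, .ofNat 0, .ofNat 0, .ofNat 0, .ofNat 0, .ofNat 0, .ofNat 1358440788373125743656304640000, .ofNat 0, .ofNat 0, .ofNat 0, .ofNat 2028918643777835148666470400000, .ofNat 0, .ofNat 0, .ofNat 0, .ofNat 1140462485513938842944746291200, .ofNat 0⟩)
    (by decide +kernel)
theorem L00056 : Good (Phi V4.P V4.D (-1) (-1)) ⟨2, 1, 1, 0, 2, 2, 2, 3, 3, 0⟩ :=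
  leaf_sound (S := T4.ds_mm) T4.ok_mm (w := 160) (c := ⟨⟨.negSucc 321, .negSucc 291, .negSucc 41, .negSucc 209, .negSucc 69, .negSucc 28⟩, ⟨.negSucc 76, .ofNat 76, .ofNat 268, .negSucc 8, .ofNat 1, .ofNat 3⟩, ⟨.negSucc 143, .ofNat 229, .ofNat 44, .ofNat 217, .negSucc 12, .ofNat 73⟩, ⟨.negSucc 927, .negSucc 436, .negSucc 339, .negSucc 515, .negSucc 175, .negSucc 69⟩, ⟨.negSucc 707, .negSucc 151, .negSucc 90, .negSucc 224, .ofNat 68, .ofNat 98⟩, .ofNat 366, .negSucc 8, .ofNat 0, .negSucc 8, .ofNat 800, .ofNat 0, .ofNat 391, .ofNat 24, .negSucc 443, .ofNat 0, .ofNat 198, .ofNat 19, .ofNat 0, .ofNat 0, .ofNat 634, .ofNat 1621, .ofNat 0, .ofNat 0, .ofNat 3024616685972478956981452800, .ofNat 0, .ofNat 0, .ofNat 2109259370470452143893512192000, .ofNat 1392063455579724635455881216000, .ofNat 0, .ofNat 0, .ofNat 0, .ofNat 1653925587289882847380242432000,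 .ofNat 0, .ofNat 0, .ofNat 4689704162658848632661134540800, .ofNat 1209275353536179070243019161600, .ofNat 0⟩)
    (by decide +kernel)
theorem L00057 : Good (Phi V4.P V4.D (-1) (-1)) ⟨2, 1, 2, 0, 2, 3, 2, 2, 4, 0⟩ :=
  leaf_sound (S := T4.ds_mm) T4.ok_mm (w := 168) (c := ⟨⟨.negSucc 160, .negSucc 199, .ofNat 129, .negSucc 35, .negSucc 224, .negSucc 299⟩, ⟨.negSucc 69, .ofNat 75, .ofNat 130, .ofNat 1, .negSucc 6, .negSucc 6⟩, ⟨.negSucc 40, .ofNat 110, .negSucc 32, .ofNat 110, .ofNat 38, .ofNat 190⟩, ⟨.negSucc 482, .negSucc 275, .ofNat 163, .negSucc 93, .negSucc 564, .negSucc 753⟩, ⟨.negSucc 749, .negSucc 61, .ofNat 60, .ofNat 207, .negSucc 197, .negSucc 77⟩, .ofNat 516, .negSucc 26, .ofNat 0, .negSucc 26, .ofNat 2103, .ofNat 0, .ofNat 776, .ofNat 55, .negSucc 537, .ofNat 0, .ofNat 250, .ofNat 23, .ofNat 0, .ofNat 0, .ofNat 1009, .ofNat 5938,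 .ofNat 0, .ofNat 0, .ofNat 0, .ofNat 0, .ofNat 0, .ofNat 0, .ofNat 127050810689646008104366846771200, .ofNat 0, .ofNat 0, .ofNat 0, .ofNat 83040017181060846554682753024000, .ofNat 0, .ofNat 0, .ofNat 0, .ofNat 0, .ofNat 0⟩)
    (by decide +kernel)
theorem L00058 : Good (Phi V4.P V4.D (-1) (-1)) ⟨2, 1, 2, 0, 2, 3, 2, 2, 4, 1⟩ :=
  leaf_sound (S := T4.ds_mm) T4.ok_mm (w := 168) (c := ⟨⟨.negSucc 424, .negSucc 322, .ofNat 82, .negSucc 146, .negSucc 80, .negSucc 175⟩, ⟨.negSucc 88, .ofNat 90, .ofNat 179, .negSucc 1, .negSucc 3, .negSucc 8⟩, ⟨.ofNat 151, .ofNat 196, .negSucc 0, .ofNat 114, .negSucc 45, .ofNat 98⟩, ⟨.negSucc 1204, .negSucc 446, .ofNat 51, .negSucc 373, .negSucc 198, .negSucc 453⟩, ⟨.negSucc 713, .negSucc 147, .ofNat 22, .ofNat 19, .negSucc 137, .negSucc 124⟩, .ofNat 517, .negSucc 34, .ofNat 0, .negSucc 34, .ofNat 2081, .ofNat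 0, .ofNat 766, .ofNat 51, .negSucc 497, .ofNat 0, .ofNat 250, .ofNat 23, .ofNat 0, .ofNat 0, .ofNat 984, .ofNat 7859, .ofNat 0, .ofNat 0, .ofNat 0, .ofNat 0, .ofNat 0, .ofNat 0, .ofNat 126301796825194953853721011814400, .ofNat 0, .ofNat 0, .ofNat 0, .ofNat 96499440612599086587494950502400, .ofNat 0, .ofNat 0, .ofNat 0, .ofNat 0, .ofNat 0⟩)
    (by decide +kernel)
theorem L00059 : Good (Phi V4.P V4.D (-1) (-1)) ⟨3, 2, 2, 0, 2, 3, 2, 3, 5, 0⟩ :=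
  leaf_sound (S := T4.ds_mm) T4.ok_mm (w := 176) (c := ⟨⟨.negSucc 433, .negSucc 123, .ofNat 102, .ofNat 6, .negSucc 193, .negSucc 81⟩, ⟨.negSucc 88, .ofNat 33, .ofNat 172, .ofNat 10, .ofNat 1, .negSucc 0⟩, ⟨.ofNat 16, .ofNat 70, .ofNat 11, .ofNat 100, .ofNat 103, .ofNat 48⟩, ⟨.negSucc 1177, .negSucc 181, .ofNat 116, .ofNat 11, .negSucc 514, .negSucc 219⟩, ⟨.negSucc 963, .negSucc 131, .ofNat 121, .ofNat 291, .ofNat 170, .negSucc 1⟩, .ofNat 535, .negSucc 33, .ofNat 0, .negSucc 33, .ofNat 1901, .ofNat 0, .ofNat 400, .ofNat 55, .negSucc 279, .ofNat 0, .ofNat 146, .ofNat 14, .ofNat 0, .ofNat 0, .ofNat 523, .ofNat 2692, .ofNat 0, .ofNat 0, .ofNat 0, .ofNat 0, .ofNat 0, .ofNat 0, .ofNat 101016583816766587593685991424000, .ofNat 0, .ofNat 0, .ofNat 0, .ofNat 0, .ofNat 0, .ofNat 0, .ofNat 0, .ofNat 0, .ofNat 0⟩)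
    (by decide +kernel)

end Crest.Agent.R097C4.N4mm
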