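import Crest.Agent.R097.T4

/-!
# Row 97, box cover in dimension n = 4 (generated)
-/

set_option autoImplicit false
set_option Elab.async false
set_option maxHeartbeats 0
set_option maxRecDepth 100000

open Crest.Agent.R097 Crest.Agent.R097.KA


namespace Crest.Agent.R097C4.N4mm

theorem L00762 : Good (Phi V4.P V4.D (-1) (-1)) ⟨4, 12, 3, 3, 2, 3, 2, 1, 3, 1⟩ :=
  leaf_sound (S := T4.ds_mm) T4.ok_mm (w := 176) (c := ⟨⟨.negSucc 2917, .ofNat 634, .ofNat 158, .negSucc 237, .ofNat 404, .ofNat 1064⟩, ⟨.ofNat 1296, .negSucc 303, .ofNat 120, .ofNat 96, .negSucc 199, .negSucc 517⟩, ⟨.ofNat 1566, .negSucc 84, .negSucc 326, .ofNat 362, .negSucc 467, .negSucc 562⟩, ⟨.negSucc 4463, .ofNat 852, .ofNat 218, .negSucc 473, .ofNat 355, .ofNat 1048⟩, ⟨.ofNat 780, .negSucc 699, .ofNat 36, .negSucc 208, .negSucc 662, .negSucc 1500⟩, .ofNat 1779, .ofNat 3139, .ofNat 0, .ofNat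 3139, .ofNat 7195, .ofNat 0, .ofNat 176, .negSucc 474, .negSucc 519, .ofNat 0, .ofNat 242, .ofNat 239, .ofNat 0, .ofNat 0, .ofNat 568, .ofNat 1121, .ofNat 0, .ofNat 0, .ofNat 31635432836140986798597734400, .ofNat 0, .ofNat 0, .ofNat 0, .ofNat 0, .ofNat 0, .ofNat 0, .ofNat 0, .ofNat 3396781235305419045272027136000, .ofNat 0, .ofNat 0, .ofNat 0, .ofNat 3187501919068095788581335859200, .ofNat 0⟩)
    (by decide +kernel)
theorem L00763 : Good (Phi V4.P V4.D (-1) (-1)) ⟨6, 52, 3, 3, 2, 3, 2, 1, 4, 2⟩ :=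
  leaf_sound (S := T4.ds_mm) T4.ok_mm (w := 192) (c := ⟨⟨.negSucc 2318, .negSucc 222, .ofNat 352, .negSucc 317, .ofNat 351, .ofNat 545⟩, ⟨.ofNat 1011, .ofNat 111, .ofNat 23, .ofNat 142, .negSucc 183, .negSucc 270⟩, ⟨.ofNat 1424, .ofNat 127, .negSucc 211, .ofNat 378, .negSucc 346, .negSucc 255⟩, ⟨.negSucc 3679, .negSucc 273, .ofNat 458, .negSucc 531, .ofNat 253, .ofNat 574⟩, ⟨.ofNat 5, .ofNat 57, .negSucc 98, .negSucc 63, .negSucc 663, .negSucc 637⟩, .ofNat 1471, .ofNat 2381, .ofNat 0, .ofNat 2381, .ofNat 5288, .ofNat 0, .ofNat 181, .negSucc 515, .negSucc 725, .ofNat 0, .ofNat 271, .ofNat 347, .ofNat 0, .ofNat 0, .ofNat 653, .ofNat 1162, .ofNat 0, .ofNat 0, .ofNat 0, .ofNat 0, .ofNat 0, .ofNat 0, .ofNat 0, .ofNat 0, .ofNat 0, .ofNat 0, .ofNat 0, .ofNat 0, .ofNat 0, .ofNat 0, .ofNat 0, .ofNat 0⟩)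
    (by decide +kernel)
theorem L00764 : Good (Phi V4.P V4.D (-1) (-1)) ⟨6, 53, 4, 6, 2, 3, 2, 1, 4, 2⟩ :=
  leaf_sound (S := T4.ds_mm) T4.ok_mm (w := 192) (c := ⟨⟨.negSucc 2930, .negSucc 447, .ofNat 365, .negSucc 142, .ofNat 490, .ofNat 808⟩, ⟨.ofNat 1320, .ofNat 228, .negSucc 79, .ofNat 65, .negSucc 261, .negSucc 416⟩, ⟨.ofNat 1517, .ofNat 131, .ofNat 79, .ofNat 341, .negSucc 448, .negSucc 421⟩, ⟨.negSucc 4513, .negSucc 542, .ofNat 573, .negSucc 272, .ofNat 400, .ofNat 858⟩, ⟨.ofNat 119, .ofNat 233, .ofNat 47, .negSucc 106, .negSucc 764, .negSucc 846⟩, .ofNat 1888, .ofNat 3125, .ofNat 0, .ofNat 3125, .ofNat 6557, .ofNat 0, .ofNat 169, .negSucc 533, .negSucc 770, .ofNat 0, .ofNat 287, .ofNat 385, .ofNat 0, .ofNat 0, .ofNat 670, .ofNat 1406, .ofNat 0, .ofNat 0, .ofNat 116312473451845725908159692800, .ofNat 0, .ofNat 0, .ofNat 0, .ofNat 25279543115308221309485737574400,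 .ofNat 0, .ofNat 0, .ofNat 0, .ofNat 8503125441570421655267495116800, .ofNat 0, .ofNat 0, .ofNat 0, .ofNat 15645140958193367296074212966400, .ofNat 0⟩)
    (by decide +kernel)
theorem L00765 : Good (Phi V4.P V4.D (-1) (-1)) ⟨6, 53, 4, 7, 2, 3, 2, 1, 4, 2⟩ :=
  leaf_sound (S := T4.ds_mm) T4.ok_mm (w := 192) (c := ⟨⟨.negSucc 2489, .negSucc 16, .ofNat 117, .negSucc 187, .ofNat 422, .ofNat 703⟩, ⟨.ofNat 1204, .ofNat 12, .ofNat 32, .ofNat 91, .negSucc 227, .negSucc 370⟩, ⟨.ofNat 1500, .ofNat 95, .negSucc 134, .ofNat 369, .negSucc 412, .negSucc 340⟩, ⟨.negSucc 3831, .ofNat 19, .ofNat 113, .negSucc 335, .ofNat 299, .ofNat 702⟩, ⟨.ofNat 98, .negSucc 9, .negSucc 85, .negSucc 78, .negSucc 716, .negSucc 782⟩, .ofNat 1996, .ofNat 3268, .ofNat 0, .ofNat 3268, .ofNat 6657, .ofNat 0, .ofNat 149, .negSucc 540, .negSucc 820, .ofNat 0, .ofNat 293, .ofNat 421, .ofNat 0, .ofNat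 0, .ofNat 691, .ofNat 1091, .ofNat 0, .ofNat 0, .ofNat 0, .ofNat 0, .ofNat 0, .ofNat 0, .ofNat 11553767614528327884312517017600, .ofNat 0, .ofNat 0, .ofNat 0, .ofNat 3628207359556528462887282278400, .ofNat 0, .ofNat 0, .ofNat 0, .ofNat 0, .ofNat 0⟩)
    (by decide +kernel)
theorem L00766 : Good (Phi V4.P V4.D (-1) (-1)) ⟨5, 26, 3, 3, 2, 3, 2, 1, 4, 3⟩ :=
  leaf_sound (S := T4.ds_mm) T4.ok_mm (w := 184) (c := ⟨⟨.negSucc 2172, .negSucc 40, .ofNat 314, .ofNat 220, .ofNat 581, .ofNat 603⟩, ⟨.ofNat 956, .negSucc 19, .ofNat 42, .negSucc 130, .negSucc 299, .negSucc 313⟩, ⟨.ofNat 1402, .ofNat 29, .negSucc 148, .ofNat 163, .negSucc 594, .negSucc 351⟩, ⟨.negSucc 3523, .ofNat 30, .ofNat 238, .negSucc 13, .ofNat 597, .ofNat 588⟩, ⟨.negSucc 310, .ofNat 120, .negSucc 351, .negSucc 727, .negSucc 639, .negSucc 731⟩, .ofNat 639, .ofNat 705, .ofNat 0, .ofNat 705, .ofNat 1697,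 .ofNat 0, .ofNat 235, .negSucc 432, .negSucc 499, .ofNat 0, .ofNat 266, .ofNat 253, .ofNat 0, .ofNat 0, .ofNat 558, .ofNat 892, .ofNat 0, .ofNat 0, .ofNat 0, .ofNat 0, .ofNat 0, .ofNat 0, .ofNat 0, .ofNat 0, .ofNat 0, .ofNat 0, .ofNat 0, .ofNat 0, .ofNat 0, .ofNat 0, .ofNat 0, .ofNat 0⟩)
    (by decide +kernel)
theorem L00767 : Good (Phi V4.P V4.D (-1) (-1)) ⟨6, 54, 4, 6, 2, 3, 2, 1, 3, 1⟩ :=
  out_sound (S := T4.ds_mm) T4.ok_mm (w := 72) (j := 3) (by decide +kernel)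
theorem L00768 : Good (Phi V4.P V4.D (-1) (-1)) ⟨6, 54, 5, 14, 2, 3, 2, 1, 3, 1⟩ :=
  out_sound (S := T4.ds_mm) T4.ok_mm (w := 72) (j := 3) (by decide +kernel)
theorem L00769 : Good (Phi V4.P V4.D (-1) (-1)) ⟨6, 54, 5, 15, 2, 3, 2, 1, 3, 1⟩ :=
  leaf_sound (S := T4.ds_mm) T4.ok_mm (w := 192) (c := ⟨⟨.negSucc 2710, .negSucc 162, .ofNat 19, .ofNat 159, .ofNat 557, .ofNat 1474⟩, ⟨.ofNat 1377, .ofNat 68, .ofNat 40, .negSucc 91, .negSucc 303, .negSucc 799⟩, ⟨.ofNat 1711, .ofNat 53, .negSucc 59, .ofNat 225, .negSucc 558, .negSucc 782⟩, ⟨.negSucc 4004, .negSucc 215, .negSucc 21, .negSucc 17, .ofNat 501, .ofNat 1447⟩, ⟨.ofNat 287, .ofNat 12, .negSucc 67, .negSucc 500, .negSucc 682, .negSucc 1567⟩, .ofNat 3357, .ofNat 5706, .ofNat 0, .ofNat 5706, .ofNat 10977, .ofNat 0, .ofNat 117, .negSucc 514, .negSucc 635, .ofNat 0, .ofNat 286, .ofNat 340, .ofNat 0, .ofNat 0, .ofNat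 607, .ofNat 893, .ofNat 0, .ofNat 0, .ofNat 6465046570812923221691596800, .ofNat 0, .ofNat 0, .ofNat 0, .ofNat 2909144402822842942720101580800, .ofNat 0, .ofNat 0, .ofNat 0, .ofNat 540377773092146760033868185600, .ofNat 0, .ofNat 0, .ofNat 0, .ofNat 683451639870215416620200755200, .ofNat 0⟩)
    (by decide +kernel)
theorem L00770 : Good (Phi V4.P V4.D (-1) (-1)) ⟨6, 55, 3, 3, 2, 3, 2, 1, 3, 1⟩ :=
  out_sound (S := T4.ds_mm) T4.ok_mm (w := 64) (j := 3) (by decide +kernel)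
theorem L00771 : Good (Phi V4.P V4.D (-1) (-1)) ⟨3, 7, 3, 3, 1, 1, 1, 0, 2, 0⟩ :=
  out_sound (S := T4.ds_mm) T4.ok_mm (w := 48) (j := 3) (by decide +kernel)
theorem L00772 : Good (Phi V4.P V4.D (-1) (-1)) ⟨2, 2, 2, 1, 1, 1, 1, 0, 2, 1⟩ :=
  out_sound (S := T4.ds_mm) T4.ok_mm (w := 40) (j := 3) (by decide +kernel)
theorem L00773 : Good (Phi V4.P V4.D (-1) (-1)) ⟨4, 12, 3, 2, 2, 2, 1, 0, 3, 2⟩ :=
  leaf_sound (S := T4.ds_mm) T4.ok_mm (w := 176) (c := ⟨⟨.negSucc 1588, .negSucc 81, .ofNat 140, .ofNat 14, .ofNat 518, .ofNat 329⟩, ⟨.ofNat 553, .ofNat 4, .ofNat 86, .negSucc 42, .negSucc 225, .negSucc 141⟩, ⟨.ofNat 1486, .ofNat 61, .negSucc 136, .negSucc 107, .negSucc 758, .negSucc 150⟩, ⟨.negSucc 2673, .negSucc 24, .ofNat 125, .negSucc 258, .ofNat 637, .ofNat 407⟩, ⟨.negSucc 82, .ofNat 12, .negSucc 61, .negSucc 759, .negSucc 548, .negSucc 354⟩, .ofNat 525, .ofNat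 509, .ofNat 0, .ofNat 509, .ofNat 1593, .ofNat 0, .ofNat 428, .negSucc 447, .negSucc 538, .ofNat 0, .ofNat 308, .ofNat 226, .ofNat 0, .ofNat 0, .ofNat 975, .ofNat 4262, .ofNat 0, .ofNat 0, .ofNat 0, .ofNat 0, .ofNat 0, .ofNat 0, .ofNat 0, .ofNat 0, .ofNat 105975879470426908138991308819660800, .ofNat 0, .ofNat 0, .ofNat 0, .ofNat 0, .ofNat 0, .ofNat 0, .ofNat 0⟩)
    (by decide +kernel)
theorem L00774 : Good (Phi V4.P V4.D (-1) (-1)) ⟨4, 12, 3, 3, 2, 2, 1, 0, 3, 2⟩ :=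
  leaf_sound (S := T4.ds_mm) T4.ok_mm (w := 176) (c := ⟨⟨.negSucc 1669, .ofNat 13, .ofNat 189, .ofNat 102, .ofNat 579, .ofNat 355⟩, ⟨.ofNat 765, .negSucc 55, .ofNat 60, .negSucc 73, .negSucc 271, .negSucc 165⟩, ⟨.ofNat 1428, .ofNat 92, .negSucc 147, .negSucc 150, .negSucc 818, .negSucc 175⟩, ⟨.negSucc 2704, .ofNat 3, .ofNat 234, .negSucc 207, .ofNat 697, .ofNat 425⟩, ⟨.ofNat 71, .negSucc 201, .negSucc 18, .negSucc 848, .negSucc 524, .negSucc 327⟩, .ofNat 1018, .ofNat 1505, .ofNat 0, .ofNat 1505, .ofNat 3611, .ofNat 0, .ofNat 301, .negSucc 546, .negSucc 565, .ofNat 0, .ofNat 311, .ofNat 262, .ofNat 0, .ofNat 0, .ofNat 975, .ofNat 3469, .ofNat 514762205988252984450583678156800, .ofNat 0, .ofNat 1659643204296756496328294400, .ofNat 0, .ofNat 0, .ofNat 0, .ofNat 0, .ofNat 0, .ofNat 120287222654322731246457656338022400, .ofNat 0, .ofNat 209516806990960133845863628800,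 .ofNat 0, .ofNat 0, .ofNat 0, .ofNat 0, .ofNat 0⟩)
    (by decide +kernel)
theorem L00775 : Good (Phi V4.P V4.D (-1) (-1)) ⟨4, 12, 2, 1, 2, 2, 1, 0, 3, 3⟩ :=
  leaf_sound (S := T4.ds_mm) T4.ok_mm (w := 168) (c := ⟨⟨.negSucc 1326, .negSucc 37, .ofNat 165, .ofNat 106, .ofNat 540, .ofNat 219⟩, ⟨.ofNat 454, .negSucc 37, .ofNat 200, .negSucc 81, .negSucc 227, .negSucc 86⟩, ⟨.ofNat 1407, .ofNat 28, .negSucc 150, .negSucc 128, .negSucc 874, .negSucc 146⟩, ⟨.negSucc 2349, .negSucc 32, .ofNat 124, .negSucc 147, .ofNat 747, .ofNat 313⟩, ⟨.negSucc 442, .negSucc 69, .negSucc 25, .negSucc 842, .negSucc 360, .negSucc 123⟩, .ofNat 530, .ofNat 519, .ofNat 0, .ofNat 519, .ofNat 1599, .ofNat 0, .ofNat 358, .negSucc 354, .negSucc 368, .ofNat 0, .ofNat 258, .ofNat 156, .ofNat 0, .ofNat 0, .ofNat 871, .ofNat 3130, .ofNat 0, .ofNat 0, .ofNat 0, .ofNat 0, .ofNat 0, .ofNat 0, .ofNat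 0, .ofNat 0, .ofNat 46200661829791352856920895101337600, .ofNat 16089567411537982384555653542707200, .ofNat 0, .ofNat 0, .ofNat 0, .ofNat 0, .ofNat 0, .ofNat 0⟩)
    (by decide +kernel)
theorem L00776 : Good (Phi V4.P V4.D (-1) (-1)) ⟨5, 26, 2, 1, 2, 2, 2, 0, 3, 2⟩ :=
  leaf_sound (S := T4.ds_mm) T4.ok_mm (w := 176) (c := ⟨⟨.negSucc 1717, .negSucc 40, .ofNat 157, .ofNat 78, .ofNat 225, .ofNat 399⟩, ⟨.ofNat 621, .ofNat 15, .ofNat 199, .negSucc 62, .negSucc 119, .negSucc 204⟩, ⟨.ofNat 1545, .ofNat 18, .negSucc 117, .negSucc 163, .negSucc 342, .negSucc 184⟩, ⟨.negSucc 2625, .negSucc 10, .ofNat 60, .negSucc 260, .ofNat 206, .ofNat 431⟩, ⟨.ofNat 12, .ofNat 6, .negSucc 144, .negSucc 799, .negSucc 308, .negSucc 407⟩, .ofNat 1175, .ofNat 1725, .ofNat 0, .ofNat 1725, .ofNat 3754, .ofNat 0, .ofNat 275, .negSucc 586, .negSucc 552, .ofNat 0, .ofNat 344, .ofNat 282, .ofNat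 0, .ofNat 0, .ofNat 965, .ofNat 5017, .ofNat 0, .ofNat 0, .ofNat 0, .ofNat 0, .ofNat 0, .ofNat 0, .ofNat 1132158824990155737965946470400, .ofNat 0, .ofNat 5926766562904946077425147648462028800, .ofNat 0, .ofNat 458916873116547535536232857600, .ofNat 0, .ofNat 0, .ofNat 0, .ofNat 0, .ofNat 0⟩)
    (by decide +kernel)
theorem L00777 : Good (Phi V4.P V4.D (-1) (-1)) ⟨5, 26, 2, 1, 2, 2, 2, 1, 3, 2⟩ :=
  leaf_sound (S := T4.ds_mm) T4.ok_mm (w := 176) (c := ⟨⟨.negSucc 1622, .negSucc 33, .ofNat 237, .ofNat 162, .ofNat 401, .ofNat 436⟩, ⟨.ofNat 558, .negSucc 15, .ofNat 189, .negSucc 105, .negSucc 200, .negSucc 221⟩, ⟨.ofNat 1329, .ofNat 31, .negSucc 223, .negSucc 201, .negSucc 482, .negSucc 258⟩, ⟨.negSucc 2603, .negSucc 49, .ofNat 219, .negSucc 177, .ofNat 487, .ofNat 508⟩, ⟨.negSucc 329, .negSucc 58, .ofNat 7, .negSucc 907, .negSucc 293, .negSucc 367⟩, .ofNat 633,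 .ofNat 696, .ofNat 0, .ofNat 696, .ofNat 1691, .ofNat 0, .ofNat 369, .negSucc 535, .negSucc 640, .ofNat 0, .ofNat 358, .ofNat 320, .ofNat 0, .ofNat 0, .ofNat 1004, .ofNat 6545, .ofNat 0, .ofNat 0, .ofNat 0, .ofNat 0, .ofNat 0, .ofNat 97491663366512037512042289247027200, .ofNat 748698615443584723810516992000, .ofNat 0, .ofNat 0, .ofNat 148469383496892329984685453292339200, .ofNat 323091088531471199627535974400, .ofNat 0, .ofNat 0, .ofNat 0, .ofNat 0, .ofNat 0⟩)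
    (by decide +kernel)
theorem L00778 : Good (Phi V4.P V4.D (-1) (-1)) ⟨5, 27, 3, 2, 2, 2, 1, 0, 3, 2⟩ :=
  out_sound (S := T4.ds_mm) T4.ok_mm (w := 64) (j := 3) (by decide +kernel)
theorem L00779 : Good (Phi V4.P V4.D (-1) (-1)) ⟨5, 27, 4, 6, 2, 2, 1, 0, 3, 2⟩ :=
  out_sound (S := T4.ds_mm) T4.ok_mm (w := 64) (j := 3) (by decide +kernel)
theorem L00780 : Good (Phi V4.P V4.D (-1) (-1)) ⟨5, 27, 4, 7, 2, 2, 2, 0, 3, 2⟩ :=
  leaf_sound (S := T4.ds_mm) T4.ok_mm (w := 184) (c := ⟨⟨.negSucc 1697, .ofNat 0, .ofNat 42, .ofNat 153, .ofNat 237, .ofNat 437⟩, ⟨.ofNat 819, .negSucc 16, .ofNat 50, .negSucc 96, .negSucc 129, .negSucc 236⟩, ⟨.ofNat 1468, .negSucc 50, .negSucc 7, .negSucc 195, .negSucc 337, .negSucc 203⟩, ⟨.negSucc 2608, .ofNat 49, .ofNat 19, .negSucc 224, .ofNat 202, .ofNat 446⟩, ⟨.negSucc 39, .ofNat 20, .negSucc 38, .negSucc 880, .negSucc 310, .negSucc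 432⟩, .ofNat 2451, .ofNat 4016, .ofNat 0, .ofNat 4016, .ofNat 7816, .ofNat 0, .ofNat 195, .negSucc 629, .negSucc 566, .ofNat 0, .ofNat 361, .ofNat 306, .ofNat 0, .ofNat 0, .ofNat 959, .ofNat 14266, .ofNat 0, .ofNat 0, .ofNat 0, .ofNat 0, .ofNat 35315805659118699397349230954256793600, .ofNat 2599468906369839505377641875950796800, .ofNat 19257371061738146418086903808000, .ofNat 0, .ofNat 86290501702059692010603504555628953600, .ofNat 0, .ofNat 8156842335865463659784935833600, .ofNat 0, .ofNat 0, .ofNat 0, .ofNat 14399784335065552420007942553600, .ofNat 0⟩)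
    (by decide +kernel)
theorem L00781 : Good (Phi V4.P V4.D (-1) (-1)) ⟨5, 27, 4, 7, 2, 2, 2, 1, 3, 2⟩ :=
  leaf_sound (S := T4.ds_mm) T4.ok_mm (w := 184) (c := ⟨⟨.negSucc 1473, .ofNat 217, .negSucc 12, .ofNat 263, .ofNat 441, .ofNat 433⟩, ⟨.ofNat 693, .negSucc 152, .ofNat 82, .negSucc 156, .negSucc 235, .negSucc 231⟩, ⟨.ofNat 1215, .negSucc 216, .negSucc 11, .negSucc 261, .negSucc 522, .negSucc 279⟩, ⟨.negSucc 2489, .ofNat 293, .negSucc 2, .negSucc 111, .ofNat 534, .ofNat 503⟩, ⟨.negSucc 494, .negSucc 114, .ofNat 101, .negSucc 988, .negSucc 274, .negSucc 310⟩, .ofNat 3329, .ofNat 5652, .ofNat 0, .ofNat 5652, .ofNat 10876, .ofNat 0, .ofNat 181, .negSucc 618, .negSucc 660, .ofNat 0, .ofNat 352, .ofNat 353, .ofNat 0, .ofNat 0, .ofNat 1006, .ofNat 3088, .ofNat 0, .ofNat 0, .ofNat 67119164685693821214366105600, .ofNat 0, .ofNat 0, .ofNat 1115362716845630625625795773176217600,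 .ofNat 26536340742004508860527044198400, .ofNat 0, .ofNat 0, .ofNat 0, .ofNat 14251512056369668073925378048000, .ofNat 0, .ofNat 0, .ofNat 0, .ofNat 17847995356778351827782677299200, .ofNat 0⟩)
    (by decide +kernel)
theorem L00782 : Good (Phi V4.P V4.D (-1) (-1)) ⟨4, 13, 2, 1, 2, 2, 1, 0, 3, 3⟩ :=
  leaf_sound (S := T4.ds_mm) T4.ok_mm (w := 168) (c := ⟨⟨.negSucc 1468, .ofNat 43, .ofNat 110, .ofNat 246, .ofNat 678, .ofNat 244⟩, ⟨.ofNat 528, .negSucc 63, .ofNat 182, .negSucc 144, .negSucc 343, .negSucc 121⟩, ⟨.ofNat 1496, .negSucc 52, .negSucc 87, .negSucc 225, .negSucc 975, .negSucc 160⟩, ⟨.negSucc 2462, .ofNat 20, .ofNat 67, .negSucc 92, .ofNat 889, .ofNat 328⟩, ⟨.negSucc 505, .negSucc 119, .ofNat 4, .negSucc 977, .negSucc 354, .negSucc 113⟩, .ofNat 347, .ofNat 225, .ofNat 0, .ofNat 225, .ofNat 676, .ofNat 0, .ofNat 423, .negSucc 351, .negSucc 458, .ofNat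 0, .ofNat 349, .ofNat 237, .ofNat 0, .ofNat 0, .ofNat 900, .ofNat 3060, .ofNat 0, .ofNat 0, .ofNat 0, .ofNat 0, .ofNat 0, .ofNat 0, .ofNat 0, .ofNat 0, .ofNat 43058969013492772963789662742118400, .ofNat 34387656538992836832029762283110400, .ofNat 182388963826890630608663347200, .ofNat 0, .ofNat 0, .ofNat 0, .ofNat 0, .ofNat 0⟩)
    (by decide +kernel)
theorem L00783 : Good (Phi V4.P V4.D (-1) (-1)) ⟨3, 7, 2, 1, 2, 2, 1, 0, 2, 1⟩ :=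
  out_sound (S := T4.ds_mm) T4.ok_mm (w := 48) (j := 3) (by decide +kernel)
theorem L00784 : Good (Phi V4.P V4.D (-1) (-1)) ⟨5, 24, 4, 4, 2, 3, 1, 0, 4, 4⟩ :=
  leaf_sound (S := T4.ds_mm) T4.ok_mm (w := 184) (c := ⟨⟨.negSucc 1705, .negSucc 8, .ofNat 46, .negSucc 24, .ofNat 534, .ofNat 272⟩, ⟨.ofNat 559, .negSucc 36, .ofNat 87, .negSucc 34, .negSucc 212, .negSucc 112⟩, ⟨.ofNat 1428, .ofNat 58, .negSucc 83, .ofNat 400, .negSucc 945, .negSucc 116⟩, ⟨.negSucc 3049, .ofNat 9, .ofNat 16, .negSucc 377, .ofNat 663, .ofNat 307⟩, ⟨.negSucc 498, .negSucc 49, .negSucc 33, .negSucc 983, .negSucc 689, .negSucc 433⟩, .ofNat 509, .ofNat 481, .ofNat 0, .ofNat 481, .ofNat 1645, .ofNat 0, .ofNat 511, .negSucc 585, .negSucc 478, .ofNat 0, .ofNat 371, .ofNat 190, .ofNat 0, .ofNat 0, .ofNat 958, .ofNat 1472, .ofNat 0, .ofNat 0, .ofNat 0, .ofNat 0, .ofNat 0, .ofNat 0, .ofNat 0,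 .ofNat 0, .ofNat 0, .ofNat 18391594676282934890117427821857996800, .ofNat 0, .ofNat 0, .ofNat 0, .ofNat 17375934248972929702351037446225920000, .ofNat 0, .ofNat 0⟩)
    (by decide +kernel)
theorem L00785 : Good (Phi V4.P V4.D (-1) (-1)) ⟨5, 24, 4, 5, 2, 3, 1, 0, 4, 4⟩ :=
  out_sound (S := T4.ds_mm) T4.ok_mm (w := 64) (j := 3) (by decide +kernel)
theorem L00786 : Good (Phi V4.P V4.D (-1) (-1)) ⟨5, 25, 4, 4, 3, 6, 1, 0, 4, 4⟩ :=
  leaf_sound (S := T4.ds_mm) T4.ok_mm (w := 192) (c := ⟨⟨.negSucc 1767, .negSucc 29, .ofNat 54, .negSucc 26, .ofNat 595, .ofNat 327⟩, ⟨.ofNat 574, .negSucc 23, .ofNat 74, .negSucc 14, .negSucc 269, .negSucc 149⟩, ⟨.ofNat 1462, .ofNat 32, .negSucc 57, .ofNat 98, .negSucc 832, .negSucc 115⟩, ⟨.negSucc 3081, .negSucc 11, .ofNat 29, .negSucc 199, .ofNat 682, .ofNat 377⟩, ⟨.negSucc 561, .negSucc 22, .negSucc 31, .negSucc 410, .negSucc 771,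 .negSucc 412⟩, .ofNat 750, .ofNat 977, .ofNat 0, .ofNat 977, .ofNat 2720, .ofNat 0, .ofNat 432, .negSucc 643, .negSucc 563, .ofNat 0, .ofNat 369, .ofNat 244, .ofNat 0, .ofNat 0, .ofNat 973, .ofNat 5975, .ofNat 0, .ofNat 0, .ofNat 0, .ofNat 0, .ofNat 0, .ofNat 0, .ofNat 5359428805738955758631832571084800, .ofNat 0, .ofNat 6733143677832875188708707738923198054400, .ofNat 0, .ofNat 1813503504775768764595493142528000, .ofNat 0, .ofNat 0, .ofNat 0, .ofNat 0, .ofNat 0⟩)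
    (by decide +kernel)
theorem L00787 : Good (Phi V4.P V4.D (-1) (-1)) ⟨5, 25, 4, 4, 3, 7, 1, 0, 4, 4⟩ :=
  leaf_sound (S := T4.ds_mm) T4.ok_mm (w := 192) (c := ⟨⟨.negSucc 1790, .negSucc 8, .ofNat 79, .ofNat 46, .ofNat 559, .ofNat 343⟩, ⟨.ofNat 552, .negSucc 47, .ofNat 78, .negSucc 61, .negSucc 241, .negSucc 162⟩, ⟨.ofNat 1644, .negSucc 78, .ofNat 56, .ofNat 446, .negSucc 1256, .negSucc 110⟩, ⟨.negSucc 3248, .ofNat 44, .ofNat 14, .negSucc 202, .ofNat 715, .ofNat 354⟩, ⟨.negSucc 904, .ofNat 50, .negSucc 147, .negSucc 756, .negSucc 545, .negSucc 571⟩, .ofNat 1011, .ofNat 1584, .ofNat 0, .ofNat 1584, .ofNat 4239, .ofNat 0, .ofNat 427, .negSucc 695, .negSucc 388, .ofNat 0, .ofNat 399, .ofNat 162, .ofNat 0, .ofNat 0, .ofNat 963, .ofNat 2220, .ofNat 0, .ofNat 0, .ofNat 0, .ofNat 0, .ofNat 273710458406186105534253774942083481600, .ofNat 0, .ofNat 4470482844576162692686579079577600,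 .ofNat 0, .ofNat 0, .ofNat 1648191221464295604189146441324691456000, .ofNat 2557607974032587869858890881433600, .ofNat 0, .ofNat 0, .ofNat 0, .ofNat 557937204468612041350236340224000, .ofNat 0⟩)
    (by decide +kernel)
theorem L00788 : Good (Phi V4.P V4.D (-1) (-1)) ⟨5, 25, 4, 5, 2, 3, 2, 0, 4, 4⟩ :=
  leaf_sound (S := T4.ds_mm) T4.ok_mm (w := 192) (c := ⟨⟨.negSucc 1733, .negSucc 6, .ofNat 85, .ofNat 77, .ofNat 204, .ofNat 349⟩, ⟨.ofNat 659, .negSucc 35, .ofNat 62, .negSucc 84, .negSucc 95, .negSucc 162⟩, ⟨.ofNat 1372, .ofNat 13, .negSucc 13, .ofNat 615, .negSucc 504, .negSucc 165⟩, ⟨.negSucc 3005, .ofNat 13, .ofNat 41, .negSucc 362, .ofNat 216, .ofNat 355⟩, ⟨.negSucc 479, .negSucc 52, .negSucc 107, .negSucc 1183, .negSucc 278, .negSucc 515⟩, .ofNat 1366, .ofNat 2336, .ofNat 0, .ofNat 2336, .ofNat 5736, .ofNat 0, .ofNat 359, .negSucc 728, .negSucc 442, .ofNat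 0, .ofNat 393, .ofNat 198, .ofNat 0, .ofNat 0, .ofNat 953, .ofNat 1677, .ofNat 0, .ofNat 0, .ofNat 0, .ofNat 0, .ofNat 0, .ofNat 5016582789589548955806438238086758400, .ofNat 89579145827875540996500907622400, .ofNat 0, .ofNat 0, .ofNat 20762805384774941287981203987628032000, .ofNat 32188865971867161856621255065600, .ofNat 0, .ofNat 0, .ofNat 0, .ofNat 0, .ofNat 0⟩)
    (by decide +kernel)
theorem L00789 : Good (Phi V4.P V4.D (-1) (-1)) ⟨5, 25, 4, 5, 2, 3, 2, 1, 4, 4⟩ :=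
  leaf_sound (S := T4.ds_mm) T4.ok_mm (w := 184) (c := ⟨⟨.negSucc 1545, .ofNat 53, .ofNat 61, .ofNat 128, .ofNat 426, .ofNat 315⟩, ⟨.ofNat 571, .negSucc 89, .ofNat 82, .negSucc 96, .negSucc 187, .negSucc 141⟩, ⟨.ofNat 1109, .negSucc 35, .negSucc 27, .ofNat 136, .negSucc 539, .negSucc 151⟩, ⟨.negSucc 2871, .ofNat 72, .ofNat 11, .negSucc 198, .ofNat 531, .ofNat 347⟩, ⟨.negSucc 904, .negSucc 92, .negSucc 59, .negSucc 1007, .negSucc 408, .negSucc 422⟩, .ofNat 880, .ofNat 1253, .ofNat 0, .ofNat 1253, .ofNat 3248, .ofNat 0, .ofNat 396, .negSucc 693, .negSucc 595, .ofNat 0, .ofNat 384, .ofNat 264, .ofNat 0, .ofNat 0, .ofNat 978, .ofNat 4612, .ofNat 0, .ofNat 0, .ofNat 0, .ofNat 0, .ofNat 0, .ofNat 0, .ofNat 0, .ofNat 0, .ofNat 0, .ofNat 43490067702501615740509602900344832000, .ofNat 26492294130683065810607407104000, .ofNat 0, .ofNat 0, .ofNat 0, .ofNat 0, .ofNat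 0⟩)
    (by decide +kernel)
theorem L00790 : Good (Phi V4.P V4.D (-1) (-1)) ⟨5, 24, 4, 6, 2, 3, 1, 0, 4, 4⟩ :=
  out_sound (S := T4.ds_mm) T4.ok_mm (w := 64) (j := 3) (by decide +kernel)
theorem L00791 : Good (Phi V4.P V4.D (-1) (-1)) ⟨6, 50, 4, 6, 2, 3, 1, 0, 4, 4⟩ :=
  out_sound (S := T4.ds_mm) T4.ok_mm (w := 72) (j := 3) (by decide +kernel)
theorem L00792 : Good (Phi V4.P V4.D (-1) (-1)) ⟨6, 51, 4, 6, 3, 6, 1, 0, 4, 4⟩ :=
  leaf_sound (S := T4.ds_mm) T4.ok_mm (w := 200) (c := ⟨⟨.negSucc 1725, .negSucc 23, .ofNat 30, .ofNat 82, .ofNat 692, .ofNat 323⟩, ⟨.ofNat 744, .negSucc 18, .ofNat 88, .negSucc 55, .negSucc 328, .negSucc 155⟩, ⟨.ofNat 1457, .ofNat 1, .negSucc 5, .ofNat 58, .negSucc 929, .negSucc 124⟩, ⟨.negSucc 3025, .negSucc 57, .ofNat 8, .negSucc 100, .ofNat 774, .ofNat 331⟩, ⟨.negSucc 583, .negSucc 76, .ofNat 18, .negSucc 530, .negSucc 767, .negSucc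 423⟩, .ofNat 1393, .ofNat 2305, .ofNat 0, .ofNat 2305, .ofNat 5367, .ofNat 0, .ofNat 313, .negSucc 715, .negSucc 563, .ofNat 0, .ofNat 382, .ofNat 264, .ofNat 0, .ofNat 0, .ofNat 960, .ofNat 4719, .ofNat 0, .ofNat 0, .ofNat 0, .ofNat 0, .ofNat 0, .ofNat 0, .ofNat 0, .ofNat 0, .ofNat 0, .ofNat 0, .ofNat 0, .ofNat 0, .ofNat 0, .ofNat 0, .ofNat 0, .ofNat 0⟩)
    (by decide +kernel)
theorem L00793 : Good (Phi V4.P V4.D (-1) (-1)) ⟨6, 51, 4, 6, 3, 7, 1, 0, 4, 4⟩ :=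
  leaf_sound (S := T4.ds_mm) T4.ok_mm (w := 200) (c := ⟨⟨.negSucc 1661, .negSucc 85, .ofNat 134, .ofNat 133, .ofNat 748, .ofNat 319⟩, ⟨.ofNat 703, .ofNat 6, .ofNat 48, .negSucc 88, .negSucc 349, .negSucc 160⟩, ⟨.ofNat 1694, .negSucc 20, .ofNat 167, .ofNat 439, .negSucc 1359, .negSucc 82⟩, ⟨.negSucc 3164, .negSucc 63, .ofNat 0, .negSucc 177, .ofNat 915, .ofNat 236⟩, ⟨.negSucc 1148, .ofNat 148, .negSucc 351, .negSucc 900, .negSucc 647, .negSucc 627⟩, .ofNat 1783, .ofNat 3150, .ofNat 0, .ofNat 3150, .ofNat 7227, .ofNat 0, .ofNat 325, .negSucc 774, .negSucc 476, .ofNat 0, .ofNat 416, .ofNat 222, .ofNat 0, .ofNat 0, .ofNat 962, .ofNat 1509, .ofNat 0, .ofNat 0, .ofNat 0, .ofNat 0, .ofNat 0, .ofNat 0, .ofNat 0, .ofNat 0, .ofNat 0, .ofNat 0, .ofNat 0, .ofNat 0, .ofNat 0, .ofNat 41377265034611066300828981671357317120000, .ofNat 0, .ofNat 0⟩)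
    (by decide +kernel)
theorem L00794 : Good (Phi V4.P V4.D (-1) (-1)) ⟨4, 12, 4, 7, 2, 3, 1, 0, 4, 4⟩ :=
  out_sound (S := T4.ds_mm) T4.ok_mm (w := 56) (j := 3) (by decide +kernel)
theorem L00795 : Good (Phi V4.P V4.D (-1) (-1)) ⟨5, 26, 4, 4, 2, 3, 1, 0, 4, 4⟩ :=
  out_sound (S := T4.ds_mm) T4.ok_mm (w := 64) (j := 3) (by decide +kernel)
theorem L00796 : Good (Phi V4.P V4.D (-1) (-1)) ⟨5, 26, 4, 5, 2, 3, 1, 0, 4, 4⟩ :=
  leaf_sound (S := T4.ds_mm) T4.ok_mm (w := 184) (c := ⟨⟨.negSucc 1978, .ofNat 54, .ofNat 197, .ofNat 220, .ofNat 727, .ofNat 339⟩, ⟨.ofNat 735, .negSucc 112, .ofNat 21, .negSucc 163, .negSucc 349, .negSucc 170⟩, ⟨.ofNat 1760, .ofNat 429, .negSucc 265, .ofNat 472, .negSucc 1164, .negSucc 182⟩, ⟨.negSucc 3398, .negSucc 234, .ofNat 320, .negSucc 247, .ofNat 857, .ofNat 338⟩, ⟨.negSucc 671, .negSucc 788, .ofNat 127, .negSucc 1371, .negSucc 689,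 .negSucc 464⟩, .ofNat 1362, .ofNat 2197, .ofNat 0, .ofNat 2197, .ofNat 5058, .ofNat 0, .ofNat 357, .negSucc 735, .negSucc 528, .ofNat 0, .ofNat 417, .ofNat 253, .ofNat 0, .ofNat 0, .ofNat 967, .ofNat 1063, .ofNat 0, .ofNat 0, .ofNat 36543492476202600659681280000, .ofNat 0, .ofNat 0, .ofNat 0, .ofNat 64300506551043169659525896601600, .ofNat 0, .ofNat 0, .ofNat 5272003130877996479559369215705088000, .ofNat 12930053411121031396766357913600, .ofNat 0, .ofNat 0, .ofNat 0, .ofNat 4465256702339817135538805145600, .ofNat 0⟩)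
    (by decide +kernel)
theorem L00797 : Good (Phi V4.P V4.D (-1) (-1)) ⟨5, 27, 3, 2, 2, 3, 1, 0, 4, 4⟩ :=
  out_sound (S := T4.ds_mm) T4.ok_mm (w := 64) (j := 3) (by decide +kernel)
theorem L00798 : Good (Phi V4.P V4.D (-1) (-1)) ⟨5, 26, 4, 6, 3, 6, 1, 0, 4, 4⟩ :=
  leaf_sound (S := T4.ds_mm) T4.ok_mm (w := 192) (c := ⟨⟨.negSucc 1775, .negSucc 20, .ofNat 112, .ofNat 67, .ofNat 756, .ofNat 286⟩, ⟨.ofNat 757, .negSucc 45, .ofNat 46, .negSucc 48, .negSucc 381, .negSucc 148⟩, ⟨.ofNat 1449, .negSucc 28, .negSucc 39, .ofNat 78, .negSucc 954, .negSucc 96⟩, ⟨.negSucc 3053, .ofNat 36, .ofNat 62, .negSucc 148, .ofNat 814, .ofNat 247⟩, ⟨.negSucc 593, .ofNat 69, .negSucc 132, .negSucc 546, .negSucc 809, .negSucc 434⟩, .ofNat 1085, .ofNat 1576, .ofNat 0, .ofNat 1576, .ofNat 3546, .ofNat 0, .ofNat 331, .negSucc 725, .negSucc 590, .ofNat 0, .ofNat 416, .ofNat 295, .ofNat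 0, .ofNat 0, .ofNat 964, .ofNat 2224, .ofNat 0, .ofNat 0, .ofNat 0, .ofNat 0, .ofNat 2964496939310685867278579204402184192000, .ofNat 0, .ofNat 6976251399337252988632785380966400, .ofNat 0, .ofNat 6099471873646435030606920694364110848000, .ofNat 0, .ofNat 3116458443464569137668329517875200, .ofNat 0, .ofNat 0, .ofNat 0, .ofNat 0, .ofNat 0⟩)
    (by decide +kernel)
theorem L00799 : Good (Phi V4.P V4.D (-1) (-1)) ⟨5, 26, 4, 6, 3, 7, 1, 0, 4, 4⟩ :=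
  leaf_sound (S := T4.ds_mm) T4.ok_mm (w := 192) (c := ⟨⟨.negSucc 1710, .ofNat 205, .ofNat 8, .ofNat 177, .ofNat 689, .ofNat 336⟩, ⟨.ofNat 706, .negSucc 198, .ofNat 126, .negSucc 124, .negSucc 334, .negSucc 182⟩, ⟨.ofNat 1653, .ofNat 164, .negSucc 89, .ofNat 599, .negSucc 1486, .negSucc 42⟩, ⟨.negSucc 3121, .ofNat 87, .negSucc 5, .negSucc 250, .ofNat 875, .ofNat 179⟩, ⟨.negSucc 980, .negSucc 533, .ofNat 94, .negSucc 1149, .negSucc 462, .negSucc 761⟩, .ofNat 1508, .ofNat 2436, .ofNat 0, .ofNat 2436, .ofNat 5344, .ofNat 0, .ofNat 323, .negSucc 794, .negSucc 441, .ofNat 0, .ofNat 453, .ofNat 218, .ofNat 0, .ofNat 0, .ofNat 965, .ofNat 1559, .ofNat 0, .ofNat 0, .ofNat 0, .ofNat 0, .ofNat 0, .ofNat 3506202001949120326082407455237183897600, .ofNat 6393405250489883504513233453056000, .ofNat 0, .ofNat 0, .ofNat 0, .ofNat 2735726237787819897818977193164800, .ofNat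 0, .ofNat 0, .ofNat 0, .ofNat 0, .ofNat 0⟩)
    (by decide +kernel)
theorem L00800 : Good (Phi V4.P V4.D (-1) (-1)) ⟨7, 104, 4, 7, 2, 3, 1, 0, 4, 4⟩ :=
  out_sound (S := T4.ds_mm) T4.ok_mm (w := 72) (j := 3) (by decide +kernel)
theorem L00801 : Good (Phi V4.P V4.D (-1) (-1)) ⟨7, 105, 4, 7, 3, 6, 1, 0, 4, 4⟩ :=
  leaf_sound (S := T4.ds_mm) T4.ok_mm (w := 200) (c := ⟨⟨.negSucc 1837, .ofNat 141, .ofNat 340, .ofNat 40, .ofNat 778, .ofNat 363⟩, ⟨.ofNat 872, .negSucc 79, .negSucc 84, .negSucc 32, .negSucc 394, .negSucc 186⟩, ⟨.ofNat 1482, .negSucc 64, .negSucc 145, .ofNat 95, .negSucc 965, .negSucc 160⟩, ⟨.negSucc 3230, .ofNat 238, .ofNat 386, .negSucc 187, .ofNat 836, .ofNat 354⟩, ⟨.negSucc 711, .ofNat 21, .negSucc 218, .negSucc 522, .negSucc 799, .negSucc 449⟩, .ofNat 648, .ofNat 724, .ofNat 0, .ofNat 724, .ofNat 1746, .ofNat 0, .ofNat 412, .negSucc 709, .negSucc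 627, .ofNat 0, .ofNat 450, .ofNat 323, .ofNat 0, .ofNat 0, .ofNat 974, .ofNat 1687, .ofNat 0, .ofNat 0, .ofNat 13174248383542610889642344448000, .ofNat 0, .ofNat 0, .ofNat 0, .ofNat 0, .ofNat 0, .ofNat 0, .ofNat 0, .ofNat 0, .ofNat 0, .ofNat 0, .ofNat 0, .ofNat 0, .ofNat 0⟩)
    (by decide +kernel)
theorem L00802 : Good (Phi V4.P V4.D (-1) (-1)) ⟨7, 105, 4, 7, 3, 7, 1, 0, 4, 4⟩ :=
  leaf_sound (S := T4.ds_mm) T4.ok_mm (w := 208) (c := ⟨⟨.negSucc 1617, .ofNat 14, .negSucc 31, .ofNat 161, .ofNat 728, .ofNat 350⟩, ⟨.ofNat 742, .negSucc 11, .ofNat 117, .negSucc 104, .negSucc 355, .negSucc 185⟩, ⟨.ofNat 2163, .negSucc 394, .negSucc 9, .ofNat 481, .negSucc 1645, .negSucc 127⟩, ⟨.negSucc 3430, .ofNat 306, .negSucc 196, .negSucc 241, .ofNat 1014, .ofNat 223⟩, ⟨.negSucc 1865, .ofNat 594, .negSucc 175, .negSucc 1030, .negSucc 266, .negSucc 678⟩, .ofNat 2579, .ofNat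 4540, .ofNat 0, .ofNat 4540, .ofNat 9466, .ofNat 0, .ofNat 274, .negSucc 814, .negSucc 463, .ofNat 0, .ofNat 452, .ofNat 233, .ofNat 0, .ofNat 0, .ofNat 969, .ofNat 1470, .ofNat 0, .ofNat 0, .ofNat 22750497920177895767357679206400, .ofNat 0, .ofNat 0, .ofNat 0, .ofNat 0, .ofNat 0, .ofNat 0, .ofNat 0, .ofNat 2054076777216305400160873296691200, .ofNat 0, .ofNat 0, .ofNat 746945211279383964395180568386852408524800, .ofNat 0, .ofNat 0⟩)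
    (by decide +kernel)
theorem L00803 : Good (Phi V4.P V4.D (-1) (-1)) ⟨6, 53, 4, 7, 3, 6, 2, 0, 4, 4⟩ :=
  leaf_sound (S := T4.ds_mm) T4.ok_mm (w := 200) (c := ⟨⟨.negSucc 1668, .ofNat 12, .ofNat 67, .ofNat 105, .ofNat 240, .ofNat 349⟩, ⟨.ofNat 787, .negSucc 31, .ofNat 67, .negSucc 67, .negSucc 127, .negSucc 187⟩, ⟨.ofNat 1343, .ofNat 3, .negSucc 22, .ofNat 164, .negSucc 434, .negSucc 93⟩, ⟨.negSucc 2902, .ofNat 17, .ofNat 19, .negSucc 134, .ofNat 202, .ofNat 279⟩, ⟨.negSucc 649, .negSucc 33, .negSucc 79, .negSucc 590, .negSucc 338, .negSucc 521⟩, .ofNat 1312, .ofNat 1951, .ofNat 0, .ofNat 1951, .ofNat 4082, .ofNat 0, .ofNat 290, .negSucc 768, .negSucc 502, .ofNat 0, .ofNat 448, .ofNat 266, .ofNat 0, .ofNat 0, .ofNat 936, .ofNat 14363, .ofNat 0, .ofNat 0, .ofNat 0, .ofNat 0, .ofNat 0, .ofNat 0, .ofNat 0, .ofNat 0, .ofNat 0, .ofNat 0, .ofNat 0, .ofNat 0,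 .ofNat 0, .ofNat 0, .ofNat 0, .ofNat 0⟩)
    (by decide +kernel)
theorem L00804 : Good (Phi V4.P V4.D (-1) (-1)) ⟨6, 53, 4, 7, 3, 7, 2, 0, 4, 4⟩ :=
  leaf_sound (S := T4.ds_mm) T4.ok_mm (w := 200) (c := ⟨⟨.negSucc 1597, .ofNat 98, .ofNat 9, .ofNat 181, .ofNat 238, .ofNat 390⟩, ⟨.ofNat 737, .negSucc 94, .ofNat 118, .negSucc 122, .negSucc 117, .negSucc 213⟩, ⟨.ofNat 1682, .negSucc 179, .ofNat 180, .ofNat 736, .negSucc 870, .negSucc 97⟩, ⟨.negSucc 3062, .ofNat 239, .negSucc 238, .negSucc 378, .ofNat 396, .ofNat 237⟩, ⟨.negSucc 1225, .ofNat 167, .negSucc 377, .negSucc 1307, .ofNat 53, .negSucc 729⟩, .ofNat 2810, .ofNat 4831, .ofNat 0, .ofNat 4831, .ofNat 9673, .ofNat 0, .ofNat 262, .negSucc 826, .negSucc 419, .ofNat 0, .ofNat 473, .ofNat 219, .ofNat 0, .ofNat 0, .ofNat 968, .ofNat 3220, .ofNat 0, .ofNat 0, .ofNat 0, .ofNat 0, .ofNat 0, .ofNat 53865826795144003372721637946722091008000,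 .ofNat 24052355448105586859257093108531200, .ofNat 0, .ofNat 0, .ofNat 4383986550074652972388363719418891468800, .ofNat 16125028273898499511021833761587200, .ofNat 0, .ofNat 0, .ofNat 75259181487040926223370474013244312780800, .ofNat 0, .ofNat 0⟩)
    (by decide +kernel)
theorem L00805 : Good (Phi V4.P V4.D (-1) (-1)) ⟨6, 53, 4, 7, 2, 3, 2, 1, 4, 4⟩ :=
  leaf_sound (S := T4.ds_mm) T4.ok_mm (w := 192) (c := ⟨⟨.negSucc 1485, .ofNat 24, .ofNat 105, .ofNat 338, .ofNat 554, .ofNat 348⟩, ⟨.ofNat 691, .negSucc 56, .ofNat 58, .negSucc 201, .negSucc 288, .negSucc 185⟩, ⟨.ofNat 1037, .negSucc 126, .ofNat 63, .ofNat 174, .negSucc 620, .negSucc 160⟩, ⟨.negSucc 2791, .negSucc 15, .ofNat 99, .negSucc 112, .ofNat 656, .ofNat 317⟩, ⟨.negSucc 1018, .negSucc 100, .negSucc 20, .negSucc 1268, .negSucc 406, .negSucc 445⟩, .ofNat 2522, .ofNat 4277, .ofNat 0, .ofNat 4277, .ofNat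 8602, .ofNat 0, .ofNat 248, .negSucc 789, .negSucc 660, .ofNat 0, .ofNat 441, .ofNat 344, .ofNat 0, .ofNat 0, .ofNat 984, .ofNat 3093, .ofNat 0, .ofNat 0, .ofNat 0, .ofNat 0, .ofNat 0, .ofNat 236817793284032697048260246730335846400, .ofNat 52334498328909906445093306368000, .ofNat 0, .ofNat 0, .ofNat 678138218073110476927352897959624704000, .ofNat 24188923782120306843560234188800, .ofNat 0, .ofNat 0, .ofNat 0, .ofNat 0, .ofNat 0⟩)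
    (by decide +kernel)
theorem L00806 : Good (Phi V4.P V4.D (-1) (-1)) ⟨5, 27, 4, 6, 2, 3, 1, 0, 4, 4⟩ :=
  out_sound (S := T4.ds_mm) T4.ok_mm (w := 64) (j := 3) (by decide +kernel)
theorem L00807 : Good (Phi V4.P V4.D (-1) (-1)) ⟨5, 27, 4, 7, 3, 6, 2, 0, 4, 4⟩ :=
  leaf_sound (S := T4.ds_mm) T4.ok_mm (w := 200) (c := ⟨⟨.negSucc 1730, .ofNat 33, .ofNat 114, .ofNat 125, .ofNat 263, .ofNat 362⟩, ⟨.ofNat 802, .negSucc 63, .ofNat 36, .negSucc 76, .negSucc 144, .negSucc 198⟩, ⟨.ofNat 1352, .ofNat 3, .negSucc 19, .ofNat 111, .negSucc 430, .negSucc 106⟩, ⟨.negSucc 2988, .negSucc 30, .ofNat 120, .negSucc 112, .ofNat 212, .ofNat 284⟩, ⟨.negSucc 694, .negSucc 206, .negSucc 30, .negSucc 582, .negSucc 367, .negSucc 522⟩, .ofNat 3266, .ofNat 5536, .ofNat 0, .ofNat 5536, .ofNat 10661, .ofNat 0, .ofNat 210, .negSucc 816, .negSucc 543, .ofNat 0, .ofNat 462, .ofNat 294,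 .ofNat 0, .ofNat 0, .ofNat 940, .ofNat 8286, .ofNat 0, .ofNat 0, .ofNat 0, .ofNat 0, .ofNat 0, .ofNat 0, .ofNat 220337742398026453171512892666675200, .ofNat 0, .ofNat 29511847384374015151055395052205794918400, .ofNat 0, .ofNat 102770979987219785076764804382720000, .ofNat 0, .ofNat 0, .ofNat 0, .ofNat 132980467455174686987817458860032000, .ofNat 0⟩)
    (by decide +kernel)
theorem L00808 : Good (Phi V4.P V4.D (-1) (-1)) ⟨5, 27, 4, 7, 3, 7, 2, 0, 4, 4⟩ :=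
  leaf_sound (S := T4.ds_mm) T4.ok_mm (w := 200) (c := ⟨⟨.negSucc 1515, .ofNat 189, .ofNat 29, .ofNat 196, .ofNat 238, .ofNat 374⟩, ⟨.ofNat 652, .negSucc 194, .ofNat 109, .negSucc 134, .negSucc 119, .negSucc 209⟩, ⟨.ofNat 1630, .ofNat 261, .ofNat 19, .ofNat 946, .negSucc 935, .negSucc 100⟩, ⟨.negSucc 2938, .negSucc 37, .negSucc 64, .negSucc 556, .ofNat 458, .ofNat 196⟩, ⟨.negSucc 1288, .negSucc 638, .negSucc 80, .negSucc 1644, .ofNat 177, .negSucc 722⟩, .ofNat 3267, .ofNat 5537, .ofNat 0, .ofNat 5537, .ofNat 10662, .ofNat 0, .ofNat 233, .negSucc 868, .negSucc 432, .ofNat 0, .ofNat 502, .ofNat 232, .ofNat 0, .ofNat 0, .ofNat 981, .ofNat 2834, .ofNat 0, .ofNat 0, .ofNat 0, .ofNat 0, .ofNat 0, .ofNat 781514472603463325574321538931569459200, .ofNat 217523542621450283806068635074560000, .ofNat 0, .ofNat 0, .ofNat 0, .ofNat 152310633860430932197959486406656000,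 .ofNat 0, .ofNat 0, .ofNat 0, .ofNat 0, .ofNat 0⟩)
    (by decide +kernel)
theorem L00809 : Good (Phi V4.P V4.D (-1) (-1)) ⟨5, 27, 4, 7, 2, 3, 2, 1, 4, 4⟩ :=
  leaf_sound (S := T4.ds_mm) T4.ok_mm (w := 192) (c := ⟨⟨.negSucc 1370, .ofNat 307, .negSucc 20, .ofNat 355, .ofNat 562, .ofNat 342⟩, ⟨.ofNat 599, .negSucc 241, .ofNat 116, .negSucc 211, .negSucc 301, .negSucc 186⟩, ⟨.ofNat 1059, .ofNat 322, .negSucc 66, .ofNat 227, .negSucc 676, .negSucc 239⟩, ⟨.negSucc 2670, .ofNat 187, .negSucc 43, .negSucc 144, .ofNat 646, .ofNat 290⟩, ⟨.negSucc 1190, .negSucc 534, .ofNat 92, .negSucc 1323, .negSucc 416, .negSucc 449⟩, .ofNat 3344, .ofNat 5684, .ofNat 0, .ofNat 5684, .ofNat 10941, .ofNat 0, .ofNat 211, .negSucc 805, .negSucc 680, .ofNat 0, .ofNat 455, .ofNat 366, .ofNat 0, .ofNat 0, .ofNat 987, .ofNat 1757, .ofNat 0, .ofNat 0, .ofNat 1967117664908787297839323545600,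 .ofNat 0, .ofNat 0, .ofNat 18660233663851185106759418213774131200, .ofNat 432542580190315771389276900556800, .ofNat 0, .ofNat 0, .ofNat 0, .ofNat 270069720544922872546792046592000, .ofNat 0, .ofNat 0, .ofNat 0, .ofNat 261505923195755038865761920614400, .ofNat 0⟩)
    (by decide +kernel)
theorem L00810 : Good (Phi V4.P V4.D (-1) (-1)) ⟨4, 12, 2, 1, 2, 3, 2, 0, 4, 5⟩ :=
  leaf_sound (S := T4.ds_mm) T4.ok_mm (w := 176) (c := ⟨⟨.negSucc 1432, .negSucc 9, .ofNat 206, .ofNat 53, .ofNat 209, .ofNat 208⟩, ⟨.ofNat 454, .negSucc 68, .ofNat 280, .negSucc 71, .negSucc 91, .negSucc 85⟩, ⟨.ofNat 1372, .negSucc 27, .negSucc 89, .ofNat 228, .negSucc 430, .negSucc 57⟩, ⟨.negSucc 2716, .ofNat 27, .ofNat 55, .negSucc 307, .ofNat 233, .ofNat 253⟩, ⟨.negSucc 942, .negSucc 78, .negSucc 222, .negSucc 1043, .negSucc 290, .negSucc 259⟩, .ofNat 325, .ofNat 170, .ofNat 0, .ofNat 170,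 .ofNat 683, .ofNat 0, .ofNat 550, .negSucc 437, .negSucc 423, .ofNat 0, .ofNat 414, .ofNat 210, .ofNat 0, .ofNat 0, .ofNat 936, .ofNat 2868, .ofNat 0, .ofNat 0, .ofNat 0, .ofNat 0, .ofNat 0, .ofNat 0, .ofNat 0, .ofNat 0, .ofNat 0, .ofNat 505537824178719543725785240672665600, .ofNat 0, .ofNat 0, .ofNat 0, .ofNat 497038196186012560122739871553945600, .ofNat 0, .ofNat 0⟩)
    (by decide +kernel)
theorem L00811 : Good (Phi V4.P V4.D (-1) (-1)) ⟨4, 13, 2, 1, 2, 3, 2, 0, 4, 5⟩ :=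
  leaf_sound (S := T4.ds_mm) T4.ok_mm (w := 176) (c := ⟨⟨.negSucc 1499, .ofNat 62, .ofNat 217, .ofNat 217, .ofNat 246, .ofNat 231⟩, ⟨.ofNat 430, .negSucc 129, .ofNat 267, .negSucc 142, .negSucc 127, .negSucc 117⟩, ⟨.ofNat 1307, .negSucc 192, .ofNat 81, .ofNat 276, .negSucc 506, .negSucc 91⟩, ⟨.negSucc 2679, .ofNat 60, .ofNat 9, .negSucc 286, .ofNat 265, .ofNat 237⟩, ⟨.negSucc 955, .negSucc 90, .negSucc 293, .negSucc 1320, .negSucc 265, .negSucc 274⟩, .ofNat 631, .ofNat 690, .ofNat 0, .ofNat 690, .ofNat 1681, .ofNat 0, .ofNat 379, .negSucc 584, .negSucc 387, .ofNat 0, .ofNat 395, .ofNat 207, .ofNat 0, .ofNat 0, .ofNat 905, .ofNat 1648, .ofNat 0, .ofNat 0, .ofNat 0, .ofNat 0, .ofNat 0, .ofNat 100238782427417096088421874112921600, .ofNat 65942870982278135550246597427200, .ofNat 0, .ofNat 0, .ofNat 324441624877332114171022077748838400, .ofNat 20953194486334814027120010854400,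 .ofNat 0, .ofNat 0, .ofNat 182951973922521743686538632573747200, .ofNat 0, .ofNat 0⟩)
    (by decide +kernel)
theorem L00812 : Good (Phi V4.P V4.D (-1) (-1)) ⟨3, 6, 2, 1, 2, 3, 2, 1, 4, 5⟩ :=
  leaf_sound (S := T4.ds_mm) T4.ok_mm (w := 176) (c := ⟨⟨.negSucc 1273, .negSucc 16, .ofNat 324, .ofNat 112, .ofNat 392, .ofNat 230⟩, ⟨.ofNat 404, .negSucc 186, .ofNat 208, .negSucc 92, .negSucc 175, .negSucc 103⟩, ⟨.ofNat 1008, .negSucc 37, .negSucc 182, .ofNat 29, .negSucc 506, .negSucc 113⟩, ⟨.negSucc 2522, .ofNat 38, .ofNat 137, .negSucc 261, .ofNat 504, .ofNat 278⟩, ⟨.negSucc 1229, .negSucc 157, .negSucc 246, .negSucc 1096, .negSucc 325, .negSucc 239⟩, .ofNat 331, .ofNat 187, .ofNat 0, .ofNat 187, .ofNat 677, .ofNat 0, .ofNat 552, .negSucc 459, .negSucc 540, .ofNat 0, .ofNat 424, .ofNat 267, .ofNat 0, .ofNat 0, .ofNat 954, .ofNat 1632, .ofNat 0, .ofNat 0, .ofNat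 0, .ofNat 0, .ofNat 0, .ofNat 0, .ofNat 0, .ofNat 0, .ofNat 0, .ofNat 17104342763941901864881274172211200, .ofNat 0, .ofNat 0, .ofNat 0, .ofNat 0, .ofNat 0, .ofNat 0⟩)
    (by decide +kernel)
theorem L00813 : Good (Phi V4.P V4.D (-1) (-1)) ⟨3, 6, 2, 1, 2, 3, 1, 0, 3, 3⟩ :=
  leaf_sound (S := T4.ds_mm) T4.ok_mm (w := 168) (c := ⟨⟨.negSucc 1243, .negSucc 41, .ofNat 240, .ofNat 0, .ofNat 457, .ofNat 0⟩, ⟨.ofNat 383, .negSucc 116, .ofNat 216, .ofNat 0, .negSucc 211, .ofNat 0⟩, ⟨.ofNat 1333, .ofNat 17, .negSucc 159, .ofNat 0, .negSucc 913, .ofNat 0⟩, ⟨.negSucc 2486, .ofNat 29, .ofNat 52, .ofNat 0, .ofNat 524, .ofNat 0⟩, ⟨.negSucc 1212, .negSucc 161, .negSucc 198, .ofNat 0, .negSucc 516, .ofNat 0⟩, .ofNat 164, .ofNat 36, .ofNat 0, .ofNat 36, .ofNat 231, .ofNat 0, .ofNat 2727, .negSucc 1559, .negSucc 2616, .ofNat 0, .ofNat 2338, .ofNat 1722, .ofNat 0, .ofNat 0,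 .ofNat 4171, .ofNat 22093, .ofNat 0, .ofNat 0, .ofNat 0, .ofNat 0, .ofNat 18184130065718627134569988069785600, .ofNat 234705045163814206243476975334195200, .ofNat 0, .ofNat 0, .ofNat 0, .ofNat 246550554690734742440148562083840000, .ofNat 9316604231706415118854127616000, .ofNat 0, .ofNat 0, .ofNat 241245922050922782524041761443020800, .ofNat 0, .ofNat 0⟩)
    (by decide +kernel)
theorem L00814 : Good (Phi V4.P V4.D (-1) (-1)) ⟨3, 7, 2, 1, 2, 3, 1, 0, 2, 1⟩ :=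
  out_sound (S := T4.ds_mm) T4.ok_mm (w := 48) (j := 3) (by decide +kernel)
theorem L00815 : Good (Phi V4.P V4.D (-1) (-1)) ⟨2, 2, 3, 2, 1, 1, 1, 1, 2, 0⟩ :=
  out_sound (S := T4.ds_mm) T4.ok_mm (w := 40) (j := 3) (by decide +kernel)
theorem L00816 : Good (Phi V4.P V4.D (-1) (-1)) ⟨4, 12, 3, 2, 2, 2, 2, 2, 4, 0⟩ :=
  leaf_sound (S := T4.ds_mm) T4.ok_mm (w := 176) (c := ⟨⟨.ofNat 110, .negSucc 73, .ofNat 238, .negSucc 225, .negSucc 566, .negSucc 861⟩, ⟨.negSucc 104, .negSucc 16, .ofNat 11, .ofNat 77, .ofNat 213, .ofNat 336⟩, ⟨.negSucc 452, .ofNat 51, .negSucc 207, .ofNat 201, .ofNat 365, .ofNat 761⟩, ⟨.negSucc 132, .negSucc 88, .ofNat 295, .negSucc 440, .negSucc 956, .negSucc 1348⟩, ⟨.negSucc 841, .negSucc 12, .negSucc 78, .negSucc 180, .negSucc 70, .ofNat 185⟩, .ofNat 532, .ofNat 522, .ofNat 0, .ofNat 522, .ofNat 1602, .ofNat 0, .ofNat 293, .negSucc 320, .negSucc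 935, .ofNat 0, .ofNat 206, .ofNat 367, .ofNat 0, .ofNat 0, .ofNat 951, .ofNat 1192, .ofNat 0, .ofNat 0, .ofNat 0, .ofNat 0, .ofNat 0, .ofNat 0, .ofNat 0, .ofNat 0, .ofNat 0, .ofNat 0, .ofNat 0, .ofNat 0, .ofNat 0, .ofNat 0, .ofNat 17489521717588683934410158899200, .ofNat 0⟩)
    (by decide +kernel)
theorem L00817 : Good (Phi V4.P V4.D (-1) (-1)) ⟨5, 24, 3, 2, 2, 3, 2, 2, 4, 0⟩ :=
  leaf_sound (S := T4.ds_mm) T4.ok_mm (w := 184) (c := ⟨⟨.negSucc 9, .negSucc 147, .ofNat 178, .negSucc 251, .negSucc 607, .negSucc 1066⟩, ⟨.negSucc 36, .ofNat 37, .ofNat 45, .ofNat 105, .ofNat 193, .ofNat 362⟩, ⟨.negSucc 159, .ofNat 32, .negSucc 54, .ofNat 302, .ofNat 312, .ofNat 692⟩, ⟨.negSucc 283, .negSucc 228, .ofNat 226, .negSucc 300, .negSucc 1135, .negSucc 1817⟩, ⟨.negSucc 718, .negSucc 65, .negSucc 15, .ofNat 347, .negSucc 340, .negSucc 87⟩, .ofNat 751, .ofNat 1047, .ofNat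 0, .ofNat 1047, .ofNat 3211, .ofNat 0, .ofNat 289, .negSucc 438, .negSucc 801, .ofNat 0, .ofNat 207, .ofNat 286, .ofNat 0, .ofNat 0, .ofNat 735, .ofNat 1672, .ofNat 0, .ofNat 0, .ofNat 0, .ofNat 0, .ofNat 0, .ofNat 0, .ofNat 0, .ofNat 0, .ofNat 0, .ofNat 0, .ofNat 8484552783074735316929190297600, .ofNat 0, .ofNat 0, .ofNat 0, .ofNat 0, .ofNat 0⟩)
    (by decide +kernel)
theorem L00818 : Good (Phi V4.P V4.D (-1) (-1)) ⟨5, 25, 3, 2, 2, 3, 2, 2, 4, 0⟩ :=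
  leaf_sound (S := T4.ds_mm) T4.ok_mm (w := 184) (c := ⟨⟨.negSucc 45, .negSucc 204, .ofNat 382, .negSucc 361, .negSucc 664, .negSucc 1263⟩, ⟨.negSucc 91, .ofNat 75, .negSucc 41, .ofNat 168, .ofNat 252, .ofNat 514⟩, ⟨.negSucc 191, .ofNat 86, .negSucc 165, .ofNat 423, .ofNat 320, .ofNat 827⟩, ⟨.negSucc 375, .negSucc 289, .ofNat 567, .negSucc 415, .negSucc 1227, .negSucc 2061⟩, ⟨.negSucc 791, .negSucc 12, .ofNat 31, .ofNat 423, .negSucc 371, .negSucc 31⟩, .ofNat 544, .ofNat 541, .ofNat 0, .ofNat 541, .ofNat 1572, .ofNat 0, .ofNat 164, .negSucc 220, .negSucc 515, .ofNat 0, .ofNat 124, .ofNat 207, .ofNat 0, .ofNat 0, .ofNat 425, .ofNat 783, .ofNat 0, .ofNat 0, .ofNat 0, .ofNat 0, .ofNat 0, .ofNat 0, .ofNat 184721240420396968619645337600, .ofNat 0, .ofNat 0, .ofNat 0, .ofNat 1507378411488696022213853184000, .ofNat 0, .ofNat 0, .ofNat 0, .ofNat 1046515621792378172528708812800,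 .ofNat 0⟩)
    (by decide +kernel)
theorem L00819 : Good (Phi V4.P V4.D (-1) (-1)) ⟨5, 26, 3, 2, 1, 1, 2, 2, 4, 0⟩ :=
  leaf_sound (S := T4.ds_mm) T4.ok_mm (w := 176) (c := ⟨⟨.ofNat 472, .ofNat 43, .ofNat 74, .negSucc 887, .negSucc 626, .negSucc 1207⟩, ⟨.negSucc 342, .negSucc 45, .ofNat 63, .ofNat 404, .ofNat 257, .ofNat 531⟩, ⟨.negSucc 719, .negSucc 274, .negSucc 9, .ofNat 874, .ofNat 305, .ofNat 898⟩, ⟨.ofNat 452, .ofNat 25, .ofNat 4, .negSucc 1256, .negSucc 1133, .negSucc 1866⟩, ⟨.negSucc 795, .negSucc 134, .negSucc 147, .ofNat 360, .negSucc 310, .ofNat 131⟩, .ofNat 1167, .ofNat 1789, .ofNat 0, .ofNat 1789, .ofNat 4179, .ofNat 0, .ofNat 217, .negSucc 422, .negSucc 959, .ofNat 0, .ofNat 229, .ofNat 434, .ofNat 0, .ofNat 0, .ofNat 894, .ofNat 785, .ofNat 0, .ofNat 0, .ofNat 194898223460758056114585600, .ofNat 0, .ofNat 0, .ofNat 0, .ofNat 121132266288731313504937574400,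 .ofNat 0, .ofNat 0, .ofNat 0, .ofNat 38448966670744629370945536000, .ofNat 0, .ofNat 0, .ofNat 0, .ofNat 55188268319723643958040985600, .ofNat 0⟩)
    (by decide +kernel)
theorem L00820 : Good (Phi V4.P V4.D (-1) (-1)) ⟨5, 27, 3, 2, 1, 1, 2, 2, 4, 0⟩ :=
  out_sound (S := T4.ds_mm) T4.ok_mm (w := 64) (j := 3) (by decide +kernel)
theorem L00821 : Good (Phi V4.P V4.D (-1) (-1)) ⟨5, 24, 4, 4, 1, 1, 2, 2, 4, 1⟩ :=
  leaf_sound (S := T4.ds_mm) T4.ok_mm (w := 176) (c := ⟨⟨.negSucc 689, .negSucc 279, .ofNat 244, .negSucc 1027, .negSucc 39, .negSucc 251⟩, ⟨.ofNat 193, .ofNat 91, .ofNat 2, .ofNat 350, .negSucc 1, .ofNat 81⟩, ⟨.ofNat 360, .ofNat 164, .negSucc 151, .ofNat 633, .negSucc 79, .ofNat 194⟩, ⟨.negSucc 1386, .negSucc 401, .ofNat 381, .negSucc 1754, .negSucc 194, .negSucc 468⟩, ⟨.negSucc 566, .negSucc 22, .ofNat 14, .negSucc 82, .negSucc 375, .negSucc 125⟩,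 .ofNat 760, .ofNat 1070, .ofNat 0, .ofNat 1070, .ofNat 3268, .ofNat 0, .ofNat 264, .negSucc 389, .negSucc 739, .ofNat 0, .ofNat 192, .ofNat 269, .ofNat 0, .ofNat 0, .ofNat 737, .ofNat 1328, .ofNat 0, .ofNat 0, .ofNat 0, .ofNat 0, .ofNat 0, .ofNat 0, .ofNat 0, .ofNat 0, .ofNat 0, .ofNat 0, .ofNat 0, .ofNat 0, .ofNat 0, .ofNat 0, .ofNat 0, .ofNat 0⟩)
    (by decide +kernel)
theorem L00822 : Good (Phi V4.P V4.D (-1) (-1)) ⟨5, 25, 4, 4, 2, 2, 2, 2, 4, 1⟩ :=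
  leaf_sound (S := T4.ds_mm) T4.ok_mm (w := 184) (c := ⟨⟨.negSucc 812, .negSucc 131, .ofNat 83, .negSucc 620, .negSucc 7, .negSucc 273⟩, ⟨.ofNat 220, .ofNat 48, .ofNat 38, .ofNat 225, .negSucc 10, .ofNat 102⟩, ⟨.ofNat 400, .ofNat 100, .negSucc 57, .ofNat 398, .negSucc 81, .ofNat 271⟩, ⟨.negSucc 1547, .negSucc 139, .ofNat 93, .negSucc 1082, .negSucc 110, .negSucc 444⟩, ⟨.negSucc 588, .ofNat 59, .negSucc 46, .negSucc 173, .negSucc 259, .ofNat 11⟩, .ofNat 1035, .ofNat 1633, .ofNat 0, .ofNat 1633, .ofNat 4322, .ofNat 0, .ofNat 232, .negSucc 343, .negSucc 807, .ofNat 0, .ofNat 189, .ofNat 326, .ofNat 0, .ofNat 0, .ofNat 851, .ofNat 2641, .ofNat 0, .ofNat 0, .ofNat 0, .ofNat 0, .ofNat 0, .ofNat 0, .ofNat 15264766154230131792372616396800, .ofNat 0, .ofNat 0, .ofNat 0, .ofNat 13680712674595261738332979200000, .ofNat 0, .ofNat 0, .ofNat 0, .ofNat 12275074176157199087576285184000,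 .ofNat 0⟩)
    (by decide +kernel)
theorem L00823 : Good (Phi V4.P V4.D (-1) (-1)) ⟨5, 25, 4, 4, 2, 3, 2, 2, 4, 1⟩ :=
  leaf_sound (S := T4.ds_mm) T4.ok_mm (w := 184) (c := ⟨⟨.negSucc 1657, .negSucc 316, .ofNat 109, .negSucc 404, .ofNat 180, .negSucc 211⟩, ⟨.ofNat 526, .ofNat 128, .ofNat 51, .ofNat 154, .negSucc 100, .ofNat 67⟩, ⟨.ofNat 987, .ofNat 208, .negSucc 65, .ofNat 209, .negSucc 225, .ofNat 131⟩, ⟨.negSucc 2913, .negSucc 379, .ofNat 132, .negSucc 651, .ofNat 89, .negSucc 430⟩, ⟨.negSucc 515, .ofNat 126, .negSucc 48, .ofNat 27, .negSucc 543, .negSucc 215⟩, .ofNat 757, .ofNat 999, .ofNat 0, .ofNat 999, .ofNat 2792, .ofNat 0, .ofNat 283, .negSucc 461, .negSucc 912, .ofNat 0, .ofNat 234, .ofNat 363, .ofNat 0, .ofNat 0, .ofNat 780, .ofNat 1526, .ofNat 0, .ofNat 0, .ofNat 123424682974467757049276006400, .ofNat 0, .ofNat 0, .ofNat 0, .ofNat 0, .ofNat 0,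 .ofNat 0, .ofNat 0, .ofNat 15488793053323219177889071104000, .ofNat 0, .ofNat 0, .ofNat 0, .ofNat 7681947007128317063796149452800, .ofNat 0⟩)
    (by decide +kernel)
theorem L00824 : Good (Phi V4.P V4.D (-1) (-1)) ⟨4, 13, 4, 4, 1, 1, 2, 2, 4, 1⟩ :=
  out_sound (S := T4.ds_mm) T4.ok_mm (w := 56) (j := 3) (by decide +kernel)
theorem L00825 : Good (Phi V4.P V4.D (-1) (-1)) ⟨4, 12, 4, 5, 2, 2, 2, 2, 4, 1⟩ :=
  leaf_sound (S := T4.ds_mm) T4.ok_mm (w := 184) (c := ⟨⟨.negSucc 623, .negSucc 230, .ofNat 23, .negSucc 578, .ofNat 49, .negSucc 288⟩, ⟨.ofNat 215, .ofNat 71, .ofNat 64, .ofNat 227, .negSucc 32, .ofNat 117⟩, ⟨.ofNat 265, .ofNat 169, .negSucc 20, .ofNat 368, .negSucc 142, .ofNat 281⟩, ⟨.negSucc 1339, .negSucc 253, .ofNat 6, .negSucc 1019, .negSucc 21, .negSucc 461⟩, ⟨.negSucc 644, .ofNat 50, .negSucc 11, .negSucc 201, .negSucc 244, .ofNat 14⟩, .ofNat 869,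 .ofNat 1225, .ofNat 0, .ofNat 1225, .ofNat 3172, .ofNat 0, .ofNat 219, .negSucc 352, .negSucc 825, .ofNat 0, .ofNat 195, .ofNat 350, .ofNat 0, .ofNat 0, .ofNat 860, .ofNat 2059, .ofNat 0, .ofNat 0, .ofNat 0, .ofNat 0, .ofNat 0, .ofNat 0, .ofNat 0, .ofNat 0, .ofNat 0, .ofNat 0, .ofNat 0, .ofNat 0, .ofNat 0, .ofNat 0, .ofNat 21837488285551992786797985792000, .ofNat 0⟩)
    (by decide +kernel)
theorem L00826 : Good (Phi V4.P V4.D (-1) (-1)) ⟨4, 12, 4, 5, 2, 3, 2, 2, 4, 1⟩ :=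
  leaf_sound (S := T4.ds_mm) T4.ok_mm (w := 184) (c := ⟨⟨.negSucc 753, .negSucc 1383, .ofNat 288, .negSucc 312, .ofNat 167, .negSucc 178⟩, ⟨.ofNat 231, .ofNat 585, .negSucc 21, .ofNat 125, .negSucc 94, .ofNat 61⟩, ⟨.ofNat 396, .ofNat 881, .negSucc 177, .ofNat 192, .negSucc 226, .ofNat 120⟩, ⟨.negSucc 1670, .negSucc 1889, .ofNat 398, .negSucc 504, .ofNat 50, .negSucc 381⟩, ⟨.negSucc 797, .ofNat 421, .negSucc 98, .ofNat 20, .negSucc 544, .negSucc 224⟩, .ofNat 869, .ofNat 1229, .ofNat 0, .ofNat 1229, .ofNat 3199, .ofNat 0, .ofNat 252, .negSucc 489, .negSucc 943, .ofNat 0, .ofNat 245, .ofNat 395, .ofNat 0, .ofNat 0, .ofNat 786, .ofNat 1166, .ofNat 0, .ofNat 0, .ofNat 0, .ofNat 0, .ofNat 0, .ofNat 0, .ofNat 0, .ofNat 0, .ofNat 0, .ofNat 0, .ofNat 0, .ofNat 0, .ofNat 0, .ofNat 0, .ofNat 12361806753821185776084320256000, .ofNat 0⟩)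
    (by decide +kernel)
theorem L00827 : Good (Phi V4.P V4.D (-1) (-1)) ⟨4, 13, 4, 5, 2, 2, 2, 2, 4, 1⟩ :=
  leaf_sound (S := T4.ds_mm) T4.ok_mm (w := 184) (c := ⟨⟨.negSucc 937, .negSucc 50, .ofNat 69, .negSucc 612, .ofNat 77, .negSucc 175⟩, ⟨.ofNat 321, .ofNat 10, .ofNat 32, .ofNat 256, .negSucc 46, .ofNat 76⟩, ⟨.ofNat 513, .negSucc 33, .negSucc 76, .ofNat 406, .negSucc 160, .ofNat 193⟩, ⟨.negSucc 1695, .ofNat 21, .ofNat 52, .negSucc 1074, .ofNat 8, .negSucc 286⟩, ⟨.negSucc 504, .ofNat 98, .negSucc 85, .negSucc 226, .negSucc 262, .negSucc 11⟩, .ofNat 1379, .ofNat 2235, .ofNat 0, .ofNat 2235, .ofNat 5141, .ofNat 0, .ofNat 198, .negSucc 371, .negSucc 942, .ofNat 0, .ofNat 208, .ofNat 429, .ofNat 0, .ofNat 0, .ofNat 950, .ofNat 2889, .ofNat 0, .ofNat 0, .ofNat 0, .ofNat 0, .ofNat 0, .ofNat 0, .ofNat 450886044581414480897789814374400, .ofNat 0, .ofNat 0, .ofNat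 0, .ofNat 128156802398623390792252863283200, .ofNat 0, .ofNat 0, .ofNat 0, .ofNat 139994715881014145099643853209600, .ofNat 0⟩)
    (by decide +kernel)
theorem L00828 : Good (Phi V4.P V4.D (-1) (-1)) ⟨4, 13, 4, 5, 2, 3, 2, 2, 4, 1⟩ :=
  leaf_sound (S := T4.ds_mm) T4.ok_mm (w := 184) (c := ⟨⟨.negSucc 2317, .negSucc 1040, .ofNat 556, .negSucc 397, .ofNat 208, .negSucc 141⟩, ⟨.ofNat 898, .ofNat 459, .negSucc 149, .ofNat 175, .negSucc 118, .ofNat 50⟩, ⟨.ofNat 1356, .ofNat 504, .negSucc 310, .ofNat 236, .negSucc 246, .ofNat 93⟩, ⟨.negSucc 3849, .negSucc 1542, .ofNat 830, .negSucc 618, .ofNat 81, .negSucc 331⟩, ⟨.negSucc 390, .negSucc 34, .negSucc 89, .ofNat 36, .negSucc 574, .negSucc 244⟩, .ofNat 1370, .ofNat 2215, .ofNat 0, .ofNat 2215, .ofNat 5099, .ofNat 0, .ofNat 111, .negSucc 256, .negSucc 538, .ofNat 0, .ofNat 132, .ofNat 244, .ofNat 0, .ofNat 0, .ofNat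 427, .ofNat 550, .ofNat 0, .ofNat 0, .ofNat 735500608045049145795910041600, .ofNat 0, .ofNat 0, .ofNat 0, .ofNat 130237651562901667752315558297600, .ofNat 0, .ofNat 0, .ofNat 0, .ofNat 76098600745623918132520078540800, .ofNat 0, .ofNat 0, .ofNat 0, .ofNat 43749464305170878427418538803200, .ofNat 0⟩)
    (by decide +kernel)
theorem L00829 : Good (Phi V4.P V4.D (-1) (-1)) ⟨3, 7, 3, 2, 1, 1, 2, 2, 3, 0⟩ :=
  out_sound (S := T4.ds_mm) T4.ok_mm (w := 48) (j := 3) (by decide +kernel)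
theorem L00830 : Good (Phi V4.P V4.D (-1) (-1)) ⟨4, 12, 3, 2, 2, 2, 2, 3, 3, 0⟩ :=
  leaf_sound (S := T4.ds_mm) T4.ok_mm (w := 176) (c := ⟨⟨.negSucc 775, .negSucc 422, .ofNat 542, .negSucc 633, .negSucc 36, .ofNat 143⟩, ⟨.ofNat 220, .ofNat 113, .negSucc 56, .ofNat 221, .ofNat 7, .negSucc 58⟩, ⟨.ofNat 206, .ofNat 328, .negSucc 448, .ofNat 506, .negSucc 23, .negSucc 48⟩, ⟨.negSucc 1588, .negSucc 622, .ofNat 808, .negSucc 1159, .negSucc 107, .ofNat 233⟩, ⟨.negSucc 776, .negSucc 19, .negSucc 30, .negSucc 315, .negSucc 134, .negSucc 1⟩, .ofNat 523, .ofNat 504, .ofNat 0, .ofNat 504, .ofNat 1584, .ofNat 0, .ofNat 315, .negSucc 317, .negSucc 1013, .ofNat 0, .ofNat 211, .ofNat 371, .ofNat 0, .ofNat 0, .ofNat 1011, .ofNat 548, .ofNat 0, .ofNat 0, .ofNat 5329162786863993020271820800, .ofNat 0, .ofNat 0, .ofNat 0, .ofNat 0, .ofNat 0, .ofNat 0, .ofNat 0, .ofNat 0, .ofNat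 0, .ofNat 0, .ofNat 0, .ofNat 0, .ofNat 0⟩)
    (by decide +kernel)

end Crest.Agent.R097C4.N4mm
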