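import Crest.Agent.R097.T4

/-!
# Row 97, box cover in dimension n = 4 (generated)
-/

set_option autoImplicit false
set_option Elab.async false
set_option maxHeartbeats 0
set_option maxRecDepth 100000

open Crest.Agent.R097 Crest.Agent.R097.KA


namespace Crest.Agent.R097C4.N4mm

theorem L01813 : Good (Phi V4.P V4.D (-1) (-1)) ⟨8, 220, 6, 35, 4, 15, 3, 7, 5, 2⟩ :=
  leaf_sound (S := T4.ds_mm) T4.ok_mm (w := 240) (c := ⟨⟨.negSucc 2220, .ofNat 546, .negSucc 462, .ofNat 258, .ofNat 369, .ofNat 1391⟩, ⟨.ofNat 1231, .negSucc 309, .ofNat 284, .negSucc 144, .negSucc 208, .negSucc 785⟩, ⟨.ofNat 1094, .negSucc 286, .ofNat 241, .negSucc 129, .negSucc 287, .negSucc 778⟩, ⟨.negSucc 4065, .ofNat 872, .negSucc 748, .ofNat 424, .ofNat 454, .ofNat 1993⟩, ⟨.negSucc 1275, .ofNat 79, .negSucc 73, .ofNat 62, .negSucc 181, .negSucc 187⟩, .ofNat 4712, .ofNat 7797, .ofNat 0, .ofNat 7797,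 .ofNat 14037, .ofNat 0, .ofNat 184, .negSucc 1414, .negSucc 4120, .ofNat 0, .ofNat 800, .ofNat 2310, .ofNat 0, .ofNat 0, .ofNat 2394, .ofNat 3631, .ofNat 0, .ofNat 0, .ofNat 0, .ofNat 0, .ofNat 0, .ofNat 0, .ofNat 0, .ofNat 0, .ofNat 0, .ofNat 0, .ofNat 0, .ofNat 0, .ofNat 0, .ofNat 477472327088155976130393602024992108028362752000, .ofNat 257391267610663694718390496517318246400, .ofNat 0⟩)
    (by decide +kernel)
theorem L01814 : Good (Phi V4.P V4.D (-1) (-1)) ⟨8, 220, 6, 35, 4, 15, 3, 7, 5, 3⟩ :=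
  leaf_sound (S := T4.ds_mm) T4.ok_mm (w := 240) (c := ⟨⟨.negSucc 1263, .ofNat 1197, .negSucc 763, .ofNat 586, .ofNat 1430, .ofNat 2214⟩, ⟨.ofNat 701, .negSucc 688, .ofNat 446, .negSucc 329, .negSucc 807, .negSucc 1250⟩, ⟨.ofNat 519, .negSucc 416, .ofNat 211, .negSucc 162, .negSucc 857, .negSucc 1176⟩, ⟨.negSucc 2736, .ofNat 1880, .negSucc 1247, .ofNat 931, .ofNat 2132, .ofNat 3155⟩, ⟨.negSucc 1492, .ofNat 152, .negSucc 152, .ofNat 83, .negSucc 42, .negSucc 325⟩, .ofNat 4710, .ofNat 7795, .ofNat 0, .ofNat 7795, .ofNat 14034, .ofNat 0, .ofNat 185, .negSucc 1438, .negSucc 4132, .ofNat 0, .ofNat 815, .ofNat 2318, .ofNat 0, .ofNat 0, .ofNat 2373, .ofNat 1273, .ofNat 0, .ofNat 6494390538365570218733333386471526673835622400, .ofNat 0, .ofNat 0, .ofNat 0, .ofNat 0, .ofNat 0, .ofNat 0, .ofNat 0, .ofNat 1024595760091566690528594249642872575546412236800, .ofNat 0, .ofNat 0,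 .ofNat 0, .ofNat 815723989470612108578577177147227151754749542400, .ofNat 0, .ofNat 0⟩)
    (by decide +kernel)
theorem L01815 : Good (Phi V4.P V4.D (-1) (-1)) ⟨8, 221, 6, 35, 3, 7, 3, 7, 4, 1⟩ :=
  out_sound (S := T4.ds_mm) T4.ok_mm (w := 88) (j := 3) (by decide +kernel)
theorem L01816 : Good (Phi V4.P V4.D (-1) (-1)) ⟨7, 111, 5, 17, 3, 7, 3, 7, 4, 1⟩ :=
  out_sound (S := T4.ds_mm) T4.ok_mm (w := 80) (j := 3) (by decide +kernel)
theorem L01817 : Good (Phi V4.P V4.D (-1) (-1)) ⟨5, 26, 4, 9, 3, 7, 1, 1, 4, 1⟩ :=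
  out_sound (S := T4.ds_mm) T4.ok_mm (w := 64) (j := 3) (by decide +kernel)
theorem L01818 : Good (Phi V4.P V4.D (-1) (-1)) ⟨6, 54, 4, 9, 3, 7, 1, 1, 4, 1⟩ :=
  out_sound (S := T4.ds_mm) T4.ok_mm (w := 72) (j := 3) (by decide +kernel)
theorem L01819 : Good (Phi V4.P V4.D (-1) (-1)) ⟨7, 110, 5, 18, 3, 7, 2, 2, 4, 1⟩ :=
  leaf_sound (S := T4.ds_mm) T4.ok_mm (w := 208) (c := ⟨⟨.negSucc 2829, .negSucc 7, .ofNat 259, .ofNat 615, .ofNat 637, .ofNat 669⟩, ⟨.ofNat 1605, .ofNat 18, .negSucc 118, .negSucc 351, .negSucc 365, .negSucc 383⟩, ⟨.ofNat 1642, .ofNat 58, .negSucc 166, .negSucc 206, .negSucc 570, .negSucc 394⟩, ⟨.negSucc 4351, .negSucc 95, .ofNat 439, .ofNat 911, .ofNat 541, .ofNat 672⟩, ⟨.negSucc 173, .negSucc 139, .ofNat 78, .negSucc 19, .negSucc 726, .negSucc 582⟩, .ofNat 5830, .ofNat 9659, .ofNat 0, .ofNat 9659, .ofNat 17116, .ofNat 0, .ofNat 38, .negSucc 335,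 .negSucc 877, .ofNat 0, .ofNat 193, .ofNat 501, .ofNat 0, .ofNat 0, .ofNat 538, .ofNat 475, .ofNat 0, .ofNat 0, .ofNat 0, .ofNat 0, .ofNat 0, .ofNat 0, .ofNat 0, .ofNat 0, .ofNat 0, .ofNat 0, .ofNat 0, .ofNat 0, .ofNat 0, .ofNat 0, .ofNat 0, .ofNat 0⟩)
    (by decide +kernel)
theorem L01820 : Good (Phi V4.P V4.D (-1) (-1)) ⟨7, 111, 5, 18, 3, 7, 2, 2, 4, 1⟩ :=
  out_sound (S := T4.ds_mm) T4.ok_mm (w := 24) (j := 4) (by decide +kernel)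
theorem L01821 : Good (Phi V4.P V4.D (-1) (-1)) ⟨7, 110, 5, 19, 3, 7, 2, 2, 4, 1⟩ :=
  out_sound (S := T4.ds_mm) T4.ok_mm (w := 80) (j := 3) (by decide +kernel)
theorem L01822 : Good (Phi V4.P V4.D (-1) (-1)) ⟨7, 111, 5, 19, 3, 7, 2, 2, 4, 1⟩ :=
  out_sound (S := T4.ds_mm) T4.ok_mm (w := 24) (j := 4) (by decide +kernel)
theorem L01823 : Good (Phi V4.P V4.D (-1) (-1)) ⟨7, 110, 5, 18, 4, 14, 3, 6, 5, 2⟩ :=
  leaf_sound (S := T4.ds_mm) T4.ok_mm (w := 232) (c := ⟨⟨.negSucc 2438, .ofNat 131, .ofNat 230, .negSucc 147, .ofNat 584, .ofNat 708⟩, ⟨.ofNat 1376, .negSucc 54, .negSucc 105, .ofNat 86, .negSucc 335, .negSucc 405⟩, ⟨.ofNat 1350, .negSucc 90, .negSucc 132, .ofNat 85, .negSucc 418, .negSucc 458⟩, ⟨.negSucc 4226, .ofNat 197, .ofNat 325, .negSucc 211, .ofNat 709, .ofNat 920⟩, ⟨.negSucc 981, .ofNat 5, .negSucc 33, .ofNat 19, .negSucc 295, .negSucc 249⟩, .ofNat 5773,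 .ofNat 9563, .ofNat 0, .ofNat 9563, .ofNat 16956, .ofNat 0, .ofNat 76, .negSucc 615, .negSucc 2059, .ofNat 0, .ofNat 354, .ofNat 1173, .ofNat 0, .ofNat 0, .ofNat 1346, .ofNat 2980, .ofNat 0, .ofNat 0, .ofNat 0, .ofNat 0, .ofNat 0, .ofNat 0, .ofNat 658319983531587967409735769294844723200, .ofNat 0, .ofNat 0, .ofNat 0, .ofNat 0, .ofNat 0, .ofNat 0, .ofNat 0, .ofNat 118354382860780882925357398186210099200, .ofNat 0⟩)
    (by decide +kernel)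
theorem L01824 : Good (Phi V4.P V4.D (-1) (-1)) ⟨7, 110, 5, 18, 4, 14, 3, 7, 5, 2⟩ :=
  leaf_sound (S := T4.ds_mm) T4.ok_mm (w := 232) (c := ⟨⟨.negSucc 1998, .negSucc 116, .ofNat 234, .negSucc 343, .ofNat 786, .ofNat 1411⟩, ⟨.ofNat 1123, .ofNat 90, .negSucc 118, .ofNat 198, .negSucc 449, .negSucc 806⟩, ⟨.ofNat 1007, .ofNat 68, .negSucc 145, .ofNat 223, .negSucc 548, .negSucc 895⟩, ⟨.negSucc 3735, .negSucc 190, .ofNat 348, .negSucc 505, .ofNat 1098, .ofNat 1998⟩, ⟨.negSucc 1282, .negSucc 25, .ofNat 18, .ofNat 19, .negSucc 147, .negSucc 217⟩, .ofNat 5740, .ofNat 9509, .ofNat 0, .ofNat 9509, .ofNat 16867, .ofNat 0, .ofNat 78, .negSucc 620, .negSucc 2169, .ofNat 0, .ofNat 357, .ofNat 1234, .ofNat 0, .ofNat 0, .ofNat 1420, .ofNat 1097, .ofNat 0, .ofNat 0, .ofNat 0, .ofNat 0, .ofNat 0, .ofNat 0, .ofNat 0, .ofNat 0, .ofNat 0, .ofNat 0, .ofNat 0, .ofNat 0, .ofNat 0, .ofNat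 4178487377087982031389176447148111674159923200, .ofNat 56344103889470802517953135107270246400, .ofNat 0⟩)
    (by decide +kernel)
theorem L01825 : Good (Phi V4.P V4.D (-1) (-1)) ⟨7, 110, 6, 36, 4, 14, 3, 6, 5, 3⟩ :=
  leaf_sound (S := T4.ds_mm) T4.ok_mm (w := 232) (c := ⟨⟨.negSucc 2256, .ofNat 620, .negSucc 154, .negSucc 80, .ofNat 1302, .ofNat 1506⟩, ⟨.ofNat 1280, .negSucc 347, .ofNat 99, .ofNat 46, .negSucc 745, .negSucc 861⟩, ⟨.ofNat 1164, .negSucc 356, .ofNat 92, .ofNat 111, .negSucc 859, .negSucc 908⟩, ⟨.negSucc 4103, .ofNat 973, .negSucc 280, .negSucc 126, .ofNat 1802, .ofNat 2032⟩, ⟨.negSucc 1251, .ofNat 72, .negSucc 62, .negSucc 6, .negSucc 270, .negSucc 405⟩, .ofNat 2223, .ofNat 3387, .ofNat 0, .ofNat 3387, .ofNat 6187, .ofNat 0, .ofNat 250, .negSucc 1250, .negSucc 4155, .ofNat 0, .ofNat 723, .ofNat 2341, .ofNat 0, .ofNat 0, .ofNat 2646, .ofNat 5785, .ofNat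 0, .ofNat 0, .ofNat 0, .ofNat 0, .ofNat 0, .ofNat 0, .ofNat 0, .ofNat 0, .ofNat 0, .ofNat 0, .ofNat 0, .ofNat 0, .ofNat 0, .ofNat 0, .ofNat 2493696281120292901837317373466719027200, .ofNat 0⟩)
    (by decide +kernel)
theorem L01826 : Good (Phi V4.P V4.D (-1) (-1)) ⟨7, 110, 6, 36, 4, 14, 3, 7, 5, 3⟩ :=
  leaf_sound (S := T4.ds_mm) T4.ok_mm (w := 232) (c := ⟨⟨.negSucc 1084, .negSucc 70, .ofNat 461, .negSucc 70, .ofNat 1747, .ofNat 2136⟩, ⟨.ofNat 616, .ofNat 41, .negSucc 262, .ofNat 40, .negSucc 998, .negSucc 1221⟩, ⟨.ofNat 345, .ofNat 56, .negSucc 274, .ofNat 165, .negSucc 1122, .negSucc 1265⟩, ⟨.negSucc 2482, .negSucc 162, .ofNat 687, .negSucc 103, .ofNat 2617, .ofNat 3029⟩, ⟨.negSucc 1506, .negSucc 88, .ofNat 21, .ofNat 4, .negSucc 17, .negSucc 319⟩, .ofNat 5687, .ofNat 9422, .ofNat 0, .ofNat 9422, .ofNat 16724, .ofNat 0, .ofNat 158, .negSucc 1276, .negSucc 4350,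 .ofNat 0, .ofNat 734, .ofNat 2474, .ofNat 0, .ofNat 0, .ofNat 2768, .ofNat 1278, .ofNat 0, .ofNat 479904870470649544883375629008522404954112000, .ofNat 0, .ofNat 0, .ofNat 0, .ofNat 0, .ofNat 0, .ofNat 0, .ofNat 0, .ofNat 0, .ofNat 0, .ofNat 0, .ofNat 0, .ofNat 58234691891183782887993698223838581392356147200, .ofNat 0, .ofNat 0⟩)
    (by decide +kernel)
theorem L01827 : Good (Phi V4.P V4.D (-1) (-1)) ⟨8, 220, 6, 37, 4, 14, 2, 3, 5, 3⟩ :=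
  out_sound (S := T4.ds_mm) T4.ok_mm (w := 88) (j := 3) (by decide +kernel)
theorem L01828 : Good (Phi V4.P V4.D (-1) (-1)) ⟨9, 442, 7, 74, 4, 14, 2, 3, 5, 3⟩ :=
  out_sound (S := T4.ds_mm) T4.ok_mm (w := 96) (j := 3) (by decide +kernel)
theorem L01829 : Good (Phi V4.P V4.D (-1) (-1)) ⟨10, 886, 8, 148, 4, 14, 2, 3, 5, 3⟩ :=
  out_sound (S := T4.ds_mm) T4.ok_mm (w := 104) (j := 3) (by decide +kernel)
theorem L01830 : Good (Phi V4.P V4.D (-1) (-1)) ⟨10, 887, 8, 148, 4, 14, 2, 3, 5, 3⟩ :=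
  out_sound (S := T4.ds_mm) T4.ok_mm (w := 32) (j := 4) (by decide +kernel)
theorem L01831 : Good (Phi V4.P V4.D (-1) (-1)) ⟨9, 443, 8, 149, 4, 14, 2, 3, 5, 3⟩ :=
  out_sound (S := T4.ds_mm) T4.ok_mm (w := 96) (j := 3) (by decide +kernel)
theorem L01832 : Good (Phi V4.P V4.D (-1) (-1)) ⟨8, 221, 7, 75, 4, 14, 2, 3, 5, 3⟩ :=
  out_sound (S := T4.ds_mm) T4.ok_mm (w := 88) (j := 3) (by decide +kernel)
theorem L01833 : Good (Phi V4.P V4.D (-1) (-1)) ⟨7, 110, 5, 18, 4, 15, 3, 6, 5, 2⟩ :=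
  leaf_sound (S := T4.ds_mm) T4.ok_mm (w := 232) (c := ⟨⟨.negSucc 2572, .ofNat 383, .negSucc 257, .ofNat 410, .ofNat 262, .ofNat 817⟩, ⟨.ofNat 1452, .negSucc 194, .ofNat 169, .negSucc 234, .negSucc 150, .negSucc 468⟩, ⟨.ofNat 1367, .negSucc 177, .ofNat 116, .negSucc 199, .negSucc 245, .negSucc 461⟩, ⟨.negSucc 4418, .ofNat 554, .negSucc 378, .ofNat 634, .ofNat 245, .ofNat 1077⟩, ⟨.negSucc 961, .negSucc 43, .ofNat 27, .ofNat 31, .negSucc 259, .negSucc 261⟩, .ofNat 5868, .ofNat 9721, .ofNat 0, .ofNat 9721, .ofNat 17219, .ofNat 0, .ofNat 77, .negSucc 690, .negSucc 2041, .ofNat 0, .ofNat 396, .ofNat 1164, .ofNat 0, .ofNat 0, .ofNat 1201, .ofNat 1540, .ofNat 0, .ofNat 0, .ofNat 0, .ofNat 0, .ofNat 0, .ofNat 0, .ofNat 0, .ofNat 0, .ofNat 0, .ofNat 0, .ofNat 0, .ofNat 0, .ofNat 0, .ofNat 0, .ofNat 157111867893794886040861407050307993600, .ofNat 0⟩)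
    (by decide +kernel)
theorem L01834 : Good (Phi V4.P V4.D (-1) (-1)) ⟨7, 110, 6, 36, 4, 15, 3, 7, 5, 2⟩ :=
  leaf_sound (S := T4.ds_mm) T4.ok_mm (w := 232) (c := ⟨⟨.negSucc 2440, .negSucc 294, .ofNat 263, .ofNat 379, .ofNat 548, .ofNat 1665⟩, ⟨.ofNat 1384, .ofNat 169, .negSucc 129, .negSucc 216, .negSucc 312, .negSucc 952⟩, ⟨.ofNat 1207, .ofNat 144, .negSucc 129, .negSucc 182, .negSucc 378, .negSucc 925⟩, ⟨.negSucc 4399, .negSucc 474, .ofNat 404, .ofNat 612, .ofNat 728, .ofNat 2401⟩, ⟨.negSucc 1284, .negSucc 43, .ofNat 21, .ofNat 73, .negSucc 167, .negSucc 178⟩, .ofNat 5726, .ofNat 9486, .ofNat 0, .ofNat 9486, .ofNat 16829, .ofNat 0, .ofNat 79, .negSucc 704, .negSucc 2216, .ofNat 0, .ofNat 404, .ofNat 1260, .ofNat 0, .ofNat 0, .ofNat 1283, .ofNat 666, .ofNat 0, .ofNat 0, .ofNat 0, .ofNat 0, .ofNat 0, .ofNat 0, .ofNat 0, .ofNat 0, .ofNat 0, .ofNat 0, .ofNat 0,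 .ofNat 0, .ofNat 0, .ofNat 12175265717286734519144342860295429831629209600, .ofNat 0, .ofNat 0⟩)
    (by decide +kernel)
theorem L01835 : Good (Phi V4.P V4.D (-1) (-1)) ⟨8, 220, 6, 37, 4, 15, 3, 7, 5, 2⟩ :=
  out_sound (S := T4.ds_mm) T4.ok_mm (w := 88) (j := 3) (by decide +kernel)
theorem L01836 : Good (Phi V4.P V4.D (-1) (-1)) ⟨9, 442, 7, 74, 4, 15, 3, 7, 5, 2⟩ :=
  out_sound (S := T4.ds_mm) T4.ok_mm (w := 96) (j := 3) (by decide +kernel)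
theorem L01837 : Good (Phi V4.P V4.D (-1) (-1)) ⟨10, 886, 8, 148, 4, 15, 3, 7, 5, 2⟩ :=
  out_sound (S := T4.ds_mm) T4.ok_mm (w := 104) (j := 3) (by decide +kernel)
theorem L01838 : Good (Phi V4.P V4.D (-1) (-1)) ⟨10, 887, 8, 148, 4, 15, 3, 7, 5, 2⟩ :=
  out_sound (S := T4.ds_mm) T4.ok_mm (w := 32) (j := 4) (by decide +kernel)
theorem L01839 : Good (Phi V4.P V4.D (-1) (-1)) ⟨9, 443, 8, 149, 4, 15, 3, 7, 5, 2⟩ :=
  out_sound (S := T4.ds_mm) T4.ok_mm (w := 96) (j := 3) (by decide +kernel)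
theorem L01840 : Good (Phi V4.P V4.D (-1) (-1)) ⟨8, 221, 7, 75, 4, 15, 3, 7, 5, 2⟩ :=
  out_sound (S := T4.ds_mm) T4.ok_mm (w := 88) (j := 3) (by decide +kernel)
theorem L01841 : Good (Phi V4.P V4.D (-1) (-1)) ⟨7, 110, 6, 36, 4, 15, 3, 6, 5, 3⟩ :=
  leaf_sound (S := T4.ds_mm) T4.ok_mm (w := 232) (c := ⟨⟨.negSucc 2037, .negSucc 427, .ofNat 587, .ofNat 576, .ofNat 1213, .ofNat 1651⟩, ⟨.ofNat 1160, .ofNat 246, .negSucc 327, .negSucc 328, .negSucc 695, .negSucc 945⟩, ⟨.ofNat 1004, .ofNat 268, .negSucc 334, .negSucc 191, .negSucc 754, .negSucc 896⟩, ⟨.negSucc 3753, .negSucc 695, .ofNat 885, .ofNat 883, .ofNat 1696, .ofNat 2231⟩, ⟨.negSucc 1223, .negSucc 82, .ofNat 29, .ofNat 27, .negSucc 218, .negSucc 437⟩, .ofNat 5753, .ofNat 9530, .ofNat 0, .ofNat 9530, .ofNat 16901, .ofNat 0, .ofNat 156, .negSucc 1400, .negSucc 3923, .ofNat 0, .ofNat 803, .ofNat 2235, .ofNat 0, .ofNat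 0, .ofNat 2299, .ofNat 2621, .ofNat 0, .ofNat 0, .ofNat 0, .ofNat 0, .ofNat 0, .ofNat 0, .ofNat 0, .ofNat 0, .ofNat 0, .ofNat 0, .ofNat 0, .ofNat 0, .ofNat 0, .ofNat 0, .ofNat 0, .ofNat 0⟩)
    (by decide +kernel)
theorem L01842 : Good (Phi V4.P V4.D (-1) (-1)) ⟨8, 220, 6, 36, 4, 15, 3, 7, 5, 3⟩ :=
  leaf_sound (S := T4.ds_mm) T4.ok_mm (w := 240) (c := ⟨⟨.negSucc 1564, .ofNat 374, .ofNat 49, .ofNat 633, .ofNat 1701, .ofNat 2262⟩, ⟨.ofNat 890, .negSucc 217, .negSucc 21, .negSucc 359, .negSucc 967, .negSucc 1287⟩, ⟨.ofNat 682, .negSucc 274, .ofNat 60, .negSucc 176, .negSucc 977, .negSucc 1198⟩, ⟨.negSucc 3254, .ofNat 591, .ofNat 34, .ofNat 1001, .ofNat 2561, .ofNat 3214⟩, ⟨.negSucc 1595, .ofNat 67, .negSucc 47, .ofNat 86, .ofNat 0, .negSucc 336⟩, .ofNat 11762, .ofNat 20095, .ofNat 0, .ofNat 20095, .ofNat 35488, .ofNat 0, .ofNat 121, .negSucc 1431, .negSucc 4199, .ofNat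 0, .ofNat 817, .ofNat 2386, .ofNat 0, .ofNat 0, .ofNat 2422, .ofNat 2445, .ofNat 0, .ofNat 16559984444699955519074578582757939248889856000, .ofNat 0, .ofNat 0, .ofNat 0, .ofNat 0, .ofNat 0, .ofNat 0, .ofNat 0, .ofNat 1801884419101238046691335419751995757918840422400, .ofNat 90792343934886054693020072553322905600, .ofNat 0, .ofNat 0, .ofNat 1905636898185576185620834431148591495477670707200, .ofNat 402329679318447480829338503739133132800, .ofNat 0⟩)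
    (by decide +kernel)
theorem L01843 : Good (Phi V4.P V4.D (-1) (-1)) ⟨8, 221, 6, 36, 4, 15, 4, 14, 5, 3⟩ :=
  leaf_sound (S := T4.ds_mm) T4.ok_mm (w := 240) (c := ⟨⟨.negSucc 1135, .ofNat 888, .negSucc 447, .ofNat 660, .ofNat 900, .ofNat 2372⟩, ⟨.ofNat 650, .negSucc 505, .ofNat 254, .negSucc 378, .negSucc 516, .negSucc 1360⟩, ⟨.ofNat 423, .negSucc 393, .ofNat 174, .negSucc 182, .negSucc 528, .negSucc 1263⟩, ⟨.negSucc 2563, .ofNat 1378, .negSucc 743, .ofNat 1043, .ofNat 1353, .ofNat 3361⟩, ⟨.negSucc 1510, .ofNat 91, .negSucc 98, .ofNat 89, .ofNat 1, .negSucc 354⟩, .ofNat 5961, .ofNat 9876, .ofNat 0, .ofNat 9876, .ofNat 17475, .ofNat 0, .ofNat 154, .negSucc 1435, .negSucc 4462, .ofNat 0, .ofNat 824, .ofNat 2544, .ofNat 0, .ofNat 0, .ofNat 2544, .ofNat 2235, .ofNat 0, .ofNat 0, .ofNat 0, .ofNat 0, .ofNat 0, .ofNat 0, .ofNat 0, .ofNat 0, .ofNat 0, .ofNat 2376563146425873758973233573091471034317746995200,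 .ofNat 0, .ofNat 0, .ofNat 0, .ofNat 0, .ofNat 0, .ofNat 0⟩)
    (by decide +kernel)
theorem L01844 : Good (Phi V4.P V4.D (-1) (-1)) ⟨8, 221, 6, 36, 4, 15, 4, 15, 5, 3⟩ :=
  leaf_sound (S := T4.ds_mm) T4.ok_mm (w := 248) (c := ⟨⟨.negSucc 688, .ofNat 122, .ofNat 372, .ofNat 676, .ofNat 951, .ofNat 3052⟩, ⟨.ofNat 392, .negSucc 71, .negSucc 209, .negSucc 387, .negSucc 549, .negSucc 1753⟩, ⟨.ofNat 117, .negSucc 67, .negSucc 177, .negSucc 203, .negSucc 513, .negSucc 1636⟩, ⟨.negSucc 1946, .ofNat 168, .ofNat 566, .ofNat 1091, .ofNat 1459, .ofNat 4473⟩, ⟨.negSucc 1605, .negSucc 8, .ofNat 28, .ofNat 131, .ofNat 58, .negSucc 194⟩, .ofNat 16055, .ofNat 27435, .ofNat 0, .ofNat 27435, .ofNat 48025, .ofNat 0, .ofNat 195, .negSucc 2898, .negSucc 9543, .ofNat 0, .ofNat 1664, .ofNat 5467, .ofNat 0, .ofNat 0, .ofNat 5403, .ofNat 5107, .ofNat 0, .ofNat 336412230506284000933045774528820879716830412800,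 .ofNat 0, .ofNat 0, .ofNat 0, .ofNat 22449703379145840136138695262063603683014423347200, .ofNat 84709073982021327311142196685813317632000, .ofNat 0, .ofNat 0, .ofNat 64972919110101456971500288120073957848461921484800, .ofNat 0, .ofNat 0, .ofNat 0, .ofNat 41914332160497947173375857878505955711888706764800, .ofNat 0, .ofNat 0⟩)
    (by decide +kernel)
theorem L01845 : Good (Phi V4.P V4.D (-1) (-1)) ⟨8, 220, 6, 37, 4, 15, 2, 3, 5, 3⟩ :=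
  out_sound (S := T4.ds_mm) T4.ok_mm (w := 88) (j := 3) (by decide +kernel)
theorem L01846 : Good (Phi V4.P V4.D (-1) (-1)) ⟨9, 442, 7, 74, 4, 15, 2, 3, 5, 3⟩ :=
  out_sound (S := T4.ds_mm) T4.ok_mm (w := 96) (j := 3) (by decide +kernel)
theorem L01847 : Good (Phi V4.P V4.D (-1) (-1)) ⟨10, 886, 8, 148, 4, 15, 2, 3, 5, 3⟩ :=
  out_sound (S := T4.ds_mm) T4.ok_mm (w := 104) (j := 3) (by decide +kernel)
theorem L01848 : Good (Phi V4.P V4.D (-1) (-1)) ⟨10, 887, 8, 148, 4, 15, 2, 3, 5, 3⟩ :=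
  out_sound (S := T4.ds_mm) T4.ok_mm (w := 32) (j := 4) (by decide +kernel)
theorem L01849 : Good (Phi V4.P V4.D (-1) (-1)) ⟨9, 443, 8, 149, 4, 15, 2, 3, 5, 3⟩ :=
  out_sound (S := T4.ds_mm) T4.ok_mm (w := 96) (j := 3) (by decide +kernel)
theorem L01850 : Good (Phi V4.P V4.D (-1) (-1)) ⟨8, 221, 7, 75, 4, 15, 2, 3, 5, 3⟩ :=
  out_sound (S := T4.ds_mm) T4.ok_mm (w := 88) (j := 3) (by decide +kernel)
theorem L01851 : Good (Phi V4.P V4.D (-1) (-1)) ⟨7, 110, 5, 19, 3, 7, 2, 3, 4, 1⟩ :=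
  out_sound (S := T4.ds_mm) T4.ok_mm (w := 80) (j := 3) (by decide +kernel)
theorem L01852 : Good (Phi V4.P V4.D (-1) (-1)) ⟨7, 111, 4, 9, 3, 7, 2, 3, 4, 1⟩ :=
  out_sound (S := T4.ds_mm) T4.ok_mm (w := 24) (j := 4) (by decide +kernel)
theorem L01853 : Good (Phi V4.P V4.D (-1) (-1)) ⟨3, 7, 3, 4, 3, 7, 1, 1, 3, 0⟩ :=
  out_sound (S := T4.ds_mm) T4.ok_mm (w := 16) (j := 4) (by decide +kernel)
theorem L01854 : Good (Phi V4.P V4.D (-1) (-1)) ⟨3, 6, 3, 5, 3, 7, 1, 1, 3, 0⟩ :=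
  out_sound (S := T4.ds_mm) T4.ok_mm (w := 48) (j := 3) (by decide +kernel)
theorem L01855 : Good (Phi V4.P V4.D (-1) (-1)) ⟨3, 7, 3, 5, 3, 7, 1, 1, 3, 0⟩ :=
  out_sound (S := T4.ds_mm) T4.ok_mm (w := 16) (j := 4) (by decide +kernel)
theorem L01856 : Good (Phi V4.P V4.D (-1) (-1)) ⟨4, 12, 3, 4, 3, 7, 1, 1, 3, 1⟩ :=
  out_sound (S := T4.ds_mm) T4.ok_mm (w := 56) (j := 3) (by decide +kernel)
theorem L01857 : Good (Phi V4.P V4.D (-1) (-1)) ⟨5, 26, 3, 4, 3, 7, 1, 1, 3, 1⟩ :=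
  out_sound (S := T4.ds_mm) T4.ok_mm (w := 64) (j := 3) (by decide +kernel)
theorem L01858 : Good (Phi V4.P V4.D (-1) (-1)) ⟨6, 54, 3, 4, 3, 7, 2, 2, 4, 2⟩ :=
  leaf_sound (S := T4.ds_mm) T4.ok_mm (w := 200) (c := ⟨⟨.negSucc 2723, .negSucc 57, .ofNat 985, .ofNat 562, .ofNat 1475, .ofNat 1300⟩, ⟨.ofNat 1440, .ofNat 50, .negSucc 462, .negSucc 304, .negSucc 809, .negSucc 713⟩, ⟨.ofNat 1561, .ofNat 31, .negSucc 518, .negSucc 131, .negSucc 1064, .negSucc 737⟩, ⟨.negSucc 4511, .negSucc 33, .ofNat 1173, .ofNat 746, .ofNat 1846, .ofNat 1498⟩, ⟨.negSucc 692, .ofNat 38, .negSucc 277, .negSucc 208, .negSucc 736, .negSucc 893⟩, .ofNat 1696, .ofNat 2560, .ofNat 0, .ofNat 2560, .ofNat 4954, .ofNat 0, .ofNat 151, .negSucc 602, .negSucc 1025, .ofNat 0, .ofNat 340, .ofNat 556, .ofNat 0, .ofNat 0, .ofNat 752, .ofNat 1203, .ofNat 0, .ofNat 0, .ofNat 0, .ofNat 0, .ofNat 0, .ofNat 0,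 .ofNat 2204201903822469872608443000422400, .ofNat 0, .ofNat 0, .ofNat 0, .ofNat 1323083870607714454597322303078400, .ofNat 0, .ofNat 0, .ofNat 0, .ofNat 0, .ofNat 0⟩)
    (by decide +kernel)
theorem L01859 : Good (Phi V4.P V4.D (-1) (-1)) ⟨6, 55, 4, 8, 3, 7, 2, 2, 4, 2⟩ :=
  leaf_sound (S := T4.ds_mm) T4.ok_mm (w := 208) (c := ⟨⟨.negSucc 2650, .ofNat 381, .ofNat 211, .ofNat 633, .ofNat 1631, .ofNat 1266⟩, ⟨.ofNat 1458, .negSucc 200, .negSucc 83, .negSucc 358, .negSucc 923, .negSucc 718⟩, ⟨.ofNat 1538, .negSucc 72, .negSucc 155, .negSucc 134, .negSucc 1142, .negSucc 722⟩, ⟨.negSucc 4407, .ofNat 477, .ofNat 312, .ofNat 833, .ofNat 2019, .ofNat 1391⟩, ⟨.negSucc 785, .negSucc 130, .ofNat 53, .negSucc 215, .negSucc 782, .negSucc 920⟩, .ofNat 4712, .ofNat 7798, .ofNat 0, .ofNat 7798, .ofNat 14040, .ofNat 0, .ofNat 174, .negSucc 1231, .negSucc 2168, .ofNat 0, .ofNat 705,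 .ofNat 1224, .ofNat 0, .ofNat 0, .ofNat 1555, .ofNat 1365, .ofNat 0, .ofNat 0, .ofNat 143950160434658415423414652108800, .ofNat 0, .ofNat 0, .ofNat 0, .ofNat 46719249367066388691362009579520000, .ofNat 0, .ofNat 0, .ofNat 0, .ofNat 37365987585857667186241043221708800, .ofNat 0, .ofNat 0, .ofNat 0, .ofNat 25244768073036727152887377113907200, .ofNat 0⟩)
    (by decide +kernel)
theorem L01860 : Good (Phi V4.P V4.D (-1) (-1)) ⟨6, 55, 5, 18, 3, 7, 2, 2, 4, 2⟩ :=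
  leaf_sound (S := T4.ds_mm) T4.ok_mm (w := 208) (c := ⟨⟨.negSucc 2523, .ofNat 198, .ofNat 346, .ofNat 611, .ofNat 1679, .ofNat 1350⟩, ⟨.ofNat 1436, .negSucc 105, .negSucc 177, .negSucc 349, .negSucc 962, .negSucc 774⟩, ⟨.ofNat 1442, .negSucc 95, .negSucc 180, .negSucc 98, .negSucc 1186, .negSucc 758⟩, ⟨.negSucc 4212, .ofNat 253, .ofNat 477, .ofNat 772, .ofNat 2082, .ofNat 1501⟩, ⟨.negSucc 750, .negSucc 54, .negSucc 33, .negSucc 254, .negSucc 770, .negSucc 923⟩, .ofNat 2229, .ofNat 3397, .ofNat 0, .ofNat 3397, .ofNat 6202, .ofNat 0, .ofNat 244, .negSucc 1233, .negSucc 2292, .ofNat 0, .ofNat 719, .ofNat 1302, .ofNat 0, .ofNat 0, .ofNat 1607, .ofNat 1169, .ofNat 0, .ofNat 0, .ofNat 0, .ofNat 0, .ofNat 0, .ofNat 0, .ofNat 0, .ofNat 0, .ofNat 0, .ofNat 0, .ofNat 0, .ofNat 0, .ofNat 0, .ofNat 0, .ofNat 23884800041528613439330238595072000, .ofNat 0⟩)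
    (by decide +kernel)
theorem L01861 : Good (Phi V4.P V4.D (-1) (-1)) ⟨7, 110, 5, 19, 3, 7, 2, 2, 4, 2⟩ :=
  out_sound (S := T4.ds_mm) T4.ok_mm (w := 80) (j := 3) (by decide +kernel)
theorem L01862 : Good (Phi V4.P V4.D (-1) (-1)) ⟨7, 111, 5, 19, 3, 7, 2, 2, 4, 2⟩ :=
  out_sound (S := T4.ds_mm) T4.ok_mm (w := 24) (j := 4) (by decide +kernel)
theorem L01863 : Good (Phi V4.P V4.D (-1) (-1)) ⟨6, 54, 5, 16, 3, 7, 3, 6, 4, 2⟩ :=
  leaf_sound (S := T4.ds_mm) T4.ok_mm (w := 208) (c := ⟨⟨.negSucc 1406, .ofNat 91, .ofNat 312, .ofNat 419, .ofNat 1278, .ofNat 1570⟩, ⟨.ofNat 735, .negSucc 99, .negSucc 128, .negSucc 228, .negSucc 688, .negSucc 852⟩, ⟨.ofNat 579, .negSucc 63, .negSucc 155, .negSucc 21, .negSucc 830, .negSucc 901⟩, ⟨.negSucc 2908, .ofNat 113, .ofNat 420, .ofNat 524, .ofNat 1861, .ofNat 1969⟩, ⟨.negSucc 1468, .negSucc 17, .negSucc 35, .negSucc 215, .negSucc 166,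 .negSucc 799⟩, .ofNat 1639, .ofNat 2471, .ofNat 0, .ofNat 2471, .ofNat 4827, .ofNat 0, .ofNat 319, .negSucc 1234, .negSucc 2399, .ofNat 0, .ofNat 687, .ofNat 1279, .ofNat 0, .ofNat 0, .ofNat 1668, .ofNat 2139, .ofNat 0, .ofNat 0, .ofNat 0, .ofNat 0, .ofNat 0, .ofNat 0, .ofNat 0, .ofNat 0, .ofNat 0, .ofNat 1339648242601588904869521659335659434803200, .ofNat 0, .ofNat 0, .ofNat 0, .ofNat 0, .ofNat 0, .ofNat 0⟩)
    (by decide +kernel)
theorem L01864 : Good (Phi V4.P V4.D (-1) (-1)) ⟨6, 54, 5, 16, 3, 7, 3, 7, 4, 2⟩ :=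
  leaf_sound (S := T4.ds_mm) T4.ok_mm (w := 216) (c := ⟨⟨.negSucc 463, .ofNat 762, .ofNat 70, .ofNat 426, .ofNat 1561, .ofNat 2402⟩, ⟨.ofNat 227, .negSucc 456, .negSucc 11, .negSucc 227, .negSucc 831, .negSucc 1294⟩, ⟨.negSucc 52, .negSucc 439, .negSucc 31, .negSucc 5, .negSucc 991, .negSucc 1405⟩, ⟨.negSucc 1619, .ofNat 1138, .ofNat 41, .ofNat 617, .ofNat 2397, .ofNat 3335⟩, ⟨.negSucc 1749, .negSucc 0, .negSucc 53, .negSucc 62, .ofNat 20, .negSucc 624⟩, .ofNat 2899, .ofNat 4776, .ofNat 0, .ofNat 4776, .ofNat 9073, .ofNat 0, .ofNat 515, .negSucc 2545, .negSucc 6128, .ofNat 0, .ofNat 1398, .ofNat 3275, .ofNat 0, .ofNat 0, .ofNat 4047, .ofNat 3427, .ofNat 0, .ofNat 124043135603691645266525043140579033088000, .ofNat 0, .ofNat 0, .ofNat 0, .ofNat 5310230622498652996750081883849517485260800, .ofNat 2285838503151597880798961340304588800, .ofNat 0, .ofNat 0, .ofNat 17163300819902825358654075981655719070924800,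 .ofNat 828415444974884364944045590865510400, .ofNat 0, .ofNat 0, .ofNat 12757757878106491269985932047392246962585600, .ofNat 0, .ofNat 0⟩)
    (by decide +kernel)
theorem L01865 : Good (Phi V4.P V4.D (-1) (-1)) ⟨6, 54, 5, 17, 3, 7, 3, 6, 4, 2⟩ :=
  leaf_sound (S := T4.ds_mm) T4.ok_mm (w := 216) (c := ⟨⟨.negSucc 1347, .ofNat 137, .ofNat 481, .ofNat 522, .ofNat 1569, .ofNat 1610⟩, ⟨.ofNat 753, .negSucc 106, .negSucc 249, .negSucc 291, .negSucc 870, .negSucc 895⟩, ⟨.ofNat 542, .negSucc 154, .negSucc 194, .ofNat 1, .negSucc 960, .negSucc 909⟩, ⟨.negSucc 2845, .ofNat 134, .ofNat 683, .ofNat 703, .ofNat 2293, .ofNat 1995⟩, ⟨.negSucc 1503, .negSucc 98, .negSucc 1, .negSucc 156, .negSucc 152, .negSucc 809⟩, .ofNat 3837, .ofNat 6347, .ofNat 0, .ofNat 6347, .ofNat 11662, .ofNat 0, .ofNat 207, .negSucc 1272, .negSucc 2582, .ofNat 0, .ofNat 715, .ofNat 1428, .ofNat 0, .ofNat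 0, .ofNat 1748, .ofNat 3363, .ofNat 0, .ofNat 0, .ofNat 0, .ofNat 0, .ofNat 0, .ofNat 0, .ofNat 0, .ofNat 0, .ofNat 0, .ofNat 890473224488566402991754114860733117235200, .ofNat 58486001647716767488603771109376000, .ofNat 0, .ofNat 0, .ofNat 530181477444244559288889657111427311206400, .ofNat 152914580155049087894399846291865600, .ofNat 0⟩)
    (by decide +kernel)
theorem L01866 : Good (Phi V4.P V4.D (-1) (-1)) ⟨6, 54, 5, 17, 3, 7, 4, 14, 4, 2⟩ :=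
  leaf_sound (S := T4.ds_mm) T4.ok_mm (w := 216) (c := ⟨⟨.negSucc 728, .ofNat 1082, .ofNat 140, .ofNat 598, .ofNat 960, .ofNat 2688⟩, ⟨.ofNat 428, .negSucc 655, .negSucc 55, .negSucc 330, .negSucc 530, .negSucc 1490⟩, ⟨.negSucc 47, .negSucc 465, .negSucc 140, .ofNat 2, .negSucc 578, .negSucc 1511⟩, ⟨.negSucc 2037, .ofNat 1574, .ofNat 162, .ofNat 878, .ofNat 1460, .ofNat 3721⟩, ⟨.negSucc 1781, .negSucc 22, .negSucc 38, .negSucc 51, .ofNat 9, .negSucc 643⟩, .ofNat 1879, .ofNat 2848, .ofNat 0, .ofNat 2848, .ofNat 5382, .ofNat 0, .ofNat 587, .negSucc 2618, .negSucc 6904, .ofNat 0, .ofNat 1475, .ofNat 3764, .ofNat 0, .ofNat 0, .ofNat 4348, .ofNat 3300, .ofNat 0, .ofNat 152575265583560729933048460114278114918400, .ofNat 0, .ofNat 0, .ofNat 0, .ofNat 0, .ofNat 0, .ofNat 0, .ofNat 0, .ofNat 20347137006731462097091928851231206172262400, .ofNat 8377703383999623488949949536455884800,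 .ofNat 0, .ofNat 0, .ofNat 0, .ofNat 0, .ofNat 0⟩)
    (by decide +kernel)
theorem L01867 : Good (Phi V4.P V4.D (-1) (-1)) ⟨6, 54, 5, 17, 3, 7, 4, 15, 4, 2⟩ :=
  out_sound (S := T4.ds_mm) T4.ok_mm (w := 40) (j := 2) (by decide +kernel)
theorem L01868 : Good (Phi V4.P V4.D (-1) (-1)) ⟨6, 54, 4, 9, 3, 7, 2, 3, 4, 2⟩ :=
  out_sound (S := T4.ds_mm) T4.ok_mm (w := 72) (j := 3) (by decide +kernel)
theorem L01869 : Good (Phi V4.P V4.D (-1) (-1)) ⟨6, 55, 4, 8, 3, 7, 3, 6, 4, 2⟩ :=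
  leaf_sound (S := T4.ds_mm) T4.ok_mm (w := 208) (c := ⟨⟨.negSucc 1560, .ofNat 201, .ofNat 740, .ofNat 611, .ofNat 1669, .ofNat 1496⟩, ⟨.ofNat 853, .negSucc 136, .negSucc 395, .negSucc 344, .negSucc 940, .negSucc 845⟩, ⟨.ofNat 636, .negSucc 46, .negSucc 423, .negSucc 31, .negSucc 1034, .negSucc 855⟩, ⟨.negSucc 3219, .ofNat 179, .ofNat 1084, .ofNat 810, .ofNat 2424, .ofNat 1808⟩, ⟨.negSucc 1619, .negSucc 105, .ofNat 31, .negSucc 197, .negSucc 167, .negSucc 801⟩, .ofNat 4630, .ofNat 7661, .ofNat 0, .ofNat 7661, .ofNat 13812, .ofNat 0, .ofNat 180, .negSucc 1273, .negSucc 2543, .ofNat 0, .ofNat 726, .ofNat 1430, .ofNat 0, .ofNat 0, .ofNat 1724, .ofNat 1368, .ofNat 0, .ofNat 1567713378436478548454970095511483187200, .ofNat 1164845215243795542287440674816000, .ofNat 0, .ofNat 0, .ofNat 0, .ofNat 374350388399713840317359585859993600, .ofNat 0, .ofNat 0, .ofNat 395268011197226014314274282575926761881600,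 .ofNat 155417883653596950023286343650508800, .ofNat 0, .ofNat 0, .ofNat 0, .ofNat 226457758607816693671831490317516800, .ofNat 0⟩)
    (by decide +kernel)
theorem L01870 : Good (Phi V4.P V4.D (-1) (-1)) ⟨6, 55, 5, 16, 3, 7, 3, 7, 4, 2⟩ :=
  out_sound (S := T4.ds_mm) T4.ok_mm (w := 72) (j := 3) (by decide +kernel)
theorem L01871 : Good (Phi V4.P V4.D (-1) (-1)) ⟨6, 55, 5, 17, 3, 7, 4, 14, 4, 2⟩ :=
  leaf_sound (S := T4.ds_mm) T4.ok_mm (w := 216) (c := ⟨⟨.ofNat 43, .ofNat 757, .ofNat 503, .ofNat 754, .ofNat 1123, .ofNat 2668⟩, ⟨.negSucc 29, .negSucc 454, .negSucc 284, .negSucc 424, .negSucc 632, .negSucc 1509⟩, ⟨.negSucc 394, .negSucc 359, .negSucc 283, .negSucc 13, .negSucc 695, .negSucc 1538⟩, ⟨.negSucc 918, .ofNat 1122, .ofNat 677, .ofNat 1131, .ofNat 1723, .ofNat 3676⟩, ⟨.negSucc 1810, .ofNat 35, .negSucc 72, .negSucc 11, .ofNat 50, .negSucc 616⟩, .ofNat 4740,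 .ofNat 7846, .ofNat 0, .ofNat 7846, .ofNat 14119, .ofNat 0, .ofNat 181, .negSucc 1321, .negSucc 3521, .ofNat 0, .ofNat 752, .ofNat 1978, .ofNat 0, .ofNat 0, .ofNat 2216, .ofNat 2055, .ofNat 0, .ofNat 150798777365188757982213438596163462758400, .ofNat 8168629417376277616648149742387200, .ofNat 0, .ofNat 0, .ofNat 4329169382991846916694933257108153643827200, .ofNat 8092994407375489930046108928363724800, .ofNat 0, .ofNat 0, .ofNat 11090528073911263468193777392997460502118400, .ofNat 2824654271419825618781571879901593600, .ofNat 0, .ofNat 0, .ofNat 4049562200027505243021843625182665008742400, .ofNat 1947204806159441346633516888096768000, .ofNat 0⟩)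
    (by decide +kernel)
theorem L01872 : Good (Phi V4.P V4.D (-1) (-1)) ⟨6, 55, 5, 17, 3, 7, 4, 15, 4, 2⟩ :=
  out_sound (S := T4.ds_mm) T4.ok_mm (w := 40) (j := 2) (by decide +kernel)
theorem L01873 : Good (Phi V4.P V4.D (-1) (-1)) ⟨7, 110, 6, 36, 3, 7, 3, 6, 4, 2⟩ :=
  leaf_sound (S := T4.ds_mm) T4.ok_mm (w := 216) (c := ⟨⟨.negSucc 748, .negSucc 247, .ofNat 423, .ofNat 680, .ofNat 1884, .ofNat 1424⟩, ⟨.ofNat 426, .ofNat 144, .negSucc 245, .negSucc 389, .negSucc 1078, .negSucc 816⟩, ⟨.ofNat 93, .ofNat 255, .negSucc 275, .negSucc 7, .negSucc 1129, .negSucc 805⟩, ⟨.negSucc 2022, .negSucc 437, .ofNat 623, .ofNat 938, .ofNat 2747, .ofNat 1660⟩, ⟨.negSucc 1592, .negSucc 108, .ofNat 28, .negSucc 147, .negSucc 147, .negSucc 839⟩, .ofNat 5800, .ofNat 9609, .ofNat 0, .ofNat 9609, .ofNat 17032, .ofNat 0, .ofNat 77, .negSucc 654, .negSucc 1354, .ofNat 0, .ofNat 377, .ofNat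 773, .ofNat 0, .ofNat 0, .ofNat 889, .ofNat 1249, .ofNat 0, .ofNat 419884584600884095351999843797708885196800, .ofNat 0, .ofNat 0, .ofNat 0, .ofNat 0, .ofNat 0, .ofNat 0, .ofNat 0, .ofNat 16523207737589858006119057366726859135385600, .ofNat 0, .ofNat 0, .ofNat 0, .ofNat 0, .ofNat 37767957957794144832552349728768000, .ofNat 0⟩)
    (by decide +kernel)
theorem L01874 : Good (Phi V4.P V4.D (-1) (-1)) ⟨8, 220, 6, 36, 3, 7, 4, 14, 4, 2⟩ :=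
  leaf_sound (S := T4.ds_mm) T4.ok_mm (w := 232) (c := ⟨⟨.ofNat 169, .ofNat 494, .ofNat 132, .ofNat 889, .ofNat 1304, .ofNat 2806⟩, ⟨.negSucc 91, .negSucc 292, .negSucc 72, .negSucc 505, .negSucc 740, .negSucc 1596⟩, ⟨.negSucc 604, .negSucc 139, .negSucc 170, .negSucc 38, .negSucc 761, .negSucc 1560⟩, ⟨.negSucc 810, .ofNat 737, .ofNat 183, .ofNat 1341, .ofNat 2001, .ofNat 3853⟩, ⟨.negSucc 1903, .ofNat 19, .negSucc 1, .ofNat 4, .ofNat 66, .negSucc 654⟩, .ofNat 22855, .ofNat 39532, .ofNat 0, .ofNat 39532, .ofNat 69551, .ofNat 0, .ofNat 101, .negSucc 1337, .negSucc 3531, .ofNat 0, .ofNat 764, .ofNat 2010, .ofNat 0, .ofNat 0, .ofNat 2208, .ofNat 2038, .ofNat 0, .ofNat 109508194697923100462299112020055890172313600, .ofNat 0, .ofNat 0, .ofNat 0, .ofNat 0, .ofNat 0, .ofNat 0, .ofNat 0, .ofNat 7051171775934656231081919402757113517808025600, .ofNat 815222667606004837451926050177024000,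 .ofNat 0, .ofNat 0, .ofNat 0, .ofNat 0, .ofNat 0⟩)
    (by decide +kernel)
theorem L01875 : Good (Phi V4.P V4.D (-1) (-1)) ⟨8, 220, 6, 36, 3, 7, 4, 15, 4, 2⟩ :=
  out_sound (S := T4.ds_mm) T4.ok_mm (w := 40) (j := 2) (by decide +kernel)
theorem L01876 : Good (Phi V4.P V4.D (-1) (-1)) ⟨8, 221, 7, 72, 3, 7, 4, 14, 4, 2⟩ :=
  leaf_sound (S := T4.ds_mm) T4.ok_mm (w := 232) (c := ⟨⟨.ofNat 705, .ofNat 437, .ofNat 23, .ofNat 862, .ofNat 1203, .ofNat 2827⟩, ⟨.negSucc 404, .negSucc 256, .negSucc 15, .negSucc 491, .negSucc 686, .negSucc 1616⟩, ⟨.negSucc 791, .negSucc 195, .negSucc 32, .negSucc 9, .negSucc 713, .negSucc 1563⟩, ⟨.ofNat 13, .ofNat 700, .negSucc 14, .ofNat 1310, .ofNat 1835, .ofNat 3850⟩, ⟨.negSucc 1851, .ofNat 91, .negSucc 65, .ofNat 24, .ofNat 45, .negSucc 701⟩, .ofNat 23604, .ofNat 40698, .ofNat 0, .ofNat 40698, .ofNat 71333, .ofNat 0, .ofNat 89, .negSucc 1359,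 .negSucc 3658, .ofNat 0, .ofNat 779, .ofNat 2091, .ofNat 0, .ofNat 0, .ofNat 2247, .ofNat 2144, .ofNat 0, .ofNat 555262967164514680563873147086275949572915200, .ofNat 0, .ofNat 0, .ofNat 0, .ofNat 15491915555761337408248031328233191356393062400, .ofNat 7409203781983526619207899623194624000, .ofNat 0, .ofNat 0, .ofNat 44495200990113358089081526588634987275223040000, .ofNat 0, .ofNat 0, .ofNat 0, .ofNat 10558469156412071995986225848205823857760665600, .ofNat 0, .ofNat 0⟩)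
    (by decide +kernel)
theorem L01877 : Good (Phi V4.P V4.D (-1) (-1)) ⟨8, 221, 7, 72, 3, 7, 4, 15, 4, 2⟩ :=
  out_sound (S := T4.ds_mm) T4.ok_mm (w := 40) (j := 2) (by decide +kernel)
theorem L01878 : Good (Phi V4.P V4.D (-1) (-1)) ⟨8, 221, 7, 73, 3, 7, 4, 14, 4, 2⟩ :=
  leaf_sound (S := T4.ds_mm) T4.ok_mm (w := 232) (c := ⟨⟨.ofNat 762, .negSucc 54, .ofNat 322, .ofNat 974, .ofNat 1358, .ofNat 2762⟩, ⟨.negSucc 434, .ofNat 27, .negSucc 189, .negSucc 559, .negSucc 780, .negSucc 1588⟩, ⟨.negSucc 841, .ofNat 12, .negSucc 153, .negSucc 47, .negSucc 796, .negSucc 1534⟩, ⟨.ofNat 50, .negSucc 100, .ofNat 483, .ofNat 1486, .ofNat 2067, .ofNat 3790⟩, ⟨.negSucc 1919, .negSucc 17, .ofNat 23, .ofNat 41, .ofNat 48, .negSucc 619⟩, .ofNat 17573, .ofNat 30030, .ofNat 0, .ofNat 30030, .ofNat 52458, .ofNat 0, .ofNat 45, .negSucc 665, .negSucc 1832, .ofNat 0, .ofNat 383, .ofNat 1052,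 .ofNat 0, .ofNat 0, .ofNat 1144, .ofNat 1301, .ofNat 0, .ofNat 318244346284729016603431803685530137473843200, .ofNat 0, .ofNat 0, .ofNat 0, .ofNat 1839311205978292537993985539533486562895462400, .ofNat 1255367590104911503830478857909043200, .ofNat 0, .ofNat 0, .ofNat 11491864514587960436819535302550533276329574400, .ofNat 0, .ofNat 0, .ofNat 0, .ofNat 2743358442123191691796762380233169996192153600, .ofNat 0, .ofNat 0⟩)
    (by decide +kernel)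
theorem L01879 : Good (Phi V4.P V4.D (-1) (-1)) ⟨8, 221, 7, 73, 3, 7, 4, 15, 4, 2⟩ :=
  out_sound (S := T4.ds_mm) T4.ok_mm (w := 40) (j := 2) (by decide +kernel)
theorem L01880 : Good (Phi V4.P V4.D (-1) (-1)) ⟨8, 220, 6, 37, 3, 7, 2, 3, 4, 2⟩ :=
  out_sound (S := T4.ds_mm) T4.ok_mm (w := 88) (j := 3) (by decide +kernel)
theorem L01881 : Good (Phi V4.P V4.D (-1) (-1)) ⟨9, 442, 7, 74, 3, 7, 2, 3, 4, 2⟩ :=
  out_sound (S := T4.ds_mm) T4.ok_mm (w := 96) (j := 3) (by decide +kernel)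
theorem L01882 : Good (Phi V4.P V4.D (-1) (-1)) ⟨10, 886, 8, 148, 3, 7, 2, 3, 4, 2⟩ :=
  out_sound (S := T4.ds_mm) T4.ok_mm (w := 104) (j := 3) (by decide +kernel)
theorem L01883 : Good (Phi V4.P V4.D (-1) (-1)) ⟨10, 887, 8, 148, 3, 7, 2, 3, 4, 2⟩ :=
  out_sound (S := T4.ds_mm) T4.ok_mm (w := 32) (j := 4) (by decide +kernel)
theorem L01884 : Good (Phi V4.P V4.D (-1) (-1)) ⟨9, 443, 8, 149, 3, 7, 2, 3, 4, 2⟩ :=
  out_sound (S := T4.ds_mm) T4.ok_mm (w := 96) (j := 3) (by decide +kernel)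
theorem L01885 : Good (Phi V4.P V4.D (-1) (-1)) ⟨8, 221, 7, 75, 3, 7, 2, 3, 4, 2⟩ :=
  out_sound (S := T4.ds_mm) T4.ok_mm (w := 88) (j := 3) (by decide +kernel)
theorem L01886 : Good (Phi V4.P V4.D (-1) (-1)) ⟨7, 111, 5, 18, 3, 7, 2, 3, 4, 2⟩ :=
  out_sound (S := T4.ds_mm) T4.ok_mm (w := 24) (j := 4) (by decide +kernel)
theorem L01887 : Good (Phi V4.P V4.D (-1) (-1)) ⟨7, 110, 5, 19, 3, 7, 2, 3, 4, 2⟩ :=
  out_sound (S := T4.ds_mm) T4.ok_mm (w := 80) (j := 3) (by decide +kernel)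
theorem L01888 : Good (Phi V4.P V4.D (-1) (-1)) ⟨7, 111, 5, 19, 3, 7, 2, 3, 4, 2⟩ :=
  out_sound (S := T4.ds_mm) T4.ok_mm (w := 24) (j := 4) (by decide +kernel)
theorem L01889 : Good (Phi V4.P V4.D (-1) (-1)) ⟨5, 27, 3, 4, 3, 7, 2, 2, 4, 3⟩ :=
  leaf_sound (S := T4.ds_mm) T4.ok_mm (w := 192) (c := ⟨⟨.negSucc 1367, .ofNat 976, .negSucc 360, .ofNat 407, .ofNat 1416, .ofNat 508⟩, ⟨.ofNat 718, .negSucc 614, .ofNat 362, .negSucc 229, .negSucc 785, .negSucc 286⟩, ⟨.ofNat 774, .negSucc 489, .ofNat 213, .ofNat 19, .negSucc 1078, .negSucc 299⟩, ⟨.negSucc 2823, .ofNat 1418, .negSucc 855, .ofNat 303, .ofNat 1829, .ofNat 339⟩, ⟨.negSucc 1486, .ofNat 147, .negSucc 455, .negSucc 570, .negSucc 576, .negSucc 783⟩, .ofNat 771, .ofNat 905, .ofNat 0, .ofNat 905, .ofNat 1886, .ofNat 0, .ofNat 432, .negSucc 1013, .negSucc 1222, .ofNat 0, .ofNat 631, .ofNat 676, .ofNat 0, .ofNat 0, .ofNat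 1162, .ofNat 615, .ofNat 0, .ofNat 0, .ofNat 92610478686709423784442042777600, .ofNat 0, .ofNat 0, .ofNat 0, .ofNat 0, .ofNat 0, .ofNat 0, .ofNat 0, .ofNat 0, .ofNat 0, .ofNat 0, .ofNat 0, .ofNat 0, .ofNat 0⟩)
    (by decide +kernel)
theorem L01890 : Good (Phi V4.P V4.D (-1) (-1)) ⟨6, 54, 3, 4, 3, 7, 3, 6, 4, 3⟩ :=
  leaf_sound (S := T4.ds_mm) T4.ok_mm (w := 208) (c := ⟨⟨.ofNat 29, .ofNat 298, .ofNat 585, .ofNat 423, .ofNat 1278, .ofNat 718⟩, ⟨.negSucc 37, .negSucc 212, .negSucc 208, .negSucc 233, .negSucc 695, .negSucc 393⟩, ⟨.negSucc 267, .negSucc 188, .negSucc 235, .ofNat 13, .negSucc 835, .negSucc 421⟩, ⟨.negSucc 1056, .ofNat 283, .ofNat 829, .ofNat 436, .ofNat 1868, .ofNat 783⟩, ⟨.negSucc 2141, .negSucc 195, .ofNat 100, .negSucc 381, .negSucc 139, .negSucc 568⟩, .ofNat 1718, .ofNat 2596, .ofNat 0, .ofNat 2596, .ofNat 5012, .ofNat 0, .ofNat 594, .negSucc 2295,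 .negSucc 3641, .ofNat 0, .ofNat 1298, .ofNat 1968, .ofNat 0, .ofNat 0, .ofNat 2845, .ofNat 8859, .ofNat 0, .ofNat 13415337813372692078410364649305486131200, .ofNat 0, .ofNat 0, .ofNat 0, .ofNat 564037129894305553879186515620145188044800, .ofNat 0, .ofNat 0, .ofNat 0, .ofNat 1611073353251302836162587163566055987609600, .ofNat 113776321059708890985680912724787200, .ofNat 0, .ofNat 0, .ofNat 748743789605280803826957119912866637414400, .ofNat 112631024153812323893273169179443200, .ofNat 0⟩)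
    (by decide +kernel)
theorem L01891 : Good (Phi V4.P V4.D (-1) (-1)) ⟨6, 55, 3, 4, 3, 7, 3, 6, 4, 3⟩ :=
  leaf_sound (S := T4.ds_mm) T4.ok_mm (w := 208) (c := ⟨⟨.ofNat 389, .ofNat 566, .ofNat 336, .ofNat 466, .ofNat 1542, .ofNat 593⟩, ⟨.negSucc 227, .negSucc 329, .negSucc 190, .negSucc 265, .negSucc 877, .negSucc 336⟩, ⟨.negSucc 491, .negSucc 309, .negSucc 142, .ofNat 49, .negSucc 991, .negSucc 357⟩, ⟨.negSucc 657, .ofNat 663, .ofNat 425, .ofNat 481, .ofNat 2247, .ofNat 575⟩, ⟨.negSucc 2282, .negSucc 144, .negSucc 33, .negSucc 387, .negSucc 130, .negSucc 559⟩, .ofNat 2146, .ofNat 3268, .ofNat 0, .ofNat 3268, .ofNat 6006, .ofNat 0, .ofNat 498, .negSucc 2356, .negSucc 3920, .ofNat 0, .ofNat 1368, .ofNat 2208, .ofNat 0, .ofNat 0, .ofNat 2950, .ofNat 3569, .ofNat 0, .ofNat 4745355901449213777633876103832744755200, .ofNat 0, .ofNat 0, .ofNat 0, .ofNat 406592759909476810017515179116940020940800,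 .ofNat 394362776264063249370965605141708800, .ofNat 0, .ofNat 0, .ofNat 1212493357734525526797508749412744455782400, .ofNat 0, .ofNat 0, .ofNat 0, .ofNat 814464635910402487128787935159472934092800, .ofNat 0, .ofNat 0⟩)
    (by decide +kernel)
theorem L01892 : Good (Phi V4.P V4.D (-1) (-1)) ⟨5, 27, 3, 4, 3, 7, 3, 7, 4, 3⟩ :=
  out_sound (S := T4.ds_mm) T4.ok_mm (w := 40) (j := 2) (by decide +kernel)
theorem L01893 : Good (Phi V4.P V4.D (-1) (-1)) ⟨3, 6, 3, 5, 3, 7, 1, 1, 3, 1⟩ :=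
  out_sound (S := T4.ds_mm) T4.ok_mm (w := 48) (j := 3) (by decide +kernel)
theorem L01894 : Good (Phi V4.P V4.D (-1) (-1)) ⟨3, 7, 2, 2, 3, 7, 1, 1, 3, 1⟩ :=
  out_sound (S := T4.ds_mm) T4.ok_mm (w := 16) (j := 4) (by decide +kernel)
theorem L01895 : Good (Phi V4.P V4.D (-1) (-1)) ⟨3, 6, 2, 3, 2, 3, 1, 1, 2, 0⟩ :=
  out_sound (S := T4.ds_mm) T4.ok_mm (w := 48) (j := 3) (by decide +kernel)
theorem L01896 : Good (Phi V4.P V4.D (-1) (-1)) ⟨3, 7, 2, 3, 2, 3, 1, 1, 2, 0⟩ :=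
  out_sound (S := T4.ds_mm) T4.ok_mm (w := 16) (j := 4) (by decide +kernel)
theorem L01897 : Good (Phi V4.P V4.D (-1) (-1)) ⟨2, 2, 1, 1, 1, 1, 1, 1, 2, 1⟩ :=
  out_sound (S := T4.ds_mm) T4.ok_mm (w := 40) (j := 3) (by decide +kernel)
theorem L01898 : Good (Phi V4.P V4.D (-1) (-1)) ⟨4, 12, 2, 2, 2, 2, 1, 1, 3, 2⟩ :=
  out_sound (S := T4.ds_mm) T4.ok_mm (w := 56) (j := 3) (by decide +kernel)
theorem L01899 : Good (Phi V4.P V4.D (-1) (-1)) ⟨5, 26, 3, 4, 2, 2, 1, 1, 3, 2⟩ :=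
  out_sound (S := T4.ds_mm) T4.ok_mm (w := 64) (j := 3) (by decide +kernel)
theorem L01900 : Good (Phi V4.P V4.D (-1) (-1)) ⟨6, 54, 4, 8, 2, 2, 2, 2, 3, 2⟩ :=
  leaf_sound (S := T4.ds_mm) T4.ok_mm (w := 184) (c := ⟨⟨.negSucc 1159, .ofNat 59, .ofNat 62, .ofNat 530, .ofNat 915, .ofNat 382⟩, ⟨.ofNat 612, .negSucc 65, .ofNat 34, .negSucc 301, .negSucc 496, .negSucc 209⟩, ⟨.ofNat 744, .ofNat 7, .negSucc 109, .negSucc 421, .negSucc 873, .negSucc 259⟩, ⟨.negSucc 2100, .negSucc 22, .ofNat 124, .ofNat 209, .ofNat 1293, .ofNat 475⟩, ⟨.negSucc 654, .negSucc 197, .ofNat 139, .negSucc 1106, .negSucc 189, .negSucc 193⟩, .ofNat 747, .ofNat 869, .ofNat 0, .ofNat 869, .ofNat 1851, .ofNat 0, .ofNat 337, .negSucc 603, .negSucc 864, .ofNat 0, .ofNat 400, .ofNat 459, .ofNat 0, .ofNat 0, .ofNat 1112, .ofNat 3185, .ofNat 0, .ofNat 0, .ofNat 0, .ofNat 0, .ofNat 0, .ofNat 0, .ofNat 0, .ofNat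 0, .ofNat 0, .ofNat 0, .ofNat 852021370669248056151716659200, .ofNat 0, .ofNat 0, .ofNat 0, .ofNat 0, .ofNat 0⟩)
    (by decide +kernel)
theorem L01901 : Good (Phi V4.P V4.D (-1) (-1)) ⟨6, 54, 4, 8, 2, 2, 2, 3, 3, 2⟩ :=
  leaf_sound (S := T4.ds_mm) T4.ok_mm (w := 192) (c := ⟨⟨.negSucc 321, .ofNat 51, .ofNat 170, .ofNat 806, .ofNat 1534, .ofNat 370⟩, ⟨.ofNat 164, .negSucc 44, .negSucc 69, .negSucc 450, .negSucc 831, .negSucc 201⟩, ⟨.negSucc 84, .negSucc 51, .negSucc 130, .negSucc 577, .negSucc 1337, .negSucc 234⟩, ⟨.negSucc 963, .ofNat 46, .ofNat 199, .ofNat 661, .ofNat 2382, .ofNat 525⟩, ⟨.negSucc 926, .negSucc 26, .negSucc 18, .negSucc 1046, .ofNat 87, .negSucc 64⟩, .ofNat 742, .ofNat 862, .ofNat 0, .ofNat 862, .ofNat 1843, .ofNat 0, .ofNat 1429, .negSucc 2518, .negSucc 4434, .ofNat 0, .ofNat 1666, .ofNat 2282, .ofNat 0, .ofNat 0, .ofNat 5082, .ofNat 7006, .ofNat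 0, .ofNat 34447442905088321662309904262837043200, .ofNat 0, .ofNat 0, .ofNat 0, .ofNat 9347119143446093475139226487509483520000, .ofNat 0, .ofNat 0, .ofNat 0, .ofNat 9828197430239501645564005262636875776000, .ofNat 0, .ofNat 0, .ofNat 0, .ofNat 9467060613471519370044446927699627212800, .ofNat 0, .ofNat 0⟩)
    (by decide +kernel)
theorem L01902 : Good (Phi V4.P V4.D (-1) (-1)) ⟨6, 55, 5, 16, 2, 2, 1, 1, 3, 2⟩ :=
  out_sound (S := T4.ds_mm) T4.ok_mm (w := 72) (j := 3) (by decide +kernel)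
theorem L01903 : Good (Phi V4.P V4.D (-1) (-1)) ⟨7, 110, 6, 34, 2, 2, 1, 1, 3, 2⟩ :=
  out_sound (S := T4.ds_mm) T4.ok_mm (w := 80) (j := 3) (by decide +kernel)
theorem L01904 : Good (Phi V4.P V4.D (-1) (-1)) ⟨7, 110, 6, 35, 2, 2, 2, 2, 3, 2⟩ :=
  leaf_sound (S := T4.ds_mm) T4.ok_mm (w := 200) (c := ⟨⟨.negSucc 1121, .ofNat 198, .negSucc 50, .ofNat 612, .ofNat 1033, .ofNat 390⟩, ⟨.ofNat 622, .negSucc 126, .ofNat 44, .negSucc 350, .negSucc 583, .negSucc 220⟩, ⟨.ofNat 712, .negSucc 137, .ofNat 43, .negSucc 467, .negSucc 975, .negSucc 269⟩, ⟨.negSucc 2098, .ofNat 251, .negSucc 89, .ofNat 287, .ofNat 1466, .ofNat 486⟩, ⟨.negSucc 735, .negSucc 58, .negSucc 9, .negSucc 1127, .negSucc 164, .negSucc 181⟩, .ofNat 12852, .ofNat 22151, .ofNat 0, .ofNat 22151, .ofNat 39359, .ofNat 0, .ofNat 47, .negSucc 348, .negSucc 446, .ofNat 0, .ofNat 201, .ofNat 253, .ofNat 0, .ofNat 0,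 .ofNat 563, .ofNat 1782, .ofNat 0, .ofNat 0, .ofNat 0, .ofNat 0, .ofNat 0, .ofNat 3405455507713687696283182911012313497600, .ofNat 3127059970426320222032599449600, .ofNat 0, .ofNat 0, .ofNat 0, .ofNat 446503839023118184679787724800, .ofNat 0, .ofNat 0, .ofNat 0, .ofNat 0, .ofNat 0⟩)
    (by decide +kernel)
theorem L01905 : Good (Phi V4.P V4.D (-1) (-1)) ⟨7, 110, 6, 35, 2, 2, 2, 3, 3, 2⟩ :=
  leaf_sound (S := T4.ds_mm) T4.ok_mm (w := 200) (c := ⟨⟨.negSucc 184, .ofNat 9, .ofNat 68, .ofNat 898, .ofNat 1616, .ofNat 332⟩, ⟨.ofNat 97, .negSucc 16, .negSucc 31, .negSucc 510, .negSucc 909, .negSucc 186⟩, ⟨.negSucc 204, .negSucc 48, .negSucc 33, .negSucc 631, .negSucc 1428, .negSucc 212⟩, ⟨.negSucc 818, .ofNat 24, .ofNat 77, .ofNat 758, .ofNat 2505, .ofNat 479⟩, ⟨.negSucc 973, .ofNat 40, .negSucc 27, .negSucc 1060, .ofNat 118, .negSucc 37⟩, .ofNat 4694, .ofNat 7769, .ofNat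 0, .ofNat 7769, .ofNat 13996, .ofNat 0, .ofNat 272, .negSucc 1388, .negSucc 2132, .ofNat 0, .ofNat 808, .ofNat 1198, .ofNat 0, .ofNat 0, .ofNat 2496, .ofNat 5214, .ofNat 0, .ofNat 6534878179614128334451251347241251635200, .ofNat 0, .ofNat 0, .ofNat 0, .ofNat 108661562279500839320514995442457509888000, .ofNat 20279633932444457152652142182400, .ofNat 0, .ofNat 0, .ofNat 864873896643151820081805132821502414028800, .ofNat 3583235150767204320841983590400, .ofNat 0, .ofNat 0, .ofNat 491404409936193749419238332202870007398400, .ofNat 0, .ofNat 0⟩)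
    (by decide +kernel)
theorem L01906 : Good (Phi V4.P V4.D (-1) (-1)) ⟨7, 111, 5, 17, 2, 2, 1, 1, 3, 2⟩ :=
  out_sound (S := T4.ds_mm) T4.ok_mm (w := 80) (j := 3) (by decide +kernel)
theorem L01907 : Good (Phi V4.P V4.D (-1) (-1)) ⟨6, 54, 4, 9, 2, 2, 1, 1, 3, 2⟩ :=
  out_sound (S := T4.ds_mm) T4.ok_mm (w := 72) (j := 3) (by decide +kernel)
theorem L01908 : Good (Phi V4.P V4.D (-1) (-1)) ⟨6, 55, 4, 9, 2, 2, 2, 2, 3, 2⟩ :=
  leaf_sound (S := T4.ds_mm) T4.ok_mm (w := 192) (c := ⟨⟨.negSucc 1080, .ofNat 100, .negSucc 54, .ofNat 605, .ofNat 1003, .ofNat 367⟩, ⟨.ofNat 611, .negSucc 40, .ofNat 45, .negSucc 347, .negSucc 574, .negSucc 210⟩, ⟨.ofNat 680, .negSucc 87, .ofNat 49, .negSucc 453, .negSucc 949, .negSucc 247⟩, ⟨.negSucc 2031, .ofNat 131, .negSucc 141, .ofNat 241, .ofNat 1397, .ofNat 439⟩, ⟨.negSucc 730, .ofNat 11, .negSucc 53, .negSucc 1164, .negSucc 193, .negSucc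 193⟩, .ofNat 5842, .ofNat 9679, .ofNat 0, .ofNat 9679, .ofNat 17149, .ofNat 0, .ofNat 112, .negSucc 685, .negSucc 878, .ofNat 0, .ofNat 401, .ofNat 503, .ofNat 0, .ofNat 0, .ofNat 1118, .ofNat 1178, .ofNat 0, .ofNat 0, .ofNat 0, .ofNat 0, .ofNat 0, .ofNat 66771461235862925929337692971073536000, .ofNat 4716616221812372955351692083200, .ofNat 0, .ofNat 0, .ofNat 0, .ofNat 608530876691511899615920128000, .ofNat 0, .ofNat 0, .ofNat 0, .ofNat 0, .ofNat 0⟩)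
    (by decide +kernel)
theorem L01909 : Good (Phi V4.P V4.D (-1) (-1)) ⟨6, 55, 4, 9, 2, 2, 3, 6, 3, 2⟩ :=
  leaf_sound (S := T4.ds_mm) T4.ok_mm (w := 200) (c := ⟨⟨.negSucc 179, .ofNat 96, .ofNat 134, .ofNat 980, .ofNat 861, .ofNat 344⟩, ⟨.ofNat 101, .negSucc 55, .negSucc 75, .negSucc 562, .negSucc 491, .negSucc 195⟩, ⟨.negSucc 198, .negSucc 90, .negSucc 114, .negSucc 685, .negSucc 759, .negSucc 232⟩, ⟨.negSucc 828, .ofNat 99, .ofNat 152, .ofNat 864, .ofNat 1340, .ofNat 509⟩, ⟨.negSucc 1000, .negSucc 21, .negSucc 19, .negSucc 1063, .ofNat 81, .negSucc 12⟩, .ofNat 5823, .ofNat 9648, .ofNat 0, .ofNat 9648, .ofNat 17096, .ofNat 0, .ofNat 472, .negSucc 2869, .negSucc 4479, .ofNat 0, .ofNat 1676, .ofNat 2554, .ofNat 0, .ofNat 0, .ofNat 5104, .ofNat 7809, .ofNat 0, .ofNat 35776668338477162287380142341960499200, .ofNat 0, .ofNat 0, .ofNat 0, .ofNat 8266855533277818927201497184313383321600,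 .ofNat 581433797627629950573430072934400, .ofNat 0, .ofNat 0, .ofNat 17761176127303016482987701049395825868800, .ofNat 57582941356448794826067935232000, .ofNat 0, .ofNat 0, .ofNat 0, .ofNat 0, .ofNat 0⟩)
    (by decide +kernel)
theorem L01910 : Good (Phi V4.P V4.D (-1) (-1)) ⟨6, 55, 4, 9, 2, 2, 3, 7, 3, 2⟩ :=
  leaf_sound (S := T4.ds_mm) T4.ok_mm (w := 200) (c := ⟨⟨.ofNat 685, .ofNat 158, .ofNat 170, .ofNat 1135, .ofNat 1082, .ofNat 310⟩, ⟨.negSucc 388, .negSucc 101, .negSucc 107, .negSucc 650, .negSucc 618, .negSucc 176⟩, ⟨.negSucc 966, .negSucc 136, .negSucc 146, .negSucc 834, .negSucc 937, .negSucc 171⟩, ⟨.ofNat 505, .ofNat 197, .ofNat 215, .ofNat 1244, .ofNat 1753, .ofNat 499⟩, ⟨.negSucc 941, .negSucc 12, .negSucc 12, .negSucc 808, .ofNat 219, .ofNat 58⟩, .ofNat 2229, .ofNat 3397, .ofNat 0, .ofNat 3397, .ofNat 6202, .ofNat 0, .ofNat 3213, .negSucc 11513, .negSucc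 23304, .ofNat 0, .ofNat 6942, .ofNat 13075, .ofNat 0, .ofNat 0, .ofNat 24704, .ofNat 97452, .ofNat 0, .ofNat 3126635475546427931890555624724889600000, .ofNat 0, .ofNat 0, .ofNat 0, .ofNat 307757545933320607206937527839038950604800, .ofNat 7282820664668853054270043324416000, .ofNat 0, .ofNat 0, .ofNat 1464428647694766924632809797022542672691200, .ofNat 0, .ofNat 0, .ofNat 0, .ofNat 1358340303427343140134380830986026247782400, .ofNat 0, .ofNat 0⟩)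
    (by decide +kernel)
theorem L01911 : Good (Phi V4.P V4.D (-1) (-1)) ⟨4, 13, 3, 5, 2, 2, 1, 1, 3, 2⟩ :=
  out_sound (S := T4.ds_mm) T4.ok_mm (w := 56) (j := 3) (by decide +kernel)
theorem L01912 : Good (Phi V4.P V4.D (-1) (-1)) ⟨3, 6, 2, 3, 2, 2, 1, 1, 3, 2⟩ :=
  out_sound (S := T4.ds_mm) T4.ok_mm (w := 48) (j := 3) (by decide +kernel)
theorem L01913 : Good (Phi V4.P V4.D (-1) (-1)) ⟨4, 12, 1, 1, 2, 3, 1, 1, 3, 2⟩ :=
  out_sound (S := T4.ds_mm) T4.ok_mm (w := 48) (j := 3) (by decide +kernel)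
theorem L01914 : Good (Phi V4.P V4.D (-1) (-1)) ⟨4, 13, 2, 2, 2, 3, 2, 2, 3, 2⟩ :=
  leaf_sound (S := T4.ds_mm) T4.ok_mm (w := 176) (c := ⟨⟨.negSucc 969, .ofNat 274, .ofNat 505, .ofNat 489, .ofNat 1118, .ofNat 644⟩, ⟨.ofNat 462, .negSucc 101, .negSucc 147, .negSucc 281, .negSucc 610, .negSucc 358⟩, ⟨.ofNat 512, .negSucc 191, .negSucc 258, .negSucc 10, .negSucc 953, .negSucc 413⟩, ⟨.negSucc 2139, .ofNat 116, .ofNat 426, .ofNat 22, .ofNat 1479, .ofNat 626⟩, ⟨.negSucc 1495, .negSucc 212, .negSucc 308, .negSucc 1298, .negSucc 394, .negSucc 620⟩, .ofNat 763, .ofNat 893, .ofNat 0, .ofNat 893, .ofNat 1873, .ofNat 0, .ofNat 756, .negSucc 1577, .negSucc 1811, .ofNat 0, .ofNat 1013, .ofNat 1000, .ofNat 0, .ofNat 0, .ofNat 2138, .ofNat 2423, .ofNat 0, .ofNat 0, .ofNat 0, .ofNat 0, .ofNat 0, .ofNat 297094874277381177756189809914675200, .ofNat 0, .ofNat 0, .ofNat 0, .ofNat 227654108123372789605820572631040000,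 .ofNat 6997694093641311164490055680000, .ofNat 0, .ofNat 0, .ofNat 252978997959545803855778593898496000, .ofNat 0, .ofNat 0⟩)
    (by decide +kernel)

end Crest.Agent.R097C4.N4mm
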