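import Crest.Agent.R097.T4

/-!
# Row 97, box cover in dimension n = 4 (generated)
-/

set_option autoImplicit false
set_option Elab.async false
set_option maxHeartbeats 0
set_option maxRecDepth 100000

open Crest.Agent.R097 Crest.Agent.R097.KA


namespace Crest.Agent.R097C4.N4mp

theorem L00000 : Good (Phi V4.P V4.D (-1) 1) ⟨2, 0, 1, 0, 1, 0, 1, 0, 3, 0⟩ :=
  leaf_sound (S := T4.ds_mp) T4.ok_mp (w := 152) (c := ⟨⟨.negSucc 175, .negSucc 37, .negSucc 11, .ofNat 50, .negSucc 95, .negSucc 249⟩, ⟨.ofNat 44, .negSucc 26, .negSucc 153, .negSucc 6, .negSucc 58, .negSucc 66⟩, ⟨.ofNat 603, .negSucc 5, .ofNat 34, .negSucc 109, .negSucc 455, .ofNat 147⟩, ⟨.negSucc 616, .negSucc 4, .ofNat 7, .ofNat 191, .negSucc 207, .negSucc 708⟩, ⟨.ofNat 134, .negSucc 49, .ofNat 72, .negSucc 238, .negSucc 292, .negSucc 39⟩, .ofNat 638, .negSucc 285, .ofNat 0, .negSucc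 285, .ofNat 1359, .ofNat 0, .ofNat 430, .ofNat 182, .negSucc 346, .ofNat 0, .ofNat 285, .negSucc 59, .ofNat 0, .ofNat 0, .ofNat 900, .ofNat 3970, .ofNat 0, .ofNat 0, .ofNat 0, .ofNat 0, .ofNat 0, .ofNat 0, .ofNat 0, .ofNat 0, .ofNat 0, .ofNat 0, .ofNat 0, .ofNat 0, .ofNat 0, .ofNat 0, .ofNat 0, .ofNat 0⟩)
    (by decide +kernel)
theorem L00001 : Good (Phi V4.P V4.D (-1) 1) ⟨2, 1, 1, 0, 1, 0, 2, 0, 3, 0⟩ :=
  leaf_sound (S := T4.ds_mp) T4.ok_mp (w := 152) (c := ⟨⟨.negSucc 195, .negSucc 106, .negSucc 21, .ofNat 119, .negSucc 68, .negSucc 309⟩, ⟨.ofNat 9, .ofNat 33, .negSucc 175, .ofNat 16, .negSucc 10, .negSucc 85⟩, ⟨.ofNat 592, .ofNat 62, .ofNat 49, .negSucc 268, .negSucc 186, .ofNat 239⟩, ⟨.negSucc 619, .negSucc 64, .negSucc 42, .ofNat 357, .negSucc 143, .negSucc 769⟩, ⟨.ofNat 77, .negSucc 14, .ofNat 25, .negSucc 251, .negSucc 98, .negSucc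 18⟩, .ofNat 386, .negSucc 111, .ofNat 0, .negSucc 111, .ofNat 719, .ofNat 0, .ofNat 506, .ofNat 157, .negSucc 543, .ofNat 0, .ofNat 338, .negSucc 67, .ofNat 0, .ofNat 0, .ofNat 1012, .ofNat 5463, .ofNat 0, .ofNat 0, .ofNat 0, .ofNat 0, .ofNat 0, .ofNat 0, .ofNat 0, .ofNat 0, .ofNat 0, .ofNat 0, .ofNat 0, .ofNat 0, .ofNat 0, .ofNat 0, .ofNat 0, .ofNat 0⟩)
    (by decide +kernel)
theorem L00002 : Good (Phi V4.P V4.D (-1) 1) ⟨2, 1, 1, 0, 1, 0, 2, 1, 3, 0⟩ :=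
  leaf_sound (S := T4.ds_mp) T4.ok_mp (w := 152) (c := ⟨⟨.negSucc 224, .negSucc 124, .negSucc 57, .negSucc 12, .negSucc 56, .negSucc 210⟩, ⟨.ofNat 20, .ofNat 19, .negSucc 202, .negSucc 27, .negSucc 21, .negSucc 56⟩, ⟨.ofNat 358, .ofNat 97, .ofNat 64, .negSucc 125, .negSucc 212, .ofNat 147⟩, ⟨.negSucc 746, .negSucc 86, .negSucc 50, .ofNat 85, .negSucc 105, .negSucc 527⟩, ⟨.ofNat 80, .negSucc 9, .ofNat 15, .negSucc 492, .negSucc 118, .negSucc 8⟩, .ofNat 592, .negSucc 360, .ofNat 0, .negSucc 360, .ofNat 1724, .ofNat 0, .ofNat 459, .ofNat 239, .negSucc 425, .ofNat 0, .ofNat 261, .negSucc 81, .ofNat 0, .ofNat 0, .ofNat 999, .ofNat 2721, .ofNat 0, .ofNat 0, .ofNat 0, .ofNat 0, .ofNat 0, .ofNat 0, .ofNat 0, .ofNat 0, .ofNat 0, .ofNat 0, .ofNat 0, .ofNat 0, .ofNat 0, .ofNat 0, .ofNat 0, .ofNat 0⟩)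
    (by decide +kernel)
theorem L00003 : Good (Phi V4.P V4.D (-1) 1) ⟨1, 0, 1, 1, 1, 0, 2, 0, 3, 0⟩ :=
  leaf_sound (S := T4.ds_mp) T4.ok_mp (w := 152) (c := ⟨⟨.negSucc 131, .negSucc 110, .negSucc 56, .ofNat 70, .negSucc 107, .negSucc 319⟩, ⟨.negSucc 84, .negSucc 2, .negSucc 219, .ofNat 28, .negSucc 57, .negSucc 166⟩, ⟨.ofNat 574, .ofNat 11, .ofNat 97, .negSucc 153, .negSucc 147, .ofNat 250⟩, ⟨.negSucc 569, .ofNat 8, .negSucc 115, .ofNat 276, .negSucc 218, .negSucc 845⟩, ⟨.ofNat 110, .negSucc 31, .ofNat 26, .negSucc 196, .negSucc 132, .negSucc 23⟩, .ofNat 851, .negSucc 748, .ofNat 0, .negSucc 748, .ofNat 1834, .ofNat 0, .ofNat 326, .ofNat 346, .negSucc 370, .ofNat 0, .ofNat 297, .negSucc 153, .ofNat 0, .ofNat 0, .ofNat 906, .ofNat 9641, .ofNat 0, .ofNat 0, .ofNat 313161921942780143311257600, .ofNat 0, .ofNat 0, .ofNat 0, .ofNat 0, .ofNat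 0, .ofNat 0, .ofNat 0, .ofNat 64859839922111374559910297600, .ofNat 0, .ofNat 0, .ofNat 0, .ofNat 41463734355785847422110924800, .ofNat 0⟩)
    (by decide +kernel)
theorem L00004 : Good (Phi V4.P V4.D (-1) 1) ⟨1, 0, 1, 1, 1, 0, 2, 1, 3, 0⟩ :=
  leaf_sound (S := T4.ds_mp) T4.ok_mp (w := 152) (c := ⟨⟨.negSucc 191, .negSucc 205, .negSucc 36, .negSucc 82, .negSucc 41, .negSucc 168⟩, ⟨.negSucc 128, .negSucc 25, .negSucc 248, .negSucc 49, .negSucc 22, .negSucc 91⟩, ⟨.ofNat 378, .ofNat 131, .ofNat 25, .negSucc 17, .negSucc 253, .ofNat 95⟩, ⟨.negSucc 756, .negSucc 164, .negSucc 118, .negSucc 6, .negSucc 48, .negSucc 461⟩, ⟨.ofNat 80, .negSucc 32, .ofNat 9, .negSucc 419, .negSucc 121, .ofNat 1⟩, .ofNat 854, .negSucc 759, .ofNat 0, .negSucc 759, .ofNat 1851, .ofNat 0, .ofNat 342, .ofNat 367, .negSucc 380, .ofNat 0, .ofNat 313, .negSucc 158, .ofNat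 0, .ofNat 0, .ofNat 983, .ofNat 4507, .ofNat 0, .ofNat 0, .ofNat 0, .ofNat 0, .ofNat 0, .ofNat 0, .ofNat 0, .ofNat 0, .ofNat 0, .ofNat 0, .ofNat 58610850431871334925677363200, .ofNat 0, .ofNat 0, .ofNat 0, .ofNat 64405219543058002383942451200, .ofNat 0⟩)
    (by decide +kernel)
theorem L00005 : Good (Phi V4.P V4.D (-1) 1) ⟨1, 0, 1, 0, 1, 0, 2, 0, 3, 1⟩ :=
  leaf_sound (S := T4.ds_mp) T4.ok_mp (w := 152) (c := ⟨⟨.negSucc 356, .negSucc 224, .negSucc 21, .negSucc 91, .ofNat 6, .negSucc 85⟩, ⟨.ofNat 17, .negSucc 19, .negSucc 259, .negSucc 41, .ofNat 4, .negSucc 36⟩, ⟨.ofNat 699, .ofNat 190, .ofNat 44, .negSucc 17, .negSucc 287, .negSucc 8⟩, ⟨.negSucc 1229, .negSucc 173, .negSucc 15, .negSucc 168, .ofNat 65, .negSucc 247⟩, ⟨.ofNat 124, .negSucc 22, .ofNat 41, .negSucc 319, .negSucc 134, .negSucc 65⟩, .ofNat 398, .negSucc 104, .ofNat 0, .negSucc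 104, .ofNat 688, .ofNat 0, .ofNat 472, .ofNat 136, .negSucc 393, .ofNat 0, .ofNat 330, .negSucc 33, .ofNat 0, .ofNat 0, .ofNat 956, .ofNat 6508, .ofNat 0, .ofNat 0, .ofNat 0, .ofNat 0, .ofNat 0, .ofNat 0, .ofNat 0, .ofNat 0, .ofNat 0, .ofNat 0, .ofNat 0, .ofNat 0, .ofNat 0, .ofNat 0, .ofNat 0, .ofNat 0⟩)
    (by decide +kernel)
theorem L00006 : Good (Phi V4.P V4.D (-1) 1) ⟨1, 0, 1, 0, 1, 0, 2, 1, 3, 1⟩ :=
  leaf_sound (S := T4.ds_mp) T4.ok_mp (w := 152) (c := ⟨⟨.negSucc 304, .negSucc 241, .negSucc 61, .negSucc 153, .ofNat 37, .negSucc 52⟩, ⟨.ofNat 17, .negSucc 12, .negSucc 250, .negSucc 65, .ofNat 5, .negSucc 23⟩, ⟨.ofNat 339, .ofNat 222, .ofNat 64, .ofNat 65, .negSucc 275, .negSucc 8⟩, ⟨.negSucc 1120, .negSucc 203, .negSucc 58, .negSucc 272, .ofNat 136, .negSucc 147⟩, ⟨.ofNat 58, .negSucc 25, .ofNat 4, .negSucc 472, .negSucc 71, .negSucc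 13⟩, .ofNat 396, .negSucc 103, .ofNat 0, .negSucc 103, .ofNat 688, .ofNat 0, .ofNat 491, .ofNat 142, .negSucc 423, .ofNat 0, .ofNat 341, .negSucc 36, .ofNat 0, .ofNat 0, .ofNat 990, .ofNat 6674, .ofNat 0, .ofNat 0, .ofNat 0, .ofNat 0, .ofNat 0, .ofNat 0, .ofNat 0, .ofNat 0, .ofNat 0, .ofNat 0, .ofNat 0, .ofNat 0, .ofNat 0, .ofNat 0, .ofNat 0, .ofNat 0⟩)
    (by decide +kernel)
theorem L00007 : Good (Phi V4.P V4.D (-1) 1) ⟨1, 0, 1, 1, 1, 0, 1, 0, 3, 1⟩ :=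
  leaf_sound (S := T4.ds_mp) T4.ok_mp (w := 144) (c := ⟨⟨.negSucc 346, .negSucc 245, .ofNat 96, .negSucc 155, .ofNat 50, .negSucc 90⟩, ⟨.negSucc 217, .negSucc 23, .negSucc 263, .negSucc 84, .ofNat 21, .negSucc 49⟩, ⟨.ofNat 663, .ofNat 240, .negSucc 117, .ofNat 75, .negSucc 581, .ofNat 22⟩, ⟨.negSucc 1253, .negSucc 177, .ofNat 127, .negSucc 244, .ofNat 247, .negSucc 234⟩, ⟨.ofNat 117, .ofNat 3, .ofNat 33, .negSucc 329, .negSucc 223, .negSucc 26⟩, .ofNat 845, .negSucc 748, .ofNat 0, .negSucc 748, .ofNat 1843, .ofNat 0, .ofNat 315, .ofNat 333, .negSucc 307, .ofNat 0, .ofNat 285, .negSucc 124, .ofNat 0, .ofNat 0, .ofNat 921, .ofNat 6036, .ofNat 0, .ofNat 0, .ofNat 7415397347218182173491200, .ofNat 0, .ofNat 0, .ofNat 0, .ofNat 5078563586767234915526246400, .ofNat 0, .ofNat 15301084016129304714176102400, .ofNat 0, .ofNat 4313007240243855483941683200,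 .ofNat 0, .ofNat 22353500397610011256160256000, .ofNat 0, .ofNat 7111167406732912878629683200, .ofNat 0⟩)
    (by decide +kernel)
theorem L00008 : Good (Phi V4.P V4.D (-1) 1) ⟨2, 0, 0, 0, 1, 0, 2, 2, 3, 0⟩ :=
  leaf_sound (S := T4.ds_mp) T4.ok_mp (w := 152) (c := ⟨⟨.negSucc 251, .negSucc 45, .negSucc 113, .negSucc 103, .ofNat 30, .negSucc 66⟩, ⟨.ofNat 11, .negSucc 19, .negSucc 350, .negSucc 74, .ofNat 4, .negSucc 13⟩, ⟨.ofNat 61, .ofNat 19, .ofNat 91, .ofNat 88, .negSucc 282, .ofNat 47⟩, ⟨.negSucc 843, .negSucc 32, .negSucc 87, .negSucc 170, .ofNat 106, .negSucc 193⟩, ⟨.ofNat 11, .negSucc 23, .ofNat 10, .negSucc 600, .negSucc 59, .ofNat 39⟩, .ofNat 411, .negSucc 89, .ofNat 0, .negSucc 89, .ofNat 646, .ofNat 0, .ofNat 277, .ofNat 70, .negSucc 259, .ofNat 0, .ofNat 205, .negSucc 22, .ofNat 0, .ofNat 0, .ofNat 551, .ofNat 2402, .ofNat 0,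 .ofNat 0, .ofNat 5317950295631495960985600, .ofNat 0, .ofNat 0, .ofNat 0, .ofNat 0, .ofNat 0, .ofNat 0, .ofNat 0, .ofNat 1070724424000284242686771200, .ofNat 0, .ofNat 0, .ofNat 0, .ofNat 775872288019088252338176000, .ofNat 0⟩)
    (by decide +kernel)
theorem L00009 : Good (Phi V4.P V4.D (-1) 1) ⟨2, 1, 1, 0, 1, 0, 2, 2, 3, 0⟩ :=
  leaf_sound (S := T4.ds_mp) T4.ok_mp (w := 152) (c := ⟨⟨.negSucc 282, .negSucc 133, .negSucc 67, .negSucc 146, .ofNat 33, .negSucc 75⟩, ⟨.negSucc 6, .ofNat 31, .negSucc 212, .negSucc 57, .ofNat 4, .negSucc 14⟩, ⟨.ofNat 63, .ofNat 111, .ofNat 59, .ofNat 80, .negSucc 269, .ofNat 99⟩, ⟨.negSucc 866, .negSucc 126, .negSucc 45, .negSucc 212, .ofNat 93, .negSucc 211⟩, ⟨.ofNat 1, .ofNat 6, .ofNat 18, .negSucc 658, .negSucc 69, .ofNat 46⟩, .ofNat 377, .negSucc 94, .ofNat 0, .negSucc 94, .ofNat 734, .ofNat 0, .ofNat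 296, .ofNat 79, .negSucc 320, .ofNat 0, .ofNat 189, .negSucc 31, .ofNat 0, .ofNat 0, .ofNat 591, .ofNat 1589, .ofNat 0, .ofNat 0, .ofNat 0, .ofNat 0, .ofNat 0, .ofNat 0, .ofNat 0, .ofNat 0, .ofNat 0, .ofNat 0, .ofNat 0, .ofNat 0, .ofNat 0, .ofNat 0, .ofNat 0, .ofNat 0⟩)
    (by decide +kernel)
theorem L00010 : Good (Phi V4.P V4.D (-1) 1) ⟨2, 1, 1, 1, 1, 0, 2, 2, 3, 0⟩ :=
  leaf_sound (S := T4.ds_mp) T4.ok_mp (w := 152) (c := ⟨⟨.negSucc 306, .negSucc 150, .ofNat 27, .negSucc 248, .ofNat 25, .negSucc 66⟩, ⟨.negSucc 165, .negSucc 15, .negSucc 170, .negSucc 135, .ofNat 15, .negSucc 33⟩, ⟨.ofNat 84, .ofNat 152, .negSucc 45, .ofNat 184, .negSucc 281, .ofNat 76⟩, ⟨.negSucc 881, .negSucc 168, .ofNat 126, .negSucc 324, .ofNat 97, .negSucc 190⟩, ⟨.ofNat 10, .negSucc 18, .ofNat 87, .negSucc 632, .negSucc 58, .ofNat 36⟩, .ofNat 839, .negSucc 770,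 .ofNat 0, .negSucc 770, .ofNat 1907, .ofNat 0, .ofNat 186, .ofNat 203, .negSucc 226, .ofNat 0, .ofNat 167, .negSucc 95, .ofNat 0, .ofNat 0, .ofNat 536, .ofNat 1774, .ofNat 0, .ofNat 0, .ofNat 14073332764428077418086400, .ofNat 0, .ofNat 0, .ofNat 0, .ofNat 0, .ofNat 0, .ofNat 0, .ofNat 0, .ofNat 3490245843823512225054720000, .ofNat 0, .ofNat 0, .ofNat 0, .ofNat 4486683688479457598767104000, .ofNat 0⟩)
    (by decide +kernel)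
theorem L00011 : Good (Phi V4.P V4.D (-1) 1) ⟨2, 0, 1, 0, 1, 0, 3, 6, 3, 0⟩ :=
  leaf_sound (S := T4.ds_mp) T4.ok_mp (w := 160) (c := ⟨⟨.negSucc 197, .negSucc 62, .negSucc 71, .negSucc 197, .ofNat 58, .negSucc 5⟩, ⟨.ofNat 13, .negSucc 24, .negSucc 161, .negSucc 110, .ofNat 19, .ofNat 6⟩, ⟨.negSucc 321, .ofNat 57, .ofNat 45, .ofNat 233, .negSucc 150, .ofNat 75⟩, ⟨.negSucc 673, .negSucc 85, .negSucc 47, .negSucc 404, .ofNat 150, .negSucc 39⟩, ⟨.negSucc 65, .negSucc 29, .ofNat 4, .negSucc 628, .ofNat 10, .ofNat 100⟩, .ofNat 414, .negSucc 98, .ofNat 0, .negSucc 98, .ofNat 647, .ofNat 0, .ofNat 297, .ofNat 84, .negSucc 309, .ofNat 0, .ofNat 222, .negSucc 42, .ofNat 0, .ofNat 0, .ofNat 590, .ofNat 2579, .ofNat 0, .ofNat 0, .ofNat 0, .ofNat 0, .ofNat 0, .ofNat 0, .ofNat 0, .ofNat 0, .ofNat 0, .ofNat 0, .ofNat 0, .ofNat 0, .ofNat 0, .ofNat 0,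 .ofNat 0, .ofNat 0⟩)
    (by decide +kernel)
theorem L00012 : Good (Phi V4.P V4.D (-1) 1) ⟨2, 1, 1, 0, 1, 0, 3, 6, 3, 0⟩ :=
  leaf_sound (S := T4.ds_mp) T4.ok_mp (w := 160) (c := ⟨⟨.negSucc 186, .negSucc 175, .negSucc 114, .negSucc 281, .ofNat 41, .ofNat 11⟩, ⟨.ofNat 17, .ofNat 19, .negSucc 218, .negSucc 97, .ofNat 4, .ofNat 9⟩, ⟨.negSucc 361, .ofNat 166, .ofNat 100, .ofNat 314, .negSucc 129, .ofNat 94⟩, ⟨.negSucc 638, .negSucc 250, .negSucc 126, .negSucc 532, .ofNat 118, .ofNat 2⟩, ⟨.negSucc 48, .negSucc 18, .ofNat 16, .negSucc 714, .ofNat 15, .ofNat 76⟩, .ofNat 383, .negSucc 103, .ofNat 0, .negSucc 103, .ofNat 727, .ofNat 0, .ofNat 315, .ofNat 94, .negSucc 374, .ofNat 0, .ofNat 206, .negSucc 50, .ofNat 0, .ofNat 0, .ofNat 634, .ofNat 1762, .ofNat 0, .ofNat 0, .ofNat 0, .ofNat 0, .ofNat 0, .ofNat 0, .ofNat 0, .ofNat 0, .ofNat 0, .ofNat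 0, .ofNat 0, .ofNat 0, .ofNat 0, .ofNat 0, .ofNat 0, .ofNat 0⟩)
    (by decide +kernel)
theorem L00013 : Good (Phi V4.P V4.D (-1) 1) ⟨2, 0, 2, 0, 1, 0, 3, 7, 3, 0⟩ :=
  leaf_sound (S := T4.ds_mp) T4.ok_mp (w := 160) (c := ⟨⟨.negSucc 145, .negSucc 67, .negSucc 26, .negSucc 241, .ofNat 101, .ofNat 47⟩, ⟨.negSucc 5, .negSucc 12, .negSucc 59, .negSucc 91, .ofNat 26, .ofNat 19⟩, ⟨.negSucc 535, .ofNat 73, .ofNat 19, .ofNat 339, .negSucc 160, .ofNat 82⟩, ⟨.negSucc 477, .negSucc 116, .negSucc 3, .negSucc 618, .ofNat 276, .ofNat 111⟩, ⟨.negSucc 93, .negSucc 32, .negSucc 3, .negSucc 573, .ofNat 65, .ofNat 129⟩, .ofNat 403, .negSucc 55, .ofNat 0, .negSucc 55, .ofNat 646, .ofNat 0, .ofNat 323, .ofNat 53, .negSucc 375, .ofNat 0, .ofNat 231, .negSucc 33, .ofNat 0, .ofNat 0, .ofNat 631, .ofNat 2136, .ofNat 0, .ofNat 0, .ofNat 0, .ofNat 0, .ofNat 0,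 .ofNat 0, .ofNat 0, .ofNat 0, .ofNat 0, .ofNat 0, .ofNat 0, .ofNat 0, .ofNat 0, .ofNat 0, .ofNat 0, .ofNat 0⟩)
    (by decide +kernel)
theorem L00014 : Good (Phi V4.P V4.D (-1) 1) ⟨2, 0, 2, 1, 2, 0, 3, 7, 3, 0⟩ :=
  leaf_sound (S := T4.ds_mp) T4.ok_mp (w := 168) (c := ⟨⟨.negSucc 202, .negSucc 39, .negSucc 16, .negSucc 115, .ofNat 128, .ofNat 63⟩, ⟨.negSucc 61, .negSucc 19, .negSucc 45, .negSucc 64, .ofNat 52, .ofNat 26⟩, ⟨.negSucc 476, .ofNat 48, .ofNat 12, .ofNat 135, .negSucc 197, .ofNat 83⟩, ⟨.negSucc 610, .negSucc 67, .negSucc 12, .negSucc 221, .ofNat 359, .ofNat 154⟩, ⟨.negSucc 44, .negSucc 4, .ofNat 2, .negSucc 312, .ofNat 36, .ofNat 65⟩, .ofNat 427, .negSucc 136, .ofNat 0, .negSucc 136, .ofNat 661, .ofNat 0, .ofNat 297, .ofNat 112, .negSucc 371, .ofNat 0, .ofNat 235, .negSucc 93, .ofNat 0, .ofNat 0, .ofNat 636, .ofNat 4066, .ofNat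 0, .ofNat 0, .ofNat 0, .ofNat 0, .ofNat 0, .ofNat 0, .ofNat 0, .ofNat 0, .ofNat 0, .ofNat 0, .ofNat 0, .ofNat 0, .ofNat 0, .ofNat 0, .ofNat 0, .ofNat 0⟩)
    (by decide +kernel)
theorem L00015 : Good (Phi V4.P V4.D (-1) 1) ⟨2, 0, 2, 1, 2, 1, 3, 7, 3, 0⟩ :=
  leaf_sound (S := T4.ds_mp) T4.ok_mp (w := 168) (c := ⟨⟨.negSucc 257, .negSucc 99, .negSucc 47, .negSucc 191, .ofNat 74, .ofNat 66⟩, ⟨.negSucc 98, .negSucc 42, .negSucc 82, .negSucc 89, .ofNat 34, .ofNat 39⟩, ⟨.negSucc 390, .ofNat 114, .ofNat 32, .ofNat 233, .negSucc 113, .ofNat 46⟩, ⟨.negSucc 684, .negSucc 169, .negSucc 40, .negSucc 468, .ofNat 181, .ofNat 132⟩, ⟨.negSucc 414, .negSucc 67, .ofNat 2, .negSucc 252, .ofNat 99, .ofNat 170⟩, .ofNat 711, .negSucc 435, .ofNat 0, .negSucc 435, .ofNat 1456, .ofNat 0, .ofNat 253, .ofNat 166, .negSucc 268, .ofNat 0, .ofNat 190, .negSucc 87,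 .ofNat 0, .ofNat 0, .ofNat 552, .ofNat 3321, .ofNat 0, .ofNat 0, .ofNat 0, .ofNat 0, .ofNat 0, .ofNat 0, .ofNat 0, .ofNat 0, .ofNat 0, .ofNat 0, .ofNat 0, .ofNat 0, .ofNat 0, .ofNat 0, .ofNat 0, .ofNat 0⟩)
    (by decide +kernel)
theorem L00016 : Good (Phi V4.P V4.D (-1) 1) ⟨2, 1, 2, 0, 1, 0, 3, 7, 3, 0⟩ :=
  leaf_sound (S := T4.ds_mp) T4.ok_mp (w := 160) (c := ⟨⟨.negSucc 101, .negSucc 188, .negSucc 85, .negSucc 387, .ofNat 103, .ofNat 83⟩, ⟨.ofNat 8, .ofNat 1, .negSucc 87, .negSucc 86, .ofNat 17, .ofNat 16⟩, ⟨.negSucc 580, .ofNat 181, .ofNat 76, .ofNat 484, .negSucc 162, .ofNat 62⟩, ⟨.negSucc 386, .negSucc 292, .negSucc 127, .negSucc 870, .ofNat 262, .ofNat 204⟩, ⟨.negSucc 70, .negSucc 31, .negSucc 4, .negSucc 685, .ofNat 53, .ofNat 135⟩, .ofNat 542, .negSucc 217, .ofNat 0, .negSucc 217, .ofNat 1821, .ofNat 0, .ofNat 302, .ofNat 94,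 .negSucc 336, .ofNat 0, .ofNat 144, .negSucc 41, .ofNat 0, .ofNat 0, .ofNat 605, .ofNat 1534, .ofNat 0, .ofNat 0, .ofNat 0, .ofNat 0, .ofNat 0, .ofNat 0, .ofNat 0, .ofNat 0, .ofNat 0, .ofNat 0, .ofNat 0, .ofNat 0, .ofNat 0, .ofNat 0, .ofNat 0, .ofNat 0⟩)
    (by decide +kernel)
theorem L00017 : Good (Phi V4.P V4.D (-1) 1) ⟨2, 1, 2, 1, 1, 0, 3, 7, 3, 0⟩ :=
  leaf_sound (S := T4.ds_mp) T4.ok_mp (w := 160) (c := ⟨⟨.negSucc 159, .negSucc 163, .negSucc 32, .negSucc 508, .ofNat 125, .ofNat 93⟩, ⟨.negSucc 48, .negSucc 1, .negSucc 84, .negSucc 204, .ofNat 52, .ofNat 31⟩, ⟨.negSucc 534, .ofNat 166, .ofNat 25, .ofNat 591, .negSucc 174, .ofNat 58⟩, ⟨.negSucc 487, .negSucc 232, .negSucc 25, .negSucc 1020, .ofNat 285, .ofNat 194⟩, ⟨.negSucc 52, .negSucc 37, .ofNat 4, .negSucc 683, .ofNat 48, .ofNat 109⟩, .ofNat 633, .negSucc 467, .ofNat 0, .negSucc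 467, .ofNat 1746, .ofNat 0, .ofNat 262, .ofNat 180, .negSucc 344, .ofNat 0, .ofNat 168, .negSucc 100, .ofNat 0, .ofNat 0, .ofNat 609, .ofNat 1241, .ofNat 0, .ofNat 0, .ofNat 0, .ofNat 0, .ofNat 0, .ofNat 0, .ofNat 0, .ofNat 0, .ofNat 0, .ofNat 0, .ofNat 0, .ofNat 0, .ofNat 0, .ofNat 0, .ofNat 0, .ofNat 0⟩)
    (by decide +kernel)
theorem L00018 : Good (Phi V4.P V4.D (-1) 1) ⟨2, 0, 2, 2, 1, 0, 2, 3, 3, 0⟩ :=
  leaf_sound (S := T4.ds_mp) T4.ok_mp (w := 152) (c := ⟨⟨.negSucc 231, .negSucc 93, .negSucc 24, .negSucc 325, .ofNat 181, .ofNat 61⟩, ⟨.negSucc 131, .negSucc 40, .negSucc 68, .negSucc 190, .ofNat 100, .ofNat 35⟩, ⟨.negSucc 374, .ofNat 121, .ofNat 10, .ofNat 361, .negSucc 319, .ofNat 61⟩, ⟨.negSucc 698, .negSucc 154, .negSucc 13, .negSucc 599, .ofNat 485, .ofNat 120⟩, ⟨.negSucc 82, .negSucc 17, .negSucc 9, .negSucc 615, .ofNat 69,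 .ofNat 94⟩, .ofNat 889, .negSucc 748, .ofNat 0, .negSucc 748, .ofNat 1768, .ofNat 0, .ofNat 200, .ofNat 209, .negSucc 261, .ofNat 0, .ofNat 191, .negSucc 121, .ofNat 0, .ofNat 0, .ofNat 558, .ofNat 2168, .ofNat 0, .ofNat 79934833780121033146368000, .ofNat 7278363796339504565452800, .ofNat 0, .ofNat 0, .ofNat 0, .ofNat 0, .ofNat 0, .ofNat 0, .ofNat 0, .ofNat 3004035920225969334386688000, .ofNat 0, .ofNat 0, .ofNat 0, .ofNat 1178416505957677600761446400, .ofNat 0⟩)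
    (by decide +kernel)
theorem L00019 : Good (Phi V4.P V4.D (-1) 1) ⟨2, 1, 2, 2, 1, 0, 2, 3, 3, 0⟩ :=
  leaf_sound (S := T4.ds_mp) T4.ok_mp (w := 152) (c := ⟨⟨.negSucc 252, .negSucc 178, .negSucc 55, .negSucc 492, .ofNat 197, .ofNat 62⟩, ⟨.negSucc 141, .negSucc 37, .negSucc 94, .negSucc 250, .ofNat 100, .ofNat 32⟩, ⟨.negSucc 336, .ofNat 176, .ofNat 78, .ofNat 532, .negSucc 331, .ofNat 60⟩, ⟨.negSucc 694, .negSucc 282, .negSucc 111, .negSucc 916, .ofNat 482, .ofNat 120⟩, ⟨.negSucc 71, .negSucc 16, .ofNat 58, .negSucc 682, .ofNat 58, .ofNat 93⟩, .ofNat 828, .negSucc 755, .ofNat 0, .negSucc 755, .ofNat 1892, .ofNat 0, .ofNat 206, .ofNat 221, .negSucc 293, .ofNat 0, .ofNat 183, .negSucc 126, .ofNat 0, .ofNat 0, .ofNat 578, .ofNat 1353, .ofNat 0, .ofNat 0, .ofNat 7422313477105610860953600, .ofNat 0, .ofNat 0, .ofNat 0, .ofNat 0, .ofNat 0,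 .ofNat 0, .ofNat 0, .ofNat 3561197259617070100984627200, .ofNat 0, .ofNat 0, .ofNat 0, .ofNat 3497155747868151510781132800, .ofNat 0⟩)
    (by decide +kernel)
theorem L00020 : Good (Phi V4.P V4.D (-1) 1) ⟨1, 0, 2, 3, 1, 0, 2, 3, 3, 0⟩ :=
  out_sound (S := T4.ds_mp) T4.ok_mp (w := 32) (j := 3) (by decide +kernel)
theorem L00021 : Good (Phi V4.P V4.D (-1) 1) ⟨2, 0, 1, 0, 1, 0, 2, 2, 3, 1⟩ :=
  leaf_sound (S := T4.ds_mp) T4.ok_mp (w := 152) (c := ⟨⟨.negSucc 304, .negSucc 69, .negSucc 67, .negSucc 162, .ofNat 91, .negSucc 6⟩, ⟨.ofNat 17, .negSucc 34, .negSucc 196, .negSucc 94, .ofNat 19, .negSucc 2⟩, ⟨.ofNat 34, .ofNat 72, .ofNat 42, .ofNat 145, .negSucc 248, .ofNat 6⟩, ⟨.negSucc 1022, .negSucc 63, .negSucc 42, .negSucc 339, .ofNat 269, .negSucc 27⟩, ⟨.ofNat 6, .negSucc 35, .ofNat 2, .negSucc 544, .negSucc 20, .ofNat 25⟩, .ofNat 411, .negSucc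 90, .ofNat 0, .negSucc 90, .ofNat 649, .ofNat 0, .ofNat 506, .ofNat 129, .negSucc 451, .ofNat 0, .ofNat 372, .negSucc 43, .ofNat 0, .ofNat 0, .ofNat 1003, .ofNat 8879, .ofNat 0, .ofNat 0, .ofNat 0, .ofNat 0, .ofNat 0, .ofNat 0, .ofNat 0, .ofNat 0, .ofNat 0, .ofNat 0, .ofNat 0, .ofNat 0, .ofNat 0, .ofNat 0, .ofNat 0, .ofNat 0⟩)
    (by decide +kernel)
theorem L00022 : Good (Phi V4.P V4.D (-1) 1) ⟨2, 1, 1, 0, 1, 0, 2, 2, 3, 1⟩ :=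
  leaf_sound (S := T4.ds_mp) T4.ok_mp (w := 152) (c := ⟨⟨.negSucc 317, .negSucc 201, .negSucc 85, .negSucc 241, .ofNat 112, .ofNat 3⟩, ⟨.ofNat 7, .ofNat 12, .negSucc 246, .negSucc 98, .ofNat 27, .ofNat 9⟩, ⟨.ofNat 33, .ofNat 220, .ofNat 72, .ofNat 214, .negSucc 257, .ofNat 9⟩, ⟨.negSucc 1008, .negSucc 239, .negSucc 90, .negSucc 418, .ofNat 285, .negSucc 5⟩, ⟨.ofNat 5, .negSucc 9, .ofNat 16, .negSucc 608, .negSucc 26, .ofNat 13⟩, .ofNat 384, .negSucc 116, .ofNat 0, .negSucc 116, .ofNat 724, .ofNat 0, .ofNat 260, .ofNat 86, .negSucc 261, .ofNat 0, .ofNat 173, .negSucc 35, .ofNat 0, .ofNat 0, .ofNat 524, .ofNat 2463, .ofNat 0, .ofNat 0, .ofNat 0, .ofNat 0, .ofNat 0, .ofNat 0, .ofNat 0, .ofNat 0, .ofNat 0, .ofNat 0, .ofNat 0, .ofNat 0, .ofNat 0, .ofNat 0, .ofNat 0, .ofNat 0⟩)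
    (by decide +kernel)
theorem L00023 : Good (Phi V4.P V4.D (-1) 1) ⟨2, 0, 1, 1, 1, 0, 2, 2, 3, 1⟩ :=
  leaf_sound (S := T4.ds_mp) T4.ok_mp (w := 152) (c := ⟨⟨.negSucc 312, .negSucc 93, .negSucc 44, .negSucc 247, .ofNat 96, .ofNat 2⟩, ⟨.negSucc 171, .negSucc 41, .negSucc 197, .negSucc 147, .ofNat 53, .ofNat 3⟩, ⟨.ofNat 25, .ofNat 112, .negSucc 6, .ofNat 208, .negSucc 253, .ofNat 1⟩, ⟨.negSucc 1009, .negSucc 116, .negSucc 31, .negSucc 403, .ofNat 280, .negSucc 3⟩, ⟨.ofNat 4, .negSucc 19, .ofNat 16, .negSucc 556, .negSucc 9, .ofNat 21⟩, .ofNat 896, .negSucc 761, .ofNat 0, .negSucc 761, .ofNat 1784, .ofNat 0, .ofNat 322, .ofNat 342, .negSucc 337, .ofNat 0, .ofNat 309, .negSucc 151, .ofNat 0, .ofNat 0, .ofNat 934, .ofNat 9509, .ofNat 0, .ofNat 0, .ofNat 23540533592164568727552000, .ofNat 0, .ofNat 0, .ofNat 0, .ofNat 0, .ofNat 0, .ofNat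 0, .ofNat 0, .ofNat 14179069457415618220051660800, .ofNat 0, .ofNat 0, .ofNat 0, .ofNat 16785721860219884838636748800, .ofNat 0⟩)
    (by decide +kernel)
theorem L00024 : Good (Phi V4.P V4.D (-1) 1) ⟨2, 1, 1, 1, 1, 0, 2, 2, 3, 1⟩ :=
  leaf_sound (S := T4.ds_mp) T4.ok_mp (w := 152) (c := ⟨⟨.negSucc 379, .negSucc 140, .negSucc 35, .negSucc 302, .ofNat 98, .negSucc 8⟩, ⟨.negSucc 203, .ofNat 0, .negSucc 228, .negSucc 162, .ofNat 46, .negSucc 1⟩, ⟨.ofNat 98, .ofNat 157, .ofNat 34, .ofNat 274, .negSucc 258, .ofNat 16⟩, ⟨.negSucc 1073, .negSucc 126, .negSucc 42, .negSucc 483, .ofNat 258, .negSucc 23⟩, ⟨.ofNat 4, .ofNat 3, .ofNat 24, .negSucc 585, .negSucc 24, .ofNat 16⟩, .ofNat 824, .negSucc 754, .ofNat 0, .negSucc 754, .ofNat 1895, .ofNat 0, .ofNat 338, .ofNat 363, .negSucc 386, .ofNat 0, .ofNat 300, .negSucc 159, .ofNat 0, .ofNat 0, .ofNat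 972, .ofNat 6419, .ofNat 0, .ofNat 0, .ofNat 22298182063396787257344000, .ofNat 0, .ofNat 0, .ofNat 0, .ofNat 22104335114728499513917440000, .ofNat 0, .ofNat 0, .ofNat 0, .ofNat 17803660870494953118734745600, .ofNat 0, .ofNat 0, .ofNat 0, .ofNat 19169463498436224209859379200, .ofNat 0⟩)
    (by decide +kernel)
theorem L00025 : Good (Phi V4.P V4.D (-1) 1) ⟨2, 0, 2, 0, 1, 0, 2, 3, 3, 1⟩ :=
  leaf_sound (S := T4.ds_mp) T4.ok_mp (w := 160) (c := ⟨⟨.negSucc 238, .negSucc 35, .negSucc 23, .negSucc 209, .ofNat 216, .ofNat 33⟩, ⟨.negSucc 11, .negSucc 10, .negSucc 64, .negSucc 69, .ofNat 40, .ofNat 4⟩, ⟨.negSucc 263, .ofNat 52, .ofNat 14, .ofNat 246, .negSucc 281, .ofNat 35⟩, ⟨.negSucc 751, .negSucc 17, .negSucc 11, .negSucc 552, .ofNat 621, .ofNat 97⟩, ⟨.negSucc 58, .negSucc 43, .ofNat 6, .negSucc 449, .ofNat 101, .ofNat 30⟩, .ofNat 597, .negSucc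 146, .ofNat 0, .negSucc 146, .ofNat 1294, .ofNat 0, .ofNat 486, .ofNat 108, .negSucc 424, .ofNat 0, .ofNat 301, .negSucc 48, .ofNat 0, .ofNat 0, .ofNat 953, .ofNat 5761, .ofNat 0, .ofNat 2898805864995745703342899200, .ofNat 0, .ofNat 0, .ofNat 0, .ofNat 0, .ofNat 0, .ofNat 0, .ofNat 0, .ofNat 0, .ofNat 0, .ofNat 0, .ofNat 0, .ofNat 0, .ofNat 0, .ofNat 0⟩)
    (by decide +kernel)
theorem L00026 : Good (Phi V4.P V4.D (-1) 1) ⟨2, 0, 2, 1, 1, 0, 3, 6, 3, 1⟩ :=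
  leaf_sound (S := T4.ds_mp) T4.ok_mp (w := 160) (c := ⟨⟨.negSucc 237, .negSucc 53, .negSucc 33, .negSucc 223, .ofNat 89, .ofNat 27⟩, ⟨.negSucc 59, .negSucc 28, .negSucc 81, .negSucc 119, .ofNat 37, .ofNat 15⟩, ⟨.negSucc 241, .ofNat 67, .ofNat 25, .ofNat 230, .negSucc 137, .ofNat 27⟩, ⟨.negSucc 749, .negSucc 58, .negSucc 33, .negSucc 458, .ofNat 251, .ofNat 45⟩, ⟨.negSucc 40, .negSucc 41, .ofNat 6, .negSucc 511, .ofNat 41, .ofNat 68⟩, .ofNat 711, .negSucc 435, .ofNat 0, .negSucc 435, .ofNat 1460, .ofNat 0, .ofNat 416, .ofNat 265, .negSucc 397, .ofNat 0, .ofNat 313, .negSucc 126, .ofNat 0, .ofNat 0, .ofNat 953, .ofNat 8426, .ofNat 0, .ofNat 0, .ofNat 0, .ofNat 0, .ofNat 0, .ofNat 0, .ofNat 0, .ofNat 0, .ofNat 0, .ofNat 0, .ofNat 0, .ofNat 0, .ofNat 0, .ofNat 0, .ofNat 0, .ofNat 0⟩)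
    (by decide +kernel)
theorem L00027 : Good (Phi V4.P V4.D (-1) 1) ⟨2, 0, 2, 1, 2, 0, 3, 7, 3, 1⟩ :=
  leaf_sound (S := T4.ds_mp) T4.ok_mp (w := 168) (c := ⟨⟨.negSucc 190, .negSucc 16, .negSucc 8, .negSucc 84, .ofNat 164, .ofNat 37⟩, ⟨.negSucc 64, .negSucc 8, .negSucc 35, .negSucc 44, .ofNat 71, .ofNat 18⟩, ⟨.negSucc 365, .ofNat 30, .ofNat 5, .ofNat 99, .negSucc 191, .ofNat 53⟩, ⟨.negSucc 571, .negSucc 7, .negSucc 5, .negSucc 167, .ofNat 459, .ofNat 91⟩, ⟨.negSucc 28, .negSucc 7, .negSucc 0, .negSucc 207, .ofNat 39, .ofNat 30⟩, .ofNat 429, .negSucc 144, .ofNat 0, .negSucc 144, .ofNat 665, .ofNat 0, .ofNat 255, .ofNat 101, .negSucc 319, .ofNat 0, .ofNat 203, .negSucc 86, .ofNat 0, .ofNat 0, .ofNat 548, .ofNat 4625, .ofNat 0, .ofNat 0, .ofNat 0, .ofNat 0, .ofNat 0, .ofNat 0, .ofNat 0, .ofNat 0, .ofNat 0, .ofNat 0, .ofNat 0, .ofNat 0,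 .ofNat 0, .ofNat 0, .ofNat 0, .ofNat 0⟩)
    (by decide +kernel)
theorem L00028 : Good (Phi V4.P V4.D (-1) 1) ⟨2, 0, 2, 1, 2, 1, 3, 7, 3, 1⟩ :=
  leaf_sound (S := T4.ds_mp) T4.ok_mp (w := 168) (c := ⟨⟨.negSucc 244, .negSucc 59, .negSucc 40, .negSucc 171, .ofNat 127, .ofNat 58⟩, ⟨.negSucc 86, .negSucc 28, .negSucc 78, .negSucc 75, .ofNat 53, .ofNat 32⟩, ⟨.negSucc 297, .ofNat 92, .ofNat 29, .ofNat 188, .negSucc 139, .ofNat 20⟩, ⟨.negSucc 683, .negSucc 62, .negSucc 36, .negSucc 422, .ofNat 332, .ofNat 131⟩, ⟨.negSucc 270, .negSucc 71, .ofNat 5, .negSucc 209, .ofNat 108, .ofNat 87⟩, .ofNat 427, .negSucc 138, .ofNat 0, .negSucc 138, .ofNat 663, .ofNat 0, .ofNat 272, .ofNat 110, .negSucc 309, .ofNat 0, .ofNat 209, .negSucc 76, .ofNat 0, .ofNat 0, .ofNat 535, .ofNat 4533, .ofNat 0, .ofNat 0, .ofNat 0, .ofNat 0, .ofNat 0, .ofNat 0, .ofNat 0,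 .ofNat 0, .ofNat 0, .ofNat 0, .ofNat 0, .ofNat 0, .ofNat 0, .ofNat 226133246246754651618897454694400, .ofNat 0, .ofNat 0⟩)
    (by decide +kernel)
theorem L00029 : Good (Phi V4.P V4.D (-1) 1) ⟨2, 1, 1, 0, 1, 0, 3, 6, 3, 1⟩ :=
  leaf_sound (S := T4.ds_mp) T4.ok_mp (w := 160) (c := ⟨⟨.negSucc 212, .negSucc 160, .negSucc 100, .negSucc 280, .ofNat 91, .ofNat 40⟩, ⟨.ofNat 22, .negSucc 2, .negSucc 203, .negSucc 99, .ofNat 22, .negSucc 0⟩, ⟨.negSucc 266, .ofNat 168, .ofNat 91, .ofNat 315, .negSucc 132, .ofNat 22⟩, ⟨.negSucc 711, .negSucc 195, .negSucc 112, .negSucc 550, .ofNat 235, .ofNat 105⟩, ⟨.negSucc 10, .negSucc 27, .ofNat 8, .negSucc 629, .ofNat 27, .ofNat 46⟩, .ofNat 382, .negSucc 101, .ofNat 0, .negSucc 101, .ofNat 726, .ofNat 0, .ofNat 276, .ofNat 79, .negSucc 316, .ofNat 0, .ofNat 181, .negSucc 45, .ofNat 0, .ofNat 0, .ofNat 551,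 .ofNat 2297, .ofNat 0, .ofNat 0, .ofNat 0, .ofNat 0, .ofNat 0, .ofNat 0, .ofNat 0, .ofNat 0, .ofNat 0, .ofNat 0, .ofNat 0, .ofNat 0, .ofNat 0, .ofNat 0, .ofNat 11793940914368862189571276800, .ofNat 0⟩)
    (by decide +kernel)
theorem L00030 : Good (Phi V4.P V4.D (-1) 1) ⟨2, 1, 1, 0, 2, 0, 3, 7, 3, 1⟩ :=
  leaf_sound (S := T4.ds_mp) T4.ok_mp (w := 168) (c := ⟨⟨.negSucc 220, .negSucc 69, .negSucc 34, .negSucc 88, .ofNat 211, .ofNat 60⟩, ⟨.negSucc 25, .ofNat 6, .negSucc 86, .negSucc 25, .ofNat 55, .ofNat 6⟩, ⟨.negSucc 340, .ofNat 80, .ofNat 29, .ofNat 130, .negSucc 235, .ofNat 36⟩, ⟨.negSucc 612, .negSucc 85, .negSucc 38, .negSucc 171, .ofNat 519, .ofNat 144⟩, ⟨.negSucc 34, .negSucc 8, .ofNat 9, .negSucc 232, .ofNat 46, .ofNat 32⟩, .ofNat 382, .negSucc 104, .ofNat 0, .negSucc 104, .ofNat 727, .ofNat 0, .ofNat 280, .ofNat 81, .negSucc 392,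 .ofNat 0, .ofNat 187, .negSucc 68, .ofNat 0, .ofNat 0, .ofNat 602, .ofNat 2727, .ofNat 0, .ofNat 0, .ofNat 0, .ofNat 0, .ofNat 0, .ofNat 0, .ofNat 0, .ofNat 0, .ofNat 0, .ofNat 0, .ofNat 0, .ofNat 0, .ofNat 0, .ofNat 0, .ofNat 0, .ofNat 0⟩)
    (by decide +kernel)
theorem L00031 : Good (Phi V4.P V4.D (-1) 1) ⟨2, 1, 1, 0, 2, 1, 3, 7, 3, 1⟩ :=
  leaf_sound (S := T4.ds_mp) T4.ok_mp (w := 168) (c := ⟨⟨.negSucc 232, .negSucc 126, .negSucc 142, .negSucc 231, .ofNat 149, .ofNat 98⟩, ⟨.negSucc 10, .ofNat 18, .negSucc 195, .negSucc 80, .ofNat 25, .ofNat 33⟩, ⟨.negSucc 287, .ofNat 146, .ofNat 134, .ofNat 254, .negSucc 162, .negSucc 4⟩, ⟨.negSucc 688, .negSucc 146, .negSucc 189, .negSucc 492, .ofNat 369, .ofNat 238⟩, ⟨.negSucc 270, .negSucc 76, .ofNat 1, .negSucc 318, .ofNat 92, .ofNat 67⟩, .ofNat 380, .negSucc 96, .ofNat 0, .negSucc 96, .ofNat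 731, .ofNat 0, .ofNat 300, .ofNat 85, .negSucc 377, .ofNat 0, .ofNat 190, .negSucc 57, .ofNat 0, .ofNat 0, .ofNat 578, .ofNat 1892, .ofNat 0, .ofNat 0, .ofNat 0, .ofNat 0, .ofNat 0, .ofNat 0, .ofNat 0, .ofNat 0, .ofNat 0, .ofNat 0, .ofNat 0, .ofNat 0, .ofNat 0, .ofNat 43043030817487869091049688268800, .ofNat 4316030981448188403674146406400, .ofNat 0⟩)
    (by decide +kernel)
theorem L00032 : Good (Phi V4.P V4.D (-1) 1) ⟨2, 0, 1, 1, 1, 0, 3, 6, 3, 1⟩ :=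
  leaf_sound (S := T4.ds_mp) T4.ok_mp (w := 160) (c := ⟨⟨.negSucc 242, .negSucc 66, .negSucc 26, .negSucc 272, .ofNat 95, .ofNat 29⟩, ⟨.negSucc 130, .negSucc 31, .negSucc 138, .negSucc 160, .ofNat 53, .ofNat 16⟩, ⟨.negSucc 244, .ofNat 76, .ofNat 25, .ofNat 272, .negSucc 137, .ofNat 25⟩, ⟨.negSucc 757, .negSucc 81, .ofNat 51, .negSucc 500, .ofNat 259, .ofNat 61⟩, ⟨.negSucc 26, .negSucc 14, .negSucc 10, .negSucc 527, .ofNat 26, .ofNat 43⟩, .ofNat 891, .negSucc 750, .ofNat 0, .negSucc 750, .ofNat 1768, .ofNat 0, .ofNat 340, .ofNat 356, .negSucc 403, .ofNat 0, .ofNat 324, .negSucc 186, .ofNat 0, .ofNat 0, .ofNat 954, .ofNat 7630, .ofNat 0, .ofNat 0, .ofNat 210876112063403316766310400, .ofNat 0, .ofNat 0, .ofNat 0, .ofNat 97500086355508019664519168000, .ofNat 0, .ofNat 0, .ofNat 0, .ofNat 145192478936164387747843276800, .ofNat 0, .ofNat 0,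 .ofNat 0, .ofNat 96269225709802487500976947200, .ofNat 0⟩)
    (by decide +kernel)
theorem L00033 : Good (Phi V4.P V4.D (-1) 1) ⟨2, 0, 2, 2, 2, 0, 3, 7, 3, 1⟩ :=
  leaf_sound (S := T4.ds_mp) T4.ok_mp (w := 168) (c := ⟨⟨.negSucc 192, .negSucc 30, .negSucc 10, .negSucc 112, .ofNat 175, .ofNat 49⟩, ⟨.negSucc 108, .negSucc 10, .negSucc 38, .negSucc 66, .ofNat 97, .ofNat 29⟩, ⟨.negSucc 371, .ofNat 40, .ofNat 8, .ofNat 133, .negSucc 198, .ofNat 43⟩, ⟨.negSucc 569, .negSucc 34, .negSucc 1, .negSucc 206, .ofNat 472, .ofNat 120⟩, ⟨.negSucc 34, .negSucc 7, .negSucc 19, .negSucc 206, .ofNat 47, .ofNat 36⟩, .ofNat 895, .negSucc 763, .ofNat 0, .negSucc 763, .ofNat 1791, .ofNat 0, .ofNat 348, .ofNat 366, .negSucc 494, .ofNat 0, .ofNat 334, .negSucc 236, .ofNat 0, .ofNat 0, .ofNat 995, .ofNat 13400, .ofNat 0, .ofNat 3894710334201057116990472192000,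 .ofNat 176755116057035568097473331200, .ofNat 0, .ofNat 0, .ofNat 0, .ofNat 0, .ofNat 0, .ofNat 0, .ofNat 46123431119497197493937189683200, .ofNat 73985950765369734814380117196800, .ofNat 0, .ofNat 0, .ofNat 0, .ofNat 47222861484836649101289534259200, .ofNat 0⟩)
    (by decide +kernel)
theorem L00034 : Good (Phi V4.P V4.D (-1) 1) ⟨2, 0, 2, 2, 2, 1, 3, 7, 3, 1⟩ :=
  leaf_sound (S := T4.ds_mp) T4.ok_mp (w := 168) (c := ⟨⟨.negSucc 249, .negSucc 107, .negSucc 25, .negSucc 203, .ofNat 132, .ofNat 77⟩, ⟨.negSucc 145, .negSucc 48, .negSucc 72, .negSucc 114, .ofNat 74, .ofNat 43⟩, ⟨.negSucc 314, .ofNat 144, .ofNat 23, .ofNat 218, .negSucc 139, .ofNat 9⟩, ⟨.negSucc 666, .negSucc 153, .ofNat 0, .negSucc 462, .ofNat 324, .ofNat 174⟩, ⟨.negSucc 249, .negSucc 86, .ofNat 3, .negSucc 226, .ofNat 109, .ofNat 88⟩, .ofNat 1773, .negSucc 2173, .ofNat 0,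 .negSucc 2173, .ofNat 4317, .ofNat 0, .ofNat 265, .ofNat 457, .negSucc 440, .ofNat 0, .ofNat 323, .negSucc 231, .ofNat 0, .ofNat 0, .ofNat 962, .ofNat 8028, .ofNat 0, .ofNat 1018763152840353838793962291200, .ofNat 192908789784395445983772672000, .ofNat 0, .ofNat 0, .ofNat 0, .ofNat 0, .ofNat 0, .ofNat 0, .ofNat 33123879285015671291907145728000, .ofNat 77206895403023209347154339430400, .ofNat 0, .ofNat 0, .ofNat 95203063147353365992730473267200, .ofNat 47823513466420307038016058163200, .ofNat 0⟩)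
    (by decide +kernel)
theorem L00035 : Good (Phi V4.P V4.D (-1) 1) ⟨2, 0, 2, 3, 1, 0, 3, 7, 3, 1⟩ :=
  out_sound (S := T4.ds_mp) T4.ok_mp (w := 40) (j := 3) (by decide +kernel)
theorem L00036 : Good (Phi V4.P V4.D (-1) 1) ⟨2, 1, 1, 1, 1, 0, 3, 6, 3, 1⟩ :=
  leaf_sound (S := T4.ds_mp) T4.ok_mp (w := 160) (c := ⟨⟨.negSucc 291, .negSucc 131, .negSucc 56, .negSucc 353, .ofNat 101, .ofNat 53⟩, ⟨.negSucc 154, .negSucc 13, .negSucc 184, .negSucc 186, .ofNat 51, .ofNat 24⟩, ⟨.negSucc 208, .ofNat 154, .ofNat 61, .ofNat 378, .negSucc 136, .ofNat 14⟩, ⟨.negSucc 808, .negSucc 149, .negSucc 56, .negSucc 619, .ofNat 249, .ofNat 111⟩, ⟨.negSucc 18, .negSucc 18, .ofNat 1, .negSucc 593, .ofNat 22, .ofNat 39⟩, .ofNat 820, .negSucc 746, .ofNat 0, .negSucc 746, .ofNat 1888, .ofNat 0, .ofNat 357, .ofNat 381, .negSucc 470, .ofNat 0, .ofNat 315, .negSucc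 200, .ofNat 0, .ofNat 0, .ofNat 996, .ofNat 7946, .ofNat 0, .ofNat 0, .ofNat 336643508608817925744230400, .ofNat 0, .ofNat 0, .ofNat 0, .ofNat 249745903934116594991077785600, .ofNat 0, .ofNat 0, .ofNat 0, .ofNat 174720800835880888102708838400, .ofNat 0, .ofNat 0, .ofNat 0, .ofNat 157980765925538034140735078400, .ofNat 0⟩)
    (by decide +kernel)
theorem L00037 : Good (Phi V4.P V4.D (-1) 1) ⟨2, 1, 1, 1, 2, 0, 3, 7, 3, 1⟩ :=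
  leaf_sound (S := T4.ds_mp) T4.ok_mp (w := 168) (c := ⟨⟨.negSucc 238, .negSucc 49, .negSucc 12, .negSucc 129, .ofNat 209, .ofNat 53⟩, ⟨.negSucc 124, .negSucc 3, .negSucc 88, .negSucc 69, .ofNat 106, .ofNat 31⟩, ⟨.negSucc 329, .ofNat 63, .ofNat 8, .ofNat 171, .negSucc 231, .ofNat 47⟩, ⟨.negSucc 623, .negSucc 55, .negSucc 15, .negSucc 226, .ofNat 514, .ofNat 122⟩, ⟨.negSucc 36, .negSucc 2, .negSucc 18, .negSucc 224, .ofNat 45, .ofNat 36⟩, .ofNat 833, .negSucc 764, .ofNat 0, .negSucc 764, .ofNat 1904, .ofNat 0, .ofNat 181, .ofNat 193, .negSucc 284, .ofNat 0, .ofNat 162, .negSucc 126, .ofNat 0, .ofNat 0, .ofNat 523, .ofNat 4869, .ofNat 0, .ofNat 0, .ofNat 0, .ofNat 0, .ofNat 0, .ofNat 0, .ofNat 25963059274081304617560519475200, .ofNat 0, .ofNat 0, .ofNat 0, .ofNat 20404979914289845013243441971200, .ofNat 0, .ofNat 0, .ofNat 0, .ofNat 22789680366202187474349431193600,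 .ofNat 0⟩)
    (by decide +kernel)
theorem L00038 : Good (Phi V4.P V4.D (-1) 1) ⟨2, 1, 1, 1, 2, 1, 3, 7, 3, 1⟩ :=
  leaf_sound (S := T4.ds_mp) T4.ok_mp (w := 168) (c := ⟨⟨.negSucc 336, .negSucc 169, .negSucc 122, .negSucc 272, .ofNat 139, .ofNat 122⟩, ⟨.negSucc 183, .negSucc 35, .negSucc 201, .negSucc 138, .ofNat 72, .ofNat 61⟩, ⟨.negSucc 197, .ofNat 201, .ofNat 118, .ofNat 290, .negSucc 142, .negSucc 26⟩, ⟨.negSucc 799, .negSucc 232, .negSucc 156, .negSucc 549, .ofNat 321, .ofNat 275⟩, ⟨.negSucc 272, .negSucc 79, .negSucc 0, .negSucc 303, .ofNat 82, .ofNat 70⟩, .ofNat 820, .negSucc 746, .ofNat 0, .negSucc 746, .ofNat 1889, .ofNat 0, .ofNat 193, .ofNat 211, .negSucc 278, .ofNat 0, .ofNat 170, .negSucc 120, .ofNat 0, .ofNat 0, .ofNat 517, .ofNat 3792, .ofNat 0, .ofNat 0, .ofNat 0, .ofNat 0, .ofNat 0, .ofNat 0, .ofNat 27780196548570877615294277222400,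 .ofNat 0, .ofNat 0, .ofNat 0, .ofNat 23715521824918919639895480729600, .ofNat 0, .ofNat 0, .ofNat 0, .ofNat 15146486486096926276590973747200, .ofNat 0⟩)
    (by decide +kernel)
theorem L00039 : Good (Phi V4.P V4.D (-1) 1) ⟨1, 0, 0, 0, 2, 0, 1, 0, 3, 2⟩ :=
  leaf_sound (S := T4.ds_mp) T4.ok_mp (w := 152) (c := ⟨⟨.negSucc 482, .negSucc 217, .negSucc 30, .negSucc 63, .ofNat 155, .ofNat 11⟩, ⟨.negSucc 29, .negSucc 14, .negSucc 490, .negSucc 24, .ofNat 40, .ofNat 7⟩, ⟨.ofNat 632, .ofNat 238, .ofNat 34, .ofNat 56, .negSucc 591, .negSucc 79⟩, ⟨.negSucc 1548, .negSucc 172, .negSucc 22, .negSucc 86, .ofNat 437, .ofNat 46⟩, ⟨.ofNat 56, .negSucc 1, .ofNat 7, .negSucc 230, .negSucc 70, .negSucc 15⟩, .ofNat 394, .negSucc 93, .ofNat 0, .negSucc 93, .ofNat 686, .ofNat 0, .ofNat 422, .ofNat 109, .negSucc 324, .ofNat 0, .ofNat 297, .negSucc 36, .ofNat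 0, .ofNat 0, .ofNat 899, .ofNat 4993, .ofNat 0, .ofNat 0, .ofNat 0, .ofNat 0, .ofNat 0, .ofNat 0, .ofNat 0, .ofNat 0, .ofNat 0, .ofNat 0, .ofNat 901172502160899613926830899200, .ofNat 0, .ofNat 1077688318810987713298799001600, .ofNat 0, .ofNat 666236370701773020595853721600, .ofNat 0⟩)
    (by decide +kernel)
theorem L00040 : Good (Phi V4.P V4.D (-1) 1) ⟨2, 0, 0, 0, 2, 1, 1, 0, 3, 2⟩ :=
  leaf_sound (S := T4.ds_mp) T4.ok_mp (w := 160) (c := ⟨⟨.negSucc 501, .negSucc 62, .negSucc 127, .negSucc 104, .ofNat 117, .negSucc 1⟩, ⟨.negSucc 18, .negSucc 35, .negSucc 526, .negSucc 42, .ofNat 24, .negSucc 12⟩, ⟨.ofNat 607, .ofNat 91, .ofNat 144, .ofNat 57, .negSucc 522, .negSucc 61⟩, ⟨.negSucc 1613, .negSucc 31, .negSucc 72, .negSucc 230, .ofNat 407, .ofNat 23⟩, ⟨.negSucc 72, .negSucc 53, .ofNat 37, .negSucc 227, .negSucc 189, .negSucc 28⟩, .ofNat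 412, .negSucc 95, .ofNat 0, .negSucc 95, .ofNat 651, .ofNat 0, .ofNat 429, .ofNat 113, .negSucc 286, .ofNat 0, .ofNat 315, .ofNat 0, .ofNat 0, .ofNat 0, .ofNat 901, .ofNat 3287, .ofNat 0, .ofNat 0, .ofNat 498117383136398849605632000, .ofNat 0, .ofNat 0, .ofNat 0, .ofNat 0, .ofNat 0, .ofNat 0, .ofNat 0, .ofNat 0, .ofNat 0, .ofNat 21111922604917207060349504716800, .ofNat 0, .ofNat 154850375447724267070606540800, .ofNat 0⟩)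
    (by decide +kernel)
theorem L00041 : Good (Phi V4.P V4.D (-1) 1) ⟨2, 1, 0, 0, 2, 1, 1, 0, 4, 4⟩ :=
  leaf_sound (S := T4.ds_mp) T4.ok_mp (w := 160) (c := ⟨⟨.negSucc 540, .negSucc 204, .negSucc 160, .negSucc 135, .ofNat 116, .ofNat 0⟩, ⟨.negSucc 37, .ofNat 22, .negSucc 600, .negSucc 50, .ofNat 22, .ofNat 6⟩, ⟨.ofNat 675, .ofNat 222, .ofNat 195, .ofNat 96, .negSucc 546, .negSucc 23⟩, ⟨.negSucc 1584, .negSucc 198, .negSucc 135, .negSucc 268, .ofNat 367, .ofNat 18⟩, ⟨.negSucc 77, .negSucc 22, .ofNat 78, .negSucc 281, .negSucc 230, .negSucc 20⟩, .ofNat 388, .negSucc 114, .ofNat 0, .negSucc 114, .ofNat 717, .ofNat 0, .ofNat 461, .ofNat 147, .negSucc 349, .ofNat 0, .ofNat 307, .negSucc 17, .ofNat 0, .ofNat 0, .ofNat 942, .ofNat 5031, .ofNat 0, .ofNat 0, .ofNat 19304012729801421426681446400, .ofNat 0, .ofNat 0, .ofNat 0, .ofNat 0, .ofNat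 0, .ofNat 0, .ofNat 0, .ofNat 4753311710012456727177540403200, .ofNat 0, .ofNat 38654973120898629514401782169600, .ofNat 0, .ofNat 6070676696938713817677614284800, .ofNat 0⟩)
    (by decide +kernel)
theorem L00042 : Good (Phi V4.P V4.D (-1) 1) ⟨2, 1, 0, 0, 2, 1, 1, 0, 4, 5⟩ :=
  leaf_sound (S := T4.ds_mp) T4.ok_mp (w := 160) (c := ⟨⟨.negSucc 569, .negSucc 184, .negSucc 176, .negSucc 140, .ofNat 162, .ofNat 17⟩, ⟨.negSucc 47, .ofNat 24, .negSucc 594, .negSucc 47, .ofNat 44, .ofNat 0⟩, ⟨.ofNat 615, .ofNat 249, .ofNat 197, .ofNat 129, .negSucc 534, .negSucc 30⟩, ⟨.negSucc 1642, .negSucc 159, .negSucc 130, .negSucc 262, .ofNat 450, .ofNat 52⟩, ⟨.negSucc 141, .negSucc 1, .ofNat 71, .negSucc 288, .negSucc 167, .negSucc 26⟩, .ofNat 386, .negSucc 116, .ofNat 0, .negSucc 116, .ofNat 722, .ofNat 0, .ofNat 428, .ofNat 138, .negSucc 302, .ofNat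 0, .ofNat 285, .negSucc 16, .ofNat 0, .ofNat 0, .ofNat 901, .ofNat 4651, .ofNat 0, .ofNat 0, .ofNat 21801884747215067542034841600, .ofNat 0, .ofNat 0, .ofNat 0, .ofNat 0, .ofNat 0, .ofNat 0, .ofNat 0, .ofNat 4837172427557596535681816985600, .ofNat 0, .ofNat 52662120252484007718399718195200, .ofNat 0, .ofNat 4645915443664387470344060928000, .ofNat 0⟩)
    (by decide +kernel)
theorem L00043 : Good (Phi V4.P V4.D (-1) 1) ⟨1, 0, 0, 0, 1, 0, 2, 0, 3, 3⟩ :=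
  leaf_sound (S := T4.ds_mp) T4.ok_mp (w := 152) (c := ⟨⟨.negSucc 411, .negSucc 228, .negSucc 110, .negSucc 182, .ofNat 72, .ofNat 38⟩, ⟨.negSucc 1, .negSucc 8, .negSucc 517, .negSucc 74, .ofNat 3, .ofNat 9⟩, ⟨.ofNat 330, .ofNat 363, .ofNat 86, .ofNat 185, .negSucc 210, .negSucc 109⟩, ⟨.negSucc 1465, .negSucc 152, .negSucc 61, .negSucc 323, .ofNat 230, .ofNat 117⟩, ⟨.ofNat 97, .negSucc 54, .ofNat 40, .negSucc 511, .negSucc 62, .negSucc 29⟩, .ofNat 399, .negSucc 111, .ofNat 0, .negSucc 111, .ofNat 689, .ofNat 0, .ofNat 375, .ofNat 114, .negSucc 227, .ofNat 0, .ofNat 267, .negSucc 13, .ofNat 0, .ofNat 0, .ofNat 856, .ofNat 12526, .ofNat 0, .ofNat 0, .ofNat 374481272021582555460403200, .ofNat 0, .ofNat 0, .ofNat 0, .ofNat 0, .ofNat 0, .ofNat 0, .ofNat 0, .ofNat 0, .ofNat 0, .ofNat 77038414717647377172057292800, .ofNat 0, .ofNat 18083994247358337616183296000,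 .ofNat 0⟩)
    (by decide +kernel)
theorem L00044 : Good (Phi V4.P V4.D (-1) 1) ⟨1, 0, 0, 0, 1, 0, 2, 1, 3, 3⟩ :=
  leaf_sound (S := T4.ds_mp) T4.ok_mp (w := 152) (c := ⟨⟨.negSucc 375, .negSucc 203, .negSucc 93, .negSucc 157, .ofNat 67, .ofNat 57⟩, ⟨.negSucc 11, .ofNat 12, .negSucc 488, .negSucc 63, .ofNat 15, .ofNat 5⟩, ⟨.ofNat 157, .ofNat 293, .ofNat 65, .ofNat 163, .negSucc 204, .negSucc 77⟩, ⟨.negSucc 1280, .negSucc 122, .negSucc 33, .negSucc 294, .ofNat 209, .ofNat 138⟩, ⟨.ofNat 56, .negSucc 60, .ofNat 26, .negSucc 565, .negSucc 17, .negSucc 12⟩, .ofNat 392, .negSucc 90, .ofNat 0, .negSucc 90, .ofNat 690, .ofNat 0, .ofNat 377, .ofNat 93, .negSucc 244, .ofNat 0, .ofNat 260, .negSucc 15, .ofNat 0, .ofNat 0, .ofNat 817, .ofNat 5897, .ofNat 0, .ofNat 0, .ofNat 133017028324760252724019200, .ofNat 0, .ofNat 0, .ofNat 0, .ofNat 0, .ofNat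 0, .ofNat 0, .ofNat 0, .ofNat 18402388326934760334871756800, .ofNat 0, .ofNat 0, .ofNat 0, .ofNat 21800389104647200562164531200, .ofNat 0⟩)
    (by decide +kernel)
theorem L00045 : Good (Phi V4.P V4.D (-1) 1) ⟨1, 0, 1, 0, 2, 0, 2, 2, 3, 2⟩ :=
  leaf_sound (S := T4.ds_mp) T4.ok_mp (w := 160) (c := ⟨⟨.negSucc 354, .negSucc 169, .negSucc 24, .negSucc 56, .ofNat 121, .ofNat 24⟩, ⟨.negSucc 24, .negSucc 11, .negSucc 187, .negSucc 26, .ofNat 40, .ofNat 11⟩, ⟨.ofNat 35, .ofNat 198, .ofNat 17, .ofNat 62, .negSucc 224, .negSucc 18⟩, ⟨.negSucc 1137, .negSucc 146, .negSucc 13, .negSucc 85, .ofNat 344, .ofNat 63⟩, ⟨.negSucc 4, .negSucc 9, .ofNat 7, .negSucc 272, .ofNat 9, .ofNat 12⟩, .ofNat 400, .negSucc 110, .ofNat 0, .negSucc 110, .ofNat 684, .ofNat 0, .ofNat 432, .ofNat 132, .negSucc 389, .ofNat 0, .ofNat 312, .negSucc 67, .ofNat 0, .ofNat 0,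 .ofNat 903, .ofNat 8311, .ofNat 0, .ofNat 0, .ofNat 0, .ofNat 0, .ofNat 0, .ofNat 0, .ofNat 0, .ofNat 0, .ofNat 0, .ofNat 0, .ofNat 0, .ofNat 0, .ofNat 0, .ofNat 0, .ofNat 0, .ofNat 0⟩)
    (by decide +kernel)
theorem L00046 : Good (Phi V4.P V4.D (-1) 1) ⟨1, 0, 1, 0, 2, 1, 2, 2, 3, 2⟩ :=
  leaf_sound (S := T4.ds_mp) T4.ok_mp (w := 160) (c := ⟨⟨.negSucc 355, .negSucc 217, .negSucc 100, .negSucc 119, .ofNat 125, .ofNat 36⟩, ⟨.negSucc 23, .ofNat 1, .negSucc 244, .negSucc 52, .ofNat 22, .ofNat 7⟩, ⟨.ofNat 16, .ofNat 288, .ofNat 76, .ofNat 108, .negSucc 204, .negSucc 20⟩, ⟨.negSucc 1181, .negSucc 179, .negSucc 82, .negSucc 246, .ofNat 331, .ofNat 96⟩, ⟨.negSucc 227, .negSucc 100, .ofNat 11, .negSucc 314, .ofNat 9, .ofNat 9⟩, .ofNat 395, .negSucc 100, .ofNat 0, .negSucc 100, .ofNat 697, .ofNat 0, .ofNat 458, .ofNat 129, .negSucc 379, .ofNat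 0, .ofNat 312, .negSucc 35, .ofNat 0, .ofNat 0, .ofNat 902, .ofNat 6171, .ofNat 0, .ofNat 0, .ofNat 0, .ofNat 0, .ofNat 0, .ofNat 0, .ofNat 0, .ofNat 0, .ofNat 0, .ofNat 0, .ofNat 0, .ofNat 0, .ofNat 0, .ofNat 0, .ofNat 0, .ofNat 0⟩)
    (by decide +kernel)
theorem L00047 : Good (Phi V4.P V4.D (-1) 1) ⟨1, 0, 1, 0, 1, 0, 2, 2, 3, 3⟩ :=
  leaf_sound (S := T4.ds_mp) T4.ok_mp (w := 152) (c := ⟨⟨.negSucc 326, .negSucc 143, .negSucc 46, .negSucc 140, .ofNat 128, .ofNat 46⟩, ⟨.negSucc 15, .negSucc 3, .negSucc 184, .negSucc 59, .ofNat 30, .ofNat 5⟩, ⟨.negSucc 26, .ofNat 211, .ofNat 36, .ofNat 153, .negSucc 181, .negSucc 32⟩, ⟨.negSucc 1087, .negSucc 67, .negSucc 23, .negSucc 256, .ofNat 341, .ofNat 122⟩, ⟨.ofNat 31, .negSucc 72, .ofNat 13, .negSucc 569, .ofNat 25, .ofNat 19⟩, .ofNat 395, .negSucc 92, .ofNat 0, .negSucc 92, .ofNat 686, .ofNat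 0, .ofNat 389, .ofNat 99, .negSucc 307, .ofNat 0, .ofNat 272, .negSucc 38, .ofNat 0, .ofNat 0, .ofNat 798, .ofNat 5459, .ofNat 0, .ofNat 0, .ofNat 0, .ofNat 0, .ofNat 0, .ofNat 0, .ofNat 0, .ofNat 0, .ofNat 0, .ofNat 0, .ofNat 0, .ofNat 0, .ofNat 0, .ofNat 0, .ofNat 23058609676189705631799705600, .ofNat 0⟩)
    (by decide +kernel)
theorem L00048 : Good (Phi V4.P V4.D (-1) 1) ⟨2, 0, 2, 0, 2, 0, 2, 3, 3, 2⟩ :=
  leaf_sound (S := T4.ds_mp) T4.ok_mp (w := 168) (c := ⟨⟨.negSucc 280, .negSucc 5, .negSucc 0, .negSucc 52, .ofNat 264, .ofNat 13⟩, ⟨.negSucc 26, .negSucc 2, .negSucc 41, .negSucc 30, .ofNat 57, .ofNat 4⟩, ⟨.negSucc 168, .ofNat 23, .negSucc 1, .ofNat 65, .negSucc 296, .ofNat 41⟩, ⟨.negSucc 834, .ofNat 23, .ofNat 20, .negSucc 130, .ofNat 755, .ofNat 29⟩, ⟨.negSucc 37, .negSucc 2, .negSucc 3, .negSucc 184, .ofNat 66, .ofNat 17⟩, .ofNat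 404, .negSucc 58, .ofNat 0, .negSucc 58, .ofNat 644, .ofNat 0, .ofNat 469, .ofNat 76, .negSucc 502, .ofNat 0, .ofNat 344, .negSucc 56, .ofNat 0, .ofNat 0, .ofNat 939, .ofNat 7185, .ofNat 0, .ofNat 0, .ofNat 0, .ofNat 0, .ofNat 0, .ofNat 0, .ofNat 0, .ofNat 0, .ofNat 0, .ofNat 0, .ofNat 0, .ofNat 0, .ofNat 0, .ofNat 0, .ofNat 0, .ofNat 0⟩)
    (by decide +kernel)
theorem L00049 : Good (Phi V4.P V4.D (-1) 1) ⟨2, 0, 2, 0, 2, 1, 2, 3, 3, 2⟩ :=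
  leaf_sound (S := T4.ds_mp) T4.ok_mp (w := 168) (c := ⟨⟨.negSucc 299, .negSucc 20, .negSucc 35, .negSucc 114, .ofNat 217, .ofNat 38⟩, ⟨.negSucc 37, .negSucc 6, .negSucc 71, .negSucc 37, .ofNat 52, .ofNat 9⟩, ⟨.negSucc 134, .ofNat 52, .ofNat 26, .ofNat 118, .negSucc 239, .ofNat 3⟩, ⟨.negSucc 914, .ofNat 37, .negSucc 31, .negSucc 303, .ofNat 602, .ofNat 105⟩, ⟨.negSucc 236, .negSucc 83, .ofNat 14, .negSucc 232, .ofNat 158, .ofNat 32⟩, .ofNat 403, .negSucc 59, .ofNat 0, .negSucc 59, .ofNat 648, .ofNat 0, .ofNat 495, .ofNat 86, .negSucc 456, .ofNat 0, .ofNat 348, .negSucc 40, .ofNat 0, .ofNat 0, .ofNat 910, .ofNat 5517, .ofNat 0, .ofNat 0, .ofNat 0, .ofNat 0, .ofNat 0, .ofNat 324625235254626739691016998092800, .ofNat 0, .ofNat 0, .ofNat 0, .ofNat 0, .ofNat 0, .ofNat 0, .ofNat 0, .ofNat 0, .ofNat 0, .ofNat 0⟩)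
    (by decide +kernel)
theorem L00050 : Good (Phi V4.P V4.D (-1) 1) ⟨2, 0, 3, 2, 2, 0, 3, 6, 3, 2⟩ :=
  leaf_sound (S := T4.ds_mp) T4.ok_mp (w := 176) (c := ⟨⟨.negSucc 261, .negSucc 28, .negSucc 3, .negSucc 59, .ofNat 100, .ofNat 18⟩, ⟨.negSucc 73, .negSucc 17, .negSucc 27, .negSucc 35, .ofNat 37, .ofNat 8⟩, ⟨.negSucc 180, .ofNat 39, .ofNat 2, .ofNat 67, .negSucc 122, .ofNat 30⟩, ⟨.negSucc 796, .negSucc 18, .ofNat 3, .negSucc 105, .ofNat 285, .ofNat 49⟩, ⟨.negSucc 19, .negSucc 11, .ofNat 2, .negSucc 217, .ofNat 29, .ofNat 21⟩, .ofNat 675, .negSucc 367, .ofNat 0, .negSucc 367, .ofNat 1413, .ofNat 0, .ofNat 374, .ofNat 199, .negSucc 346, .ofNat 0, .ofNat 268, .negSucc 100, .ofNat 0, .ofNat 0, .ofNat 849, .ofNat 23010, .ofNat 0, .ofNat 0, .ofNat 0, .ofNat 0, .ofNat 0, .ofNat 0, .ofNat 0, .ofNat 0, .ofNat 0, .ofNat 0, .ofNat 0, .ofNat 0,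 .ofNat 0, .ofNat 0, .ofNat 0, .ofNat 0⟩)
    (by decide +kernel)
theorem L00051 : Good (Phi V4.P V4.D (-1) 1) ⟨2, 0, 3, 2, 2, 0, 3, 7, 3, 2⟩ :=
  leaf_sound (S := T4.ds_mp) T4.ok_mp (w := 168) (c := ⟨⟨.negSucc 173, .negSucc 6, .negSucc 4, .negSucc 55, .ofNat 166, .ofNat 22⟩, ⟨.negSucc 53, .negSucc 4, .negSucc 14, .negSucc 28, .ofNat 59, .ofNat 9⟩, ⟨.negSucc 304, .ofNat 20, .ofNat 3, .ofNat 74, .negSucc 174, .ofNat 42⟩, ⟨.negSucc 518, .ofNat 11, .negSucc 7, .negSucc 112, .ofNat 470, .ofNat 57⟩, ⟨.negSucc 23, .negSucc 10, .ofNat 5, .negSucc 156, .ofNat 44, .ofNat 21⟩, .ofNat 679, .negSucc 378, .ofNat 0, .negSucc 378, .ofNat 1422, .ofNat 0, .ofNat 388, .ofNat 213, .negSucc 411, .ofNat 0, .ofNat 280, .negSucc 125, .ofNat 0, .ofNat 0, .ofNat 875, .ofNat 12657, .ofNat 0, .ofNat 24870564045671822181788339404800, .ofNat 0, .ofNat 0, .ofNat 0,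 .ofNat 0, .ofNat 0, .ofNat 0, .ofNat 0, .ofNat 0, .ofNat 0, .ofNat 0, .ofNat 0, .ofNat 0, .ofNat 0, .ofNat 0⟩)
    (by decide +kernel)
theorem L00052 : Good (Phi V4.P V4.D (-1) 1) ⟨2, 0, 3, 2, 2, 1, 2, 3, 3, 2⟩ :=
  leaf_sound (S := T4.ds_mp) T4.ok_mp (w := 168) (c := ⟨⟨.negSucc 324, .negSucc 36, .negSucc 15, .negSucc 133, .ofNat 226, .ofNat 43⟩, ⟨.negSucc 107, .negSucc 18, .negSucc 40, .negSucc 61, .ofNat 84, .ofNat 18⟩, ⟨.negSucc 124, .ofNat 72, .ofNat 11, .ofNat 134, .negSucc 243, .ofNat 2⟩, ⟨.negSucc 926, .ofNat 8, .negSucc 12, .negSucc 312, .ofNat 599, .ofNat 110⟩, ⟨.negSucc 238, .negSucc 77, .ofNat 5, .negSucc 234, .ofNat 157, .ofNat 38⟩, .ofNat 1041, .negSucc 981, .ofNat 0, .negSucc 981, .ofNat 3051, .ofNat 0, .ofNat 352, .ofNat 258, .negSucc 312, .ofNat 0, .ofNat 243, .negSucc 98, .ofNat 0, .ofNat 0, .ofNat 831, .ofNat 5317,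 .ofNat 0, .ofNat 0, .ofNat 0, .ofNat 0, .ofNat 0, .ofNat 0, .ofNat 0, .ofNat 0, .ofNat 0, .ofNat 1337656778750623117775783067648000, .ofNat 0, .ofNat 0, .ofNat 0, .ofNat 0, .ofNat 0, .ofNat 0⟩)
    (by decide +kernel)
theorem L00053 : Good (Phi V4.P V4.D (-1) 1) ⟨2, 0, 3, 3, 1, 0, 3, 6, 3, 2⟩ :=
  leaf_sound (S := T4.ds_mp) T4.ok_mp (w := 160) (c := ⟨⟨.negSucc 252, .negSucc 31, .negSucc 12, .negSucc 203, .ofNat 109, .ofNat 30⟩, ⟨.negSucc 100, .negSucc 16, .negSucc 38, .negSucc 116, .ofNat 53, .ofNat 17⟩, ⟨.negSucc 192, .ofNat 61, .ofNat 4, .ofNat 197, .negSucc 122, .ofNat 13⟩, ⟨.negSucc 775, .negSucc 2, .negSucc 14, .negSucc 389, .ofNat 295, .ofNat 74⟩, ⟨.negSucc 15, .negSucc 36, .ofNat 3, .negSucc 455, .ofNat 45, .ofNat 30⟩, .ofNat 773, .negSucc 551, .ofNat 0, .negSucc 551, .ofNat 1567, .ofNat 0, .ofNat 336, .ofNat 266, .negSucc 329,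 .ofNat 0, .ofNat 276, .negSucc 127, .ofNat 0, .ofNat 0, .ofNat 838, .ofNat 7629, .ofNat 0, .ofNat 0, .ofNat 0, .ofNat 0, .ofNat 0, .ofNat 0, .ofNat 0, .ofNat 0, .ofNat 0, .ofNat 0, .ofNat 0, .ofNat 0, .ofNat 0, .ofNat 0, .ofNat 0, .ofNat 0⟩)
    (by decide +kernel)
theorem L00054 : Good (Phi V4.P V4.D (-1) 1) ⟨2, 0, 3, 3, 2, 0, 4, 14, 3, 2⟩ :=
  leaf_sound (S := T4.ds_mp) T4.ok_mp (w := 176) (c := ⟨⟨.negSucc 170, .negSucc 11, .negSucc 3, .negSucc 67, .ofNat 74, .ofNat 24⟩, ⟨.negSucc 69, .negSucc 8, .negSucc 18, .negSucc 38, .ofNat 35, .ofNat 12⟩, ⟨.negSucc 305, .ofNat 26, .ofNat 3, .ofNat 80, .negSucc 78, .ofNat 37⟩, ⟨.negSucc 516, .ofNat 9, .negSucc 0, .negSucc 123, .ofNat 207, .ofNat 62⟩, ⟨.negSucc 12, .negSucc 10, .negSucc 1, .negSucc 169, .ofNat 21, .ofNat 19⟩, .ofNat 764, .negSucc 533, .ofNat 0, .negSucc 533, .ofNat 1550, .ofNat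 0, .ofNat 347, .ofNat 262, .negSucc 390, .ofNat 0, .ofNat 282, .negSucc 152, .ofNat 0, .ofNat 0, .ofNat 862, .ofNat 23859, .ofNat 0, .ofNat 0, .ofNat 0, .ofNat 0, .ofNat 0, .ofNat 0, .ofNat 0, .ofNat 0, .ofNat 0, .ofNat 0, .ofNat 0, .ofNat 0, .ofNat 0, .ofNat 0, .ofNat 0, .ofNat 0⟩)
    (by decide +kernel)
theorem L00055 : Good (Phi V4.P V4.D (-1) 1) ⟨3, 0, 3, 3, 3, 0, 4, 15, 3, 2⟩ :=
  leaf_sound (S := T4.ds_mp) T4.ok_mp (w := 192) (c := ⟨⟨.negSucc 105, .ofNat 1, .negSucc 0, .negSucc 18, .ofNat 95, .ofNat 16⟩, ⟨.negSucc 42, .negSucc 1, .negSucc 7, .negSucc 10, .ofNat 42, .ofNat 6⟩, ⟨.negSucc 375, .ofNat 2, .ofNat 0, .ofNat 21, .negSucc 97, .ofNat 53⟩, ⟨.negSucc 312, .ofNat 8, .ofNat 2, .negSucc 31, .ofNat 276, .ofNat 42⟩, ⟨.negSucc 12, .ofNat 1, .negSucc 0, .negSucc 56, .ofNat 15, .ofNat 11⟩, .ofNat 438, .negSucc 151, .ofNat 0, .negSucc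 151, .ofNat 665, .ofNat 0, .ofNat 449, .ofNat 186, .negSucc 583, .ofNat 0, .ofNat 366, .negSucc 169, .ofNat 0, .ofNat 0, .ofNat 984, .ofNat 40343, .ofNat 0, .ofNat 315047906974929195764766563578675200, .ofNat 0, .ofNat 0, .ofNat 0, .ofNat 0, .ofNat 0, .ofNat 0, .ofNat 0, .ofNat 0, .ofNat 0, .ofNat 0, .ofNat 0, .ofNat 0, .ofNat 0, .ofNat 0⟩)
    (by decide +kernel)
theorem L00056 : Good (Phi V4.P V4.D (-1) 1) ⟨3, 0, 3, 3, 3, 1, 4, 15, 3, 2⟩ :=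
  leaf_sound (S := T4.ds_mp) T4.ok_mp (w := 192) (c := ⟨⟨.negSucc 130, .ofNat 5, .negSucc 5, .negSucc 43, .ofNat 94, .ofNat 27⟩, ⟨.negSucc 56, .negSucc 1, .negSucc 12, .negSucc 21, .ofNat 42, .ofNat 13⟩, ⟨.negSucc 350, .ofNat 8, .ofNat 4, .ofNat 49, .negSucc 94, .ofNat 38⟩, ⟨.negSucc 362, .ofNat 26, .negSucc 5, .negSucc 101, .ofNat 265, .ofNat 68⟩, ⟨.negSucc 83, .negSucc 6, .ofNat 2, .negSucc 66, .ofNat 37, .ofNat 29⟩, .ofNat 438, .negSucc 152, .ofNat 0, .negSucc 152, .ofNat 665, .ofNat 0, .ofNat 453, .ofNat 191, .negSucc 567, .ofNat 0, .ofNat 367, .negSucc 169, .ofNat 0, .ofNat 0, .ofNat 967, .ofNat 24782, .ofNat 0, .ofNat 186521688143466341251318766213529600, .ofNat 0, .ofNat 0, .ofNat 0, .ofNat 0, .ofNat 0, .ofNat 0, .ofNat 0, .ofNat 0, .ofNat 0, .ofNat 0, .ofNat 0, .ofNat 0, .ofNat 0, .ofNat 0⟩)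
    (by decide +kernel)
theorem L00057 : Good (Phi V4.P V4.D (-1) 1) ⟨3, 1, 3, 3, 3, 0, 4, 15, 3, 2⟩ :=
  leaf_sound (S := T4.ds_mp) T4.ok_mp (w := 192) (c := ⟨⟨.negSucc 112, .negSucc 2, .negSucc 0, .negSucc 14, .ofNat 104, .ofNat 20⟩, ⟨.negSucc 49, .negSucc 0, .negSucc 7, .negSucc 8, .ofNat 49, .ofNat 9⟩, ⟨.negSucc 369, .ofNat 7, .ofNat 1, .ofNat 25, .negSucc 106, .ofNat 49⟩, ⟨.negSucc 324, .ofNat 1, .ofNat 1, .negSucc 14, .ofNat 290, .ofNat 53⟩, ⟨.negSucc 8, .negSucc 0, .ofNat 1, .negSucc 61, .ofNat 14, .ofNat 10⟩, .ofNat 436, .negSucc 169, .ofNat 0, .negSucc 169, .ofNat 680, .ofNat 0, .ofNat 450, .ofNat 209, .negSucc 619, .ofNat 0, .ofNat 368, .negSucc 195, .ofNat 0, .ofNat 0, .ofNat 1014, .ofNat 47222, .ofNat 0, .ofNat 367172673073628239841109107068108800, .ofNat 0, .ofNat 0, .ofNat 0, .ofNat 0, .ofNat 0, .ofNat 0, .ofNat 0, .ofNat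 0, .ofNat 0, .ofNat 0, .ofNat 0, .ofNat 0, .ofNat 0, .ofNat 0⟩)
    (by decide +kernel)
theorem L00058 : Good (Phi V4.P V4.D (-1) 1) ⟨3, 1, 3, 3, 3, 1, 4, 15, 3, 2⟩ :=
  leaf_sound (S := T4.ds_mp) T4.ok_mp (w := 192) (c := ⟨⟨.negSucc 132, .negSucc 5, .negSucc 7, .negSucc 47, .ofNat 102, .ofNat 41⟩, ⟨.negSucc 60, .negSucc 1, .negSucc 13, .negSucc 25, .ofNat 49, .ofNat 20⟩, ⟨.negSucc 341, .ofNat 18, .ofNat 6, .ofNat 63, .negSucc 102, .ofNat 24⟩, ⟨.negSucc 357, .ofNat 9, .negSucc 8, .negSucc 100, .ofNat 272, .ofNat 102⟩, ⟨.negSucc 86, .negSucc 14, .ofNat 0, .negSucc 79, .ofNat 39, .ofNat 33⟩, .ofNat 785, .negSucc 587, .ofNat 0, .negSucc 587, .ofNat 1612, .ofNat 0, .ofNat 349, .ofNat 291, .negSucc 439, .ofNat 0, .ofNat 292, .negSucc 182, .ofNat 0, .ofNat 0, .ofNat 884, .ofNat 29705, .ofNat 0, .ofNat 226505321329686571767574977262387200,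 .ofNat 0, .ofNat 0, .ofNat 0, .ofNat 0, .ofNat 0, .ofNat 0, .ofNat 0, .ofNat 26575177650748173868455871957381939200, .ofNat 0, .ofNat 0, .ofNat 0, .ofNat 0, .ofNat 0, .ofNat 0⟩)
    (by decide +kernel)
theorem L00059 : Good (Phi V4.P V4.D (-1) 1) ⟨2, 0, 3, 3, 2, 1, 3, 7, 3, 2⟩ :=
  leaf_sound (S := T4.ds_mp) T4.ok_mp (w := 168) (c := ⟨⟨.negSucc 235, .negSucc 30, .negSucc 12, .negSucc 152, .ofNat 150, .ofNat 46⟩, ⟨.negSucc 103, .negSucc 18, .negSucc 30, .negSucc 77, .ofNat 75, .ofNat 22⟩, ⟨.negSucc 239, .ofNat 71, .ofNat 8, .ofNat 160, .negSucc 149, .ofNat 14⟩, ⟨.negSucc 660, .ofNat 14, .negSucc 6, .negSucc 346, .ofNat 393, .ofNat 118⟩, ⟨.negSucc 178, .negSucc 75, .ofNat 1, .negSucc 206, .ofNat 98, .ofNat 45⟩, .ofNat 436, .negSucc 160, .ofNat 0, .negSucc 160, .ofNat 673, .ofNat 0, .ofNat 471, .ofNat 217, .negSucc 530, .ofNat 0, .ofNat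 375, .negSucc 157, .ofNat 0, .ofNat 0, .ofNat 950, .ofNat 11554, .ofNat 0, .ofNat 0, .ofNat 0, .ofNat 0, .ofNat 0, .ofNat 4749276653604366013737274127155200, .ofNat 0, .ofNat 0, .ofNat 0, .ofNat 5346329011215537814163824626892800, .ofNat 0, .ofNat 0, .ofNat 0, .ofNat 4704254151354604048087772666265600, .ofNat 0, .ofNat 0⟩)
    (by decide +kernel)

end Crest.Agent.R097C4.N4mp
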