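import Crest.Agent.R097.T4

/-!
# Row 97, box cover in dimension n = 4 (generated)
-/

set_option autoImplicit false
set_option Elab.async false
set_option maxHeartbeats 0
set_option maxRecDepth 100000

open Crest.Agent.R097 Crest.Agent.R097.KA


namespace Crest.Agent.R097C4.N4mp

theorem L00697 : Good (Phi V4.P V4.D (-1) 1) ⟨3, 3, 3, 4, 3, 0, 3, 4, 4, 11⟩ :=
  leaf_sound (S := T4.ds_mp) T4.ok_mp (w := 200) (c := ⟨⟨.negSucc 352, .negSucc 48, .negSucc 4, .negSucc 15, .ofNat 20, .ofNat 0⟩, ⟨.negSucc 163, .ofNat 7, .negSucc 36, .negSucc 9, .ofNat 8, .ofNat 0⟩, ⟨.ofNat 23, .ofNat 58, .ofNat 3, .ofNat 40, .negSucc 22, .ofNat 0⟩, ⟨.negSucc 893, .negSucc 27, .negSucc 2, .ofNat 15, .ofNat 46, .ofNat 0⟩, ⟨.ofNat 5, .negSucc 2, .ofNat 0, .negSucc 119, .ofNat 6, .ofNat 0⟩, .ofNat 410, .negSucc 187, .ofNat 0, .negSucc 187, .ofNat 716, .ofNat 0, .ofNat 288, .ofNat 151, .negSucc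 252, .ofNat 0, .ofNat 224, .negSucc 78, .ofNat 0, .ofNat 0, .ofNat 666, .ofNat 6363522, .ofNat 4566451577779603343948727901515625267200, .ofNat 0, .ofNat 474632424655938925613754164969472000, .ofNat 0, .ofNat 24427452679715134395147722922720755712000, .ofNat 0, .ofNat 0, .ofNat 0, .ofNat 14713821712149454139404093687227167539200, .ofNat 0, .ofNat 0, .ofNat 0, .ofNat 16374476125016291853319969435613449420800, .ofNat 0, .ofNat 0, .ofNat 0⟩)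
    (by decide +kernel)
theorem L00698 : Good (Phi V4.P V4.D (-1) 1) ⟨3, 3, 3, 4, 4, 0, 3, 5, 4, 11⟩ :=
  leaf_sound (S := T4.ds_mp) T4.ok_mp (w := 200) (c := ⟨⟨.negSucc 347, .negSucc 50, .negSucc 0, .ofNat 7, .ofNat 65, .ofNat 11⟩, ⟨.negSucc 162, .ofNat 4, .negSucc 30, .ofNat 2, .ofNat 30, .ofNat 5⟩, ⟨.ofNat 17, .ofNat 53, .ofNat 1, .ofNat 4, .negSucc 60, .ofNat 0⟩, ⟨.negSucc 875, .negSucc 39, .ofNat 0, .ofNat 38, .ofNat 158, .ofNat 26⟩, ⟨.negSucc 1, .negSucc 0, .ofNat 0, .negSucc 45, .ofNat 3, .ofNat 1⟩, .ofNat 411, .negSucc 187, .ofNat 0, .negSucc 187, .ofNat 717, .ofNat 0, .ofNat 290, .ofNat 152, .negSucc 283, .ofNat 0, .ofNat 227, .negSucc 90, .ofNat 0, .ofNat 0, .ofNat 662, .ofNat 364421, .ofNat 23829904310283630012303633625110282240000, .ofNat 0, .ofNat 6820880632073248114705405480796160000, .ofNat 0, .ofNat 0, .ofNat 0, .ofNat 109365471802524261811864290762896179200,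 .ofNat 0, .ofNat 50994145255863936086873975861215336857600, .ofNat 0, .ofNat 0, .ofNat 0, .ofNat 66799100437566636140120384844289435238400, .ofNat 0, .ofNat 0, .ofNat 0⟩)
    (by decide +kernel)
theorem L00699 : Good (Phi V4.P V4.D (-1) 1) ⟨3, 3, 3, 4, 4, 1, 4, 10, 4, 11⟩ :=
  leaf_sound (S := T4.ds_mp) T4.ok_mp (w := 208) (c := ⟨⟨.negSucc 344, .negSucc 45, .negSucc 3, .negSucc 2, .ofNat 33, .ofNat 13⟩, ⟨.negSucc 161, .ofNat 6, .negSucc 33, .negSucc 2, .ofNat 15, .ofNat 6⟩, ⟨.ofNat 25, .ofNat 53, .ofNat 4, .ofNat 14, .negSucc 31, .negSucc 3⟩, ⟨.negSucc 846, .negSucc 25, .negSucc 2, .ofNat 19, .ofNat 79, .ofNat 33⟩, ⟨.negSucc 50, .negSucc 1, .negSucc 0, .negSucc 56, .ofNat 4, .ofNat 2⟩, .ofNat 410, .negSucc 186, .ofNat 0, .negSucc 186, .ofNat 716, .ofNat 0, .ofNat 289, .ofNat 151, .negSucc 267, .ofNat 0, .ofNat 225, .negSucc 84, .ofNat 0, .ofNat 0, .ofNat 662,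 .ofNat 940434, .ofNat 264951457514374334756483047597945336627200, .ofNat 0, .ofNat 215477607346828792788839509503089049600, .ofNat 0, .ofNat 0, .ofNat 0, .ofNat 1708357630438663204805462794996128153600, .ofNat 0, .ofNat 0, .ofNat 0, .ofNat 0, .ofNat 0, .ofNat 0, .ofNat 0, .ofNat 0, .ofNat 0⟩)
    (by decide +kernel)
theorem L00700 : Good (Phi V4.P V4.D (-1) 1) ⟨3, 3, 3, 4, 4, 1, 4, 11, 4, 11⟩ :=
  leaf_sound (S := T4.ds_mp) T4.ok_mp (w := 208) (c := ⟨⟨.negSucc 315, .negSucc 39, .negSucc 5, .ofNat 1, .ofNat 40, .ofNat 13⟩, ⟨.negSucc 148, .ofNat 6, .negSucc 30, .ofNat 0, .ofNat 18, .ofNat 6⟩, ⟨.negSucc 2, .ofNat 46, .ofNat 6, .ofNat 10, .negSucc 37, .negSucc 1⟩, ⟨.negSucc 774, .negSucc 20, .negSucc 4, .ofNat 28, .ofNat 95, .ofNat 30⟩, ⟨.negSucc 47, .negSucc 2, .negSucc 0, .negSucc 53, .ofNat 5, .ofNat 1⟩, .ofNat 410, .negSucc 187, .ofNat 0, .negSucc 187, .ofNat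 716, .ofNat 0, .ofNat 292, .ofNat 154, .negSucc 288, .ofNat 0, .ofNat 228, .negSucc 92, .ofNat 0, .ofNat 0, .ofNat 663, .ofNat 320898, .ofNat 76968360599706716369276799639449763840000, .ofNat 0, .ofNat 60168786241120936032769418251468800000, .ofNat 0, .ofNat 0, .ofNat 0, .ofNat 1160060071856060828984281135568230809600, .ofNat 0, .ofNat 0, .ofNat 0, .ofNat 0, .ofNat 0, .ofNat 0, .ofNat 0, .ofNat 0, .ofNat 0⟩)
    (by decide +kernel)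
theorem L00701 : Good (Phi V4.P V4.D (-1) 1) ⟨3, 3, 3, 4, 3, 1, 3, 4, 4, 10⟩ :=
  leaf_sound (S := T4.ds_mp) T4.ok_mp (w := 192) (c := ⟨⟨.negSucc 424, .negSucc 50, .negSucc 10, .negSucc 32, .ofNat 61, .ofNat 19⟩, ⟨.negSucc 199, .ofNat 8, .negSucc 41, .negSucc 17, .ofNat 28, .ofNat 9⟩, ⟨.ofNat 114, .ofNat 70, .ofNat 8, .ofNat 58, .negSucc 70, .negSucc 11⟩, ⟨.negSucc 1015, .negSucc 25, .negSucc 6, .negSucc 14, .ofNat 145, .ofNat 46⟩, ⟨.negSucc 115, .negSucc 8, .ofNat 3, .negSucc 143, .ofNat 9, .ofNat 3⟩, .ofNat 410, .negSucc 187, .ofNat 0, .negSucc 187, .ofNat 716, .ofNat 0, .ofNat 294, .ofNat 155, .negSucc 244, .ofNat 0, .ofNat 229, .negSucc 73, .ofNat 0, .ofNat 0, .ofNat 684, .ofNat 255858, .ofNat 113053916312965817048704543460897587200, .ofNat 0, .ofNat 17569465570556140598163964271001600, .ofNat 0, .ofNat 330548266109228484222215828752092364800, .ofNat 0, .ofNat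 234228012384065412787097011067289600, .ofNat 0, .ofNat 0, .ofNat 0, .ofNat 295946905576857773323157464154112000, .ofNat 0, .ofNat 0, .ofNat 0, .ofNat 190136641941789413284388116050739200, .ofNat 0⟩)
    (by decide +kernel)
theorem L00702 : Good (Phi V4.P V4.D (-1) 1) ⟨3, 3, 3, 4, 3, 1, 3, 4, 4, 11⟩ :=
  leaf_sound (S := T4.ds_mp) T4.ok_mp (w := 192) (c := ⟨⟨.negSucc 417, .negSucc 45, .negSucc 10, .negSucc 27, .ofNat 70, .ofNat 20⟩, ⟨.negSucc 195, .ofNat 8, .negSucc 39, .negSucc 15, .ofNat 31, .ofNat 9⟩, ⟨.ofNat 108, .ofNat 62, .ofNat 8, .ofNat 53, .negSucc 71, .negSucc 13⟩, ⟨.negSucc 992, .negSucc 18, .negSucc 6, .negSucc 3, .ofNat 163, .ofNat 47⟩, ⟨.negSucc 120, .negSucc 9, .ofNat 1, .negSucc 141, .ofNat 17, .negSucc 0⟩, .ofNat 410, .negSucc 187, .ofNat 0, .negSucc 187, .ofNat 716, .ofNat 0, .ofNat 289, .ofNat 152, .negSucc 244, .ofNat 0, .ofNat 224, .negSucc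 74, .ofNat 0, .ofNat 0, .ofNat 664, .ofNat 927458, .ofNat 671000688901119953499273049318568755200, .ofNat 0, .ofNat 78941463238750714992937135610265600, .ofNat 0, .ofNat 2892072694700628934223314125541972377600, .ofNat 0, .ofNat 0, .ofNat 0, .ofNat 1945046751257867076024004138490029670400, .ofNat 0, .ofNat 0, .ofNat 0, .ofNat 1247268472923992281485391784288924467200, .ofNat 0, .ofNat 0, .ofNat 0⟩)
    (by decide +kernel)
theorem L00703 : Good (Phi V4.P V4.D (-1) 1) ⟨3, 3, 3, 4, 4, 2, 3, 5, 4, 10⟩ :=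
  leaf_sound (S := T4.ds_mp) T4.ok_mp (w := 200) (c := ⟨⟨.negSucc 369, .negSucc 43, .negSucc 4, .negSucc 9, .ofNat 80, .ofNat 18⟩, ⟨.negSucc 174, .ofNat 6, .negSucc 35, .negSucc 5, .ofNat 37, .ofNat 8⟩, ⟨.ofNat 51, .ofNat 57, .ofNat 4, .ofNat 22, .negSucc 81, .negSucc 7⟩, ⟨.negSucc 880, .negSucc 21, .ofNat 1, .ofNat 6, .ofNat 191, .ofNat 43⟩, ⟨.negSucc 110, .negSucc 6, .ofNat 1, .negSucc 64, .ofNat 14, .ofNat 3⟩, .ofNat 749, .negSucc 674, .ofNat 0, .negSucc 674, .ofNat 1851, .ofNat 0, .ofNat 227, .ofNat 219, .negSucc 227, .ofNat 0, .ofNat 184, .negSucc 90, .ofNat 0, .ofNat 0, .ofNat 654, .ofNat 116809, .ofNat 0, .ofNat 0, .ofNat 5195092943604508760121862042681344000, .ofNat 0, .ofNat 0, .ofNat 0, .ofNat 179822796660223544640335671777768243200, .ofNat 0, .ofNat 0, .ofNat 0, .ofNat 0, .ofNat 0, .ofNat 0, .ofNat 0, .ofNat 0, .ofNat 0⟩)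
    (by decide +kernel)
theorem L00704 : Good (Phi V4.P V4.D (-1) 1) ⟨3, 3, 3, 4, 4, 2, 3, 5, 4, 11⟩ :=
  leaf_sound (S := T4.ds_mp) T4.ok_mp (w := 200) (c := ⟨⟨.negSucc 360, .negSucc 34, .negSucc 6, .negSucc 3, .ofNat 84, .ofNat 15⟩, ⟨.negSucc 168, .ofNat 8, .negSucc 32, .negSucc 3, .ofNat 38, .ofNat 6⟩, ⟨.ofNat 51, .ofNat 46, .ofNat 6, .ofNat 16, .negSucc 82, .negSucc 3⟩, ⟨.negSucc 853, .negSucc 8, .negSucc 4, .ofNat 18, .ofNat 197, .ofNat 34⟩, ⟨.negSucc 107, .negSucc 7, .ofNat 1, .negSucc 63, .ofNat 14, .ofNat 2⟩, .ofNat 739, .negSucc 662, .ofNat 0, .negSucc 662, .ofNat 1840, .ofNat 0, .ofNat 222, .ofNat 210, .negSucc 226, .ofNat 0, .ofNat 177, .negSucc 89, .ofNat 0, .ofNat 0, .ofNat 628, .ofNat 143275, .ofNat 11159741302401637910856259210417746739200, .ofNat 0, .ofNat 4759277827561397796598766187105484800, .ofNat 0, .ofNat 0, .ofNat 0, .ofNat 0, .ofNat 0,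 .ofNat 0, .ofNat 0, .ofNat 0, .ofNat 0, .ofNat 0, .ofNat 0, .ofNat 0, .ofNat 0⟩)
    (by decide +kernel)
theorem L00705 : Good (Phi V4.P V4.D (-1) 1) ⟨3, 3, 3, 4, 4, 3, 3, 5, 3, 5⟩ :=
  leaf_sound (S := T4.ds_mp) T4.ok_mp (w := 200) (c := ⟨⟨.negSucc 385, .negSucc 34, .negSucc 13, .negSucc 14, .ofNat 87, .ofNat 40⟩, ⟨.negSucc 182, .ofNat 9, .negSucc 35, .negSucc 7, .ofNat 39, .ofNat 18⟩, ⟨.ofNat 78, .ofNat 53, .ofNat 13, .ofNat 26, .negSucc 87, .negSucc 19⟩, ⟨.negSucc 888, .negSucc 3, .negSucc 10, .negSucc 0, .ofNat 204, .ofNat 94⟩, ⟨.negSucc 174, .negSucc 15, .negSucc 0, .negSucc 73, .ofNat 16, .ofNat 7⟩, .ofNat 410, .negSucc 188, .ofNat 0, .negSucc 188, .ofNat 716, .ofNat 0, .ofNat 299, .ofNat 159, .negSucc 276, .ofNat 0, .ofNat 233, .negSucc 86, .ofNat 0, .ofNat 0, .ofNat 671, .ofNat 107125, .ofNat 1758899795928032506839634280961382809600, .ofNat 0, .ofNat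 333179555762130580586044459686297600, .ofNat 0, .ofNat 0, .ofNat 0, .ofNat 0, .ofNat 0, .ofNat 0, .ofNat 0, .ofNat 0, .ofNat 0, .ofNat 0, .ofNat 0, .ofNat 0, .ofNat 0⟩)
    (by decide +kernel)
theorem L00706 : Good (Phi V4.P V4.D (-1) 1) ⟨3, 3, 3, 4, 3, 2, 2, 2, 2, 2⟩ :=
  leaf_sound (S := T4.ds_mp) T4.ok_mp (w := 176) (c := ⟨⟨.negSucc 514, .negSucc 40, .negSucc 7, .negSucc 65, .ofNat 146, .ofNat 106⟩, ⟨.negSucc 243, .ofNat 12, .negSucc 47, .negSucc 32, .ofNat 66, .ofNat 49⟩, ⟨.ofNat 219, .ofNat 74, .ofNat 4, .ofNat 79, .negSucc 177, .negSucc 69⟩, ⟨.negSucc 1172, .ofNat 0, .ofNat 8, .negSucc 76, .ofNat 348, .ofNat 254⟩, ⟨.negSucc 258, .negSucc 20, .ofNat 11, .negSucc 182, .ofNat 20, .ofNat 13⟩, .ofNat 754, .negSucc 681, .ofNat 0, .negSucc 681, .ofNat 1858, .ofNat 0, .ofNat 236, .ofNat 231, .negSucc 209, .ofNat 0, .ofNat 192, .negSucc 81, .ofNat 0, .ofNat 0, .ofNat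 685, .ofNat 21698, .ofNat 130655360282079554566879954599936000, .ofNat 0, .ofNat 699832416451790830838376038400, .ofNat 0, .ofNat 0, .ofNat 228261114556175367972344567955456000, .ofNat 141816439768091278607312014540800, .ofNat 0, .ofNat 0, .ofNat 59375754547704228510691568595763200, .ofNat 71371012921490700218363019264000, .ofNat 0, .ofNat 0, .ofNat 0, .ofNat 106858469445915708885059606937600, .ofNat 0⟩)
    (by decide +kernel)
theorem L00707 : Good (Phi V4.P V4.D (-1) 1) ⟨3, 3, 3, 4, 3, 3, 2, 2, 2, 2⟩ :=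
  leaf_sound (S := T4.ds_mp) T4.ok_mp (w := 176) (c := ⟨⟨.negSucc 571, .negSucc 71, .negSucc 27, .negSucc 84, .ofNat 144, .ofNat 128⟩, ⟨.negSucc 273, .ofNat 3, .negSucc 65, .negSucc 42, .ofNat 66, .ofNat 58⟩, ⟨.ofNat 298, .ofNat 106, .ofNat 21, .ofNat 94, .negSucc 191, .negSucc 96⟩, ⟨.negSucc 1241, .negSucc 48, .negSucc 24, .negSucc 115, .ofNat 351, .ofNat 312⟩, ⟨.negSucc 424, .negSucc 46, .negSucc 1, .negSucc 202, .ofNat 7, .ofNat 0⟩, .ofNat 410, .negSucc 188, .ofNat 0, .negSucc 188, .ofNat 716, .ofNat 0, .ofNat 335, .ofNat 180, .negSucc 255, .ofNat 0, .ofNat 257, .negSucc 64, .ofNat 0, .ofNat 0, .ofNat 757, .ofNat 18158, .ofNat 0, .ofNat 0, .ofNat 0, .ofNat 0, .ofNat 0, .ofNat 831218271138552562032896767741132800, .ofNat 0, .ofNat 0, .ofNat 0, .ofNat 770532935739601530321052154147635200, .ofNat 0, .ofNat 0, .ofNat 0, .ofNat 595379475813745148840512424666726400,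 .ofNat 0, .ofNat 0⟩)
    (by decide +kernel)
theorem L00708 : Good (Phi V4.P V4.D (-1) 1) ⟨2, 1, 3, 4, 2, 0, 3, 6, 2, 2⟩ :=
  leaf_sound (S := T4.ds_mp) T4.ok_mp (w := 168) (c := ⟨⟨.negSucc 285, .negSucc 47, .ofNat 1, .negSucc 16, .ofNat 115, .ofNat 40⟩, ⟨.negSucc 149, .ofNat 8, .negSucc 23, .negSucc 11, .ofNat 57, .ofNat 20⟩, ⟨.negSucc 85, .ofNat 63, .negSucc 0, .ofNat 49, .negSucc 111, .ofNat 16⟩, ⟨.negSucc 786, .negSucc 3, .ofNat 12, .ofNat 60, .ofNat 287, .ofNat 104⟩, ⟨.ofNat 1, .negSucc 7, .ofNat 0, .negSucc 206, .ofNat 19, .ofNat 4⟩, .ofNat 821, .negSucc 748, .ofNat 0, .negSucc 748, .ofNat 1888, .ofNat 0, .ofNat 237, .ofNat 248, .negSucc 284, .ofNat 0, .ofNat 209, .negSucc 125, .ofNat 0, .ofNat 0, .ofNat 690, .ofNat 13633, .ofNat 0, .ofNat 0, .ofNat 17518998054337435418178355200, .ofNat 0, .ofNat 0, .ofNat 158586242109610413363640978636800, .ofNat 6506587338462631973031719731200,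 .ofNat 0, .ofNat 0, .ofNat 0, .ofNat 0, .ofNat 0, .ofNat 0, .ofNat 0, .ofNat 0, .ofNat 0⟩)
    (by decide +kernel)
theorem L00709 : Good (Phi V4.P V4.D (-1) 1) ⟨2, 1, 3, 4, 2, 0, 3, 7, 2, 2⟩ :=
  leaf_sound (S := T4.ds_mp) T4.ok_mp (w := 168) (c := ⟨⟨.negSucc 211, .ofNat 0, .ofNat 4, .ofNat 27, .ofNat 209, .ofNat 38⟩, ⟨.negSucc 107, .ofNat 13, .negSucc 7, .ofNat 11, .ofNat 104, .ofNat 17⟩, ⟨.negSucc 158, .ofNat 13, .negSucc 5, .ofNat 8, .negSucc 200, .ofNat 24⟩, ⟨.negSucc 559, .ofNat 49, .ofNat 10, .ofNat 150, .ofNat 524, .ofNat 87⟩, ⟨.negSucc 1, .negSucc 10, .ofNat 7, .negSucc 161, .ofNat 24, .ofNat 10⟩, .ofNat 816, .negSucc 743, .ofNat 0, .negSucc 743, .ofNat 1884, .ofNat 0, .ofNat 249, .ofNat 259, .negSucc 354, .ofNat 0, .ofNat 218, .negSucc 156, .ofNat 0, .ofNat 0, .ofNat 711, .ofNat 4740, .ofNat 0, .ofNat 2015366150638501035264442368000, .ofNat 0, .ofNat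 0, .ofNat 0, .ofNat 535495194614123475459297509376000, .ofNat 0, .ofNat 0, .ofNat 0, .ofNat 0, .ofNat 0, .ofNat 0, .ofNat 0, .ofNat 714552111247289862500431744204800, .ofNat 0, .ofNat 0⟩)
    (by decide +kernel)
theorem L00710 : Good (Phi V4.P V4.D (-1) 1) ⟨2, 1, 3, 4, 2, 1, 2, 3, 2, 2⟩ :=
  leaf_sound (S := T4.ds_mp) T4.ok_mp (w := 168) (c := ⟨⟨.negSucc 324, .negSucc 43, .negSucc 13, .negSucc 117, .ofNat 252, .ofNat 70⟩, ⟨.negSucc 173, .ofNat 12, .negSucc 35, .negSucc 63, .ofNat 130, .ofNat 36⟩, ⟨.negSucc 20, .ofNat 84, .ofNat 12, .ofNat 139, .negSucc 245, .negSucc 17⟩, ⟨.negSucc 781, .ofNat 29, .negSucc 10, .negSucc 147, .ofNat 613, .ofNat 175⟩, ⟨.negSucc 213, .negSucc 55, .ofNat 1, .negSucc 306, .ofNat 87, .ofNat 14⟩, .ofNat 433, .negSucc 204, .ofNat 0, .negSucc 204, .ofNat 715, .ofNat 0, .ofNat 328, .ofNat 189, .negSucc 328, .ofNat 0, .ofNat 268, .negSucc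 115, .ofNat 0, .ofNat 0, .ofNat 721, .ofNat 5418, .ofNat 0, .ofNat 0, .ofNat 0, .ofNat 0, .ofNat 0, .ofNat 541930771157871929126289408000000, .ofNat 394289814668687402010358579200, .ofNat 0, .ofNat 0, .ofNat 493821382521268451775253944729600, .ofNat 0, .ofNat 0, .ofNat 0, .ofNat 592212995135899672492123147468800, .ofNat 0, .ofNat 0⟩)
    (by decide +kernel)
theorem L00711 : Good (Phi V4.P V4.D (-1) 1) ⟨2, 1, 3, 4, 1, 1, 1, 1, 2, 2⟩ :=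
  leaf_sound (S := T4.ds_mp) T4.ok_mp (w := 160) (c := ⟨⟨.negSucc 576, .negSucc 156, .negSucc 28, .ofNat 0, .ofNat 0, .ofNat 0⟩, ⟨.negSucc 314, .negSucc 1, .negSucc 71, .ofNat 0, .ofNat 0, .ofNat 0⟩, ⟨.ofNat 257, .ofNat 260, .ofNat 31, .ofNat 0, .ofNat 0, .ofNat 0⟩, ⟨.negSucc 1309, .negSucc 100, .negSucc 20, .ofNat 0, .ofNat 0, .ofNat 0⟩, ⟨.negSucc 569, .negSucc 109, .ofNat 8, .ofNat 0, .ofNat 0, .ofNat 0⟩, .ofNat 188, .negSucc 32, .ofNat 0, .negSucc 32, .ofNat 236, .ofNat 0, .ofNat 2056, .ofNat 467, .negSucc 2297, .ofNat 0, .ofNat 1689, .negSucc 15, .ofNat 0, .ofNat 0, .ofNat 4067, .ofNat 118840, .ofNat 0, .ofNat 0, .ofNat 0, .ofNat 0, .ofNat 0, .ofNat 727711769246582760393898406707200, .ofNat 0, .ofNat 0, .ofNat 0, .ofNat 677393494404947406608884826112000, .ofNat 0, .ofNat 0, .ofNat 0, .ofNat 1538579621020570665240832140902400, .ofNat 4211381782509124480244121600,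 .ofNat 0⟩)
    (by decide +kernel)
theorem L00712 : Good (Phi V4.P V4.D (-1) 1) ⟨2, 1, 3, 4, 2, 0, 2, 2, 3, 6⟩ :=
  leaf_sound (S := T4.ds_mp) T4.ok_mp (w := 176) (c := ⟨⟨.negSucc 420, .negSucc 45, .negSucc 3, .negSucc 12, .ofNat 184, .ofNat 8⟩, ⟨.negSucc 216, .ofNat 10, .negSucc 29, .negSucc 10, .ofNat 92, .ofNat 6⟩, ⟨.ofNat 101, .ofNat 68, .ofNat 3, .ofNat 44, .negSucc 185, .ofNat 18⟩, ⟨.negSucc 1091, .ofNat 10, .ofNat 1, .ofNat 75, .ofNat 422, .ofNat 52⟩, ⟨.negSucc 77, .negSucc 16, .ofNat 2, .negSucc 217, .ofNat 96, .negSucc 58⟩, .ofNat 431, .negSucc 203, .ofNat 0, .negSucc 203, .ofNat 717, .ofNat 0, .ofNat 278, .ofNat 158, .negSucc 266, .ofNat 0, .ofNat 227, .negSucc 93, .ofNat 0, .ofNat 0, .ofNat 637, .ofNat 187575, .ofNat 6515646462025165064078290531123200, .ofNat 0, .ofNat 566967241551209442940079308800, .ofNat 0, .ofNat 32212316526678152327435236304486400,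 .ofNat 0, .ofNat 7300130356794923143923341721600, .ofNat 0, .ofNat 56826673120260645696915417700761600, .ofNat 0, .ofNat 0, .ofNat 0, .ofNat 62162328768318569042886801752064000, .ofNat 0, .ofNat 0, .ofNat 0⟩)
    (by decide +kernel)
theorem L00713 : Good (Phi V4.P V4.D (-1) 1) ⟨2, 1, 3, 4, 2, 0, 2, 2, 3, 7⟩ :=
  out_sound (S := T4.ds_mp) T4.ok_mp (w := 24) (j := 1) (by decide +kernel)
theorem L00714 : Good (Phi V4.P V4.D (-1) 1) ⟨2, 1, 3, 4, 2, 1, 2, 2, 2, 3⟩ :=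
  leaf_sound (S := T4.ds_mp) T4.ok_mp (w := 168) (c := ⟨⟨.negSucc 431, .negSucc 38, .negSucc 12, .negSucc 65, .ofNat 175, .ofNat 64⟩, ⟨.negSucc 229, .ofNat 15, .negSucc 33, .negSucc 31, .ofNat 90, .ofNat 35⟩, ⟨.ofNat 128, .ofNat 76, .ofNat 11, .ofNat 96, .negSucc 166, .negSucc 26⟩, ⟨.negSucc 1033, .ofNat 40, .negSucc 8, .negSucc 28, .ofNat 420, .ofNat 163⟩, ⟨.negSucc 261, .negSucc 46, .ofNat 0, .negSucc 258, .ofNat 61, .ofNat 6⟩, .ofNat 429, .negSucc 202, .ofNat 0, .negSucc 202, .ofNat 717, .ofNat 0, .ofNat 1117, .ofNat 633, .negSucc 1011, .ofNat 0, .ofNat 907, .negSucc 352, .ofNat 0, .ofNat 0, .ofNat 2527, .ofNat 88689, .ofNat 2550678909886113738989968451174400, .ofNat 0, .ofNat 0, .ofNat 0, .ofNat 41420208449215696292961798271795200, .ofNat 4607942221438834975652013775257600, .ofNat 0, .ofNat 0, .ofNat 0, .ofNat 2937570982224034579349601307852800, .ofNat 0,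 .ofNat 0, .ofNat 48289616731378457401065232505241600, .ofNat 2940870163730313819619512129945600, .ofNat 0, .ofNat 0⟩)
    (by decide +kernel)
theorem L00715 : Good (Phi V4.P V4.D (-1) 1) ⟨3, 2, 3, 4, 2, 0, 3, 6, 3, 6⟩ :=
  leaf_sound (S := T4.ds_mp) T4.ok_mp (w := 176) (c := ⟨⟨.negSucc 271, .negSucc 10, .ofNat 4, .ofNat 17, .ofNat 113, .ofNat 18⟩, ⟨.negSucc 143, .ofNat 4, .negSucc 16, .ofNat 7, .ofNat 61, .ofNat 9⟩, ⟨.negSucc 45, .ofNat 16, .negSucc 4, .ofNat 11, .negSucc 102, .ofNat 3⟩, ⟨.negSucc 735, .ofNat 14, .ofNat 13, .ofNat 142, .ofNat 288, .ofNat 40⟩, ⟨.negSucc 10, .negSucc 2, .ofNat 8, .negSucc 186, .ofNat 23, .ofNat 12⟩, .ofNat 870, .negSucc 803, .ofNat 0, .negSucc 803, .ofNat 1933, .ofNat 0, .ofNat 201, .ofNat 223, .negSucc 243, .ofNat 0, .ofNat 187, .negSucc 113, .ofNat 0, .ofNat 0, .ofNat 606, .ofNat 58921, .ofNat 62799309759307113532548263706624000,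 .ofNat 0, .ofNat 325864669189019048853110784000, .ofNat 0, .ofNat 0, .ofNat 0, .ofNat 0, .ofNat 0, .ofNat 0, .ofNat 0, .ofNat 0, .ofNat 0, .ofNat 0, .ofNat 0, .ofNat 0, .ofNat 0⟩)
    (by decide +kernel)
theorem L00716 : Good (Phi V4.P V4.D (-1) 1) ⟨3, 2, 3, 4, 2, 0, 3, 7, 3, 6⟩ :=
  leaf_sound (S := T4.ds_mp) T4.ok_mp (w := 176) (c := ⟨⟨.negSucc 175, .ofNat 1, .negSucc 11, .ofNat 65, .ofNat 180, .negSucc 0⟩, ⟨.negSucc 91, .ofNat 5, .negSucc 13, .ofNat 32, .ofNat 94, .ofNat 0⟩, ⟨.negSucc 130, .ofNat 4, .ofNat 12, .negSucc 38, .negSucc 168, .ofNat 25⟩, ⟨.negSucc 477, .ofNat 23, .negSucc 23, .ofNat 244, .ofNat 463, .negSucc 0⟩, ⟨.ofNat 3, .negSucc 8, .negSucc 5, .negSucc 133, .ofNat 21, .negSucc 2⟩, .ofNat 871, .negSucc 807, .ofNat 0, .negSucc 807, .ofNat 1939, .ofNat 0, .ofNat 211, .ofNat 234, .negSucc 300, .ofNat 0, .ofNat 196, .negSucc 139, .ofNat 0, .ofNat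 0, .ofNat 628, .ofNat 19455, .ofNat 0, .ofNat 0, .ofNat 0, .ofNat 0, .ofNat 0, .ofNat 49683275064846608358502039132569600, .ofNat 0, .ofNat 0, .ofNat 0, .ofNat 65349185296186748647626256259481600, .ofNat 0, .ofNat 0, .ofNat 0, .ofNat 54806686229363660132392030017945600, .ofNat 0, .ofNat 0⟩)
    (by decide +kernel)
theorem L00717 : Good (Phi V4.P V4.D (-1) 1) ⟨3, 3, 3, 4, 2, 0, 3, 6, 3, 6⟩ :=
  leaf_sound (S := T4.ds_mp) T4.ok_mp (w := 176) (c := ⟨⟨.negSucc 303, .negSucc 20, .negSucc 12, .ofNat 53, .ofNat 127, .ofNat 12⟩, ⟨.negSucc 138, .ofNat 7, .negSucc 26, .ofNat 18, .ofNat 57, .ofNat 6⟩, ⟨.negSucc 12, .ofNat 27, .ofNat 13, .negSucc 13, .negSucc 117, .ofNat 12⟩, ⟨.negSucc 753, .ofNat 1, .negSucc 22, .ofNat 218, .ofNat 299, .ofNat 29⟩, ⟨.negSucc 0, .negSucc 4, .negSucc 6, .negSucc 199, .ofNat 19, .negSucc 2⟩, .ofNat 747, .negSucc 672, .ofNat 0, .negSucc 672,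 .ofNat 1848, .ofNat 0, .ofNat 223, .ofNat 214, .negSucc 264, .ofNat 0, .ofNat 180, .negSucc 107, .ofNat 0, .ofNat 0, .ofNat 620, .ofNat 54458, .ofNat 73699307180249810074715683395993600, .ofNat 0, .ofNat 396939319000121376955485388800, .ofNat 0, .ofNat 395818803206536246509403605093580800, .ofNat 11571950974876037553680970625843200, .ofNat 22050396285715772669249873510400, .ofNat 0, .ofNat 0, .ofNat 0, .ofNat 0, .ofNat 0, .ofNat 0, .ofNat 0, .ofNat 0, .ofNat 0⟩)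
    (by decide +kernel)
theorem L00718 : Good (Phi V4.P V4.D (-1) 1) ⟨3, 3, 3, 4, 2, 0, 3, 7, 3, 6⟩ :=
  leaf_sound (S := T4.ds_mp) T4.ok_mp (w := 176) (c := ⟨⟨.negSucc 204, .negSucc 4, .negSucc 1, .ofNat 125, .ofNat 207, .negSucc 0⟩, ⟨.negSucc 93, .ofNat 2, .negSucc 8, .ofNat 55, .ofNat 95, .negSucc 0⟩, ⟨.negSucc 100, .ofNat 9, .ofNat 2, .negSucc 90, .negSucc 195, .ofNat 24⟩, ⟨.negSucc 509, .ofNat 8, .ofNat 3, .ofNat 372, .ofNat 499, .ofNat 1⟩, ⟨.ofNat 2, .negSucc 5, .negSucc 1, .negSucc 141, .ofNat 17, .negSucc 7⟩, .ofNat 1373, .negSucc 1873, .ofNat 0, .negSucc 1873, .ofNat 4433, .ofNat 0, .ofNat 177, .ofNat 265, .negSucc 311, .ofNat 0, .ofNat 169, .negSucc 137, .ofNat 0, .ofNat 0, .ofNat 635, .ofNat 13613, .ofNat 0, .ofNat 0, .ofNat 0, .ofNat 0, .ofNat 0, .ofNat 36551001118127148177563005747200000, .ofNat 41410187413476780558526709760000, .ofNat 0, .ofNat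 0, .ofNat 68573610605794818013558692485529600, .ofNat 0, .ofNat 0, .ofNat 0, .ofNat 60639155370333964053465652002816000, .ofNat 0, .ofNat 0⟩)
    (by decide +kernel)
theorem L00719 : Good (Phi V4.P V4.D (-1) 1) ⟨2, 1, 3, 4, 2, 1, 2, 3, 3, 6⟩ :=
  leaf_sound (S := T4.ds_mp) T4.ok_mp (w := 176) (c := ⟨⟨.negSucc 257, .negSucc 31, .negSucc 11, .ofNat 0, .ofNat 116, .ofNat 16⟩, ⟨.negSucc 138, .ofNat 16, .negSucc 30, .ofNat 0, .ofNat 63, .ofNat 5⟩, ⟨.negSucc 36, .ofNat 66, .ofNat 11, .ofNat 0, .negSucc 111, .ofNat 2⟩, ⟨.negSucc 610, .ofNat 50, .negSucc 7, .ofNat 0, .ofNat 282, .ofNat 37⟩, ⟨.negSucc 201, .negSucc 44, .ofNat 0, .ofNat 0, .ofNat 29, .ofNat 0⟩, .ofNat 428, .negSucc 202, .ofNat 0, .negSucc 202, .ofNat 716, .ofNat 0, .ofNat 1137, .ofNat 644, .negSucc 1075, .ofNat 0, .ofNat 922, .negSucc 378, .ofNat 0, .ofNat 0, .ofNat 2551, .ofNat 268459, .ofNat 0, .ofNat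 0, .ofNat 0, .ofNat 0, .ofNat 0, .ofNat 467648708134523114031357787058995200, .ofNat 0, .ofNat 0, .ofNat 128042727001605505334783323511193600, .ofNat 502356346414765444272113900008243200, .ofNat 0, .ofNat 0, .ofNat 0, .ofNat 455205771502701853409545871897395200, .ofNat 0, .ofNat 0⟩)
    (by decide +kernel)
theorem L00720 : Good (Phi V4.P V4.D (-1) 1) ⟨2, 1, 3, 4, 2, 0, 3, 6, 4, 14⟩ :=
  out_sound (S := T4.ds_mp) T4.ok_mp (w := 32) (j := 1) (by decide +kernel)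
theorem L00721 : Good (Phi V4.P V4.D (-1) 1) ⟨2, 1, 3, 4, 2, 0, 4, 14, 5, 28⟩ :=
  out_sound (S := T4.ds_mp) T4.ok_mp (w := 32) (j := 1) (by decide +kernel)
theorem L00722 : Good (Phi V4.P V4.D (-1) 1) ⟨2, 1, 3, 4, 3, 0, 4, 15, 5, 28⟩ :=
  out_sound (S := T4.ds_mp) T4.ok_mp (w := 32) (j := 1) (by decide +kernel)
theorem L00723 : Good (Phi V4.P V4.D (-1) 1) ⟨2, 1, 3, 4, 3, 1, 4, 15, 5, 28⟩ :=
  out_sound (S := T4.ds_mp) T4.ok_mp (w := 40) (j := 2) (by decide +kernel)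
theorem L00724 : Good (Phi V4.P V4.D (-1) 1) ⟨2, 1, 3, 4, 2, 0, 3, 7, 5, 29⟩ :=
  out_sound (S := T4.ds_mp) T4.ok_mp (w := 32) (j := 1) (by decide +kernel)
theorem L00725 : Good (Phi V4.P V4.D (-1) 1) ⟨2, 1, 3, 4, 2, 0, 2, 3, 4, 15⟩ :=
  out_sound (S := T4.ds_mp) T4.ok_mp (w := 24) (j := 1) (by decide +kernel)
theorem L00726 : Good (Phi V4.P V4.D (-1) 1) ⟨2, 1, 3, 4, 2, 1, 2, 3, 3, 7⟩ :=
  out_sound (S := T4.ds_mp) T4.ok_mp (w := 32) (j := 2) (by decide +kernel)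
theorem L00727 : Good (Phi V4.P V4.D (-1) 1) ⟨2, 1, 3, 4, 1, 1, 1, 1, 2, 3⟩ :=
  out_sound (S := T4.ds_mp) T4.ok_mp (w := 24) (j := 2) (by decide +kernel)
theorem L00728 : Good (Phi V4.P V4.D (-1) 1) ⟨2, 1, 3, 5, 0, 0, 1, 1, 1, 1⟩ :=
  out_sound (S := T4.ds_mp) T4.ok_mp (w := 40) (j := 3) (by decide +kernel)
theorem L00729 : Good (Phi V4.P V4.D (-1) 1) ⟨2, 1, 2, 3, 0, 0, 0, 0, 1, 1⟩ :=
  out_sound (S := T4.ds_mp) T4.ok_mp (w := 40) (j := 3) (by decide +kernel)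
theorem L00730 : Good (Phi V4.P V4.D (-1) 1) ⟨1, 1, 1, 1, 0, 0, 0, 0, 1, 1⟩ :=
  out_sound (S := T4.ds_mp) T4.ok_mp (w := 32) (j := 3) (by decide +kernel)

end Crest.Agent.R097C4.N4mp
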