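import Crest.Agent.R097.T4

/-!
# Row 97, box cover in dimension n = 4 (generated)
-/

set_option autoImplicit false
set_option Elab.async false
set_option maxHeartbeats 0
set_option maxRecDepth 100000

open Crest.Agent.R097 Crest.Agent.R097.KA


namespace Crest.Agent.R097C4.N4pm

theorem L00000 : Good (Phi V4.P V4.D 1 (-1)) ⟨2, 0, 1, 0, 1, 0, 2, 0, 3, 0⟩ :=
  leaf_sound (S := T4.ds_pm) T4.ok_pm (w := 152) (c := ⟨⟨.negSucc 208, .negSucc 74, .ofNat 21, .ofNat 44, .negSucc 29, .negSucc 206⟩, ⟨.negSucc 31, .ofNat 45, .ofNat 164, .negSucc 20, .ofNat 1, .ofNat 57⟩, ⟨.ofNat 615, .ofNat 113, .negSucc 44, .negSucc 96, .negSucc 211, .ofNat 102⟩, ⟨.negSucc 626, .negSucc 128, .ofNat 42, .ofNat 103, .negSucc 110, .negSucc 613⟩, ⟨.ofNat 63, .ofNat 57, .ofNat 0, .negSucc 96, .negSucc 122, .negSucc 35⟩, .ofNat 414, .ofNat 100, .ofNat 0, .ofNat 100,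 .ofNat 651, .ofNat 0, .ofNat 485, .negSucc 137, .negSucc 483, .ofNat 0, .ofNat 362, .ofNat 130, .ofNat 0, .ofNat 0, .ofNat 957, .ofNat 10458, .ofNat 0, .ofNat 0, .ofNat 0, .ofNat 0, .ofNat 0, .ofNat 0, .ofNat 0, .ofNat 0, .ofNat 0, .ofNat 0, .ofNat 0, .ofNat 0, .ofNat 0, .ofNat 0, .ofNat 0, .ofNat 0⟩)
    (by decide +kernel)
theorem L00001 : Good (Phi V4.P V4.D 1 (-1)) ⟨2, 1, 1, 0, 2, 0, 2, 0, 3, 0⟩ :=
  leaf_sound (S := T4.ds_pm) T4.ok_pm (w := 160) (c := ⟨⟨.negSucc 256, .negSucc 204, .ofNat 11, .negSucc 28, .negSucc 8, .negSucc 218⟩, ⟨.negSucc 8, .ofNat 0, .ofNat 193, .ofNat 10, .negSucc 5, .ofNat 58⟩, ⟨.ofNat 667, .ofNat 228, .negSucc 28, .ofNat 53, .negSucc 232, .ofNat 113⟩, ⟨.negSucc 752, .negSucc 266, .ofNat 27, .negSucc 64, .negSucc 39, .negSucc 559⟩, ⟨.ofNat 27, .ofNat 26, .ofNat 7, .ofNat 13, .negSucc 76, .negSucc 5⟩, .ofNat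 385, .ofNat 103, .ofNat 0, .ofNat 103, .ofNat 723, .ofNat 0, .ofNat 494, .negSucc 139, .negSucc 567, .ofNat 0, .ofNat 331, .ofNat 122, .ofNat 0, .ofNat 0, .ofNat 1013, .ofNat 11279, .ofNat 0, .ofNat 0, .ofNat 0, .ofNat 0, .ofNat 0, .ofNat 0, .ofNat 0, .ofNat 0, .ofNat 0, .ofNat 0, .ofNat 0, .ofNat 0, .ofNat 0, .ofNat 0, .ofNat 0, .ofNat 0⟩)
    (by decide +kernel)
theorem L00002 : Good (Phi V4.P V4.D 1 (-1)) ⟨2, 1, 1, 0, 2, 1, 2, 0, 3, 0⟩ :=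
  leaf_sound (S := T4.ds_pm) T4.ok_pm (w := 160) (c := ⟨⟨.negSucc 205, .negSucc 289, .ofNat 8, .negSucc 13, .ofNat 0, .negSucc 298⟩, ⟨.negSucc 29, .ofNat 23, .ofNat 204, .ofNat 19, .negSucc 15, .ofNat 85⟩, ⟨.ofNat 699, .ofNat 306, .negSucc 75, .negSucc 31, .negSucc 221, .ofNat 125⟩, ⟨.negSucc 651, .negSucc 414, .ofNat 49, .negSucc 4, .negSucc 59, .negSucc 745⟩, ⟨.ofNat 69, .ofNat 167, .negSucc 21, .ofNat 110, .negSucc 214, .negSucc 14⟩, .ofNat 381, .ofNat 101, .ofNat 0, .ofNat 101, .ofNat 726, .ofNat 0, .ofNat 540, .negSucc 165, .negSucc 593, .ofNat 0, .ofNat 342, .ofNat 162, .ofNat 0, .ofNat 0, .ofNat 1001, .ofNat 13596, .ofNat 0, .ofNat 0, .ofNat 0, .ofNat 0, .ofNat 0, .ofNat 0, .ofNat 0, .ofNat 0, .ofNat 0, .ofNat 0, .ofNat 0, .ofNat 0, .ofNat 0, .ofNat 0, .ofNat 0, .ofNat 0⟩)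
    (by decide +kernel)
theorem L00003 : Good (Phi V4.P V4.D 1 (-1)) ⟨2, 0, 1, 0, 1, 0, 2, 0, 3, 1⟩ :=
  leaf_sound (S := T4.ds_pm) T4.ok_pm (w := 152) (c := ⟨⟨.negSucc 406, .negSucc 95, .ofNat 26, .negSucc 46, .ofNat 32, .negSucc 87⟩, ⟨.negSucc 8, .ofNat 52, .ofNat 234, .negSucc 3, .negSucc 25, .ofNat 21⟩, ⟨.ofNat 762, .ofNat 105, .negSucc 44, .negSucc 59, .negSucc 298, .negSucc 32⟩, ⟨.negSucc 1208, .negSucc 140, .ofNat 27, .negSucc 198, .ofNat 69, .negSucc 268⟩, ⟨.ofNat 78, .ofNat 68, .negSucc 19, .negSucc 185, .negSucc 136, .negSucc 51⟩, .ofNat 414, .ofNat 100, .ofNat 0, .ofNat 100, .ofNat 649, .ofNat 0, .ofNat 460, .negSucc 131, .negSucc 393, .ofNat 0, .ofNat 345, .ofNat 120, .ofNat 0, .ofNat 0, .ofNat 927, .ofNat 8711, .ofNat 0, .ofNat 0, .ofNat 0, .ofNat 0, .ofNat 0, .ofNat 0, .ofNat 0, .ofNat 0, .ofNat 0, .ofNat 0, .ofNat 0,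 .ofNat 0, .ofNat 0, .ofNat 0, .ofNat 0, .ofNat 0⟩)
    (by decide +kernel)
theorem L00004 : Good (Phi V4.P V4.D 1 (-1)) ⟨2, 1, 1, 0, 2, 0, 2, 0, 3, 1⟩ :=
  leaf_sound (S := T4.ds_pm) T4.ok_pm (w := 168) (c := ⟨⟨.negSucc 503, .negSucc 223, .ofNat 17, .negSucc 41, .ofNat 59, .negSucc 57⟩, ⟨.ofNat 28, .negSucc 11, .ofNat 258, .ofNat 8, .negSucc 12, .ofNat 8⟩, ⟨.ofNat 857, .ofNat 224, .negSucc 26, .ofNat 29, .negSucc 333, .negSucc 73⟩, ⟨.negSucc 1408, .negSucc 223, .ofNat 27, .negSucc 113, .ofNat 129, .negSucc 149⟩, ⟨.ofNat 38, .ofNat 38, .negSucc 3, .negSucc 20, .negSucc 75, .negSucc 38⟩, .ofNat 379, .ofNat 100, .ofNat 0, .ofNat 100, .ofNat 725, .ofNat 0, .ofNat 474, .negSucc 130, .negSucc 453, .ofNat 0, .ofNat 314, .ofNat 100, .ofNat 0, .ofNat 0, .ofNat 973, .ofNat 24721, .ofNat 0, .ofNat 0, .ofNat 0, .ofNat 0, .ofNat 0, .ofNat 0, .ofNat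 0, .ofNat 0, .ofNat 0, .ofNat 0, .ofNat 0, .ofNat 0, .ofNat 0, .ofNat 0, .ofNat 0, .ofNat 0⟩)
    (by decide +kernel)
theorem L00005 : Good (Phi V4.P V4.D 1 (-1)) ⟨2, 1, 1, 0, 2, 1, 2, 0, 3, 1⟩ :=
  leaf_sound (S := T4.ds_pm) T4.ok_pm (w := 168) (c := ⟨⟨.negSucc 482, .negSucc 298, .ofNat 17, .negSucc 119, .ofNat 62, .negSucc 96⟩, ⟨.ofNat 14, .ofNat 11, .ofNat 282, .ofNat 37, .negSucc 25, .ofNat 17⟩, ⟨.ofNat 858, .ofNat 257, .negSucc 57, .negSucc 15, .negSucc 278, .negSucc 83⟩, ⟨.negSucc 1373, .negSucc 337, .ofNat 40, .negSucc 276, .ofNat 86, .negSucc 262⟩, ⟨.ofNat 57, .ofNat 164, .negSucc 14, .ofNat 84, .negSucc 231, .negSucc 76⟩, .ofNat 384, .ofNat 111, .ofNat 0, .ofNat 111, .ofNat 720, .ofNat 0, .ofNat 509, .negSucc 171, .negSucc 470, .ofNat 0, .ofNat 332, .ofNat 153, .ofNat 0, .ofNat 0, .ofNat 957, .ofNat 16195, .ofNat 0, .ofNat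 0, .ofNat 29129763041452741960610611200, .ofNat 0, .ofNat 0, .ofNat 0, .ofNat 0, .ofNat 0, .ofNat 0, .ofNat 0, .ofNat 0, .ofNat 0, .ofNat 0, .ofNat 0, .ofNat 0, .ofNat 0⟩)
    (by decide +kernel)
theorem L00006 : Good (Phi V4.P V4.D 1 (-1)) ⟨1, 0, 1, 1, 2, 0, 2, 0, 3, 0⟩ :=
  leaf_sound (S := T4.ds_pm) T4.ok_pm (w := 160) (c := ⟨⟨.negSucc 132, .negSucc 287, .ofNat 70, .negSucc 1, .negSucc 12, .negSucc 218⟩, ⟨.ofNat 97, .ofNat 77, .ofNat 187, .ofNat 3, .ofNat 3, .ofNat 116⟩, ⟨.ofNat 502, .ofNat 323, .negSucc 50, .ofNat 10, .negSucc 219, .ofNat 130⟩, ⟨.negSucc 544, .negSucc 360, .ofNat 30, .negSucc 14, .negSucc 73, .negSucc 604⟩, ⟨.ofNat 10, .ofNat 83, .negSucc 74, .negSucc 3, .negSucc 92, .negSucc 21⟩, .ofNat 438, .ofNat 203, .ofNat 0, .ofNat 203, .ofNat 709, .ofNat 0, .ofNat 443, .negSucc 250, .negSucc 555, .ofNat 0, .ofNat 367, .ofNat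 222, .ofNat 0, .ofNat 0, .ofNat 998, .ofNat 21733, .ofNat 0, .ofNat 0, .ofNat 188019448697891752132372070400, .ofNat 0, .ofNat 0, .ofNat 0, .ofNat 0, .ofNat 0, .ofNat 12006401081983047704009244672000, .ofNat 0, .ofNat 22628852222225235131439356313600, .ofNat 0, .ofNat 0, .ofNat 0, .ofNat 15664416231800439834200034508800, .ofNat 0⟩)
    (by decide +kernel)
theorem L00007 : Good (Phi V4.P V4.D 1 (-1)) ⟨2, 0, 1, 1, 2, 1, 2, 0, 3, 0⟩ :=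
  leaf_sound (S := T4.ds_pm) T4.ok_pm (w := 168) (c := ⟨⟨.negSucc 78, .negSucc 159, .ofNat 99, .ofNat 50, .negSucc 20, .negSucc 284⟩, ⟨.ofNat 39, .ofNat 86, .ofNat 105, .negSucc 28, .ofNat 8, .ofNat 155⟩, ⟨.ofNat 435, .ofNat 203, .negSucc 120, .negSucc 109, .negSucc 190, .ofNat 160⟩, ⟨.negSucc 283, .negSucc 295, .ofNat 285, .ofNat 127, .negSucc 181, .negSucc 849⟩, ⟨.ofNat 25, .ofNat 109, .ofNat 44, .negSucc 34, .negSucc 218, .negSucc 56⟩, .ofNat 1792, .ofNat 2202, .ofNat 0, .ofNat 2202, .ofNat 4350, .ofNat 0, .ofNat 235, .negSucc 413, .negSucc 389, .ofNat 0, .ofNat 291, .ofNat 217, .ofNat 0, .ofNat 0, .ofNat 869, .ofNat 19171, .ofNat 0, .ofNat 0, .ofNat 54561842254863088595081625600, .ofNat 0, .ofNat 0, .ofNat 0, .ofNat 10143692530802329227537206476800, .ofNat 0, .ofNat 0, .ofNat 0, .ofNat 11887194783234491854021774540800, .ofNat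 0, .ofNat 190587069974167860157742894284800, .ofNat 0, .ofNat 3414026992519132291042954444800, .ofNat 0⟩)
    (by decide +kernel)
theorem L00008 : Good (Phi V4.P V4.D 1 (-1)) ⟨2, 1, 1, 1, 2, 1, 2, 0, 4, 0⟩ :=
  leaf_sound (S := T4.ds_pm) T4.ok_pm (w := 168) (c := ⟨⟨.negSucc 205, .negSucc 242, .ofNat 75, .ofNat 34, .negSucc 15, .negSucc 179⟩, ⟨.ofNat 114, .ofNat 72, .ofNat 123, .negSucc 15, .ofNat 6, .ofNat 89⟩, ⟨.ofNat 615, .ofNat 271, .negSucc 122, .negSucc 90, .negSucc 181, .ofNat 96⟩, ⟨.negSucc 568, .negSucc 354, .ofNat 156, .ofNat 128, .negSucc 152, .negSucc 462⟩, ⟨.ofNat 66, .ofNat 154, .negSucc 71, .ofNat 82, .negSucc 220, .negSucc 2⟩, .ofNat 826, .ofNat 756, .ofNat 0, .ofNat 756, .ofNat 1893, .ofNat 0, .ofNat 342, .negSucc 382, .negSucc 484, .ofNat 0, .ofNat 307, .ofNat 235, .ofNat 0, .ofNat 0, .ofNat 914, .ofNat 16770, .ofNat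 0, .ofNat 0, .ofNat 993747314353765346296882790400, .ofNat 0, .ofNat 0, .ofNat 0, .ofNat 0, .ofNat 0, .ofNat 1390557843395945062119757578240000, .ofNat 0, .ofNat 114838130246266647606114385920000, .ofNat 0, .ofNat 0, .ofNat 0, .ofNat 0, .ofNat 0⟩)
    (by decide +kernel)
theorem L00009 : Good (Phi V4.P V4.D 1 (-1)) ⟨2, 1, 2, 2, 2, 1, 2, 0, 4, 1⟩ :=
  leaf_sound (S := T4.ds_pm) T4.ok_pm (w := 168) (c := ⟨⟨.negSucc 358, .negSucc 278, .ofNat 30, .negSucc 33, .ofNat 22, .negSucc 125⟩, ⟨.ofNat 193, .ofNat 73, .ofNat 95, .ofNat 15, .negSucc 14, .ofNat 66⟩, ⟨.ofNat 718, .ofNat 291, .negSucc 59, .negSucc 63, .negSucc 232, .ofNat 49⟩, ⟨.negSucc 985, .negSucc 380, .ofNat 70, .negSucc 48, .negSucc 49, .negSucc 339⟩, ⟨.ofNat 67, .ofNat 159, .negSucc 6, .ofNat 60, .negSucc 212, .negSucc 16⟩, .ofNat 431, .ofNat 204, .ofNat 0, .ofNat 204, .ofNat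 715, .ofNat 0, .ofNat 478, .negSucc 292, .negSucc 577, .ofNat 0, .ofNat 383, .ofNat 264, .ofNat 0, .ofNat 0, .ofNat 983, .ofNat 19895, .ofNat 0, .ofNat 0, .ofNat 810611630879911175521094860800, .ofNat 0, .ofNat 0, .ofNat 0, .ofNat 0, .ofNat 0, .ofNat 10124516102848912334765270709043200, .ofNat 0, .ofNat 62581515827590495372307123404800, .ofNat 0, .ofNat 0, .ofNat 0, .ofNat 0, .ofNat 0⟩)
    (by decide +kernel)
theorem L00010 : Good (Phi V4.P V4.D 1 (-1)) ⟨2, 1, 2, 3, 2, 1, 2, 0, 4, 1⟩ :=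
  out_sound (S := T4.ds_pm) T4.ok_pm (w := 40) (j := 3) (by decide +kernel)
theorem L00011 : Good (Phi V4.P V4.D 1 (-1)) ⟨2, 0, 1, 1, 2, 0, 2, 0, 3, 1⟩ :=
  leaf_sound (S := T4.ds_pm) T4.ok_pm (w := 168) (c := ⟨⟨.negSucc 412, .negSucc 99, .ofNat 68, .ofNat 9, .ofNat 50, .negSucc 66⟩, ⟨.ofNat 220, .ofNat 51, .ofNat 180, .negSucc 6, .negSucc 27, .ofNat 36⟩, ⟨.ofNat 737, .ofNat 109, .negSucc 94, .negSucc 33, .negSucc 315, .negSucc 42⟩, ⟨.negSucc 1278, .negSucc 108, .ofNat 137, .negSucc 28, .ofNat 103, .negSucc 208⟩, ⟨.ofNat 36, .ofNat 33, .negSucc 60, .negSucc 98, .negSucc 70, .negSucc 32⟩, .ofNat 2953, .ofNat 4197, .ofNat 0, .ofNat 4197, .ofNat 7860, .ofNat 0, .ofNat 176, .negSucc 373, .negSucc 300, .ofNat 0, .ofNat 249, .ofNat 167, .ofNat 0, .ofNat 0, .ofNat 871, .ofNat 23756, .ofNat 0, .ofNat 0, .ofNat 80137847393191815094783180800,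 .ofNat 0, .ofNat 0, .ofNat 0, .ofNat 0, .ofNat 0, .ofNat 380221597933076565876931559424000, .ofNat 0, .ofNat 7410306039865741561050641203200, .ofNat 0, .ofNat 427346402560408538339194227916800, .ofNat 0, .ofNat 8431667738548884706014579916800, .ofNat 0⟩)
    (by decide +kernel)
theorem L00012 : Good (Phi V4.P V4.D 1 (-1)) ⟨2, 0, 2, 2, 2, 1, 2, 0, 4, 2⟩ :=
  leaf_sound (S := T4.ds_pm) T4.ok_pm (w := 168) (c := ⟨⟨.negSucc 346, .negSucc 153, .ofNat 26, .negSucc 44, .ofNat 52, .negSucc 72⟩, ⟨.ofNat 183, .ofNat 82, .ofNat 108, .ofNat 23, .negSucc 32, .ofNat 39⟩, ⟨.ofNat 621, .ofNat 169, .negSucc 29, .negSucc 67, .negSucc 260, .ofNat 11⟩, ⟨.negSucc 1129, .negSucc 205, .ofNat 31, .negSucc 146, .ofNat 35, .negSucc 234⟩, ⟨.negSucc 42, .ofNat 141, .negSucc 30, .negSucc 33, .negSucc 212, .negSucc 46⟩, .ofNat 1769, .ofNat 2170, .ofNat 0, .ofNat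 2170, .ofNat 4311, .ofNat 0, .ofNat 230, .negSucc 397, .negSucc 349, .ofNat 0, .ofNat 281, .ofNat 196, .ofNat 0, .ofNat 0, .ofNat 869, .ofNat 19402, .ofNat 0, .ofNat 0, .ofNat 730115643699953537667563520000, .ofNat 0, .ofNat 0, .ofNat 0, .ofNat 0, .ofNat 0, .ofNat 9131786377158033902263145280307200, .ofNat 0, .ofNat 116320092688517655687693808435200, .ofNat 0, .ofNat 0, .ofNat 0, .ofNat 0, .ofNat 0⟩)
    (by decide +kernel)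
theorem L00013 : Good (Phi V4.P V4.D 1 (-1)) ⟨2, 0, 2, 2, 2, 1, 2, 0, 4, 3⟩ :=
  leaf_sound (S := T4.ds_pm) T4.ok_pm (w := 168) (c := ⟨⟨.negSucc 421, .negSucc 147, .ofNat 26, .negSucc 67, .ofNat 73, .negSucc 30⟩, ⟨.ofNat 222, .ofNat 77, .ofNat 130, .ofNat 36, .negSucc 43, .ofNat 15⟩, ⟨.ofNat 649, .ofNat 141, .negSucc 26, .negSucc 36, .negSucc 284, .negSucc 30⟩, ⟨.negSucc 1371, .negSucc 183, .ofNat 0, .negSucc 235, .ofNat 114, .negSucc 105⟩, ⟨.negSucc 69, .ofNat 119, .negSucc 33, .negSucc 73, .negSucc 178, .negSucc 39⟩, .ofNat 1743, .ofNat 2128, .ofNat 0, .ofNat 2128, .ofNat 4249, .ofNat 0, .ofNat 221, .negSucc 371, .negSucc 303, .ofNat 0, .ofNat 265, .ofNat 170, .ofNat 0, .ofNat 0, .ofNat 855, .ofNat 21933, .ofNat 0, .ofNat 0, .ofNat 1008521855134413232129494220800, .ofNat 0, .ofNat 0, .ofNat 0, .ofNat 0, .ofNat 0, .ofNat 10067703646652992689114842136576000,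 .ofNat 0, .ofNat 98725921047645211928347803648000, .ofNat 0, .ofNat 0, .ofNat 0, .ofNat 0, .ofNat 0⟩)
    (by decide +kernel)
theorem L00014 : Good (Phi V4.P V4.D 1 (-1)) ⟨2, 0, 2, 3, 2, 1, 2, 0, 3, 1⟩ :=
  out_sound (S := T4.ds_pm) T4.ok_pm (w := 40) (j := 3) (by decide +kernel)
theorem L00015 : Good (Phi V4.P V4.D 1 (-1)) ⟨2, 1, 2, 2, 2, 0, 2, 0, 3, 1⟩ :=
  leaf_sound (S := T4.ds_pm) T4.ok_pm (w := 168) (c := ⟨⟨.negSucc 497, .negSucc 207, .ofNat 6, .negSucc 28, .ofNat 67, .negSucc 61⟩, ⟨.ofNat 266, .ofNat 26, .ofNat 134, .ofNat 14, .negSucc 35, .ofNat 30⟩, ⟨.ofNat 840, .ofNat 198, .negSucc 17, .ofNat 8, .negSucc 334, .negSucc 57⟩, ⟨.negSucc 1379, .negSucc 207, .negSucc 6, .negSucc 91, .ofNat 131, .negSucc 176⟩, ⟨.ofNat 38, .ofNat 50, .ofNat 21, .negSucc 35, .negSucc 87, .negSucc 38⟩, .ofNat 819, .ofNat 752, .ofNat 0, .ofNat 752,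 .ofNat 1898, .ofNat 0, .ofNat 312, .negSucc 329, .negSucc 377, .ofNat 0, .ofNat 274, .ofNat 175, .ofNat 0, .ofNat 0, .ofNat 912, .ofNat 19978, .ofNat 0, .ofNat 0, .ofNat 58240347303464195742026956800, .ofNat 0, .ofNat 0, .ofNat 0, .ofNat 0, .ofNat 0, .ofNat 0, .ofNat 0, .ofNat 0, .ofNat 0, .ofNat 0, .ofNat 0, .ofNat 0, .ofNat 0⟩)
    (by decide +kernel)
theorem L00016 : Good (Phi V4.P V4.D 1 (-1)) ⟨2, 1, 2, 2, 2, 1, 3, 0, 3, 1⟩ :=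
  leaf_sound (S := T4.ds_pm) T4.ok_pm (w := 168) (c := ⟨⟨.negSucc 468, .negSucc 300, .ofNat 30, .negSucc 119, .ofNat 30, .negSucc 99⟩, ⟨.ofNat 254, .ofNat 55, .ofNat 131, .ofNat 60, .negSucc 16, .ofNat 55⟩, ⟨.ofNat 804, .ofNat 264, .negSucc 37, .negSucc 55, .negSucc 133, .negSucc 58⟩, ⟨.negSucc 1320, .negSucc 332, .ofNat 59, .negSucc 258, .ofNat 21, .negSucc 317⟩, ⟨.ofNat 37, .ofNat 180, .negSucc 21, .ofNat 94, .negSucc 114, .negSucc 104⟩, .ofNat 818, .ofNat 751, .ofNat 0, .ofNat 751, .ofNat 1898, .ofNat 0, .ofNat 328, .negSucc 367, .negSucc 389, .ofNat 0, .ofNat 293, .ofNat 195, .ofNat 0, .ofNat 0, .ofNat 882, .ofNat 45659, .ofNat 0, .ofNat 0, .ofNat 950574664056861785115013939200, .ofNat 0, .ofNat 3698895483325113362086123221811200, .ofNat 0, .ofNat 86873969943036767405799899136000, .ofNat 0, .ofNat 14411620747744326923292497254809600,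 .ofNat 0, .ofNat 41120821530417815936648714649600, .ofNat 0, .ofNat 0, .ofNat 0, .ofNat 0, .ofNat 0⟩)
    (by decide +kernel)
theorem L00017 : Good (Phi V4.P V4.D 1 (-1)) ⟨2, 1, 2, 2, 2, 1, 3, 1, 3, 1⟩ :=
  leaf_sound (S := T4.ds_pm) T4.ok_pm (w := 168) (c := ⟨⟨.negSucc 448, .negSucc 293, .ofNat 9, .negSucc 104, .ofNat 39, .negSucc 81⟩, ⟨.ofNat 244, .ofNat 60, .ofNat 141, .ofNat 49, .negSucc 21, .ofNat 38⟩, ⟨.ofNat 646, .ofNat 263, .negSucc 5, .negSucc 16, .negSucc 142, .negSucc 60⟩, ⟨.negSucc 1310, .negSucc 342, .negSucc 47, .negSucc 243, .ofNat 52, .negSucc 246⟩, ⟨.negSucc 52, .ofNat 159, .negSucc 49, .ofNat 41, .negSucc 99, .negSucc 77⟩, .ofNat 810, .ofNat 736, .ofNat 0, .ofNat 736, .ofNat 1880, .ofNat 0, .ofNat 331, .negSucc 359, .negSucc 391, .ofNat 0, .ofNat 290, .ofNat 193, .ofNat 0, .ofNat 0, .ofNat 898, .ofNat 18595, .ofNat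 0, .ofNat 0, .ofNat 415839892771429477891493068800, .ofNat 0, .ofNat 0, .ofNat 0, .ofNat 96465905861680170382546855526400, .ofNat 0, .ofNat 0, .ofNat 0, .ofNat 89897923654992464383941437030400, .ofNat 0, .ofNat 0, .ofNat 0, .ofNat 0, .ofNat 0⟩)
    (by decide +kernel)
theorem L00018 : Good (Phi V4.P V4.D 1 (-1)) ⟨2, 1, 2, 3, 1, 0, 2, 0, 3, 1⟩ :=
  out_sound (S := T4.ds_pm) T4.ok_pm (w := 40) (j := 3) (by decide +kernel)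
theorem L00019 : Good (Phi V4.P V4.D 1 (-1)) ⟨2, 0, 1, 0, 2, 2, 2, 0, 3, 0⟩ :=
  leaf_sound (S := T4.ds_pm) T4.ok_pm (w := 160) (c := ⟨⟨.ofNat 50, .negSucc 151, .ofNat 18, .ofNat 22, .negSucc 57, .negSucc 481⟩, ⟨.negSucc 68, .ofNat 66, .ofNat 103, .ofNat 10, .negSucc 30, .ofNat 135⟩, ⟨.ofNat 418, .ofNat 179, .negSucc 119, .negSucc 110, .negSucc 160, .ofNat 205⟩, ⟨.ofNat 98, .negSucc 292, .ofNat 31, .ofNat 74, .negSucc 261, .negSucc 1393⟩, ⟨.ofNat 3, .ofNat 233, .negSucc 36, .ofNat 40, .negSucc 311, .negSucc 56⟩, .ofNat 412, .ofNat 97, .ofNat 0, .ofNat 97, .ofNat 653, .ofNat 0, .ofNat 597, .negSucc 220, .negSucc 490, .ofNat 0, .ofNat 404, .ofNat 169, .ofNat 0, .ofNat 0, .ofNat 909, .ofNat 9348, .ofNat 0, .ofNat 0, .ofNat 0, .ofNat 0, .ofNat 0, .ofNat 0, .ofNat 0, .ofNat 0, .ofNat 0, .ofNat 0, .ofNat 0, .ofNat 0, .ofNat 0, .ofNat 0,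 .ofNat 0, .ofNat 0⟩)
    (by decide +kernel)
theorem L00020 : Good (Phi V4.P V4.D 1 (-1)) ⟨2, 1, 1, 0, 2, 2, 2, 0, 4, 0⟩ :=
  leaf_sound (S := T4.ds_pm) T4.ok_pm (w := 168) (c := ⟨⟨.negSucc 95, .negSucc 230, .ofNat 18, .ofNat 82, .negSucc 77, .negSucc 296⟩, ⟨.negSucc 15, .ofNat 27, .ofNat 128, .negSucc 26, .ofNat 14, .ofNat 68⟩, ⟨.ofNat 633, .ofNat 237, .negSucc 151, .negSucc 185, .negSucc 138, .ofNat 131⟩, ⟨.negSucc 302, .negSucc 356, .ofNat 132, .ofNat 248, .negSucc 282, .negSucc 773⟩, ⟨.ofNat 131, .ofNat 322, .negSucc 27, .ofNat 190, .negSucc 312, .ofNat 8⟩, .ofNat 383, .ofNat 103, .ofNat 0, .ofNat 103, .ofNat 726, .ofNat 0, .ofNat 641, .negSucc 253, .negSucc 597, .ofNat 0, .ofNat 379, .ofNat 169, .ofNat 0, .ofNat 0, .ofNat 944, .ofNat 8112, .ofNat 0, .ofNat 0, .ofNat 0, .ofNat 0, .ofNat 0, .ofNat 0, .ofNat 0, .ofNat 0, .ofNat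 0, .ofNat 0, .ofNat 0, .ofNat 0, .ofNat 0, .ofNat 0, .ofNat 0, .ofNat 0⟩)
    (by decide +kernel)
theorem L00021 : Good (Phi V4.P V4.D 1 (-1)) ⟨2, 1, 2, 0, 2, 2, 2, 0, 4, 1⟩ :=
  leaf_sound (S := T4.ds_pm) T4.ok_pm (w := 168) (c := ⟨⟨.negSucc 268, .negSucc 346, .negSucc 13, .negSucc 80, .negSucc 42, .negSucc 262⟩, ⟨.ofNat 2, .negSucc 0, .ofNat 138, .ofNat 24, .negSucc 5, .ofNat 32⟩, ⟨.ofNat 722, .ofNat 282, .negSucc 66, .negSucc 121, .negSucc 164, .ofNat 83⟩, ⟨.negSucc 824, .negSucc 507, .ofNat 10, .negSucc 177, .negSucc 166, .negSucc 656⟩, ⟨.ofNat 111, .ofNat 366, .negSucc 10, .ofNat 219, .negSucc 324, .ofNat 17⟩, .ofNat 541, .ofNat 208, .ofNat 0, .ofNat 208, .ofNat 1822, .ofNat 0, .ofNat 568, .negSucc 211, .negSucc 422, .ofNat 0, .ofNat 245, .ofNat 85, .ofNat 0, .ofNat 0, .ofNat 902, .ofNat 12904, .ofNat 0, .ofNat 0, .ofNat 0, .ofNat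 0, .ofNat 0, .ofNat 0, .ofNat 0, .ofNat 0, .ofNat 0, .ofNat 0, .ofNat 0, .ofNat 0, .ofNat 0, .ofNat 0, .ofNat 0, .ofNat 0⟩)
    (by decide +kernel)
theorem L00022 : Good (Phi V4.P V4.D 1 (-1)) ⟨2, 1, 2, 1, 2, 2, 2, 0, 4, 1⟩ :=
  leaf_sound (S := T4.ds_pm) T4.ok_pm (w := 168) (c := ⟨⟨.negSucc 234, .negSucc 404, .negSucc 4, .negSucc 142, .ofNat 10, .negSucc 294⟩, ⟨.ofNat 67, .ofNat 69, .ofNat 138, .ofNat 52, .negSucc 16, .ofNat 97⟩, ⟨.ofNat 660, .ofNat 274, .negSucc 59, .negSucc 153, .negSucc 147, .ofNat 88⟩, ⟨.negSucc 751, .negSucc 538, .ofNat 21, .negSucc 266, .negSucc 104, .negSucc 717⟩, ⟨.ofNat 58, .ofNat 425, .negSucc 29, .ofNat 270, .negSucc 362, .ofNat 46⟩, .ofNat 654, .ofNat 487, .ofNat 0, .ofNat 487, .ofNat 1728, .ofNat 0, .ofNat 478, .negSucc 414, .negSucc 440, .ofNat 0, .ofNat 320, .ofNat 173, .ofNat 0, .ofNat 0, .ofNat 889,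 .ofNat 8204, .ofNat 0, .ofNat 0, .ofNat 0, .ofNat 0, .ofNat 0, .ofNat 0, .ofNat 0, .ofNat 0, .ofNat 0, .ofNat 0, .ofNat 0, .ofNat 0, .ofNat 0, .ofNat 0, .ofNat 0, .ofNat 0⟩)
    (by decide +kernel)
theorem L00023 : Good (Phi V4.P V4.D 1 (-1)) ⟨1, 0, 2, 2, 2, 2, 2, 0, 4, 0⟩ :=
  leaf_sound (S := T4.ds_pm) T4.ok_pm (w := 168) (c := ⟨⟨.ofNat 111, .negSucc 443, .ofNat 79, .ofNat 51, .negSucc 51, .negSucc 271⟩, ⟨.negSucc 36, .ofNat 185, .ofNat 50, .negSucc 27, .ofNat 17, .ofNat 137⟩, ⟨.ofNat 286, .ofNat 427, .negSucc 113, .negSucc 161, .negSucc 130, .ofNat 111⟩, ⟨.ofNat 128, .negSucc 669, .ofNat 103, .ofNat 222, .negSucc 316, .negSucc 736⟩, ⟨.negSucc 102, .ofNat 561, .negSucc 57, .ofNat 136, .negSucc 351, .negSucc 6⟩, .ofNat 839, .ofNat 739, .ofNat 0, .ofNat 739, .ofNat 1830, .ofNat 0, .ofNat 379, .negSucc 464, .negSucc 430, .ofNat 0,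 .ofNat 357, .ofNat 218, .ofNat 0, .ofNat 0, .ofNat 856, .ofNat 14419, .ofNat 0, .ofNat 0, .ofNat 0, .ofNat 0, .ofNat 0, .ofNat 0, .ofNat 430780553870867651919970566144000, .ofNat 0, .ofNat 225042810073026060247279180185600, .ofNat 0, .ofNat 469616784622994745591181030195200, .ofNat 0, .ofNat 0, .ofNat 0, .ofNat 0, .ofNat 0⟩)
    (by decide +kernel)
theorem L00024 : Good (Phi V4.P V4.D 1 (-1)) ⟨1, 0, 2, 2, 2, 2, 2, 0, 4, 1⟩ :=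
  leaf_sound (S := T4.ds_pm) T4.ok_pm (w := 168) (c := ⟨⟨.negSucc 37, .negSucc 614, .ofNat 148, .negSucc 133, .ofNat 23, .negSucc 238⟩, ⟨.ofNat 49, .ofNat 228, .ofNat 116, .ofNat 69, .negSucc 18, .ofNat 124⟩, ⟨.ofNat 391, .ofNat 459, .negSucc 123, .negSucc 143, .negSucc 159, .ofNat 93⟩, ⟨.negSucc 430, .negSucc 812, .ofNat 188, .negSucc 257, .negSucc 120, .negSucc 652⟩, ⟨.negSucc 214, .ofNat 712, .negSucc 65, .ofNat 189, .negSucc 344, .negSucc 5⟩, .ofNat 841, .ofNat 741, .ofNat 0, .ofNat 741, .ofNat 1831, .ofNat 0, .ofNat 384, .negSucc 478, .negSucc 425, .ofNat 0, .ofNat 366, .ofNat 222, .ofNat 0, .ofNat 0, .ofNat 871, .ofNat 7954, .ofNat 0, .ofNat 0, .ofNat 1633727678466881201702436864000, .ofNat 0, .ofNat 0, .ofNat 0, .ofNat 0, .ofNat 0, .ofNat 596762727615214205069898547200000, .ofNat 0, .ofNat 324134201591061278614555616870400,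 .ofNat 0, .ofNat 0, .ofNat 0, .ofNat 0, .ofNat 0⟩)
    (by decide +kernel)
theorem L00025 : Good (Phi V4.P V4.D 1 (-1)) ⟨1, 0, 2, 3, 2, 2, 2, 0, 3, 0⟩ :=
  out_sound (S := T4.ds_pm) T4.ok_pm (w := 32) (j := 3) (by decide +kernel)
theorem L00026 : Good (Phi V4.P V4.D 1 (-1)) ⟨2, 0, 2, 0, 2, 3, 2, 0, 3, 0⟩ :=
  leaf_sound (S := T4.ds_pm) T4.ok_pm (w := 168) (c := ⟨⟨.ofNat 267, .negSucc 173, .negSucc 53, .negSucc 123, .negSucc 50, .negSucc 774⟩, ⟨.negSucc 87, .ofNat 83, .ofNat 101, .ofNat 62, .negSucc 46, .ofNat 113⟩, ⟨.ofNat 317, .ofNat 72, .negSucc 56, .negSucc 85, .negSucc 108, .ofNat 265⟩, ⟨.ofNat 711, .negSucc 347, .negSucc 115, .negSucc 293, .negSucc 245, .negSucc 2237⟩, ⟨.negSucc 60, .ofNat 425, .ofNat 38, .ofNat 380, .negSucc 475, .negSucc 1⟩, .ofNat 597, .ofNat 165, .ofNat 0, .ofNat 165, .ofNat 1334, .ofNat 0, .ofNat 635, .negSucc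 252, .negSucc 334, .ofNat 0, .ofNat 346, .ofNat 55, .ofNat 0, .ofNat 0, .ofNat 888, .ofNat 4093, .ofNat 0, .ofNat 0, .ofNat 0, .ofNat 0, .ofNat 0, .ofNat 0, .ofNat 0, .ofNat 0, .ofNat 0, .ofNat 0, .ofNat 0, .ofNat 0, .ofNat 0, .ofNat 0, .ofNat 0, .ofNat 0⟩)
    (by decide +kernel)
theorem L00027 : Good (Phi V4.P V4.D 1 (-1)) ⟨2, 0, 2, 1, 2, 3, 2, 0, 3, 0⟩ :=
  leaf_sound (S := T4.ds_pm) T4.ok_pm (w := 168) (c := ⟨⟨.ofNat 236, .negSucc 162, .negSucc 6, .negSucc 151, .negSucc 7, .negSucc 797⟩, ⟨.negSucc 125, .ofNat 99, .ofNat 88, .ofNat 79, .negSucc 30, .ofNat 303⟩, ⟨.ofNat 277, .ofNat 9, .negSucc 57, .negSucc 74, .negSucc 129, .ofNat 264⟩, ⟨.ofNat 653, .negSucc 244, .ofNat 16, .negSucc 249, .negSucc 258, .negSucc 2344⟩, ⟨.negSucc 20, .ofNat 418, .ofNat 12, .ofNat 492, .negSucc 542, .negSucc 23⟩, .ofNat 720, .ofNat 455, .ofNat 0, .ofNat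 455, .ofNat 1479, .ofNat 0, .ofNat 526, .negSucc 475, .negSucc 336, .ofNat 0, .ofNat 410, .ofNat 123, .ofNat 0, .ofNat 0, .ofNat 888, .ofNat 1599, .ofNat 0, .ofNat 0, .ofNat 0, .ofNat 0, .ofNat 0, .ofNat 0, .ofNat 0, .ofNat 0, .ofNat 0, .ofNat 0, .ofNat 0, .ofNat 0, .ofNat 0, .ofNat 0, .ofNat 0, .ofNat 0⟩)
    (by decide +kernel)
theorem L00028 : Good (Phi V4.P V4.D 1 (-1)) ⟨2, 1, 2, 0, 2, 3, 2, 0, 3, 0⟩ :=
  leaf_sound (S := T4.ds_pm) T4.ok_pm (w := 168) (c := ⟨⟨.ofNat 250, .negSucc 231, .negSucc 48, .negSucc 61, .negSucc 76, .negSucc 1139⟩, ⟨.negSucc 87, .negSucc 26, .ofNat 146, .ofNat 56, .ofNat 9, .ofNat 184⟩, ⟨.ofNat 470, .ofNat 127, .negSucc 145, .negSucc 280, .negSucc 76, .ofNat 364⟩, ⟨.ofNat 484, .negSucc 301, .ofNat 18, .negSucc 57, .negSucc 280, .negSucc 2813⟩, ⟨.ofNat 71, .ofNat 581, .ofNat 159, .ofNat 677, .negSucc 530,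 .ofNat 244⟩, .ofNat 535, .ofNat 210, .ofNat 0, .ofNat 210, .ofNat 1866, .ofNat 0, .ofNat 695, .negSucc 324, .negSucc 428, .ofNat 0, .ofNat 282, .ofNat 57, .ofNat 0, .ofNat 0, .ofNat 917, .ofNat 3420, .ofNat 0, .ofNat 0, .ofNat 0, .ofNat 0, .ofNat 0, .ofNat 0, .ofNat 0, .ofNat 0, .ofNat 0, .ofNat 0, .ofNat 0, .ofNat 0, .ofNat 0, .ofNat 0, .ofNat 0, .ofNat 0⟩)
    (by decide +kernel)
theorem L00029 : Good (Phi V4.P V4.D 1 (-1)) ⟨2, 1, 2, 1, 3, 6, 2, 0, 3, 0⟩ :=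
  leaf_sound (S := T4.ds_pm) T4.ok_pm (w := 176) (c := ⟨⟨.ofNat 140, .negSucc 293, .negSucc 42, .negSucc 10, .negSucc 46, .negSucc 983⟩, ⟨.negSucc 81, .ofNat 64, .ofNat 121, .ofNat 29, .negSucc 2, .ofNat 376⟩, ⟨.ofNat 390, .ofNat 156, .negSucc 96, .negSucc 156, .negSucc 92, .ofNat 290⟩, ⟨.ofNat 319, .negSucc 382, .ofNat 10, .ofNat 52, .negSucc 291, .negSucc 2439⟩, ⟨.ofNat 205, .ofNat 506, .ofNat 56, .ofNat 284, .negSucc 499, .ofNat 198⟩, .ofNat 649, .ofNat 485, .ofNat 0, .ofNat 485, .ofNat 1730, .ofNat 0, .ofNat 537, .negSucc 526, .negSucc 414, .ofNat 0, .ofNat 366, .ofNat 146, .ofNat 0, .ofNat 0, .ofNat 872, .ofNat 3922, .ofNat 0, .ofNat 0, .ofNat 0, .ofNat 0, .ofNat 0, .ofNat 0, .ofNat 0, .ofNat 0, .ofNat 0, .ofNat 0, .ofNat 0, .ofNat 0, .ofNat 0, .ofNat 0, .ofNat 0, .ofNat 0⟩)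
    (by decide +kernel)
theorem L00030 : Good (Phi V4.P V4.D 1 (-1)) ⟨2, 1, 2, 1, 3, 7, 2, 0, 3, 0⟩ :=
  leaf_sound (S := T4.ds_pm) T4.ok_pm (w := 176) (c := ⟨⟨.ofNat 264, .negSucc 339, .negSucc 76, .negSucc 115, .ofNat 109, .negSucc 1436⟩, ⟨.negSucc 102, .ofNat 68, .ofNat 170, .ofNat 45, .negSucc 61, .ofNat 528⟩, ⟨.ofNat 212, .ofNat 38, .negSucc 117, .negSucc 196, .negSucc 40, .ofNat 416⟩, ⟨.ofNat 626, .negSucc 372, .ofNat 64, .negSucc 25, .negSucc 88, .negSucc 3418⟩, ⟨.ofNat 343, .ofNat 798, .ofNat 82, .ofNat 787, .negSucc 922, .ofNat 636⟩, .ofNat 668, .ofNat 511, .ofNat 0, .ofNat 511, .ofNat 1731, .ofNat 0, .ofNat 570, .negSucc 623, .negSucc 428, .ofNat 0, .ofNat 428, .ofNat 130, .ofNat 0, .ofNat 0, .ofNat 954, .ofNat 2348, .ofNat 0, .ofNat 0, .ofNat 0, .ofNat 0, .ofNat 0, .ofNat 0, .ofNat 0, .ofNat 0, .ofNat 0, .ofNat 0, .ofNat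 0, .ofNat 0, .ofNat 0, .ofNat 0, .ofNat 0, .ofNat 0⟩)
    (by decide +kernel)
theorem L00031 : Good (Phi V4.P V4.D 1 (-1)) ⟨1, 0, 1, 1, 3, 6, 2, 0, 3, 0⟩ :=
  leaf_sound (S := T4.ds_pm) T4.ok_pm (w := 168) (c := ⟨⟨.ofNat 366, .negSucc 620, .negSucc 231, .negSucc 80, .ofNat 89, .negSucc 934⟩, ⟨.negSucc 160, .ofNat 254, .ofNat 355, .ofNat 49, .negSucc 49, .ofNat 483⟩, ⟨.ofNat 195, .ofNat 211, .negSucc 148, .negSucc 117, .negSucc 104, .ofNat 265⟩, ⟨.ofNat 697, .negSucc 779, .negSucc 504, .negSucc 74, .negSucc 113, .negSucc 2399⟩, ⟨.negSucc 212, .ofNat 1040, .ofNat 73, .ofNat 276, .negSucc 604, .ofNat 209⟩, .ofNat 851, .ofNat 754, .ofNat 0, .ofNat 754, .ofNat 1844, .ofNat 0, .ofNat 427, .negSucc 604, .negSucc 381, .ofNat 0, .ofNat 437, .ofNat 191, .ofNat 0, .ofNat 0, .ofNat 866, .ofNat 4537, .ofNat 0, .ofNat 0, .ofNat 125328816364813090807295980339200,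 .ofNat 0, .ofNat 0, .ofNat 0, .ofNat 0, .ofNat 0, .ofNat 4877152476701492582901971995852800, .ofNat 0, .ofNat 7276053284895668749508919951360000, .ofNat 0, .ofNat 0, .ofNat 0, .ofNat 0, .ofNat 0⟩)
    (by decide +kernel)
theorem L00032 : Good (Phi V4.P V4.D 1 (-1)) ⟨1, 0, 1, 1, 3, 7, 2, 0, 3, 0⟩ :=
  leaf_sound (S := T4.ds_pm) T4.ok_pm (w := 168) (c := ⟨⟨.ofNat 350, .negSucc 567, .ofNat 468, .negSucc 157, .ofNat 98, .negSucc 1167⟩, ⟨.negSucc 144, .ofNat 225, .ofNat 14, .ofNat 89, .negSucc 58, .ofNat 605⟩, ⟨.ofNat 157, .negSucc 98, .negSucc 322, .negSucc 161, .negSucc 38, .ofNat 374⟩, ⟨.ofNat 699, .negSucc 369, .ofNat 940, .negSucc 49, .negSucc 219, .negSucc 2982⟩, ⟨.negSucc 146, .ofNat 1615, .negSucc 612, .ofNat 757, .negSucc 935, .ofNat 340⟩, .ofNat 845, .ofNat 737, .ofNat 0, .ofNat 737, .ofNat 1817, .ofNat 0, .ofNat 463, .negSucc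 665, .negSucc 391, .ofNat 0, .ofNat 483, .ofNat 172, .ofNat 0, .ofNat 0, .ofNat 935, .ofNat 2142, .ofNat 0, .ofNat 0, .ofNat 122683513698766165472784993484800, .ofNat 0, .ofNat 0, .ofNat 0, .ofNat 0, .ofNat 0, .ofNat 0, .ofNat 0, .ofNat 8464505674643329279689868758220800, .ofNat 0, .ofNat 0, .ofNat 0, .ofNat 12720449865326606884877837008896000, .ofNat 0⟩)
    (by decide +kernel)
theorem L00033 : Good (Phi V4.P V4.D 1 (-1)) ⟨2, 0, 1, 0, 2, 2, 2, 0, 3, 1⟩ :=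
  leaf_sound (S := T4.ds_pm) T4.ok_pm (w := 160) (c := ⟨⟨.negSucc 383, .negSucc 175, .ofNat 31, .negSucc 184, .ofNat 46, .negSucc 176⟩, ⟨.negSucc 68, .ofNat 106, .ofNat 303, .ofNat 54, .negSucc 47, .ofNat 44⟩, ⟨.ofNat 636, .ofNat 135, .negSucc 105, .negSucc 37, .negSucc 203, .ofNat 3⟩, ⟨.negSucc 1187, .negSucc 275, .negSucc 15, .negSucc 522, .ofNat 59, .negSucc 524⟩, ⟨.negSucc 100, .ofNat 314, .negSucc 55, .ofNat 34, .negSucc 280, .negSucc 97⟩, .ofNat 411, .ofNat 89, .ofNat 0, .ofNat 89, .ofNat 647, .ofNat 0, .ofNat 554, .negSucc 192, .negSucc 379, .ofNat 0, .ofNat 385, .ofNat 162, .ofNat 0, .ofNat 0, .ofNat 906, .ofNat 7655, .ofNat 0, .ofNat 0, .ofNat 0, .ofNat 0, .ofNat 0, .ofNat 0, .ofNat 0, .ofNat 0, .ofNat 0, .ofNat 0, .ofNat 0, .ofNat 0, .ofNat 0, .ofNat 0, .ofNat 0, .ofNat 0⟩)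
    (by decide +kernel)
theorem L00034 : Good (Phi V4.P V4.D 1 (-1)) ⟨2, 1, 2, 0, 2, 2, 2, 0, 3, 1⟩ :=
  leaf_sound (S := T4.ds_pm) T4.ok_pm (w := 168) (c := ⟨⟨.negSucc 477, .negSucc 399, .negSucc 22, .negSucc 267, .ofNat 56, .negSucc 177⟩, ⟨.ofNat 11, .negSucc 6, .ofNat 196, .ofNat 49, .negSucc 14, .ofNat 18⟩, ⟨.ofNat 835, .ofNat 225, .negSucc 70, .negSucc 83, .negSucc 186, .negSucc 82⟩, ⟨.negSucc 1446, .negSucc 484, .ofNat 7, .negSucc 609, .ofNat 81, .negSucc 465⟩, ⟨.ofNat 62, .ofNat 409, .ofNat 35, .ofNat 329, .negSucc 338, .negSucc 113⟩, .ofNat 530, .ofNat 191, .ofNat 0, .ofNat 191, .ofNat 1896, .ofNat 0, .ofNat 532, .negSucc 176, .negSucc 340, .ofNat 0, .ofNat 224, .ofNat 70, .ofNat 0, .ofNat 0, .ofNat 895, .ofNat 10670, .ofNat 0, .ofNat 0, .ofNat 0, .ofNat 0, .ofNat 0, .ofNat 0, .ofNat 0, .ofNat 0, .ofNat 0, .ofNat 0, .ofNat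 0, .ofNat 0, .ofNat 0, .ofNat 0, .ofNat 0, .ofNat 0⟩)
    (by decide +kernel)
theorem L00035 : Good (Phi V4.P V4.D 1 (-1)) ⟨3, 2, 2, 1, 2, 2, 2, 0, 3, 1⟩ :=
  leaf_sound (S := T4.ds_pm) T4.ok_pm (w := 168) (c := ⟨⟨.negSucc 523, .negSucc 179, .ofNat 3, .negSucc 279, .ofNat 72, .negSucc 176⟩, ⟨.ofNat 135, .ofNat 45, .ofNat 175, .ofNat 116, .negSucc 39, .ofNat 65⟩, ⟨.ofNat 752, .ofNat 94, .negSucc 48, .negSucc 89, .negSucc 163, .negSucc 34⟩, ⟨.negSucc 1444, .negSucc 212, .ofNat 11, .negSucc 640, .ofNat 61, .negSucc 511⟩, ⟨.ofNat 97, .ofNat 201, .negSucc 17, .ofNat 254, .negSucc 318, .negSucc 100⟩, .ofNat 413, .ofNat 153, .ofNat 0, .ofNat 153, .ofNat 704, .ofNat 0, .ofNat 540, .negSucc 296, .negSucc 426, .ofNat 0, .ofNat 390, .ofNat 201, .ofNat 0, .ofNat 0, .ofNat 905, .ofNat 10137, .ofNat 0, .ofNat 0, .ofNat 0, .ofNat 0, .ofNat 0, .ofNat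 0, .ofNat 0, .ofNat 0, .ofNat 0, .ofNat 0, .ofNat 0, .ofNat 0, .ofNat 0, .ofNat 0, .ofNat 0, .ofNat 0⟩)
    (by decide +kernel)
theorem L00036 : Good (Phi V4.P V4.D 1 (-1)) ⟨3, 3, 2, 1, 3, 4, 2, 0, 3, 1⟩ :=
  leaf_sound (S := T4.ds_pm) T4.ok_pm (w := 176) (c := ⟨⟨.negSucc 701, .negSucc 201, .negSucc 8, .negSucc 142, .ofNat 69, .negSucc 154⟩, ⟨.ofNat 174, .ofNat 2, .ofNat 184, .ofNat 56, .negSucc 33, .ofNat 51⟩, ⟨.ofNat 889, .ofNat 135, .negSucc 38, .negSucc 30, .negSucc 198, .negSucc 69⟩, ⟨.negSucc 1721, .negSucc 197, .ofNat 10, .negSucc 294, .ofNat 63, .negSucc 410⟩, ⟨.ofNat 255, .ofNat 169, .negSucc 5, .ofNat 147, .negSucc 302, .negSucc 112⟩, .ofNat 629, .ofNat 486, .ofNat 0, .ofNat 486, .ofNat 1771, .ofNat 0, .ofNat 439, .negSucc 357, .negSucc 399, .ofNat 0, .ofNat 283, .ofNat 157, .ofNat 0, .ofNat 0, .ofNat 886, .ofNat 19669,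 .ofNat 0, .ofNat 0, .ofNat 0, .ofNat 0, .ofNat 0, .ofNat 0, .ofNat 0, .ofNat 0, .ofNat 2955414348644137579408792867150233600, .ofNat 0, .ofNat 0, .ofNat 0, .ofNat 0, .ofNat 0, .ofNat 0, .ofNat 0⟩)
    (by decide +kernel)
theorem L00037 : Good (Phi V4.P V4.D 1 (-1)) ⟨3, 3, 2, 1, 3, 5, 2, 0, 3, 1⟩ :=
  leaf_sound (S := T4.ds_pm) T4.ok_pm (w := 176) (c := ⟨⟨.negSucc 774, .negSucc 256, .negSucc 53, .negSucc 210, .ofNat 83, .negSucc 208⟩, ⟨.ofNat 202, .ofNat 9, .ofNat 231, .ofNat 75, .negSucc 37, .ofNat 59⟩, ⟨.ofNat 811, .ofNat 125, .negSucc 44, .negSucc 72, .negSucc 112, .negSucc 70⟩, ⟨.negSucc 1894, .negSucc 261, .negSucc 48, .negSucc 418, .ofNat 80, .negSucc 533⟩, ⟨.ofNat 373, .ofNat 263, .ofNat 19, .ofNat 275, .negSucc 377, .negSucc 96⟩, .ofNat 606, .ofNat 446, .ofNat 0, .ofNat 446, .ofNat 1774, .ofNat 0, .ofNat 482, .negSucc 390,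 .negSucc 365, .ofNat 0, .ofNat 295, .ofNat 138, .ofNat 0, .ofNat 0, .ofNat 872, .ofNat 6953, .ofNat 0, .ofNat 0, .ofNat 0, .ofNat 0, .ofNat 0, .ofNat 0, .ofNat 0, .ofNat 0, .ofNat 0, .ofNat 0, .ofNat 0, .ofNat 0, .ofNat 0, .ofNat 0, .ofNat 0, .ofNat 0⟩)
    (by decide +kernel)
theorem L00038 : Good (Phi V4.P V4.D 1 (-1)) ⟨2, 0, 1, 1, 2, 2, 2, 0, 3, 1⟩ :=
  leaf_sound (S := T4.ds_pm) T4.ok_pm (w := 160) (c := ⟨⟨.negSucc 303, .negSucc 257, .ofNat 88, .negSucc 237, .ofNat 79, .negSucc 156⟩, ⟨.ofNat 153, .ofNat 145, .ofNat 252, .ofNat 131, .negSucc 48, .ofNat 82⟩, ⟨.ofNat 509, .ofNat 160, .negSucc 66, .negSucc 60, .negSucc 180, .ofNat 10⟩, ⟨.negSucc 1137, .negSucc 330, .ofNat 168, .negSucc 621, .ofNat 75, .negSucc 515⟩, ⟨.negSucc 211, .ofNat 364, .negSucc 79, .ofNat 106, .negSucc 282, .negSucc 115⟩, .ofNat 892, .ofNat 755, .ofNat 0, .ofNat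 755, .ofNat 1778, .ofNat 0, .ofNat 343, .negSucc 414, .negSucc 321, .ofNat 0, .ofNat 344, .ofNat 186, .ofNat 0, .ofNat 0, .ofNat 845, .ofNat 8333, .ofNat 0, .ofNat 0, .ofNat 26906542876221961611195187200, .ofNat 0, .ofNat 0, .ofNat 0, .ofNat 0, .ofNat 0, .ofNat 574119443692245968659238879232000, .ofNat 0, .ofNat 3693978284891623909960030617600, .ofNat 0, .ofNat 0, .ofNat 0, .ofNat 0, .ofNat 0⟩)
    (by decide +kernel)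
theorem L00039 : Good (Phi V4.P V4.D 1 (-1)) ⟨2, 1, 2, 2, 2, 2, 3, 0, 3, 1⟩ :=
  leaf_sound (S := T4.ds_pm) T4.ok_pm (w := 168) (c := ⟨⟨.negSucc 461, .negSucc 427, .negSucc 3, .negSucc 354, .ofNat 44, .negSucc 211⟩, ⟨.ofNat 248, .ofNat 106, .ofNat 192, .ofNat 186, .negSucc 26, .ofNat 107⟩, ⟨.ofNat 730, .ofNat 222, .negSucc 80, .negSucc 160, .negSucc 65, .negSucc 38⟩, ⟨.negSucc 1330, .negSucc 456, .ofNat 39, .negSucc 738, .ofNat 25, .negSucc 612⟩, ⟨.ofNat 28, .ofNat 446, .ofNat 43, .ofNat 361, .negSucc 191, .negSucc 111⟩, .ofNat 825, .ofNat 754, .ofNat 0, .ofNat 754, .ofNat 1890, .ofNat 0, .ofNat 364, .negSucc 461, .negSucc 351, .ofNat 0, .ofNat 344, .ofNat 186, .ofNat 0, .ofNat 0, .ofNat 847, .ofNat 16244, .ofNat 0, .ofNat 0, .ofNat 314317843615989522312147763200, .ofNat 0, .ofNat 0, .ofNat 0, .ofNat 0, .ofNat 0, .ofNat 12109099065645353946544973493043200,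 .ofNat 0, .ofNat 49194170544984908969219928883200, .ofNat 0, .ofNat 0, .ofNat 0, .ofNat 0, .ofNat 0⟩)
    (by decide +kernel)
theorem L00040 : Good (Phi V4.P V4.D 1 (-1)) ⟨2, 1, 2, 2, 2, 2, 3, 1, 3, 1⟩ :=
  leaf_sound (S := T4.ds_pm) T4.ok_pm (w := 168) (c := ⟨⟨.negSucc 458, .negSucc 426, .negSucc 4, .negSucc 317, .ofNat 43, .negSucc 162⟩, ⟨.ofNat 243, .ofNat 116, .ofNat 177, .ofNat 170, .negSucc 27, .ofNat 86⟩, ⟨.ofNat 592, .ofNat 259, .negSucc 35, .negSucc 83, .negSucc 66, .negSucc 24⟩, ⟨.negSucc 1379, .negSucc 499, .negSucc 37, .negSucc 683, .ofNat 38, .negSucc 471⟩, ⟨.negSucc 103, .ofNat 391, .negSucc 21, .ofNat 276, .negSucc 153, .negSucc 81⟩, .ofNat 849, .ofNat 782, .ofNat 0, .ofNat 782, .ofNat 1911, .ofNat 0, .ofNat 350, .negSucc 442, .negSucc 366, .ofNat 0, .ofNat 335, .ofNat 197, .ofNat 0, .ofNat 0, .ofNat 861, .ofNat 8843,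 .ofNat 0, .ofNat 0, .ofNat 171082977343562039902706073600, .ofNat 0, .ofNat 0, .ofNat 0, .ofNat 0, .ofNat 0, .ofNat 0, .ofNat 0, .ofNat 75849223315723710941778621235200, .ofNat 0, .ofNat 0, .ofNat 0, .ofNat 0, .ofNat 0⟩)
    (by decide +kernel)
theorem L00041 : Good (Phi V4.P V4.D 1 (-1)) ⟨2, 1, 2, 3, 2, 2, 2, 0, 3, 1⟩ :=
  out_sound (S := T4.ds_pm) T4.ok_pm (w := 40) (j := 3) (by decide +kernel)
theorem L00042 : Good (Phi V4.P V4.D 1 (-1)) ⟨1, 0, 1, 0, 3, 6, 2, 0, 4, 2⟩ :=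
  leaf_sound (S := T4.ds_pm) T4.ok_pm (w := 168) (c := ⟨⟨.negSucc 302, .negSucc 762, .negSucc 107, .negSucc 205, .ofNat 50, .negSucc 239⟩, ⟨.negSucc 105, .ofNat 149, .ofNat 462, .ofNat 71, .negSucc 42, .ofNat 69⟩, ⟨.ofNat 539, .ofNat 321, .negSucc 155, .negSucc 57, .negSucc 98, .ofNat 26⟩, ⟨.negSucc 1304, .negSucc 1040, .negSucc 141, .negSucc 477, .ofNat 57, .negSucc 593⟩, ⟨.negSucc 254, .ofNat 1193, .ofNat 68, .ofNat 322, .negSucc 436, .ofNat 32⟩, .ofNat 391, .ofNat 86, .ofNat 0, .ofNat 86, .ofNat 692, .ofNat 0, .ofNat 692, .negSucc 326, .negSucc 434, .ofNat 0, .ofNat 431, .ofNat 142, .ofNat 0, .ofNat 0, .ofNat 916, .ofNat 2720, .ofNat 0, .ofNat 0, .ofNat 0, .ofNat 0, .ofNat 0, .ofNat 0, .ofNat 0, .ofNat 0, .ofNat 0, .ofNat 0, .ofNat 0, .ofNat 0, .ofNat 0, .ofNat 0, .ofNat 0, .ofNat 0⟩)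
    (by decide +kernel)
theorem L00043 : Good (Phi V4.P V4.D 1 (-1)) ⟨1, 0, 1, 0, 3, 7, 2, 0, 4, 2⟩ :=
  leaf_sound (S := T4.ds_pm) T4.ok_pm (w := 176) (c := ⟨⟨.negSucc 455, .negSucc 862, .negSucc 279, .negSucc 238, .ofNat 194, .negSucc 258⟩, ⟨.negSucc 50, .ofNat 176, .ofNat 627, .ofNat 75, .negSucc 109, .ofNat 73⟩, ⟨.ofNat 559, .ofNat 78, .negSucc 150, .negSucc 27, .negSucc 12, .negSucc 26⟩, ⟨.negSucc 1821, .negSucc 1006, .negSucc 309, .negSucc 515, .ofNat 241, .negSucc 599⟩, ⟨.negSucc 361, .ofNat 1950, .ofNat 481, .ofNat 602, .negSucc 860, .ofNat 248⟩, .ofNat 599, .ofNat 273, .ofNat 0, .ofNat 273, .ofNat 1505, .ofNat 0, .ofNat 610, .negSucc 401, .negSucc 298, .ofNat 0, .ofNat 370, .ofNat 66, .ofNat 0, .ofNat 0, .ofNat 930, .ofNat 1843, .ofNat 0, .ofNat 0, .ofNat 0, .ofNat 0, .ofNat 0, .ofNat 0, .ofNat 0, .ofNat 0, .ofNat 0, .ofNat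 0, .ofNat 0, .ofNat 0, .ofNat 0, .ofNat 0, .ofNat 0, .ofNat 0⟩)
    (by decide +kernel)
theorem L00044 : Good (Phi V4.P V4.D 1 (-1)) ⟨1, 0, 1, 0, 3, 6, 2, 0, 4, 3⟩ :=
  leaf_sound (S := T4.ds_pm) T4.ok_pm (w := 176) (c := ⟨⟨.negSucc 505, .negSucc 781, .negSucc 87, .negSucc 244, .ofNat 87, .negSucc 67⟩, ⟨.negSucc 70, .ofNat 203, .ofNat 485, .ofNat 87, .negSucc 49, .negSucc 14⟩, ⟨.ofNat 577, .ofNat 212, .negSucc 128, .negSucc 49, .negSucc 55, .negSucc 46⟩, ⟨.negSucc 1939, .negSucc 938, .negSucc 168, .negSucc 507, .ofNat 161, .negSucc 171⟩, ⟨.negSucc 336, .ofNat 1311, .ofNat 53, .ofNat 341, .negSucc 404, .negSucc 84⟩, .ofNat 398, .ofNat 98, .ofNat 0, .ofNat 98, .ofNat 682, .ofNat 0, .ofNat 614, .negSucc 297, .negSucc 339, .ofNat 0, .ofNat 419, .ofNat 140, .ofNat 0, .ofNat 0, .ofNat 901, .ofNat 3822, .ofNat 0, .ofNat 0, .ofNat 0, .ofNat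 0, .ofNat 0, .ofNat 0, .ofNat 0, .ofNat 0, .ofNat 0, .ofNat 0, .ofNat 0, .ofNat 0, .ofNat 0, .ofNat 0, .ofNat 0, .ofNat 0⟩)
    (by decide +kernel)
theorem L00045 : Good (Phi V4.P V4.D 1 (-1)) ⟨1, 0, 1, 0, 3, 7, 2, 0, 4, 3⟩ :=
  leaf_sound (S := T4.ds_pm) T4.ok_pm (w := 176) (c := ⟨⟨.negSucc 694, .negSucc 900, .negSucc 338, .negSucc 243, .ofNat 244, .negSucc 11⟩, ⟨.negSucc 65, .ofNat 204, .ofNat 726, .ofNat 126, .negSucc 97, .negSucc 33⟩, ⟨.ofNat 624, .negSucc 67, .negSucc 155, .negSucc 80, .ofNat 78, .negSucc 79⟩, ⟨.negSucc 2656, .negSucc 809, .negSucc 219, .negSucc 422, .ofNat 274, .negSucc 28⟩, ⟨.negSucc 528, .ofNat 2347, .ofNat 738, .ofNat 863, .negSucc 1063, .negSucc 22⟩, .ofNat 593, .ofNat 280, .ofNat 0, .ofNat 280, .ofNat 1534, .ofNat 0, .ofNat 555, .negSucc 361, .negSucc 225, .ofNat 0, .ofNat 349, .ofNat 51, .ofNat 0, .ofNat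 0, .ofNat 931, .ofNat 2804, .ofNat 0, .ofNat 0, .ofNat 0, .ofNat 0, .ofNat 0, .ofNat 0, .ofNat 0, .ofNat 0, .ofNat 0, .ofNat 0, .ofNat 52762678646463715301746812754329600, .ofNat 0, .ofNat 0, .ofNat 0, .ofNat 0, .ofNat 0⟩)
    (by decide +kernel)
theorem L00046 : Good (Phi V4.P V4.D 1 (-1)) ⟨2, 0, 1, 1, 2, 3, 2, 0, 3, 1⟩ :=
  leaf_sound (S := T4.ds_pm) T4.ok_pm (w := 168) (c := ⟨⟨.negSucc 424, .negSucc 489, .negSucc 164, .negSucc 610, .ofNat 284, .negSucc 227⟩, ⟨.ofNat 219, .ofNat 267, .ofNat 535, .ofNat 360, .negSucc 171, .ofNat 125⟩, ⟨.ofNat 446, .ofNat 25, .negSucc 41, .negSucc 68, .negSucc 20, .ofNat 1⟩, ⟨.negSucc 1661, .negSucc 569, .negSucc 91, .negSucc 1111, .ofNat 351, .negSucc 715⟩, ⟨.negSucc 379, .ofNat 941, .ofNat 343, .ofNat 1160, .negSucc 843, .negSucc 92⟩, .ofNat 3009, .ofNat 4284, .ofNat 0, .ofNat 4284, .ofNat 7991,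 .ofNat 0, .ofNat 235, .negSucc 625, .negSucc 268, .ofNat 0, .ofNat 401, .ofNat 153, .ofNat 0, .ofNat 0, .ofNat 888, .ofNat 2509, .ofNat 0, .ofNat 0, .ofNat 40269790666961131671650304000, .ofNat 0, .ofNat 0, .ofNat 0, .ofNat 0, .ofNat 0, .ofNat 0, .ofNat 0, .ofNat 5260800061525578383685058560000, .ofNat 0, .ofNat 0, .ofNat 0, .ofNat 6561955151579372378563333324800, .ofNat 0⟩)
    (by decide +kernel)
theorem L00047 : Good (Phi V4.P V4.D 1 (-1)) ⟨2, 1, 3, 4, 2, 3, 2, 0, 3, 1⟩ :=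
  leaf_sound (S := T4.ds_pm) T4.ok_pm (w := 168) (c := ⟨⟨.negSucc 814, .negSucc 618, .negSucc 99, .negSucc 793, .ofNat 320, .negSucc 252⟩, ⟨.ofNat 444, .ofNat 161, .ofNat 183, .ofNat 436, .negSucc 177, .ofNat 125⟩, ⟨.ofNat 512, .ofNat 55, .negSucc 57, .negSucc 185, .ofNat 107, .negSucc 71⟩, ⟨.negSucc 2310, .negSucc 309, .negSucc 29, .negSucc 866, .ofNat 197, .negSucc 616⟩, ⟨.ofNat 44, .ofNat 1406, .ofNat 230, .ofNat 2357, .negSucc 1233, .ofNat 80⟩, .ofNat 1724, .ofNat 2339, .ofNat 0, .ofNat 2339, .ofNat 4952, .ofNat 0, .ofNat 295, .negSucc 658, .negSucc 304, .ofNat 0, .ofNat 406, .ofNat 157, .ofNat 0, .ofNat 0, .ofNat 911, .ofNat 3648, .ofNat 0, .ofNat 0, .ofNat 32254956561552891348359577600, .ofNat 0, .ofNat 0, .ofNat 0, .ofNat 8571567716247317908375889510400, .ofNat 0, .ofNat 0, .ofNat 0, .ofNat 3284439607147353376117122662400,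 .ofNat 0, .ofNat 0, .ofNat 0, .ofNat 0, .ofNat 0⟩)
    (by decide +kernel)
theorem L00048 : Good (Phi V4.P V4.D 1 (-1)) ⟨2, 1, 3, 5, 2, 3, 2, 0, 3, 1⟩ :=
  out_sound (S := T4.ds_pm) T4.ok_pm (w := 40) (j := 3) (by decide +kernel)
theorem L00049 : Good (Phi V4.P V4.D 1 (-1)) ⟨2, 1, 2, 3, 2, 3, 2, 0, 3, 1⟩ :=
  out_sound (S := T4.ds_pm) T4.ok_pm (w := 40) (j := 3) (by decide +kernel)
theorem L00050 : Good (Phi V4.P V4.D 1 (-1)) ⟨2, 0, 1, 0, 1, 0, 2, 1, 3, 0⟩ :=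
  leaf_sound (S := T4.ds_pm) T4.ok_pm (w := 152) (c := ⟨⟨.negSucc 259, .negSucc 72, .ofNat 46, .ofNat 40, .negSucc 0, .negSucc 174⟩, ⟨.negSucc 19, .ofNat 45, .ofNat 163, .negSucc 50, .negSucc 11, .ofNat 51⟩, ⟨.ofNat 401, .ofNat 109, .negSucc 46, .negSucc 53, .negSucc 278, .ofNat 63⟩, ⟨.negSucc 761, .negSucc 124, .ofNat 54, .ofNat 39, .negSucc 27, .negSucc 502⟩, ⟨.ofNat 44, .ofNat 59, .negSucc 4, .negSucc 354, .negSucc 118, .negSucc 22⟩, .ofNat 412, .ofNat 94, .ofNat 0, .ofNat 94, .ofNat 648, .ofNat 0, .ofNat 517, .negSucc 138, .negSucc 498, .ofNat 0, .ofNat 383, .ofNat 138, .ofNat 0, .ofNat 0, .ofNat 1022, .ofNat 7239, .ofNat 0, .ofNat 0, .ofNat 0, .ofNat 0, .ofNat 0, .ofNat 0, .ofNat 0, .ofNat 0, .ofNat 0, .ofNat 0, .ofNat 0, .ofNat 0, .ofNat 0, .ofNat 0, .ofNat 0, .ofNat 0⟩)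
    (by decide +kernel)
theorem L00051 : Good (Phi V4.P V4.D 1 (-1)) ⟨2, 1, 1, 0, 1, 0, 2, 1, 3, 0⟩ :=
  leaf_sound (S := T4.ds_pm) T4.ok_pm (w := 152) (c := ⟨⟨.negSucc 288, .negSucc 226, .ofNat 31, .negSucc 67, .ofNat 35, .negSucc 163⟩, ⟨.negSucc 3, .ofNat 11, .ofNat 196, .ofNat 10, .negSucc 16, .ofNat 37⟩, ⟨.ofNat 472, .ofNat 224, .negSucc 44, .ofNat 108, .negSucc 304, .ofNat 23⟩, ⟨.negSucc 839, .negSucc 265, .ofNat 40, .negSucc 195, .ofNat 43, .negSucc 422⟩, ⟨.negSucc 17, .ofNat 126, .ofNat 2, .negSucc 112, .negSucc 147, .negSucc 21⟩, .ofNat 378, .ofNat 96, .ofNat 0, .ofNat 96, .ofNat 732, .ofNat 0, .ofNat 275, .negSucc 74, .negSucc 295, .ofNat 0, .ofNat 176, .ofNat 69, .ofNat 0, .ofNat 0, .ofNat 538, .ofNat 2778, .ofNat 0, .ofNat 0, .ofNat 0, .ofNat 0, .ofNat 0, .ofNat 0, .ofNat 0, .ofNat 0, .ofNat 0, .ofNat 0, .ofNat 0, .ofNat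 0, .ofNat 0, .ofNat 0, .ofNat 0, .ofNat 0⟩)
    (by decide +kernel)
theorem L00052 : Good (Phi V4.P V4.D 1 (-1)) ⟨1, 0, 1, 0, 1, 0, 2, 1, 3, 1⟩ :=
  leaf_sound (S := T4.ds_pm) T4.ok_pm (w := 152) (c := ⟨⟨.negSucc 346, .negSucc 301, .ofNat 42, .negSucc 119, .ofNat 87, .negSucc 51⟩, ⟨.negSucc 22, .ofNat 70, .ofNat 237, .ofNat 10, .negSucc 32, .ofNat 14⟩, ⟨.ofNat 399, .ofNat 298, .negSucc 24, .ofNat 52, .negSucc 304, .negSucc 56⟩, ⟨.negSucc 1102, .negSucc 351, .ofNat 24, .negSucc 361, .ofNat 187, .negSucc 165⟩, ⟨.negSucc 47, .ofNat 172, .negSucc 7, .negSucc 243, .negSucc 122, .negSucc 18⟩, .ofNat 399, .ofNat 97, .ofNat 0, .ofNat 97, .ofNat 676, .ofNat 0, .ofNat 485, .negSucc 134, .negSucc 431, .ofNat 0, .ofNat 343, .ofNat 121, .ofNat 0, .ofNat 0, .ofNat 961, .ofNat 5129, .ofNat 0, .ofNat 0, .ofNat 0, .ofNat 0, .ofNat 0, .ofNat 0, .ofNat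 0, .ofNat 0, .ofNat 0, .ofNat 0, .ofNat 0, .ofNat 0, .ofNat 0, .ofNat 0, .ofNat 0, .ofNat 0⟩)
    (by decide +kernel)
theorem L00053 : Good (Phi V4.P V4.D 1 (-1)) ⟨1, 0, 1, 1, 1, 0, 2, 1, 3, 0⟩ :=
  leaf_sound (S := T4.ds_pm) T4.ok_pm (w := 152) (c := ⟨⟨.negSucc 151, .negSucc 320, .ofNat 89, .negSucc 3, .ofNat 33, .negSucc 165⟩, ⟨.ofNat 106, .ofNat 98, .ofNat 209, .negSucc 8, .negSucc 24, .ofNat 91⟩, ⟨.ofNat 298, .ofNat 360, .negSucc 173, .ofNat 19, .negSucc 293, .ofNat 39⟩, ⟨.negSucc 657, .negSucc 380, .ofNat 57, .negSucc 103, .ofNat 33, .negSucc 448⟩, ⟨.negSucc 79, .ofNat 199, .ofNat 41, .negSucc 226, .negSucc 134, .ofNat 6⟩, .ofNat 841, .ofNat 744, .ofNat 0, .ofNat 744, .ofNat 1838, .ofNat 0, .ofNat 346, .negSucc 365, .negSucc 444, .ofNat 0, .ofNat 313, .ofNat 215, .ofNat 0, .ofNat 0, .ofNat 980, .ofNat 5680, .ofNat 0, .ofNat 0,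 .ofNat 125302304403212991410995200, .ofNat 0, .ofNat 0, .ofNat 0, .ofNat 68712843914975181773419315200, .ofNat 0, .ofNat 0, .ofNat 0, .ofNat 49913144519046048865950105600, .ofNat 0, .ofNat 0, .ofNat 0, .ofNat 52491430642907104423811481600, .ofNat 0⟩)
    (by decide +kernel)
theorem L00054 : Good (Phi V4.P V4.D 1 (-1)) ⟨2, 0, 1, 1, 1, 0, 2, 1, 3, 1⟩ :=
  leaf_sound (S := T4.ds_pm) T4.ok_pm (w := 152) (c := ⟨⟨.negSucc 359, .negSucc 108, .ofNat 69, .negSucc 28, .ofNat 61, .negSucc 31⟩, ⟨.ofNat 188, .ofNat 61, .ofNat 180, .ofNat 9, .negSucc 34, .ofNat 16⟩, ⟨.ofNat 386, .ofNat 101, .negSucc 25, .ofNat 28, .negSucc 278, .negSucc 54⟩, ⟨.negSucc 1131, .negSucc 135, .ofNat 109, .negSucc 280, .ofNat 132, .negSucc 106⟩, ⟨.negSucc 1, .ofNat 67, .negSucc 24, .negSucc 360, .negSucc 79, .negSucc 28⟩, .ofNat 891, .ofNat 754, .ofNat 0, .ofNat 754,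 .ofNat 1775, .ofNat 0, .ofNat 310, .negSucc 326, .negSucc 342, .ofNat 0, .ofNat 296, .ofNat 178, .ofNat 0, .ofNat 0, .ofNat 902, .ofNat 6258, .ofNat 0, .ofNat 0, .ofNat 40634734323847371816960000, .ofNat 0, .ofNat 0, .ofNat 0, .ofNat 0, .ofNat 0, .ofNat 0, .ofNat 0, .ofNat 15759474507681972998897664000, .ofNat 0, .ofNat 0, .ofNat 0, .ofNat 0, .ofNat 0⟩)
    (by decide +kernel)
theorem L00055 : Good (Phi V4.P V4.D 1 (-1)) ⟨2, 1, 1, 1, 1, 0, 2, 1, 3, 1⟩ :=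
  leaf_sound (S := T4.ds_pm) T4.ok_pm (w := 152) (c := ⟨⟨.negSucc 409, .negSucc 249, .ofNat 117, .negSucc 142, .ofNat 85, .negSucc 43⟩, ⟨.ofNat 225, .ofNat 42, .ofNat 207, .ofNat 66, .negSucc 44, .ofNat 21⟩, ⟨.ofNat 468, .ofNat 227, .ofNat 30, .ofNat 83, .negSucc 300, .negSucc 68⟩, ⟨.negSucc 1191, .negSucc 276, .ofNat 98, .negSucc 443, .ofNat 176, .negSucc 120⟩, ⟨.negSucc 27, .ofNat 101, .negSucc 177, .negSucc 163, .negSucc 92, .negSucc 19⟩, .ofNat 809, .ofNat 738, .ofNat 0, .ofNat 738, .ofNat 1887, .ofNat 0, .ofNat 326, .negSucc 344, .negSucc 383, .ofNat 0, .ofNat 284, .ofNat 180, .ofNat 0, .ofNat 0, .ofNat 922, .ofNat 6654, .ofNat 0, .ofNat 0, .ofNat 42433803070456407913267200, .ofNat 0, .ofNat 0, .ofNat 0, .ofNat 0, .ofNat 0, .ofNat 0, .ofNat 0, .ofNat 17510297034771477413285068800, .ofNat 0, .ofNat 0, .ofNat 0, .ofNat 19545149516586915724473139200,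 .ofNat 0⟩)
    (by decide +kernel)
theorem L00056 : Good (Phi V4.P V4.D 1 (-1)) ⟨1, 0, 1, 0, 2, 2, 2, 1, 4, 0⟩ :=
  leaf_sound (S := T4.ds_pm) T4.ok_pm (w := 160) (c := ⟨⟨.negSucc 38, .negSucc 381, .ofNat 73, .ofNat 21, .negSucc 89, .negSucc 209⟩, ⟨.negSucc 98, .ofNat 136, .ofNat 136, .negSucc 10, .ofNat 7, .ofNat 73⟩, ⟨.ofNat 207, .ofNat 441, .negSucc 108, .negSucc 59, .negSucc 123, .ofNat 92⟩, ⟨.negSucc 304, .negSucc 580, .ofNat 82, .ofNat 72, .negSucc 281, .negSucc 577⟩, ⟨.negSucc 359, .ofNat 541, .negSucc 56, .ofNat 44, .negSucc 234, .ofNat 15⟩, .ofNat 400, .ofNat 106, .ofNat 0, .ofNat 106, .ofNat 683, .ofNat 0, .ofNat 318, .negSucc 113, .negSucc 306, .ofNat 0, .ofNat 205, .ofNat 107, .ofNat 0, .ofNat 0, .ofNat 518, .ofNat 2564, .ofNat 0, .ofNat 0, .ofNat 0, .ofNat 0, .ofNat 0, .ofNat 0, .ofNat 0, .ofNat 0, .ofNat 0, .ofNat 0,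 .ofNat 0, .ofNat 0, .ofNat 0, .ofNat 0, .ofNat 0, .ofNat 0⟩)
    (by decide +kernel)
theorem L00057 : Good (Phi V4.P V4.D 1 (-1)) ⟨1, 0, 1, 0, 2, 3, 2, 1, 4, 0⟩ :=
  leaf_sound (S := T4.ds_pm) T4.ok_pm (w := 160) (c := ⟨⟨.ofNat 103, .negSucc 363, .ofNat 51, .negSucc 14, .negSucc 88, .negSucc 402⟩, ⟨.negSucc 138, .ofNat 139, .ofNat 137, .ofNat 9, .ofNat 11, .ofNat 120⟩, ⟨.ofNat 191, .ofNat 213, .negSucc 141, .negSucc 98, .negSucc 57, .ofNat 150⟩, ⟨.ofNat 0, .negSucc 480, .ofNat 105, .ofNat 103, .negSucc 311, .negSucc 1049⟩, ⟨.negSucc 476, .ofNat 814, .negSucc 7, .ofNat 344, .negSucc 265, .ofNat 24⟩, .ofNat 401, .ofNat 104, .ofNat 0, .ofNat 104, .ofNat 676, .ofNat 0, .ofNat 766, .negSucc 305, .negSucc 603, .ofNat 0, .ofNat 456, .ofNat 186, .ofNat 0, .ofNat 0, .ofNat 986, .ofNat 1724, .ofNat 0, .ofNat 0, .ofNat 0, .ofNat 0, .ofNat 0,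 .ofNat 0, .ofNat 0, .ofNat 0, .ofNat 0, .ofNat 0, .ofNat 0, .ofNat 0, .ofNat 0, .ofNat 0, .ofNat 0, .ofNat 0⟩)
    (by decide +kernel)
theorem L00058 : Good (Phi V4.P V4.D 1 (-1)) ⟨1, 0, 1, 0, 2, 2, 2, 1, 4, 1⟩ :=
  leaf_sound (S := T4.ds_pm) T4.ok_pm (w := 160) (c := ⟨⟨.negSucc 189, .negSucc 481, .ofNat 91, .negSucc 121, .negSucc 16, .negSucc 165⟩, ⟨.negSucc 97, .ofNat 114, .ofNat 245, .ofNat 37, .negSucc 4, .ofNat 39⟩, ⟨.ofNat 288, .ofNat 465, .negSucc 113, .ofNat 3, .negSucc 158, .ofNat 58⟩, ⟨.negSucc 743, .negSucc 722, .ofNat 77, .negSucc 289, .negSucc 97, .negSucc 456⟩, ⟨.negSucc 405, .ofNat 598, .negSucc 51, .ofNat 77, .negSucc 227, .ofNat 6⟩, .ofNat 395, .ofNat 98, .ofNat 0, .ofNat 98, .ofNat 688, .ofNat 0, .ofNat 314, .negSucc 107, .negSucc 293, .ofNat 0, .ofNat 199, .ofNat 102, .ofNat 0, .ofNat 0, .ofNat 513, .ofNat 2241,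 .ofNat 0, .ofNat 0, .ofNat 0, .ofNat 0, .ofNat 0, .ofNat 0, .ofNat 0, .ofNat 0, .ofNat 0, .ofNat 0, .ofNat 0, .ofNat 0, .ofNat 0, .ofNat 0, .ofNat 0, .ofNat 0⟩)
    (by decide +kernel)
theorem L00059 : Good (Phi V4.P V4.D 1 (-1)) ⟨1, 0, 1, 0, 2, 3, 2, 1, 4, 1⟩ :=
  leaf_sound (S := T4.ds_pm) T4.ok_pm (w := 160) (c := ⟨⟨.negSucc 39, .negSucc 670, .negSucc 1, .negSucc 192, .negSucc 39, .negSucc 397⟩, ⟨.negSucc 184, .ofNat 199, .ofNat 324, .ofNat 88, .negSucc 5, .ofNat 126⟩, ⟨.ofNat 260, .ofNat 306, .negSucc 137, .negSucc 66, .negSucc 5, .ofNat 153⟩, ⟨.negSucc 607, .negSucc 915, .ofNat 19, .negSucc 407, .negSucc 110, .negSucc 1021⟩, ⟨.negSucc 678, .ofNat 1157, .negSucc 46, .ofNat 428, .negSucc 255, .ofNat 140⟩, .ofNat 401, .ofNat 112, .ofNat 0, .ofNat 112, .ofNat 681, .ofNat 0, .ofNat 758, .negSucc 378, .negSucc 576, .ofNat 0, .ofNat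 477, .ofNat 193, .ofNat 0, .ofNat 0, .ofNat 971, .ofNat 1806, .ofNat 0, .ofNat 0, .ofNat 0, .ofNat 0, .ofNat 0, .ofNat 0, .ofNat 0, .ofNat 0, .ofNat 0, .ofNat 0, .ofNat 0, .ofNat 0, .ofNat 0, .ofNat 0, .ofNat 0, .ofNat 0⟩)
    (by decide +kernel)
theorem L00060 : Good (Phi V4.P V4.D 1 (-1)) ⟨1, 0, 2, 2, 2, 2, 2, 1, 3, 0⟩ :=
  leaf_sound (S := T4.ds_pm) T4.ok_pm (w := 160) (c := ⟨⟨.ofNat 139, .negSucc 536, .ofNat 105, .negSucc 76, .negSucc 33, .negSucc 423⟩, ⟨.negSucc 54, .ofNat 214, .ofNat 103, .ofNat 34, .ofNat 15, .ofNat 218⟩, ⟨.ofNat 59, .ofNat 484, .negSucc 59, .negSucc 51, .negSucc 117, .ofNat 193⟩, ⟨.negSucc 66, .negSucc 730, .ofNat 7, .negSucc 132, .negSucc 212, .negSucc 1122⟩, ⟨.negSucc 481, .ofNat 626, .negSucc 175, .ofNat 103, .negSucc 222, .ofNat 30⟩, .ofNat 840, .ofNat 739, .ofNat 0, .ofNat 739, .ofNat 1826, .ofNat 0,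 .ofNat 393, .negSucc 466, .negSucc 470, .ofNat 0, .ofNat 364, .ofNat 245, .ofNat 0, .ofNat 0, .ofNat 932, .ofNat 4432, .ofNat 0, .ofNat 0, .ofNat 64252975854711488707244851200, .ofNat 0, .ofNat 0, .ofNat 0, .ofNat 36412888200351512993207628595200, .ofNat 0, .ofNat 0, .ofNat 0, .ofNat 33029058968035409163251928268800, .ofNat 0, .ofNat 0, .ofNat 0, .ofNat 0, .ofNat 0⟩)
    (by decide +kernel)
theorem L00061 : Good (Phi V4.P V4.D 1 (-1)) ⟨1, 0, 2, 2, 2, 3, 2, 1, 3, 0⟩ :=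
  leaf_sound (S := T4.ds_pm) T4.ok_pm (w := 160) (c := ⟨⟨.ofNat 352, .negSucc 651, .ofNat 175, .negSucc 88, .negSucc 29, .negSucc 900⟩, ⟨.negSucc 140, .ofNat 246, .ofNat 55, .ofNat 49, .ofNat 10, .ofNat 455⟩, ⟨.negSucc 8, .ofNat 267, .negSucc 158, .negSucc 170, .ofNat 6, .ofNat 387⟩, ⟨.ofNat 284, .negSucc 732, .ofNat 286, .ofNat 24, .negSucc 219, .negSucc 2256⟩, ⟨.negSucc 740, .ofNat 1060, .negSucc 178, .ofNat 475, .negSucc 264, .ofNat 210⟩, .ofNat 844, .ofNat 751, .ofNat 0, .ofNat 751, .ofNat 1850, .ofNat 0, .ofNat 444, .negSucc 594, .negSucc 445, .ofNat 0, .ofNat 429, .ofNat 226, .ofNat 0, .ofNat 0, .ofNat 910, .ofNat 3047, .ofNat 0, .ofNat 0, .ofNat 104460559358695768158791270400, .ofNat 0, .ofNat 0, .ofNat 0, .ofNat 0, .ofNat 0, .ofNat 0, .ofNat 0, .ofNat 24561203727628042205445645926400, .ofNat 0, .ofNat 0, .ofNat 0, .ofNat 31079276448448793603074110259200,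 .ofNat 0⟩)
    (by decide +kernel)
theorem L00062 : Good (Phi V4.P V4.D 1 (-1)) ⟨1, 0, 2, 3, 1, 1, 2, 1, 3, 0⟩ :=
  out_sound (S := T4.ds_pm) T4.ok_pm (w := 32) (j := 3) (by decide +kernel)
theorem L00063 : Good (Phi V4.P V4.D 1 (-1)) ⟨2, 0, 1, 0, 2, 2, 2, 1, 3, 1⟩ :=
  leaf_sound (S := T4.ds_pm) T4.ok_pm (w := 160) (c := ⟨⟨.negSucc 397, .negSucc 153, .ofNat 56, .negSucc 166, .ofNat 49, .negSucc 118⟩, ⟨.negSucc 90, .ofNat 106, .ofNat 277, .ofNat 49, .negSucc 23, .ofNat 33⟩, ⟨.ofNat 359, .ofNat 147, .negSucc 39, .ofNat 62, .negSucc 193, .negSucc 3⟩, ⟨.negSucc 1251, .negSucc 261, .negSucc 19, .negSucc 488, .ofNat 114, .negSucc 347⟩, ⟨.negSucc 383, .ofNat 260, .negSucc 22, .negSucc 22, .negSucc 157, .negSucc 30⟩, .ofNat 409, .ofNat 84, .ofNat 0, .ofNat 84, .ofNat 647, .ofNat 0, .ofNat 558, .negSucc 161, .negSucc 433, .ofNat 0, .ofNat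 383, .ofNat 166, .ofNat 0, .ofNat 0, .ofNat 950, .ofNat 5866, .ofNat 0, .ofNat 0, .ofNat 0, .ofNat 0, .ofNat 0, .ofNat 0, .ofNat 0, .ofNat 0, .ofNat 0, .ofNat 0, .ofNat 0, .ofNat 0, .ofNat 0, .ofNat 0, .ofNat 0, .ofNat 0⟩)
    (by decide +kernel)
theorem L00064 : Good (Phi V4.P V4.D 1 (-1)) ⟨2, 1, 1, 0, 2, 2, 2, 1, 3, 1⟩ :=
  leaf_sound (S := T4.ds_pm) T4.ok_pm (w := 160) (c := ⟨⟨.negSucc 418, .negSucc 435, .negSucc 17, .negSucc 315, .ofNat 41, .negSucc 144⟩, ⟨.negSucc 56, .ofNat 48, .ofNat 365, .ofNat 94, .negSucc 23, .ofNat 43⟩, ⟨.ofNat 474, .ofNat 284, .negSucc 28, .ofNat 75, .negSucc 134, .negSucc 28⟩, ⟨.negSucc 1358, .negSucc 513, .negSucc 56, .negSucc 692, .ofNat 59, .negSucc 371⟩, ⟨.negSucc 270, .ofNat 401, .ofNat 1, .ofNat 271, .negSucc 186, .negSucc 19⟩, .ofNat 384, .ofNat 113, .ofNat 0, .ofNat 113, .ofNat 722, .ofNat 0,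 .ofNat 589, .negSucc 232, .negSucc 510, .ofNat 0, .ofNat 367, .ofNat 184, .ofNat 0, .ofNat 0, .ofNat 970, .ofNat 5325, .ofNat 0, .ofNat 0, .ofNat 0, .ofNat 0, .ofNat 0, .ofNat 0, .ofNat 0, .ofNat 0, .ofNat 0, .ofNat 0, .ofNat 0, .ofNat 0, .ofNat 0, .ofNat 0, .ofNat 0, .ofNat 0⟩)
    (by decide +kernel)

end Crest.Agent.R097C4.N4pm
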