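import Crest.Agent.R097.T4

/-!
# Row 97, box cover in dimension n = 4 (generated)
-/

set_option autoImplicit false
set_option Elab.async false
set_option maxHeartbeats 0
set_option maxRecDepth 100000

open Crest.Agent.R097 Crest.Agent.R097.KA


namespace Crest.Agent.R097C4.N4pp

theorem L00062 : Good (Phi V4.P V4.D 1 1) ⟨2, 0, 3, 3, 2, 3, 1, 0, 3, 0⟩ :=
  leaf_sound (S := T4.ds_pp) T4.ok_pp (w := 168) (c := ⟨⟨.ofNat 241, .negSucc 238, .negSucc 187, .negSucc 18, .negSucc 376, .negSucc 689⟩, ⟨.ofNat 95, .negSucc 52, .negSucc 98, .ofNat 0, .negSucc 173, .negSucc 267⟩, ⟨.ofNat 314, .ofNat 241, .ofNat 158, .negSucc 29, .negSucc 184, .ofNat 306⟩, ⟨.ofNat 699, .negSucc 764, .negSucc 525, .negSucc 99, .negSucc 931, .negSucc 2021⟩, ⟨.ofNat 61, .ofNat 107, .negSucc 46, .ofNat 120, .negSucc 523, .negSucc 122⟩, .ofNat 1369, .negSucc 1591, .ofNat 0, .negSucc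 1591, .ofNat 4211, .ofNat 0, .ofNat 426, .ofNat 436, .negSucc 293, .ofNat 0, .ofNat 310, .negSucc 105, .ofNat 0, .ofNat 0, .ofNat 894, .ofNat 3249, .ofNat 3423642685878938953824652492800, .ofNat 0, .ofNat 1840295050736711613441638400, .ofNat 0, .ofNat 0, .ofNat 0, .ofNat 1827241011132909517856047104000, .ofNat 0, .ofNat 0, .ofNat 0, .ofNat 2098109577405940077728209305600, .ofNat 0, .ofNat 0, .ofNat 0, .ofNat 0, .ofNat 0⟩)
    (by decide +kernel)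
theorem L00063 : Good (Phi V4.P V4.D 1 1) ⟨2, 0, 2, 1, 2, 3, 2, 2, 3, 0⟩ :=
  leaf_sound (S := T4.ds_pp) T4.ok_pp (w := 168) (c := ⟨⟨.negSucc 237, .negSucc 22, .negSucc 48, .negSucc 95, .negSucc 87, .negSucc 383⟩, ⟨.negSucc 113, .ofNat 81, .negSucc 117, .negSucc 0, .negSucc 25, .negSucc 95⟩, ⟨.ofNat 112, .ofNat 105, .ofNat 26, .ofNat 127, .negSucc 83, .ofNat 169⟩, ⟨.negSucc 557, .negSucc 121, .negSucc 15, .negSucc 359, .negSucc 254, .negSucc 1165⟩, ⟨.negSucc 665, .ofNat 343, .negSucc 35, .ofNat 293, .negSucc 23, .ofNat 82⟩, .ofNat 647, .negSucc 294, .ofNat 0, .negSucc 294, .ofNat 1438, .ofNat 0, .ofNat 611, .ofNat 318, .negSucc 417, .ofNat 0, .ofNat 364, .negSucc 40, .ofNat 0, .ofNat 0, .ofNat 1015, .ofNat 4513, .ofNat 0, .ofNat 0, .ofNat 0, .ofNat 0, .ofNat 0, .ofNat 0, .ofNat 0, .ofNat 0, .ofNat 0, .ofNat 0, .ofNat 4632695241898413713284870963200,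 .ofNat 0, .ofNat 0, .ofNat 0, .ofNat 0, .ofNat 0⟩)
    (by decide +kernel)
theorem L00064 : Good (Phi V4.P V4.D 1 1) ⟨2, 0, 2, 1, 2, 3, 2, 3, 3, 0⟩ :=
  leaf_sound (S := T4.ds_pp) T4.ok_pp (w := 168) (c := ⟨⟨.negSucc 386, .negSucc 22, .negSucc 39, .negSucc 113, .negSucc 77, .negSucc 247⟩, ⟨.negSucc 174, .ofNat 103, .negSucc 141, .ofNat 13, .ofNat 10, .negSucc 46⟩, ⟨.negSucc 14, .ofNat 115, .negSucc 26, .ofNat 251, .negSucc 12, .ofNat 142⟩, ⟨.negSucc 920, .negSucc 157, .negSucc 10, .negSucc 487, .negSucc 341, .negSucc 796⟩, ⟨.negSucc 996, .ofNat 566, .negSucc 35, .ofNat 570, .ofNat 416, .ofNat 236⟩, .ofNat 847, .negSucc 600, .ofNat 0, .negSucc 600, .ofNat 2441, .ofNat 0, .ofNat 299, .ofNat 208, .negSucc 215, .ofNat 0, .ofNat 182, .negSucc 33, .ofNat 0, .ofNat 0, .ofNat 518, .ofNat 1054, .ofNat 0, .ofNat 0, .ofNat 0, .ofNat 0, .ofNat 0, .ofNat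 0, .ofNat 0, .ofNat 0, .ofNat 0, .ofNat 0, .ofNat 0, .ofNat 0, .ofNat 0, .ofNat 0, .ofNat 0, .ofNat 0⟩)
    (by decide +kernel)
theorem L00065 : Good (Phi V4.P V4.D 1 1) ⟨2, 1, 2, 1, 2, 3, 0, 0, 3, 0⟩ :=
  out_sound (S := T4.ds_pp) T4.ok_pp (w := 40) (j := 3) (by decide +kernel)
theorem L00066 : Good (Phi V4.P V4.D 1 1) ⟨2, 0, 2, 1, 2, 3, 1, 0, 3, 1⟩ :=
  leaf_sound (S := T4.ds_pp) T4.ok_pp (w := 160) (c := ⟨⟨.negSucc 560, .negSucc 49, .negSucc 9, .negSucc 182, .negSucc 10, .negSucc 190⟩, ⟨.negSucc 149, .ofNat 95, .negSucc 184, .negSucc 33, .negSucc 35, .negSucc 56⟩, ⟨.ofNat 641, .ofNat 68, .ofNat 69, .ofNat 2, .negSucc 298, .ofNat 8⟩, ⟨.negSucc 1655, .negSucc 197, .ofNat 32, .negSucc 599, .ofNat 85, .negSucc 554⟩, ⟨.negSucc 128, .ofNat 446, .negSucc 39, .ofNat 210, .negSucc 436, .negSucc 69⟩, .ofNat 856, .negSucc 620, .ofNat 0, .negSucc 620,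 .ofNat 2457, .ofNat 0, .ofNat 473, .ofNat 267, .negSucc 220, .ofNat 0, .ofNat 266, .negSucc 39, .ofNat 0, .ofNat 0, .ofNat 903, .ofNat 3059, .ofNat 885621314438829260121990758400, .ofNat 0, .ofNat 1467209162100850512887808000, .ofNat 0, .ofNat 0, .ofNat 0, .ofNat 276997374286980635929293619200, .ofNat 0, .ofNat 159171000827113374823858411929600, .ofNat 0, .ofNat 456591682618625451797721907200, .ofNat 0, .ofNat 0, .ofNat 0, .ofNat 0, .ofNat 0⟩)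
    (by decide +kernel)
theorem L00067 : Good (Phi V4.P V4.D 1 1) ⟨2, 1, 2, 1, 2, 3, 1, 0, 3, 1⟩ :=
  out_sound (S := T4.ds_pp) T4.ok_pp (w := 40) (j := 3) (by decide +kernel)
theorem L00068 : Good (Phi V4.P V4.D 1 1) ⟨2, 0, 2, 1, 2, 3, 2, 2, 3, 1⟩ :=
  leaf_sound (S := T4.ds_pp) T4.ok_pp (w := 168) (c := ⟨⟨.negSucc 596, .negSucc 82, .negSucc 16, .negSucc 202, .ofNat 18, .negSucc 94⟩, ⟨.negSucc 203, .ofNat 101, .negSucc 166, .negSucc 33, .ofNat 9, .negSucc 24⟩, ⟨.ofNat 266, .ofNat 111, .ofNat 6, .ofNat 163, .negSucc 96, .ofNat 2⟩, ⟨.negSucc 1623, .negSucc 305, .ofNat 23, .negSucc 682, .ofNat 38, .negSucc 289⟩, ⟨.negSucc 692, .ofNat 535, .ofNat 67, .ofNat 300, .ofNat 59, .ofNat 3⟩, .ofNat 648, .negSucc 296, .ofNat 0, .negSucc 296, .ofNat 1440, .ofNat 0, .ofNat 554, .ofNat 256, .negSucc 316, .ofNat 0, .ofNat 327, .negSucc 28, .ofNat 0, .ofNat 0,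 .ofNat 949, .ofNat 7860, .ofNat 0, .ofNat 0, .ofNat 0, .ofNat 0, .ofNat 0, .ofNat 0, .ofNat 5228713942711870688868276633600, .ofNat 0, .ofNat 0, .ofNat 0, .ofNat 3627711476374074868935268761600, .ofNat 0, .ofNat 0, .ofNat 52826939672334653841065430220800, .ofNat 6276962494190938396647908966400, .ofNat 0⟩)
    (by decide +kernel)
theorem L00069 : Good (Phi V4.P V4.D 1 1) ⟨2, 0, 2, 1, 3, 6, 2, 3, 3, 1⟩ :=
  leaf_sound (S := T4.ds_pp) T4.ok_pp (w := 176) (c := ⟨⟨.negSucc 590, .negSucc 65, .negSucc 30, .negSucc 119, .ofNat 50, .negSucc 45⟩, ⟨.negSucc 202, .ofNat 94, .negSucc 152, .negSucc 20, .ofNat 35, .negSucc 5⟩, ⟨.ofNat 144, .ofNat 76, .negSucc 19, .ofNat 127, .negSucc 107, .ofNat 7⟩, ⟨.negSucc 1624, .negSucc 239, .ofNat 20, .negSucc 391, .ofNat 73, .negSucc 160⟩, ⟨.negSucc 644, .ofNat 452, .negSucc 6, .ofNat 153, .ofNat 281, .ofNat 78⟩, .ofNat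 649, .negSucc 297, .ofNat 0, .negSucc 297, .ofNat 1434, .ofNat 0, .ofNat 575, .ofNat 291, .negSucc 393, .ofNat 0, .ofNat 350, .negSucc 53, .ofNat 0, .ofNat 0, .ofNat 973, .ofNat 6096, .ofNat 0, .ofNat 0, .ofNat 0, .ofNat 0, .ofNat 0, .ofNat 30815769064486530861260789199667200, .ofNat 0, .ofNat 0, .ofNat 0, .ofNat 39178874312629501148511356112076800, .ofNat 1789154703898481690393425477632000, .ofNat 0, .ofNat 0, .ofNat 35287940666544507875870850731212800, .ofNat 1789196762828175696126376987852800, .ofNat 0⟩)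
    (by decide +kernel)
theorem L00070 : Good (Phi V4.P V4.D 1 1) ⟨2, 0, 2, 1, 3, 7, 2, 3, 3, 1⟩ :=
  leaf_sound (S := T4.ds_pp) T4.ok_pp (w := 176) (c := ⟨⟨.negSucc 678, .negSucc 105, .negSucc 11, .negSucc 112, .ofNat 18, .negSucc 97⟩, ⟨.negSucc 214, .ofNat 103, .negSucc 182, .negSucc 4, .ofNat 33, .negSucc 22⟩, ⟨.ofNat 228, .ofNat 159, .negSucc 30, .ofNat 155, .negSucc 37, .ofNat 28⟩, ⟨.negSucc 1904, .negSucc 378, .ofNat 30, .negSucc 426, .negSucc 53, .negSucc 305⟩, ⟨.negSucc 586, .ofNat 695, .negSucc 18, .ofNat 358, .ofNat 432, .ofNat 65⟩, .ofNat 648, .negSucc 299, .ofNat 0, .negSucc 299, .ofNat 1451, .ofNat 0, .ofNat 626, .ofNat 332, .negSucc 395, .ofNat 0, .ofNat 376, .negSucc 38, .ofNat 0, .ofNat 0, .ofNat 996, .ofNat 4187, .ofNat 0, .ofNat 0, .ofNat 0, .ofNat 0, .ofNat 0, .ofNat 45440338467050498690480760422400000, .ofNat 0, .ofNat 0,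 .ofNat 0, .ofNat 14088102308662649740714195078348800, .ofNat 830930791500180244531646772019200, .ofNat 0, .ofNat 0, .ofNat 42706668341826193079634333637017600, .ofNat 0, .ofNat 0⟩)
    (by decide +kernel)
theorem L00071 : Good (Phi V4.P V4.D 1 1) ⟨2, 1, 2, 1, 2, 3, 1, 1, 3, 1⟩ :=
  out_sound (S := T4.ds_pp) T4.ok_pp (w := 40) (j := 3) (by decide +kernel)
theorem L00072 : Good (Phi V4.P V4.D 1 1) ⟨2, 0, 2, 1, 2, 3, 1, 0, 2, 1⟩ :=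
  leaf_sound (S := T4.ds_pp) T4.ok_pp (w := 160) (c := ⟨⟨.negSucc 768, .negSucc 80, .negSucc 23, .negSucc 193, .ofNat 76, .ofNat 8⟩, ⟨.negSucc 220, .ofNat 105, .negSucc 181, .negSucc 38, .negSucc 2, .negSucc 20⟩, ⟨.ofNat 701, .negSucc 26, .ofNat 23, .negSucc 21, .negSucc 330, .negSucc 297⟩, ⟨.negSucc 2270, .negSucc 246, .ofNat 24, .negSucc 616, .ofNat 328, .ofNat 110⟩, ⟨.negSucc 258, .ofNat 469, .ofNat 30, .ofNat 187, .negSucc 348, .negSucc 314⟩, .ofNat 417, .negSucc 96, .ofNat 0, .negSucc 96, .ofNat 668, .ofNat 0, .ofNat 530, .ofNat 91, .negSucc 239, .ofNat 0, .ofNat 340, .ofNat 15, .ofNat 0, .ofNat 0, .ofNat 934, .ofNat 3120, .ofNat 230551576645211237901769113600, .ofNat 16658526614145176165783961600, .ofNat 91995535537678942175232000, .ofNat 0, .ofNat 0, .ofNat 7338065055899788909696411238400, .ofNat 0, .ofNat 0, .ofNat 0, .ofNat 0, .ofNat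 0, .ofNat 0, .ofNat 0, .ofNat 22569161224719892829858640691200, .ofNat 0, .ofNat 0⟩)
    (by decide +kernel)
theorem L00073 : Good (Phi V4.P V4.D 1 1) ⟨2, 0, 2, 1, 2, 3, 1, 1, 2, 1⟩ :=
  leaf_sound (S := T4.ds_pp) T4.ok_pp (w := 160) (c := ⟨⟨.negSucc 690, .negSucc 82, .negSucc 34, .negSucc 198, .ofNat 117, .ofNat 45⟩, ⟨.negSucc 226, .ofNat 102, .negSucc 170, .negSucc 39, .ofNat 33, .ofNat 8⟩, ⟨.ofNat 291, .ofNat 59, .ofNat 17, .ofNat 141, .negSucc 252, .negSucc 131⟩, ⟨.negSucc 1925, .negSucc 291, .ofNat 13, .negSucc 639, .ofNat 331, .ofNat 143⟩, ⟨.negSucc 619, .ofNat 476, .ofNat 26, .ofNat 190, .ofNat 25, .negSucc 80⟩, .ofNat 648, .negSucc 296, .ofNat 0, .negSucc 296, .ofNat 1438, .ofNat 0, .ofNat 477, .ofNat 208, .negSucc 251, .ofNat 0, .ofNat 287, .negSucc 22, .ofNat 0, .ofNat 0, .ofNat 902, .ofNat 4560, .ofNat 0, .ofNat 0, .ofNat 0, .ofNat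 0, .ofNat 0, .ofNat 51896253582949366145470169088000, .ofNat 0, .ofNat 0, .ofNat 0, .ofNat 52581883870322713860823528243200, .ofNat 27809224059783795336806400000, .ofNat 0, .ofNat 0, .ofNat 70840136179182325199565068697600, .ofNat 17666575245505885153473331200, .ofNat 0⟩)
    (by decide +kernel)
theorem L00074 : Good (Phi V4.P V4.D 1 1) ⟨2, 1, 2, 1, 2, 3, 0, 0, 2, 1⟩ :=
  out_sound (S := T4.ds_pp) T4.ok_pp (w := 40) (j := 3) (by decide +kernel)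
theorem L00075 : Good (Phi V4.P V4.D 1 1) ⟨1, 0, 1, 0, 2, 0, 1, 0, 2, 2⟩ :=
  leaf_sound (S := T4.ds_pp) T4.ok_pp (w := 152) (c := ⟨⟨.negSucc 347, .negSucc 199, .negSucc 52, .negSucc 47, .ofNat 56, .ofNat 79⟩, ⟨.ofNat 36, .ofNat 11, .negSucc 183, .negSucc 13, .negSucc 25, .negSucc 0⟩, ⟨.ofNat 172, .ofNat 154, .ofNat 30, .negSucc 12, .negSucc 179, .negSucc 86⟩, ⟨.negSucc 1284, .negSucc 164, .negSucc 28, .negSucc 106, .ofNat 298, .ofNat 207⟩, ⟨.negSucc 38, .ofNat 25, .ofNat 4, .negSucc 196, .ofNat 24, .ofNat 0⟩, .ofNat 382, .negSucc 16, .ofNat 0, .negSucc 16, .ofNat 728, .ofNat 0, .ofNat 338, .ofNat 15, .negSucc 225, .ofNat 0, .ofNat 216, .negSucc 0, .ofNat 0, .ofNat 0, .ofNat 728, .ofNat 20376, .ofNat 114794204409324505692477849600, .ofNat 0, .ofNat 1055025769019750364060057600, .ofNat 0, .ofNat 1619825035059690964013128089600, .ofNat 0, .ofNat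 0, .ofNat 0, .ofNat 1649964876832855213464983961600, .ofNat 0, .ofNat 0, .ofNat 0, .ofNat 3701423746160244208806395904000, .ofNat 0, .ofNat 0, .ofNat 0⟩)
    (by decide +kernel)
theorem L00076 : Good (Phi V4.P V4.D 1 1) ⟨1, 0, 1, 0, 2, 1, 1, 0, 2, 2⟩ :=
  leaf_sound (S := T4.ds_pp) T4.ok_pp (w := 152) (c := ⟨⟨.negSucc 411, .negSucc 238, .negSucc 62, .negSucc 71, .ofNat 73, .ofNat 91⟩, ⟨.negSucc 30, .ofNat 47, .negSucc 190, .negSucc 3, .ofNat 4, .ofNat 15⟩, ⟨.ofNat 170, .ofNat 105, .ofNat 14, .ofNat 0, .negSucc 127, .negSucc 131⟩, ⟨.negSucc 1342, .negSucc 271, .negSucc 31, .negSucc 228, .ofNat 270, .ofNat 234⟩, ⟨.negSucc 324, .ofNat 152, .ofNat 25, .negSucc 126, .ofNat 41, .ofNat 43⟩, .ofNat 384, .negSucc 25, .ofNat 0, .negSucc 25, .ofNat 715, .ofNat 0, .ofNat 341, .ofNat 23, .negSucc 203, .ofNat 0, .ofNat 220, .ofNat 9, .ofNat 0, .ofNat 0, .ofNat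 729, .ofNat 8265, .ofNat 50910910277349088462425292800, .ofNat 0, .ofNat 624693564975367300055040000, .ofNat 0, .ofNat 0, .ofNat 0, .ofNat 0, .ofNat 0, .ofNat 0, .ofNat 0, .ofNat 0, .ofNat 0, .ofNat 2994592504285905540565539225600, .ofNat 0, .ofNat 0, .ofNat 0⟩)
    (by decide +kernel)
theorem L00077 : Good (Phi V4.P V4.D 1 1) ⟨1, 0, 1, 0, 1, 1, 1, 0, 2, 2⟩ :=
  leaf_sound (S := T4.ds_pp) T4.ok_pp (w := 144) (c := ⟨⟨.negSucc 463, .negSucc 302, .negSucc 109, .negSucc 255, .ofNat 60, .ofNat 156⟩, ⟨.negSucc 31, .ofNat 75, .negSucc 250, .ofNat 0, .negSucc 5, .ofNat 6⟩, ⟨.ofNat 186, .ofNat 95, .ofNat 62, .ofNat 79, .negSucc 123, .negSucc 243⟩, ⟨.negSucc 1558, .negSucc 352, .negSucc 39, .negSucc 631, .ofNat 247, .ofNat 381⟩, ⟨.negSucc 502, .ofNat 325, .ofNat 16, .negSucc 67, .ofNat 33, .negSucc 18⟩, .ofNat 187, .negSucc 0, .ofNat 0, .negSucc 0, .ofNat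 242, .ofNat 0, .ofNat 489, .negSucc 10, .negSucc 403, .ofNat 0, .ofNat 390, .ofNat 114, .ofNat 0, .ofNat 0, .ofNat 911, .ofNat 1795, .ofNat 119855479714143061789900800, .ofNat 28488986197259815968768000, .ofNat 562765410348700329676800, .ofNat 0, .ofNat 0, .ofNat 4875722904039370064186572800, .ofNat 0, .ofNat 0, .ofNat 0, .ofNat 7728150610172724930360115200, .ofNat 0, .ofNat 0, .ofNat 16107202235197275013487001600, .ofNat 4176761694211160542701158400, .ofNat 46923423505058296627200000, .ofNat 0⟩)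
    (by decide +kernel)
theorem L00078 : Good (Phi V4.P V4.D 1 1) ⟨1, 0, 1, 0, 1, 0, 1, 0, 2, 3⟩ :=
  out_sound (S := T4.ds_pp) T4.ok_pp (w := 24) (j := 1) (by decide +kernel)
theorem L00079 : Good (Phi V4.P V4.D 1 1) ⟨1, 0, 1, 0, 1, 1, 1, 0, 2, 3⟩ :=
  out_sound (S := T4.ds_pp) T4.ok_pp (w := 24) (j := 2) (by decide +kernel)
theorem L00080 : Good (Phi V4.P V4.D 1 1) ⟨2, 0, 1, 0, 3, 0, 2, 2, 3, 4⟩ :=
  leaf_sound (S := T4.ds_pp) T4.ok_pp (w := 176) (c := ⟨⟨.negSucc 335, .negSucc 37, .negSucc 6, .negSucc 13, .ofNat 100, .ofNat 23⟩, ⟨.negSucc 5, .ofNat 25, .negSucc 146, .negSucc 9, .ofNat 8, .ofNat 2⟩, ⟨.ofNat 0, .ofNat 28, .ofNat 1, .ofNat 2, .negSucc 116, .negSucc 7⟩, ⟨.negSucc 1014, .negSucc 45, .negSucc 3, .negSucc 32, .ofNat 289, .ofNat 63⟩, ⟨.negSucc 9, .ofNat 4, .ofNat 0, .negSucc 97, .ofNat 13, .ofNat 4⟩, .ofNat 400, .negSucc 26, .ofNat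 0, .negSucc 26, .ofNat 656, .ofNat 0, .ofNat 338, .ofNat 25, .negSucc 250, .ofNat 0, .ofNat 241, .negSucc 10, .ofNat 0, .ofNat 0, .ofNat 705, .ofNat 25567, .ofNat 0, .ofNat 0, .ofNat 0, .ofNat 0, .ofNat 0, .ofNat 0, .ofNat 0, .ofNat 0, .ofNat 0, .ofNat 0, .ofNat 2012924054265182105750406483148800, .ofNat 0, .ofNat 0, .ofNat 0, .ofNat 0, .ofNat 0⟩)
    (by decide +kernel)
theorem L00081 : Good (Phi V4.P V4.D 1 1) ⟨2, 0, 1, 0, 3, 0, 2, 2, 4, 10⟩ :=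
  leaf_sound (S := T4.ds_pp) T4.ok_pp (w := 176) (c := ⟨⟨.negSucc 313, .negSucc 35, .negSucc 6, .negSucc 14, .ofNat 97, .ofNat 7⟩, ⟨.negSucc 7, .ofNat 20, .negSucc 130, .negSucc 6, .ofNat 9, .ofNat 0⟩, ⟨.negSucc 20, .ofNat 29, .ofNat 4, .ofNat 2, .negSucc 93, .ofNat 1⟩, ⟨.negSucc 948, .negSucc 39, .negSucc 3, .negSucc 36, .ofNat 281, .ofNat 17⟩, ⟨.negSucc 9, .ofNat 3, .ofNat 1, .negSucc 88, .ofNat 10, .ofNat 2⟩, .ofNat 399, .negSucc 30, .ofNat 0, .negSucc 30, .ofNat 665, .ofNat 0, .ofNat 314, .ofNat 27, .negSucc 233, .ofNat 0, .ofNat 222, .negSucc 12, .ofNat 0, .ofNat 0, .ofNat 657, .ofNat 40763, .ofNat 8154063030113984335446759230668800, .ofNat 0, .ofNat 0, .ofNat 0, .ofNat 0, .ofNat 0, .ofNat 0, .ofNat 0, .ofNat 239847496854196717077687357249945600, .ofNat 0, .ofNat 19489035301769319226346375951155200, .ofNat 0, .ofNat 0, .ofNat 0, .ofNat 0,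 .ofNat 0⟩)
    (by decide +kernel)
theorem L00082 : Good (Phi V4.P V4.D 1 1) ⟨2, 0, 1, 0, 3, 0, 2, 2, 4, 11⟩ :=
  leaf_sound (S := T4.ds_pp) T4.ok_pp (w := 184) (c := ⟨⟨.negSucc 304, .negSucc 35, .negSucc 7, .negSucc 17, .ofNat 97, .ofNat 5⟩, ⟨.negSucc 7, .ofNat 16, .negSucc 116, .negSucc 7, .ofNat 9, .ofNat 0⟩, ⟨.negSucc 27, .ofNat 27, .ofNat 5, .ofNat 7, .negSucc 84, .ofNat 6⟩, ⟨.negSucc 926, .negSucc 51, .negSucc 0, .negSucc 43, .ofNat 286, .ofNat 20⟩, ⟨.negSucc 19, .ofNat 4, .ofNat 1, .negSucc 77, .ofNat 19, .ofNat 1⟩, .ofNat 401, .negSucc 35, .ofNat 0, .negSucc 35, .ofNat 662, .ofNat 0, .ofNat 306, .ofNat 30, .negSucc 237, .ofNat 0, .ofNat 217, .negSucc 15, .ofNat 0, .ofNat 0, .ofNat 632, .ofNat 88587, .ofNat 45213227458140944833858090775347200, .ofNat 0, .ofNat 777895263184406018484786639667200, .ofNat 0, .ofNat 330873252627803174509726499497574400,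 .ofNat 0, .ofNat 0, .ofNat 0, .ofNat 718015130257091257703599535082700800, .ofNat 0, .ofNat 16763736534433238793733833071001600, .ofNat 0, .ofNat 568021472035553619230215728896409600, .ofNat 0, .ofNat 0, .ofNat 0⟩)
    (by decide +kernel)
theorem L00083 : Good (Phi V4.P V4.D 1 1) ⟨2, 0, 1, 0, 3, 1, 2, 2, 3, 4⟩ :=
  leaf_sound (S := T4.ds_pp) T4.ok_pp (w := 176) (c := ⟨⟨.negSucc 334, .negSucc 50, .negSucc 31, .negSucc 27, .ofNat 94, .ofNat 26⟩, ⟨.negSucc 18, .ofNat 26, .negSucc 148, .negSucc 12, .ofNat 15, .ofNat 5⟩, ⟨.negSucc 3, .ofNat 22, .ofNat 11, .ofNat 14, .negSucc 102, .negSucc 11⟩, ⟨.negSucc 1016, .negSucc 84, .negSucc 12, .negSucc 70, .ofNat 271, .ofNat 68⟩, ⟨.negSucc 134, .ofNat 19, .negSucc 3, .negSucc 88, .ofNat 40, .ofNat 17⟩, .ofNat 401, .negSucc 40, .ofNat 0, .negSucc 40, .ofNat 663, .ofNat 0, .ofNat 341, .ofNat 38, .negSucc 249,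 .ofNat 0, .ofNat 242, .negSucc 12, .ofNat 0, .ofNat 0, .ofNat 706, .ofNat 28705, .ofNat 0, .ofNat 0, .ofNat 0, .ofNat 0, .ofNat 0, .ofNat 0, .ofNat 0, .ofNat 0, .ofNat 0, .ofNat 0, .ofNat 1969529086320461665216352590233600, .ofNat 0, .ofNat 0, .ofNat 0, .ofNat 0, .ofNat 0⟩)
    (by decide +kernel)
theorem L00084 : Good (Phi V4.P V4.D 1 1) ⟨2, 0, 1, 0, 3, 1, 2, 2, 3, 5⟩ :=
  leaf_sound (S := T4.ds_pp) T4.ok_pp (w := 176) (c := ⟨⟨.negSucc 310, .negSucc 49, .negSucc 25, .negSucc 23, .ofNat 84, .ofNat 17⟩, ⟨.negSucc 21, .ofNat 26, .negSucc 133, .negSucc 7, .ofNat 14, .ofNat 0⟩, ⟨.negSucc 26, .ofNat 22, .ofNat 13, .ofNat 9, .negSucc 76, .ofNat 2⟩, ⟨.negSucc 938, .negSucc 95, .negSucc 9, .negSucc 64, .ofNat 247, .ofNat 47⟩, ⟨.negSucc 131, .ofNat 24, .ofNat 2, .negSucc 77, .ofNat 41, .ofNat 11⟩, .ofNat 401, .negSucc 33, .ofNat 0, .negSucc 33, .ofNat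 660, .ofNat 0, .ofNat 311, .ofNat 29, .negSucc 224, .ofNat 0, .ofNat 221, .negSucc 11, .ofNat 0, .ofNat 0, .ofNat 643, .ofNat 35822, .ofNat 4172165154054758954099643147878400, .ofNat 0, .ofNat 37128607411588590615105267302400, .ofNat 0, .ofNat 0, .ofNat 0, .ofNat 0, .ofNat 0, .ofNat 0, .ofNat 0, .ofNat 1491115926075657914945114210304000, .ofNat 0, .ofNat 0, .ofNat 0, .ofNat 0, .ofNat 0⟩)
    (by decide +kernel)
theorem L00085 : Good (Phi V4.P V4.D 1 1) ⟨2, 0, 1, 0, 2, 1, 2, 2, 2, 2⟩ :=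
  leaf_sound (S := T4.ds_pp) T4.ok_pp (w := 160) (c := ⟨⟨.negSucc 334, .negSucc 69, .negSucc 47, .negSucc 94, .ofNat 75, .ofNat 50⟩, ⟨.negSucc 31, .ofNat 39, .negSucc 166, .negSucc 20, .ofNat 18, .ofNat 8⟩, ⟨.negSucc 12, .ofNat 17, .ofNat 13, .ofNat 60, .negSucc 67, .negSucc 19⟩, ⟨.negSucc 1021, .negSucc 137, .ofNat 1, .negSucc 260, .ofNat 210, .ofNat 136⟩, ⟨.negSucc 271, .ofNat 76, .ofNat 4, .negSucc 147, .ofNat 67, .ofNat 38⟩, .ofNat 191, .negSucc 6, .ofNat 0, .negSucc 6, .ofNat 236, .ofNat 0, .ofNat 457, .ofNat 21, .negSucc 505, .ofNat 0, .ofNat 381, .ofNat 16, .ofNat 0, .ofNat 0, .ofNat 862, .ofNat 9945, .ofNat 1207553754647124877113085132800, .ofNat 0, .ofNat 0, .ofNat 0, .ofNat 0, .ofNat 9022247683315742362185813196800, .ofNat 0, .ofNat 0, .ofNat 0, .ofNat 0, .ofNat 0, .ofNat 0, .ofNat 2043429305958474167924608204800, .ofNat 728489444187057719963811840000,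 .ofNat 47592300183365488750048051200, .ofNat 0⟩)
    (by decide +kernel)
theorem L00086 : Good (Phi V4.P V4.D 1 1) ⟨2, 0, 2, 0, 1, 0, 2, 3, 2, 2⟩ :=
  leaf_sound (S := T4.ds_pp) T4.ok_pp (w := 152) (c := ⟨⟨.negSucc 209, .negSucc 58, .negSucc 8, .negSucc 131, .ofNat 204, .ofNat 23⟩, ⟨.negSucc 7, .ofNat 18, .negSucc 47, .negSucc 25, .ofNat 25, .negSucc 0⟩, ⟨.negSucc 147, .ofNat 40, .ofNat 5, .ofNat 91, .negSucc 187, .ofNat 38⟩, ⟨.negSucc 642, .negSucc 131, .negSucc 8, .negSucc 356, .ofNat 591, .ofNat 67⟩, ⟨.negSucc 33, .ofNat 22, .ofNat 4, .negSucc 248, .ofNat 44, .ofNat 7⟩, .ofNat 586, .negSucc 97, .ofNat 0, .negSucc 97, .ofNat 1379, .ofNat 0, .ofNat 321, .ofNat 46, .negSucc 248, .ofNat 0, .ofNat 188, .negSucc 20, .ofNat 0, .ofNat 0, .ofNat 657, .ofNat 5776, .ofNat 0, .ofNat 0, .ofNat 0, .ofNat 0, .ofNat 0, .ofNat 466451041137587154672471244800,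 .ofNat 0, .ofNat 0, .ofNat 0, .ofNat 335801809781751340080090316800, .ofNat 0, .ofNat 0, .ofNat 0, .ofNat 397873555391250890179058073600, .ofNat 0, .ofNat 0⟩)
    (by decide +kernel)
theorem L00087 : Good (Phi V4.P V4.D 1 1) ⟨2, 0, 2, 1, 1, 0, 2, 3, 2, 2⟩ :=
  leaf_sound (S := T4.ds_pp) T4.ok_pp (w := 152) (c := ⟨⟨.negSucc 223, .negSucc 41, .negSucc 10, .negSucc 122, .ofNat 201, .ofNat 20⟩, ⟨.negSucc 60, .ofNat 13, .negSucc 44, .negSucc 52, .ofNat 59, .ofNat 7⟩, ⟨.negSucc 139, .ofNat 19, .ofNat 5, .ofNat 88, .negSucc 182, .ofNat 38⟩, ⟨.negSucc 664, .negSucc 113, .negSucc 10, .negSucc 292, .ofNat 586, .ofNat 55⟩, ⟨.negSucc 42, .ofNat 42, .ofNat 6, .negSucc 251, .ofNat 50, .ofNat 14⟩, .ofNat 650, .negSucc 301, .ofNat 0, .negSucc 301, .ofNat 1448, .ofNat 0, .ofNat 295, .ofNat 127, .negSucc 243, .ofNat 0, .ofNat 194, .negSucc 58, .ofNat 0, .ofNat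 0, .ofNat 652, .ofNat 5038, .ofNat 0, .ofNat 0, .ofNat 856465021613723421081600, .ofNat 0, .ofNat 0, .ofNat 497449312061138746824720384000, .ofNat 0, .ofNat 0, .ofNat 0, .ofNat 550208227000394723773906944000, .ofNat 277509074555804335629926400, .ofNat 0, .ofNat 0, .ofNat 0, .ofNat 0, .ofNat 0⟩)
    (by decide +kernel)
theorem L00088 : Good (Phi V4.P V4.D 1 1) ⟨2, 1, 2, 0, 2, 0, 2, 2, 2, 2⟩ :=
  leaf_sound (S := T4.ds_pp) T4.ok_pp (w := 160) (c := ⟨⟨.negSucc 334, .negSucc 152, .negSucc 24, .negSucc 78, .ofNat 86, .ofNat 37⟩, ⟨.ofNat 23, .negSucc 13, .negSucc 80, .negSucc 3, .negSucc 0, .ofNat 1⟩, ⟨.ofNat 3, .ofNat 126, .ofNat 6, .ofNat 20, .negSucc 93, .negSucc 5⟩, ⟨.negSucc 957, .negSucc 160, .negSucc 14, .negSucc 200, .ofNat 222, .ofNat 93⟩, ⟨.negSucc 40, .ofNat 21, .ofNat 0, .negSucc 141, .ofNat 25, .ofNat 21⟩, .ofNat 516, .ofNat 28, .ofNat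 0, .ofNat 28, .ofNat 2099, .ofNat 0, .ofNat 318, .negSucc 11, .negSucc 222, .ofNat 0, .ofNat 128, .ofNat 4, .ofNat 0, .ofNat 0, .ofNat 670, .ofNat 13560, .ofNat 7908523625889495528916805222400, .ofNat 0, .ofNat 0, .ofNat 0, .ofNat 0, .ofNat 0, .ofNat 260587599971291884689555456000, .ofNat 0, .ofNat 0, .ofNat 0, .ofNat 0, .ofNat 0, .ofNat 259298280197556030557348954112000, .ofNat 0, .ofNat 0, .ofNat 0⟩)
    (by decide +kernel)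
theorem L00089 : Good (Phi V4.P V4.D 1 1) ⟨2, 1, 2, 0, 2, 0, 2, 3, 2, 2⟩ :=
  leaf_sound (S := T4.ds_pp) T4.ok_pp (w := 160) (c := ⟨⟨.negSucc 183, .negSucc 173, .negSucc 55, .negSucc 166, .ofNat 210, .ofNat 5⟩, ⟨.ofNat 14, .negSucc 7, .negSucc 48, .ofNat 0, .negSucc 0, .negSucc 0⟩, ⟨.negSucc 175, .ofNat 156, .ofNat 47, .ofNat 118, .negSucc 195, .ofNat 55⟩, ⟨.negSucc 550, .negSucc 280, .negSucc 110, .negSucc 418, .ofNat 543, .ofNat 23⟩, ⟨.negSucc 41, .ofNat 27, .ofNat 23, .negSucc 78, .ofNat 41, .ofNat 8⟩, .ofNat 514, .ofNat 25, .ofNat 0, .ofNat 25, .ofNat 2121, .ofNat 0, .ofNat 347, .negSucc 10, .negSucc 303, .ofNat 0, .ofNat 138, .ofNat 3, .ofNat 0, .ofNat 0, .ofNat 690, .ofNat 4342, .ofNat 0, .ofNat 0, .ofNat 623806900423981003387699200, .ofNat 0, .ofNat 0, .ofNat 0, .ofNat 316957763601865727344115712000, .ofNat 0, .ofNat 0, .ofNat 0, .ofNat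 0, .ofNat 0, .ofNat 0, .ofNat 0, .ofNat 264811001264665435909914624000, .ofNat 0⟩)
    (by decide +kernel)
theorem L00090 : Good (Phi V4.P V4.D 1 1) ⟨2, 1, 2, 1, 2, 0, 1, 1, 2, 2⟩ :=
  out_sound (S := T4.ds_pp) T4.ok_pp (w := 40) (j := 3) (by decide +kernel)
theorem L00091 : Good (Phi V4.P V4.D 1 1) ⟨2, 1, 1, 0, 2, 1, 1, 1, 2, 2⟩ :=
  leaf_sound (S := T4.ds_pp) T4.ok_pp (w := 160) (c := ⟨⟨.negSucc 378, .negSucc 212, .negSucc 18, .negSucc 140, .ofNat 108, .ofNat 58⟩, ⟨.ofNat 17, .negSucc 12, .negSucc 183, .ofNat 6, .ofNat 2, .ofNat 3⟩, ⟨.negSucc 1, .ofNat 151, .negSucc 9, .ofNat 61, .negSucc 84, .negSucc 40⟩, ⟨.negSucc 1087, .negSucc 251, .ofNat 69, .negSucc 369, .ofNat 265, .ofNat 138⟩, ⟨.negSucc 222, .ofNat 69, .negSucc 33, .negSucc 44, .ofNat 135, .ofNat 31⟩, .ofNat 509, .ofNat 32, .ofNat 0, .ofNat 32, .ofNat 2177, .ofNat 0, .ofNat 337, .negSucc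 14, .negSucc 219, .ofNat 0, .ofNat 129, .ofNat 7, .ofNat 0, .ofNat 0, .ofNat 687, .ofNat 2910, .ofNat 212271705619952316304903372800, .ofNat 0, .ofNat 185239256949252533963980800, .ofNat 0, .ofNat 0, .ofNat 5362030683276164151392600064000, .ofNat 16050822064468989677509017600, .ofNat 0, .ofNat 0, .ofNat 3766624964870547575608757452800, .ofNat 34324725675577054362756710400, .ofNat 0, .ofNat 0, .ofNat 3276467366498822656448947814400, .ofNat 0, .ofNat 0⟩)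
    (by decide +kernel)
theorem L00092 : Good (Phi V4.P V4.D 1 1) ⟨1, 0, 1, 0, 1, 1, 1, 1, 2, 2⟩ :=
  leaf_sound (S := T4.ds_pp) T4.ok_pp (w := 144) (c := ⟨⟨.negSucc 383, .negSucc 314, .negSucc 88, .ofNat 0, .ofNat 0, .ofNat 0⟩, ⟨.negSucc 36, .ofNat 82, .negSucc 224, .ofNat 0, .ofNat 0, .ofNat 0⟩, ⟨.ofNat 31, .ofNat 146, .ofNat 28, .ofNat 0, .ofNat 0, .ofNat 0⟩, ⟨.negSucc 1261, .negSucc 444, .negSucc 13, .ofNat 0, .ofNat 0, .ofNat 0⟩, ⟨.negSucc 461, .ofNat 318, .ofNat 9, .ofNat 0, .ofNat 0, .ofNat 0⟩, .ofNat 188, .negSucc 2, .ofNat 0, .negSucc 2, .ofNat 242, .ofNat 0, .ofNat 519, .ofNat 2, .negSucc 511, .ofNat 0, .ofNat 408, .ofNat 86, .ofNat 0, .ofNat 0, .ofNat 930, .ofNat 8238, .ofNat 0, .ofNat 0, .ofNat 0, .ofNat 0, .ofNat 0, .ofNat 49655005563103543590440140800, .ofNat 0, .ofNat 0, .ofNat 0, .ofNat 68960312985147973668805017600, .ofNat 243967292342293146461798400,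 .ofNat 0, .ofNat 0, .ofNat 106711569376875818591138611200, .ofNat 178602414543247444122009600, .ofNat 0⟩)
    (by decide +kernel)
theorem L00093 : Good (Phi V4.P V4.D 1 1) ⟨1, 0, 1, 0, 2, 0, 2, 2, 3, 6⟩ :=
  leaf_sound (S := T4.ds_pp) T4.ok_pp (w := 160) (c := ⟨⟨.negSucc 233, .negSucc 220, .negSucc 30, .negSucc 89, .ofNat 110, .ofNat 105⟩, ⟨.negSucc 11, .ofNat 8, .negSucc 129, .negSucc 4, .ofNat 20, .ofNat 19⟩, ⟨.negSucc 80, .ofNat 182, .ofNat 26, .ofNat 46, .negSucc 86, .negSucc 67⟩, ⟨.negSucc 697, .negSucc 301, .negSucc 0, .negSucc 229, .ofNat 201, .ofNat 158⟩, ⟨.negSucc 90, .ofNat 34, .negSucc 7, .negSucc 104, .ofNat 64, .ofNat 4⟩, .ofNat 378, .negSucc 6, .ofNat 0, .negSucc 6, .ofNat 740, .ofNat 0, .ofNat 315, .ofNat 6, .negSucc 255, .ofNat 0, .ofNat 197, .negSucc 2, .ofNat 0, .ofNat 0, .ofNat 631, .ofNat 80522, .ofNat 26382732672455938360005466521600,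 .ofNat 0, .ofNat 0, .ofNat 0, .ofNat 80038144541296337675096162304000, .ofNat 0, .ofNat 2549437721866232988643727769600, .ofNat 0, .ofNat 0, .ofNat 0, .ofNat 0, .ofNat 0, .ofNat 165451984523181138749098976870400, .ofNat 0, .ofNat 0, .ofNat 0⟩)
    (by decide +kernel)
theorem L00094 : Good (Phi V4.P V4.D 1 1) ⟨1, 0, 1, 0, 2, 1, 2, 2, 3, 6⟩ :=
  leaf_sound (S := T4.ds_pp) T4.ok_pp (w := 160) (c := ⟨⟨.negSucc 261, .negSucc 259, .negSucc 38, .negSucc 51, .ofNat 64, .negSucc 17⟩, ⟨.negSucc 7, .ofNat 26, .negSucc 128, .negSucc 7, .negSucc 2, .negSucc 2⟩, ⟨.negSucc 83, .ofNat 188, .ofNat 24, .ofNat 10, .negSucc 33, .ofNat 42⟩, ⟨.negSucc 846, .negSucc 422, .negSucc 22, .negSucc 188, .ofNat 183, .ofNat 10⟩, ⟨.negSucc 226, .ofNat 86, .negSucc 1, .negSucc 76, .ofNat 68, .ofNat 9⟩, .ofNat 186, .negSucc 1, .ofNat 0, .negSucc 1, .ofNat 243, .ofNat 0, .ofNat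 413, .ofNat 6, .negSucc 543, .ofNat 0, .ofNat 335, .negSucc 6, .ofNat 0, .ofNat 0, .ofNat 820, .ofNat 6721, .ofNat 3335570627442402402091243929600, .ofNat 0, .ofNat 0, .ofNat 0, .ofNat 3809531197533406008813237043200, .ofNat 3140637985010269669969782374400, .ofNat 0, .ofNat 0, .ofNat 0, .ofNat 0, .ofNat 0, .ofNat 0, .ofNat 0, .ofNat 0, .ofNat 0, .ofNat 0⟩)
    (by decide +kernel)
theorem L00095 : Good (Phi V4.P V4.D 1 1) ⟨2, 0, 2, 0, 1, 0, 2, 3, 3, 6⟩ :=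
  leaf_sound (S := T4.ds_pp) T4.ok_pp (w := 160) (c := ⟨⟨.negSucc 224, .negSucc 30, .ofNat 6, .negSucc 88, .ofNat 219, .negSucc 12⟩, ⟨.negSucc 15, .ofNat 12, .negSucc 32, .negSucc 13, .ofNat 29, .negSucc 4⟩, ⟨.negSucc 89, .ofNat 21, .negSucc 5, .ofNat 54, .negSucc 191, .ofNat 39⟩, ⟨.negSucc 669, .negSucc 62, .ofNat 24, .negSucc 238, .ofNat 634, .negSucc 35⟩, ⟨.negSucc 18, .ofNat 7, .negSucc 0, .negSucc 210, .ofNat 28, .negSucc 1⟩, .ofNat 400, .negSucc 29, .ofNat 0, .negSucc 29, .ofNat 662, .ofNat 0, .ofNat 321, .ofNat 26, .negSucc 308, .ofNat 0, .ofNat 227, .negSucc 19, .ofNat 0, .ofNat 0, .ofNat 638, .ofNat 6483, .ofNat 209636830170431366990974156800, .ofNat 0, .ofNat 0, .ofNat 0, .ofNat 0, .ofNat 1650894695213022566053576704000, .ofNat 0, .ofNat 0, .ofNat 0, .ofNat 1949723775817508680060266086400, .ofNat 0, .ofNat 0, .ofNat 0, .ofNat 1300672832983176673372196044800,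 .ofNat 0, .ofNat 0⟩)
    (by decide +kernel)
theorem L00096 : Good (Phi V4.P V4.D 1 1) ⟨2, 0, 2, 1, 1, 0, 2, 3, 3, 6⟩ :=
  leaf_sound (S := T4.ds_pp) T4.ok_pp (w := 160) (c := ⟨⟨.negSucc 215, .negSucc 28, .ofNat 3, .negSucc 89, .ofNat 184, .ofNat 7⟩, ⟨.negSucc 60, .ofNat 11, .negSucc 29, .negSucc 33, .ofNat 53, .ofNat 3⟩, ⟨.negSucc 97, .ofNat 17, .negSucc 4, .ofNat 59, .negSucc 156, .ofNat 18⟩, ⟨.negSucc 641, .negSucc 73, .ofNat 16, .negSucc 206, .ofNat 538, .ofNat 21⟩, ⟨.negSucc 27, .ofNat 21, .ofNat 12, .negSucc 221, .ofNat 41, .negSucc 2⟩, .ofNat 644, .negSucc 289, .ofNat 0, .negSucc 289, .ofNat 1446, .ofNat 0, .ofNat 266, .ofNat 109, .negSucc 220, .ofNat 0, .ofNat 173, .negSucc 51, .ofNat 0, .ofNat 0, .ofNat 587, .ofNat 14182, .ofNat 460702662888271774244614963200, .ofNat 0, .ofNat 24173228668112700280012800, .ofNat 0, .ofNat 0, .ofNat 2798727909311379423235984588800,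 .ofNat 3684578271879413895266304000, .ofNat 0, .ofNat 0, .ofNat 1798135228939611324077309952000, .ofNat 7752127076686743779200204800, .ofNat 0, .ofNat 0, .ofNat 1837201346275395505220694835200, .ofNat 0, .ofNat 0⟩)
    (by decide +kernel)
theorem L00097 : Good (Phi V4.P V4.D 1 1) ⟨2, 1, 2, 0, 1, 0, 2, 3, 3, 6⟩ :=
  leaf_sound (S := T4.ds_pp) T4.ok_pp (w := 160) (c := ⟨⟨.negSucc 211, .negSucc 105, .ofNat 7, .negSucc 344, .ofNat 200, .ofNat 7⟩, ⟨.ofNat 11, .negSucc 5, .negSucc 41, .ofNat 4, .negSucc 3, .ofNat 1⟩, ⟨.negSucc 107, .ofNat 97, .negSucc 3, .ofNat 264, .negSucc 164, .ofNat 16⟩, ⟨.negSucc 578, .negSucc 165, .ofNat 4, .negSucc 857, .ofNat 500, .ofNat 24⟩, ⟨.negSucc 37, .ofNat 9, .ofNat 2, .negSucc 111, .ofNat 45, .negSucc 1⟩, .ofNat 515, .ofNat 30, .ofNat 0, .ofNat 30, .ofNat 2103, .ofNat 0, .ofNat 316, .negSucc 11, .negSucc 291, .ofNat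 0, .ofNat 127, .ofNat 4, .ofNat 0, .ofNat 0, .ofNat 627, .ofNat 6537, .ofNat 271404228769343652452578099200, .ofNat 0, .ofNat 0, .ofNat 0, .ofNat 0, .ofNat 2211268950917470549405650124800, .ofNat 3424980681379283950632960000, .ofNat 0, .ofNat 2706385433603989529428387430400, .ofNat 1174872283338475934979194880000, .ofNat 0, .ofNat 0, .ofNat 0, .ofNat 1690476434454893779287539712000, .ofNat 0, .ofNat 0⟩)
    (by decide +kernel)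
theorem L00098 : Good (Phi V4.P V4.D 1 1) ⟨2, 1, 2, 1, 1, 0, 2, 3, 3, 6⟩ :=
  out_sound (S := T4.ds_pp) T4.ok_pp (w := 40) (j := 3) (by decide +kernel)
theorem L00099 : Good (Phi V4.P V4.D 1 1) ⟨1, 0, 1, 0, 2, 0, 2, 2, 3, 7⟩ :=
  out_sound (S := T4.ds_pp) T4.ok_pp (w := 24) (j := 1) (by decide +kernel)
theorem L00100 : Good (Phi V4.P V4.D 1 1) ⟨1, 0, 1, 0, 2, 0, 3, 6, 4, 14⟩ :=
  out_sound (S := T4.ds_pp) T4.ok_pp (w := 32) (j := 1) (by decide +kernel)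
theorem L00101 : Good (Phi V4.P V4.D 1 1) ⟨1, 0, 1, 0, 2, 0, 4, 14, 5, 28⟩ :=
  out_sound (S := T4.ds_pp) T4.ok_pp (w := 32) (j := 1) (by decide +kernel)
theorem L00102 : Good (Phi V4.P V4.D 1 1) ⟨1, 0, 1, 0, 3, 0, 4, 15, 5, 28⟩ :=
  out_sound (S := T4.ds_pp) T4.ok_pp (w := 32) (j := 1) (by decide +kernel)
theorem L00103 : Good (Phi V4.P V4.D 1 1) ⟨1, 0, 1, 0, 3, 1, 4, 15, 5, 28⟩ :=
  out_sound (S := T4.ds_pp) T4.ok_pp (w := 40) (j := 2) (by decide +kernel)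
theorem L00104 : Good (Phi V4.P V4.D 1 1) ⟨1, 0, 1, 0, 2, 0, 3, 7, 5, 29⟩ :=
  out_sound (S := T4.ds_pp) T4.ok_pp (w := 32) (j := 1) (by decide +kernel)
theorem L00105 : Good (Phi V4.P V4.D 1 1) ⟨1, 0, 1, 0, 2, 0, 2, 3, 4, 15⟩ :=
  out_sound (S := T4.ds_pp) T4.ok_pp (w := 24) (j := 1) (by decide +kernel)
theorem L00106 : Good (Phi V4.P V4.D 1 1) ⟨1, 0, 1, 0, 4, 4, 2, 2, 3, 7⟩ :=
  out_sound (S := T4.ds_pp) T4.ok_pp (w := 32) (j := 1) (by decide +kernel)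
theorem L00107 : Good (Phi V4.P V4.D 1 1) ⟨1, 0, 1, 0, 4, 4, 2, 3, 3, 7⟩ :=
  out_sound (S := T4.ds_pp) T4.ok_pp (w := 32) (j := 2) (by decide +kernel)
theorem L00108 : Good (Phi V4.P V4.D 1 1) ⟨1, 0, 1, 0, 4, 5, 1, 1, 3, 7⟩ :=
  out_sound (S := T4.ds_pp) T4.ok_pp (w := 32) (j := 2) (by decide +kernel)
theorem L00109 : Good (Phi V4.P V4.D 1 1) ⟨1, 0, 1, 0, 3, 3, 1, 1, 3, 7⟩ :=
  out_sound (S := T4.ds_pp) T4.ok_pp (w := 32) (j := 2) (by decide +kernel)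
theorem L00110 : Good (Phi V4.P V4.D 1 1) ⟨1, 0, 1, 0, 1, 1, 1, 1, 2, 3⟩ :=
  out_sound (S := T4.ds_pp) T4.ok_pp (w := 24) (j := 2) (by decide +kernel)
theorem L00111 : Good (Phi V4.P V4.D 1 1) ⟨1, 0, 1, 1, 0, 0, 0, 0, 0, 0⟩ :=
  out_sound (S := T4.ds_pp) T4.ok_pp (w := 32) (j := 3) (by decide +kernel)
theorem L00112 : Good (Phi V4.P V4.D 1 1) ⟨2, 2, 3, 0, 1, 0, 2, 0, 3, 0⟩ :=
  leaf_sound (S := T4.ds_pp) T4.ok_pp (w := 160) (c := ⟨⟨.negSucc 340, .negSucc 520, .negSucc 9, .negSucc 156, .negSucc 7, .negSucc 355⟩, ⟨.ofNat 34, .negSucc 149, .negSucc 103, .negSucc 4, .negSucc 0, .negSucc 35⟩, ⟨.ofNat 852, .ofNat 495, .ofNat 8, .ofNat 165, .negSucc 247, .ofNat 148⟩, ⟨.negSucc 855, .negSucc 629, .negSucc 16, .negSucc 358, .negSucc 0, .negSucc 701⟩, ⟨.negSucc 49, .ofNat 136, .ofNat 42, .ofNat 462, .negSucc 161, .ofNat 12⟩, .ofNat 436, .negSucc 177,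 .ofNat 0, .negSucc 177, .ofNat 1880, .ofNat 0, .ofNat 269, .ofNat 74, .negSucc 302, .ofNat 0, .ofNat 107, .negSucc 22, .ofNat 0, .ofNat 0, .ofNat 514, .ofNat 2528, .ofNat 0, .ofNat 0, .ofNat 0, .ofNat 0, .ofNat 0, .ofNat 0, .ofNat 0, .ofNat 0, .ofNat 1351297836830679920381893017600, .ofNat 0, .ofNat 13416731494702543583104204800, .ofNat 0, .ofNat 0, .ofNat 0, .ofNat 4529489866771954943184076800, .ofNat 0⟩)
    (by decide +kernel)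
theorem L00113 : Good (Phi V4.P V4.D 1 1) ⟨2, 2, 3, 0, 1, 0, 2, 1, 3, 0⟩ :=
  leaf_sound (S := T4.ds_pp) T4.ok_pp (w := 160) (c := ⟨⟨.negSucc 436, .negSucc 450, .negSucc 51, .negSucc 196, .ofNat 43, .negSucc 200⟩, ⟨.ofNat 30, .negSucc 169, .negSucc 103, .negSucc 9, .ofNat 5, .negSucc 17⟩, ⟨.ofNat 671, .ofNat 442, .ofNat 38, .ofNat 218, .negSucc 341, .ofNat 15⟩, ⟨.negSucc 1053, .negSucc 472, .negSucc 71, .negSucc 418, .ofNat 93, .negSucc 399⟩, ⟨.negSucc 25, .ofNat 64, .ofNat 59, .ofNat 158, .negSucc 131, .negSucc 5⟩, .ofNat 436, .negSucc 171, .ofNat 0, .negSucc 171, .ofNat 1880, .ofNat 0, .ofNat 281, .ofNat 74, .negSucc 304, .ofNat 0, .ofNat 113, .negSucc 22, .ofNat 0, .ofNat 0, .ofNat 551, .ofNat 1394, .ofNat 0, .ofNat 0, .ofNat 0, .ofNat 0, .ofNat 0, .ofNat 0, .ofNat 0, .ofNat 0, .ofNat 0, .ofNat 0, .ofNat 0, .ofNat 0, .ofNat 0, .ofNat 0, .ofNat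 0, .ofNat 0⟩)
    (by decide +kernel)
theorem L00114 : Good (Phi V4.P V4.D 1 1) ⟨2, 2, 3, 0, 2, 2, 1, 0, 4, 0⟩ :=
  leaf_sound (S := T4.ds_pp) T4.ok_pp (w := 168) (c := ⟨⟨.negSucc 166, .negSucc 541, .ofNat 4, .ofNat 96, .negSucc 326, .negSucc 447⟩, ⟨.ofNat 59, .negSucc 104, .negSucc 109, .ofNat 34, .negSucc 65, .negSucc 59⟩, ⟨.ofNat 813, .ofNat 462, .ofNat 30, .negSucc 171, .negSucc 251, .ofNat 185⟩, ⟨.negSucc 536, .negSucc 764, .negSucc 9, .ofNat 128, .negSucc 553, .negSucc 863⟩, ⟨.ofNat 301, .ofNat 427, .ofNat 25, .ofNat 346, .negSucc 530, .ofNat 77⟩, .ofNat 318, .negSucc 59, .ofNat 0, .negSucc 59, .ofNat 750, .ofNat 0, .ofNat 390, .ofNat 70, .negSucc 480, .ofNat 0, .ofNat 178, .negSucc 0, .ofNat 0, .ofNat 0, .ofNat 598, .ofNat 1759, .ofNat 0, .ofNat 0, .ofNat 0, .ofNat 0, .ofNat 0, .ofNat 0, .ofNat 0, .ofNat 0, .ofNat 0, .ofNat 0, .ofNat 0,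 .ofNat 0, .ofNat 0, .ofNat 0, .ofNat 0, .ofNat 0⟩)
    (by decide +kernel)
theorem L00115 : Good (Phi V4.P V4.D 1 1) ⟨2, 2, 3, 0, 3, 6, 1, 0, 4, 0⟩ :=
  leaf_sound (S := T4.ds_pp) T4.ok_pp (w := 176) (c := ⟨⟨.ofNat 142, .negSucc 405, .ofNat 0, .ofNat 169, .negSucc 568, .negSucc 789⟩, ⟨.ofNat 66, .negSucc 54, .negSucc 74, .ofNat 51, .negSucc 89, .negSucc 90⟩, ⟨.ofNat 520, .ofNat 303, .ofNat 79, .negSucc 187, .negSucc 50, .ofNat 338⟩, ⟨.ofNat 133, .negSucc 608, .negSucc 86, .ofNat 239, .negSucc 1029, .negSucc 1553⟩, ⟨.ofNat 550, .ofNat 578, .ofNat 24, .ofNat 222, .negSucc 557, .ofNat 196⟩, .ofNat 320, .negSucc 52, .ofNat 0, .negSucc 52, .ofNat 761, .ofNat 0, .ofNat 485, .ofNat 70, .negSucc 550, .ofNat 0, .ofNat 187, .negSucc 9, .ofNat 0, .ofNat 0, .ofNat 590, .ofNat 788, .ofNat 0, .ofNat 0, .ofNat 0, .ofNat 0, .ofNat 0, .ofNat 0, .ofNat 0, .ofNat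 0, .ofNat 0, .ofNat 0, .ofNat 0, .ofNat 0, .ofNat 0, .ofNat 0, .ofNat 0, .ofNat 0⟩)
    (by decide +kernel)
theorem L00116 : Good (Phi V4.P V4.D 1 1) ⟨3, 4, 3, 0, 3, 7, 1, 0, 4, 0⟩ :=
  leaf_sound (S := T4.ds_pp) T4.ok_pp (w := 184) (c := ⟨⟨.ofNat 281, .negSucc 134, .ofNat 92, .ofNat 149, .negSucc 544, .negSucc 948⟩, ⟨.ofNat 31, .negSucc 16, .negSucc 37, .ofNat 17, .negSucc 32, .negSucc 50⟩, ⟨.ofNat 347, .ofNat 77, .ofNat 13, .negSucc 225, .ofNat 17, .ofNat 380⟩, ⟨.ofNat 516, .negSucc 215, .negSucc 11, .ofNat 276, .negSucc 1098, .negSucc 1977⟩, ⟨.ofNat 850, .ofNat 323, .ofNat 211, .ofNat 469, .negSucc 780, .ofNat 165⟩, .ofNat 330, .negSucc 24, .ofNat 0, .negSucc 24, .ofNat 828, .ofNat 0, .ofNat 531, .negSucc 1, .negSucc 484, .ofNat 0, .ofNat 185, .negSucc 12, .ofNat 0, .ofNat 0, .ofNat 547, .ofNat 2151, .ofNat 0, .ofNat 0, .ofNat 0, .ofNat 0,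 .ofNat 0, .ofNat 0, .ofNat 0, .ofNat 0, .ofNat 0, .ofNat 0, .ofNat 0, .ofNat 0, .ofNat 0, .ofNat 0, .ofNat 0, .ofNat 0⟩)
    (by decide +kernel)
theorem L00117 : Good (Phi V4.P V4.D 1 1) ⟨3, 5, 3, 0, 3, 7, 1, 0, 4, 0⟩ :=
  leaf_sound (S := T4.ds_pp) T4.ok_pp (w := 184) (c := ⟨⟨.ofNat 552, .negSucc 132, .ofNat 25, .ofNat 249, .negSucc 886, .negSucc 1435⟩, ⟨.ofNat 175, .ofNat 92, .negSucc 102, .ofNat 73, .negSucc 210, .negSucc 219⟩, ⟨.ofNat 213, .ofNat 42, .ofNat 118, .negSucc 320, .ofNat 244, .ofNat 600⟩, ⟨.ofNat 856, .negSucc 301, .negSucc 55, .ofNat 383, .negSucc 1488, .negSucc 2681⟩, ⟨.ofNat 1107, .ofNat 467, .negSucc 61, .ofNat 578, .negSucc 833, .ofNat 306⟩, .ofNat 429, .negSucc 218, .ofNat 0, .negSucc 218, .ofNat 1626, .ofNat 0, .ofNat 466, .ofNat 205, .negSucc 452, .ofNat 0, .ofNat 157, .negSucc 63, .ofNat 0, .ofNat 0, .ofNat 541, .ofNat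 458, .ofNat 0, .ofNat 0, .ofNat 8910337547300826596596147814400, .ofNat 0, .ofNat 0, .ofNat 0, .ofNat 0, .ofNat 0, .ofNat 0, .ofNat 0, .ofNat 2570790067203054398342512508928000, .ofNat 0, .ofNat 0, .ofNat 0, .ofNat 0, .ofNat 0⟩)
    (by decide +kernel)
theorem L00118 : Good (Phi V4.P V4.D 1 1) ⟨2, 2, 3, 0, 2, 2, 1, 0, 4, 1⟩ :=
  leaf_sound (S := T4.ds_pp) T4.ok_pp (w := 168) (c := ⟨⟨.negSucc 496, .negSucc 653, .negSucc 15, .negSucc 195, .negSucc 135, .negSucc 293⟩, ⟨.ofNat 49, .negSucc 170, .negSucc 126, .negSucc 3, .negSucc 38, .negSucc 28⟩, ⟨.ofNat 975, .ofNat 490, .ofNat 59, .negSucc 92, .negSucc 334, .ofNat 59⟩, ⟨.negSucc 1262, .negSucc 805, .negSucc 86, .negSucc 439, .negSucc 189, .negSucc 578⟩, ⟨.ofNat 346, .ofNat 470, .ofNat 18, .ofNat 476, .negSucc 619, .ofNat 49⟩, .ofNat 320, .negSucc 50, .ofNat 0, .negSucc 50, .ofNat 758, .ofNat 0,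 .ofNat 383, .ofNat 47, .negSucc 403, .ofNat 0, .ofNat 172, .ofNat 13, .ofNat 0, .ofNat 0, .ofNat 554, .ofNat 1589, .ofNat 0, .ofNat 0, .ofNat 0, .ofNat 0, .ofNat 0, .ofNat 0, .ofNat 0, .ofNat 0, .ofNat 0, .ofNat 0, .ofNat 0, .ofNat 0, .ofNat 0, .ofNat 0, .ofNat 0, .ofNat 0⟩)
    (by decide +kernel)
theorem L00119 : Good (Phi V4.P V4.D 1 1) ⟨2, 2, 3, 0, 2, 3, 1, 0, 4, 1⟩ :=
  leaf_sound (S := T4.ds_pp) T4.ok_pp (w := 168) (c := ⟨⟨.negSucc 410, .negSucc 746, .negSucc 58, .negSucc 227, .negSucc 318, .negSucc 653⟩, ⟨.ofNat 65, .negSucc 105, .negSucc 200, .ofNat 13, .negSucc 77, .negSucc 62⟩, ⟨.ofNat 718, .ofNat 386, .ofNat 145, .negSucc 247, .ofNat 14, .ofNat 177⟩, ⟨.negSucc 1124, .negSucc 1017, .negSucc 217, .negSucc 566, .negSucc 505, .negSucc 1305⟩, ⟨.ofNat 545, .ofNat 962, .negSucc 102, .ofNat 1010, .negSucc 853, .ofNat 392⟩, .ofNat 320, .negSucc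 52, .ofNat 0, .negSucc 52, .ofNat 757, .ofNat 0, .ofNat 504, .ofNat 43, .negSucc 476, .ofNat 0, .ofNat 191, .negSucc 2, .ofNat 0, .ofNat 0, .ofNat 556, .ofNat 944, .ofNat 0, .ofNat 0, .ofNat 17309249421759299036853043200, .ofNat 0, .ofNat 0, .ofNat 0, .ofNat 0, .ofNat 0, .ofNat 0, .ofNat 0, .ofNat 5196902453887919773576907980800, .ofNat 0, .ofNat 0, .ofNat 0, .ofNat 0, .ofNat 0⟩)
    (by decide +kernel)
theorem L00120 : Good (Phi V4.P V4.D 1 1) ⟨2, 2, 3, 0, 1, 0, 2, 0, 3, 1⟩ :=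
  leaf_sound (S := T4.ds_pp) T4.ok_pp (w := 160) (c := ⟨⟨.negSucc 695, .negSucc 495, .ofNat 4, .negSucc 246, .ofNat 66, .negSucc 17⟩, ⟨.ofNat 18, .negSucc 195, .negSucc 103, .negSucc 1, .negSucc 3, .negSucc 0⟩, ⟨.ofNat 1162, .ofNat 408, .ofNat 36, .ofNat 16, .negSucc 339, .negSucc 188⟩, ⟨.negSucc 1608, .negSucc 481, .ofNat 16, .negSucc 544, .ofNat 154, .negSucc 23⟩, ⟨.ofNat 35, .ofNat 118, .ofNat 19, .ofNat 348, .negSucc 166, .negSucc 121⟩, .ofNat 322, .negSucc 44, .ofNat 0, .negSucc 44, .ofNat 770, .ofNat 0, .ofNat 277, .ofNat 34, .negSucc 272, .ofNat 0, .ofNat 148, .ofNat 3, .ofNat 0, .ofNat 0, .ofNat 514, .ofNat 4906, .ofNat 0, .ofNat 0, .ofNat 0, .ofNat 0, .ofNat 0, .ofNat 0, .ofNat 0, .ofNat 0, .ofNat 0, .ofNat 0, .ofNat 0, .ofNat 0, .ofNat 0, .ofNat 0, .ofNat 0, .ofNat 0⟩)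
    (by decide +kernel)
theorem L00121 : Good (Phi V4.P V4.D 1 1) ⟨2, 2, 3, 0, 1, 0, 2, 1, 3, 1⟩ :=
  leaf_sound (S := T4.ds_pp) T4.ok_pp (w := 160) (c := ⟨⟨.negSucc 646, .negSucc 441, .negSucc 27, .negSucc 295, .ofNat 98, .ofNat 20⟩, ⟨.ofNat 17, .negSucc 181, .negSucc 109, .negSucc 18, .ofNat 7, .ofNat 4⟩, ⟨.ofNat 738, .ofNat 414, .negSucc 2, .ofNat 140, .negSucc 315, .negSucc 162⟩, ⟨.negSucc 1490, .negSucc 400, .negSucc 25, .negSucc 608, .ofNat 203, .ofNat 34⟩, ⟨.ofNat 8, .ofNat 126, .negSucc 29, .ofNat 94, .negSucc 155, .negSucc 68⟩, .ofNat 320, .negSucc 53, .ofNat 0, .negSucc 53, .ofNat 755, .ofNat 0, .ofNat 282, .ofNat 44, .negSucc 298, .ofNat 0, .ofNat 154, .negSucc 6, .ofNat 0, .ofNat 0, .ofNat 539, .ofNat 1489, .ofNat 0, .ofNat 0, .ofNat 0, .ofNat 0, .ofNat 0, .ofNat 0, .ofNat 0, .ofNat 0, .ofNat 0, .ofNat 0, .ofNat 0, .ofNat 0, .ofNat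 0, .ofNat 0, .ofNat 0, .ofNat 0⟩)
    (by decide +kernel)
theorem L00122 : Good (Phi V4.P V4.D 1 1) ⟨2, 2, 3, 0, 2, 2, 2, 0, 3, 1⟩ :=
  leaf_sound (S := T4.ds_pp) T4.ok_pp (w := 168) (c := ⟨⟨.negSucc 822, .negSucc 643, .ofNat 45, .negSucc 364, .ofNat 1, .negSucc 92⟩, ⟨.ofNat 29, .negSucc 194, .negSucc 140, .negSucc 18, .negSucc 3, .negSucc 12⟩, ⟨.ofNat 1128, .ofNat 371, .ofNat 14, .negSucc 82, .negSucc 153, .negSucc 255⟩, ⟨.negSucc 1940, .negSucc 704, .ofNat 48, .negSucc 778, .ofNat 32, .negSucc 167⟩, ⟨.ofNat 373, .ofNat 479, .negSucc 10, .ofNat 579, .negSucc 331, .negSucc 182⟩, .ofNat 436, .negSucc 160, .ofNat 0, .negSucc 160, .ofNat 1946, .ofNat 0, .ofNat 609, .ofNat 144, .negSucc 423, .ofNat 0, .ofNat 212, .negSucc 5, .ofNat 0, .ofNat 0, .ofNat 936, .ofNat 5330, .ofNat 0, .ofNat 0, .ofNat 65290248358840621419252940800, .ofNat 0, .ofNat 0,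 .ofNat 0, .ofNat 0, .ofNat 0, .ofNat 1326969912797880987142618664140800, .ofNat 0, .ofNat 23304488751463315425499231027200, .ofNat 0, .ofNat 0, .ofNat 0, .ofNat 0, .ofNat 0⟩)
    (by decide +kernel)
theorem L00123 : Good (Phi V4.P V4.D 1 1) ⟨2, 2, 3, 0, 2, 2, 2, 1, 3, 1⟩ :=
  leaf_sound (S := T4.ds_pp) T4.ok_pp (w := 168) (c := ⟨⟨.negSucc 732, .negSucc 711, .ofNat 8, .negSucc 438, .negSucc 49, .negSucc 86⟩, ⟨.ofNat 44, .negSucc 224, .negSucc 150, .negSucc 26, .negSucc 17, .negSucc 11⟩, ⟨.ofNat 780, .ofNat 481, .negSucc 6, .ofNat 98, .negSucc 121, .negSucc 176⟩, ⟨.negSucc 1750, .negSucc 804, .ofNat 0, .negSucc 931, .negSucc 60, .negSucc 165⟩, ⟨.ofNat 15, .ofNat 452, .negSucc 2, .ofNat 568, .negSucc 217, .negSucc 106⟩, .ofNat 436, .negSucc 186, .ofNat 0, .negSucc 186, .ofNat 1839, .ofNat 0, .ofNat 625, .ofNat 190, .negSucc 509, .ofNat 0, .ofNat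 231, .negSucc 19, .ofNat 0, .ofNat 0, .ofNat 991, .ofNat 4192, .ofNat 0, .ofNat 0, .ofNat 46066405465551972516809932800, .ofNat 0, .ofNat 0, .ofNat 0, .ofNat 0, .ofNat 0, .ofNat 0, .ofNat 0, .ofNat 17441017473684482157851128627200, .ofNat 0, .ofNat 0, .ofNat 0, .ofNat 0, .ofNat 0⟩)
    (by decide +kernel)
theorem L00124 : Good (Phi V4.P V4.D 1 1) ⟨2, 2, 3, 0, 2, 3, 2, 0, 4, 2⟩ :=
  leaf_sound (S := T4.ds_pp) T4.ok_pp (w := 168) (c := ⟨⟨.negSucc 1061, .negSucc 780, .ofNat 83, .negSucc 415, .negSucc 17, .negSucc 210⟩, ⟨.ofNat 16, .negSucc 145, .negSucc 195, .negSucc 2, .negSucc 17, .negSucc 19⟩, ⟨.ofNat 934, .ofNat 385, .ofNat 57, .negSucc 273, .negSucc 13, .negSucc 77⟩, ⟨.negSucc 2446, .negSucc 984, .ofNat 29, .negSucc 975, .ofNat 17, .negSucc 416⟩, ⟨.ofNat 764, .ofNat 831, .ofNat 39, .ofNat 1536, .negSucc 608, .ofNat 91⟩, .ofNat 322, .negSucc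 45, .ofNat 0, .negSucc 45, .ofNat 772, .ofNat 0, .ofNat 898, .negSucc 33, .negSucc 597, .ofNat 0, .ofNat 360, .ofNat 15, .ofNat 0, .ofNat 0, .ofNat 993, .ofNat 2421, .ofNat 0, .ofNat 0, .ofNat 0, .ofNat 0, .ofNat 0, .ofNat 0, .ofNat 0, .ofNat 0, .ofNat 0, .ofNat 0, .ofNat 128510838559925750283609990758400, .ofNat 0, .ofNat 0, .ofNat 0, .ofNat 0, .ofNat 0⟩)
    (by decide +kernel)
theorem L00125 : Good (Phi V4.P V4.D 1 1) ⟨2, 2, 3, 0, 2, 3, 2, 1, 4, 2⟩ :=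
  leaf_sound (S := T4.ds_pp) T4.ok_pp (w := 168) (c := ⟨⟨.negSucc 1038, .negSucc 931, .ofNat 37, .negSucc 379, .negSucc 133, .negSucc 149⟩, ⟨.ofNat 11, .negSucc 181, .negSucc 225, .ofNat 1, .negSucc 22, .negSucc 3⟩, ⟨.ofNat 774, .ofNat 495, .ofNat 22, .negSucc 118, .ofNat 78, .negSucc 30⟩, ⟨.negSucc 2387, .negSucc 1203, .negSucc 25, .negSucc 890, .negSucc 224, .negSucc 326⟩, ⟨.ofNat 200, .ofNat 994, .negSucc 16, .ofNat 1231, .negSucc 268, .ofNat 165⟩, .ofNat 321, .negSucc 49, .ofNat 0, .negSucc 49, .ofNat 775, .ofNat 0, .ofNat 454, .ofNat 33, .negSucc 374, .ofNat 0, .ofNat 183, .ofNat 15, .ofNat 0, .ofNat 0, .ofNat 533, .ofNat 1786, .ofNat 0, .ofNat 0, .ofNat 0, .ofNat 0, .ofNat 0, .ofNat 0, .ofNat 0, .ofNat 0, .ofNat 0, .ofNat 0, .ofNat 76958206080974977891300068556800, .ofNat 0, .ofNat 0, .ofNat 0, .ofNat 0, .ofNat 0⟩)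
    (by decide +kernel)
theorem L00126 : Good (Phi V4.P V4.D 1 1) ⟨3, 4, 3, 0, 2, 3, 2, 0, 4, 3⟩ :=
  leaf_sound (S := T4.ds_pp) T4.ok_pp (w := 176) (c := ⟨⟨.negSucc 1331, .negSucc 315, .ofNat 60, .negSucc 390, .ofNat 29, .ofNat 22⟩, ⟨.ofNat 1, .negSucc 87, .negSucc 211, .negSucc 1, .negSucc 2, .ofNat 0⟩, ⟨.ofNat 859, .ofNat 91, .ofNat 90, .negSucc 283, .ofNat 77, .negSucc 158⟩, ⟨.negSucc 3003, .negSucc 343, .negSucc 11, .negSucc 897, .ofNat 92, .ofNat 49⟩, ⟨.ofNat 807, .ofNat 472, .negSucc 89, .ofNat 1650, .negSucc 640, .negSucc 81⟩, .ofNat 518, .negSucc 297, .ofNat 0, .negSucc 297, .ofNat 6583, .ofNat 0, .ofNat 664, .ofNat 128, .negSucc 291, .ofNat 0, .ofNat 125, .negSucc 8, .ofNat 0, .ofNat 0, .ofNat 919, .ofNat 8477, .ofNat 0, .ofNat 0, .ofNat 0, .ofNat 0, .ofNat 0, .ofNat 0, .ofNat 0, .ofNat 0, .ofNat 0, .ofNat 0, .ofNat 0, .ofNat 0, .ofNat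 0, .ofNat 0, .ofNat 0, .ofNat 0⟩)
    (by decide +kernel)
theorem L00127 : Good (Phi V4.P V4.D 1 1) ⟨3, 5, 3, 0, 2, 3, 2, 0, 4, 3⟩ :=
  leaf_sound (S := T4.ds_pp) T4.ok_pp (w := 176) (c := ⟨⟨.negSucc 1651, .negSucc 372, .ofNat 61, .negSucc 336, .negSucc 55, .ofNat 87⟩, ⟨.negSucc 96, .negSucc 6, .negSucc 239, .ofNat 55, .negSucc 44, .ofNat 21⟩, ⟨.ofNat 1010, .ofNat 132, .ofNat 51, .negSucc 377, .ofNat 147, .negSucc 250⟩, ⟨.negSucc 3327, .negSucc 470, .ofNat 3, .negSucc 922, .ofNat 15, .ofNat 158⟩, ⟨.ofNat 1191, .ofNat 638, .negSucc 211, .ofNat 1870, .negSucc 672, .negSucc 18⟩, .ofNat 431, .negSucc 223, .ofNat 0, .negSucc 223, .ofNat 1657, .ofNat 0, .ofNat 699, .ofNat 203, .negSucc 354, .ofNat 0, .ofNat 261, .negSucc 27, .ofNat 0, .ofNat 0, .ofNat 938, .ofNat 4520, .ofNat 0, .ofNat 0, .ofNat 412962652641217913122140979200, .ofNat 0, .ofNat 0, .ofNat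 0, .ofNat 0, .ofNat 0, .ofNat 0, .ofNat 0, .ofNat 126722572563949332340954418380800, .ofNat 0, .ofNat 0, .ofNat 0, .ofNat 0, .ofNat 0⟩)
    (by decide +kernel)
theorem L00128 : Good (Phi V4.P V4.D 1 1) ⟨2, 2, 3, 0, 2, 3, 2, 1, 4, 3⟩ :=
  leaf_sound (S := T4.ds_pp) T4.ok_pp (w := 176) (c := ⟨⟨.negSucc 1248, .negSucc 798, .ofNat 43, .negSucc 366, .negSucc 114, .ofNat 9⟩, ⟨.negSucc 0, .negSucc 187, .negSucc 206, .ofNat 13, .negSucc 19, .negSucc 5⟩, ⟨.ofNat 762, .ofNat 375, .ofNat 29, .negSucc 117, .ofNat 134, .negSucc 97⟩, ⟨.negSucc 2823, .negSucc 919, .negSucc 34, .negSucc 882, .negSucc 201, .ofNat 30⟩, ⟨.ofNat 259, .ofNat 903, .ofNat 21, .ofNat 1471, .negSucc 245, .negSucc 13⟩, .ofNat 321, .negSucc 46, .ofNat 0, .negSucc 46, .ofNat 770, .ofNat 0, .ofNat 796, .ofNat 24, .negSucc 532, .ofNat 0, .ofNat 349, .ofNat 37, .ofNat 0, .ofNat 0, .ofNat 990,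 .ofNat 3772, .ofNat 0, .ofNat 0, .ofNat 792619784467282123992701337600, .ofNat 0, .ofNat 0, .ofNat 0, .ofNat 0, .ofNat 0, .ofNat 0, .ofNat 0, .ofNat 264306272169259709856540839116800, .ofNat 0, .ofNat 0, .ofNat 0, .ofNat 0, .ofNat 0⟩)
    (by decide +kernel)
theorem L00129 : Good (Phi V4.P V4.D 1 1) ⟨3, 4, 3, 0, 1, 0, 2, 2, 2, 0⟩ :=
  leaf_sound (S := T4.ds_pp) T4.ok_pp (w := 160) (c := ⟨⟨.negSucc 461, .negSucc 180, .negSucc 8, .negSucc 307, .ofNat 115, .negSucc 125⟩, ⟨.ofNat 10, .negSucc 64, .negSucc 75, .negSucc 9, .ofNat 5, .negSucc 3⟩, ⟨.ofNat 337, .ofNat 163, .ofNat 14, .ofNat 277, .negSucc 333, .negSucc 47⟩, ⟨.negSucc 1066, .negSucc 178, .ofNat 31, .negSucc 654, .ofNat 245, .negSucc 268⟩, ⟨.negSucc 58, .ofNat 23, .negSucc 62, .negSucc 147, .negSucc 63, .ofNat 55⟩, .ofNat 449, .negSucc 78, .ofNat 0, .negSucc 78, .ofNat 2379, .ofNat 0, .ofNat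 284, .ofNat 31, .negSucc 281, .ofNat 0, .ofNat 94, .negSucc 4, .ofNat 0, .ofNat 0, .ofNat 538, .ofNat 1224, .ofNat 0, .ofNat 0, .ofNat 0, .ofNat 0, .ofNat 0, .ofNat 0, .ofNat 0, .ofNat 0, .ofNat 0, .ofNat 0, .ofNat 0, .ofNat 0, .ofNat 0, .ofNat 0, .ofNat 0, .ofNat 0⟩)
    (by decide +kernel)
theorem L00130 : Good (Phi V4.P V4.D 1 1) ⟨3, 5, 3, 0, 1, 0, 2, 2, 2, 0⟩ :=
  leaf_sound (S := T4.ds_pp) T4.ok_pp (w := 160) (c := ⟨⟨.negSucc 558, .negSucc 288, .ofNat 16, .negSucc 418, .ofNat 60, .negSucc 182⟩, ⟨.negSucc 13, .negSucc 146, .negSucc 64, .negSucc 68, .ofNat 5, .negSucc 28⟩, ⟨.ofNat 477, .ofNat 262, .ofNat 0, .ofNat 355, .negSucc 352, .negSucc 54⟩, ⟨.negSucc 1140, .negSucc 289, .ofNat 41, .negSucc 773, .ofNat 124, .negSucc 340⟩, ⟨.negSucc 91, .ofNat 64, .negSucc 8, .ofNat 10, .negSucc 66, .ofNat 28⟩, .ofNat 430, .negSucc 230, .ofNat 0, .negSucc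 230, .ofNat 1607, .ofNat 0, .ofNat 290, .ofNat 113, .negSucc 347, .ofNat 0, .ofNat 135, .negSucc 44, .ofNat 0, .ofNat 0, .ofNat 590, .ofNat 1501, .ofNat 0, .ofNat 0, .ofNat 0, .ofNat 0, .ofNat 0, .ofNat 0, .ofNat 0, .ofNat 0, .ofNat 0, .ofNat 0, .ofNat 0, .ofNat 0, .ofNat 0, .ofNat 0, .ofNat 0, .ofNat 0⟩)
    (by decide +kernel)
theorem L00131 : Good (Phi V4.P V4.D 1 1) ⟨2, 2, 3, 0, 2, 0, 3, 6, 3, 0⟩ :=
  leaf_sound (S := T4.ds_pp) T4.ok_pp (w := 168) (c := ⟨⟨.negSucc 386, .negSucc 413, .negSucc 22, .negSucc 90, .ofNat 123, .negSucc 33⟩, ⟨.ofNat 20, .negSucc 150, .negSucc 60, .negSucc 6, .ofNat 10, .negSucc 3⟩, ⟨.negSucc 90, .ofNat 392, .ofNat 22, .ofNat 112, .negSucc 244, .ofNat 51⟩, ⟨.negSucc 910, .negSucc 489, .negSucc 16, .negSucc 173, .ofNat 248, .negSucc 66⟩, ⟨.negSucc 70, .ofNat 44, .ofNat 0, .negSucc 216, .negSucc 3, .ofNat 63⟩, .ofNat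 322, .negSucc 46, .ofNat 0, .negSucc 46, .ofNat 777, .ofNat 0, .ofNat 341, .ofNat 46, .negSucc 506, .ofNat 0, .ofNat 186, .negSucc 27, .ofNat 0, .ofNat 0, .ofNat 728, .ofNat 3263, .ofNat 0, .ofNat 0, .ofNat 0, .ofNat 0, .ofNat 0, .ofNat 0, .ofNat 0, .ofNat 0, .ofNat 0, .ofNat 0, .ofNat 0, .ofNat 0, .ofNat 0, .ofNat 0, .ofNat 33143609969392817535188572569600, .ofNat 0⟩)
    (by decide +kernel)
theorem L00132 : Good (Phi V4.P V4.D 1 1) ⟨2, 2, 3, 0, 2, 0, 3, 7, 3, 0⟩ :=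
  leaf_sound (S := T4.ds_pp) T4.ok_pp (w := 168) (c := ⟨⟨.negSucc 328, .negSucc 329, .negSucc 45, .negSucc 143, .ofNat 287, .ofNat 49⟩, ⟨.ofNat 8, .negSucc 104, .negSucc 50, .negSucc 27, .ofNat 32, .ofNat 7⟩, ⟨.negSucc 321, .ofNat 322, .ofNat 40, .ofNat 145, .negSucc 371, .ofNat 66⟩, ⟨.negSucc 748, .negSucc 439, .negSucc 58, .negSucc 249, .ofNat 563, .ofNat 91⟩, ⟨.negSucc 70, .ofNat 19, .ofNat 14, .negSucc 203, .ofNat 30, .ofNat 58⟩, .ofNat 436, .negSucc 167, .ofNat 0, .negSucc 167, .ofNat 1880, .ofNat 0, .ofNat 331, .ofNat 84, .negSucc 511, .ofNat 0, .ofNat 136, .negSucc 48, .ofNat 0, .ofNat 0, .ofNat 733, .ofNat 435, .ofNat 0, .ofNat 0, .ofNat 0, .ofNat 0, .ofNat 0, .ofNat 0, .ofNat 0, .ofNat 0, .ofNat 0, .ofNat 0, .ofNat 0, .ofNat 0, .ofNat 0, .ofNat 0, .ofNat 0, .ofNat 0⟩)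
    (by decide +kernel)
theorem L00133 : Good (Phi V4.P V4.D 1 1) ⟨2, 2, 3, 0, 2, 0, 3, 6, 3, 1⟩ :=
  leaf_sound (S := T4.ds_pp) T4.ok_pp (w := 168) (c := ⟨⟨.negSucc 381, .negSucc 388, .negSucc 46, .negSucc 176, .ofNat 142, .ofNat 6⟩, ⟨.ofNat 18, .negSucc 134, .negSucc 74, .negSucc 21, .ofNat 16, .negSucc 0⟩, ⟨.negSucc 69, .ofNat 374, .ofNat 42, .ofNat 132, .negSucc 201, .ofNat 32⟩, ⟨.negSucc 896, .negSucc 463, .negSucc 52, .negSucc 334, .ofNat 278, .ofNat 12⟩, ⟨.negSucc 53, .ofNat 25, .ofNat 3, .negSucc 151, .ofNat 15, .ofNat 31⟩, .ofNat 320, .negSucc 52, .ofNat 0, .negSucc 52, .ofNat 756, .ofNat 0, .ofNat 302, .ofNat 46, .negSucc 455, .ofNat 0, .ofNat 169, .negSucc 33, .ofNat 0, .ofNat 0, .ofNat 652, .ofNat 2100, .ofNat 0, .ofNat 0, .ofNat 0, .ofNat 0, .ofNat 0, .ofNat 0, .ofNat 0, .ofNat 0, .ofNat 0, .ofNat 0, .ofNat 0, .ofNat 0, .ofNat 0,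 .ofNat 0, .ofNat 0, .ofNat 0⟩)
    (by decide +kernel)
theorem L00134 : Good (Phi V4.P V4.D 1 1) ⟨3, 4, 3, 0, 2, 0, 3, 7, 3, 1⟩ :=
  leaf_sound (S := T4.ds_pp) T4.ok_pp (w := 176) (c := ⟨⟨.negSucc 292, .negSucc 112, .ofNat 3, .negSucc 179, .ofNat 270, .ofNat 11⟩, ⟨.negSucc 1, .negSucc 26, .negSucc 32, .negSucc 8, .ofNat 12, .ofNat 3⟩, ⟨.negSucc 248, .ofNat 104, .ofNat 11, .ofNat 147, .negSucc 303, .ofNat 68⟩, ⟨.negSucc 650, .negSucc 156, .ofNat 30, .negSucc 372, .ofNat 567, .ofNat 16⟩, ⟨.negSucc 48, .ofNat 5, .negSucc 11, .negSucc 122, .ofNat 44, .ofNat 30⟩, .ofNat 449, .negSucc 85, .ofNat 0, .negSucc 85, .ofNat 2379, .ofNat 0, .ofNat 573, .ofNat 68, .negSucc 777, .ofNat 0, .ofNat 195, .negSucc 30, .ofNat 0, .ofNat 0, .ofNat 1191, .ofNat 6824, .ofNat 0, .ofNat 0, .ofNat 0, .ofNat 0, .ofNat 0, .ofNat 0, .ofNat 41025573475613043754875538636800,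 .ofNat 0, .ofNat 0, .ofNat 0, .ofNat 0, .ofNat 0, .ofNat 0, .ofNat 0, .ofNat 0, .ofNat 0⟩)
    (by decide +kernel)
theorem L00135 : Good (Phi V4.P V4.D 1 1) ⟨3, 5, 3, 0, 2, 0, 3, 7, 3, 1⟩ :=
  leaf_sound (S := T4.ds_pp) T4.ok_pp (w := 176) (c := ⟨⟨.negSucc 388, .negSucc 246, .ofNat 10, .negSucc 331, .ofNat 373, .ofNat 20⟩, ⟨.negSucc 31, .negSucc 97, .negSucc 22, .negSucc 70, .ofNat 67, .ofNat 14⟩, ⟨.negSucc 148, .ofNat 238, .negSucc 9, .ofNat 274, .negSucc 407, .ofNat 59⟩, ⟨.negSucc 763, .negSucc 326, .ofNat 18, .negSucc 574, .ofNat 675, .ofNat 24⟩, ⟨.negSucc 35, .ofNat 3, .negSucc 2, .negSucc 113, .ofNat 28, .ofNat 23⟩, .ofNat 429, .negSucc 227, .ofNat 0, .negSucc 227, .ofNat 1563, .ofNat 0, .ofNat 579, .ofNat 219, .negSucc 1044, .ofNat 0, .ofNat 279, .negSucc 166, .ofNat 0, .ofNat 0, .ofNat 1398, .ofNat 2370, .ofNat 0, .ofNat 0, .ofNat 0, .ofNat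 0, .ofNat 0, .ofNat 0, .ofNat 0, .ofNat 0, .ofNat 0, .ofNat 0, .ofNat 0, .ofNat 0, .ofNat 0, .ofNat 55512655435192263404833326130790400, .ofNat 0, .ofNat 0⟩)
    (by decide +kernel)
theorem L00136 : Good (Phi V4.P V4.D 1 1) ⟨3, 4, 3, 0, 2, 1, 2, 3, 3, 0⟩ :=
  leaf_sound (S := T4.ds_pp) T4.ok_pp (w := 168) (c := ⟨⟨.negSucc 401, .negSucc 216, .negSucc 43, .negSucc 279, .ofNat 241, .negSucc 102⟩, ⟨.ofNat 7, .negSucc 59, .negSucc 48, .negSucc 11, .ofNat 10, .negSucc 1⟩, ⟨.negSucc 34, .ofNat 211, .negSucc 24, .ofNat 319, .negSucc 461, .ofNat 90⟩, ⟨.negSucc 918, .negSucc 277, .negSucc 75, .negSucc 590, .ofNat 510, .negSucc 227⟩, ⟨.negSucc 372, .ofNat 52, .ofNat 50, .ofNat 17, .ofNat 68, .ofNat 124⟩, .ofNat 448, .negSucc 83, .ofNat 0, .negSucc 83, .ofNat 2357, .ofNat 0, .ofNat 340, .ofNat 42, .negSucc 417, .ofNat 0, .ofNat 112, .negSucc 11, .ofNat 0,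 .ofNat 0, .ofNat 649, .ofNat 2255, .ofNat 0, .ofNat 0, .ofNat 0, .ofNat 0, .ofNat 0, .ofNat 700980837635448568440009680486400, .ofNat 1120787480719092968142667776000, .ofNat 0, .ofNat 0, .ofNat 0, .ofNat 0, .ofNat 0, .ofNat 0, .ofNat 0, .ofNat 0, .ofNat 0⟩)
    (by decide +kernel)
theorem L00137 : Good (Phi V4.P V4.D 1 1) ⟨3, 5, 3, 0, 2, 1, 2, 3, 3, 0⟩ :=
  leaf_sound (S := T4.ds_pp) T4.ok_pp (w := 168) (c := ⟨⟨.negSucc 499, .negSucc 406, .ofNat 62, .negSucc 377, .ofNat 196, .negSucc 237⟩, ⟨.negSucc 22, .negSucc 168, .negSucc 49, .negSucc 49, .ofNat 33, .negSucc 34⟩, ⟨.ofNat 62, .ofNat 347, .negSucc 55, .ofNat 400, .negSucc 427, .ofNat 196⟩, ⟨.negSucc 994, .negSucc 510, .ofNat 130, .negSucc 714, .ofNat 358, .negSucc 449⟩, ⟨.negSucc 311, .ofNat 92, .negSucc 36, .ofNat 99, .ofNat 18, .ofNat 104⟩, .ofNat 430, .negSucc 227, .ofNat 0, .negSucc 227,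 .ofNat 1596, .ofNat 0, .ofNat 345, .ofNat 139, .negSucc 534, .ofNat 0, .ofNat 158, .negSucc 74, .ofNat 0, .ofNat 0, .ofNat 725, .ofNat 738, .ofNat 0, .ofNat 0, .ofNat 0, .ofNat 0, .ofNat 0, .ofNat 0, .ofNat 0, .ofNat 0, .ofNat 0, .ofNat 0, .ofNat 0, .ofNat 0, .ofNat 0, .ofNat 3713760580034768626359916403097600, .ofNat 0, .ofNat 0⟩)
    (by decide +kernel)

end Crest.Agent.R097C4.N4pp
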