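import Crest.Agent.R097.T4

/-!
# Row 97, box cover in dimension n = 4 (generated)
-/

set_option autoImplicit false
set_option Elab.async false
set_option maxHeartbeats 0
set_option maxRecDepth 100000

open Crest.Agent.R097 Crest.Agent.R097.KA


namespace Crest.Agent.R097C4.N4pp

theorem L00138 : Good (Phi V4.P V4.D 1 1) ⟨3, 4, 3, 0, 2, 1, 2, 3, 3, 1⟩ :=
  leaf_sound (S := T4.ds_pp) T4.ok_pp (w := 168) (c := ⟨⟨.negSucc 377, .negSucc 260, .negSucc 31, .negSucc 434, .ofNat 201, .negSucc 110⟩, ⟨.ofNat 15, .negSucc 61, .negSucc 83, .negSucc 21, .ofNat 7, .negSucc 7⟩, ⟨.negSucc 65, .ofNat 225, .negSucc 50, .ofNat 385, .negSucc 313, .ofNat 113⟩, ⟨.negSucc 888, .negSucc 361, .negSucc 4, .negSucc 910, .ofNat 425, .negSucc 232⟩, ⟨.negSucc 299, .ofNat 52, .ofNat 44, .ofNat 68, .ofNat 125, .ofNat 91⟩, .ofNat 449, .negSucc 81, .ofNat 0, .negSucc 81, .ofNat 2367, .ofNat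 0, .ofNat 305, .ofNat 37, .negSucc 352, .ofNat 0, .ofNat 100, .negSucc 10, .ofNat 0, .ofNat 0, .ofNat 566, .ofNat 1753, .ofNat 0, .ofNat 0, .ofNat 0, .ofNat 0, .ofNat 0, .ofNat 2661344700386710111514517307392000, .ofNat 0, .ofNat 0, .ofNat 0, .ofNat 0, .ofNat 0, .ofNat 0, .ofNat 0, .ofNat 1438187730105086010148008650342400, .ofNat 0, .ofNat 0⟩)
    (by decide +kernel)
theorem L00139 : Good (Phi V4.P V4.D 1 1) ⟨4, 10, 3, 0, 2, 1, 2, 3, 3, 1⟩ :=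
  leaf_sound (S := T4.ds_pp) T4.ok_pp (w := 176) (c := ⟨⟨.negSucc 554, .negSucc 225, .negSucc 3, .negSucc 578, .ofNat 184, .negSucc 107⟩, ⟨.negSucc 30, .negSucc 76, .negSucc 68, .negSucc 66, .ofNat 22, .negSucc 13⟩, ⟨.ofNat 103, .ofNat 190, .negSucc 6, .ofNat 469, .negSucc 285, .ofNat 92⟩, ⟨.negSucc 1097, .negSucc 302, .negSucc 1, .negSucc 1114, .ofNat 342, .negSucc 208⟩, ⟨.negSucc 237, .ofNat 31, .negSucc 1, .ofNat 96, .ofNat 89, .ofNat 75⟩, .ofNat 512, .negSucc 425, .ofNat 0, .negSucc 425, .ofNat 3614, .ofNat 0, .ofNat 291, .ofNat 123, .negSucc 392, .ofNat 0, .ofNat 99, .negSucc 45, .ofNat 0, .ofNat 0, .ofNat 587, .ofNat 858, .ofNat 0, .ofNat 0, .ofNat 0, .ofNat 0, .ofNat 0, .ofNat 0, .ofNat 0, .ofNat 0, .ofNat 0, .ofNat 0, .ofNat 0, .ofNat 0, .ofNat 0, .ofNat 0, .ofNat 0, .ofNat 0⟩)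
    (by decide +kernel)
theorem L00140 : Good (Phi V4.P V4.D 1 1) ⟨4, 11, 3, 0, 2, 1, 2, 3, 3, 1⟩ :=
  leaf_sound (S := T4.ds_pp) T4.ok_pp (w := 176) (c := ⟨⟨.negSucc 714, .negSucc 266, .ofNat 42, .negSucc 645, .ofNat 94, .negSucc 121⟩, ⟨.negSucc 82, .negSucc 111, .negSucc 67, .negSucc 113, .ofNat 21, .negSucc 15⟩, ⟨.ofNat 229, .ofNat 236, .negSucc 46, .ofNat 492, .negSucc 188, .ofNat 118⟩, ⟨.negSucc 1301, .negSucc 332, .ofNat 81, .negSucc 1182, .ofNat 159, .negSucc 228⟩, ⟨.negSucc 197, .ofNat 19, .negSucc 5, .ofNat 142, .ofNat 40, .ofNat 68⟩, .ofNat 565, .negSucc 597, .ofNat 0, .negSucc 597, .ofNat 3056, .ofNat 0, .ofNat 285, .ofNat 166, .negSucc 453, .ofNat 0, .ofNat 131, .negSucc 86, .ofNat 0, .ofNat 0, .ofNat 627, .ofNat 531, .ofNat 0, .ofNat 0, .ofNat 0, .ofNat 0, .ofNat 0, .ofNat 54025684338967423707648173801472000, .ofNat 407998125455939932705416806400,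 .ofNat 0, .ofNat 0, .ofNat 0, .ofNat 881915964999061393476314726400, .ofNat 0, .ofNat 0, .ofNat 50759776472930908484552299118592000, .ofNat 0, .ofNat 0⟩)
    (by decide +kernel)
theorem L00141 : Good (Phi V4.P V4.D 1 1) ⟨2, 2, 3, 0, 2, 2, 2, 2, 3, 0⟩ :=
  leaf_sound (S := T4.ds_pp) T4.ok_pp (w := 168) (c := ⟨⟨.negSucc 329, .negSucc 627, .negSucc 80, .negSucc 245, .negSucc 61, .negSucc 560⟩, ⟨.ofNat 57, .negSucc 199, .negSucc 130, .negSucc 9, .negSucc 13, .negSucc 59⟩, ⟨.ofNat 396, .ofNat 489, .ofNat 50, .ofNat 146, .negSucc 192, .ofNat 222⟩, ⟨.negSucc 869, .negSucc 743, .negSucc 144, .negSucc 537, .negSucc 101, .negSucc 1115⟩, ⟨.negSucc 238, .ofNat 367, .ofNat 35, .ofNat 392, .negSucc 175, .ofNat 129⟩, .ofNat 323, .negSucc 43, .ofNat 0, .negSucc 43, .ofNat 779, .ofNat 0, .ofNat 405, .ofNat 63, .negSucc 533, .ofNat 0, .ofNat 187, .ofNat 12, .ofNat 0, .ofNat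 0, .ofNat 680, .ofNat 836, .ofNat 0, .ofNat 0, .ofNat 0, .ofNat 0, .ofNat 0, .ofNat 0, .ofNat 0, .ofNat 0, .ofNat 0, .ofNat 0, .ofNat 0, .ofNat 0, .ofNat 0, .ofNat 0, .ofNat 0, .ofNat 0⟩)
    (by decide +kernel)
theorem L00142 : Good (Phi V4.P V4.D 1 1) ⟨2, 2, 3, 0, 2, 3, 2, 2, 3, 0⟩ :=
  leaf_sound (S := T4.ds_pp) T4.ok_pp (w := 168) (c := ⟨⟨.negSucc 80, .negSucc 916, .negSucc 8, .negSucc 238, .negSucc 253, .negSucc 1177⟩, ⟨.ofNat 101, .negSucc 186, .negSucc 161, .negSucc 15, .negSucc 39, .negSucc 133⟩, ⟨.ofNat 259, .ofNat 572, .negSucc 4, .negSucc 7, .ofNat 66, .ofNat 527⟩, ⟨.negSucc 405, .negSucc 1321, .negSucc 61, .negSucc 545, .negSucc 462, .negSucc 2360⟩, ⟨.negSucc 273, .ofNat 686, .ofNat 55, .ofNat 886, .negSucc 33, .ofNat 511⟩, .ofNat 319, .negSucc 54, .ofNat 0, .negSucc 54, .ofNat 753, .ofNat 0, .ofNat 509, .ofNat 134, .negSucc 637, .ofNat 0, .ofNat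 210, .negSucc 2, .ofNat 0, .ofNat 0, .ofNat 663, .ofNat 628, .ofNat 0, .ofNat 0, .ofNat 0, .ofNat 0, .ofNat 0, .ofNat 0, .ofNat 0, .ofNat 0, .ofNat 0, .ofNat 0, .ofNat 4122204069596029294294440345600, .ofNat 0, .ofNat 0, .ofNat 0, .ofNat 0, .ofNat 0⟩)
    (by decide +kernel)
theorem L00143 : Good (Phi V4.P V4.D 1 1) ⟨3, 4, 3, 0, 2, 2, 2, 2, 3, 1⟩ :=
  leaf_sound (S := T4.ds_pp) T4.ok_pp (w := 168) (c := ⟨⟨.negSucc 743, .negSucc 360, .ofNat 172, .negSucc 495, .negSucc 9, .negSucc 101⟩, ⟨.ofNat 11, .negSucc 100, .negSucc 89, .negSucc 11, .ofNat 1, .negSucc 0⟩, ⟨.ofNat 500, .ofNat 242, .negSucc 187, .ofNat 299, .negSucc 114, .negSucc 36⟩, ⟨.negSucc 1704, .negSucc 441, .ofNat 326, .negSucc 1077, .negSucc 21, .negSucc 226⟩, ⟨.negSucc 197, .ofNat 162, .negSucc 118, .ofNat 484, .negSucc 58, .ofNat 42⟩, .ofNat 451, .negSucc 68, .ofNat 0, .negSucc 68, .ofNat 2401,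 .ofNat 0, .ofNat 640, .ofNat 65, .negSucc 548, .ofNat 0, .ofNat 191, .ofNat 3, .ofNat 0, .ofNat 0, .ofNat 1015, .ofNat 2750, .ofNat 0, .ofNat 0, .ofNat 0, .ofNat 0, .ofNat 0, .ofNat 0, .ofNat 0, .ofNat 0, .ofNat 0, .ofNat 0, .ofNat 0, .ofNat 0, .ofNat 0, .ofNat 0, .ofNat 0, .ofNat 0⟩)
    (by decide +kernel)
theorem L00144 : Good (Phi V4.P V4.D 1 1) ⟨3, 5, 3, 0, 2, 2, 2, 2, 3, 1⟩ :=
  leaf_sound (S := T4.ds_pp) T4.ok_pp (w := 168) (c := ⟨⟨.negSucc 943, .negSucc 581, .ofNat 104, .negSucc 662, .negSucc 146, .negSucc 113⟩, ⟨.negSucc 40, .negSucc 198, .negSucc 131, .negSucc 64, .negSucc 21, .negSucc 13⟩, ⟨.ofNat 686, .ofNat 395, .negSucc 104, .ofNat 342, .ofNat 0, .negSucc 77⟩, ⟨.negSucc 1889, .negSucc 724, .ofNat 174, .negSucc 1338, .negSucc 251, .negSucc 220⟩, ⟨.negSucc 106, .ofNat 256, .negSucc 8, .ofNat 666, .negSucc 92, .ofNat 30⟩, .ofNat 313, .negSucc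 66, .ofNat 0, .negSucc 66, .ofNat 719, .ofNat 0, .ofNat 371, .ofNat 83, .negSucc 428, .ofNat 0, .ofNat 182, .negSucc 4, .ofNat 0, .ofNat 0, .ofNat 590, .ofNat 1234, .ofNat 0, .ofNat 0, .ofNat 0, .ofNat 0, .ofNat 0, .ofNat 0, .ofNat 0, .ofNat 0, .ofNat 0, .ofNat 0, .ofNat 0, .ofNat 0, .ofNat 0, .ofNat 0, .ofNat 0, .ofNat 0⟩)
    (by decide +kernel)
theorem L00145 : Good (Phi V4.P V4.D 1 1) ⟨3, 4, 3, 0, 2, 3, 2, 2, 3, 1⟩ :=
  leaf_sound (S := T4.ds_pp) T4.ok_pp (w := 176) (c := ⟨⟨.negSucc 1031, .negSucc 490, .negSucc 36, .negSucc 555, .negSucc 234, .negSucc 198⟩, ⟨.ofNat 24, .negSucc 121, .negSucc 204, .negSucc 15, .negSucc 12, .negSucc 6⟩, ⟨.ofNat 630, .ofNat 241, .ofNat 83, .ofNat 208, .ofNat 173, .ofNat 17⟩, ⟨.negSucc 2370, .negSucc 639, .negSucc 137, .negSucc 1230, .negSucc 499, .negSucc 425⟩, ⟨.negSucc 176, .ofNat 500, .negSucc 79, .ofNat 1468, .ofNat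 177, .ofNat 245⟩, .ofNat 518, .negSucc 290, .ofNat 0, .negSucc 290, .ofNat 6640, .ofNat 0, .ofNat 738, .ofNat 183, .negSucc 498, .ofNat 0, .ofNat 136, .negSucc 12, .ofNat 0, .ofNat 0, .ofNat 969, .ofNat 3557, .ofNat 0, .ofNat 0, .ofNat 0, .ofNat 0, .ofNat 0, .ofNat 0, .ofNat 4916148767331307087689311846400, .ofNat 0, .ofNat 0, .ofNat 0, .ofNat 7400189085345510129991994572800, .ofNat 0, .ofNat 0, .ofNat 0, .ofNat 6898160882091201240600517017600, .ofNat 0⟩)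
    (by decide +kernel)
theorem L00146 : Good (Phi V4.P V4.D 1 1) ⟨4, 10, 3, 0, 2, 3, 2, 2, 3, 1⟩ :=
  leaf_sound (S := T4.ds_pp) T4.ok_pp (w := 176) (c := ⟨⟨.negSucc 1523, .negSucc 303, .ofNat 96, .negSucc 570, .negSucc 374, .negSucc 148⟩, ⟨.negSucc 94, .negSucc 54, .negSucc 230, .ofNat 0, .negSucc 34, .negSucc 16⟩, ⟨.ofNat 912, .ofNat 153, .negSucc 33, .ofNat 163, .ofNat 256, .negSucc 14⟩, ⟨.negSucc 3011, .negSucc 385, .ofNat 86, .negSucc 1287, .negSucc 732, .negSucc 323⟩, ⟨.ofNat 240, .ofNat 269, .negSucc 106, .ofNat 1652, .ofNat 148, .ofNat 249⟩, .ofNat 430, .negSucc 191, .ofNat 0, .negSucc 191, .ofNat 1837, .ofNat 0, .ofNat 781, .ofNat 269, .negSucc 601, .ofNat 0, .ofNat 268, .negSucc 29, .ofNat 0, .ofNat 0, .ofNat 1010, .ofNat 2827, .ofNat 0, .ofNat 0, .ofNat 0, .ofNat 0, .ofNat 0, .ofNat 0, .ofNat 0, .ofNat 0, .ofNat 0, .ofNat 0, .ofNat 0, .ofNat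 0, .ofNat 0, .ofNat 0, .ofNat 0, .ofNat 0⟩)
    (by decide +kernel)
theorem L00147 : Good (Phi V4.P V4.D 1 1) ⟨4, 11, 3, 0, 2, 3, 2, 2, 4, 2⟩ :=
  leaf_sound (S := T4.ds_pp) T4.ok_pp (w := 184) (c := ⟨⟨.negSucc 1737, .negSucc 455, .ofNat 74, .negSucc 593, .negSucc 459, .negSucc 176⟩, ⟨.negSucc 119, .negSucc 108, .negSucc 243, .negSucc 4, .negSucc 90, .negSucc 19⟩, ⟨.ofNat 1072, .ofNat 245, .negSucc 25, .ofNat 140, .ofNat 257, .ofNat 48⟩, ⟨.negSucc 3251, .negSucc 606, .ofNat 49, .negSucc 1355, .negSucc 819, .negSucc 365⟩, ⟨.ofNat 534, .ofNat 188, .negSucc 38, .ofNat 1514, .ofNat 32, .ofNat 245⟩, .ofNat 428, .negSucc 244, .ofNat 0, .negSucc 244, .ofNat 1424, .ofNat 0, .ofNat 405, .ofNat 223, .negSucc 409, .ofNat 0, .ofNat 176, .negSucc 46, .ofNat 0, .ofNat 0, .ofNat 552, .ofNat 1573, .ofNat 0, .ofNat 0, .ofNat 0, .ofNat 0, .ofNat 0, .ofNat 0, .ofNat 0, .ofNat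 0, .ofNat 0, .ofNat 0, .ofNat 9555664371367165021923154329600, .ofNat 0, .ofNat 0, .ofNat 0, .ofNat 0, .ofNat 0⟩)
    (by decide +kernel)
theorem L00148 : Good (Phi V4.P V4.D 1 1) ⟨4, 11, 3, 0, 2, 3, 3, 4, 4, 3⟩ :=
  leaf_sound (S := T4.ds_pp) T4.ok_pp (w := 184) (c := ⟨⟨.negSucc 1980, .negSucc 352, .ofNat 126, .negSucc 491, .negSucc 240, .ofNat 41⟩, ⟨.negSucc 169, .negSucc 76, .negSucc 226, .ofNat 32, .negSucc 44, .ofNat 12⟩, ⟨.ofNat 1117, .ofNat 199, .negSucc 61, .ofNat 111, .ofNat 165, .negSucc 82⟩, ⟨.negSucc 3685, .negSucc 453, .ofNat 131, .negSucc 1237, .negSucc 425, .ofNat 64⟩, ⟨.ofNat 613, .ofNat 243, .negSucc 25, .ofNat 1754, .ofNat 13, .ofNat 43⟩, .ofNat 428, .negSucc 242, .ofNat 0, .negSucc 242, .ofNat 1409, .ofNat 0, .ofNat 731, .ofNat 351, .negSucc 588, .ofNat 0, .ofNat 323, .negSucc 56, .ofNat 0, .ofNat 0, .ofNat 1006, .ofNat 3571, .ofNat 0,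 .ofNat 11856527591350781012880468108902400, .ofNat 1574228123037880689959003750400, .ofNat 0, .ofNat 0, .ofNat 0, .ofNat 0, .ofNat 0, .ofNat 0, .ofNat 1411506327378686560494060029607936000, .ofNat 372470706824110857408360952627200, .ofNat 0, .ofNat 0, .ofNat 0, .ofNat 0, .ofNat 0⟩)
    (by decide +kernel)
theorem L00149 : Good (Phi V4.P V4.D 1 1) ⟨4, 11, 3, 0, 3, 6, 3, 5, 4, 3⟩ :=
  leaf_sound (S := T4.ds_pp) T4.ok_pp (w := 192) (c := ⟨⟨.negSucc 2050, .negSucc 445, .ofNat 130, .negSucc 437, .negSucc 304, .ofNat 12⟩, ⟨.negSucc 172, .negSucc 119, .negSucc 225, .negSucc 24, .negSucc 55, .ofNat 5⟩, ⟨.ofNat 1169, .ofNat 263, .negSucc 90, .ofNat 191, .ofNat 189, .negSucc 53⟩, ⟨.negSucc 3848, .negSucc 582, .ofNat 158, .negSucc 933, .negSucc 551, .ofNat 11⟩, ⟨.ofNat 659, .ofNat 230, .negSucc 50, .ofNat 797, .ofNat 45, .ofNat 60⟩, .ofNat 308, .negSucc 85, .ofNat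 0, .negSucc 85, .ofNat 668, .ofNat 0, .ofNat 427, .ofNat 140, .negSucc 471, .ofNat 0, .ofNat 208, .negSucc 21, .ofNat 0, .ofNat 0, .ofNat 582, .ofNat 4436, .ofNat 0, .ofNat 6474453004300409973029137301058355200, .ofNat 1203985081998171627384950960947200, .ofNat 0, .ofNat 0, .ofNat 0, .ofNat 45309175646101530289702856294400000, .ofNat 0, .ofNat 0, .ofNat 0, .ofNat 58424606607176138038253395850035200, .ofNat 0, .ofNat 0, .ofNat 0, .ofNat 0, .ofNat 0⟩)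
    (by decide +kernel)
theorem L00150 : Good (Phi V4.P V4.D 1 1) ⟨4, 11, 3, 0, 3, 7, 3, 5, 4, 3⟩ :=
  leaf_sound (S := T4.ds_pp) T4.ok_pp (w := 192) (c := ⟨⟨.negSucc 2503, .negSucc 422, .ofNat 143, .negSucc 136, .negSucc 393, .ofNat 31⟩, ⟨.negSucc 191, .negSucc 50, .negSucc 303, .ofNat 71, .negSucc 64, .ofNat 25⟩, ⟨.ofNat 1327, .ofNat 229, .negSucc 62, .ofNat 47, .ofNat 258, .negSucc 39⟩, ⟨.negSucc 4739, .negSucc 565, .ofNat 120, .negSucc 501, .negSucc 730, .ofNat 31⟩, ⟨.ofNat 1297, .ofNat 299, .negSucc 55, .ofNat 1272, .ofNat 201, .ofNat 181⟩, .ofNat 429, .negSucc 244, .ofNat 0, .negSucc 244, .ofNat 1424, .ofNat 0, .ofNat 800, .ofNat 418, .negSucc 647, .ofNat 0, .ofNat 350, .negSucc 67, .ofNat 0, .ofNat 0, .ofNat 1022, .ofNat 3440, .ofNat 0, .ofNat 6394386482865082702284537560511283200, .ofNat 944652683954232517787415635558400, .ofNat 0, .ofNat 0, .ofNat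 0, .ofNat 0, .ofNat 0, .ofNat 0, .ofNat 340498119288618725583891394670572339200, .ofNat 191767265676648747728286909884006400, .ofNat 0, .ofNat 0, .ofNat 0, .ofNat 0, .ofNat 0⟩)
    (by decide +kernel)
theorem L00151 : Good (Phi V4.P V4.D 1 1) ⟨3, 4, 3, 0, 2, 2, 2, 3, 3, 0⟩ :=
  leaf_sound (S := T4.ds_pp) T4.ok_pp (w := 168) (c := ⟨⟨.negSucc 274, .negSucc 391, .ofNat 139, .negSucc 478, .negSucc 68, .negSucc 433⟩, ⟨.ofNat 26, .negSucc 83, .negSucc 83, .negSucc 16, .negSucc 4, .negSucc 17⟩, ⟨.ofNat 6, .ofNat 295, .negSucc 86, .ofNat 446, .negSucc 147, .ofNat 265⟩, ⟨.negSucc 691, .negSucc 574, .ofNat 306, .negSucc 1026, .negSucc 142, .negSucc 920⟩, ⟨.negSucc 456, .ofNat 130, .ofNat 63, .ofNat 456, .ofNat 107, .ofNat 188⟩, .ofNat 451, .negSucc 70, .ofNat 0, .negSucc 70, .ofNat 2415, .ofNat 0, .ofNat 385, .ofNat 50, .negSucc 428, .ofNat 0, .ofNat 114, .negSucc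 4, .ofNat 0, .ofNat 0, .ofNat 620, .ofNat 987, .ofNat 0, .ofNat 0, .ofNat 0, .ofNat 0, .ofNat 0, .ofNat 0, .ofNat 0, .ofNat 0, .ofNat 0, .ofNat 0, .ofNat 0, .ofNat 0, .ofNat 0, .ofNat 0, .ofNat 0, .ofNat 0⟩)
    (by decide +kernel)
theorem L00152 : Good (Phi V4.P V4.D 1 1) ⟨3, 5, 3, 0, 2, 2, 2, 3, 3, 0⟩ :=
  leaf_sound (S := T4.ds_pp) T4.ok_pp (w := 168) (c := ⟨⟨.negSucc 444, .negSucc 563, .ofNat 51, .negSucc 641, .negSucc 154, .negSucc 617⟩, ⟨.ofNat 30, .negSucc 196, .negSucc 109, .negSucc 72, .negSucc 33, .negSucc 99⟩, ⟨.ofNat 186, .ofNat 432, .negSucc 79, .ofNat 494, .negSucc 79, .ofNat 375⟩, ⟨.negSucc 922, .negSucc 737, .ofNat 96, .negSucc 1282, .negSucc 276, .negSucc 1168⟩, ⟨.negSucc 311, .ofNat 178, .negSucc 25, .ofNat 562, .ofNat 2, .ofNat 177⟩, .ofNat 430, .negSucc 228, .ofNat 0, .negSucc 228, .ofNat 1590, .ofNat 0, .ofNat 388, .ofNat 184, .negSucc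 579, .ofNat 0, .ofNat 168, .negSucc 75, .ofNat 0, .ofNat 0, .ofNat 704, .ofNat 572, .ofNat 0, .ofNat 0, .ofNat 0, .ofNat 0, .ofNat 0, .ofNat 2512607988578502154040332045516800, .ofNat 0, .ofNat 0, .ofNat 0, .ofNat 3197240066688437576353887918489600, .ofNat 0, .ofNat 0, .ofNat 0, .ofNat 3037762043869803144929511211008000, .ofNat 0, .ofNat 0⟩)
    (by decide +kernel)
theorem L00153 : Good (Phi V4.P V4.D 1 1) ⟨3, 4, 3, 0, 2, 2, 3, 6, 3, 1⟩ :=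
  leaf_sound (S := T4.ds_pp) T4.ok_pp (w := 176) (c := ⟨⟨.negSucc 620, .negSucc 412, .ofNat 20, .negSucc 652, .negSucc 16, .negSucc 180⟩, ⟨.ofNat 20, .negSucc 99, .negSucc 137, .negSucc 20, .ofNat 1, .negSucc 8⟩, ⟨.ofNat 217, .ofNat 298, .negSucc 52, .ofNat 487, .negSucc 39, .ofNat 76⟩, ⟨.negSucc 1451, .negSucc 553, .ofNat 62, .negSucc 1405, .negSucc 37, .negSucc 380⟩, ⟨.negSucc 310, .ofNat 157, .negSucc 53, .ofNat 548, .ofNat 35, .ofNat 115⟩, .ofNat 449, .negSucc 80, .ofNat 0, .negSucc 80, .ofNat 2376, .ofNat 0, .ofNat 689, .ofNat 91, .negSucc 677, .ofNat 0, .ofNat 206, .negSucc 10, .ofNat 0, .ofNat 0, .ofNat 1080, .ofNat 2617, .ofNat 0, .ofNat 0, .ofNat 0, .ofNat 0, .ofNat 0, .ofNat 0, .ofNat 0, .ofNat 0, .ofNat 0, .ofNat 0, .ofNat 0, .ofNat 0, .ofNat 0, .ofNat 0, .ofNat 0, .ofNat 0⟩)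
    (by decide +kernel)
theorem L00154 : Good (Phi V4.P V4.D 1 1) ⟨3, 5, 3, 0, 2, 2, 3, 6, 3, 1⟩ :=
  leaf_sound (S := T4.ds_pp) T4.ok_pp (w := 176) (c := ⟨⟨.negSucc 820, .negSucc 756, .ofNat 69, .negSucc 978, .negSucc 123, .negSucc 201⟩, ⟨.ofNat 3, .negSucc 259, .negSucc 140, .negSucc 129, .negSucc 23, .negSucc 22⟩, ⟨.ofNat 408, .ofNat 544, .negSucc 106, .ofNat 615, .ofNat 45, .ofNat 99⟩, ⟨.negSucc 1678, .negSucc 1008, .ofNat 130, .negSucc 1902, .negSucc 224, .negSucc 399⟩, ⟨.negSucc 210, .ofNat 215, .negSucc 6, .ofNat 700, .ofNat 8, .ofNat 97⟩, .ofNat 429, .negSucc 224, .ofNat 0, .negSucc 224, .ofNat 1580, .ofNat 0, .ofNat 342, .ofNat 151, .negSucc 423, .ofNat 0, .ofNat 147, .negSucc 53, .ofNat 0, .ofNat 0, .ofNat 582, .ofNat 1179, .ofNat 0, .ofNat 232178241924701328014586150912000, .ofNat 0, .ofNat 0, .ofNat 0, .ofNat 8912380981873762031355482760806400,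 .ofNat 4959452766192082267676029747200, .ofNat 0, .ofNat 0, .ofNat 3923623307184371068848707941171200, .ofNat 0, .ofNat 0, .ofNat 0, .ofNat 0, .ofNat 0, .ofNat 0⟩)
    (by decide +kernel)
theorem L00155 : Good (Phi V4.P V4.D 1 1) ⟨3, 4, 3, 0, 2, 2, 3, 7, 3, 1⟩ :=
  leaf_sound (S := T4.ds_pp) T4.ok_pp (w := 176) (c := ⟨⟨.negSucc 509, .negSucc 525, .ofNat 118, .negSucc 787, .negSucc 12, .negSucc 250⟩, ⟨.ofNat 28, .negSucc 112, .negSucc 119, .negSucc 31, .ofNat 5, .negSucc 10⟩, ⟨.ofNat 60, .ofNat 380, .negSucc 130, .ofNat 611, .negSucc 37, .ofNat 162⟩, ⟨.negSucc 1237, .negSucc 771, .ofNat 224, .negSucc 1668, .negSucc 35, .negSucc 518⟩, ⟨.negSucc 279, .ofNat 134, .negSucc 10, .ofNat 557, .ofNat 73, .ofNat 171⟩, .ofNat 447, .negSucc 87, .ofNat 0, .negSucc 87, .ofNat 2329, .ofNat 0, .ofNat 723, .ofNat 110, .negSucc 792, .ofNat 0, .ofNat 219, .negSucc 24, .ofNat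 0, .ofNat 0, .ofNat 1142, .ofNat 2502, .ofNat 0, .ofNat 0, .ofNat 0, .ofNat 0, .ofNat 0, .ofNat 46747233532888019758151440426598400, .ofNat 0, .ofNat 0, .ofNat 0, .ofNat 0, .ofNat 0, .ofNat 0, .ofNat 0, .ofNat 32622025546229868770761708771737600, .ofNat 0, .ofNat 0⟩)
    (by decide +kernel)
theorem L00156 : Good (Phi V4.P V4.D 1 1) ⟨4, 10, 3, 0, 2, 2, 3, 7, 3, 1⟩ :=
  leaf_sound (S := T4.ds_pp) T4.ok_pp (w := 176) (c := ⟨⟨.negSucc 904, .negSucc 375, .ofNat 113, .negSucc 1026, .negSucc 110, .negSucc 289⟩, ⟨.negSucc 42, .negSucc 112, .negSucc 127, .negSucc 105, .negSucc 15, .negSucc 26⟩, ⟨.ofNat 375, .ofNat 276, .negSucc 125, .ofNat 711, .ofNat 30, .ofNat 196⟩, ⟨.negSucc 1799, .negSucc 530, .ofNat 214, .negSucc 2039, .negSucc 209, .negSucc 566⟩, ⟨.negSucc 152, .ofNat 79, .negSucc 38, .ofNat 641, .ofNat 43, .ofNat 123⟩, .ofNat 432, .negSucc 203, .ofNat 0,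 .negSucc 203, .ofNat 1863, .ofNat 0, .ofNat 717, .ofNat 272, .negSucc 942, .ofNat 0, .ofNat 269, .negSucc 101, .ofNat 0, .ofNat 0, .ofNat 1220, .ofNat 2993, .ofNat 0, .ofNat 0, .ofNat 0, .ofNat 0, .ofNat 0, .ofNat 1284325103937722992576914827457331200, .ofNat 0, .ofNat 0, .ofNat 0, .ofNat 954774270739750722221863758672691200, .ofNat 0, .ofNat 0, .ofNat 0, .ofNat 1238578242390483482211753384109670400, .ofNat 0, .ofNat 0⟩)
    (by decide +kernel)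
theorem L00157 : Good (Phi V4.P V4.D 1 1) ⟨4, 11, 3, 0, 2, 2, 3, 7, 3, 1⟩ :=
  leaf_sound (S := T4.ds_pp) T4.ok_pp (w := 176) (c := ⟨⟨.negSucc 1166, .negSucc 537, .ofNat 160, .negSucc 1228, .negSucc 260, .negSucc 364⟩, ⟨.negSucc 78, .negSucc 192, .negSucc 141, .negSucc 197, .negSucc 45, .negSucc 67⟩, ⟨.ofNat 592, .ofNat 394, .negSucc 167, .ofNat 816, .ofNat 153, .ofNat 259⟩, ⟨.negSucc 2165, .negSucc 734, .ofNat 278, .negSucc 2309, .negSucc 470, .negSucc 664⟩, ⟨.negSucc 71, .ofNat 74, .negSucc 25, .ofNat 641, .negSucc 7, .ofNat 98⟩, .ofNat 428, .negSucc 244, .ofNat 0, .negSucc 244, .ofNat 1421, .ofNat 0, .ofNat 717, .ofNat 375, .negSucc 1124, .ofNat 0, .ofNat 343, .negSucc 195, .ofNat 0, .ofNat 0, .ofNat 1325, .ofNat 1731, .ofNat 0, .ofNat 21285894132379229696923822718976000, .ofNat 0, .ofNat 0, .ofNat 0, .ofNat 1195875192577243116001138171497676800, .ofNat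 0, .ofNat 0, .ofNat 0, .ofNat 874405065137804422167657989328076800, .ofNat 0, .ofNat 0, .ofNat 0, .ofNat 1273496860450266957560911353819955200, .ofNat 0, .ofNat 0⟩)
    (by decide +kernel)
theorem L00158 : Good (Phi V4.P V4.D 1 1) ⟨3, 4, 3, 0, 2, 3, 2, 3, 3, 0⟩ :=
  leaf_sound (S := T4.ds_pp) T4.ok_pp (w := 168) (c := ⟨⟨.negSucc 333, .negSucc 510, .ofNat 251, .negSucc 320, .negSucc 365, .negSucc 991⟩, ⟨.ofNat 34, .negSucc 109, .negSucc 96, .negSucc 0, .negSucc 14, .negSucc 39⟩, ⟨.ofNat 186, .ofNat 303, .negSucc 178, .ofNat 243, .ofNat 193, .ofNat 548⟩, ⟨.negSucc 856, .negSucc 726, .ofNat 339, .negSucc 731, .negSucc 774, .negSucc 2105⟩, ⟨.negSucc 326, .ofNat 279, .negSucc 224, .ofNat 1109, .ofNat 394, .ofNat 455⟩, .ofNat 450, .negSucc 76, .ofNat 0, .negSucc 76, .ofNat 2393, .ofNat 0, .ofNat 927, .ofNat 185, .negSucc 860, .ofNat 0, .ofNat 247, .negSucc 4,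 .ofNat 0, .ofNat 0, .ofNat 1147, .ofNat 1667, .ofNat 0, .ofNat 0, .ofNat 0, .ofNat 0, .ofNat 0, .ofNat 10167414150124548183807173748326400, .ofNat 0, .ofNat 0, .ofNat 0, .ofNat 0, .ofNat 0, .ofNat 0, .ofNat 0, .ofNat 8889599233350410396723779416883200, .ofNat 8016055482559950395045786419200, .ofNat 0⟩)
    (by decide +kernel)
theorem L00159 : Good (Phi V4.P V4.D 1 1) ⟨4, 10, 3, 0, 3, 6, 2, 3, 3, 0⟩ :=
  leaf_sound (S := T4.ds_pp) T4.ok_pp (w := 184) (c := ⟨⟨.negSucc 702, .negSucc 355, .ofNat 131, .negSucc 246, .negSucc 425, .negSucc 1179⟩, ⟨.negSucc 18, .negSucc 82, .negSucc 135, .negSucc 6, .negSucc 41, .negSucc 133⟩, ⟨.ofNat 468, .ofNat 205, .negSucc 125, .ofNat 139, .ofNat 174, .ofNat 653⟩, ⟨.negSucc 1426, .negSucc 491, .ofNat 186, .negSucc 539, .negSucc 829, .negSucc 2288⟩, ⟨.ofNat 78, .ofNat 107, .negSucc 11, .ofNat 510, .ofNat 166, .ofNat 407⟩, .ofNat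 429, .negSucc 191, .ofNat 0, .negSucc 191, .ofNat 1778, .ofNat 0, .ofNat 901, .ofNat 417, .negSucc 1114, .ofNat 0, .ofNat 323, .negSucc 92, .ofNat 0, .ofNat 0, .ofNat 1281, .ofNat 1587, .ofNat 0, .ofNat 0, .ofNat 0, .ofNat 0, .ofNat 0, .ofNat 0, .ofNat 0, .ofNat 0, .ofNat 0, .ofNat 0, .ofNat 0, .ofNat 0, .ofNat 0, .ofNat 0, .ofNat 0, .ofNat 0⟩)
    (by decide +kernel)
theorem L00160 : Good (Phi V4.P V4.D 1 1) ⟨4, 11, 3, 0, 3, 6, 2, 3, 3, 0⟩ :=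
  leaf_sound (S := T4.ds_pp) T4.ok_pp (w := 184) (c := ⟨⟨.negSucc 727, .negSucc 647, .ofNat 191, .negSucc 377, .negSucc 611, .negSucc 1537⟩, ⟨.ofNat 32, .negSucc 172, .negSucc 161, .negSucc 37, .negSucc 123, .negSucc 284⟩, ⟨.ofNat 508, .ofNat 389, .negSucc 152, .ofNat 198, .ofNat 263, .ofNat 853⟩, ⟨.negSucc 1415, .negSucc 931, .ofNat 279, .negSucc 773, .negSucc 1090, .negSucc 2822⟩, ⟨.ofNat 213, .ofNat 131, .negSucc 23, .ofNat 550, .ofNat 65, .ofNat 437⟩, .ofNat 428, .negSucc 243, .ofNat 0, .negSucc 243, .ofNat 1418, .ofNat 0, .ofNat 443, .ofNat 294, .negSucc 683, .ofNat 0, .ofNat 207, .negSucc 104, .ofNat 0, .ofNat 0, .ofNat 697, .ofNat 575, .ofNat 0, .ofNat 0, .ofNat 0, .ofNat 0, .ofNat 0, .ofNat 6516093772913167037553379995392409600, .ofNat 0, .ofNat 0, .ofNat 0, .ofNat 0, .ofNat 0, .ofNat 0, .ofNat 0, .ofNat 0, .ofNat 0, .ofNat 0⟩)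
    (by decide +kernel)
theorem L00161 : Good (Phi V4.P V4.D 1 1) ⟨4, 10, 3, 0, 3, 7, 2, 3, 3, 0⟩ :=
  leaf_sound (S := T4.ds_pp) T4.ok_pp (w := 184) (c := ⟨⟨.negSucc 697, .negSucc 382, .ofNat 115, .negSucc 105, .negSucc 613, .negSucc 1543⟩, ⟨.ofNat 8, .negSucc 67, .negSucc 203, .ofNat 19, .negSucc 55, .negSucc 169⟩, ⟨.ofNat 464, .ofNat 215, .negSucc 85, .ofNat 52, .ofNat 328, .ofNat 794⟩, ⟨.negSucc 1411, .negSucc 577, .ofNat 109, .negSucc 294, .negSucc 1213, .negSucc 3054⟩, ⟨.ofNat 254, .ofNat 181, .negSucc 7, .ofNat 760, .ofNat 448, .ofNat 794⟩, .ofNat 432, .negSucc 200, .ofNat 0, .negSucc 200, .ofNat 1851, .ofNat 0, .ofNat 984, .ofNat 557, .negSucc 1071, .ofNat 0, .ofNat 341, .negSucc 87, .ofNat 0, .ofNat 0, .ofNat 1192, .ofNat 1535, .ofNat 0, .ofNat 0, .ofNat 0, .ofNat 0, .ofNat 0, .ofNat 0, .ofNat 0, .ofNat 0, .ofNat 0, .ofNat 0, .ofNat 0, .ofNat 0,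 .ofNat 0, .ofNat 0, .ofNat 0, .ofNat 0⟩)
    (by decide +kernel)
theorem L00162 : Good (Phi V4.P V4.D 1 1) ⟨4, 11, 3, 0, 3, 7, 2, 3, 3, 0⟩ :=
  leaf_sound (S := T4.ds_pp) T4.ok_pp (w := 184) (c := ⟨⟨.negSucc 798, .negSucc 582, .ofNat 106, .negSucc 26, .negSucc 813, .negSucc 1955⟩, ⟨.ofNat 15, .negSucc 101, .negSucc 220, .ofNat 60, .negSucc 127, .negSucc 308⟩, ⟨.ofNat 533, .ofNat 304, .negSucc 56, .ofNat 2, .ofNat 421, .ofNat 992⟩, ⟨.negSucc 1508, .negSucc 851, .ofNat 62, .negSucc 217, .negSucc 1522, .negSucc 3662⟩, ⟨.ofNat 323, .ofNat 162, .ofNat 46, .ofNat 836, .ofNat 397, .ofNat 910⟩, .ofNat 516, .negSucc 443, .ofNat 0, .negSucc 443, .ofNat 2343, .ofNat 0, .ofNat 454, .ofNat 416, .negSucc 608, .ofNat 0, .ofNat 210, .negSucc 99, .ofNat 0, .ofNat 0, .ofNat 613, .ofNat 509, .ofNat 0, .ofNat 171215119039965015438200102348390400, .ofNat 0, .ofNat 0, .ofNat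 0, .ofNat 7386299349951037760455677371744256000, .ofNat 150765697028183357684536521523200, .ofNat 0, .ofNat 0, .ofNat 2054241120788507989888248508003123200, .ofNat 441371085742163859270975199641600, .ofNat 0, .ofNat 0, .ofNat 0, .ofNat 0, .ofNat 0⟩)
    (by decide +kernel)
theorem L00163 : Good (Phi V4.P V4.D 1 1) ⟨3, 4, 3, 0, 2, 3, 3, 6, 3, 1⟩ :=
  leaf_sound (S := T4.ds_pp) T4.ok_pp (w := 176) (c := ⟨⟨.negSucc 1032, .negSucc 653, .negSucc 29, .negSucc 735, .negSucc 210, .negSucc 373⟩, ⟨.ofNat 24, .negSucc 134, .negSucc 243, .negSucc 19, .negSucc 7, .negSucc 12⟩, ⟨.ofNat 582, .ofNat 359, .ofNat 7, .ofNat 419, .ofNat 140, .ofNat 167⟩, ⟨.negSucc 2384, .negSucc 948, .negSucc 107, .negSucc 1621, .negSucc 452, .negSucc 803⟩, ⟨.negSucc 121, .ofNat 422, .negSucc 118, .ofNat 1647, .ofNat 170, .ofNat 379⟩, .ofNat 518, .negSucc 297, .ofNat 0, .negSucc 297, .ofNat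 6597, .ofNat 0, .ofNat 808, .ofNat 234, .negSucc 649, .ofNat 0, .ofNat 147, .negSucc 20, .ofNat 0, .ofNat 0, .ofNat 1031, .ofNat 1253, .ofNat 0, .ofNat 192507750576132391905164210995200, .ofNat 0, .ofNat 0, .ofNat 0, .ofNat 0, .ofNat 0, .ofNat 0, .ofNat 0, .ofNat 0, .ofNat 50516144917859669988476348006400, .ofNat 0, .ofNat 0, .ofNat 0, .ofNat 0, .ofNat 0⟩)
    (by decide +kernel)
theorem L00164 : Good (Phi V4.P V4.D 1 1) ⟨3, 4, 3, 0, 2, 3, 3, 7, 3, 1⟩ :=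
  leaf_sound (S := T4.ds_pp) T4.ok_pp (w := 176) (c := ⟨⟨.negSucc 1140, .negSucc 748, .ofNat 136, .negSucc 823, .negSucc 141, .negSucc 543⟩, ⟨.ofNat 20, .negSucc 145, .negSucc 219, .negSucc 23, .ofNat 3, .negSucc 19⟩, ⟨.ofNat 615, .ofNat 447, .negSucc 172, .ofNat 534, .ofNat 98, .ofNat 282⟩, ⟨.negSucc 2621, .negSucc 1134, .ofNat 214, .negSucc 1807, .negSucc 309, .negSucc 1160⟩, ⟨.ofNat 157, .ofNat 268, .ofNat 205, .ofNat 1515, .ofNat 84, .ofNat 314⟩, .ofNat 448, .negSucc 85, .ofNat 0, .negSucc 85, .ofNat 2356, .ofNat 0, .ofNat 1786, .ofNat 344, .negSucc 1656, .ofNat 0, .ofNat 483, .negSucc 26, .ofNat 0, .ofNat 0, .ofNat 2235, .ofNat 5088, .ofNat 0, .ofNat 4488981135963889200213801723494400, .ofNat 0, .ofNat 0, .ofNat 0, .ofNat 524153233143156679102398922437427200, .ofNat 0, .ofNat 0, .ofNat 0, .ofNat 232650072357134332755385478283264000, .ofNat 0, .ofNat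 0, .ofNat 0, .ofNat 462595300822601897353340264644608000, .ofNat 0, .ofNat 0⟩)
    (by decide +kernel)
theorem L00165 : Good (Phi V4.P V4.D 1 1) ⟨4, 10, 3, 0, 2, 3, 3, 6, 3, 1⟩ :=
  leaf_sound (S := T4.ds_pp) T4.ok_pp (w := 176) (c := ⟨⟨.negSucc 1631, .negSucc 491, .ofNat 187, .negSucc 833, .negSucc 327, .negSucc 415⟩, ⟨.negSucc 72, .negSucc 109, .negSucc 231, .negSucc 53, .negSucc 42, .negSucc 47⟩, ⟨.ofNat 945, .ofNat 286, .negSucc 124, .ofNat 412, .ofNat 190, .ofNat 185⟩, ⟨.negSucc 3207, .negSucc 704, .ofNat 232, .negSucc 1838, .negSucc 645, .negSucc 852⟩, ⟨.ofNat 175, .ofNat 229, .ofNat 54, .ofNat 1826, .ofNat 136, .ofNat 409⟩, .ofNat 432, .negSucc 208, .ofNat 0, .negSucc 208, .ofNat 1828, .ofNat 0, .ofNat 424, .ofNat 191, .negSucc 415, .ofNat 0, .ofNat 149, .negSucc 33, .ofNat 0, .ofNat 0, .ofNat 552, .ofNat 791, .ofNat 0, .ofNat 4796655222740800794177451327488000,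 .ofNat 0, .ofNat 0, .ofNat 0, .ofNat 0, .ofNat 0, .ofNat 0, .ofNat 0, .ofNat 131102571156760609536826754570649600, .ofNat 0, .ofNat 0, .ofNat 0, .ofNat 0, .ofNat 0, .ofNat 0⟩)
    (by decide +kernel)
theorem L00166 : Good (Phi V4.P V4.D 1 1) ⟨4, 10, 3, 0, 2, 3, 3, 7, 3, 1⟩ :=
  leaf_sound (S := T4.ds_pp) T4.ok_pp (w := 184) (c := ⟨⟨.negSucc 1800, .negSucc 567, .ofNat 150, .negSucc 986, .negSucc 350, .negSucc 676⟩, ⟨.negSucc 99, .negSucc 130, .negSucc 238, .negSucc 49, .negSucc 40, .negSucc 74⟩, ⟨.ofNat 1050, .ofNat 328, .negSucc 132, .ofNat 510, .ofNat 191, .ofNat 351⟩, ⟨.negSucc 3579, .negSucc 824, .ofNat 201, .negSucc 2099, .negSucc 691, .negSucc 1362⟩, ⟨.ofNat 316, .ofNat 195, .negSucc 46, .ofNat 1816, .ofNat 149, .ofNat 520⟩, .ofNat 430, .negSucc 190, .ofNat 0, .negSucc 190, .ofNat 1809, .ofNat 0, .ofNat 903, .ofNat 407, .negSucc 1029, .ofNat 0, .ofNat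 314, .negSucc 90, .ofNat 0, .ofNat 0, .ofNat 1195, .ofNat 3055, .ofNat 0, .ofNat 61190415602263878501534300477849600, .ofNat 0, .ofNat 0, .ofNat 0, .ofNat 2431852783687073649114496064972390400, .ofNat 0, .ofNat 0, .ofNat 0, .ofNat 1329418978717498549297290550444032000, .ofNat 0, .ofNat 0, .ofNat 0, .ofNat 2082285073531277442013685993806233600, .ofNat 0, .ofNat 0⟩)
    (by decide +kernel)
theorem L00167 : Good (Phi V4.P V4.D 1 1) ⟨4, 11, 3, 0, 2, 3, 3, 6, 4, 2⟩ :=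
  leaf_sound (S := T4.ds_pp) T4.ok_pp (w := 184) (c := ⟨⟨.negSucc 1993, .negSucc 653, .ofNat 159, .negSucc 799, .negSucc 516, .negSucc 277⟩, ⟨.negSucc 153, .negSucc 155, .negSucc 266, .negSucc 12, .negSucc 102, .negSucc 21⟩, ⟨.ofNat 1179, .ofNat 379, .negSucc 114, .ofNat 353, .ofNat 283, .ofNat 136⟩, ⟨.negSucc 3696, .negSucc 932, .ofNat 194, .negSucc 1835, .negSucc 919, .negSucc 541⟩, ⟨.ofNat 414, .ofNat 248, .negSucc 62, .ofNat 2045, .ofNat 12, .ofNat 254⟩, .ofNat 429, .negSucc 244, .ofNat 0, .negSucc 244, .ofNat 1454, .ofNat 0, .ofNat 435, .ofNat 268, .negSucc 499, .ofNat 0, .ofNat 191, .negSucc 66, .ofNat 0, .ofNat 0, .ofNat 585, .ofNat 1549, .ofNat 0, .ofNat 42889298601649838564606261959065600, .ofNat 492535804000136145590550528000, .ofNat 0, .ofNat 0, .ofNat 616240394169541008016128680027750400, .ofNat 55892679421002482387222160998400, .ofNat 0, .ofNat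 0, .ofNat 0, .ofNat 74904863812228297622427166310400, .ofNat 0, .ofNat 0, .ofNat 0, .ofNat 0, .ofNat 0⟩)
    (by decide +kernel)
theorem L00168 : Good (Phi V4.P V4.D 1 1) ⟨4, 11, 3, 0, 3, 6, 3, 6, 4, 3⟩ :=
  leaf_sound (S := T4.ds_pp) T4.ok_pp (w := 192) (c := ⟨⟨.negSucc 2249, .negSucc 548, .ofNat 159, .negSucc 561, .negSucc 453, .negSucc 63⟩, ⟨.negSucc 179, .negSucc 160, .negSucc 238, .negSucc 56, .negSucc 95, .negSucc 9⟩, ⟨.ofNat 1292, .ofNat 330, .negSucc 124, .ofNat 272, .ofNat 271, .ofNat 2⟩, ⟨.negSucc 4211, .negSucc 735, .ofNat 209, .negSucc 1171, .negSucc 823, .negSucc 131⟩, ⟨.ofNat 690, .ofNat 203, .negSucc 38, .ofNat 830, .ofNat 42, .ofNat 81⟩, .ofNat 431, .negSucc 250, .ofNat 0, .negSucc 250, .ofNat 1484, .ofNat 0, .ofNat 763, .ofNat 428, .negSucc 828, .ofNat 0, .ofNat 336, .negSucc 113, .ofNat 0, .ofNat 0, .ofNat 1102, .ofNat 3530, .ofNat 0,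 .ofNat 14778754449569159557924094465802240000, .ofNat 1138143629071578083100318498816000, .ofNat 0, .ofNat 0, .ofNat 916764454274252838113137013837896089600, .ofNat 62819456829130371469289511400243200, .ofNat 0, .ofNat 0, .ofNat 347028105663289747910840732935520256000, .ofNat 0, .ofNat 0, .ofNat 0, .ofNat 0, .ofNat 0, .ofNat 0⟩)
    (by decide +kernel)
theorem L00169 : Good (Phi V4.P V4.D 1 1) ⟨4, 11, 3, 0, 3, 7, 3, 6, 4, 3⟩ :=
  leaf_sound (S := T4.ds_pp) T4.ok_pp (w := 192) (c := ⟨⟨.negSucc 2793, .negSucc 587, .ofNat 207, .negSucc 244, .negSucc 623, .negSucc 131⟩, ⟨.negSucc 212, .negSucc 116, .negSucc 300, .ofNat 55, .negSucc 102, .negSucc 9⟩, ⟨.ofNat 1532, .ofNat 327, .negSucc 112, .ofNat 104, .ofNat 352, .ofNat 54⟩, ⟨.negSucc 5296, .negSucc 826, .ofNat 222, .negSucc 692, .negSucc 1125, .negSucc 263⟩, ⟨.ofNat 1447, .ofNat 312, .negSucc 25, .ofNat 1315,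 .ofNat 144, .ofNat 193⟩, .ofNat 426, .negSucc 235, .ofNat 0, .negSucc 235, .ofNat 1406, .ofNat 0, .ofNat 861, .ofNat 491, .negSucc 821, .ofNat 0, .ofNat 375, .negSucc 95, .ofNat 0, .ofNat 0, .ofNat 1083, .ofNat 6190, .ofNat 0, .ofNat 32718655121025733817987918568672460800, .ofNat 3005312453480966097840776832614400, .ofNat 0, .ofNat 0, .ofNat 1418785666599851707324888448296707686400, .ofNat 93951737153505131583261825721958400, .ofNat 0, .ofNat 0, .ofNat 1192115284648832515394495154195372441600, .ofNat 199896054317646683162909833219276800, .ofNat 0, .ofNat 0, .ofNat 1159055761180256579083944268110023884800, .ofNat 0, .ofNat 0⟩)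
    (by decide +kernel)
theorem L00170 : Good (Phi V4.P V4.D 1 1) ⟨4, 11, 3, 0, 2, 3, 3, 7, 4, 2⟩ :=
  leaf_sound (S := T4.ds_pp) T4.ok_pp (w := 184) (c := ⟨⟨.negSucc 2264, .negSucc 831, .ofNat 257, .negSucc 1254, .negSucc 663, .negSucc 456⟩, ⟨.negSucc 190, .negSucc 221, .negSucc 243, .negSucc 97, .negSucc 125, .negSucc 71⟩, ⟨.ofNat 1345, .ofNat 490, .negSucc 198, .ofNat 577, .ofNat 380, .ofNat 244⟩, ⟨.negSucc 4234, .negSucc 1193, .ofNat 378, .negSucc 2611, .negSucc 1152, .negSucc 839⟩, ⟨.ofNat 506, .ofNat 227, .negSucc 19, .ofNat 1903, .negSucc 46, .ofNat 169⟩, .ofNat 427, .negSucc 238, .ofNat 0, .negSucc 238, .ofNat 1399, .ofNat 0, .ofNat 880, .ofNat 561, .negSucc 1232, .ofNat 0, .ofNat 401, .negSucc 192, .ofNat 0, .ofNat 0, .ofNat 1283, .ofNat 2045, .ofNat 0, .ofNat 182781308948875164537700322849587200, .ofNat 1268007334806729646039420108800, .ofNat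 0, .ofNat 0, .ofNat 8292686269582435012975638996634828800, .ofNat 141510146119756514158686555340800, .ofNat 0, .ofNat 0, .ofNat 3792777162941649491694960260205772800, .ofNat 206417756845369538320854417408000, .ofNat 0, .ofNat 0, .ofNat 8237876710224982702573948547314483200, .ofNat 0, .ofNat 0⟩)
    (by decide +kernel)
theorem L00171 : Good (Phi V4.P V4.D 1 1) ⟨4, 11, 3, 0, 2, 3, 3, 7, 4, 3⟩ :=
  out_sound (S := T4.ds_pp) T4.ok_pp (w := 32) (j := 2) (by decide +kernel)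
theorem L00172 : Good (Phi V4.P V4.D 1 1) ⟨2, 2, 3, 0, 2, 0, 1, 0, 2, 1⟩ :=
  leaf_sound (S := T4.ds_pp) T4.ok_pp (w := 160) (c := ⟨⟨.negSucc 768, .negSucc 350, .negSucc 11, .negSucc 88, .ofNat 147, .ofNat 167⟩, ⟨.ofNat 5, .negSucc 171, .negSucc 75, .negSucc 11, .ofNat 7, .ofNat 25⟩, ⟨.ofNat 904, .ofNat 296, .ofNat 39, .negSucc 27, .negSucc 487, .negSucc 339⟩, ⟨.negSucc 1727, .negSucc 265, .negSucc 8, .negSucc 165, .ofNat 311, .ofNat 321⟩, ⟨.ofNat 28, .ofNat 19, .ofNat 22, .negSucc 99, .negSucc 52, .negSucc 36⟩, .ofNat 321, .negSucc 49, .ofNat 0, .negSucc 49, .ofNat 772, .ofNat 0, .ofNat 447, .ofNat 64, .negSucc 381, .ofNat 0, .ofNat 247, .negSucc 16, .ofNat 0, .ofNat 0, .ofNat 900, .ofNat 3920, .ofNat 0, .ofNat 0, .ofNat 0, .ofNat 0, .ofNat 0, .ofNat 0, .ofNat 0, .ofNat 0, .ofNat 0, .ofNat 0, .ofNat 0, .ofNat 0, .ofNat 0, .ofNat 0, .ofNat 0, .ofNat 0⟩)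
    (by decide +kernel)
theorem L00173 : Good (Phi V4.P V4.D 1 1) ⟨2, 2, 3, 0, 2, 1, 1, 0, 2, 1⟩ :=
  leaf_sound (S := T4.ds_pp) T4.ok_pp (w := 160) (c := ⟨⟨.negSucc 783, .negSucc 384, .negSucc 11, .negSucc 209, .ofNat 56, .ofNat 180⟩, ⟨.ofNat 14, .negSucc 200, .negSucc 84, .negSucc 15, .ofNat 9, .ofNat 13⟩, ⟨.ofNat 810, .ofNat 230, .ofNat 8, .negSucc 11, .negSucc 263, .negSucc 424⟩, ⟨.negSucc 1781, .negSucc 267, .negSucc 4, .negSucc 425, .ofNat 114, .ofNat 365⟩, ⟨.negSucc 51, .ofNat 120, .ofNat 15, .ofNat 76, .negSucc 116, .negSucc 93⟩, .ofNat 319, .negSucc 51, .ofNat 0, .negSucc 51, .ofNat 757, .ofNat 0, .ofNat 462, .ofNat 68, .negSucc 347, .ofNat 0, .ofNat 251, .ofNat 7, .ofNat 0, .ofNat 0, .ofNat 880, .ofNat 3144, .ofNat 0, .ofNat 0, .ofNat 120267189683381040965222400, .ofNat 0, .ofNat 0, .ofNat 0, .ofNat 0, .ofNat 0, .ofNat 0, .ofNat 0, .ofNat 0, .ofNat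 0, .ofNat 229622857982418722684381901619200, .ofNat 0, .ofNat 0, .ofNat 0⟩)
    (by decide +kernel)
theorem L00174 : Good (Phi V4.P V4.D 1 1) ⟨3, 4, 3, 0, 2, 2, 1, 0, 3, 2⟩ :=
  leaf_sound (S := T4.ds_pp) T4.ok_pp (w := 168) (c := ⟨⟨.negSucc 927, .negSucc 301, .ofNat 108, .negSucc 357, .negSucc 16, .ofNat 121⟩, ⟨.ofNat 12, .negSucc 93, .negSucc 130, .negSucc 12, .negSucc 5, .ofNat 6⟩, ⟨.ofNat 766, .ofNat 186, .negSucc 163, .negSucc 22, .negSucc 90, .negSucc 281⟩, ⟨.negSucc 2120, .negSucc 319, .ofNat 197, .negSucc 776, .negSucc 13, .ofNat 261⟩, ⟨.ofNat 112, .ofNat 225, .negSucc 51, .ofNat 503, .negSucc 282, .negSucc 187⟩, .ofNat 447, .negSucc 96, .ofNat 0, .negSucc 96, .ofNat 2347, .ofNat 0, .ofNat 518, .ofNat 61, .negSucc 287, .ofNat 0, .ofNat 164, .ofNat 7, .ofNat 0, .ofNat 0, .ofNat 883, .ofNat 3492, .ofNat 65468011302398099922228766310400, .ofNat 0,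 .ofNat 747254449341420306274713600, .ofNat 0, .ofNat 0, .ofNat 0, .ofNat 0, .ofNat 0, .ofNat 0, .ofNat 0, .ofNat 0, .ofNat 0, .ofNat 0, .ofNat 0, .ofNat 0, .ofNat 0⟩)
    (by decide +kernel)
theorem L00175 : Good (Phi V4.P V4.D 1 1) ⟨3, 4, 3, 0, 2, 3, 1, 0, 3, 2⟩ :=
  leaf_sound (S := T4.ds_pp) T4.ok_pp (w := 168) (c := ⟨⟨.negSucc 1299, .negSucc 292, .ofNat 30, .negSucc 341, .negSucc 75, .ofNat 184⟩, ⟨.ofNat 5, .negSucc 92, .negSucc 180, .negSucc 1, .negSucc 11, .ofNat 6⟩, ⟨.ofNat 609, .ofNat 62, .ofNat 94, .negSucc 201, .ofNat 289, .negSucc 300⟩, ⟨.negSucc 2939, .negSucc 289, .negSucc 7, .negSucc 786, .negSucc 126, .ofNat 405⟩, ⟨.ofNat 627, .ofNat 488, .negSucc 203, .ofNat 1501, .negSucc 581, .negSucc 311⟩, .ofNat 519, .negSucc 291, .ofNat 0, .negSucc 291, .ofNat 6629, .ofNat 0, .ofNat 566, .ofNat 109, .negSucc 242, .ofNat 0, .ofNat 113, .negSucc 4, .ofNat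 0, .ofNat 0, .ofNat 896, .ofNat 3607, .ofNat 0, .ofNat 0, .ofNat 0, .ofNat 0, .ofNat 0, .ofNat 1308039769469880076696402526208000, .ofNat 0, .ofNat 0, .ofNat 0, .ofNat 0, .ofNat 0, .ofNat 0, .ofNat 0, .ofNat 6433419262467194682965570145484800, .ofNat 194413653142300447419138048000, .ofNat 0⟩)
    (by decide +kernel)
theorem L00176 : Good (Phi V4.P V4.D 1 1) ⟨3, 5, 3, 0, 2, 2, 2, 0, 3, 2⟩ :=
  leaf_sound (S := T4.ds_pp) T4.ok_pp (w := 176) (c := ⟨⟨.negSucc 1191, .negSucc 288, .ofNat 36, .negSucc 375, .negSucc 35, .ofNat 182⟩, ⟨.negSucc 70, .negSucc 120, .negSucc 127, .negSucc 22, .negSucc 14, .ofNat 12⟩, ⟨.ofNat 1005, .ofNat 122, .negSucc 2, .negSucc 124, .negSucc 37, .negSucc 418⟩, ⟨.negSucc 2395, .negSucc 236, .ofNat 35, .negSucc 794, .negSucc 25, .ofNat 378⟩, ⟨.ofNat 336, .ofNat 199, .negSucc 17, .ofNat 636, .negSucc 213, .negSucc 270⟩, .ofNat 429, .negSucc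 219, .ofNat 0, .negSucc 219, .ofNat 1608, .ofNat 0, .ofNat 509, .ofNat 178, .negSucc 290, .ofNat 0, .ofNat 220, .negSucc 8, .ofNat 0, .ofNat 0, .ofNat 898, .ofNat 12380, .ofNat 0, .ofNat 0, .ofNat 0, .ofNat 0, .ofNat 0, .ofNat 0, .ofNat 0, .ofNat 0, .ofNat 136429163734283947857589065429811200, .ofNat 0, .ofNat 3877602585927673624959909888000, .ofNat 0, .ofNat 203850055710076546381030523456716800, .ofNat 0, .ofNat 973381149811061093883602534400, .ofNat 0⟩)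
    (by decide +kernel)
theorem L00177 : Good (Phi V4.P V4.D 1 1) ⟨3, 5, 3, 0, 2, 2, 2, 1, 3, 2⟩ :=
  leaf_sound (S := T4.ds_pp) T4.ok_pp (w := 176) (c := ⟨⟨.negSucc 1118, .negSucc 353, .ofNat 28, .negSucc 466, .negSucc 94, .ofNat 157⟩, ⟨.negSucc 61, .negSucc 150, .negSucc 128, .negSucc 39, .negSucc 22, .ofNat 18⟩, ⟨.ofNat 764, .ofNat 192, .negSucc 12, .ofNat 97, .ofNat 24, .negSucc 314⟩, ⟨.negSucc 2227, .negSucc 332, .ofNat 29, .negSucc 964, .negSucc 158, .ofNat 314⟩, ⟨.ofNat 47, .ofNat 197, .negSucc 23, .ofNat 630, .negSucc 76, .negSucc 145⟩, .ofNat 430, .negSucc 228, .ofNat 0, .negSucc 228, .ofNat 1580, .ofNat 0, .ofNat 523, .ofNat 203, .negSucc 365, .ofNat 0, .ofNat 231, .negSucc 24, .ofNat 0, .ofNat 0, .ofNat 908, .ofNat 6823, .ofNat 0, .ofNat 0, .ofNat 45535407679668514782707712000, .ofNat 0, .ofNat 0, .ofNat 0, .ofNat 5877891603857864192877291110400,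 .ofNat 0, .ofNat 0, .ofNat 1755895165505796626914122871603200, .ofNat 8383986577730173306116715315200, .ofNat 0, .ofNat 0, .ofNat 0, .ofNat 0, .ofNat 0⟩)
    (by decide +kernel)
theorem L00178 : Good (Phi V4.P V4.D 1 1) ⟨4, 10, 3, 0, 2, 3, 2, 0, 3, 2⟩ :=
  leaf_sound (S := T4.ds_pp) T4.ok_pp (w := 176) (c := ⟨⟨.negSucc 1624, .negSucc 138, .ofNat 62, .negSucc 283, .negSucc 41, .ofNat 245⟩, ⟨.negSucc 96, .negSucc 18, .negSucc 207, .ofNat 35, .negSucc 17, .ofNat 23⟩, ⟨.ofNat 709, .ofNat 22, .ofNat 59, .negSucc 297, .ofNat 226, .negSucc 431⟩, ⟨.negSucc 3272, .negSucc 126, .ofNat 20, .negSucc 754, .negSucc 35, .ofNat 518⟩, ⟨.ofNat 997, .ofNat 280, .negSucc 154, .ofNat 1725, .negSucc 352, .negSucc 365⟩, .ofNat 432, .negSucc 200, .ofNat 0, .negSucc 200, .ofNat 1858, .ofNat 0, .ofNat 574, .ofNat 136, .negSucc 235, .ofNat 0, .ofNat 213, .negSucc 6, .ofNat 0, .ofNat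 0, .ofNat 910, .ofNat 3679, .ofNat 0, .ofNat 0, .ofNat 0, .ofNat 0, .ofNat 0, .ofNat 0, .ofNat 0, .ofNat 0, .ofNat 0, .ofNat 0, .ofNat 0, .ofNat 0, .ofNat 0, .ofNat 0, .ofNat 0, .ofNat 0⟩)
    (by decide +kernel)
theorem L00179 : Good (Phi V4.P V4.D 1 1) ⟨4, 10, 3, 0, 2, 3, 2, 1, 3, 2⟩ :=
  leaf_sound (S := T4.ds_pp) T4.ok_pp (w := 176) (c := ⟨⟨.negSucc 1614, .negSucc 189, .ofNat 100, .negSucc 381, .negSucc 159, .ofNat 209⟩, ⟨.negSucc 102, .negSucc 40, .negSucc 198, .ofNat 9, .negSucc 14, .ofNat 30⟩, ⟨.ofNat 804, .ofNat 73, .negSucc 36, .negSucc 32, .ofNat 195, .negSucc 307⟩, ⟨.negSucc 3218, .negSucc 193, .ofNat 98, .negSucc 930, .negSucc 287, .ofNat 424⟩, ⟨.ofNat 605, .ofNat 211, .negSucc 58, .ofNat 1531, .negSucc 73, .negSucc 152⟩, .ofNat 432, .negSucc 201, .ofNat 0, .negSucc 201, .ofNat 1856, .ofNat 0, .ofNat 610, .ofNat 173, .negSucc 329, .ofNat 0,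 .ofNat 223, .negSucc 10, .ofNat 0, .ofNat 0, .ofNat 912, .ofNat 4179, .ofNat 0, .ofNat 0, .ofNat 0, .ofNat 0, .ofNat 0, .ofNat 200074185491940313554204974540390400, .ofNat 0, .ofNat 0, .ofNat 0, .ofNat 59339747409885447638417563189248000, .ofNat 0, .ofNat 0, .ofNat 0, .ofNat 0, .ofNat 0, .ofNat 0⟩)
    (by decide +kernel)
theorem L00180 : Good (Phi V4.P V4.D 1 1) ⟨4, 11, 3, 0, 2, 3, 2, 0, 3, 2⟩ :=
  leaf_sound (S := T4.ds_pp) T4.ok_pp (w := 176) (c := ⟨⟨.negSucc 1774, .negSucc 163, .ofNat 70, .negSucc 269, .negSucc 80, .ofNat 289⟩, ⟨.negSucc 114, .ofNat 3, .negSucc 229, .ofNat 107, .negSucc 54, .ofNat 32⟩, ⟨.ofNat 796, .ofNat 55, .ofNat 63, .negSucc 419, .ofNat 286, .negSucc 560⟩, ⟨.negSucc 3397, .negSucc 176, .ofNat 22, .negSucc 839, .negSucc 54, .ofNat 596⟩, ⟨.ofNat 1260, .ofNat 207, .negSucc 149, .ofNat 1963, .negSucc 480, .negSucc 406⟩, .ofNat 556,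 .negSucc 558, .ofNat 0, .negSucc 558, .ofNat 2877, .ofNat 0, .ofNat 549, .ofNat 255, .negSucc 236, .ofNat 0, .ofNat 231, .negSucc 25, .ofNat 0, .ofNat 0, .ofNat 916, .ofNat 5795, .ofNat 0, .ofNat 0, .ofNat 7527031535729360923892121600, .ofNat 0, .ofNat 890422070015211303339392615055360000, .ofNat 0, .ofNat 1183547488040544728049411686400, .ofNat 0, .ofNat 0, .ofNat 8337244090179246852709460371046400, .ofNat 4528796621163615566392039833600, .ofNat 0, .ofNat 0, .ofNat 135658112133296713092922342165708800, .ofNat 0, .ofNat 0⟩)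
    (by decide +kernel)
theorem L00181 : Good (Phi V4.P V4.D 1 1) ⟨4, 11, 3, 0, 2, 3, 2, 1, 3, 2⟩ :=
  leaf_sound (S := T4.ds_pp) T4.ok_pp (w := 176) (c := ⟨⟨.negSucc 1822, .negSucc 196, .ofNat 85, .negSucc 315, .negSucc 227, .ofNat 279⟩, ⟨.negSucc 153, .negSucc 30, .negSucc 204, .ofNat 64, .negSucc 53, .ofNat 44⟩, ⟨.ofNat 894, .ofNat 87, .ofNat 1, .negSucc 88, .ofNat 236, .negSucc 386⟩, ⟨.negSucc 3406, .negSucc 217, .ofNat 60, .negSucc 910, .negSucc 395, .ofNat 532⟩, ⟨.ofNat 786, .ofNat 220, .negSucc 50, .ofNat 1694, .negSucc 69, .negSucc 222⟩, .ofNat 429, .negSucc 244, .ofNat 0, .negSucc 244, .ofNat 1455, .ofNat 0, .ofNat 607, .ofNat 239, .negSucc 352, .ofNat 0, .ofNat 272, .negSucc 25, .ofNat 0, .ofNat 0, .ofNat 922, .ofNat 5242, .ofNat 0, .ofNat 0, .ofNat 11425550113471786809871564800, .ofNat 0, .ofNat 0, .ofNat 141483416237408414442889522918195200,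 .ofNat 0, .ofNat 0, .ofNat 0, .ofNat 121503704100189909125473735645593600, .ofNat 2583851207375985521734346342400, .ofNat 0, .ofNat 0, .ofNat 146819569844455719854359915266048000, .ofNat 0, .ofNat 0⟩)
    (by decide +kernel)
theorem L00182 : Good (Phi V4.P V4.D 1 1) ⟨2, 2, 3, 0, 1, 1, 1, 0, 3, 3⟩ :=
  leaf_sound (S := T4.ds_pp) T4.ok_pp (w := 152) (c := ⟨⟨.negSucc 806, .negSucc 463, .negSucc 1, .negSucc 640, .negSucc 91, .ofNat 151⟩, ⟨.ofNat 29, .negSucc 215, .negSucc 113, .negSucc 40, .negSucc 16, .ofNat 18⟩, ⟨.ofNat 404, .ofNat 193, .negSucc 7, .negSucc 46, .ofNat 86, .negSucc 263⟩, ⟨.negSucc 1864, .negSucc 351, .ofNat 0, .negSucc 1366, .negSucc 167, .ofNat 301⟩, ⟨.negSucc 121, .ofNat 256, .ofNat 15, .ofNat 865, .negSucc 51, .negSucc 104⟩, .ofNat 319, .negSucc 54, .ofNat 0, .negSucc 54, .ofNat 753, .ofNat 0, .ofNat 481, .ofNat 67, .negSucc 294, .ofNat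 0, .ofNat 256, .ofNat 22, .ofNat 0, .ofNat 0, .ofNat 867, .ofNat 2004, .ofNat 0, .ofNat 2009175812889012436834713600, .ofNat 0, .ofNat 0, .ofNat 0, .ofNat 2735453139847512685679738880000, .ofNat 0, .ofNat 0, .ofNat 0, .ofNat 4973555557998220984800038092800, .ofNat 1264228786434272395788288000, .ofNat 0, .ofNat 0, .ofNat 2316628643201822600971105075200, .ofNat 0, .ofNat 0⟩)
    (by decide +kernel)
theorem L00183 : Good (Phi V4.P V4.D 1 1) ⟨3, 4, 3, 0, 1, 0, 2, 2, 3, 2⟩ :=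
  leaf_sound (S := T4.ds_pp) T4.ok_pp (w := 160) (c := ⟨⟨.negSucc 507, .negSucc 169, .ofNat 2, .negSucc 417, .ofNat 98, .ofNat 54⟩, ⟨.ofNat 10, .negSucc 64, .negSucc 65, .negSucc 17, .ofNat 5, .ofNat 2⟩, ⟨.ofNat 240, .ofNat 143, .negSucc 18, .ofNat 253, .negSucc 203, .negSucc 80⟩, ⟨.negSucc 1168, .negSucc 157, .ofNat 38, .negSucc 873, .ofNat 203, .ofNat 111⟩, ⟨.negSucc 67, .ofNat 11, .negSucc 21, .negSucc 101, .ofNat 17, .negSucc 4⟩, .ofNat 445, .negSucc 95, .ofNat 0, .negSucc 95, .ofNat 2315, .ofNat 0, .ofNat 486, .ofNat 65, .negSucc 443, .ofNat 0, .ofNat 165, .negSucc 13, .ofNat 0, .ofNat 0, .ofNat 931, .ofNat 3216, .ofNat 0, .ofNat 0, .ofNat 0, .ofNat 0, .ofNat 0, .ofNat 0, .ofNat 0, .ofNat 0, .ofNat 0, .ofNat 0, .ofNat 0, .ofNat 0, .ofNat 0, .ofNat 0, .ofNat 0, .ofNat 0⟩)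
    (by decide +kernel)
theorem L00184 : Good (Phi V4.P V4.D 1 1) ⟨3, 5, 3, 0, 1, 0, 2, 2, 3, 2⟩ :=
  leaf_sound (S := T4.ds_pp) T4.ok_pp (w := 160) (c := ⟨⟨.negSucc 523, .negSucc 281, .negSucc 54, .negSucc 563, .ofNat 34, .negSucc 26⟩, ⟨.negSucc 4, .negSucc 147, .negSucc 78, .negSucc 96, .ofNat 4, .negSucc 3⟩, ⟨.ofNat 292, .ofNat 212, .ofNat 53, .ofNat 295, .negSucc 129, .negSucc 25⟩, ⟨.negSucc 1072, .negSucc 267, .negSucc 98, .negSucc 1032, .ofNat 60, .negSucc 53⟩, ⟨.negSucc 144, .ofNat 53, .ofNat 26, .ofNat 9, .ofNat 5, .ofNat 60⟩, .ofNat 429, .negSucc 225, .ofNat 0, .negSucc 225, .ofNat 1589, .ofNat 0, .ofNat 483, .ofNat 184, .negSucc 514, .ofNat 0, .ofNat 226, .negSucc 69, .ofNat 0, .ofNat 0, .ofNat 970, .ofNat 3115, .ofNat 0, .ofNat 0, .ofNat 0, .ofNat 0, .ofNat 0, .ofNat 0, .ofNat 0, .ofNat 0, .ofNat 0, .ofNat 0, .ofNat 0, .ofNat 0, .ofNat 0, .ofNat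 0, .ofNat 0, .ofNat 0⟩)
    (by decide +kernel)
theorem L00185 : Good (Phi V4.P V4.D 1 1) ⟨3, 4, 3, 0, 1, 0, 2, 2, 3, 3⟩ :=
  leaf_sound (S := T4.ds_pp) T4.ok_pp (w := 160) (c := ⟨⟨.negSucc 453, .negSucc 172, .negSucc 54, .negSucc 425, .ofNat 48, .ofNat 74⟩, ⟨.ofNat 10, .negSucc 60, .negSucc 81, .negSucc 21, .ofNat 3, .ofNat 5⟩, ⟨.ofNat 142, .ofNat 135, .ofNat 50, .ofNat 211, .negSucc 78, .negSucc 67⟩, ⟨.negSucc 1048, .negSucc 170, .negSucc 72, .negSucc 887, .ofNat 98, .ofNat 149⟩, ⟨.negSucc 87, .ofNat 33, .ofNat 21, .negSucc 72, .ofNat 44, .negSucc 11⟩, .ofNat 517, .negSucc 276, .ofNat 0, .negSucc 276, .ofNat 6543, .ofNat 0, .ofNat 405, .ofNat 84, .negSucc 331, .ofNat 0, .ofNat 89, .negSucc 12, .ofNat 0, .ofNat 0, .ofNat 802, .ofNat 4824, .ofNat 0, .ofNat 0, .ofNat 0, .ofNat 0, .ofNat 0, .ofNat 0, .ofNat 0, .ofNat 0, .ofNat 0, .ofNat 0, .ofNat 12372230074783548031421644800,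 .ofNat 0, .ofNat 0, .ofNat 0, .ofNat 0, .ofNat 0⟩)
    (by decide +kernel)
theorem L00186 : Good (Phi V4.P V4.D 1 1) ⟨3, 5, 3, 0, 1, 0, 2, 2, 3, 3⟩ :=
  leaf_sound (S := T4.ds_pp) T4.ok_pp (w := 160) (c := ⟨⟨.negSucc 615, .negSucc 296, .ofNat 50, .negSucc 506, .ofNat 47, .ofNat 105⟩, ⟨.negSucc 32, .negSucc 129, .negSucc 63, .negSucc 78, .ofNat 7, .ofNat 18⟩, ⟨.ofNat 304, .ofNat 249, .negSucc 47, .ofNat 195, .negSucc 65, .negSucc 95⟩, ⟨.negSucc 1233, .negSucc 328, .ofNat 104, .negSucc 933, .ofNat 89, .ofNat 191⟩, ⟨.negSucc 42, .ofNat 83, .negSucc 46, .negSucc 19, .negSucc 7, .negSucc 30⟩, .ofNat 429, .negSucc 216, .ofNat 0, .negSucc 216, .ofNat 1641, .ofNat 0, .ofNat 418, .ofNat 149, .negSucc 394, .ofNat 0, .ofNat 191, .negSucc 50, .ofNat 0, .ofNat 0, .ofNat 844, .ofNat 2553, .ofNat 0, .ofNat 0, .ofNat 0, .ofNat 0, .ofNat 0, .ofNat 0, .ofNat 0, .ofNat 0,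 .ofNat 0, .ofNat 0, .ofNat 0, .ofNat 0, .ofNat 0, .ofNat 0, .ofNat 0, .ofNat 0⟩)
    (by decide +kernel)
theorem L00187 : Good (Phi V4.P V4.D 1 1) ⟨3, 4, 3, 0, 2, 0, 2, 3, 3, 2⟩ :=
  leaf_sound (S := T4.ds_pp) T4.ok_pp (w := 168) (c := ⟨⟨.negSucc 384, .negSucc 159, .negSucc 7, .negSucc 216, .ofNat 353, .negSucc 0⟩, ⟨.ofNat 2, .negSucc 41, .negSucc 36, .negSucc 11, .ofNat 17, .ofNat 0⟩, ⟨.negSucc 45, .ofNat 150, .ofNat 12, .ofNat 157, .negSucc 388, .ofNat 43⟩, ⟨.negSucc 870, .negSucc 206, .negSucc 23, .negSucc 447, .ofNat 739, .negSucc 3⟩, ⟨.negSucc 57, .ofNat 20, .ofNat 5, .negSucc 104, .ofNat 65, .ofNat 23⟩, .ofNat 448, .negSucc 88, .ofNat 0, .negSucc 88, .ofNat 2363, .ofNat 0, .ofNat 499, .ofNat 61, .negSucc 588, .ofNat 0, .ofNat 170, .negSucc 23, .ofNat 0, .ofNat 0, .ofNat 1001, .ofNat 3771, .ofNat 0, .ofNat 0, .ofNat 0, .ofNat 0, .ofNat 0, .ofNat 0,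 .ofNat 0, .ofNat 0, .ofNat 0, .ofNat 0, .ofNat 0, .ofNat 0, .ofNat 0, .ofNat 0, .ofNat 1718595393751582029078803251200, .ofNat 0⟩)
    (by decide +kernel)
theorem L00188 : Good (Phi V4.P V4.D 1 1) ⟨3, 4, 3, 0, 2, 1, 2, 3, 3, 2⟩ :=
  leaf_sound (S := T4.ds_pp) T4.ok_pp (w := 168) (c := ⟨⟨.negSucc 449, .negSucc 257, .negSucc 60, .negSucc 425, .ofNat 134, .negSucc 23⟩, ⟨.ofNat 16, .negSucc 72, .negSucc 77, .negSucc 21, .ofNat 7, .negSucc 0⟩, ⟨.negSucc 0, .ofNat 219, .ofNat 9, .ofNat 322, .negSucc 167, .ofNat 35⟩, ⟨.negSucc 1049, .negSucc 325, .negSucc 99, .negSucc 893, .ofNat 275, .negSucc 53⟩, ⟨.negSucc 222, .ofNat 40, .ofNat 42, .ofNat 91, .ofNat 114, .ofNat 56⟩, .ofNat 447, .negSucc 90, .ofNat 0, .negSucc 90, .ofNat 2361, .ofNat 0, .ofNat 524, .ofNat 68, .negSucc 545, .ofNat 0, .ofNat 172, .negSucc 19, .ofNat 0, .ofNat 0, .ofNat 960, .ofNat 2881, .ofNat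 0, .ofNat 0, .ofNat 0, .ofNat 0, .ofNat 0, .ofNat 17338775321304635859444377950617600, .ofNat 0, .ofNat 0, .ofNat 0, .ofNat 0, .ofNat 0, .ofNat 0, .ofNat 0, .ofNat 17252005144344473779271240358297600, .ofNat 0, .ofNat 0⟩)
    (by decide +kernel)
theorem L00189 : Good (Phi V4.P V4.D 1 1) ⟨4, 10, 3, 0, 1, 0, 2, 3, 3, 2⟩ :=
  leaf_sound (S := T4.ds_pp) T4.ok_pp (w := 168) (c := ⟨⟨.negSucc 421, .negSucc 124, .negSucc 33, .negSucc 843, .ofNat 310, .ofNat 28⟩, ⟨.negSucc 16, .negSucc 59, .negSucc 61, .negSucc 108, .ofNat 43, .ofNat 9⟩, ⟨.ofNat 12, .ofNat 131, .ofNat 14, .ofNat 617, .negSucc 337, .ofNat 1⟩, ⟨.negSucc 842, .negSucc 128, .negSucc 56, .negSucc 1606, .ofNat 584, .ofNat 34⟩, ⟨.negSucc 71, .negSucc 34, .ofNat 21, .ofNat 17, .ofNat 33, .ofNat 29⟩, .ofNat 431, .negSucc 199, .ofNat 0, .negSucc 199, .ofNat 1822, .ofNat 0, .ofNat 259, .ofNat 83, .negSucc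 338, .ofNat 0, .ofNat 108, .negSucc 38, .ofNat 0, .ofNat 0, .ofNat 526, .ofNat 858, .ofNat 0, .ofNat 0, .ofNat 0, .ofNat 0, .ofNat 0, .ofNat 504827672512868268304378311475200, .ofNat 0, .ofNat 0, .ofNat 0, .ofNat 0, .ofNat 0, .ofNat 0, .ofNat 0, .ofNat 595414393204760070978129415372800, .ofNat 0, .ofNat 0⟩)
    (by decide +kernel)
theorem L00190 : Good (Phi V4.P V4.D 1 1) ⟨4, 11, 3, 0, 1, 0, 3, 6, 3, 2⟩ :=
  leaf_sound (S := T4.ds_pp) T4.ok_pp (w := 168) (c := ⟨⟨.negSucc 443, .negSucc 238, .ofNat 39, .negSucc 999, .negSucc 1, .ofNat 53⟩, ⟨.negSucc 23, .negSucc 101, .negSucc 65, .negSucc 193, .ofNat 5, .ofNat 11⟩, ⟨.ofNat 73, .ofNat 212, .negSucc 52, .ofNat 694, .negSucc 23, .negSucc 19⟩, ⟨.negSucc 829, .negSucc 292, .ofNat 71, .negSucc 1798, .negSucc 9, .ofNat 93⟩, ⟨.negSucc 118, .ofNat 19, .ofNat 5, .ofNat 95, .ofNat 32, .negSucc 6⟩, .ofNat 516, .negSucc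 444, .ofNat 0, .negSucc 444, .ofNat 2388, .ofNat 0, .ofNat 242, .ofNat 127, .negSucc 330, .ofNat 0, .ofNat 114, .negSucc 61, .ofNat 0, .ofNat 0, .ofNat 520, .ofNat 1046, .ofNat 0, .ofNat 0, .ofNat 0, .ofNat 0, .ofNat 0, .ofNat 882620567389151522885377563033600, .ofNat 3664325625058337351742259200, .ofNat 0, .ofNat 0, .ofNat 0, .ofNat 0, .ofNat 0, .ofNat 0, .ofNat 0, .ofNat 0, .ofNat 0⟩)
    (by decide +kernel)
theorem L00191 : Good (Phi V4.P V4.D 1 1) ⟨4, 11, 3, 0, 1, 0, 3, 7, 3, 2⟩ :=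
  leaf_sound (S := T4.ds_pp) T4.ok_pp (w := 168) (c := ⟨⟨.negSucc 326, .negSucc 194, .ofNat 6, .negSucc 1189, .ofNat 304, .negSucc 34⟩, ⟨.negSucc 13, .negSucc 81, .negSucc 59, .negSucc 233, .ofNat 60, .ofNat 0⟩, ⟨.negSucc 114, .ofNat 194, .negSucc 24, .ofNat 935, .negSucc 308, .ofNat 95⟩, ⟨.negSucc 616, .negSucc 235, .ofNat 11, .negSucc 2130, .ofNat 542, .negSucc 67⟩, ⟨.negSucc 49, .negSucc 27, .ofNat 21, .ofNat 22, .ofNat 14, .ofNat 2⟩, .ofNat 428, .negSucc 243, .ofNat 0, .negSucc 243, .ofNat 1436, .ofNat 0, .ofNat 267, .ofNat 116, .negSucc 460, .ofNat 0, .ofNat 136, .negSucc 85, .ofNat 0, .ofNat 0, .ofNat 615, .ofNat 658, .ofNat 0, .ofNat 0, .ofNat 0, .ofNat 0, .ofNat 0, .ofNat 1954629587084980674975703341465600, .ofNat 0, .ofNat 0, .ofNat 0, .ofNat 0, .ofNat 0, .ofNat 0, .ofNat 0, .ofNat 2066123932325073198501119970508800, .ofNat 0, .ofNat 0⟩)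
    (by decide +kernel)
theorem L00192 : Good (Phi V4.P V4.D 1 1) ⟨2, 2, 3, 0, 2, 0, 3, 6, 3, 3⟩ :=
  leaf_sound (S := T4.ds_pp) T4.ok_pp (w := 168) (c := ⟨⟨.negSucc 324, .negSucc 361, .negSucc 1, .negSucc 288, .ofNat 98, .ofNat 34⟩, ⟨.ofNat 18, .negSucc 128, .negSucc 54, .negSucc 37, .ofNat 12, .ofNat 9⟩, ⟨.negSucc 62, .ofNat 349, .negSucc 2, .ofNat 195, .negSucc 101, .ofNat 0⟩, ⟨.negSucc 770, .negSucc 421, .ofNat 8, .negSucc 549, .ofNat 192, .ofNat 57⟩, ⟨.negSucc 27, .ofNat 8, .ofNat 0, .negSucc 78, .ofNat 15, .ofNat 8⟩, .ofNat 318, .negSucc 55, .ofNat 0, .negSucc 55, .ofNat 753, .ofNat 0, .ofNat 470, .ofNat 77, .negSucc 624, .ofNat 0, .ofNat 263, .negSucc 53, .ofNat 0, .ofNat 0, .ofNat 974, .ofNat 2060, .ofNat 0, .ofNat 0, .ofNat 0, .ofNat 0, .ofNat 0, .ofNat 0, .ofNat 0, .ofNat 0, .ofNat 0, .ofNat 0, .ofNat 0, .ofNat 0, .ofNat 0, .ofNat 0, .ofNat 0,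 .ofNat 0⟩)
    (by decide +kernel)

end Crest.Agent.R097C4.N4pp
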