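import Crest.Agent.R097.T4

/-!
# Row 97, box cover in dimension n = 4 (generated)
-/

set_option autoImplicit false
set_option Elab.async false
set_option maxHeartbeats 0
set_option maxRecDepth 100000

open Crest.Agent.R097 Crest.Agent.R097.KA


namespace Crest.Agent.R097C4.N4pp

theorem L00193 : Good (Phi V4.P V4.D 1 1) ⟨2, 2, 3, 0, 2, 1, 3, 6, 3, 3⟩ :=
  leaf_sound (S := T4.ds_pp) T4.ok_pp (w := 168) (c := ⟨⟨.negSucc 433, .negSucc 622, .ofNat 20, .negSucc 420, .ofNat 11, .negSucc 3⟩, ⟨.ofNat 35, .negSucc 205, .negSucc 89, .negSucc 30, .ofNat 5, .negSucc 4⟩, ⟨.negSucc 0, .ofNat 528, .negSucc 32, .ofNat 288, .negSucc 12, .ofNat 23⟩, ⟨.negSucc 1055, .negSucc 768, .ofNat 64, .negSucc 855, .ofNat 18, .ofNat 0⟩, ⟨.negSucc 159, .ofNat 81, .negSucc 4, .ofNat 97, .ofNat 43, .ofNat 27⟩, .ofNat 321, .negSucc 45, .ofNat 0, .negSucc 45, .ofNat 766, .ofNat 0, .ofNat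 499, .ofNat 69, .negSucc 574, .ofNat 0, .ofNat 267, .negSucc 34, .ofNat 0, .ofNat 0, .ofNat 932, .ofNat 2943, .ofNat 0, .ofNat 0, .ofNat 0, .ofNat 0, .ofNat 0, .ofNat 3796329639086469580559171243212800, .ofNat 0, .ofNat 0, .ofNat 0, .ofNat 0, .ofNat 0, .ofNat 0, .ofNat 0, .ofNat 2715077862124382803002245775360000, .ofNat 0, .ofNat 0⟩)
    (by decide +kernel)
theorem L00194 : Good (Phi V4.P V4.D 1 1) ⟨3, 4, 3, 0, 1, 0, 3, 7, 3, 3⟩ :=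
  leaf_sound (S := T4.ds_pp) T4.ok_pp (w := 168) (c := ⟨⟨.negSucc 217, .negSucc 151, .ofNat 44, .negSucc 623, .ofNat 240, .ofNat 22⟩, ⟨.ofNat 5, .negSucc 35, .negSucc 31, .negSucc 29, .ofNat 11, .ofNat 5⟩, ⟨.negSucc 186, .ofNat 141, .negSucc 42, .ofNat 485, .negSucc 235, .ofNat 24⟩, ⟨.negSucc 507, .negSucc 215, .ofNat 97, .negSucc 1302, .ofNat 504, .ofNat 35⟩, ⟨.negSucc 20, .ofNat 2, .negSucc 5, .negSucc 88, .ofNat 25, .ofNat 1⟩, .ofNat 448, .negSucc 91, .ofNat 0, .negSucc 91, .ofNat 2365, .ofNat 0, .ofNat 457, .ofNat 58, .negSucc 562, .ofNat 0, .ofNat 156, .negSucc 24, .ofNat 0, .ofNat 0, .ofNat 921, .ofNat 2862, .ofNat 0, .ofNat 0, .ofNat 0, .ofNat 0, .ofNat 0, .ofNat 557758874651379020331680268288000, .ofNat 0, .ofNat 0, .ofNat 0, .ofNat 0, .ofNat 0, .ofNat 0, .ofNat 0, .ofNat 530159299795247976266095971532800, .ofNat 0, .ofNat 0⟩)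
    (by decide +kernel)
theorem L00195 : Good (Phi V4.P V4.D 1 1) ⟨3, 5, 3, 0, 1, 0, 3, 7, 3, 3⟩ :=
  leaf_sound (S := T4.ds_pp) T4.ok_pp (w := 168) (c := ⟨⟨.negSucc 187, .negSucc 289, .negSucc 14, .negSucc 1151, .ofNat 273, .negSucc 34⟩, ⟨.ofNat 24, .negSucc 106, .negSucc 46, .negSucc 206, .ofNat 41, .negSucc 5⟩, ⟨.negSucc 207, .ofNat 278, .ofNat 8, .ofNat 938, .negSucc 268, .ofNat 83⟩, ⟨.negSucc 424, .negSucc 386, .negSucc 20, .negSucc 2093, .ofNat 503, .negSucc 59⟩, ⟨.negSucc 28, .negSucc 3, .ofNat 8, .negSucc 37, .ofNat 20, .ofNat 4⟩, .ofNat 430, .negSucc 230, .ofNat 0, .negSucc 230, .ofNat 1574, .ofNat 0, .ofNat 230, .ofNat 88, .negSucc 371, .ofNat 0, .ofNat 110, .negSucc 60, .ofNat 0, .ofNat 0, .ofNat 525, .ofNat 833, .ofNat 0, .ofNat 0, .ofNat 0, .ofNat 0, .ofNat 0, .ofNat 126539189408672802251606694297600, .ofNat 0, .ofNat 0, .ofNat 0, .ofNat 80830490586789704743914150297600,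 .ofNat 0, .ofNat 0, .ofNat 0, .ofNat 125487712590962670314203801190400, .ofNat 0, .ofNat 0⟩)
    (by decide +kernel)
theorem L00196 : Good (Phi V4.P V4.D 1 1) ⟨3, 4, 3, 0, 2, 2, 2, 2, 3, 2⟩ :=
  leaf_sound (S := T4.ds_pp) T4.ok_pp (w := 168) (c := ⟨⟨.negSucc 801, .negSucc 355, .ofNat 43, .negSucc 503, .negSucc 62, .ofNat 46⟩, ⟨.ofNat 15, .negSucc 97, .negSucc 130, .negSucc 15, .negSucc 3, .negSucc 0⟩, ⟨.ofNat 403, .ofNat 236, .negSucc 56, .ofNat 281, .negSucc 3, .negSucc 116⟩, ⟨.negSucc 1843, .negSucc 433, .ofNat 105, .negSucc 1085, .negSucc 129, .ofNat 103⟩, ⟨.negSucc 217, .ofNat 183, .negSucc 55, .ofNat 507, .ofNat 23, .negSucc 15⟩, .ofNat 450, .negSucc 74, .ofNat 0, .negSucc 74, .ofNat 2384, .ofNat 0, .ofNat 553, .ofNat 58, .negSucc 405, .ofNat 0, .ofNat 171, .ofNat 0, .ofNat 0, .ofNat 0, .ofNat 904, .ofNat 2892, .ofNat 0, .ofNat 0, .ofNat 0, .ofNat 0,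 .ofNat 0, .ofNat 0, .ofNat 0, .ofNat 0, .ofNat 0, .ofNat 0, .ofNat 0, .ofNat 0, .ofNat 0, .ofNat 0, .ofNat 0, .ofNat 0⟩)
    (by decide +kernel)
theorem L00197 : Good (Phi V4.P V4.D 1 1) ⟨3, 5, 3, 0, 2, 2, 2, 2, 3, 2⟩ :=
  leaf_sound (S := T4.ds_pp) T4.ok_pp (w := 168) (c := ⟨⟨.negSucc 1027, .negSucc 504, .ofNat 28, .negSucc 646, .negSucc 209, .ofNat 88⟩, ⟨.negSucc 44, .negSucc 198, .negSucc 125, .negSucc 68, .negSucc 35, .ofNat 8⟩, ⟨.ofNat 572, .ofNat 338, .negSucc 46, .ofNat 315, .ofNat 115, .negSucc 161⟩, ⟨.negSucc 2058, .negSucc 578, .ofNat 35, .negSucc 1293, .negSucc 380, .ofNat 171⟩, ⟨.negSucc 109, .ofNat 179, .ofNat 30, .ofNat 666, .ofNat 24, .negSucc 33⟩, .ofNat 426, .negSucc 202, .ofNat 0, .negSucc 202, .ofNat 1583, .ofNat 0, .ofNat 558, .ofNat 200, .negSucc 466, .ofNat 0, .ofNat 239, .negSucc 38, .ofNat 0, .ofNat 0, .ofNat 931, .ofNat 2666, .ofNat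 0, .ofNat 0, .ofNat 0, .ofNat 0, .ofNat 0, .ofNat 0, .ofNat 3750381315725286360738063974400, .ofNat 0, .ofNat 0, .ofNat 0, .ofNat 0, .ofNat 0, .ofNat 0, .ofNat 0, .ofNat 0, .ofNat 0⟩)
    (by decide +kernel)
theorem L00198 : Good (Phi V4.P V4.D 1 1) ⟨3, 4, 3, 0, 2, 3, 2, 2, 3, 2⟩ :=
  leaf_sound (S := T4.ds_pp) T4.ok_pp (w := 176) (c := ⟨⟨.negSucc 1272, .negSucc 416, .ofNat 43, .negSucc 504, .negSucc 198, .ofNat 104⟩, ⟨.ofNat 9, .negSucc 116, .negSucc 186, .negSucc 10, .negSucc 9, .ofNat 8⟩, ⟨.ofNat 671, .ofNat 215, .negSucc 26, .ofNat 171, .ofNat 145, .negSucc 164⟩, ⟨.negSucc 2881, .negSucc 498, .ofNat 19, .negSucc 1126, .negSucc 415, .ofNat 215⟩, ⟨.ofNat 146, .ofNat 424, .ofNat 111, .ofNat 1364, .ofNat 79, .negSucc 72⟩, .ofNat 517, .negSucc 277, .ofNat 0, .negSucc 277, .ofNat 6540, .ofNat 0, .ofNat 628, .ofNat 138, .negSucc 381, .ofNat 0, .ofNat 122, .negSucc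 8, .ofNat 0, .ofNat 0, .ofNat 911, .ofNat 3040, .ofNat 0, .ofNat 0, .ofNat 0, .ofNat 0, .ofNat 0, .ofNat 21460435312140485906687622276710400, .ofNat 0, .ofNat 0, .ofNat 0, .ofNat 14997336821425545911341400929075200, .ofNat 5258591309636119581985603584000, .ofNat 0, .ofNat 0, .ofNat 19866260639663021852201383781990400, .ofNat 0, .ofNat 0⟩)
    (by decide +kernel)
theorem L00199 : Good (Phi V4.P V4.D 1 1) ⟨3, 5, 3, 0, 2, 3, 3, 4, 3, 2⟩ :=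
  leaf_sound (S := T4.ds_pp) T4.ok_pp (w := 176) (c := ⟨⟨.negSucc 1715, .negSucc 515, .ofNat 75, .negSucc 453, .negSucc 184, .ofNat 232⟩, ⟨.negSucc 117, .negSucc 120, .negSucc 213, .ofNat 30, .negSucc 30, .ofNat 44⟩, ⟨.ofNat 902, .ofNat 279, .negSucc 35, .ofNat 118, .ofNat 142, .negSucc 260⟩, ⟨.negSucc 3386, .negSucc 608, .ofNat 56, .negSucc 1116, .negSucc 343, .ofNat 409⟩, ⟨.ofNat 466, .ofNat 449, .negSucc 74, .ofNat 1689, .ofNat 16, .ofNat 6⟩, .ofNat 429, .negSucc 216, .ofNat 0, .negSucc 216, .ofNat 1620, .ofNat 0, .ofNat 646, .ofNat 240, .negSucc 441, .ofNat 0, .ofNat 260, .negSucc 28, .ofNat 0, .ofNat 0, .ofNat 938, .ofNat 2844, .ofNat 0, .ofNat 226594716942374822918702392934400, .ofNat 225085614704555294056041676800, .ofNat 0, .ofNat 0, .ofNat 0, .ofNat 0, .ofNat 0, .ofNat 0, .ofNat 25079344675399696424596755657523200, .ofNat 72134985569256924977320427520000,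 .ofNat 0, .ofNat 0, .ofNat 0, .ofNat 0, .ofNat 0⟩)
    (by decide +kernel)
theorem L00200 : Good (Phi V4.P V4.D 1 1) ⟨3, 5, 3, 0, 2, 3, 3, 5, 3, 2⟩ :=
  leaf_sound (S := T4.ds_pp) T4.ok_pp (w := 176) (c := ⟨⟨.negSucc 1721, .negSucc 707, .ofNat 90, .negSucc 772, .negSucc 258, .ofNat 102⟩, ⟨.negSucc 83, .negSucc 193, .negSucc 216, .negSucc 44, .negSucc 50, .ofNat 7⟩, ⟨.ofNat 921, .ofNat 411, .negSucc 65, .ofNat 352, .ofNat 170, .negSucc 147⟩, ⟨.negSucc 3459, .negSucc 885, .ofNat 99, .negSucc 1655, .negSucc 481, .ofNat 194⟩, ⟨.ofNat 541, .ofNat 391, .negSucc 41, .ofNat 1539, .ofNat 58, .negSucc 3⟩, .ofNat 311, .negSucc 73, .ofNat 0, .negSucc 73, .ofNat 700, .ofNat 0, .ofNat 392, .ofNat 97, .negSucc 367, .ofNat 0, .ofNat 188, .negSucc 5, .ofNat 0, .ofNat 0, .ofNat 531, .ofNat 994, .ofNat 0, .ofNat 274560753058700581931936278118400, .ofNat 108802846548937766229088665600,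 .ofNat 0, .ofNat 0, .ofNat 22941052702933001410423776765542400, .ofNat 0, .ofNat 0, .ofNat 0, .ofNat 27058870898606406795513171856588800, .ofNat 0, .ofNat 0, .ofNat 0, .ofNat 0, .ofNat 0, .ofNat 0⟩)
    (by decide +kernel)
theorem L00201 : Good (Phi V4.P V4.D 1 1) ⟨2, 2, 3, 0, 1, 1, 2, 2, 3, 3⟩ :=
  leaf_sound (S := T4.ds_pp) T4.ok_pp (w := 160) (c := ⟨⟨.negSucc 817, .negSucc 590, .negSucc 2, .negSucc 772, .negSucc 98, .ofNat 118⟩, ⟨.ofNat 17, .negSucc 227, .negSucc 121, .negSucc 25, .negSucc 8, .ofNat 22⟩, ⟨.ofNat 324, .ofNat 383, .negSucc 25, .ofNat 342, .ofNat 77, .negSucc 144⟩, ⟨.negSucc 1869, .negSucc 605, .ofNat 19, .negSucc 1645, .negSucc 197, .ofNat 216⟩, ⟨.negSucc 168, .ofNat 249, .negSucc 10, .ofNat 736, .ofNat 65, .negSucc 0⟩, .ofNat 320, .negSucc 51, .ofNat 0, .negSucc 51, .ofNat 758, .ofNat 0, .ofNat 499, .ofNat 74, .negSucc 391, .ofNat 0, .ofNat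 262, .ofNat 0, .ofNat 0, .ofNat 0, .ofNat 861, .ofNat 2204, .ofNat 0, .ofNat 85984419589119542445893222400, .ofNat 0, .ofNat 0, .ofNat 0, .ofNat 14307787285755970345334577561600, .ofNat 0, .ofNat 0, .ofNat 0, .ofNat 12254521583142385718563071590400, .ofNat 0, .ofNat 0, .ofNat 0, .ofNat 12843531552131090182843033190400, .ofNat 0, .ofNat 0⟩)
    (by decide +kernel)
theorem L00202 : Good (Phi V4.P V4.D 1 1) ⟨3, 4, 3, 0, 2, 2, 2, 3, 2, 1⟩ :=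
  leaf_sound (S := T4.ds_pp) T4.ok_pp (w := 168) (c := ⟨⟨.negSucc 777, .negSucc 397, .ofNat 9, .negSucc 617, .negSucc 83, .negSucc 46⟩, ⟨.ofNat 12, .negSucc 100, .negSucc 122, .negSucc 17, .negSucc 3, .ofNat 4⟩, ⟨.ofNat 280, .ofNat 285, .negSucc 30, .ofNat 436, .ofNat 12, .negSucc 12⟩, ⟨.negSucc 1780, .negSucc 522, .ofNat 30, .negSucc 1338, .negSucc 181, .negSucc 117⟩, ⟨.negSucc 184, .ofNat 120, .negSucc 19, .ofNat 471, .ofNat 132, .ofNat 180⟩, .ofNat 332, .negSucc 20, .ofNat 0, .negSucc 20, .ofNat 832, .ofNat 0, .ofNat 638, .ofNat 42, .negSucc 658, .ofNat 0, .ofNat 300, .ofNat 5, .ofNat 0, .ofNat 0, .ofNat 1023, .ofNat 3100, .ofNat 0, .ofNat 0, .ofNat 0, .ofNat 0, .ofNat 0, .ofNat 12291187159088970538203726269644800, .ofNat 0, .ofNat 0, .ofNat 0, .ofNat 0, .ofNat 0, .ofNat 0, .ofNat 0, .ofNat 10137339669727228285996917954969600, .ofNat 0, .ofNat 0⟩)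
    (by decide +kernel)
theorem L00203 : Good (Phi V4.P V4.D 1 1) ⟨3, 5, 3, 0, 2, 2, 3, 6, 2, 1⟩ :=
  leaf_sound (S := T4.ds_pp) T4.ok_pp (w := 168) (c := ⟨⟨.negSucc 1078, .negSucc 657, .ofNat 87, .negSucc 880, .negSucc 191, .negSucc 37⟩, ⟨.negSucc 49, .negSucc 226, .negSucc 140, .negSucc 100, .negSucc 22, .negSucc 5⟩, ⟨.ofNat 524, .ofNat 478, .negSucc 100, .ofNat 543, .ofNat 122, .negSucc 27⟩, ⟨.negSucc 2156, .negSucc 823, .ofNat 145, .negSucc 1735, .negSucc 355, .negSucc 88⟩, ⟨.negSucc 80, .ofNat 150, .negSucc 10, .ofNat 639, .ofNat 42, .ofNat 102⟩, .ofNat 428, .negSucc 219, .ofNat 0, .negSucc 219, .ofNat 1579, .ofNat 0, .ofNat 304, .ofNat 126, .negSucc 330, .ofNat 0, .ofNat 132, .negSucc 41, .ofNat 0, .ofNat 0, .ofNat 513, .ofNat 1687, .ofNat 0, .ofNat 142382089925647705613304594432000, .ofNat 0, .ofNat 0, .ofNat 0, .ofNat 5795703464193417983138852555980800,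 .ofNat 248838538610491886322214502400, .ofNat 0, .ofNat 0, .ofNat 3913206939615836849571516697804800, .ofNat 0, .ofNat 0, .ofNat 0, .ofNat 3145511136841453925369273489817600, .ofNat 0, .ofNat 0⟩)
    (by decide +kernel)
theorem L00204 : Good (Phi V4.P V4.D 1 1) ⟨3, 5, 3, 0, 2, 2, 3, 7, 2, 1⟩ :=
  leaf_sound (S := T4.ds_pp) T4.ok_pp (w := 176) (c := ⟨⟨.negSucc 1162, .negSucc 740, .ofNat 69, .negSucc 991, .negSucc 129, .negSucc 290⟩, ⟨.negSucc 63, .negSucc 252, .negSucc 114, .negSucc 165, .negSucc 18, .negSucc 72⟩, ⟨.ofNat 537, .ofNat 588, .negSucc 92, .ofNat 696, .ofNat 80, .ofNat 244⟩, ⟨.negSucc 2324, .negSucc 994, .ofNat 128, .negSucc 1854, .negSucc 241, .negSucc 525⟩, ⟨.ofNat 8, .ofNat 93, .negSucc 5, .ofNat 378, .ofNat 41, .ofNat 136⟩, .ofNat 313, .negSucc 70, .ofNat 0, .negSucc 70, .ofNat 719, .ofNat 0, .ofNat 1394, .ofNat 347, .negSucc 2177, .ofNat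 0, .ofNat 728, .negSucc 228, .ofNat 0, .ofNat 0, .ofNat 2594, .ofNat 13897, .ofNat 0, .ofNat 7148050645125324580352694838886400, .ofNat 0, .ofNat 0, .ofNat 0, .ofNat 539830813351450153146105345343488000, .ofNat 0, .ofNat 0, .ofNat 0, .ofNat 250975424326230851421691964502835200, .ofNat 0, .ofNat 0, .ofNat 0, .ofNat 438306415015767637843779918181171200, .ofNat 5320196417670249176220303360000, .ofNat 0⟩)
    (by decide +kernel)
theorem L00205 : Good (Phi V4.P V4.D 1 1) ⟨2, 2, 3, 0, 2, 3, 2, 3, 2, 1⟩ :=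
  leaf_sound (S := T4.ds_pp) T4.ok_pp (w := 168) (c := ⟨⟨.negSucc 1307, .negSucc 1356, .ofNat 72, .ofNat 0, .negSucc 213, .ofNat 0⟩, ⟨.ofNat 34, .negSucc 348, .negSucc 221, .ofNat 0, .ofNat 6, .ofNat 0⟩, ⟨.ofNat 667, .ofNat 846, .negSucc 82, .ofNat 0, .ofNat 130, .ofNat 0⟩, ⟨.negSucc 3033, .negSucc 1807, .ofNat 121, .ofNat 0, .negSucc 457, .ofNat 0⟩, ⟨.ofNat 339, .ofNat 599, .negSucc 21, .ofNat 0, .ofNat 89, .ofNat 0⟩, .ofNat 321, .negSucc 49, .ofNat 0, .negSucc 49, .ofNat 769, .ofNat 0, .ofNat 394, .ofNat 69, .negSucc 400, .ofNat 0, .ofNat 177, .negSucc 3, .ofNat 0, .ofNat 0, .ofNat 546, .ofNat 2767, .ofNat 0, .ofNat 33141546548326604028089519308800, .ofNat 0, .ofNat 0, .ofNat 0, .ofNat 1774382879209602931140011124326400, .ofNat 234476614653346796750556364800, .ofNat 0, .ofNat 0, .ofNat 1057100212382792278570246235750400, .ofNat 0, .ofNat 0, .ofNat 0, .ofNat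 1358916362041744185283779231744000, .ofNat 0, .ofNat 0⟩)
    (by decide +kernel)
theorem L00206 : Good (Phi V4.P V4.D 1 1) ⟨2, 3, 3, 0, 0, 0, 0, 0, 1, 0⟩ :=
  out_sound (S := T4.ds_pp) T4.ok_pp (w := 40) (j := 3) (by decide +kernel)
theorem L00207 : Good (Phi V4.P V4.D 1 1) ⟨3, 4, 4, 2, 2, 0, 2, 0, 2, 0⟩ :=
  out_sound (S := T4.ds_pp) T4.ok_pp (w := 48) (j := 3) (by decide +kernel)
theorem L00208 : Good (Phi V4.P V4.D 1 1) ⟨3, 5, 4, 2, 2, 0, 2, 0, 2, 0⟩ :=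
  leaf_sound (S := T4.ds_pp) T4.ok_pp (w := 168) (c := ⟨⟨.negSucc 714, .negSucc 309, .ofNat 7, .negSucc 102, .ofNat 83, .negSucc 279⟩, ⟨.negSucc 83, .negSucc 165, .negSucc 37, .negSucc 16, .ofNat 14, .negSucc 71⟩, ⟨.ofNat 1208, .ofNat 273, .negSucc 0, .ofNat 129, .negSucc 346, .negSucc 30⟩, ⟨.negSucc 1475, .negSucc 292, .ofNat 9, .negSucc 222, .ofNat 168, .negSucc 481⟩, ⟨.ofNat 37, .ofNat 19, .ofNat 2, .ofNat 166, .negSucc 76, .negSucc 53⟩, .ofNat 682, .negSucc 986, .ofNat 0, .negSucc 986, .ofNat 4107, .ofNat 0, .ofNat 211, .ofNat 169, .negSucc 303, .ofNat 0, .ofNat 106, .negSucc 70, .ofNat 0, .ofNat 0, .ofNat 529, .ofNat 2848, .ofNat 0, .ofNat 0, .ofNat 820054725661391484616704000, .ofNat 0, .ofNat 0, .ofNat 0, .ofNat 0, .ofNat 0, .ofNat 0, .ofNat 0, .ofNat 0, .ofNat 0, .ofNat 0, .ofNat 0, .ofNat 0, .ofNat 0⟩)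
    (by decide +kernel)
theorem L00209 : Good (Phi V4.P V4.D 1 1) ⟨2, 2, 4, 2, 2, 0, 2, 0, 2, 1⟩ :=
  leaf_sound (S := T4.ds_pp) T4.ok_pp (w := 168) (c := ⟨⟨.negSucc 746, .negSucc 447, .negSucc 2, .negSucc 68, .ofNat 76, .ofNat 251⟩, ⟨.ofNat 5, .negSucc 298, .negSucc 37, .negSucc 17, .ofNat 15, .ofNat 57⟩, ⟨.ofNat 1067, .ofNat 377, .negSucc 3, .negSucc 106, .negSucc 348, .negSucc 528⟩, ⟨.negSucc 1780, .negSucc 292, .negSucc 2, .negSucc 114, .ofNat 146, .ofNat 463⟩, ⟨.ofNat 46, .ofNat 7, .negSucc 2, .negSucc 29, .negSucc 34, .negSucc 75⟩, .ofNat 678, .negSucc 972, .ofNat 0, .negSucc 972, .ofNat 4052, .ofNat 0, .ofNat 358, .ofNat 284, .negSucc 348, .ofNat 0, .ofNat 179, .negSucc 79, .ofNat 0, .ofNat 0, .ofNat 913, .ofNat 13829, .ofNat 0, .ofNat 0, .ofNat 0, .ofNat 0, .ofNat 0, .ofNat 0, .ofNat 0, .ofNat 0, .ofNat 2418961115900625738447191644569600, .ofNat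 0, .ofNat 3292821754188126022289011507200, .ofNat 0, .ofNat 14979542818661019663048548705894400, .ofNat 0, .ofNat 0, .ofNat 0⟩)
    (by decide +kernel)
theorem L00210 : Good (Phi V4.P V4.D 1 1) ⟨2, 2, 4, 2, 2, 0, 2, 1, 2, 0⟩ :=
  leaf_sound (S := T4.ds_pp) T4.ok_pp (w := 168) (c := ⟨⟨.negSucc 379, .negSucc 662, .ofNat 21, .negSucc 86, .ofNat 81, .negSucc 132⟩, ⟨.ofNat 90, .negSucc 347, .negSucc 31, .negSucc 18, .ofNat 15, .negSucc 33⟩, ⟨.ofNat 588, .ofNat 665, .negSucc 13, .ofNat 85, .negSucc 369, .negSucc 157⟩, ⟨.negSucc 1121, .negSucc 677, .ofNat 35, .negSucc 157, .ofNat 159, .negSucc 223⟩, ⟨.negSucc 13, .ofNat 79, .negSucc 1, .ofNat 7, .negSucc 66, .negSucc 57⟩, .ofNat 595, .negSucc 718, .ofNat 0, .negSucc 718, .ofNat 3154, .ofNat 0, .ofNat 222, .ofNat 164, .negSucc 289, .ofNat 0, .ofNat 109, .negSucc 64, .ofNat 0, .ofNat 0, .ofNat 538, .ofNat 2631, .ofNat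 0, .ofNat 0, .ofNat 0, .ofNat 0, .ofNat 0, .ofNat 0, .ofNat 0, .ofNat 0, .ofNat 0, .ofNat 0, .ofNat 554419273669142155527979008000, .ofNat 0, .ofNat 0, .ofNat 0, .ofNat 150011842451729864403714048000, .ofNat 0⟩)
    (by decide +kernel)
theorem L00211 : Good (Phi V4.P V4.D 1 1) ⟨2, 2, 4, 2, 2, 0, 2, 1, 2, 1⟩ :=
  leaf_sound (S := T4.ds_pp) T4.ok_pp (w := 168) (c := ⟨⟨.negSucc 610, .negSucc 479, .ofNat 13, .negSucc 102, .ofNat 77, .ofNat 195⟩, ⟨.ofNat 22, .negSucc 291, .negSucc 28, .negSucc 27, .ofNat 16, .ofNat 45⟩, ⟨.ofNat 516, .ofNat 501, .negSucc 32, .negSucc 52, .negSucc 225, .negSucc 339⟩, ⟨.negSucc 1480, .negSucc 404, .ofNat 26, .negSucc 162, .ofNat 145, .ofNat 352⟩, ⟨.negSucc 27, .ofNat 53, .negSucc 2, .negSucc 89, .negSucc 22, .negSucc 24⟩, .ofNat 597, .negSucc 733, .ofNat 0, .negSucc 733, .ofNat 3295, .ofNat 0, .ofNat 357, .ofNat 264, .negSucc 360,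 .ofNat 0, .ofNat 172, .negSucc 79, .ofNat 0, .ofNat 0, .ofNat 886, .ofNat 5397, .ofNat 0, .ofNat 0, .ofNat 0, .ofNat 0, .ofNat 0, .ofNat 0, .ofNat 0, .ofNat 0, .ofNat 0, .ofNat 0, .ofNat 0, .ofNat 0, .ofNat 3013981594183131466644654863155200, .ofNat 0, .ofNat 665600428400621291263387238400, .ofNat 0⟩)
    (by decide +kernel)
theorem L00212 : Good (Phi V4.P V4.D 1 1) ⟨4, 12, 4, 2, 2, 0, 2, 0, 3, 0⟩ :=
  leaf_sound (S := T4.ds_pp) T4.ok_pp (w := 176) (c := ⟨⟨.negSucc 1006, .negSucc 308, .ofNat 28, .negSucc 143, .ofNat 104, .negSucc 308⟩, ⟨.negSucc 242, .negSucc 134, .negSucc 36, .negSucc 21, .ofNat 23, .negSucc 87⟩, ⟨.ofNat 1451, .ofNat 326, .negSucc 40, .ofNat 220, .negSucc 358, .ofNat 166⟩, ⟨.negSucc 1732, .negSucc 398, .ofNat 48, .negSucc 313, .ofNat 198, .negSucc 525⟩, ⟨.ofNat 25, .ofNat 30, .negSucc 6, .ofNat 242, .negSucc 77, .ofNat 2⟩, .ofNat 690, .negSucc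 901, .ofNat 0, .negSucc 901, .ofNat 3185, .ofNat 0, .ofNat 224, .ofNat 174, .negSucc 372, .ofNat 0, .ofNat 131, .negSucc 100, .ofNat 0, .ofNat 0, .ofNat 571, .ofNat 3970, .ofNat 0, .ofNat 0, .ofNat 0, .ofNat 0, .ofNat 0, .ofNat 0, .ofNat 3914308966109069517777587404800, .ofNat 0, .ofNat 0, .ofNat 0, .ofNat 4060481128389499326122321510400, .ofNat 0, .ofNat 0, .ofNat 0, .ofNat 1169269462455072001596850176000, .ofNat 0⟩)
    (by decide +kernel)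
theorem L00213 : Good (Phi V4.P V4.D 1 1) ⟨4, 12, 4, 2, 2, 0, 2, 1, 3, 0⟩ :=
  leaf_sound (S := T4.ds_pp) T4.ok_pp (w := 176) (c := ⟨⟨.negSucc 953, .negSucc 201, .negSucc 11, .negSucc 125, .ofNat 70, .negSucc 188⟩, ⟨.negSucc 231, .negSucc 101, .negSucc 42, .negSucc 31, .ofNat 15, .negSucc 54⟩, ⟨.ofNat 1164, .ofNat 225, .negSucc 5, .ofNat 187, .negSucc 386, .ofNat 29⟩, ⟨.negSucc 1644, .negSucc 233, .negSucc 17, .negSucc 229, .ofNat 139, .negSucc 318⟩, ⟨.ofNat 29, .ofNat 72, .negSucc 9, .ofNat 52, .negSucc 69, .negSucc 9⟩, .ofNat 687, .negSucc 890, .ofNat 0, .negSucc 890, .ofNat 3143, .ofNat 0, .ofNat 237, .ofNat 183, .negSucc 363, .ofNat 0, .ofNat 139, .negSucc 98, .ofNat 0, .ofNat 0, .ofNat 595, .ofNat 5962, .ofNat 0, .ofNat 0, .ofNat 0, .ofNat 0, .ofNat 0, .ofNat 0, .ofNat 2797005398986374518005353676800, .ofNat 0, .ofNat 0, .ofNat 0, .ofNat 3478957460137354025214620467200,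 .ofNat 0, .ofNat 0, .ofNat 0, .ofNat 609237332892235204843379097600, .ofNat 0⟩)
    (by decide +kernel)
theorem L00214 : Good (Phi V4.P V4.D 1 1) ⟨4, 12, 4, 2, 2, 0, 1, 0, 3, 1⟩ :=
  leaf_sound (S := T4.ds_pp) T4.ok_pp (w := 176) (c := ⟨⟨.negSucc 1313, .negSucc 177, .ofNat 6, .negSucc 89, .ofNat 236, .ofNat 63⟩, ⟨.negSucc 325, .negSucc 110, .negSucc 39, .negSucc 18, .ofNat 55, .ofNat 15⟩, ⟨.ofNat 1677, .ofNat 161, .negSucc 4, .ofNat 22, .negSucc 789, .negSucc 198⟩, ⟨.negSucc 2272, .negSucc 132, .ofNat 0, .negSucc 177, .ofNat 445, .ofNat 120⟩, ⟨.ofNat 77, .negSucc 96, .ofNat 31, .ofNat 85, .negSucc 150, .negSucc 41⟩, .ofNat 677, .negSucc 864, .ofNat 0, .negSucc 864, .ofNat 3072, .ofNat 0, .ofNat 214, .ofNat 165, .negSucc 277, .ofNat 0, .ofNat 125, .negSucc 73, .ofNat 0, .ofNat 0, .ofNat 524, .ofNat 6700, .ofNat 0, .ofNat 0, .ofNat 0, .ofNat 0, .ofNat 0, .ofNat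 0, .ofNat 326582850347287275691730534400, .ofNat 0, .ofNat 237509986884816620836468899289497600, .ofNat 0, .ofNat 232690272806443576409771212800, .ofNat 0, .ofNat 114416956107066290595752337997824000, .ofNat 0, .ofNat 17801730418264568111510323200, .ofNat 0⟩)
    (by decide +kernel)
theorem L00215 : Good (Phi V4.P V4.D 1 1) ⟨4, 12, 4, 2, 2, 0, 1, 0, 2, 1⟩ :=
  leaf_sound (S := T4.ds_pp) T4.ok_pp (w := 168) (c := ⟨⟨.negSucc 1184, .negSucc 174, .ofNat 0, .negSucc 106, .ofNat 162, .ofNat 240⟩, ⟨.negSucc 298, .negSucc 98, .negSucc 35, .negSucc 33, .ofNat 43, .ofNat 66⟩, ⟨.ofNat 1334, .ofNat 287, .negSucc 19, .negSucc 72, .negSucc 534, .negSucc 409⟩, ⟨.negSucc 2043, .negSucc 193, .ofNat 8, .negSucc 164, .ofNat 290, .ofNat 419⟩, ⟨.ofNat 52, .ofNat 61, .negSucc 19, .negSucc 59, .negSucc 52, .negSucc 35⟩, .ofNat 584, .negSucc 625, .ofNat 0, .negSucc 625, .ofNat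 2306, .ofNat 0, .ofNat 373, .ofNat 276, .negSucc 395, .ofNat 0, .ofNat 219, .negSucc 104, .ofNat 0, .ofNat 0, .ofNat 912, .ofNat 3168, .ofNat 0, .ofNat 0, .ofNat 202607090309075677662412800, .ofNat 0, .ofNat 64353165864795883874280072963686400, .ofNat 0, .ofNat 81414898802329817021467852800, .ofNat 0, .ofNat 102602575119037565926507651950182400, .ofNat 0, .ofNat 89459238545376478488428544000, .ofNat 0, .ofNat 331043921812057648663664194800844800, .ofNat 0, .ofNat 18306062131970806892199936000, .ofNat 0⟩)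
    (by decide +kernel)
theorem L00216 : Good (Phi V4.P V4.D 1 1) ⟨4, 13, 4, 2, 2, 0, 1, 0, 1, 0⟩ :=
  out_sound (S := T4.ds_pp) T4.ok_pp (w := 56) (j := 3) (by decide +kernel)
theorem L00217 : Good (Phi V4.P V4.D 1 1) ⟨3, 7, 4, 2, 2, 0, 1, 0, 1, 0⟩ :=
  out_sound (S := T4.ds_pp) T4.ok_pp (w := 48) (j := 3) (by decide +kernel)
theorem L00218 : Good (Phi V4.P V4.D 1 1) ⟨2, 2, 4, 2, 2, 0, 2, 2, 2, 0⟩ :=
  leaf_sound (S := T4.ds_pp) T4.ok_pp (w := 168) (c := ⟨⟨.negSucc 388, .negSucc 570, .negSucc 4, .negSucc 124, .ofNat 128, .negSucc 74⟩, ⟨.ofNat 79, .negSucc 319, .negSucc 33, .negSucc 34, .ofNat 27, .negSucc 18⟩, ⟨.ofNat 227, .ofNat 588, .ofNat 15, .ofNat 120, .negSucc 392, .negSucc 69⟩, ⟨.negSucc 1088, .negSucc 559, .negSucc 7, .negSucc 197, .ofNat 241, .negSucc 132⟩, ⟨.negSucc 76, .ofNat 83, .ofNat 4, .negSucc 98, .negSucc 53, .ofNat 9⟩, .ofNat 668, .negSucc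 946, .ofNat 0, .negSucc 946, .ofNat 4020, .ofNat 0, .ofNat 234, .ofNat 181, .negSucc 339, .ofNat 0, .ofNat 115, .negSucc 78, .ofNat 0, .ofNat 0, .ofNat 585, .ofNat 812, .ofNat 0, .ofNat 0, .ofNat 2358177004964048494657536000, .ofNat 0, .ofNat 0, .ofNat 0, .ofNat 0, .ofNat 0, .ofNat 0, .ofNat 0, .ofNat 0, .ofNat 0, .ofNat 0, .ofNat 0, .ofNat 0, .ofNat 0⟩)
    (by decide +kernel)
theorem L00219 : Good (Phi V4.P V4.D 1 1) ⟨2, 3, 4, 2, 2, 0, 2, 2, 2, 0⟩ :=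
  leaf_sound (S := T4.ds_pp) T4.ok_pp (w := 168) (c := ⟨⟨.negSucc 944, .negSucc 694, .negSucc 27, .negSucc 167, .ofNat 131, .negSucc 46⟩, ⟨.negSucc 234, .negSucc 346, .negSucc 44, .negSucc 52, .ofNat 32, .negSucc 11⟩, ⟨.ofNat 803, .ofNat 876, .ofNat 7, .ofNat 123, .negSucc 352, .negSucc 89⟩, ⟨.negSucc 1620, .negSucc 844, .negSucc 40, .negSucc 265, .ofNat 238, .negSucc 81⟩, ⟨.negSucc 6, .ofNat 87, .ofNat 1, .negSucc 72, .negSucc 49, .ofNat 3⟩, .ofNat 452, .negSucc 331, .ofNat 0, .negSucc 331, .ofNat 1380, .ofNat 0, .ofNat 260, .ofNat 156, .negSucc 367, .ofNat 0, .ofNat 155, .negSucc 89, .ofNat 0, .ofNat 0, .ofNat 601, .ofNat 2333, .ofNat 0, .ofNat 0, .ofNat 35016349546270505038145126400, .ofNat 0, .ofNat 0, .ofNat 0, .ofNat 1161415234891945749190488883200, .ofNat 0, .ofNat 0, .ofNat 0, .ofNat 2119729019851500262608863232000, .ofNat 0, .ofNat 0, .ofNat 0,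 .ofNat 1402524310717811465945874432000, .ofNat 0⟩)
    (by decide +kernel)
theorem L00220 : Good (Phi V4.P V4.D 1 1) ⟨2, 2, 4, 2, 2, 0, 2, 2, 2, 1⟩ :=
  leaf_sound (S := T4.ds_pp) T4.ok_pp (w := 168) (c := ⟨⟨.negSucc 423, .negSucc 490, .negSucc 2, .negSucc 217, .ofNat 93, .ofNat 126⟩, ⟨.ofNat 62, .negSucc 294, .negSucc 29, .negSucc 56, .ofNat 22, .ofNat 31⟩, ⟨.ofNat 159, .ofNat 439, .ofNat 7, .ofNat 91, .negSucc 169, .negSucc 147⟩, ⟨.negSucc 1131, .negSucc 429, .negSucc 3, .negSucc 364, .ofNat 164, .ofNat 221⟩, ⟨.negSucc 28, .negSucc 2, .ofNat 8, .negSucc 93, .ofNat 8, .ofNat 12⟩, .ofNat 604, .negSucc 756, .ofNat 0, .negSucc 756, .ofNat 3362, .ofNat 0, .ofNat 368, .ofNat 279, .negSucc 448, .ofNat 0, .ofNat 178, .negSucc 101, .ofNat 0, .ofNat 0, .ofNat 903, .ofNat 5610, .ofNat 0, .ofNat 0, .ofNat 0, .ofNat 0, .ofNat 0, .ofNat 0, .ofNat 1547699360731292320552452096000,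 .ofNat 0, .ofNat 0, .ofNat 0, .ofNat 2727168946810098245034835968000, .ofNat 0, .ofNat 0, .ofNat 0, .ofNat 1383810478607370750814008115200, .ofNat 0⟩)
    (by decide +kernel)
theorem L00221 : Good (Phi V4.P V4.D 1 1) ⟨2, 3, 4, 2, 2, 0, 2, 2, 2, 1⟩ :=
  leaf_sound (S := T4.ds_pp) T4.ok_pp (w := 168) (c := ⟨⟨.negSucc 913, .negSucc 538, .negSucc 22, .negSucc 231, .ofNat 78, .ofNat 155⟩, ⟨.negSucc 230, .negSucc 281, .negSucc 39, .negSucc 69, .ofNat 21, .ofNat 44⟩, ⟨.ofNat 614, .ofNat 469, .ofNat 14, .ofNat 80, .negSucc 134, .negSucc 171⟩, ⟨.negSucc 1562, .negSucc 604, .negSucc 28, .negSucc 372, .ofNat 133, .ofNat 262⟩, ⟨.negSucc 18, .negSucc 24, .negSucc 1, .negSucc 89, .ofNat 3, .ofNat 9⟩, .ofNat 680, .negSucc 874, .ofNat 0, .negSucc 874, .ofNat 3136, .ofNat 0, .ofNat 378, .ofNat 285, .negSucc 491, .ofNat 0, .ofNat 219, .negSucc 133, .ofNat 0, .ofNat 0, .ofNat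 926, .ofNat 2671, .ofNat 0, .ofNat 0, .ofNat 27742384785705405882826752000, .ofNat 0, .ofNat 0, .ofNat 0, .ofNat 11264221747136130079245572505600, .ofNat 0, .ofNat 0, .ofNat 0, .ofNat 14442374044084845524688882892800, .ofNat 0, .ofNat 0, .ofNat 0, .ofNat 6766940643050754544356871372800, .ofNat 0⟩)
    (by decide +kernel)
theorem L00222 : Good (Phi V4.P V4.D 1 1) ⟨2, 2, 4, 2, 2, 0, 2, 3, 2, 0⟩ :=
  leaf_sound (S := T4.ds_pp) T4.ok_pp (w := 168) (c := ⟨⟨.negSucc 63, .negSucc 782, .ofNat 18, .negSucc 275, .ofNat 484, .negSucc 18⟩, ⟨.ofNat 112, .negSucc 327, .negSucc 11, .negSucc 70, .ofNat 114, .negSucc 2⟩, ⟨.negSucc 319, .ofNat 647, .negSucc 20, .ofNat 223, .negSucc 651, .ofNat 131⟩, ⟨.negSucc 395, .negSucc 1050, .ofNat 27, .negSucc 454, .ofNat 861, .negSucc 47⟩, ⟨.negSucc 31, .negSucc 40, .ofNat 11, .negSucc 151, .ofNat 18, .ofNat 76⟩, .ofNat 456, .negSucc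 340, .ofNat 0, .negSucc 340, .ofNat 1693, .ofNat 0, .ofNat 286, .ofNat 161, .negSucc 521, .ofNat 0, .ofNat 147, .negSucc 112, .ofNat 0, .ofNat 0, .ofNat 717, .ofNat 632, .ofNat 0, .ofNat 0, .ofNat 4381525294826116750088601600, .ofNat 0, .ofNat 0, .ofNat 0, .ofNat 0, .ofNat 0, .ofNat 0, .ofNat 0, .ofNat 0, .ofNat 0, .ofNat 0, .ofNat 0, .ofNat 0, .ofNat 0⟩)
    (by decide +kernel)
theorem L00223 : Good (Phi V4.P V4.D 1 1) ⟨2, 2, 4, 2, 2, 0, 2, 3, 2, 1⟩ :=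
  leaf_sound (S := T4.ds_pp) T4.ok_pp (w := 168) (c := ⟨⟨.negSucc 320, .negSucc 336, .negSucc 30, .negSucc 472, .ofNat 365, .ofNat 38⟩, ⟨.ofNat 52, .negSucc 223, .negSucc 30, .negSucc 118, .ofNat 93, .ofNat 15⟩, ⟨.negSucc 105, .ofNat 323, .ofNat 32, .ofNat 364, .negSucc 380, .ofNat 45⟩, ⟨.negSucc 868, .negSucc 240, .negSucc 54, .negSucc 819, .ofNat 633, .ofNat 54⟩, ⟨.negSucc 9, .negSucc 37, .ofNat 5, .negSucc 63, .ofNat 34, .ofNat 27⟩, .ofNat 598, .negSucc 728, .ofNat 0, .negSucc 728, .ofNat 3180, .ofNat 0, .ofNat 207, .ofNat 156, .negSucc 371, .ofNat 0, .ofNat 103, .negSucc 87, .ofNat 0, .ofNat 0, .ofNat 543, .ofNat 650, .ofNat 0, .ofNat 0, .ofNat 3021493322193390784217088000, .ofNat 0, .ofNat 0, .ofNat 0, .ofNat 0, .ofNat 0, .ofNat 0, .ofNat 0, .ofNat 0, .ofNat 0, .ofNat 0, .ofNat 227390400633199013720572192358400, .ofNat 0, .ofNat 0⟩)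
    (by decide +kernel)
theorem L00224 : Good (Phi V4.P V4.D 1 1) ⟨4, 12, 4, 2, 2, 0, 2, 3, 2, 0⟩ :=
  leaf_sound (S := T4.ds_pp) T4.ok_pp (w := 176) (c := ⟨⟨.negSucc 874, .negSucc 628, .ofNat 130, .negSucc 393, .ofNat 518, .ofNat 32⟩, ⟨.negSucc 226, .negSucc 228, .ofNat 11, .negSucc 122, .ofNat 148, .ofNat 15⟩, ⟨.ofNat 353, .ofNat 643, .negSucc 142, .ofNat 316, .negSucc 653, .ofNat 102⟩, ⟨.negSucc 1485, .negSucc 971, .ofNat 226, .negSucc 632, .ofNat 875, .ofNat 37⟩, ⟨.negSucc 58, .ofNat 27, .negSucc 8, .negSucc 122, .ofNat 16, .ofNat 62⟩, .ofNat 683, .negSucc 879, .ofNat 0, .negSucc 879, .ofNat 3113, .ofNat 0, .ofNat 257, .ofNat 196, .negSucc 511, .ofNat 0, .ofNat 151, .negSucc 142, .ofNat 0, .ofNat 0, .ofNat 704, .ofNat 1151, .ofNat 0, .ofNat 0, .ofNat 0, .ofNat 0, .ofNat 0, .ofNat 0, .ofNat 96799459616723545227893145600, .ofNat 0, .ofNat 0, .ofNat 0,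 .ofNat 133878614552052575801809305600, .ofNat 0, .ofNat 0, .ofNat 27755757184706530216526348078284800, .ofNat 28140361262119002684417638400, .ofNat 0⟩)
    (by decide +kernel)
theorem L00225 : Good (Phi V4.P V4.D 1 1) ⟨4, 12, 4, 2, 2, 0, 2, 3, 2, 1⟩ :=
  leaf_sound (S := T4.ds_pp) T4.ok_pp (w := 176) (c := ⟨⟨.negSucc 633, .negSucc 166, .ofNat 13, .negSucc 542, .ofNat 289, .negSucc 32⟩, ⟨.negSucc 155, .negSucc 89, .negSucc 24, .negSucc 158, .ofNat 85, .negSucc 5⟩, ⟨.ofNat 201, .ofNat 170, .negSucc 16, .ofNat 420, .negSucc 302, .ofNat 116⟩, ⟨.negSucc 1079, .negSucc 187, .ofNat 26, .negSucc 903, .ofNat 482, .negSucc 64⟩, ⟨.negSucc 31, .ofNat 7, .negSucc 5, .negSucc 66, .ofNat 30, .ofNat 25⟩, .ofNat 683, .negSucc 879, .ofNat 0, .negSucc 879, .ofNat 3123, .ofNat 0, .ofNat 206, .ofNat 159, .negSucc 383, .ofNat 0, .ofNat 121, .negSucc 107, .ofNat 0, .ofNat 0, .ofNat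 551, .ofNat 519, .ofNat 0, .ofNat 0, .ofNat 204239642120060069294899200, .ofNat 0, .ofNat 0, .ofNat 9268426139422054770840081059020800, .ofNat 149957897019390242264501452800, .ofNat 0, .ofNat 0, .ofNat 37095753508314339130919213019955200, .ofNat 167980997062252099789022822400, .ofNat 0, .ofNat 0, .ofNat 90965506035175485320812177863475200, .ofNat 13125580940677087422421401600, .ofNat 0⟩)
    (by decide +kernel)
theorem L00226 : Good (Phi V4.P V4.D 1 1) ⟨4, 13, 4, 2, 2, 0, 2, 3, 1, 0⟩ :=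
  out_sound (S := T4.ds_pp) T4.ok_pp (w := 56) (j := 3) (by decide +kernel)
theorem L00227 : Good (Phi V4.P V4.D 1 1) ⟨3, 7, 4, 2, 2, 0, 2, 3, 1, 0⟩ :=
  out_sound (S := T4.ds_pp) T4.ok_pp (w := 48) (j := 3) (by decide +kernel)
theorem L00228 : Good (Phi V4.P V4.D 1 1) ⟨3, 4, 4, 3, 2, 0, 1, 0, 2, 0⟩ :=
  out_sound (S := T4.ds_pp) T4.ok_pp (w := 48) (j := 3) (by decide +kernel)
theorem L00229 : Good (Phi V4.P V4.D 1 1) ⟨4, 10, 4, 3, 2, 0, 1, 0, 2, 0⟩ :=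
  out_sound (S := T4.ds_pp) T4.ok_pp (w := 56) (j := 3) (by decide +kernel)
theorem L00230 : Good (Phi V4.P V4.D 1 1) ⟨4, 11, 4, 3, 2, 0, 2, 0, 3, 0⟩ :=
  leaf_sound (S := T4.ds_pp) T4.ok_pp (w := 176) (c := ⟨⟨.negSucc 750, .negSucc 229, .negSucc 3, .negSucc 119, .ofNat 75, .negSucc 306⟩, ⟨.negSucc 167, .negSucc 109, .negSucc 44, .negSucc 23, .ofNat 19, .negSucc 86⟩, ⟨.ofNat 1183, .ofNat 235, .ofNat 20, .ofNat 187, .negSucc 334, .ofNat 168⟩, ⟨.negSucc 1412, .negSucc 268, .negSucc 12, .negSucc 276, .ofNat 152, .negSucc 534⟩, ⟨.ofNat 32, .negSucc 23, .ofNat 28, .ofNat 240, .negSucc 72, .negSucc 1⟩, .ofNat 942, .negSucc 1756, .ofNat 0, .negSucc 1756, .ofNat 6207, .ofNat 0, .ofNat 189, .ofNat 205, .negSucc 356, .ofNat 0, .ofNat 108, .negSucc 98, .ofNat 0, .ofNat 0, .ofNat 558, .ofNat 4968, .ofNat 0, .ofNat 0, .ofNat 0, .ofNat 0, .ofNat 0, .ofNat 0, .ofNat 0,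 .ofNat 0, .ofNat 0, .ofNat 0, .ofNat 0, .ofNat 0, .ofNat 0, .ofNat 0, .ofNat 0, .ofNat 0⟩)
    (by decide +kernel)
theorem L00231 : Good (Phi V4.P V4.D 1 1) ⟨4, 11, 4, 3, 2, 0, 2, 1, 3, 0⟩ :=
  leaf_sound (S := T4.ds_pp) T4.ok_pp (w := 176) (c := ⟨⟨.negSucc 773, .negSucc 181, .ofNat 10, .negSucc 131, .ofNat 68, .negSucc 195⟩, ⟨.negSucc 172, .negSucc 95, .negSucc 38, .negSucc 34, .ofNat 14, .negSucc 55⟩, ⟨.ofNat 982, .ofNat 192, .negSucc 18, .ofNat 173, .negSucc 383, .ofNat 27⟩, ⟨.negSucc 1450, .negSucc 200, .ofNat 20, .negSucc 245, .ofNat 150, .negSucc 338⟩, ⟨.ofNat 10, .ofNat 52, .negSucc 7, .ofNat 58, .negSucc 111, .negSucc 10⟩, .ofNat 480, .negSucc 415, .ofNat 0, .negSucc 415, .ofNat 1726, .ofNat 0, .ofNat 247, .ofNat 171, .negSucc 359, .ofNat 0, .ofNat 138, .negSucc 86, .ofNat 0, .ofNat 0, .ofNat 591, .ofNat 4643, .ofNat 0, .ofNat 0, .ofNat 0, .ofNat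 0, .ofNat 0, .ofNat 0, .ofNat 0, .ofNat 0, .ofNat 0, .ofNat 0, .ofNat 0, .ofNat 0, .ofNat 0, .ofNat 0, .ofNat 0, .ofNat 0⟩)
    (by decide +kernel)
theorem L00232 : Good (Phi V4.P V4.D 1 1) ⟨4, 11, 4, 3, 2, 0, 1, 0, 3, 1⟩ :=
  leaf_sound (S := T4.ds_pp) T4.ok_pp (w := 176) (c := ⟨⟨.negSucc 1096, .negSucc 212, .ofNat 10, .negSucc 95, .ofNat 236, .ofNat 46⟩, ⟨.negSucc 254, .negSucc 114, .negSucc 38, .negSucc 24, .ofNat 60, .ofNat 11⟩, ⟨.ofNat 1488, .ofNat 196, .negSucc 12, .ofNat 33, .negSucc 801, .negSucc 196⟩, ⟨.negSucc 2058, .negSucc 218, .ofNat 18, .negSucc 182, .ofNat 456, .ofNat 95⟩, ⟨.ofNat 137, .negSucc 37, .ofNat 1, .ofNat 54, .negSucc 158, .negSucc 53⟩, .ofNat 823, .negSucc 1384, .ofNat 0, .negSucc 1384, .ofNat 4987, .ofNat 0, .ofNat 186, .ofNat 195, .negSucc 270, .ofNat 0, .ofNat 105, .negSucc 73, .ofNat 0, .ofNat 0, .ofNat 521, .ofNat 6739, .ofNat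 0, .ofNat 0, .ofNat 0, .ofNat 0, .ofNat 0, .ofNat 0, .ofNat 0, .ofNat 0, .ofNat 0, .ofNat 0, .ofNat 0, .ofNat 0, .ofNat 0, .ofNat 0, .ofNat 0, .ofNat 0⟩)
    (by decide +kernel)
theorem L00233 : Good (Phi V4.P V4.D 1 1) ⟨2, 2, 4, 3, 2, 0, 1, 0, 2, 1⟩ :=
  leaf_sound (S := T4.ds_pp) T4.ok_pp (w := 160) (c := ⟨⟨.negSucc 772, .negSucc 399, .ofNat 0, .negSucc 101, .ofNat 161, .ofNat 219⟩, ⟨.negSucc 50, .negSucc 278, .negSucc 37, .negSucc 31, .ofNat 42, .ofNat 60⟩, ⟨.ofNat 981, .ofNat 351, .negSucc 4, .negSucc 86, .negSucc 531, .negSucc 405⟩, ⟨.negSucc 1737, .negSucc 305, .ofNat 12, .negSucc 156, .ofNat 305, .ofNat 392⟩, ⟨.negSucc 39, .ofNat 119, .negSucc 11, .negSucc 64, .negSucc 84, .negSucc 40⟩, .ofNat 672, .negSucc 923, .ofNat 0, .negSucc 923, .ofNat 3434, .ofNat 0, .ofNat 328, .ofNat 306, .negSucc 363, .ofNat 0, .ofNat 183, .negSucc 96, .ofNat 0, .ofNat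 0, .ofNat 890, .ofNat 3856, .ofNat 0, .ofNat 0, .ofNat 0, .ofNat 0, .ofNat 0, .ofNat 0, .ofNat 0, .ofNat 0, .ofNat 0, .ofNat 0, .ofNat 0, .ofNat 0, .ofNat 955014482184446180739026151014400, .ofNat 0, .ofNat 0, .ofNat 0⟩)
    (by decide +kernel)
theorem L00234 : Good (Phi V4.P V4.D 1 1) ⟨4, 12, 4, 3, 2, 0, 1, 0, 3, 0⟩ :=
  leaf_sound (S := T4.ds_pp) T4.ok_pp (w := 176) (c := ⟨⟨.negSucc 981, .negSucc 234, .negSucc 8, .negSucc 152, .ofNat 156, .negSucc 262⟩, ⟨.negSucc 272, .negSucc 125, .negSucc 43, .negSucc 38, .ofNat 41, .negSucc 83⟩, ⟨.ofNat 1419, .ofNat 214, .ofNat 29, .ofNat 214, .negSucc 718, .ofNat 130⟩, ⟨.negSucc 1699, .negSucc 254, .negSucc 24, .negSucc 309, .ofNat 312, .negSucc 444⟩, ⟨.ofNat 41, .ofNat 0, .ofNat 27, .ofNat 161, .negSucc 156, .ofNat 9⟩, .ofNat 839, .negSucc 1275, .ofNat 0, .negSucc 1275, .ofNat 3991, .ofNat 0, .ofNat 208, .ofNat 205,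 .negSucc 372, .ofNat 0, .ofNat 133, .negSucc 114, .ofNat 0, .ofNat 0, .ofNat 584, .ofNat 2271, .ofNat 0, .ofNat 0, .ofNat 0, .ofNat 0, .ofNat 137120820130625190343985143480320000, .ofNat 0, .ofNat 280717071801222243499691212800, .ofNat 0, .ofNat 0, .ofNat 0, .ofNat 415271398045955244959150899200, .ofNat 0, .ofNat 0, .ofNat 0, .ofNat 0, .ofNat 0⟩)
    (by decide +kernel)
theorem L00235 : Good (Phi V4.P V4.D 1 1) ⟨4, 12, 4, 3, 2, 0, 1, 0, 3, 1⟩ :=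
  leaf_sound (S := T4.ds_pp) T4.ok_pp (w := 176) (c := ⟨⟨.negSucc 1307, .negSucc 175, .ofNat 0, .negSucc 103, .ofNat 242, .ofNat 58⟩, ⟨.negSucc 366, .negSucc 112, .negSucc 43, .negSucc 28, .ofNat 66, .ofNat 13⟩, ⟨.ofNat 1681, .ofNat 148, .ofNat 10, .ofNat 38, .negSucc 805, .negSucc 198⟩, ⟨.negSucc 2276, .negSucc 156, .ofNat 1, .negSucc 193, .ofNat 455, .ofNat 120⟩, ⟨.ofNat 119, .ofNat 22, .negSucc 5, .ofNat 60, .negSucc 149, .negSucc 67⟩, .ofNat 646, .negSucc 779, .ofNat 0, .negSucc 779, .ofNat 2584, .ofNat 0, .ofNat 205, .ofNat 183, .negSucc 291, .ofNat 0, .ofNat 129, .negSucc 86, .ofNat 0, .ofNat 0, .ofNat 534, .ofNat 4707, .ofNat 0, .ofNat 0, .ofNat 0, .ofNat 0, .ofNat 62995021915810275982678314870374400, .ofNat 0, .ofNat 303981208276187931800607129600, .ofNat 0, .ofNat 287687300942858094215221972303872000, .ofNat 0, .ofNat 180132035371647340396098355200,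 .ofNat 0, .ofNat 0, .ofNat 0, .ofNat 0, .ofNat 0⟩)
    (by decide +kernel)
theorem L00236 : Good (Phi V4.P V4.D 1 1) ⟨4, 13, 4, 3, 2, 0, 1, 0, 2, 0⟩ :=
  out_sound (S := T4.ds_pp) T4.ok_pp (w := 56) (j := 3) (by decide +kernel)
theorem L00237 : Good (Phi V4.P V4.D 1 1) ⟨3, 7, 4, 3, 2, 0, 1, 0, 2, 0⟩ :=
  out_sound (S := T4.ds_pp) T4.ok_pp (w := 48) (j := 3) (by decide +kernel)
theorem L00238 : Good (Phi V4.P V4.D 1 1) ⟨4, 12, 4, 3, 2, 0, 1, 0, 2, 1⟩ :=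
  leaf_sound (S := T4.ds_pp) T4.ok_pp (w := 168) (c := ⟨⟨.negSucc 1169, .negSucc 134, .ofNat 0, .negSucc 111, .ofNat 147, .ofNat 240⟩, ⟨.negSucc 338, .negSucc 92, .negSucc 33, .negSucc 38, .ofNat 44, .ofNat 75⟩, ⟨.ofNat 1292, .ofNat 150, .negSucc 4, .negSucc 81, .negSucc 490, .negSucc 404⟩, ⟨.negSucc 2012, .negSucc 111, .ofNat 3, .negSucc 169, .ofNat 264, .ofNat 416⟩, ⟨.ofNat 43, .ofNat 29, .negSucc 4, .negSucc 54, .negSucc 56, .negSucc 42⟩, .ofNat 832, .negSucc 1252, .ofNat 0, .negSucc 1252, .ofNat 3902, .ofNat 0, .ofNat 324, .ofNat 315, .negSucc 375, .ofNat 0, .ofNat 208, .negSucc 115, .ofNat 0, .ofNat 0, .ofNat 893, .ofNat 3060, .ofNat 0, .ofNat 0, .ofNat 0, .ofNat 0, .ofNat 101512853766254309853666777602457600, .ofNat 0, .ofNat 46165964281608642439938048000, .ofNat 0, .ofNat 105485629067526561726143877296947200, .ofNat 0, .ofNat 56004183435241141122052915200,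 .ofNat 0, .ofNat 225102391322856622262786390910566400, .ofNat 0, .ofNat 0, .ofNat 0⟩)
    (by decide +kernel)
theorem L00239 : Good (Phi V4.P V4.D 1 1) ⟨4, 13, 4, 3, 2, 0, 1, 0, 2, 1⟩ :=
  out_sound (S := T4.ds_pp) T4.ok_pp (w := 56) (j := 3) (by decide +kernel)
theorem L00240 : Good (Phi V4.P V4.D 1 1) ⟨3, 7, 4, 3, 2, 0, 1, 0, 2, 1⟩ :=
  out_sound (S := T4.ds_pp) T4.ok_pp (w := 48) (j := 3) (by decide +kernel)
theorem L00241 : Good (Phi V4.P V4.D 1 1) ⟨2, 2, 4, 3, 2, 0, 2, 2, 1, 0⟩ :=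
  leaf_sound (S := T4.ds_pp) T4.ok_pp (w := 160) (c := ⟨⟨.negSucc 651, .negSucc 309, .negSucc 21, .negSucc 172, .ofNat 93, .ofNat 108⟩, ⟨.negSucc 25, .negSucc 247, .negSucc 40, .negSucc 51, .ofNat 26, .ofNat 31⟩, ⟨.ofNat 537, .ofNat 236, .negSucc 16, .ofNat 115, .negSucc 271, .negSucc 273⟩, ⟨.negSucc 1499, .negSucc 149, .negSucc 27, .negSucc 276, .ofNat 168, .ofNat 186⟩, ⟨.negSucc 70, .ofNat 66, .negSucc 12, .negSucc 81, .negSucc 22, .ofNat 1⟩, .ofNat 480, .negSucc 416, .ofNat 0, .negSucc 416, .ofNat 1717, .ofNat 0, .ofNat 221, .ofNat 153, .negSucc 295, .ofNat 0, .ofNat 124, .negSucc 74, .ofNat 0, .ofNat 0, .ofNat 527, .ofNat 1945, .ofNat 0, .ofNat 0, .ofNat 0, .ofNat 0, .ofNat 0, .ofNat 0, .ofNat 10559881640751507255066624000, .ofNat 0, .ofNat 0, .ofNat 0, .ofNat 0, .ofNat 0, .ofNat 0, .ofNat 0, .ofNat 10755850096126070494750310400, .ofNat 0⟩)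
    (by decide +kernel)
theorem L00242 : Good (Phi V4.P V4.D 1 1) ⟨4, 12, 4, 3, 2, 0, 2, 2, 1, 0⟩ :=
  leaf_sound (S := T4.ds_pp) T4.ok_pp (w := 168) (c := ⟨⟨.negSucc 968, .negSucc 169, .ofNat 27, .negSucc 207, .ofNat 54, .ofNat 129⟩, ⟨.negSucc 275, .negSucc 108, .negSucc 25, .negSucc 72, .ofNat 17, .ofNat 43⟩, ⟨.ofNat 780, .ofNat 153, .negSucc 33, .ofNat 126, .negSucc 218, .negSucc 274⟩, ⟨.negSucc 1660, .negSucc 154, .ofNat 46, .negSucc 325, .ofNat 97, .ofNat 215⟩, ⟨.negSucc 8, .negSucc 22, .ofNat 10, .negSucc 75, .negSucc 20, .ofNat 2⟩, .ofNat 759, .negSucc 1056, .ofNat 0, .negSucc 1056, .ofNat 3329, .ofNat 0, .ofNat 191, .ofNat 185, .negSucc 294, .ofNat 0, .ofNat 123, .negSucc 92, .ofNat 0, .ofNat 0, .ofNat 521, .ofNat 1549, .ofNat 0, .ofNat 0, .ofNat 0, .ofNat 0, .ofNat 0, .ofNat 0, .ofNat 3402740800752684351514214400, .ofNat 0, .ofNat 0, .ofNat 0, .ofNat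 5529568707203188646530252800, .ofNat 0, .ofNat 0, .ofNat 0, .ofNat 1728180806441393874744115200, .ofNat 0⟩)
    (by decide +kernel)
theorem L00243 : Good (Phi V4.P V4.D 1 1) ⟨4, 13, 4, 3, 2, 0, 2, 2, 1, 0⟩ :=
  out_sound (S := T4.ds_pp) T4.ok_pp (w := 56) (j := 3) (by decide +kernel)
theorem L00244 : Good (Phi V4.P V4.D 1 1) ⟨3, 7, 4, 3, 2, 0, 2, 2, 1, 0⟩ :=
  out_sound (S := T4.ds_pp) T4.ok_pp (w := 48) (j := 3) (by decide +kernel)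
theorem L00245 : Good (Phi V4.P V4.D 1 1) ⟨3, 4, 4, 3, 2, 0, 2, 3, 1, 0⟩ :=
  out_sound (S := T4.ds_pp) T4.ok_pp (w := 48) (j := 3) (by decide +kernel)
theorem L00246 : Good (Phi V4.P V4.D 1 1) ⟨3, 5, 4, 3, 2, 0, 2, 3, 1, 0⟩ :=
  leaf_sound (S := T4.ds_pp) T4.ok_pp (w := 168) (c := ⟨⟨.negSucc 589, .negSucc 148, .negSucc 50, .negSucc 377, .ofNat 421, .ofNat 33⟩, ⟨.negSucc 91, .negSucc 124, .negSucc 35, .negSucc 110, .ofNat 119, .ofNat 13⟩, ⟨.ofNat 5, .ofNat 207, .ofNat 42, .ofNat 273, .negSucc 514, .ofNat 192⟩, ⟨.negSucc 1193, .negSucc 49, .negSucc 96, .negSucc 625, .ofNat 729, .ofNat 29⟩, ⟨.negSucc 20, .negSucc 55, .ofNat 23, .negSucc 118, .ofNat 12, .ofNat 102⟩, .ofNat 927, .negSucc 1708, .ofNat 0, .negSucc 1708, .ofNat 6049, .ofNat 0, .ofNat 197, .ofNat 210, .negSucc 419, .ofNat 0, .ofNat 112, .negSucc 117, .ofNat 0, .ofNat 0, .ofNat 608, .ofNat 530, .ofNat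 0, .ofNat 0, .ofNat 89722335130862126373273600, .ofNat 0, .ofNat 0, .ofNat 0, .ofNat 0, .ofNat 0, .ofNat 0, .ofNat 0, .ofNat 0, .ofNat 0, .ofNat 0, .ofNat 664684996944402318285964365004800, .ofNat 0, .ofNat 0⟩)
    (by decide +kernel)
theorem L00247 : Good (Phi V4.P V4.D 1 1) ⟨4, 12, 4, 3, 2, 0, 2, 3, 2, 0⟩ :=
  leaf_sound (S := T4.ds_pp) T4.ok_pp (w := 176) (c := ⟨⟨.negSucc 817, .negSucc 232, .negSucc 3, .negSucc 324, .ofNat 500, .negSucc 1⟩, ⟨.negSucc 241, .negSucc 115, .negSucc 23, .negSucc 109, .ofNat 161, .ofNat 3⟩, ⟨.ofNat 316, .ofNat 201, .negSucc 3, .ofNat 277, .negSucc 662, .ofNat 112⟩, ⟨.negSucc 1382, .negSucc 299, .negSucc 0, .negSucc 505, .ofNat 836, .negSucc 25⟩, ⟨.negSucc 60, .ofNat 19, .negSucc 12, .negSucc 131, .ofNat 21, .ofNat 73⟩, .ofNat 663, .negSucc 825, .ofNat 0, .negSucc 825, .ofNat 2704, .ofNat 0, .ofNat 244, .ofNat 227, .negSucc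 551, .ofNat 0, .ofNat 155, .negSucc 173, .ofNat 0, .ofNat 0, .ofNat 742, .ofNat 464, .ofNat 0, .ofNat 0, .ofNat 0, .ofNat 0, .ofNat 0, .ofNat 0, .ofNat 0, .ofNat 0, .ofNat 0, .ofNat 0, .ofNat 125564865001140237031283097600, .ofNat 0, .ofNat 0, .ofNat 105942750315494816907098881995571200, .ofNat 30343825201928478584419123200, .ofNat 0⟩)
    (by decide +kernel)
theorem L00248 : Good (Phi V4.P V4.D 1 1) ⟨5, 24, 4, 3, 2, 0, 3, 6, 2, 1⟩ :=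
  leaf_sound (S := T4.ds_pp) T4.ok_pp (w := 184) (c := ⟨⟨.negSucc 673, .negSucc 64, .negSucc 1, .negSucc 441, .ofNat 54, .ofNat 32⟩, ⟨.negSucc 188, .negSucc 43, .negSucc 29, .negSucc 143, .ofNat 19, .ofNat 11⟩, ⟨.ofNat 250, .ofNat 64, .negSucc 3, .ofNat 312, .negSucc 63, .ofNat 35⟩, ⟨.negSucc 1150, .negSucc 52, .negSucc 2, .negSucc 722, .ofNat 86, .ofNat 45⟩, ⟨.negSucc 36, .negSucc 5, .ofNat 2, .negSucc 65, .ofNat 13, .ofNat 31⟩, .ofNat 816, .negSucc 1208, .ofNat 0, .negSucc 1208, .ofNat 3796, .ofNat 0, .ofNat 182, .ofNat 175, .negSucc 337, .ofNat 0, .ofNat 116, .negSucc 106, .ofNat 0, .ofNat 0, .ofNat 516, .ofNat 3086, .ofNat 0, .ofNat 0, .ofNat 0, .ofNat 0, .ofNat 0, .ofNat 0, .ofNat 305185621155308786680646860800, .ofNat 0, .ofNat 0, .ofNat 0, .ofNat 0, .ofNat 0, .ofNat 0, .ofNat 0, .ofNat 0, .ofNat 0⟩)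
    (by decide +kernel)
theorem L00249 : Good (Phi V4.P V4.D 1 1) ⟨5, 24, 4, 3, 2, 0, 3, 7, 2, 1⟩ :=
  leaf_sound (S := T4.ds_pp) T4.ok_pp (w := 176) (c := ⟨⟨.negSucc 352, .negSucc 162, .ofNat 5, .negSucc 785, .ofNat 279, .negSucc 87⟩, ⟨.negSucc 91, .negSucc 71, .negSucc 21, .negSucc 254, .ofNat 90, .negSucc 23⟩, ⟨.negSucc 106, .ofNat 159, .negSucc 5, .ofNat 663, .negSucc 277, .ofNat 194⟩, ⟨.negSucc 606, .negSucc 228, .ofNat 12, .negSucc 1306, .ofNat 465, .negSucc 158⟩, ⟨.negSucc 33, .negSucc 0, .ofNat 0, .negSucc 46, .ofNat 21, .ofNat 22⟩, .ofNat 760, .negSucc 1070, .ofNat 0, .negSucc 1070, .ofNat 3407, .ofNat 0, .ofNat 194, .ofNat 188, .negSucc 486, .ofNat 0, .ofNat 124, .negSucc 155, .ofNat 0, .ofNat 0, .ofNat 629, .ofNat 643, .ofNat 0, .ofNat 0, .ofNat 0, .ofNat 0, .ofNat 0, .ofNat 0, .ofNat 0, .ofNat 0, .ofNat 0, .ofNat 0, .ofNat 0, .ofNat 0, .ofNat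 0, .ofNat 0, .ofNat 0, .ofNat 0⟩)
    (by decide +kernel)
theorem L00250 : Good (Phi V4.P V4.D 1 1) ⟨5, 25, 4, 3, 2, 0, 3, 6, 2, 1⟩ :=
  leaf_sound (S := T4.ds_pp) T4.ok_pp (w := 184) (c := ⟨⟨.negSucc 584, .negSucc 0, .negSucc 177, .negSucc 476, .ofNat 51, .ofNat 76⟩, ⟨.negSucc 177, .negSucc 13, .negSucc 87, .negSucc 168, .ofNat 19, .ofNat 28⟩, ⟨.ofNat 154, .negSucc 38, .ofNat 181, .ofNat 340, .negSucc 63, .negSucc 1⟩, ⟨.negSucc 959, .ofNat 17, .negSucc 289, .negSucc 766, .ofNat 80, .ofNat 120⟩, ⟨.negSucc 47, .ofNat 22, .ofNat 11, .negSucc 60, .ofNat 14, .ofNat 19⟩, .ofNat 833, .negSucc 1189, .ofNat 0, .negSucc 1189, .ofNat 3458, .ofNat 0, .ofNat 182, .ofNat 181, .negSucc 354, .ofNat 0, .ofNat 125, .negSucc 121, .ofNat 0, .ofNat 0, .ofNat 531, .ofNat 3319, .ofNat 0, .ofNat 0, .ofNat 0, .ofNat 0, .ofNat 0, .ofNat 0, .ofNat 3084123389670139022015673139200,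 .ofNat 0, .ofNat 0, .ofNat 0, .ofNat 3456963132003160344682404249600, .ofNat 0, .ofNat 0, .ofNat 0, .ofNat 1529543425254345877951925452800, .ofNat 0⟩)
    (by decide +kernel)
theorem L00251 : Good (Phi V4.P V4.D 1 1) ⟨5, 25, 4, 3, 2, 0, 3, 7, 2, 1⟩ :=
  leaf_sound (S := T4.ds_pp) T4.ok_pp (w := 184) (c := ⟨⟨.negSucc 532, .ofNat 229, .negSucc 10, .negSucc 826, .ofNat 370, .negSucc 31⟩, ⟨.negSucc 158, .ofNat 63, .negSucc 29, .negSucc 287, .ofNat 129, .negSucc 8⟩, ⟨.ofNat 69, .negSucc 191, .ofNat 16, .ofNat 696, .negSucc 372, .ofNat 135⟩, ⟨.negSucc 889, .ofNat 413, .ofNat 1, .negSucc 1349, .ofNat 607, .negSucc 60⟩, ⟨.ofNat 2, .negSucc 30, .negSucc 29, .negSucc 51, .ofNat 13, .ofNat 23⟩, .ofNat 811, .negSucc 1136, .ofNat 0, .negSucc 1136, .ofNat 3319, .ofNat 0, .ofNat 193, .ofNat 192, .negSucc 496, .ofNat 0, .ofNat 133, .negSucc 171, .ofNat 0, .ofNat 0, .ofNat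 638, .ofNat 868, .ofNat 0, .ofNat 0, .ofNat 0, .ofNat 0, .ofNat 0, .ofNat 1814150075733012325792372171053465600, .ofNat 3183462705352905719390247321600, .ofNat 0, .ofNat 0, .ofNat 1217947040635996635601929299715686400, .ofNat 3370020086952170181216121651200, .ofNat 0, .ofNat 0, .ofNat 4817703816507052259426682921811968000, .ofNat 172201011720886811599935897600, .ofNat 0⟩)
    (by decide +kernel)
theorem L00252 : Good (Phi V4.P V4.D 1 1) ⟨4, 13, 4, 3, 2, 0, 2, 3, 1, 0⟩ :=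
  out_sound (S := T4.ds_pp) T4.ok_pp (w := 56) (j := 3) (by decide +kernel)
theorem L00253 : Good (Phi V4.P V4.D 1 1) ⟨3, 7, 4, 3, 2, 0, 2, 3, 1, 0⟩ :=
  out_sound (S := T4.ds_pp) T4.ok_pp (w := 48) (j := 3) (by decide +kernel)
theorem L00254 : Good (Phi V4.P V4.D 1 1) ⟨3, 4, 3, 1, 2, 1, 1, 0, 2, 0⟩ :=
  out_sound (S := T4.ds_pp) T4.ok_pp (w := 48) (j := 3) (by decide +kernel)
theorem L00255 : Good (Phi V4.P V4.D 1 1) ⟨3, 5, 3, 1, 2, 1, 1, 0, 2, 0⟩ :=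
  leaf_sound (S := T4.ds_pp) T4.ok_pp (w := 160) (c := ⟨⟨.negSucc 722, .negSucc 305, .negSucc 21, .negSucc 157, .ofNat 30, .negSucc 315⟩, ⟨.negSucc 92, .negSucc 130, .negSucc 115, .negSucc 20, .negSucc 12, .negSucc 80⟩, ⟨.ofNat 1317, .ofNat 331, .negSucc 3, .ofNat 43, .negSucc 594, .negSucc 203⟩, ⟨.negSucc 1537, .negSucc 324, .negSucc 51, .negSucc 356, .ofNat 168, .negSucc 536⟩, ⟨.ofNat 247, .ofNat 190, .negSucc 5, .ofNat 290, .negSucc 459, .negSucc 114⟩, .ofNat 457, .negSucc 346, .ofNat 0, .negSucc 346, .ofNat 1694, .ofNat 0, .ofNat 262, .ofNat 157, .negSucc 306, .ofNat 0, .ofNat 131, .negSucc 53, .ofNat 0, .ofNat 0, .ofNat 531, .ofNat 2492, .ofNat 0, .ofNat 0, .ofNat 0, .ofNat 0, .ofNat 0, .ofNat 0, .ofNat 7413734259051933743028633600, .ofNat 0, .ofNat 0, .ofNat 0, .ofNat 0, .ofNat 0, .ofNat 0, .ofNat 0, .ofNat 0, .ofNat 0⟩)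
    (by decide +kernel)
theorem L00256 : Good (Phi V4.P V4.D 1 1) ⟨4, 12, 3, 1, 2, 1, 1, 0, 3, 0⟩ :=
  leaf_sound (S := T4.ds_pp) T4.ok_pp (w := 176) (c := ⟨⟨.negSucc 979, .negSucc 273, .ofNat 2, .negSucc 123, .ofNat 31, .negSucc 341⟩, ⟨.negSucc 195, .negSucc 106, .negSucc 108, .negSucc 16, .negSucc 19, .negSucc 107⟩, ⟨.ofNat 1602, .ofNat 263, .ofNat 6, .ofNat 51, .negSucc 636, .ofNat 31⟩, ⟨.negSucc 1773, .negSucc 376, .negSucc 20, .negSucc 320, .ofNat 205, .negSucc 586⟩, ⟨.ofNat 353, .ofNat 147, .ofNat 8, .ofNat 354, .negSucc 484, .ofNat 15⟩, .ofNat 745, .negSucc 1030, .ofNat 0, .negSucc 1030, .ofNat 3317, .ofNat 0, .ofNat 227, .ofNat 228, .negSucc 347, .ofNat 0, .ofNat 142, .negSucc 97, .ofNat 0, .ofNat 0, .ofNat 550, .ofNat 2206, .ofNat 0, .ofNat 0, .ofNat 885490882238797820146483200, .ofNat 0, .ofNat 16238962205380100191948938569318400, .ofNat 0, .ofNat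 216889151538890101847438131200, .ofNat 0, .ofNat 0, .ofNat 0, .ofNat 276860793878693775438092697600, .ofNat 0, .ofNat 0, .ofNat 0, .ofNat 0, .ofNat 0⟩)
    (by decide +kernel)
theorem L00257 : Good (Phi V4.P V4.D 1 1) ⟨4, 12, 3, 1, 2, 1, 1, 0, 3, 1⟩ :=
  leaf_sound (S := T4.ds_pp) T4.ok_pp (w := 176) (c := ⟨⟨.negSucc 1320, .negSucc 245, .ofNat 33, .negSucc 206, .ofNat 94, .ofNat 33⟩, ⟨.negSucc 295, .negSucc 127, .negSucc 96, .negSucc 45, .negSucc 0, .ofNat 2⟩, ⟨.ofNat 1688, .ofNat 213, .negSucc 25, .negSucc 3, .negSucc 655, .negSucc 306⟩, ⟨.negSucc 2374, .negSucc 261, .ofNat 35, .negSucc 450, .ofNat 306, .ofNat 105⟩, ⟨.ofNat 383, .ofNat 8, .ofNat 25, .ofNat 326, .negSucc 464, .negSucc 152⟩, .ofNat 647, .negSucc 785, .ofNat 0, .negSucc 785, .ofNat 2619, .ofNat 0, .ofNat 435, .ofNat 405, .negSucc 532, .ofNat 0, .ofNat 269, .negSucc 141, .ofNat 0, .ofNat 0,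 .ofNat 1024, .ofNat 7075, .ofNat 0, .ofNat 0, .ofNat 0, .ofNat 0, .ofNat 77771522772279917259740416888012800, .ofNat 0, .ofNat 760085784067088676275041075200, .ofNat 0, .ofNat 141194951279986752264827159602790400, .ofNat 0, .ofNat 364281588169549771424189644800, .ofNat 0, .ofNat 115063040308252384840442705451417600, .ofNat 0, .ofNat 197735867523910739165184000000, .ofNat 0⟩)
    (by decide +kernel)
theorem L00258 : Good (Phi V4.P V4.D 1 1) ⟨4, 13, 3, 1, 2, 1, 1, 0, 2, 0⟩ :=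
  out_sound (S := T4.ds_pp) T4.ok_pp (w := 56) (j := 3) (by decide +kernel)
theorem L00259 : Good (Phi V4.P V4.D 1 1) ⟨3, 7, 3, 1, 2, 1, 1, 0, 2, 0⟩ :=
  out_sound (S := T4.ds_pp) T4.ok_pp (w := 48) (j := 3) (by decide +kernel)
theorem L00260 : Good (Phi V4.P V4.D 1 1) ⟨3, 4, 3, 1, 2, 1, 1, 1, 2, 0⟩ :=
  out_sound (S := T4.ds_pp) T4.ok_pp (w := 48) (j := 3) (by decide +kernel)
theorem L00261 : Good (Phi V4.P V4.D 1 1) ⟨4, 10, 5, 4, 2, 1, 1, 1, 2, 0⟩ :=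
  leaf_sound (S := T4.ds_pp) T4.ok_pp (w := 176) (c := ⟨⟨.negSucc 726, .ofNat 0, .ofNat 496, .negSucc 462, .ofNat 212, .negSucc 296⟩, ⟨.negSucc 151, .ofNat 0, .ofNat 82, .negSucc 89, .ofNat 41, .negSucc 57⟩, ⟨.ofNat 555, .ofNat 0, .negSucc 289, .ofNat 391, .negSucc 627, .ofNat 114⟩, ⟨.negSucc 1301, .ofNat 0, .ofNat 948, .negSucc 881, .ofNat 405, .negSucc 563⟩, ⟨.negSucc 178, .ofNat 0, .negSucc 174, .ofNat 145, .negSucc 72, .ofNat 91⟩, .ofNat 848, .negSucc 1863, .ofNat 0, .negSucc 1863, .ofNat 9217, .ofNat 0, .ofNat 236, .ofNat 226, .negSucc 379, .ofNat 0, .ofNat 96, .negSucc 73, .ofNat 0, .ofNat 0, .ofNat 594, .ofNat 783, .ofNat 0, .ofNat 0, .ofNat 697525608320471684402380800, .ofNat 0, .ofNat 0, .ofNat 0, .ofNat 143803935559074844808891596800, .ofNat 0, .ofNat 0, .ofNat 0, .ofNat 0, .ofNat 0, .ofNat 0, .ofNat 4226782316941256307238395445248000, .ofNat 4809629895606817050643660800,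 .ofNat 0⟩)
    (by decide +kernel)
theorem L00262 : Good (Phi V4.P V4.D 1 1) ⟨4, 10, 5, 5, 2, 1, 1, 1, 2, 0⟩ :=
  out_sound (S := T4.ds_pp) T4.ok_pp (w := 56) (j := 3) (by decide +kernel)
theorem L00263 : Good (Phi V4.P V4.D 1 1) ⟨4, 10, 4, 3, 2, 1, 1, 1, 2, 0⟩ :=
  out_sound (S := T4.ds_pp) T4.ok_pp (w := 56) (j := 3) (by decide +kernel)
theorem L00264 : Good (Phi V4.P V4.D 1 1) ⟨4, 11, 3, 1, 2, 1, 2, 2, 2, 0⟩ :=
  leaf_sound (S := T4.ds_pp) T4.ok_pp (w := 168) (c := ⟨⟨.negSucc 789, .negSucc 211, .negSucc 2, .negSucc 323, .ofNat 48, .negSucc 230⟩, ⟨.negSucc 149, .negSucc 104, .negSucc 78, .negSucc 70, .ofNat 6, .negSucc 54⟩, ⟨.ofNat 720, .ofNat 184, .negSucc 8, .ofNat 227, .negSucc 292, .negSucc 68⟩, ⟨.negSucc 1449, .negSucc 241, .negSucc 12, .negSucc 617, .ofNat 116, .negSucc 413⟩, ⟨.negSucc 119, .ofNat 69, .ofNat 28, .ofNat 174, .negSucc 126, .ofNat 20⟩,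 .ofNat 599, .negSucc 736, .ofNat 0, .negSucc 736, .ofNat 3243, .ofNat 0, .ofNat 249, .ofNat 196, .negSucc 341, .ofNat 0, .ofNat 120, .negSucc 72, .ofNat 0, .ofNat 0, .ofNat 571, .ofNat 1390, .ofNat 0, .ofNat 0, .ofNat 0, .ofNat 0, .ofNat 0, .ofNat 0, .ofNat 0, .ofNat 0, .ofNat 0, .ofNat 0, .ofNat 0, .ofNat 0, .ofNat 0, .ofNat 0, .ofNat 0, .ofNat 0⟩)
    (by decide +kernel)
theorem L00265 : Good (Phi V4.P V4.D 1 1) ⟨4, 11, 3, 1, 2, 1, 2, 3, 2, 0⟩ :=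
  leaf_sound (S := T4.ds_pp) T4.ok_pp (w := 168) (c := ⟨⟨.negSucc 537, .negSucc 299, .ofNat 155, .negSucc 524, .ofNat 204, .negSucc 424⟩, ⟨.negSucc 101, .negSucc 125, .negSucc 31, .negSucc 120, .ofNat 51, .negSucc 94⟩, ⟨.ofNat 118, .ofNat 254, .negSucc 134, .ofNat 426, .negSucc 400, .ofNat 356⟩, ⟨.negSucc 960, .negSucc 402, .ofNat 283, .negSucc 956, .ofNat 360, .negSucc 793⟩, ⟨.negSucc 275, .ofNat 39, .negSucc 21, .ofNat 119, .ofNat 7, .ofNat 168⟩, .ofNat 602, .negSucc 741, .ofNat 0, .negSucc 741, .ofNat 3222, .ofNat 0, .ofNat 276, .ofNat 222, .negSucc 505, .ofNat 0, .ofNat 135, .negSucc 116, .ofNat 0, .ofNat 0, .ofNat 684, .ofNat 451, .ofNat 0, .ofNat 0, .ofNat 278917465888432684951142400, .ofNat 0, .ofNat 0, .ofNat 0, .ofNat 0, .ofNat 0, .ofNat 0, .ofNat 5900790749161868345118542738227200, .ofNat 0, .ofNat 0, .ofNat 0, .ofNat 0, .ofNat 0, .ofNat 0⟩)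
    (by decide +kernel)
theorem L00266 : Good (Phi V4.P V4.D 1 1) ⟨3, 6, 3, 1, 2, 1, 2, 2, 2, 0⟩ :=
  leaf_sound (S := T4.ds_pp) T4.ok_pp (w := 168) (c := ⟨⟨.negSucc 955, .negSucc 521, .ofNat 8, .negSucc 306, .ofNat 22, .negSucc 252⟩, ⟨.negSucc 219, .negSucc 271, .negSucc 90, .negSucc 82, .negSucc 1, .negSucc 79⟩, ⟨.ofNat 922, .ofNat 459, .negSucc 42, .ofNat 190, .negSucc 284, .negSucc 104⟩, ⟨.negSucc 1638, .negSucc 653, .ofNat 30, .negSucc 579, .ofNat 83, .negSucc 419⟩, ⟨.negSucc 23, .ofNat 228, .negSucc 41, .ofNat 203, .negSucc 142, .negSucc 24⟩, .ofNat 636, .negSucc 750, .ofNat 0, .negSucc 750, .ofNat 2497, .ofNat 0, .ofNat 244, .ofNat 225, .negSucc 368, .ofNat 0, .ofNat 152, .negSucc 103, .ofNat 0, .ofNat 0, .ofNat 591, .ofNat 1869, .ofNat 0, .ofNat 0, .ofNat 3725705118934034280559411200, .ofNat 0, .ofNat 0, .ofNat 0, .ofNat 265995719235561270913951334400,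 .ofNat 0, .ofNat 0, .ofNat 0, .ofNat 196081689134466277959322828800, .ofNat 0, .ofNat 0, .ofNat 0, .ofNat 187104076255650085991350272000, .ofNat 0⟩)
    (by decide +kernel)
theorem L00267 : Good (Phi V4.P V4.D 1 1) ⟨3, 7, 3, 1, 2, 1, 2, 2, 2, 0⟩ :=
  out_sound (S := T4.ds_pp) T4.ok_pp (w := 48) (j := 3) (by decide +kernel)
theorem L00268 : Good (Phi V4.P V4.D 1 1) ⟨4, 12, 3, 1, 2, 1, 2, 3, 3, 0⟩ :=
  leaf_sound (S := T4.ds_pp) T4.ok_pp (w := 176) (c := ⟨⟨.negSucc 809, .negSucc 364, .ofNat 1, .negSucc 369, .ofNat 225, .negSucc 271⟩, ⟨.negSucc 200, .negSucc 183, .negSucc 69, .negSucc 106, .ofNat 65, .negSucc 77⟩, ⟨.ofNat 351, .ofNat 351, .negSucc 0, .ofNat 307, .negSucc 471, .ofNat 205⟩, ⟨.negSucc 1334, .negSucc 478, .ofNat 13, .negSucc 661, .ofNat 394, .negSucc 487⟩, ⟨.negSucc 225, .negSucc 2, .ofNat 3, .ofNat 121, .negSucc 43, .ofNat 97⟩, .ofNat 793, .negSucc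 1142, .ofNat 0, .negSucc 1142, .ofNat 3587, .ofNat 0, .ofNat 273, .ofNat 272, .negSucc 593, .ofNat 0, .ofNat 175, .negSucc 181, .ofNat 0, .ofNat 0, .ofNat 767, .ofNat 522, .ofNat 0, .ofNat 0, .ofNat 0, .ofNat 0, .ofNat 0, .ofNat 0, .ofNat 2198796670896606894267511603200, .ofNat 0, .ofNat 0, .ofNat 0, .ofNat 2037792220774450479931745894400, .ofNat 0, .ofNat 0, .ofNat 47138868951068749902197050205798400, .ofNat 657046652795291521400596070400, .ofNat 0⟩)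
    (by decide +kernel)
theorem L00269 : Good (Phi V4.P V4.D 1 1) ⟨4, 12, 3, 1, 2, 1, 2, 3, 3, 1⟩ :=
  leaf_sound (S := T4.ds_pp) T4.ok_pp (w := 176) (c := ⟨⟨.negSucc 799, .negSucc 470, .ofNat 112, .negSucc 805, .negSucc 48, .negSucc 210⟩, ⟨.negSucc 179, .negSucc 219, .negSucc 54, .negSucc 242, .negSucc 12, .negSucc 62⟩, ⟨.ofNat 335, .ofNat 365, .negSucc 103, .ofNat 574, .negSucc 82, .ofNat 181⟩, ⟨.negSucc 1336, .negSucc 638, .ofNat 194, .negSucc 1409, .negSucc 88, .negSucc 370⟩, ⟨.negSucc 181, .ofNat 65, .negSucc 15, .ofNat 177, .ofNat 20, .ofNat 58⟩, .ofNat 742, .negSucc 1021, .ofNat 0, .negSucc 1021, .ofNat 3288, .ofNat 0, .ofNat 241, .ofNat 241, .negSucc 501, .ofNat 0, .ofNat 152, .negSucc 154, .ofNat 0, .ofNat 0, .ofNat 658, .ofNat 462, .ofNat 0, .ofNat 6362852959868422959454696243200, .ofNat 2086883831930657696435404800, .ofNat 0, .ofNat 0, .ofNat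 24076830124336468238331036460646400, .ofNat 1464512233072090826367251251200, .ofNat 0, .ofNat 0, .ofNat 0, .ofNat 1692920365209147314354415206400, .ofNat 0, .ofNat 0, .ofNat 78281863470134200789503563110809600, .ofNat 160221154455124702619133542400, .ofNat 0⟩)
    (by decide +kernel)

end Crest.Agent.R097C4.N4pp
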