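import Crest.Agent.R097.T4

/-!
# Row 97, box cover in dimension n = 4 (generated)
-/

set_option autoImplicit false
set_option Elab.async false
set_option maxHeartbeats 0
set_option maxRecDepth 100000

open Crest.Agent.R097 Crest.Agent.R097.KA


namespace Crest.Agent.R097C4.N4pp

theorem L00270 : Good (Phi V4.P V4.D 1 1) ⟨4, 13, 3, 1, 2, 1, 2, 3, 2, 0⟩ :=
  out_sound (S := T4.ds_pp) T4.ok_pp (w := 56) (j := 3) (by decide +kernel)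
theorem L00271 : Good (Phi V4.P V4.D 1 1) ⟨3, 7, 3, 1, 2, 1, 2, 3, 2, 0⟩ :=
  out_sound (S := T4.ds_pp) T4.ok_pp (w := 48) (j := 3) (by decide +kernel)
theorem L00272 : Good (Phi V4.P V4.D 1 1) ⟨2, 2, 3, 1, 2, 1, 1, 0, 3, 2⟩ :=
  leaf_sound (S := T4.ds_pp) T4.ok_pp (w := 168) (c := ⟨⟨.negSucc 651, .negSucc 534, .ofNat 8, .negSucc 267, .ofNat 24, .ofNat 112⟩, ⟨.ofNat 41, .negSucc 324, .negSucc 91, .negSucc 55, .negSucc 4, .ofNat 20⟩, ⟨.ofNat 821, .ofNat 366, .negSucc 13, .ofNat 21, .negSucc 366, .negSucc 296⟩, ⟨.negSucc 1673, .negSucc 401, .ofNat 5, .negSucc 526, .ofNat 108, .ofNat 230⟩, ⟨.ofNat 30, .ofNat 164, .ofNat 11, .ofNat 193, .negSucc 282, .negSucc 132⟩, .ofNat 605, .negSucc 763, .ofNat 0, .negSucc 763, .ofNat 3395, .ofNat 0, .ofNat 402, .ofNat 317, .negSucc 365, .ofNat 0, .ofNat 191, .negSucc 70, .ofNat 0, .ofNat 0, .ofNat 917, .ofNat 3195, .ofNat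 0, .ofNat 0, .ofNat 8431435563050113342164172800, .ofNat 0, .ofNat 0, .ofNat 0, .ofNat 0, .ofNat 0, .ofNat 0, .ofNat 0, .ofNat 0, .ofNat 0, .ofNat 1025052274711037089579255883366400, .ofNat 0, .ofNat 0, .ofNat 0⟩)
    (by decide +kernel)
theorem L00273 : Good (Phi V4.P V4.D 1 1) ⟨3, 6, 3, 1, 2, 1, 1, 0, 3, 2⟩ :=
  leaf_sound (S := T4.ds_pp) T4.ok_pp (w := 168) (c := ⟨⟨.negSucc 1184, .negSucc 326, .ofNat 9, .negSucc 275, .negSucc 5, .ofNat 148⟩, ⟨.negSucc 278, .negSucc 218, .negSucc 86, .negSucc 73, .negSucc 18, .ofNat 38⟩, ⟨.ofNat 1201, .ofNat 198, .negSucc 13, .negSucc 1, .negSucc 341, .negSucc 325⟩, ⟨.negSucc 2076, .negSucc 291, .ofNat 21, .negSucc 525, .ofNat 55, .ofNat 282⟩, ⟨.ofNat 151, .ofNat 112, .negSucc 22, .ofNat 193, .negSucc 206, .negSucc 108⟩, .ofNat 636, .negSucc 755, .ofNat 0, .negSucc 755, .ofNat 2534, .ofNat 0, .ofNat 386, .ofNat 345, .negSucc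 393, .ofNat 0, .ofNat 239, .negSucc 103, .ofNat 0, .ofNat 0, .ofNat 933, .ofNat 4619, .ofNat 0, .ofNat 0, .ofNat 10106854895109284648976384000, .ofNat 0, .ofNat 0, .ofNat 0, .ofNat 3007264922458644999873075609600, .ofNat 0, .ofNat 8534955014941434135103544072601600, .ofNat 0, .ofNat 1472192399143673832135249100800, .ofNat 0, .ofNat 18273236494676906212304137224192000, .ofNat 0, .ofNat 693796709131189132454579404800, .ofNat 0⟩)
    (by decide +kernel)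
theorem L00274 : Good (Phi V4.P V4.D 1 1) ⟨3, 7, 3, 1, 2, 1, 1, 0, 3, 2⟩ :=
  out_sound (S := T4.ds_pp) T4.ok_pp (w := 48) (j := 3) (by decide +kernel)
theorem L00275 : Good (Phi V4.P V4.D 1 1) ⟨3, 4, 3, 1, 2, 1, 1, 1, 3, 2⟩ :=
  out_sound (S := T4.ds_pp) T4.ok_pp (w := 48) (j := 3) (by decide +kernel)
theorem L00276 : Good (Phi V4.P V4.D 1 1) ⟨3, 5, 3, 1, 2, 1, 2, 2, 3, 2⟩ :=
  leaf_sound (S := T4.ds_pp) T4.ok_pp (w := 176) (c := ⟨⟨.negSucc 721, .negSucc 330, .ofNat 42, .negSucc 435, .negSucc 38, .ofNat 18⟩, ⟨.negSucc 80, .negSucc 190, .negSucc 77, .negSucc 94, .negSucc 7, .ofNat 5⟩, ⟨.ofNat 379, .ofNat 245, .negSucc 62, .ofNat 236, .negSucc 43, .negSucc 59⟩, ⟨.negSucc 1458, .negSucc 305, .ofNat 86, .negSucc 813, .negSucc 73, .ofNat 27⟩, ⟨.negSucc 194, .ofNat 73, .negSucc 28, .ofNat 164, .ofNat 9, .ofNat 21⟩, .ofNat 456, .negSucc 342, .ofNat 0, .negSucc 342,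 .ofNat 1674, .ofNat 0, .ofNat 465, .ofNat 274, .negSucc 521, .ofNat 0, .ofNat 237, .negSucc 101, .ofNat 0, .ofNat 0, .ofNat 968, .ofNat 4488, .ofNat 0, .ofNat 0, .ofNat 0, .ofNat 0, .ofNat 0, .ofNat 0, .ofNat 0, .ofNat 0, .ofNat 0, .ofNat 0, .ofNat 0, .ofNat 0, .ofNat 0, .ofNat 0, .ofNat 0, .ofNat 0⟩)
    (by decide +kernel)
theorem L00277 : Good (Phi V4.P V4.D 1 1) ⟨3, 5, 3, 1, 2, 1, 2, 3, 3, 2⟩ :=
  leaf_sound (S := T4.ds_pp) T4.ok_pp (w := 168) (c := ⟨⟨.negSucc 466, .negSucc 544, .ofNat 14, .negSucc 645, .negSucc 77, .negSucc 23⟩, ⟨.negSucc 15, .negSucc 243, .negSucc 93, .negSucc 147, .negSucc 17, .negSucc 1⟩, ⟨.ofNat 24, .ofNat 476, .negSucc 47, .ofNat 423, .ofNat 33, .ofNat 29⟩, ⟨.negSucc 1010, .negSucc 672, .ofNat 31, .negSucc 1190, .negSucc 154, .negSucc 55⟩, ⟨.negSucc 201, .ofNat 56, .negSucc 6, .ofNat 169, .ofNat 75, .ofNat 49⟩, .ofNat 604, .negSucc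 756, .ofNat 0, .negSucc 756, .ofNat 3343, .ofNat 0, .ofNat 224, .ofNat 180, .negSucc 345, .ofNat 0, .ofNat 108, .negSucc 78, .ofNat 0, .ofNat 0, .ofNat 525, .ofNat 788, .ofNat 0, .ofNat 0, .ofNat 0, .ofNat 0, .ofNat 0, .ofNat 3516264446244747273047330154086400, .ofNat 0, .ofNat 0, .ofNat 0, .ofNat 3935195107564982004945090772992000, .ofNat 0, .ofNat 0, .ofNat 0, .ofNat 4543532391946191789393534202675200, .ofNat 668799128577116232385088716800, .ofNat 0⟩)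
    (by decide +kernel)
theorem L00278 : Good (Phi V4.P V4.D 1 1) ⟨3, 6, 3, 1, 2, 1, 2, 2, 3, 2⟩ :=
  leaf_sound (S := T4.ds_pp) T4.ok_pp (w := 176) (c := ⟨⟨.negSucc 1049, .negSucc 392, .ofNat 10, .negSucc 467, .negSucc 79, .ofNat 66⟩, ⟨.negSucc 256, .negSucc 237, .negSucc 90, .negSucc 130, .negSucc 25, .ofNat 22⟩, ⟨.ofNat 641, .ofNat 309, .negSucc 20, .ofNat 221, .negSucc 4, .negSucc 101⟩, ⟨.negSucc 1771, .negSucc 364, .ofNat 23, .negSucc 847, .negSucc 134, .ofNat 110⟩, ⟨.negSucc 113, .ofNat 68, .negSucc 13, .ofNat 191, .ofNat 2, .negSucc 0⟩, .ofNat 629, .negSucc 736, .ofNat 0, .negSucc 736, .ofNat 2487, .ofNat 0, .ofNat 412, .ofNat 367, .negSucc 542, .ofNat 0, .ofNat 254, .negSucc 153, .ofNat 0, .ofNat 0, .ofNat 981, .ofNat 4442, .ofNat 0, .ofNat 0, .ofNat 0, .ofNat 0, .ofNat 0, .ofNat 0, .ofNat 22170845766718388512023065395200, .ofNat 0, .ofNat 0, .ofNat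 0, .ofNat 19004066336932228413595739750400, .ofNat 0, .ofNat 0, .ofNat 0, .ofNat 16897394979465910568714502144000, .ofNat 0⟩)
    (by decide +kernel)
theorem L00279 : Good (Phi V4.P V4.D 1 1) ⟨5, 24, 3, 1, 2, 1, 3, 6, 3, 2⟩ :=
  leaf_sound (S := T4.ds_pp) T4.ok_pp (w := 184) (c := ⟨⟨.negSucc 940, .negSucc 170, .ofNat 19, .negSucc 696, .negSucc 144, .negSucc 18⟩, ⟨.negSucc 210, .negSucc 86, .negSucc 96, .negSucc 209, .negSucc 46, .negSucc 0⟩, ⟨.ofNat 451, .ofNat 146, .negSucc 43, .ofNat 427, .ofNat 113, .ofNat 26⟩, ⟨.negSucc 1582, .negSucc 204, .ofNat 31, .negSucc 1235, .negSucc 247, .negSucc 44⟩, ⟨.negSucc 149, .ofNat 18, .ofNat 2, .ofNat 201, .ofNat 19, .ofNat 41⟩, .ofNat 476, .negSucc 393, .ofNat 0, .negSucc 393, .ofNat 1453, .ofNat 0, .ofNat 239, .ofNat 177, .negSucc 381, .ofNat 0, .ofNat 148, .negSucc 107, .ofNat 0, .ofNat 0, .ofNat 550, .ofNat 2956, .ofNat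 0, .ofNat 0, .ofNat 0, .ofNat 0, .ofNat 0, .ofNat 1745100728965033937036655862166323200, .ofNat 580345782151218344732550758400, .ofNat 0, .ofNat 0, .ofNat 0, .ofNat 0, .ofNat 0, .ofNat 0, .ofNat 1289412050037356447507887023351398400, .ofNat 0, .ofNat 0⟩)
    (by decide +kernel)
theorem L00280 : Good (Phi V4.P V4.D 1 1) ⟨5, 24, 3, 1, 2, 1, 3, 7, 3, 2⟩ :=
  leaf_sound (S := T4.ds_pp) T4.ok_pp (w := 184) (c := ⟨⟨.negSucc 935, .negSucc 222, .ofNat 53, .negSucc 910, .negSucc 133, .negSucc 111⟩, ⟨.negSucc 212, .negSucc 105, .negSucc 76, .negSucc 278, .negSucc 39, .negSucc 35⟩, ⟨.ofNat 400, .ofNat 199, .negSucc 69, .ofNat 642, .ofNat 108, .ofNat 146⟩, ⟨.negSucc 1583, .negSucc 287, .ofNat 87, .negSucc 1582, .negSucc 240, .negSucc 197⟩, ⟨.negSucc 111, .ofNat 8, .ofNat 3, .ofNat 160, .ofNat 38, .ofNat 34⟩, .ofNat 477, .negSucc 396, .ofNat 0, .negSucc 396, .ofNat 1458,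 .ofNat 0, .ofNat 500, .ofNat 372, .negSucc 1031, .ofNat 0, .ofNat 310, .negSucc 305, .ofNat 0, .ofNat 0, .ofNat 1292, .ofNat 1712, .ofNat 0, .ofNat 147766258955646585271654842315571200, .ofNat 0, .ofNat 0, .ofNat 0, .ofNat 19685167624961475994322205334201958400, .ofNat 0, .ofNat 0, .ofNat 0, .ofNat 13497333362745159145611245727095193600, .ofNat 0, .ofNat 0, .ofNat 0, .ofNat 23886035999216762530674489733781913600, .ofNat 0, .ofNat 0⟩)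
    (by decide +kernel)
theorem L00281 : Good (Phi V4.P V4.D 1 1) ⟨5, 25, 3, 1, 2, 1, 3, 6, 3, 2⟩ :=
  leaf_sound (S := T4.ds_pp) T4.ok_pp (w := 184) (c := ⟨⟨.negSucc 888, .negSucc 440, .negSucc 169, .negSucc 718, .negSucc 160, .negSucc 21⟩, ⟨.negSucc 283, .negSucc 167, .negSucc 89, .negSucc 232, .negSucc 53, .negSucc 4⟩, ⟨.ofNat 492, .ofNat 284, .ofNat 39, .ofNat 435, .ofNat 129, .ofNat 26⟩, ⟨.negSucc 1356, .negSucc 741, .negSucc 346, .negSucc 1256, .negSucc 271, .negSucc 48⟩, ⟨.negSucc 352, .ofNat 177, .ofNat 221, .ofNat 201, .ofNat 20, .ofNat 39⟩, .ofNat 833, .negSucc 1190, .ofNat 0, .negSucc 1190, .ofNat 3460, .ofNat 0, .ofNat 203, .ofNat 212, .negSucc 375, .ofNat 0, .ofNat 140, .negSucc 126, .ofNat 0, .ofNat 0, .ofNat 546, .ofNat 1871, .ofNat 0, .ofNat 0, .ofNat 0, .ofNat 0, .ofNat 0, .ofNat 1800792941182101231014734537634611200, .ofNat 14054629137520160577122677555200,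 .ofNat 0, .ofNat 0, .ofNat 0, .ofNat 45541080737839881608534949888000, .ofNat 0, .ofNat 0, .ofNat 815187998174189996591673650026905600, .ofNat 32117931988512122893700903731200, .ofNat 0⟩)
    (by decide +kernel)
theorem L00282 : Good (Phi V4.P V4.D 1 1) ⟨5, 25, 3, 1, 2, 1, 3, 7, 3, 2⟩ :=
  leaf_sound (S := T4.ds_pp) T4.ok_pp (w := 184) (c := ⟨⟨.negSucc 1271, .negSucc 225, .ofNat 185, .negSucc 934, .negSucc 180, .negSucc 120⟩, ⟨.negSucc 375, .negSucc 113, .negSucc 6, .negSucc 309, .negSucc 60, .negSucc 38⟩, ⟨.ofNat 603, .ofNat 188, .negSucc 82, .ofNat 645, .ofNat 157, .ofNat 154⟩, ⟨.negSucc 2134, .negSucc 319, .ofNat 372, .negSucc 1601, .negSucc 307, .negSucc 210⟩, ⟨.ofNat 54, .ofNat 3, .negSucc 155, .ofNat 164, .ofNat 24, .ofNat 33⟩, .ofNat 763, .negSucc 1022, .ofNat 0, .negSucc 1022, .ofNat 3019, .ofNat 0, .ofNat 425, .ofNat 439, .negSucc 985, .ofNat 0, .ofNat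 293, .negSucc 338, .ofNat 0, .ofNat 0, .ofNat 1257, .ofNat 1722, .ofNat 0, .ofNat 233490585330257740023636284984524800, .ofNat 0, .ofNat 0, .ofNat 0, .ofNat 15995807029140259201090632370932940800, .ofNat 202611075526563193740567615897600, .ofNat 0, .ofNat 0, .ofNat 18958045416353596353013750761416294400, .ofNat 13438537901866353601334476800000, .ofNat 0, .ofNat 0, .ofNat 30388445988171001190824365305679052800, .ofNat 52009747162398045735822242611200, .ofNat 0⟩)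
    (by decide +kernel)
theorem L00283 : Good (Phi V4.P V4.D 1 1) ⟨4, 13, 3, 1, 2, 1, 2, 3, 3, 2⟩ :=
  out_sound (S := T4.ds_pp) T4.ok_pp (w := 56) (j := 3) (by decide +kernel)
theorem L00284 : Good (Phi V4.P V4.D 1 1) ⟨3, 7, 3, 1, 2, 1, 1, 1, 3, 2⟩ :=
  out_sound (S := T4.ds_pp) T4.ok_pp (w := 48) (j := 3) (by decide +kernel)
theorem L00285 : Good (Phi V4.P V4.D 1 1) ⟨2, 2, 3, 1, 2, 1, 1, 0, 3, 3⟩ :=
  leaf_sound (S := T4.ds_pp) T4.ok_pp (w := 168) (c := ⟨⟨.negSucc 610, .negSucc 408, .negSucc 7, .negSucc 246, .negSucc 50, .ofNat 128⟩, ⟨.ofNat 44, .negSucc 300, .negSucc 78, .negSucc 54, .negSucc 15, .ofNat 29⟩, ⟨.ofNat 504, .ofNat 200, .negSucc 7, .negSucc 32, .negSucc 61, .negSucc 228⟩, ⟨.negSucc 1518, .negSucc 215, .negSucc 5, .negSucc 467, .negSucc 78, .ofNat 238⟩, ⟨.negSucc 113, .ofNat 55, .ofNat 8, .ofNat 120, .negSucc 43, .negSucc 43⟩, .ofNat 696, .negSucc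 1044, .ofNat 0, .negSucc 1044, .ofNat 4347, .ofNat 0, .ofNat 334, .ofNat 280, .negSucc 288, .ofNat 0, .ofNat 165, .negSucc 61, .ofNat 0, .ofNat 0, .ofNat 833, .ofNat 4850, .ofNat 0, .ofNat 0, .ofNat 0, .ofNat 0, .ofNat 0, .ofNat 0, .ofNat 0, .ofNat 0, .ofNat 346652679440450900396796700262400, .ofNat 0, .ofNat 5522545821502636629648054681600, .ofNat 0, .ofNat 1540095399006548589033295970304000, .ofNat 0, .ofNat 0, .ofNat 0⟩)
    (by decide +kernel)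
theorem L00286 : Good (Phi V4.P V4.D 1 1) ⟨3, 4, 3, 1, 2, 1, 1, 1, 3, 3⟩ :=
  out_sound (S := T4.ds_pp) T4.ok_pp (w := 48) (j := 3) (by decide +kernel)
theorem L00287 : Good (Phi V4.P V4.D 1 1) ⟨4, 10, 3, 1, 2, 1, 1, 1, 3, 3⟩ :=
  leaf_sound (S := T4.ds_pp) T4.ok_pp (w := 176) (c := ⟨⟨.negSucc 855, .ofNat 0, .negSucc 2, .negSucc 374, .negSucc 72, .ofNat 49⟩, ⟨.negSucc 177, .ofNat 0, .negSucc 12, .negSucc 71, .negSucc 10, .ofNat 10⟩, ⟨.ofNat 391, .ofNat 0, .ofNat 15, .ofNat 168, .ofNat 41, .negSucc 57⟩, ⟨.negSucc 1543, .ofNat 0, .ofNat 8, .negSucc 716, .negSucc 156, .ofNat 88⟩, ⟨.negSucc 156, .ofNat 0, .negSucc 65, .ofNat 137, .ofNat 115, .ofNat 12⟩, .ofNat 729, .negSucc 1341, .ofNat 0, .negSucc 1341, .ofNat 6756, .ofNat 0, .ofNat 344, .ofNat 307, .negSucc 392, .ofNat 0, .ofNat 139, .negSucc 75, .ofNat 0, .ofNat 0, .ofNat 840, .ofNat 1430, .ofNat 0, .ofNat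 0, .ofNat 27742808926786144975611494400, .ofNat 0, .ofNat 0, .ofNat 86210411791805580508852032582451200, .ofNat 0, .ofNat 0, .ofNat 0, .ofNat 116461619220624209539699874306457600, .ofNat 8422379235778630165075486310400, .ofNat 0, .ofNat 0, .ofNat 73218478749065809495095486342758400, .ofNat 0, .ofNat 0⟩)
    (by decide +kernel)
theorem L00288 : Good (Phi V4.P V4.D 1 1) ⟨4, 11, 3, 1, 2, 1, 2, 2, 3, 3⟩ :=
  leaf_sound (S := T4.ds_pp) T4.ok_pp (w := 176) (c := ⟨⟨.negSucc 861, .negSucc 160, .ofNat 22, .negSucc 370, .negSucc 84, .ofNat 76⟩, ⟨.negSucc 172, .negSucc 92, .negSucc 73, .negSucc 78, .negSucc 17, .ofNat 19⟩, ⟨.ofNat 409, .ofNat 121, .negSucc 27, .ofNat 140, .ofNat 75, .negSucc 89⟩, ⟨.negSucc 1561, .negSucc 147, .ofNat 44, .negSucc 698, .negSucc 160, .ofNat 134⟩, ⟨.negSucc 155, .ofNat 32, .negSucc 20, .ofNat 162, .ofNat 35, .ofNat 10⟩, .ofNat 602, .negSucc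 743, .ofNat 0, .negSucc 743, .ofNat 3245, .ofNat 0, .ofNat 367, .ofNat 286, .negSucc 392, .ofNat 0, .ofNat 180, .negSucc 86, .ofNat 0, .ofNat 0, .ofNat 845, .ofNat 3633, .ofNat 0, .ofNat 0, .ofNat 0, .ofNat 0, .ofNat 0, .ofNat 0, .ofNat 0, .ofNat 0, .ofNat 0, .ofNat 0, .ofNat 2305750179229823284070370508800, .ofNat 0, .ofNat 0, .ofNat 0, .ofNat 0, .ofNat 0⟩)
    (by decide +kernel)
theorem L00289 : Good (Phi V4.P V4.D 1 1) ⟨4, 11, 3, 1, 2, 1, 2, 3, 3, 3⟩ :=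
  leaf_sound (S := T4.ds_pp) T4.ok_pp (w := 176) (c := ⟨⟨.negSucc 819, .negSucc 242, .ofNat 45, .negSucc 554, .negSucc 145, .ofNat 22⟩, ⟨.negSucc 156, .negSucc 114, .negSucc 77, .negSucc 126, .negSucc 24, .ofNat 5⟩, ⟨.ofNat 329, .ofNat 209, .negSucc 61, .ofNat 335, .ofNat 155, .ofNat 4⟩, ⟨.negSucc 1502, .negSucc 284, .ofNat 79, .negSucc 1021, .negSucc 274, .ofNat 36⟩, ⟨.negSucc 115, .ofNat 23, .ofNat 3, .ofNat 166, .ofNat 51, .ofNat 14⟩, .ofNat 458, .negSucc 350, .ofNat 0, .negSucc 350, .ofNat 1677, .ofNat 0, .ofNat 868, .ofNat 522, .negSucc 1134, .ofNat 0, .ofNat 448, .negSucc 250, .ofNat 0, .ofNat 0, .ofNat 1861, .ofNat 3677, .ofNat 0, .ofNat 0, .ofNat 0, .ofNat 0, .ofNat 0, .ofNat 1656288950692667090435052252482764800, .ofNat 0, .ofNat 0, .ofNat 0, .ofNat 1413967170980515602234737285922816000, .ofNat 0, .ofNat 0, .ofNat 0, .ofNat 1738765327468816887480646789968691200,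 .ofNat 0, .ofNat 0⟩)
    (by decide +kernel)
theorem L00290 : Good (Phi V4.P V4.D 1 1) ⟨4, 12, 3, 1, 2, 1, 1, 0, 3, 3⟩ :=
  leaf_sound (S := T4.ds_pp) T4.ok_pp (w := 176) (c := ⟨⟨.negSucc 1003, .negSucc 117, .negSucc 0, .negSucc 247, .negSucc 85, .ofNat 128⟩, ⟨.negSucc 244, .negSucc 91, .negSucc 79, .negSucc 68, .negSucc 32, .ofNat 37⟩, ⟨.ofNat 681, .ofNat 41, .negSucc 1, .negSucc 55, .negSucc 7, .negSucc 226⟩, ⟨.negSucc 1709, .negSucc 63, .ofNat 1, .negSucc 463, .negSucc 131, .ofNat 229⟩, ⟨.negSucc 51, .ofNat 22, .negSucc 5, .ofNat 144, .negSucc 43, .negSucc 40⟩, .ofNat 475, .negSucc 393, .ofNat 0, .negSucc 393, .ofNat 1463, .ofNat 0, .ofNat 370, .ofNat 261, .negSucc 309, .ofNat 0, .ofNat 228, .negSucc 71, .ofNat 0, .ofNat 0, .ofNat 855, .ofNat 5081, .ofNat 0, .ofNat 0, .ofNat 0, .ofNat 0, .ofNat 0, .ofNat 0, .ofNat 0, .ofNat 0, .ofNat 0, .ofNat 0, .ofNat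 0, .ofNat 0, .ofNat 423630891746728848058042953813196800, .ofNat 0, .ofNat 0, .ofNat 0⟩)
    (by decide +kernel)
theorem L00291 : Good (Phi V4.P V4.D 1 1) ⟨4, 12, 3, 1, 2, 1, 2, 2, 3, 3⟩ :=
  leaf_sound (S := T4.ds_pp) T4.ok_pp (w := 176) (c := ⟨⟨.negSucc 962, .negSucc 191, .negSucc 7, .negSucc 427, .negSucc 151, .ofNat 114⟩, ⟨.negSucc 232, .negSucc 120, .negSucc 86, .negSucc 122, .negSucc 45, .ofNat 36⟩, ⟨.ofNat 486, .ofNat 144, .negSucc 3, .ofNat 161, .ofNat 137, .negSucc 122⟩, ⟨.negSucc 1614, .negSucc 184, .negSucc 12, .negSucc 777, .negSucc 268, .ofNat 193⟩, ⟨.negSucc 142, .ofNat 36, .ofNat 5, .ofNat 187, .ofNat 46, .negSucc 4⟩, .ofNat 475, .negSucc 390, .ofNat 0, .negSucc 390, .ofNat 1445, .ofNat 0, .ofNat 395, .ofNat 284, .negSucc 439, .ofNat 0, .ofNat 245, .negSucc 116, .ofNat 0, .ofNat 0, .ofNat 874, .ofNat 5433, .ofNat 0, .ofNat 0, .ofNat 0, .ofNat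 0, .ofNat 0, .ofNat 96959694690856951395713264753049600, .ofNat 4345323037918368696076389580800, .ofNat 0, .ofNat 0, .ofNat 0, .ofNat 0, .ofNat 0, .ofNat 0, .ofNat 175357175280817598008676038213632000, .ofNat 0, .ofNat 0⟩)
    (by decide +kernel)
theorem L00292 : Good (Phi V4.P V4.D 1 1) ⟨4, 12, 3, 1, 2, 1, 2, 3, 3, 3⟩ :=
  leaf_sound (S := T4.ds_pp) T4.ok_pp (w := 176) (c := ⟨⟨.negSucc 1005, .negSucc 274, .ofNat 23, .negSucc 614, .negSucc 276, .ofNat 19⟩, ⟨.negSucc 242, .negSucc 149, .negSucc 78, .negSucc 187, .negSucc 83, .ofNat 9⟩, ⟨.ofNat 497, .ofNat 242, .negSucc 38, .ofNat 361, .ofNat 268, .ofNat 8⟩, ⟨.negSucc 1700, .negSucc 313, .ofNat 39, .negSucc 1087, .negSucc 482, .ofNat 26⟩, ⟨.negSucc 100, .ofNat 15, .ofNat 6, .ofNat 163, .ofNat 55, .ofNat 20⟩, .ofNat 652, .negSucc 795, .ofNat 0, .negSucc 795, .ofNat 2623, .ofNat 0, .ofNat 372, .ofNat 347, .negSucc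 596, .ofNat 0, .ofNat 234, .negSucc 184, .ofNat 0, .ofNat 0, .ofNat 949, .ofNat 1796, .ofNat 0, .ofNat 3040734068962918660818304656998400, .ofNat 2697861276334175921425612800, .ofNat 0, .ofNat 0, .ofNat 348978004602302736480523764577075200, .ofNat 4544987925542831891083689984000, .ofNat 0, .ofNat 0, .ofNat 273635191324752729521855993059737600, .ofNat 4106502360450913593316501094400, .ofNat 0, .ofNat 0, .ofNat 577576038615981551304278377129574400, .ofNat 1124509873795354596946319769600, .ofNat 0⟩)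
    (by decide +kernel)
theorem L00293 : Good (Phi V4.P V4.D 1 1) ⟨4, 13, 3, 1, 2, 1, 0, 0, 3, 3⟩ :=
  out_sound (S := T4.ds_pp) T4.ok_pp (w := 56) (j := 3) (by decide +kernel)
theorem L00294 : Good (Phi V4.P V4.D 1 1) ⟨3, 7, 3, 1, 2, 1, 0, 0, 3, 3⟩ :=
  out_sound (S := T4.ds_pp) T4.ok_pp (w := 48) (j := 3) (by decide +kernel)
theorem L00295 : Good (Phi V4.P V4.D 1 1) ⟨2, 2, 3, 1, 2, 2, 1, 0, 4, 0⟩ :=
  leaf_sound (S := T4.ds_pp) T4.ok_pp (w := 168) (c := ⟨⟨.negSucc 118, .negSucc 548, .negSucc 53, .ofNat 153, .negSucc 376, .negSucc 529⟩, ⟨.ofNat 12, .negSucc 119, .negSucc 122, .ofNat 59, .negSucc 117, .negSucc 123⟩, ⟨.ofNat 866, .ofNat 448, .ofNat 94, .negSucc 215, .negSucc 258, .ofNat 211⟩, ⟨.negSucc 567, .negSucc 721, .negSucc 156, .ofNat 161, .negSucc 535, .negSucc 974⟩, ⟨.ofNat 171, .ofNat 527, .ofNat 16, .ofNat 434, .negSucc 525, .ofNat 127⟩, .ofNat 618,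 .negSucc 793, .ofNat 0, .negSucc 793, .ofNat 3354, .ofNat 0, .ofNat 272, .ofNat 258, .negSucc 373, .ofNat 0, .ofNat 130, .negSucc 80, .ofNat 0, .ofNat 0, .ofNat 532, .ofNat 1217, .ofNat 58717750047903743321781043200, .ofNat 0, .ofNat 79770590933483693402593689600, .ofNat 0, .ofNat 0, .ofNat 0, .ofNat 0, .ofNat 0, .ofNat 0, .ofNat 0, .ofNat 18902134949811238428917052211200, .ofNat 0, .ofNat 0, .ofNat 0, .ofNat 0, .ofNat 0⟩)
    (by decide +kernel)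
theorem L00296 : Good (Phi V4.P V4.D 1 1) ⟨2, 2, 3, 1, 2, 2, 1, 0, 4, 1⟩ :=
  leaf_sound (S := T4.ds_pp) T4.ok_pp (w := 168) (c := ⟨⟨.negSucc 272, .negSucc 855, .negSucc 21, .negSucc 268, .negSucc 225, .negSucc 282⟩, ⟨.ofNat 46, .negSucc 258, .negSucc 152, .negSucc 39, .negSucc 82, .negSucc 66⟩, ⟨.ofNat 803, .ofNat 720, .ofNat 52, .negSucc 13, .negSucc 335, .ofNat 42⟩, ⟨.negSucc 1041, .negSucc 1073, .negSucc 91, .negSucc 611, .negSucc 259, .negSucc 507⟩, ⟨.ofNat 306, .ofNat 487, .ofNat 10, .ofNat 579, .negSucc 598, .ofNat 21⟩, .ofNat 601, .negSucc 742, .ofNat 0, .negSucc 742, .ofNat 3259, .ofNat 0, .ofNat 274, .ofNat 241, .negSucc 328, .ofNat 0, .ofNat 127, .negSucc 64, .ofNat 0, .ofNat 0, .ofNat 521, .ofNat 2310, .ofNat 20236515734435356469677680230400, .ofNat 0, .ofNat 84831174095401996634397081600, .ofNat 0, .ofNat 0, .ofNat 0, .ofNat 10279973590153842120515282534400,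 .ofNat 0, .ofNat 0, .ofNat 0, .ofNat 11597443515668021397634311782400, .ofNat 0, .ofNat 136365846931500120740608553779200, .ofNat 0, .ofNat 12138482114663567719476599193600, .ofNat 0⟩)
    (by decide +kernel)
theorem L00297 : Good (Phi V4.P V4.D 1 1) ⟨5, 24, 4, 2, 2, 2, 2, 0, 3, 0⟩ :=
  leaf_sound (S := T4.ds_pp) T4.ok_pp (w := 184) (c := ⟨⟨.negSucc 614, .ofNat 118, .negSucc 143, .negSucc 117, .negSucc 132, .negSucc 901⟩, ⟨.negSucc 61, .ofNat 40, .negSucc 115, .ofNat 16, .negSucc 61, .negSucc 240⟩, ⟨.ofNat 1337, .negSucc 42, .ofNat 101, .negSucc 119, .negSucc 142, .ofNat 282⟩, ⟨.negSucc 1214, .ofNat 246, .negSucc 286, .negSucc 373, .negSucc 140, .negSucc 1591⟩, ⟨.ofNat 631, .ofNat 21, .ofNat 54, .ofNat 609, .negSucc 295, .ofNat 207⟩, .ofNat 689, .negSucc 896, .ofNat 0, .negSucc 896, .ofNat 3167, .ofNat 0, .ofNat 275, .ofNat 246, .negSucc 347, .ofNat 0, .ofNat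 151, .negSucc 80, .ofNat 0, .ofNat 0, .ofNat 514, .ofNat 2976, .ofNat 0, .ofNat 0, .ofNat 0, .ofNat 0, .ofNat 5184259687889795042082571015736524800, .ofNat 0, .ofNat 296172709602238392591974400000, .ofNat 0, .ofNat 0, .ofNat 0, .ofNat 372851728357227340687736832000, .ofNat 0, .ofNat 0, .ofNat 0, .ofNat 0, .ofNat 0⟩)
    (by decide +kernel)
theorem L00298 : Good (Phi V4.P V4.D 1 1) ⟨5, 24, 4, 2, 2, 2, 2, 1, 3, 0⟩ :=
  leaf_sound (S := T4.ds_pp) T4.ok_pp (w := 184) (c := ⟨⟨.negSucc 871, .ofNat 8, .ofNat 112, .negSucc 196, .negSucc 220, .negSucc 812⟩, ⟨.negSucc 155, .negSucc 1, .negSucc 38, .negSucc 9, .negSucc 83, .negSucc 221⟩, ⟨.ofNat 1241, .ofNat 1, .negSucc 55, .negSucc 0, .negSucc 133, .ofNat 240⟩, ⟨.negSucc 1608, .ofNat 69, .ofNat 179, .negSucc 495, .negSucc 299, .negSucc 1416⟩, ⟨.ofNat 448, .ofNat 42, .negSucc 40, .ofNat 562, .negSucc 262, .ofNat 132⟩,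 .ofNat 696, .negSucc 916, .ofNat 0, .negSucc 916, .ofNat 3219, .ofNat 0, .ofNat 284, .ofNat 263, .negSucc 386, .ofNat 0, .ofNat 159, .negSucc 89, .ofNat 0, .ofNat 0, .ofNat 565, .ofNat 2220, .ofNat 0, .ofNat 0, .ofNat 0, .ofNat 0, .ofNat 0, .ofNat 0, .ofNat 439981600485797738223501312000, .ofNat 0, .ofNat 0, .ofNat 0, .ofNat 590081895725019479686722355200, .ofNat 0, .ofNat 0, .ofNat 0, .ofNat 0, .ofNat 0⟩)
    (by decide +kernel)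
theorem L00299 : Good (Phi V4.P V4.D 1 1) ⟨5, 24, 4, 3, 2, 2, 1, 0, 4, 0⟩ :=
  leaf_sound (S := T4.ds_pp) T4.ok_pp (w := 184) (c := ⟨⟨.negSucc 645, .negSucc 85, .negSucc 54, .ofNat 174, .negSucc 420, .negSucc 562⟩, ⟨.negSucc 126, .negSucc 17, .negSucc 79, .ofNat 85, .negSucc 166, .negSucc 173⟩, ⟨.ofNat 1328, .ofNat 70, .ofNat 71, .negSucc 205, .negSucc 244, .ofNat 215⟩, ⟨.negSucc 1310, .negSucc 112, .negSucc 124, .ofNat 143, .negSucc 549, .negSucc 984⟩, ⟨.ofNat 668, .ofNat 57, .ofNat 17, .ofNat 476, .negSucc 500, .ofNat 131⟩, .ofNat 839, .negSucc 1275, .ofNat 0, .negSucc 1275, .ofNat 3986, .ofNat 0, .ofNat 250, .ofNat 295, .negSucc 410, .ofNat 0, .ofNat 159, .negSucc 117, .ofNat 0, .ofNat 0, .ofNat 555, .ofNat 2058, .ofNat 0, .ofNat 0, .ofNat 0, .ofNat 0, .ofNat 1163787322431123164556239188053196800, .ofNat 0, .ofNat 818170250542084884563125862400, .ofNat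 0, .ofNat 0, .ofNat 0, .ofNat 740270414307051607170849177600, .ofNat 0, .ofNat 0, .ofNat 0, .ofNat 0, .ofNat 0⟩)
    (by decide +kernel)
theorem L00300 : Good (Phi V4.P V4.D 1 1) ⟨5, 24, 4, 3, 2, 2, 1, 0, 4, 1⟩ :=
  leaf_sound (S := T4.ds_pp) T4.ok_pp (w := 184) (c := ⟨⟨.negSucc 1063, .negSucc 127, .ofNat 4, .negSucc 314, .negSucc 277, .negSucc 318⟩, ⟨.negSucc 237, .negSucc 35, .negSucc 80, .negSucc 62, .negSucc 128, .negSucc 100⟩, ⟨.ofNat 1512, .ofNat 102, .ofNat 13, .ofNat 32, .negSucc 346, .ofNat 51⟩, ⟨.negSucc 2051, .negSucc 169, .negSucc 27, .negSucc 742, .negSucc 269, .negSucc 546⟩, ⟨.ofNat 762, .ofNat 83, .ofNat 10, .ofNat 657, .negSucc 607, .ofNat 35⟩, .ofNat 847, .negSucc 1292, .ofNat 0, .negSucc 1292, .ofNat 4018, .ofNat 0, .ofNat 247, .ofNat 291, .negSucc 357, .ofNat 0, .ofNat 157, .negSucc 99, .ofNat 0, .ofNat 0, .ofNat 535, .ofNat 1637, .ofNat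 0, .ofNat 0, .ofNat 0, .ofNat 0, .ofNat 6113091335698541599765113654057369600, .ofNat 0, .ofNat 889567175738023537565446963200, .ofNat 0, .ofNat 0, .ofNat 0, .ofNat 0, .ofNat 0, .ofNat 0, .ofNat 0, .ofNat 0, .ofNat 0⟩)
    (by decide +kernel)
theorem L00301 : Good (Phi V4.P V4.D 1 1) ⟨5, 25, 3, 1, 2, 2, 1, 0, 3, 0⟩ :=
  leaf_sound (S := T4.ds_pp) T4.ok_pp (w := 176) (c := ⟨⟨.negSucc 1859, .negSucc 38, .ofNat 1102, .negSucc 137, .negSucc 311, .negSucc 819⟩, ⟨.negSucc 493, .negSucc 23, .ofNat 288, .negSucc 3, .negSucc 148, .negSucc 271⟩, ⟨.ofNat 2160, .ofNat 60, .negSucc 669, .negSucc 38, .negSucc 347, .ofNat 233⟩, ⟨.negSucc 3395, .negSucc 63, .ofNat 1882, .negSucc 433, .negSucc 322, .negSucc 1403⟩, ⟨.ofNat 987, .ofNat 89, .negSucc 235, .ofNat 593, .negSucc 561, .ofNat 141⟩, .ofNat 833, .negSucc 1190, .ofNat 0, .negSucc 1190, .ofNat 3459, .ofNat 0, .ofNat 247,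 .ofNat 290, .negSucc 380, .ofNat 0, .ofNat 168, .negSucc 113, .ofNat 0, .ofNat 0, .ofNat 548, .ofNat 1769, .ofNat 4650817776071894921658053217484800, .ofNat 0, .ofNat 1892763870309324102618316800, .ofNat 0, .ofNat 571303945813926052791079624979251200, .ofNat 0, .ofNat 118313592776882894278125158400, .ofNat 0, .ofNat 0, .ofNat 0, .ofNat 317472611808202801608130560000, .ofNat 0, .ofNat 0, .ofNat 0, .ofNat 270965888221265601882174259200, .ofNat 0⟩)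
    (by decide +kernel)
theorem L00302 : Good (Phi V4.P V4.D 1 1) ⟨4, 13, 3, 1, 2, 2, 1, 0, 3, 0⟩ :=
  out_sound (S := T4.ds_pp) T4.ok_pp (w := 56) (j := 3) (by decide +kernel)
theorem L00303 : Good (Phi V4.P V4.D 1 1) ⟨3, 7, 3, 1, 2, 2, 1, 0, 3, 0⟩ :=
  out_sound (S := T4.ds_pp) T4.ok_pp (w := 48) (j := 3) (by decide +kernel)
theorem L00304 : Good (Phi V4.P V4.D 1 1) ⟨3, 4, 3, 1, 2, 3, 2, 0, 3, 0⟩ :=
  out_sound (S := T4.ds_pp) T4.ok_pp (w := 48) (j := 3) (by decide +kernel)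
theorem L00305 : Good (Phi V4.P V4.D 1 1) ⟨4, 10, 3, 1, 2, 3, 2, 0, 3, 0⟩ :=
  leaf_sound (S := T4.ds_pp) T4.ok_pp (w := 176) (c := ⟨⟨.ofNat 51, .ofNat 0, .ofNat 582, .ofNat 51, .negSucc 311, .negSucc 1839⟩, ⟨.ofNat 32, .ofNat 0, .ofNat 94, .ofNat 38, .negSucc 74, .negSucc 352⟩, ⟨.ofNat 811, .ofNat 0, .negSucc 290, .negSucc 400, .ofNat 15, .ofNat 620⟩, ⟨.negSucc 64, .ofNat 0, .ofNat 1068, .negSucc 109, .negSucc 488, .negSucc 3526⟩, ⟨.ofNat 783, .ofNat 0, .negSucc 61, .ofNat 1004, .negSucc 419, .ofNat 702⟩, .ofNat 607, .negSucc 836, .ofNat 0, .negSucc 836, .ofNat 4366, .ofNat 0, .ofNat 646, .ofNat 626, .negSucc 704, .ofNat 0, .ofNat 239, .negSucc 132, .ofNat 0, .ofNat 0, .ofNat 1003, .ofNat 5855, .ofNat 0, .ofNat 0, .ofNat 0, .ofNat 0, .ofNat 0, .ofNat 0, .ofNat 0, .ofNat 0, .ofNat 376516609121129375537791008296140800, .ofNat 0, .ofNat 25723643683770287126581189017600,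 .ofNat 0, .ofNat 396320807299806573163854810631372800, .ofNat 0, .ofNat 23337092426736027647268303667200, .ofNat 0⟩)
    (by decide +kernel)
theorem L00306 : Good (Phi V4.P V4.D 1 1) ⟨4, 11, 3, 1, 2, 3, 2, 0, 4, 0⟩ :=
  leaf_sound (S := T4.ds_pp) T4.ok_pp (w := 176) (c := ⟨⟨.ofNat 82, .ofNat 63, .negSucc 77, .ofNat 678, .negSucc 492, .negSucc 1369⟩, ⟨.ofNat 50, .ofNat 102, .negSucc 150, .ofNat 213, .negSucc 132, .negSucc 329⟩, ⟨.ofNat 768, .negSucc 48, .ofNat 158, .negSucc 692, .ofNat 86, .ofNat 598⟩, ⟨.negSucc 13, .ofNat 21, .negSucc 216, .ofNat 967, .negSucc 794, .negSucc 2497⟩, ⟨.ofNat 825, .ofNat 254, .ofNat 27, .ofNat 884, .negSucc 349, .ofNat 272⟩, .ofNat 460, .negSucc 356, .ofNat 0, .negSucc 356, .ofNat 1726, .ofNat 0, .ofNat 387, .ofNat 291, .negSucc 475, .ofNat 0, .ofNat 161, .negSucc 100, .ofNat 0, .ofNat 0, .ofNat 545, .ofNat 1381, .ofNat 0, .ofNat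 0, .ofNat 0, .ofNat 0, .ofNat 0, .ofNat 0, .ofNat 0, .ofNat 0, .ofNat 0, .ofNat 0, .ofNat 9412673599640201478924769689600, .ofNat 0, .ofNat 0, .ofNat 0, .ofNat 0, .ofNat 0⟩)
    (by decide +kernel)
theorem L00307 : Good (Phi V4.P V4.D 1 1) ⟨4, 11, 3, 1, 2, 3, 2, 0, 4, 1⟩ :=
  leaf_sound (S := T4.ds_pp) T4.ok_pp (w := 184) (c := ⟨⟨.negSucc 959, .negSucc 247, .ofNat 19, .negSucc 145, .negSucc 243, .negSucc 634⟩, ⟨.negSucc 147, .negSucc 11, .negSucc 220, .ofNat 13, .negSucc 77, .negSucc 141⟩, ⟨.ofNat 1202, .ofNat 142, .ofNat 99, .negSucc 349, .negSucc 14, .ofNat 132⟩, ⟨.negSucc 1991, .negSucc 384, .negSucc 87, .negSucc 529, .negSucc 333, .negSucc 1221⟩, ⟨.ofNat 1072, .ofNat 244, .negSucc 21, .ofNat 1105, .negSucc 400, .ofNat 377⟩, .ofNat 458, .negSucc 348, .ofNat 0, .negSucc 348, .ofNat 1685, .ofNat 0, .ofNat 772, .ofNat 521, .negSucc 736, .ofNat 0, .ofNat 316,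 .negSucc 142, .ofNat 0, .ofNat 0, .ofNat 1021, .ofNat 6884, .ofNat 0, .ofNat 0, .ofNat 0, .ofNat 0, .ofNat 0, .ofNat 0, .ofNat 0, .ofNat 0, .ofNat 0, .ofNat 0, .ofNat 0, .ofNat 0, .ofNat 0, .ofNat 0, .ofNat 0, .ofNat 0⟩)
    (by decide +kernel)
theorem L00308 : Good (Phi V4.P V4.D 1 1) ⟨3, 4, 3, 1, 2, 3, 2, 1, 3, 0⟩ :=
  out_sound (S := T4.ds_pp) T4.ok_pp (w := 48) (j := 3) (by decide +kernel)
theorem L00309 : Good (Phi V4.P V4.D 1 1) ⟨4, 10, 3, 1, 2, 3, 2, 1, 3, 0⟩ :=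
  leaf_sound (S := T4.ds_pp) T4.ok_pp (w := 176) (c := ⟨⟨.negSucc 389, .ofNat 0, .ofNat 279, .ofNat 50, .negSucc 205, .negSucc 1620⟩, ⟨.negSucc 63, .ofNat 0, .ofNat 36, .ofNat 32, .negSucc 47, .negSucc 311⟩, ⟨.ofNat 768, .ofNat 0, .negSucc 353, .negSucc 278, .negSucc 30, .ofNat 634⟩, ⟨.negSucc 827, .ofNat 0, .ofNat 522, .negSucc 69, .negSucc 328, .negSucc 3097⟩, ⟨.ofNat 547, .ofNat 0, .negSucc 85, .ofNat 805, .negSucc 246, .ofNat 568⟩, .ofNat 607, .negSucc 835, .ofNat 0, .negSucc 835, .ofNat 4363, .ofNat 0, .ofNat 327, .ofNat 330, .negSucc 398, .ofNat 0, .ofNat 127, .negSucc 70, .ofNat 0, .ofNat 0, .ofNat 539, .ofNat 1850, .ofNat 0, .ofNat 0, .ofNat 0, .ofNat 0, .ofNat 0, .ofNat 0, .ofNat 19011970204456127562365534208000, .ofNat 0, .ofNat 0, .ofNat 0, .ofNat 8834633479273734421566455808000, .ofNat 0, .ofNat 0, .ofNat 0, .ofNat 15063035473606532962550022144000,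 .ofNat 0⟩)
    (by decide +kernel)
theorem L00310 : Good (Phi V4.P V4.D 1 1) ⟨4, 11, 3, 1, 2, 3, 2, 1, 4, 0⟩ :=
  leaf_sound (S := T4.ds_pp) T4.ok_pp (w := 176) (c := ⟨⟨.negSucc 256, .negSucc 200, .negSucc 46, .ofNat 295, .negSucc 408, .negSucc 1123⟩, ⟨.negSucc 26, .negSucc 8, .negSucc 156, .ofNat 103, .negSucc 98, .negSucc 257⟩, ⟨.ofNat 711, .ofNat 122, .ofNat 104, .negSucc 403, .ofNat 52, .ofNat 482⟩, ⟨.negSucc 603, .negSucc 339, .negSucc 167, .ofNat 364, .negSucc 678, .negSucc 2074⟩, ⟨.ofNat 596, .ofNat 192, .ofNat 33, .ofNat 674, .negSucc 243, .ofNat 292⟩, .ofNat 457, .negSucc 346, .ofNat 0, .negSucc 346, .ofNat 1701, .ofNat 0, .ofNat 396, .ofNat 317, .negSucc 528, .ofNat 0, .ofNat 176, .negSucc 99, .ofNat 0, .ofNat 0, .ofNat 591, .ofNat 740, .ofNat 0, .ofNat 0, .ofNat 0, .ofNat 0, .ofNat 0, .ofNat 0, .ofNat 0, .ofNat 0, .ofNat 0, .ofNat 0, .ofNat 0, .ofNat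 0, .ofNat 0, .ofNat 0, .ofNat 0, .ofNat 0⟩)
    (by decide +kernel)
theorem L00311 : Good (Phi V4.P V4.D 1 1) ⟨4, 11, 3, 1, 2, 3, 2, 1, 4, 1⟩ :=
  leaf_sound (S := T4.ds_pp) T4.ok_pp (w := 176) (c := ⟨⟨.negSucc 1163, .negSucc 322, .ofNat 29, .negSucc 221, .negSucc 232, .negSucc 566⟩, ⟨.negSucc 195, .negSucc 65, .negSucc 212, .negSucc 16, .negSucc 68, .negSucc 126⟩, ⟨.ofNat 1073, .ofNat 185, .ofNat 56, .negSucc 176, .ofNat 13, .ofNat 175⟩, ⟨.negSucc 2309, .negSucc 463, .negSucc 56, .negSucc 621, .negSucc 350, .negSucc 1074⟩, ⟨.ofNat 753, .ofNat 260, .ofNat 9, .ofNat 950, .negSucc 263, .ofNat 270⟩, .ofNat 614, .negSucc 789, .ofNat 0, .negSucc 789, .ofNat 3457, .ofNat 0, .ofNat 322, .ofNat 330, .negSucc 387, .ofNat 0, .ofNat 147, .negSucc 79, .ofNat 0, .ofNat 0, .ofNat 537, .ofNat 1372, .ofNat 0, .ofNat 0, .ofNat 0, .ofNat 0, .ofNat 0, .ofNat 0, .ofNat 0, .ofNat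 0, .ofNat 0, .ofNat 0, .ofNat 0, .ofNat 0, .ofNat 0, .ofNat 0, .ofNat 0, .ofNat 0⟩)
    (by decide +kernel)
theorem L00312 : Good (Phi V4.P V4.D 1 1) ⟨4, 12, 3, 1, 2, 3, 2, 0, 5, 0⟩ :=
  leaf_sound (S := T4.ds_pp) T4.ok_pp (w := 184) (c := ⟨⟨.ofNat 144, .ofNat 165, .negSucc 100, .ofNat 1323, .negSucc 792, .negSucc 1031⟩, ⟨.ofNat 180, .ofNat 181, .negSucc 150, .ofNat 489, .negSucc 274, .negSucc 330⟩, ⟨.ofNat 691, .negSucc 95, .ofNat 190, .negSucc 1024, .ofNat 274, .ofNat 518⟩, ⟨.negSucc 23, .ofNat 143, .negSucc 240, .ofNat 1925, .negSucc 1229, .negSucc 1729⟩, ⟨.ofNat 1076, .ofNat 240, .negSucc 35, .ofNat 930, .negSucc 332, .ofNat 15⟩, .ofNat 633, .negSucc 745, .ofNat 0, .negSucc 745, .ofNat 2493, .ofNat 0, .ofNat 318, .ofNat 376, .negSucc 536, .ofNat 0, .ofNat 188, .negSucc 162, .ofNat 0, .ofNat 0, .ofNat 568, .ofNat 2099, .ofNat 0, .ofNat 0, .ofNat 0, .ofNat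 0, .ofNat 0, .ofNat 0, .ofNat 442069612973347098295768449024000, .ofNat 0, .ofNat 0, .ofNat 0, .ofNat 295583128208281172829568971571200, .ofNat 0, .ofNat 0, .ofNat 0, .ofNat 229391231616912575135145472819200, .ofNat 0⟩)
    (by decide +kernel)
theorem L00313 : Good (Phi V4.P V4.D 1 1) ⟨4, 12, 3, 1, 2, 3, 2, 1, 5, 0⟩ :=
  leaf_sound (S := T4.ds_pp) T4.ok_pp (w := 184) (c := ⟨⟨.negSucc 389, .negSucc 315, .ofNat 34, .ofNat 674, .negSucc 556, .negSucc 807⟩, ⟨.ofNat 6, .negSucc 46, .negSucc 102, .ofNat 255, .negSucc 189, .negSucc 244⟩, ⟨.ofNat 801, .ofNat 232, .ofNat 51, .negSucc 551, .ofNat 96, .ofNat 382⟩, ⟨.negSucc 849, .negSucc 527, .negSucc 41, .ofNat 926, .negSucc 877, .negSucc 1403⟩, ⟨.ofNat 755, .ofNat 109, .ofNat 71, .ofNat 673, .negSucc 181, .ofNat 142⟩, .ofNat 638, .negSucc 758, .ofNat 0, .negSucc 758, .ofNat 2524, .ofNat 0, .ofNat 322, .ofNat 408, .negSucc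 585, .ofNat 0, .ofNat 204, .negSucc 168, .ofNat 0, .ofNat 0, .ofNat 615, .ofNat 1109, .ofNat 0, .ofNat 0, .ofNat 0, .ofNat 0, .ofNat 0, .ofNat 0, .ofNat 462714573650845125380718093926400, .ofNat 0, .ofNat 0, .ofNat 0, .ofNat 407558628362673848616044042649600, .ofNat 0, .ofNat 0, .ofNat 0, .ofNat 408158806380677376887407981363200, .ofNat 0⟩)
    (by decide +kernel)
theorem L00314 : Good (Phi V4.P V4.D 1 1) ⟨4, 12, 3, 1, 2, 3, 1, 0, 5, 1⟩ :=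
  leaf_sound (S := T4.ds_pp) T4.ok_pp (w := 184) (c := ⟨⟨.negSucc 444, .negSucc 406, .negSucc 28, .ofNat 309, .negSucc 960, .negSucc 735⟩, ⟨.ofNat 57, .negSucc 63, .negSucc 184, .ofNat 143, .negSucc 331, .negSucc 221⟩, ⟨.ofNat 980, .ofNat 266, .ofNat 111, .negSucc 470, .ofNat 156, .ofNat 330⟩, ⟨.negSucc 1065, .negSucc 664, .negSucc 144, .ofNat 284, .negSucc 1469, .negSucc 1296⟩, ⟨.ofNat 1171, .ofNat 225, .negSucc 13, .ofNat 757, .negSucc 485, .ofNat 187⟩, .ofNat 645, .negSucc 780, .ofNat 0, .negSucc 780, .ofNat 2598, .ofNat 0, .ofNat 319, .ofNat 388, .negSucc 505, .ofNat 0, .ofNat 191, .negSucc 146, .ofNat 0, .ofNat 0, .ofNat 567, .ofNat 1129, .ofNat 0, .ofNat 0, .ofNat 0, .ofNat 0, .ofNat 0, .ofNat 0, .ofNat 50647323223259962277869545062400, .ofNat 0, .ofNat 0, .ofNat 0, .ofNat 51019309819719837191390625792000, .ofNat 0, .ofNat 0, .ofNat 0, .ofNat 36911236199243618928328232140800,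 .ofNat 0⟩)
    (by decide +kernel)
theorem L00315 : Good (Phi V4.P V4.D 1 1) ⟨4, 13, 3, 1, 2, 3, 1, 0, 4, 0⟩ :=
  out_sound (S := T4.ds_pp) T4.ok_pp (w := 56) (j := 3) (by decide +kernel)
theorem L00316 : Good (Phi V4.P V4.D 1 1) ⟨3, 6, 3, 1, 2, 3, 1, 0, 4, 1⟩ :=
  leaf_sound (S := T4.ds_pp) T4.ok_pp (w := 176) (c := ⟨⟨.negSucc 1213, .negSucc 860, .ofNat 40, .negSucc 220, .negSucc 575, .negSucc 573⟩, ⟨.negSucc 115, .negSucc 133, .negSucc 244, .ofNat 3, .negSucc 223, .negSucc 158⟩, ⟨.ofNat 1330, .ofNat 518, .ofNat 49, .negSucc 232, .ofNat 33, .ofNat 124⟩, ⟨.negSucc 2403, .negSucc 1397, .negSucc 36, .negSucc 722, .negSucc 765, .negSucc 1060⟩, ⟨.ofNat 1306, .ofNat 774, .negSucc 51, .ofNat 1080, .negSucc 612, .ofNat 316⟩, .ofNat 644, .negSucc 770, .ofNat 0, .negSucc 770, .ofNat 2545, .ofNat 0, .ofNat 313, .ofNat 360, .negSucc 405, .ofNat 0, .ofNat 185, .negSucc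 112, .ofNat 0, .ofNat 0, .ofNat 535, .ofNat 1157, .ofNat 0, .ofNat 0, .ofNat 71959372329737974830229094400, .ofNat 0, .ofNat 7524770368436548051541687481139200, .ofNat 0, .ofNat 6367279445307254824935358464000, .ofNat 0, .ofNat 0, .ofNat 0, .ofNat 7570273596899779460628637286400, .ofNat 0, .ofNat 0, .ofNat 0, .ofNat 6102224573868016396717680230400, .ofNat 0⟩)
    (by decide +kernel)
theorem L00317 : Good (Phi V4.P V4.D 1 1) ⟨3, 7, 3, 1, 2, 3, 1, 0, 3, 0⟩ :=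
  out_sound (S := T4.ds_pp) T4.ok_pp (w := 48) (j := 3) (by decide +kernel)
theorem L00318 : Good (Phi V4.P V4.D 1 1) ⟨3, 4, 3, 1, 1, 1, 1, 0, 3, 1⟩ :=
  out_sound (S := T4.ds_pp) T4.ok_pp (w := 48) (j := 3) (by decide +kernel)
theorem L00319 : Good (Phi V4.P V4.D 1 1) ⟨4, 10, 3, 1, 2, 2, 1, 0, 3, 1⟩ :=
  leaf_sound (S := T4.ds_pp) T4.ok_pp (w := 176) (c := ⟨⟨.negSucc 1218, .ofNat 0, .negSucc 98, .negSucc 419, .negSucc 98, .negSucc 58⟩, ⟨.negSucc 227, .ofNat 0, .negSucc 34, .negSucc 65, .negSucc 36, .negSucc 16⟩, ⟨.ofNat 1385, .ofNat 0, .negSucc 109, .negSucc 8, .negSucc 261, .negSucc 299⟩, ⟨.negSucc 2378, .ofNat 0, .negSucc 238, .negSucc 908, .negSucc 62, .negSucc 73⟩, ⟨.ofNat 673, .ofNat 0, .ofNat 243, .ofNat 672, .negSucc 589, .negSucc 176⟩, .ofNat 455, .negSucc 333, .ofNat 0, .negSucc 333, .ofNat 1955, .ofNat 0, .ofNat 575, .ofNat 321, .negSucc 473, .ofNat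 0, .ofNat 235, .negSucc 55, .ofNat 0, .ofNat 0, .ofNat 971, .ofNat 4859, .ofNat 0, .ofNat 0, .ofNat 32263030472481233946279936000, .ofNat 0, .ofNat 118954593171535599030636519830323200, .ofNat 0, .ofNat 6378068593788693060220511846400, .ofNat 0, .ofNat 0, .ofNat 0, .ofNat 14040944693094425480898438758400, .ofNat 0, .ofNat 0, .ofNat 0, .ofNat 4001338783214645330173545676800, .ofNat 0⟩)
    (by decide +kernel)
theorem L00320 : Good (Phi V4.P V4.D 1 1) ⟨5, 20, 5, 4, 2, 3, 1, 0, 3, 1⟩ :=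
  out_sound (S := T4.ds_pp) T4.ok_pp (w := 64) (j := 3) (by decide +kernel)
theorem L00321 : Good (Phi V4.P V4.D 1 1) ⟨5, 21, 5, 4, 2, 3, 2, 0, 3, 1⟩ :=
  leaf_sound (S := T4.ds_pp) T4.ok_pp (w := 184) (c := ⟨⟨.negSucc 1726, .ofNat 91, .negSucc 267, .negSucc 297, .negSucc 103, .negSucc 92⟩, ⟨.negSucc 328, .ofNat 37, .negSucc 113, .negSucc 16, .negSucc 35, .negSucc 18⟩, ⟨.ofNat 1653, .negSucc 363, .ofNat 531, .negSucc 327, .ofNat 61, .negSucc 358⟩, ⟨.negSucc 3337, .ofNat 47, .negSucc 342, .negSucc 869, .negSucc 76, .negSucc 171⟩, ⟨.ofNat 648, .ofNat 730, .negSucc 825, .ofNat 1592, .negSucc 563, .ofNat 6⟩, .ofNat 455, .negSucc 333, .ofNat 0, .negSucc 333, .ofNat 1957, .ofNat 0, .ofNat 679, .ofNat 347, .negSucc 404, .ofNat 0, .ofNat 251, .negSucc 55, .ofNat 0, .ofNat 0, .ofNat 947, .ofNat 10634, .ofNat 0, .ofNat 0, .ofNat 0, .ofNat 0, .ofNat 0, .ofNat 0, .ofNat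 5051763095473621078907446886400, .ofNat 0, .ofNat 0, .ofNat 0, .ofNat 21834456019016344994915234611200, .ofNat 0, .ofNat 0, .ofNat 0, .ofNat 7854497078570669241289565798400, .ofNat 0⟩)
    (by decide +kernel)
theorem L00322 : Good (Phi V4.P V4.D 1 1) ⟨5, 21, 5, 4, 2, 3, 2, 1, 3, 1⟩ :=
  leaf_sound (S := T4.ds_pp) T4.ok_pp (w := 184) (c := ⟨⟨.negSucc 1952, .ofNat 188, .ofNat 120, .negSucc 353, .negSucc 186, .ofNat 13⟩, ⟨.negSucc 377, .ofNat 45, .negSucc 22, .negSucc 31, .negSucc 42, .ofNat 5⟩, ⟨.ofNat 1376, .negSucc 181, .negSucc 232, .negSucc 94, .ofNat 123, .negSucc 243⟩, ⟨.negSucc 3710, .ofNat 292, .ofNat 265, .negSucc 945, .negSucc 303, .ofNat 8⟩, ⟨.ofNat 409, .ofNat 435, .negSucc 290, .ofNat 1460, .negSucc 200, .ofNat 79⟩, .ofNat 455, .negSucc 333, .ofNat 0, .negSucc 333, .ofNat 1957, .ofNat 0, .ofNat 678, .ofNat 381, .negSucc 498, .ofNat 0, .ofNat 261,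 .negSucc 61, .ofNat 0, .ofNat 0, .ofNat 979, .ofNat 7725, .ofNat 0, .ofNat 0, .ofNat 0, .ofNat 0, .ofNat 0, .ofNat 0, .ofNat 5386841716226742245581966540800, .ofNat 0, .ofNat 0, .ofNat 0, .ofNat 15876397460202148810496095027200, .ofNat 0, .ofNat 0, .ofNat 0, .ofNat 3411206828335333455802505625600, .ofNat 0⟩)
    (by decide +kernel)
theorem L00323 : Good (Phi V4.P V4.D 1 1) ⟨4, 10, 5, 5, 2, 3, 1, 0, 3, 1⟩ :=
  out_sound (S := T4.ds_pp) T4.ok_pp (w := 56) (j := 3) (by decide +kernel)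
theorem L00324 : Good (Phi V4.P V4.D 1 1) ⟨4, 10, 4, 3, 2, 3, 1, 0, 3, 1⟩ :=
  out_sound (S := T4.ds_pp) T4.ok_pp (w := 56) (j := 3) (by decide +kernel)
theorem L00325 : Good (Phi V4.P V4.D 1 1) ⟨4, 11, 3, 1, 2, 2, 1, 0, 3, 1⟩ :=
  leaf_sound (S := T4.ds_pp) T4.ok_pp (w := 176) (c := ⟨⟨.negSucc 1210, .negSucc 227, .ofNat 10, .negSucc 463, .negSucc 97, .negSucc 18⟩, ⟨.negSucc 211, .negSucc 77, .negSucc 159, .negSucc 80, .negSucc 52, .negSucc 9⟩, ⟨.ofNat 1385, .ofNat 148, .ofNat 75, .ofNat 41, .negSucc 314, .negSucc 318⟩, ⟨.negSucc 2391, .negSucc 265, .negSucc 11, .negSucc 976, .negSucc 36, .ofNat 8⟩, ⟨.ofNat 675, .ofNat 130, .negSucc 25, .ofNat 672, .negSucc 583, .negSucc 170⟩, .ofNat 315, .negSucc 112, .ofNat 0, .negSucc 112, .ofNat 720, .ofNat 0, .ofNat 344, .ofNat 121, .negSucc 348, .ofNat 0, .ofNat 177, .negSucc 16, .ofNat 0, .ofNat 0, .ofNat 548, .ofNat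 2253, .ofNat 0, .ofNat 0, .ofNat 0, .ofNat 0, .ofNat 0, .ofNat 0, .ofNat 0, .ofNat 0, .ofNat 0, .ofNat 0, .ofNat 0, .ofNat 0, .ofNat 0, .ofNat 0, .ofNat 0, .ofNat 0⟩)
    (by decide +kernel)
theorem L00326 : Good (Phi V4.P V4.D 1 1) ⟨4, 11, 3, 1, 3, 6, 2, 0, 3, 1⟩ :=
  leaf_sound (S := T4.ds_pp) T4.ok_pp (w := 184) (c := ⟨⟨.negSucc 1662, .negSucc 230, .ofNat 83, .negSucc 213, .negSucc 68, .negSucc 30⟩, ⟨.negSucc 290, .negSucc 28, .negSucc 225, .negSucc 19, .negSucc 37, .negSucc 15⟩, ⟨.ofNat 1335, .ofNat 129, .ofNat 46, .negSucc 104, .negSucc 23, .negSucc 390⟩, ⟨.negSucc 3357, .negSucc 297, .ofNat 43, .negSucc 540, .negSucc 10, .negSucc 17⟩, ⟨.ofNat 1433, .ofNat 245, .negSucc 76, .ofNat 660, .negSucc 461, .negSucc 148⟩, .ofNat 456, .negSucc 342, .ofNat 0, .negSucc 342, .ofNat 1692, .ofNat 0, .ofNat 656, .ofNat 384, .negSucc 440, .ofNat 0, .ofNat 278, .negSucc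 64, .ofNat 0, .ofNat 0, .ofNat 953, .ofNat 11938, .ofNat 0, .ofNat 0, .ofNat 0, .ofNat 0, .ofNat 0, .ofNat 0, .ofNat 0, .ofNat 0, .ofNat 0, .ofNat 0, .ofNat 0, .ofNat 0, .ofNat 0, .ofNat 0, .ofNat 0, .ofNat 0⟩)
    (by decide +kernel)
theorem L00327 : Good (Phi V4.P V4.D 1 1) ⟨4, 11, 3, 1, 3, 6, 2, 1, 3, 1⟩ :=
  leaf_sound (S := T4.ds_pp) T4.ok_pp (w := 184) (c := ⟨⟨.negSucc 1717, .negSucc 253, .ofNat 38, .negSucc 256, .negSucc 190, .ofNat 1⟩, ⟨.negSucc 315, .negSucc 61, .negSucc 224, .negSucc 32, .negSucc 55, .negSucc 2⟩, ⟨.ofNat 1217, .ofNat 149, .ofNat 42, .ofNat 4, .ofNat 64, .negSucc 297⟩, ⟨.negSucc 3361, .negSucc 300, .negSucc 30, .negSucc 602, .negSucc 290, .ofNat 20⟩, ⟨.ofNat 961, .ofNat 220, .negSucc 13, .ofNat 610, .negSucc 215, .negSucc 66⟩, .ofNat 458, .negSucc 349, .ofNat 0, .negSucc 349, .ofNat 1691, .ofNat 0, .ofNat 652, .ofNat 423, .negSucc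 552, .ofNat 0, .ofNat 291, .negSucc 80, .ofNat 0, .ofNat 0, .ofNat 1005, .ofNat 6908, .ofNat 0, .ofNat 0, .ofNat 0, .ofNat 0, .ofNat 0, .ofNat 0, .ofNat 0, .ofNat 0, .ofNat 0, .ofNat 0, .ofNat 0, .ofNat 0, .ofNat 0, .ofNat 0, .ofNat 985482968526422053603136608665600, .ofNat 0⟩)
    (by decide +kernel)
theorem L00328 : Good (Phi V4.P V4.D 1 1) ⟨4, 11, 3, 1, 3, 7, 2, 0, 3, 1⟩ :=
  leaf_sound (S := T4.ds_pp) T4.ok_pp (w := 184) (c := ⟨⟨.negSucc 1902, .negSucc 241, .ofNat 97, .negSucc 29, .negSucc 79, .negSucc 12⟩, ⟨.negSucc 331, .ofNat 24, .negSucc 297, .ofNat 42, .negSucc 53, .ofNat 7⟩, ⟨.ofNat 1201, .ofNat 61, .ofNat 150, .negSucc 264, .ofNat 98, .negSucc 415⟩, ⟨.negSucc 3911, .negSucc 373, .ofNat 61, .negSucc 293, .ofNat 30, .negSucc 57⟩, ⟨.ofNat 2046, .ofNat 405, .negSucc 303, .ofNat 1004, .negSucc 700, .ofNat 148⟩, .ofNat 459, .negSucc 352, .ofNat 0, .negSucc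 352, .ofNat 1696, .ofNat 0, .ofNat 716, .ofNat 396, .negSucc 419, .ofNat 0, .ofNat 292, .negSucc 82, .ofNat 0, .ofNat 0, .ofNat 956, .ofNat 8655, .ofNat 0, .ofNat 0, .ofNat 0, .ofNat 0, .ofNat 0, .ofNat 0, .ofNat 952520178576054293739851061657600, .ofNat 0, .ofNat 0, .ofNat 0, .ofNat 1839108575726451772949160316108800, .ofNat 0, .ofNat 0, .ofNat 0, .ofNat 0, .ofNat 0⟩)
    (by decide +kernel)
theorem L00329 : Good (Phi V4.P V4.D 1 1) ⟨4, 11, 3, 1, 3, 7, 2, 1, 3, 1⟩ :=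
  leaf_sound (S := T4.ds_pp) T4.ok_pp (w := 184) (c := ⟨⟨.negSucc 1971, .negSucc 317, .ofNat 91, .negSucc 25, .negSucc 245, .ofNat 21⟩, ⟨.negSucc 373, .negSucc 22, .negSucc 283, .ofNat 43, .negSucc 68, .ofNat 19⟩, ⟨.ofNat 1128, .ofNat 151, .ofNat 26, .negSucc 121, .ofNat 193, .negSucc 206⟩, ⟨.negSucc 3888, .negSucc 452, .ofNat 34, .negSucc 267, .negSucc 384, .negSucc 32⟩, ⟨.ofNat 1340, .ofNat 325, .negSucc 92, .ofNat 903, .negSucc 179, .ofNat 287⟩, .ofNat 456, .negSucc 343, .ofNat 0, .negSucc 343, .ofNat 1648, .ofNat 0, .ofNat 717, .ofNat 444, .negSucc 524, .ofNat 0, .ofNat 314, .negSucc 83, .ofNat 0, .ofNat 0, .ofNat 984, .ofNat 6784, .ofNat 0, .ofNat 0, .ofNat 0, .ofNat 0, .ofNat 0, .ofNat 0, .ofNat 0, .ofNat 0, .ofNat 0, .ofNat 0, .ofNat 1422857471867156078972550040780800, .ofNat 0, .ofNat 0, .ofNat 0, .ofNat 0, .ofNat 0⟩)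
    (by decide +kernel)
theorem L00330 : Good (Phi V4.P V4.D 1 1) ⟨4, 12, 3, 1, 2, 2, 1, 0, 3, 1⟩ :=
  leaf_sound (S := T4.ds_pp) T4.ok_pp (w := 176) (c := ⟨⟨.negSucc 1358, .negSucc 159, .ofNat 28, .negSucc 531, .negSucc 202, .negSucc 12⟩, ⟨.negSucc 236, .negSucc 69, .negSucc 172, .negSucc 113, .negSucc 101, .negSucc 11⟩, ⟨.ofNat 1501, .ofNat 42, .ofNat 27, .ofNat 129, .negSucc 273, .negSucc 341⟩, ⟨.negSucc 2539, .negSucc 105, .negSucc 0, .negSucc 1157, .negSucc 156, .ofNat 51⟩, ⟨.ofNat 763, .ofNat 35, .ofNat 3, .ofNat 815, .negSucc 573, .negSucc 219⟩, .ofNat 482, .negSucc 409, .ofNat 0, .negSucc 409, .ofNat 1485, .ofNat 0, .ofNat 546, .ofNat 441, .negSucc 552, .ofNat 0, .ofNat 319, .negSucc 116, .ofNat 0, .ofNat 0, .ofNat 1020, .ofNat 4717, .ofNat 0, .ofNat 0, .ofNat 791069114919737959435468800, .ofNat 0, .ofNat 199113449850259406732766107978956800, .ofNat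 0, .ofNat 282334124062408029918304665600, .ofNat 0, .ofNat 120182101213853731667480224255180800, .ofNat 0, .ofNat 160379761782212313656957337600, .ofNat 0, .ofNat 0, .ofNat 0, .ofNat 0, .ofNat 0⟩)
    (by decide +kernel)
theorem L00331 : Good (Phi V4.P V4.D 1 1) ⟨4, 12, 3, 1, 2, 3, 2, 0, 3, 1⟩ :=
  leaf_sound (S := T4.ds_pp) T4.ok_pp (w := 176) (c := ⟨⟨.negSucc 1985, .negSucc 248, .ofNat 113, .negSucc 277, .negSucc 171, .ofNat 119⟩, ⟨.negSucc 325, .ofNat 11, .negSucc 253, .ofNat 32, .negSucc 88, .ofNat 34⟩, ⟨.ofNat 1531, .ofNat 187, .ofNat 1, .negSucc 378, .ofNat 118, .negSucc 538⟩, ⟨.negSucc 3756, .negSucc 329, .ofNat 48, .negSucc 1027, .negSucc 115, .ofNat 225⟩, ⟨.ofNat 1520, .ofNat 223, .negSucc 11, .ofNat 1754, .negSucc 533, .negSucc 64⟩, .ofNat 473, .negSucc 385, .ofNat 0, .negSucc 385, .ofNat 1436, .ofNat 0, .ofNat 638, .ofNat 443, .negSucc 431, .ofNat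 0, .ofNat 327, .negSucc 94, .ofNat 0, .ofNat 0, .ofNat 961, .ofNat 5892, .ofNat 0, .ofNat 0, .ofNat 24749692027442187841673625600, .ofNat 0, .ofNat 0, .ofNat 0, .ofNat 2802652658118862256815158067200, .ofNat 0, .ofNat 0, .ofNat 0, .ofNat 5333052932123843608226404761600, .ofNat 0, .ofNat 0, .ofNat 0, .ofNat 3205784847410864950324337049600, .ofNat 0⟩)
    (by decide +kernel)
theorem L00332 : Good (Phi V4.P V4.D 1 1) ⟨4, 12, 3, 1, 2, 3, 2, 1, 3, 1⟩ :=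
  leaf_sound (S := T4.ds_pp) T4.ok_pp (w := 176) (c := ⟨⟨.negSucc 2088, .negSucc 354, .ofNat 70, .negSucc 283, .negSucc 281, .ofNat 145⟩, ⟨.negSucc 390, .negSucc 49, .negSucc 262, .ofNat 16, .negSucc 101, .ofNat 53⟩, ⟨.ofNat 1418, .ofNat 235, .negSucc 1, .negSucc 153, .ofNat 155, .negSucc 354⟩, ⟨.negSucc 3809, .negSucc 507, .ofNat 26, .negSucc 973, .negSucc 412, .ofNat 228⟩, ⟨.ofNat 1066, .ofNat 320, .negSucc 100, .ofNat 1577, .negSucc 194, .ofNat 58⟩, .ofNat 476, .negSucc 393, .ofNat 0, .negSucc 393, .ofNat 1449, .ofNat 0, .ofNat 653, .ofNat 515, .negSucc 574, .ofNat 0, .ofNat 354, .negSucc 122, .ofNat 0, .ofNat 0, .ofNat 1012, .ofNat 5039, .ofNat 0, .ofNat 0, .ofNat 21991919488460834919048806400, .ofNat 0, .ofNat 0, .ofNat 0, .ofNat 3628579961893687158308968857600, .ofNat 0, .ofNat 0, .ofNat 0, .ofNat 4350574666578801585559280025600, .ofNat 0, .ofNat 0,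 .ofNat 0, .ofNat 1577819261754301319932280832000, .ofNat 0⟩)
    (by decide +kernel)
theorem L00333 : Good (Phi V4.P V4.D 1 1) ⟨4, 13, 3, 1, 1, 1, 1, 0, 3, 1⟩ :=
  out_sound (S := T4.ds_pp) T4.ok_pp (w := 56) (j := 3) (by decide +kernel)
theorem L00334 : Good (Phi V4.P V4.D 1 1) ⟨3, 7, 3, 1, 1, 1, 1, 0, 3, 1⟩ :=
  out_sound (S := T4.ds_pp) T4.ok_pp (w := 48) (j := 3) (by decide +kernel)
theorem L00335 : Good (Phi V4.P V4.D 1 1) ⟨3, 4, 3, 1, 1, 1, 1, 0, 3, 2⟩ :=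
  out_sound (S := T4.ds_pp) T4.ok_pp (w := 48) (j := 3) (by decide +kernel)
theorem L00336 : Good (Phi V4.P V4.D 1 1) ⟨5, 20, 6, 8, 1, 1, 1, 0, 3, 2⟩ :=
  out_sound (S := T4.ds_pp) T4.ok_pp (w := 64) (j := 3) (by decide +kernel)
theorem L00337 : Good (Phi V4.P V4.D 1 1) ⟨5, 21, 6, 8, 2, 2, 2, 0, 3, 2⟩ :=
  leaf_sound (S := T4.ds_pp) T4.ok_pp (w := 184) (c := ⟨⟨.negSucc 1325, .ofNat 13, .ofNat 2, .negSucc 351, .negSucc 21, .ofNat 163⟩, ⟨.negSucc 244, .negSucc 7, .negSucc 15, .negSucc 54, .negSucc 10, .ofNat 26⟩, ⟨.ofNat 977, .ofNat 101, .ofNat 137, .negSucc 107, .negSucc 77, .negSucc 419⟩, ⟨.negSucc 2578, .ofNat 75, .ofNat 17, .negSucc 770, .ofNat 6, .ofNat 348⟩, ⟨.ofNat 556, .negSucc 127, .negSucc 54, .ofNat 605, .negSucc 230, .negSucc 243⟩, .ofNat 837, .negSucc 1818, .ofNat 0, .negSucc 1818, .ofNat 9017, .ofNat 0, .ofNat 383, .ofNat 365, .negSucc 275, .ofNat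 0, .ofNat 152, .negSucc 45, .ofNat 0, .ofNat 0, .ofNat 896, .ofNat 7517, .ofNat 0, .ofNat 0, .ofNat 0, .ofNat 0, .ofNat 0, .ofNat 0, .ofNat 0, .ofNat 0, .ofNat 0, .ofNat 0, .ofNat 0, .ofNat 0, .ofNat 0, .ofNat 0, .ofNat 0, .ofNat 0⟩)
    (by decide +kernel)
theorem L00338 : Good (Phi V4.P V4.D 1 1) ⟨5, 21, 6, 8, 2, 3, 2, 0, 3, 2⟩ :=
  leaf_sound (S := T4.ds_pp) T4.ok_pp (w := 184) (c := ⟨⟨.negSucc 1661, .negSucc 36, .ofNat 38, .negSucc 273, .negSucc 73, .ofNat 261⟩, ⟨.negSucc 314, .ofNat 4, .negSucc 5, .negSucc 10, .negSucc 24, .ofNat 44⟩, ⟨.ofNat 834, .ofNat 19, .negSucc 48, .negSucc 301, .ofNat 164, .negSucc 494⟩, ⟨.negSucc 3202, .negSucc 153, .negSucc 5, .negSucc 829, .negSucc 63, .ofNat 545⟩, ⟨.ofNat 578, .ofNat 564, .ofNat 345, .ofNat 1615, .negSucc 356, .negSucc 315⟩, .ofNat 607, .negSucc 836, .ofNat 0, .negSucc 836, .ofNat 4371, .ofNat 0, .ofNat 468,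 .ofNat 356, .negSucc 241, .ofNat 0, .ofNat 178, .negSucc 36, .ofNat 0, .ofNat 0, .ofNat 911, .ofNat 9062, .ofNat 0, .ofNat 0, .ofNat 0, .ofNat 0, .ofNat 0, .ofNat 0, .ofNat 0, .ofNat 0, .ofNat 0, .ofNat 0, .ofNat 0, .ofNat 0, .ofNat 0, .ofNat 211667221156695628373670284425691136000, .ofNat 0, .ofNat 0⟩)
    (by decide +kernel)
theorem L00339 : Good (Phi V4.P V4.D 1 1) ⟨5, 21, 6, 8, 1, 1, 2, 1, 3, 2⟩ :=
  leaf_sound (S := T4.ds_pp) T4.ok_pp (w := 176) (c := ⟨⟨.negSucc 1366, .ofNat 94, .negSucc 53, .negSucc 842, .negSucc 113, .ofNat 150⟩, ⟨.negSucc 269, .ofNat 16, .negSucc 40, .negSucc 117, .negSucc 25, .ofNat 22⟩, ⟨.ofNat 1086, .negSucc 256, .ofNat 149, .ofNat 78, .ofNat 70, .negSucc 294⟩, ⟨.negSucc 2519, .ofNat 160, .negSucc 7, .negSucc 1937, .negSucc 187, .ofNat 337⟩, ⟨.negSucc 120, .ofNat 213, .negSucc 447, .ofNat 1915, .negSucc 103, .negSucc 295⟩, .ofNat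 607, .negSucc 836, .ofNat 0, .negSucc 836, .ofNat 4374, .ofNat 0, .ofNat 440, .ofNat 350, .negSucc 331, .ofNat 0, .ofNat 174, .negSucc 52, .ofNat 0, .ofNat 0, .ofNat 902, .ofNat 4899, .ofNat 0, .ofNat 0, .ofNat 0, .ofNat 0, .ofNat 0, .ofNat 1156192261732325870469287886245068800, .ofNat 22207332764882318163915571200, .ofNat 0, .ofNat 0, .ofNat 1441028969000197512197876881765171200, .ofNat 6652692379031915757935001600, .ofNat 0, .ofNat 0, .ofNat 1118723231479090927492768196041113600, .ofNat 6436277276770531890796953600, .ofNat 0⟩)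
    (by decide +kernel)
theorem L00340 : Good (Phi V4.P V4.D 1 1) ⟨4, 10, 6, 9, 1, 1, 1, 0, 3, 2⟩ :=
  out_sound (S := T4.ds_pp) T4.ok_pp (w := 64) (j := 3) (by decide +kernel)
theorem L00341 : Good (Phi V4.P V4.D 1 1) ⟨4, 10, 5, 5, 1, 1, 1, 0, 3, 2⟩ :=
  out_sound (S := T4.ds_pp) T4.ok_pp (w := 56) (j := 3) (by decide +kernel)
theorem L00342 : Good (Phi V4.P V4.D 1 1) ⟨4, 10, 4, 3, 1, 1, 1, 0, 3, 2⟩ :=
  out_sound (S := T4.ds_pp) T4.ok_pp (w := 56) (j := 3) (by decide +kernel)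
theorem L00343 : Good (Phi V4.P V4.D 1 1) ⟨4, 11, 4, 2, 2, 2, 1, 0, 3, 2⟩ :=
  leaf_sound (S := T4.ds_pp) T4.ok_pp (w := 176) (c := ⟨⟨.negSucc 1201, .negSucc 184, .ofNat 33, .negSucc 455, .negSucc 205, .ofNat 206⟩, ⟨.negSucc 224, .negSucc 78, .negSucc 66, .negSucc 73, .negSucc 62, .ofNat 36⟩, ⟨.ofNat 890, .ofNat 82, .negSucc 6, .ofNat 60, .ofNat 79, .negSucc 427⟩, ⟨.negSucc 2298, .negSucc 176, .ofNat 42, .negSucc 978, .negSucc 294, .ofNat 428⟩, ⟨.ofNat 330, .ofNat 111, .negSucc 13, .ofNat 713, .negSucc 276, .negSucc 263⟩, .ofNat 314, .negSucc 112, .ofNat 0, .negSucc 112, .ofNat 708, .ofNat 0, .ofNat 580, .ofNat 191, .negSucc 429, .ofNat 0, .ofNat 317, .negSucc 6, .ofNat 0, .ofNat 0, .ofNat 968, .ofNat 3939, .ofNat 0, .ofNat 0, .ofNat 0, .ofNat 0, .ofNat 0, .ofNat 0, .ofNat 0, .ofNat 0, .ofNat 0, .ofNat 0, .ofNat 0, .ofNat 0, .ofNat 599004163570193896265392532226048000,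 .ofNat 0, .ofNat 45530402271831156658588876800, .ofNat 0⟩)
    (by decide +kernel)
theorem L00344 : Good (Phi V4.P V4.D 1 1) ⟨4, 11, 4, 3, 2, 2, 1, 0, 3, 2⟩ :=
  leaf_sound (S := T4.ds_pp) T4.ok_pp (w := 176) (c := ⟨⟨.negSucc 1265, .negSucc 105, .ofNat 19, .negSucc 410, .negSucc 187, .ofNat 196⟩, ⟨.negSucc 298, .negSucc 69, .negSucc 64, .negSucc 88, .negSucc 62, .ofNat 49⟩, ⟨.ofNat 1041, .negSucc 24, .negSucc 14, .ofNat 15, .negSucc 9, .negSucc 411⟩, ⟨.negSucc 2429, .negSucc 27, .ofNat 5, .negSucc 905, .negSucc 251, .ofNat 400⟩, ⟨.ofNat 339, .ofNat 45, .ofNat 31, .ofNat 666, .negSucc 259, .negSucc 203⟩, .ofNat 827, .negSucc 1391, .ofNat 0, .negSucc 1391, .ofNat 4966, .ofNat 0, .ofNat 373, .ofNat 416, .negSucc 320, .ofNat 0, .ofNat 209, .negSucc 75, .ofNat 0, .ofNat 0, .ofNat 912, .ofNat 3275, .ofNat 0, .ofNat 0, .ofNat 0, .ofNat 0, .ofNat 0, .ofNat 0, .ofNat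 0, .ofNat 0, .ofNat 0, .ofNat 0, .ofNat 0, .ofNat 0, .ofNat 0, .ofNat 0, .ofNat 0, .ofNat 0⟩)
    (by decide +kernel)
theorem L00345 : Good (Phi V4.P V4.D 1 1) ⟨4, 11, 3, 1, 2, 3, 2, 0, 3, 2⟩ :=
  leaf_sound (S := T4.ds_pp) T4.ok_pp (w := 176) (c := ⟨⟨.negSucc 1718, .negSucc 163, .ofNat 69, .negSucc 223, .negSucc 78, .ofNat 294⟩, ⟨.negSucc 318, .negSucc 10, .negSucc 217, .ofNat 30, .negSucc 37, .ofNat 46⟩, ⟨.ofNat 847, .ofNat 24, .ofNat 77, .negSucc 328, .ofNat 196, .negSucc 502⟩, ⟨.negSucc 3386, .negSucc 198, .ofNat 47, .negSucc 817, .negSucc 45, .ofNat 630⟩, ⟨.ofNat 1111, .ofNat 271, .negSucc 135, .ofNat 1771, .negSucc 358, .negSucc 417⟩, .ofNat 457, .negSucc 344, .ofNat 0, .negSucc 344, .ofNat 1708, .ofNat 0, .ofNat 538, .ofNat 274, .negSucc 246, .ofNat 0, .ofNat 242, .negSucc 30, .ofNat 0, .ofNat 0, .ofNat 924, .ofNat 5675, .ofNat 0, .ofNat 0, .ofNat 0,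 .ofNat 0, .ofNat 0, .ofNat 0, .ofNat 0, .ofNat 0, .ofNat 0, .ofNat 0, .ofNat 0, .ofNat 0, .ofNat 0, .ofNat 0, .ofNat 0, .ofNat 0⟩)
    (by decide +kernel)

end Crest.Agent.R097C4.N4pp
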