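import Crest.Agent.R097.T4

/-!
# Row 97, box cover in dimension n = 4 (generated)
-/

set_option autoImplicit false
set_option Elab.async false
set_option maxHeartbeats 0
set_option maxRecDepth 100000

open Crest.Agent.R097 Crest.Agent.R097.KA


namespace Crest.Agent.R097C4.N4pp

theorem L00346 : Good (Phi V4.P V4.D 1 1) ⟨4, 11, 3, 1, 2, 3, 2, 1, 3, 2⟩ :=
  leaf_sound (S := T4.ds_pp) T4.ok_pp (w := 176) (c := ⟨⟨.negSucc 1762, .negSucc 198, .ofNat 64, .negSucc 290, .negSucc 217, .ofNat 306⟩, ⟨.negSucc 347, .negSucc 25, .negSucc 223, .ofNat 9, .negSucc 57, .ofNat 65⟩, ⟨.ofNat 917, .ofNat 91, .negSucc 1, .negSucc 95, .ofNat 206, .negSucc 413⟩, ⟨.negSucc 3382, .negSucc 232, .ofNat 51, .negSucc 900, .negSucc 368, .ofNat 597⟩, ⟨.ofNat 744, .ofNat 249, .negSucc 87, .ofNat 1592, .negSucc 72, .negSucc 218⟩, .ofNat 457, .negSucc 345, .ofNat 0, .negSucc 345, .ofNat 1669, .ofNat 0, .ofNat 552, .ofNat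 314, .negSucc 337, .ofNat 0, .ofNat 257, .negSucc 44, .ofNat 0, .ofNat 0, .ofNat 924, .ofNat 5060, .ofNat 0, .ofNat 0, .ofNat 0, .ofNat 0, .ofNat 0, .ofNat 0, .ofNat 0, .ofNat 0, .ofNat 0, .ofNat 101168798782129406560388049901977600, .ofNat 3190606619100881616268532121600, .ofNat 0, .ofNat 0, .ofNat 78224614061883644017365515816140800, .ofNat 0, .ofNat 0⟩)
    (by decide +kernel)
theorem L00347 : Good (Phi V4.P V4.D 1 1) ⟨2, 2, 3, 1, 1, 1, 1, 0, 3, 3⟩ :=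
  leaf_sound (S := T4.ds_pp) T4.ok_pp (w := 152) (c := ⟨⟨.negSucc 724, .negSucc 496, .ofNat 17, .negSucc 630, .negSucc 174, .ofNat 161⟩, ⟨.ofNat 7, .negSucc 297, .negSucc 104, .negSucc 103, .negSucc 42, .ofNat 33⟩, ⟨.ofNat 328, .ofNat 166, .negSucc 23, .negSucc 111, .ofNat 218, .negSucc 267⟩, ⟨.negSucc 1797, .negSucc 308, .ofNat 3, .negSucc 1386, .negSucc 307, .ofNat 314⟩, ⟨.negSucc 70, .ofNat 130, .ofNat 55, .ofNat 1092, .negSucc 10, .negSucc 108⟩, .ofNat 601, .negSucc 747, .ofNat 0, .negSucc 747, .ofNat 3322, .ofNat 0, .ofNat 360, .ofNat 274, .negSucc 230, .ofNat 0, .ofNat 171, .negSucc 39, .ofNat 0, .ofNat 0, .ofNat 843, .ofNat 1799, .ofNat 3505938181081931887253913600, .ofNat 0, .ofNat 28337182829547658149888000, .ofNat 0, .ofNat 0, .ofNat 1967291394559490518131356467200, .ofNat 0, .ofNat 0, .ofNat 0, .ofNat 2468755275721400227390606540800, .ofNat 0, .ofNat 0, .ofNat 0, .ofNat 2583505215475769379847038566400,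 .ofNat 1096305334497923627483136000, .ofNat 0⟩)
    (by decide +kernel)
theorem L00348 : Good (Phi V4.P V4.D 1 1) ⟨5, 24, 4, 2, 2, 2, 1, 0, 4, 4⟩ :=
  leaf_sound (S := T4.ds_pp) T4.ok_pp (w := 184) (c := ⟨⟨.negSucc 1352, .negSucc 86, .ofNat 17, .negSucc 476, .negSucc 207, .ofNat 100⟩, ⟨.negSucc 285, .negSucc 39, .negSucc 70, .negSucc 74, .negSucc 86, .ofNat 19⟩, ⟨.ofNat 1006, .ofNat 63, .ofNat 16, .ofNat 31, .negSucc 14, .negSucc 215⟩, ⟨.negSucc 2431, .negSucc 82, .ofNat 21, .negSucc 1022, .negSucc 259, .ofNat 201⟩, ⟨.ofNat 442, .ofNat 70, .negSucc 32, .ofNat 746, .negSucc 339, .negSucc 111⟩, .ofNat 691, .negSucc 904, .ofNat 0, .negSucc 904, .ofNat 3202, .ofNat 0, .ofNat 460, .ofNat 377, .negSucc 371, .ofNat 0, .ofNat 256, .negSucc 74, .ofNat 0, .ofNat 0, .ofNat 932, .ofNat 5973, .ofNat 0, .ofNat 0, .ofNat 13988413530988290000499507200, .ofNat 0, .ofNat 13581858106431953776215636135483801600,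 .ofNat 0, .ofNat 4734480046136411498759376076800, .ofNat 0, .ofNat 48659235210357993988271703629129318400, .ofNat 0, .ofNat 1498521463860860569230350745600, .ofNat 0, .ofNat 0, .ofNat 0, .ofNat 0, .ofNat 0⟩)
    (by decide +kernel)
theorem L00349 : Good (Phi V4.P V4.D 1 1) ⟨5, 24, 4, 2, 2, 3, 2, 0, 4, 4⟩ :=
  leaf_sound (S := T4.ds_pp) T4.ok_pp (w := 184) (c := ⟨⟨.negSucc 1887, .negSucc 122, .ofNat 37, .negSucc 206, .negSucc 110, .ofNat 178⟩, ⟨.negSucc 328, .negSucc 1, .negSucc 126, .ofNat 98, .negSucc 68, .ofNat 32⟩, ⟨.ofNat 906, .ofNat 36, .ofNat 49, .negSucc 387, .ofNat 257, .negSucc 295⟩, ⟨.negSucc 3561, .negSucc 147, .ofNat 10, .negSucc 895, .negSucc 56, .ofNat 370⟩, ⟨.ofNat 1374, .ofNat 37, .negSucc 56, .ofNat 1926, .negSucc 462, .negSucc 240⟩, .ofNat 579, .negSucc 610, .ofNat 0, .negSucc 610, .ofNat 2255, .ofNat 0, .ofNat 530, .ofNat 358, .negSucc 257, .ofNat 0, .ofNat 270, .negSucc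 52, .ofNat 0, .ofNat 0, .ofNat 930, .ofNat 9960, .ofNat 0, .ofNat 0, .ofNat 0, .ofNat 0, .ofNat 0, .ofNat 0, .ofNat 41263425469126953508010773708800, .ofNat 0, .ofNat 0, .ofNat 12878199159438222685065734477630668800, .ofNat 41189316947270283480626154700800, .ofNat 0, .ofNat 0, .ofNat 32908151423628346241419231940208230400, .ofNat 0, .ofNat 0⟩)
    (by decide +kernel)
theorem L00350 : Good (Phi V4.P V4.D 1 1) ⟨5, 24, 4, 2, 2, 3, 2, 1, 4, 4⟩ :=
  leaf_sound (S := T4.ds_pp) T4.ok_pp (w := 184) (c := ⟨⟨.negSucc 1973, .negSucc 179, .ofNat 74, .negSucc 278, .negSucc 263, .ofNat 164⟩, ⟨.negSucc 383, .negSucc 29, .negSucc 110, .ofNat 58, .negSucc 79, .ofNat 32⟩, ⟨.ofNat 997, .ofNat 130, .negSucc 36, .negSucc 63, .ofNat 243, .negSucc 204⟩, ⟨.negSucc 3602, .negSucc 228, .ofNat 70, .negSucc 958, .negSucc 425, .ofNat 324⟩, ⟨.ofNat 965, .ofNat 48, .negSucc 18, .ofNat 1715, .negSucc 75, .negSucc 163⟩,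 .ofNat 579, .negSucc 610, .ofNat 0, .negSucc 610, .ofNat 2260, .ofNat 0, .ofNat 536, .ofNat 399, .negSucc 353, .ofNat 0, .ofNat 283, .negSucc 68, .ofNat 0, .ofNat 0, .ofNat 932, .ofNat 5581, .ofNat 0, .ofNat 0, .ofNat 134290460951438472266121216000, .ofNat 0, .ofNat 0, .ofNat 0, .ofNat 0, .ofNat 0, .ofNat 0, .ofNat 71157175730188709963376529183762022400, .ofNat 23580472115136245861940461568000, .ofNat 0, .ofNat 0, .ofNat 51016745573596253299767580664266752000, .ofNat 0, .ofNat 0⟩)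
    (by decide +kernel)
theorem L00351 : Good (Phi V4.P V4.D 1 1) ⟨5, 24, 4, 2, 2, 2, 1, 0, 4, 5⟩ :=
  leaf_sound (S := T4.ds_pp) T4.ok_pp (w := 184) (c := ⟨⟨.negSucc 1290, .negSucc 106, .ofNat 24, .negSucc 383, .negSucc 223, .ofNat 94⟩, ⟨.negSucc 284, .negSucc 48, .negSucc 64, .negSucc 53, .negSucc 78, .ofNat 18⟩, ⟨.ofNat 746, .ofNat 45, .ofNat 10, .negSucc 28, .ofNat 135, .negSucc 184⟩, ⟨.negSucc 2276, .negSucc 116, .ofNat 34, .negSucc 844, .negSucc 330, .ofNat 193⟩, ⟨.ofNat 258, .ofNat 57, .negSucc 21, .ofNat 679, .negSucc 177, .negSucc 111⟩, .ofNat 687, .negSucc 888, .ofNat 0, .negSucc 888, .ofNat 3136, .ofNat 0, .ofNat 421, .ofNat 332, .negSucc 295, .ofNat 0, .ofNat 237, .negSucc 57, .ofNat 0, .ofNat 0, .ofNat 895, .ofNat 4806, .ofNat 0, .ofNat 0, .ofNat 0, .ofNat 0, .ofNat 0, .ofNat 0, .ofNat 4626203567635197259604715110400, .ofNat 0, .ofNat 59079077676286477074964478234198016000,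 .ofNat 0, .ofNat 2946517500246317746492538880000, .ofNat 0, .ofNat 52777920208744001896637953035416371200, .ofNat 0, .ofNat 0, .ofNat 0⟩)
    (by decide +kernel)
theorem L00352 : Good (Phi V4.P V4.D 1 1) ⟨5, 24, 4, 2, 2, 3, 1, 0, 4, 5⟩ :=
  leaf_sound (S := T4.ds_pp) T4.ok_pp (w := 184) (c := ⟨⟨.negSucc 1705, .negSucc 85, .ofNat 43, .negSucc 225, .negSucc 322, .ofNat 181⟩, ⟨.negSucc 314, .negSucc 13, .negSucc 94, .ofNat 57, .negSucc 118, .ofNat 33⟩, ⟨.ofNat 617, .ofNat 26, .ofNat 22, .negSucc 291, .ofNat 442, .negSucc 273⟩, ⟨.negSucc 3200, .negSucc 93, .ofNat 47, .negSucc 809, .negSucc 455, .ofNat 376⟩, ⟨.ofNat 1116, .ofNat 90, .negSucc 62, .ofNat 1496, .negSucc 329, .negSucc 235⟩, .ofNat 649, .negSucc 790, .ofNat 0, .negSucc 790, .ofNat 2823, .ofNat 0, .ofNat 452, .ofNat 334, .negSucc 224, .ofNat 0, .ofNat 243, .negSucc 39, .ofNat 0, .ofNat 0, .ofNat 913, .ofNat 2793, .ofNat 0, .ofNat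 53381536326743337500954417587814400, .ofNat 678604992938168348049408000, .ofNat 0, .ofNat 0, .ofNat 31323432664947575613410082115131801600, .ofNat 4075125531161505226109956915200, .ofNat 0, .ofNat 0, .ofNat 50639579370433278951952291298751283200, .ofNat 3592364754036024431855271936000, .ofNat 0, .ofNat 0, .ofNat 0, .ofNat 0, .ofNat 0⟩)
    (by decide +kernel)
theorem L00353 : Good (Phi V4.P V4.D 1 1) ⟨5, 24, 4, 3, 2, 2, 1, 0, 3, 2⟩ :=
  leaf_sound (S := T4.ds_pp) T4.ok_pp (w := 176) (c := ⟨⟨.negSucc 1353, .negSucc 94, .ofNat 15, .negSucc 429, .negSucc 246, .ofNat 224⟩, ⟨.negSucc 351, .negSucc 42, .negSucc 72, .negSucc 90, .negSucc 97, .ofNat 58⟩, ⟨.ofNat 1020, .ofNat 63, .negSucc 15, .ofNat 5, .ofNat 62, .negSucc 444⟩, ⟨.negSucc 2434, .negSucc 99, .ofNat 12, .negSucc 954, .negSucc 331, .ofNat 451⟩, ⟨.ofNat 383, .ofNat 83, .negSucc 20, .ofNat 728, .negSucc 269, .negSucc 227⟩, .ofNat 828,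 .negSucc 1250, .ofNat 0, .negSucc 1250, .ofNat 3941, .ofNat 0, .ofNat 397, .ofNat 406, .negSucc 332, .ofNat 0, .ofNat 246, .negSucc 82, .ofNat 0, .ofNat 0, .ofNat 917, .ofNat 3394, .ofNat 0, .ofNat 0, .ofNat 321163035451892437509734400, .ofNat 0, .ofNat 0, .ofNat 0, .ofNat 227227167669864372680156774400, .ofNat 0, .ofNat 13015740487002955054995722908100198400, .ofNat 0, .ofNat 106163435726507451195850752000, .ofNat 0, .ofNat 0, .ofNat 0, .ofNat 0, .ofNat 0⟩)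
    (by decide +kernel)
theorem L00354 : Good (Phi V4.P V4.D 1 1) ⟨5, 24, 4, 3, 2, 3, 2, 0, 3, 2⟩ :=
  leaf_sound (S := T4.ds_pp) T4.ok_pp (w := 184) (c := ⟨⟨.negSucc 1823, .negSucc 93, .ofNat 15, .negSucc 190, .negSucc 129, .ofNat 331⟩, ⟨.negSucc 429, .negSucc 5, .negSucc 122, .ofNat 59, .negSucc 66, .ofNat 78⟩, ⟨.ofNat 919, .ofNat 31, .ofNat 61, .negSucc 357, .ofNat 217, .negSucc 586⟩, ⟨.negSucc 3520, .negSucc 114, .ofNat 11, .negSucc 902, .negSucc 85, .ofNat 693⟩, ⟨.ofNat 1405, .ofNat 92, .negSucc 142, .ofNat 1833, .negSucc 408, .negSucc 430⟩, .ofNat 482, .negSucc 410, .ofNat 0, .negSucc 410, .ofNat 1497, .ofNat 0, .ofNat 516, .ofNat 351, .negSucc 271, .ofNat 0, .ofNat 283, .negSucc 52, .ofNat 0, .ofNat 0, .ofNat 935, .ofNat 10959, .ofNat 0, .ofNat 0, .ofNat 0, .ofNat 0, .ofNat 0, .ofNat 0, .ofNat 1116162442655783457899780505600, .ofNat 0, .ofNat 0, .ofNat 1879632683797168034708471728098508800,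 .ofNat 1983779179692440355102051532800, .ofNat 0, .ofNat 0, .ofNat 9114312119219305208002676413956096000, .ofNat 0, .ofNat 0⟩)
    (by decide +kernel)
theorem L00355 : Good (Phi V4.P V4.D 1 1) ⟨5, 24, 4, 3, 2, 3, 2, 1, 3, 2⟩ :=
  leaf_sound (S := T4.ds_pp) T4.ok_pp (w := 184) (c := ⟨⟨.negSucc 1932, .negSucc 113, .ofNat 50, .negSucc 270, .negSucc 252, .ofNat 323⟩, ⟨.negSucc 489, .negSucc 15, .negSucc 106, .ofNat 13, .negSucc 83, .ofNat 88⟩, ⟨.ofNat 999, .ofNat 59, .negSucc 7, .negSucc 54, .ofNat 206, .negSucc 427⟩, ⟨.negSucc 3565, .negSucc 134, .ofNat 45, .negSucc 975, .negSucc 405, .ofNat 621⟩, ⟨.ofNat 922, .ofNat 106, .negSucc 30, .ofNat 1625, .negSucc 59, .negSucc 234⟩, .ofNat 484, .negSucc 415, .ofNat 0, .negSucc 415, .ofNat 1509, .ofNat 0, .ofNat 521, .ofNat 391, .negSucc 369, .ofNat 0, .ofNat 296, .negSucc 72, .ofNat 0, .ofNat 0, .ofNat 943, .ofNat 5319, .ofNat 0, .ofNat 0, .ofNat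 0, .ofNat 0, .ofNat 0, .ofNat 0, .ofNat 0, .ofNat 0, .ofNat 0, .ofNat 11891594556747680023597790803053772800, .ofNat 1824645841034218312117203763200, .ofNat 0, .ofNat 0, .ofNat 0, .ofNat 0, .ofNat 0⟩)
    (by decide +kernel)
theorem L00356 : Good (Phi V4.P V4.D 1 1) ⟨5, 25, 4, 2, 1, 1, 1, 0, 3, 2⟩ :=
  out_sound (S := T4.ds_pp) T4.ok_pp (w := 64) (j := 3) (by decide +kernel)
theorem L00357 : Good (Phi V4.P V4.D 1 1) ⟨6, 50, 5, 6, 1, 1, 1, 0, 4, 4⟩ :=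
  out_sound (S := T4.ds_pp) T4.ok_pp (w := 72) (j := 3) (by decide +kernel)
theorem L00358 : Good (Phi V4.P V4.D 1 1) ⟨7, 100, 5, 7, 2, 2, 1, 0, 4, 4⟩ :=
  leaf_sound (S := T4.ds_pp) T4.ok_pp (w := 192) (c := ⟨⟨.negSucc 1518, .negSucc 191, .ofNat 115, .negSucc 455, .negSucc 238, .ofNat 107⟩, ⟨.negSucc 438, .negSucc 59, .negSucc 9, .negSucc 101, .negSucc 109, .ofNat 28⟩, ⟨.ofNat 1142, .ofNat 242, .negSucc 46, .ofNat 30, .negSucc 43, .negSucc 221⟩, ⟨.negSucc 2726, .negSucc 347, .ofNat 236, .negSucc 1010, .negSucc 266, .ofNat 220⟩, ⟨.ofNat 648, .ofNat 147, .negSucc 158, .ofNat 747, .negSucc 370, .negSucc 123⟩, .ofNat 317, .negSucc 147, .ofNat 0, .negSucc 147, .ofNat 644, .ofNat 0, .ofNat 300, .ofNat 145, .negSucc 260, .ofNat 0, .ofNat 184, .negSucc 21, .ofNat 0, .ofNat 0, .ofNat 517, .ofNat 2255, .ofNat 0, .ofNat 0, .ofNat 3238236458237800712503296000, .ofNat 0, .ofNat 10112057937159338899174317874130976768000,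 .ofNat 0, .ofNat 273531218228721816102449971200, .ofNat 0, .ofNat 0, .ofNat 0, .ofNat 0, .ofNat 0, .ofNat 8085173184785473235584418493113145753600, .ofNat 0, .ofNat 191794992275244025009668096000, .ofNat 0⟩)
    (by decide +kernel)
theorem L00359 : Good (Phi V4.P V4.D 1 1) ⟨7, 100, 5, 7, 2, 3, 2, 0, 4, 4⟩ :=
  leaf_sound (S := T4.ds_pp) T4.ok_pp (w := 200) (c := ⟨⟨.negSucc 1897, .ofNat 4, .ofNat 11, .negSucc 193, .negSucc 140, .ofNat 158⟩, ⟨.negSucc 490, .ofNat 30, .negSucc 57, .ofNat 70, .negSucc 79, .ofNat 29⟩, ⟨.ofNat 994, .negSucc 69, .ofNat 10, .negSucc 382, .ofNat 204, .negSucc 252⟩, ⟨.negSucc 3602, .negSucc 76, .negSucc 8, .negSucc 957, .negSucc 85, .ofNat 378⟩, ⟨.ofNat 1424, .ofNat 286, .ofNat 1, .ofNat 1853, .negSucc 425, .negSucc 338⟩, .ofNat 661, .negSucc 784, .ofNat 0, .negSucc 784, .ofNat 2390, .ofNat 0, .ofNat 468, .ofNat 429, .negSucc 269, .ofNat 0, .ofNat 285, .negSucc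 70, .ofNat 0, .ofNat 0, .ofNat 936, .ofNat 12045, .ofNat 0, .ofNat 0, .ofNat 0, .ofNat 0, .ofNat 0, .ofNat 0, .ofNat 22945500900314197218634707763200, .ofNat 0, .ofNat 0, .ofNat 0, .ofNat 0, .ofNat 0, .ofNat 0, .ofNat 37510031397387501497100484698481203609600, .ofNat 0, .ofNat 0⟩)
    (by decide +kernel)
theorem L00360 : Good (Phi V4.P V4.D 1 1) ⟨7, 100, 5, 7, 2, 3, 2, 1, 4, 4⟩ :=
  leaf_sound (S := T4.ds_pp) T4.ok_pp (w := 200) (c := ⟨⟨.negSucc 2087, .ofNat 76, .ofNat 94, .negSucc 244, .negSucc 266, .ofNat 146⟩, ⟨.negSucc 586, .ofNat 47, .negSucc 27, .ofNat 41, .negSucc 95, .ofNat 36⟩, ⟨.ofNat 1025, .negSucc 96, .ofNat 37, .negSucc 69, .ofNat 215, .negSucc 207⟩, ⟨.negSucc 3776, .ofNat 58, .ofNat 127, .negSucc 991, .negSucc 420, .ofNat 308⟩, ⟨.ofNat 1009, .ofNat 251, .ofNat 7, .ofNat 1704, .negSucc 57, .negSucc 194⟩, .ofNat 485, .negSucc 411, .ofNat 0, .negSucc 411, .ofNat 1393, .ofNat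 0, .ofNat 539, .ofNat 412, .negSucc 385, .ofNat 0, .ofNat 322, .negSucc 82, .ofNat 0, .ofNat 0, .ofNat 953, .ofNat 6965, .ofNat 0, .ofNat 0, .ofNat 0, .ofNat 0, .ofNat 0, .ofNat 0, .ofNat 0, .ofNat 0, .ofNat 0, .ofNat 63318905214671241667443816120950194176000, .ofNat 9479919110214884950270594252800, .ofNat 0, .ofNat 0, .ofNat 25493876998641339865457322410663686963200, .ofNat 12787613476695750786533661081600, .ofNat 0⟩)
    (by decide +kernel)
theorem L00361 : Good (Phi V4.P V4.D 1 1) ⟨7, 101, 5, 7, 1, 1, 1, 0, 4, 4⟩ :=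
  out_sound (S := T4.ds_pp) T4.ok_pp (w := 80) (j := 3) (by decide +kernel)
theorem L00362 : Good (Phi V4.P V4.D 1 1) ⟨6, 50, 5, 6, 1, 1, 1, 0, 4, 5⟩ :=
  out_sound (S := T4.ds_pp) T4.ok_pp (w := 72) (j := 3) (by decide +kernel)
theorem L00363 : Good (Phi V4.P V4.D 1 1) ⟨6, 50, 5, 7, 1, 1, 2, 0, 4, 5⟩ :=
  leaf_sound (S := T4.ds_pp) T4.ok_pp (w := 184) (c := ⟨⟨.negSucc 1452, .negSucc 239, .ofNat 80, .negSucc 620, .negSucc 110, .ofNat 122⟩, ⟨.negSucc 437, .negSucc 125, .negSucc 9, .negSucc 79, .negSucc 52, .ofNat 25⟩, ⟨.ofNat 995, .ofNat 409, .negSucc 136, .negSucc 289, .ofNat 77, .negSucc 266⟩, ⟨.negSucc 2529, .negSucc 203, .ofNat 141, .negSucc 1649, .negSucc 113, .ofNat 280⟩, ⟨.ofNat 388, .negSucc 476, .negSucc 43, .ofNat 1810, .negSucc 202, .negSucc 225⟩, .ofNat 811, .negSucc 1137, .ofNat 0, .negSucc 1137, .ofNat 3322, .ofNat 0, .ofNat 378, .ofNat 381, .negSucc 258, .ofNat 0, .ofNat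 250, .negSucc 63, .ofNat 0, .ofNat 0, .ofNat 915, .ofNat 5531, .ofNat 0, .ofNat 0, .ofNat 0, .ofNat 0, .ofNat 0, .ofNat 21806131972094486093367368734054809600, .ofNat 152410200115831384034613657600, .ofNat 0, .ofNat 0, .ofNat 37786225428675487867869846583640064000, .ofNat 54882383924633831645537894400, .ofNat 0, .ofNat 0, .ofNat 26625201634162650381411341644804915200, .ofNat 74479777656344937464699289600, .ofNat 0⟩)
    (by decide +kernel)
theorem L00364 : Good (Phi V4.P V4.D 1 1) ⟨6, 50, 5, 7, 1, 1, 2, 1, 4, 5⟩ :=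
  leaf_sound (S := T4.ds_pp) T4.ok_pp (w := 184) (c := ⟨⟨.negSucc 1550, .ofNat 57, .ofNat 118, .negSucc 790, .negSucc 158, .ofNat 119⟩, ⟨.negSucc 517, .ofNat 33, .ofNat 34, .negSucc 149, .negSucc 59, .ofNat 32⟩, ⟨.ofNat 934, .negSucc 63, .negSucc 127, .ofNat 78, .ofNat 92, .negSucc 199⟩, ⟨.negSucc 2466, .ofNat 29, .ofNat 47, .negSucc 1881, .negSucc 240, .ofNat 236⟩, ⟨.negSucc 265, .ofNat 281, .ofNat 412, .ofNat 1666, .negSucc 63, .negSucc 116⟩, .ofNat 834, .negSucc 1191, .ofNat 0, .negSucc 1191, .ofNat 3461, .ofNat 0, .ofNat 388, .ofNat 404, .negSucc 333, .ofNat 0, .ofNat 260, .negSucc 90, .ofNat 0, .ofNat 0, .ofNat 911, .ofNat 3898, .ofNat 0, .ofNat 0, .ofNat 0, .ofNat 0, .ofNat 0, .ofNat 27612441084247053243529886669419315200, .ofNat 176202080978470484303255961600, .ofNat 0, .ofNat 0, .ofNat 46230351632564360429637488879861760000, .ofNat 56486200382880679261215129600, .ofNat 0, .ofNat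 0, .ofNat 22787547748398898653062546389676851200, .ofNat 0, .ofNat 0⟩)
    (by decide +kernel)
theorem L00365 : Good (Phi V4.P V4.D 1 1) ⟨6, 51, 4, 3, 1, 1, 1, 0, 3, 2⟩ :=
  out_sound (S := T4.ds_pp) T4.ok_pp (w := 72) (j := 3) (by decide +kernel)
theorem L00366 : Good (Phi V4.P V4.D 1 1) ⟨4, 12, 3, 1, 1, 1, 1, 0, 3, 3⟩ :=
  leaf_sound (S := T4.ds_pp) T4.ok_pp (w := 160) (c := ⟨⟨.negSucc 1199, .negSucc 153, .ofNat 36, .negSucc 651, .negSucc 235, .ofNat 172⟩, ⟨.negSucc 279, .negSucc 96, .negSucc 95, .negSucc 130, .negSucc 74, .ofNat 45⟩, ⟨.ofNat 508, .ofNat 90, .negSucc 48, .negSucc 75, .ofNat 242, .negSucc 298⟩, ⟨.negSucc 2078, .negSucc 134, .ofNat 58, .negSucc 1439, .negSucc 396, .ofNat 325⟩, ⟨.ofNat 88, .ofNat 103, .negSucc 28, .ofNat 1078, .ofNat 0, .negSucc 114⟩, .ofNat 477, .negSucc 396, .ofNat 0, .negSucc 396, .ofNat 1461, .ofNat 0, .ofNat 392, .ofNat 280, .negSucc 281, .ofNat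 0, .ofNat 239, .negSucc 55, .ofNat 0, .ofNat 0, .ofNat 865, .ofNat 1797, .ofNat 3352873455611922746394751795200, .ofNat 1408428993672041062768784179200, .ofNat 980021689329951151718400, .ofNat 0, .ofNat 0, .ofNat 706349508535971312729108303052800, .ofNat 0, .ofNat 0, .ofNat 0, .ofNat 1028102543271152410302452072448000, .ofNat 798692182995603557921587200, .ofNat 0, .ofNat 0, .ofNat 686958785857628113411964613427200, .ofNat 0, .ofNat 0⟩)
    (by decide +kernel)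
theorem L00367 : Good (Phi V4.P V4.D 1 1) ⟨4, 13, 3, 1, 1, 1, 1, 0, 2, 1⟩ :=
  out_sound (S := T4.ds_pp) T4.ok_pp (w := 56) (j := 3) (by decide +kernel)
theorem L00368 : Good (Phi V4.P V4.D 1 1) ⟨3, 7, 3, 1, 1, 1, 1, 0, 2, 1⟩ :=
  out_sound (S := T4.ds_pp) T4.ok_pp (w := 48) (j := 3) (by decide +kernel)
theorem L00369 : Good (Phi V4.P V4.D 1 1) ⟨3, 4, 3, 1, 1, 1, 2, 2, 3, 0⟩ :=
  out_sound (S := T4.ds_pp) T4.ok_pp (w := 48) (j := 3) (by decide +kernel)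
theorem L00370 : Good (Phi V4.P V4.D 1 1) ⟨3, 5, 3, 1, 2, 2, 2, 2, 3, 0⟩ :=
  leaf_sound (S := T4.ds_pp) T4.ok_pp (w := 168) (c := ⟨⟨.negSucc 484, .negSucc 453, .ofNat 13, .negSucc 364, .negSucc 107, .negSucc 683⟩, ⟨.negSucc 35, .negSucc 182, .negSucc 120, .negSucc 59, .negSucc 35, .negSucc 155⟩, ⟨.ofNat 572, .ofNat 341, .negSucc 9, .ofNat 210, .negSucc 203, .ofNat 261⟩, ⟨.negSucc 1055, .negSucc 560, .ofNat 9, .negSucc 774, .negSucc 142, .negSucc 1252⟩, ⟨.negSucc 96, .ofNat 230, .negSucc 13, .ofNat 530, .negSucc 216, .ofNat 133⟩, .ofNat 595, .negSucc 721, .ofNat 0, .negSucc 721, .ofNat 3187, .ofNat 0, .ofNat 302, .ofNat 267, .negSucc 440, .ofNat 0, .ofNat 143, .negSucc 87, .ofNat 0, .ofNat 0, .ofNat 618, .ofNat 619, .ofNat 0, .ofNat 0, .ofNat 0, .ofNat 0, .ofNat 0, .ofNat 0, .ofNat 0, .ofNat 0, .ofNat 0, .ofNat 0, .ofNat 0, .ofNat 0, .ofNat 0, .ofNat 0, .ofNat 0, .ofNat 0⟩)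
    (by decide +kernel)
theorem L00371 : Good (Phi V4.P V4.D 1 1) ⟨3, 5, 3, 1, 2, 3, 2, 2, 3, 0⟩ :=
  leaf_sound (S := T4.ds_pp) T4.ok_pp (w := 168) (c := ⟨⟨.negSucc 251, .negSucc 676, .ofNat 26, .negSucc 213, .negSucc 325, .negSucc 1440⟩, ⟨.negSucc 14, .negSucc 160, .negSucc 199, .negSucc 3, .negSucc 78, .negSucc 310⟩, ⟨.ofNat 438, .ofNat 384, .ofNat 7, .negSucc 27, .ofNat 75, .ofNat 650⟩, ⟨.negSucc 650, .negSucc 967, .negSucc 20, .negSucc 638, .negSucc 582, .negSucc 2721⟩, ⟨.negSucc 93, .ofNat 385, .ofNat 48, .ofNat 1067, .ofNat 0, .ofNat 664⟩, .ofNat 456, .negSucc 342, .ofNat 0, .negSucc 342, .ofNat 1662, .ofNat 0, .ofNat 401, .ofNat 332, .negSucc 540, .ofNat 0, .ofNat 189, .negSucc 95, .ofNat 0, .ofNat 0, .ofNat 612, .ofNat 600, .ofNat 0, .ofNat 0, .ofNat 0, .ofNat 0, .ofNat 0, .ofNat 0, .ofNat 0, .ofNat 0, .ofNat 0, .ofNat 0, .ofNat 0, .ofNat 0, .ofNat 0, .ofNat 0, .ofNat 0, .ofNat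 0⟩)
    (by decide +kernel)
theorem L00372 : Good (Phi V4.P V4.D 1 1) ⟨4, 12, 3, 1, 2, 2, 2, 2, 3, 0⟩ :=
  leaf_sound (S := T4.ds_pp) T4.ok_pp (w := 176) (c := ⟨⟨.negSucc 910, .negSucc 281, .ofNat 78, .negSucc 532, .negSucc 124, .negSucc 693⟩, ⟨.negSucc 169, .negSucc 125, .negSucc 107, .negSucc 121, .negSucc 56, .negSucc 209⟩, ⟨.ofNat 906, .ofNat 207, .negSucc 43, .ofNat 320, .negSucc 230, .ofNat 276⟩, ⟨.negSucc 1599, .negSucc 355, .ofNat 121, .negSucc 1097, .negSucc 131, .negSucc 1204⟩, ⟨.ofNat 130, .ofNat 144, .negSucc 35, .ofNat 635, .negSucc 244, .ofNat 125⟩, .ofNat 645, .negSucc 775, .ofNat 0, .negSucc 775, .ofNat 2566, .ofNat 0, .ofNat 284, .ofNat 304, .negSucc 484, .ofNat 0, .ofNat 179, .negSucc 131, .ofNat 0, .ofNat 0, .ofNat 646, .ofNat 1355, .ofNat 0, .ofNat 0, .ofNat 0, .ofNat 0, .ofNat 0, .ofNat 0, .ofNat 1035287663704369590635908300800, .ofNat 0, .ofNat 0, .ofNat 0, .ofNat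 1396430345612979803180865945600, .ofNat 0, .ofNat 0, .ofNat 0, .ofNat 0, .ofNat 0⟩)
    (by decide +kernel)
theorem L00373 : Good (Phi V4.P V4.D 1 1) ⟨4, 12, 3, 1, 2, 3, 2, 2, 3, 0⟩ :=
  leaf_sound (S := T4.ds_pp) T4.ok_pp (w := 176) (c := ⟨⟨.negSucc 747, .negSucc 318, .negSucc 51, .negSucc 65, .negSucc 537, .negSucc 1759⟩, ⟨.negSucc 20, .negSucc 79, .negSucc 260, .ofNat 54, .negSucc 177, .negSucc 520⟩, ⟨.ofNat 770, .ofNat 184, .ofNat 59, .negSucc 101, .ofNat 165, .ofNat 782⟩, ⟨.negSucc 1312, .negSucc 408, .negSucc 202, .negSucc 472, .negSucc 890, .negSucc 3195⟩, ⟨.ofNat 229, .ofNat 213, .ofNat 86, .ofNat 1104, .negSucc 26, .ofNat 743⟩, .ofNat 479, .negSucc 403, .ofNat 0, .negSucc 403, .ofNat 1468, .ofNat 0, .ofNat 382, .ofNat 423, .negSucc 646, .ofNat 0, .ofNat 240, .negSucc 162, .ofNat 0, .ofNat 0, .ofNat 653, .ofNat 743, .ofNat 0, .ofNat 0, .ofNat 0, .ofNat 0, .ofNat 0, .ofNat 0,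 .ofNat 0, .ofNat 0, .ofNat 0, .ofNat 0, .ofNat 1090518506455249902044499148800, .ofNat 0, .ofNat 0, .ofNat 0, .ofNat 0, .ofNat 0⟩)
    (by decide +kernel)
theorem L00374 : Good (Phi V4.P V4.D 1 1) ⟨4, 13, 3, 1, 1, 1, 2, 2, 3, 0⟩ :=
  out_sound (S := T4.ds_pp) T4.ok_pp (w := 56) (j := 3) (by decide +kernel)
theorem L00375 : Good (Phi V4.P V4.D 1 1) ⟨3, 7, 3, 1, 1, 1, 2, 2, 3, 0⟩ :=
  out_sound (S := T4.ds_pp) T4.ok_pp (w := 48) (j := 3) (by decide +kernel)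
theorem L00376 : Good (Phi V4.P V4.D 1 1) ⟨2, 2, 3, 1, 2, 2, 2, 2, 3, 1⟩ :=
  leaf_sound (S := T4.ds_pp) T4.ok_pp (w := 168) (c := ⟨⟨.negSucc 66, .negSucc 1335, .ofNat 80, .negSucc 741, .negSucc 186, .negSucc 111⟩, ⟨.ofNat 164, .negSucc 485, .negSucc 154, .negSucc 143, .negSucc 48, .negSucc 23⟩, ⟨.ofNat 64, .ofNat 901, .negSucc 79, .ofNat 402, .ofNat 13, .negSucc 60⟩, ⟨.negSucc 700, .negSucc 1711, .ofNat 128, .negSucc 1489, .negSucc 307, .negSucc 206⟩, ⟨.negSucc 536, .ofNat 673, .negSucc 76, .ofNat 722, .negSucc 90, .ofNat 20⟩, .ofNat 458, .negSucc 349, .ofNat 0, .negSucc 349, .ofNat 1724, .ofNat 0, .ofNat 304, .ofNat 202, .negSucc 356, .ofNat 0, .ofNat 144, .negSucc 60, .ofNat 0, .ofNat 0, .ofNat 550, .ofNat 1740, .ofNat 0, .ofNat 0, .ofNat 0, .ofNat 0, .ofNat 0, .ofNat 0, .ofNat 8530718019817977137475669196800, .ofNat 0, .ofNat 0, .ofNat 0, .ofNat 10772524036756555031728934092800,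 .ofNat 0, .ofNat 0, .ofNat 0, .ofNat 10846264825591058691840068812800, .ofNat 0⟩)
    (by decide +kernel)
theorem L00377 : Good (Phi V4.P V4.D 1 1) ⟨3, 4, 3, 1, 2, 3, 2, 2, 3, 1⟩ :=
  out_sound (S := T4.ds_pp) T4.ok_pp (w := 48) (j := 3) (by decide +kernel)
theorem L00378 : Good (Phi V4.P V4.D 1 1) ⟨3, 5, 3, 1, 3, 6, 2, 2, 3, 1⟩ :=
  leaf_sound (S := T4.ds_pp) T4.ok_pp (w := 184) (c := ⟨⟨.negSucc 1308, .negSucc 827, .ofNat 166, .negSucc 401, .negSucc 440, .negSucc 63⟩, ⟨.negSucc 199, .negSucc 243, .negSucc 202, .negSucc 64, .negSucc 100, .negSucc 10⟩, ⟨.ofNat 827, .ofNat 477, .negSucc 100, .ofNat 166, .ofNat 235, .negSucc 108⟩, ⟨.negSucc 2763, .negSucc 1063, .ofNat 192, .negSucc 896, .negSucc 791, .negSucc 148⟩, ⟨.ofNat 391, .ofNat 380, .ofNat 0, .ofNat 742, .ofNat 35, .ofNat 120⟩, .ofNat 601, .negSucc 742, .ofNat 0, .negSucc 742, .ofNat 3283, .ofNat 0, .ofNat 298, .ofNat 276, .negSucc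 324, .ofNat 0, .ofNat 138, .negSucc 62, .ofNat 0, .ofNat 0, .ofNat 519, .ofNat 975, .ofNat 0, .ofNat 0, .ofNat 9082678791095198618645377843200, .ofNat 0, .ofNat 0, .ofNat 0, .ofNat 0, .ofNat 0, .ofNat 0, .ofNat 0, .ofNat 1362877815142160262733264374988800, .ofNat 0, .ofNat 0, .ofNat 0, .ofNat 0, .ofNat 0⟩)
    (by decide +kernel)
theorem L00379 : Good (Phi V4.P V4.D 1 1) ⟨3, 5, 3, 1, 3, 7, 2, 2, 3, 1⟩ :=
  leaf_sound (S := T4.ds_pp) T4.ok_pp (w := 184) (c := ⟨⟨.negSucc 1757, .negSucc 760, .ofNat 136, .negSucc 50, .negSucc 534, .negSucc 30⟩, ⟨.negSucc 349, .negSucc 121, .negSucc 288, .ofNat 40, .negSucc 120, .ofNat 11⟩, ⟨.ofNat 939, .ofNat 437, .negSucc 47, .negSucc 22, .ofNat 349, .negSucc 61⟩, ⟨.negSucc 3587, .negSucc 1036, .ofNat 98, .negSucc 357, .negSucc 1007, .negSucc 170⟩, ⟨.ofNat 665, .ofNat 596, .negSucc 52, .ofNat 1099, .ofNat 251, .ofNat 454⟩, .ofNat 459, .negSucc 352, .ofNat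 0, .negSucc 352, .ofNat 1698, .ofNat 0, .ofNat 366, .ofNat 259, .negSucc 317, .ofNat 0, .ofNat 167, .negSucc 49, .ofNat 0, .ofNat 0, .ofNat 514, .ofNat 1596, .ofNat 0, .ofNat 7061003650234421226289970439782400, .ofNat 0, .ofNat 0, .ofNat 0, .ofNat 0, .ofNat 0, .ofNat 0, .ofNat 0, .ofNat 0, .ofNat 1188337309692044844658231502438400, .ofNat 0, .ofNat 0, .ofNat 0, .ofNat 0, .ofNat 0⟩)
    (by decide +kernel)
theorem L00380 : Good (Phi V4.P V4.D 1 1) ⟨4, 12, 3, 1, 2, 2, 2, 2, 3, 1⟩ :=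
  leaf_sound (S := T4.ds_pp) T4.ok_pp (w := 176) (c := ⟨⟨.negSucc 1307, .negSucc 350, .ofNat 50, .negSucc 835, .negSucc 242, .negSucc 107⟩, ⟨.negSucc 268, .negSucc 165, .negSucc 142, .negSucc 215, .negSucc 88, .negSucc 29⟩, ⟨.ofNat 939, .ofNat 245, .negSucc 58, .ofNat 434, .ofNat 24, .negSucc 77⟩, ⟨.negSucc 2258, .negSucc 423, .ofNat 64, .negSucc 1655, .negSucc 373, .negSucc 194⟩, ⟨.ofNat 74, .ofNat 143, .negSucc 22, .ofNat 791, .negSucc 108, .ofNat 43⟩, .ofNat 643, .negSucc 770, .ofNat 0, .negSucc 770, .ofNat 2546, .ofNat 0, .ofNat 258, .ofNat 265, .negSucc 371, .ofNat 0, .ofNat 161, .negSucc 101, .ofNat 0, .ofNat 0, .ofNat 560, .ofNat 1518, .ofNat 0, .ofNat 0, .ofNat 15010769505765560036622336000, .ofNat 0, .ofNat 0, .ofNat 0, .ofNat 1143464047707934227358443110400, .ofNat 0, .ofNat 0, .ofNat 0, .ofNat 1698102251473767280963013836800, .ofNat 0, .ofNat 0, .ofNat 0, .ofNat 0, .ofNat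 0⟩)
    (by decide +kernel)
theorem L00381 : Good (Phi V4.P V4.D 1 1) ⟨4, 12, 3, 1, 2, 3, 2, 2, 4, 2⟩ :=
  leaf_sound (S := T4.ds_pp) T4.ok_pp (w := 184) (c := ⟨⟨.negSucc 2090, .negSucc 452, .ofNat 81, .negSucc 568, .negSucc 579, .negSucc 88⟩, ⟨.negSucc 394, .negSucc 137, .negSucc 255, .negSucc 66, .negSucc 186, .negSucc 18⟩, ⟨.ofNat 1304, .ofNat 261, .negSucc 18, .ofNat 153, .ofNat 273, .negSucc 26⟩, ⟨.negSucc 3722, .negSucc 586, .ofNat 22, .negSucc 1488, .negSucc 976, .negSucc 197⟩, ⟨.ofNat 697, .ofNat 210, .ofNat 46, .ofNat 1668, .ofNat 1, .ofNat 135⟩, .ofNat 640, .negSucc 760, .ofNat 0, .negSucc 760, .ofNat 2506, .ofNat 0, .ofNat 306, .ofNat 355, .negSucc 423, .ofNat 0, .ofNat 193, .negSucc 111, .ofNat 0, .ofNat 0, .ofNat 564, .ofNat 1151, .ofNat 0, .ofNat 0, .ofNat 307399872414478994496081100800, .ofNat 0, .ofNat 0, .ofNat 0, .ofNat 23316013664043390702309290803200, .ofNat 0, .ofNat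 0, .ofNat 0, .ofNat 21301649771126470969985807155200, .ofNat 0, .ofNat 0, .ofNat 0, .ofNat 0, .ofNat 0⟩)
    (by decide +kernel)
theorem L00382 : Good (Phi V4.P V4.D 1 1) ⟨4, 12, 3, 1, 2, 3, 3, 4, 4, 3⟩ :=
  leaf_sound (S := T4.ds_pp) T4.ok_pp (w := 184) (c := ⟨⟨.negSucc 2261, .negSucc 359, .ofNat 81, .negSucc 441, .negSucc 244, .ofNat 112⟩, ⟨.negSucc 450, .negSucc 67, .negSucc 270, .negSucc 6, .negSucc 78, .ofNat 40⟩, ⟨.ofNat 1281, .ofNat 233, .negSucc 28, .ofNat 130, .ofNat 146, .negSucc 136⟩, ⟨.negSucc 4023, .negSucc 496, .ofNat 45, .negSucc 1314, .negSucc 433, .ofNat 184⟩, ⟨.ofNat 784, .ofNat 342, .negSucc 77, .ofNat 1843, .ofNat 41, .ofNat 21⟩, .ofNat 472, .negSucc 385, .ofNat 0, .negSucc 385, .ofNat 1445, .ofNat 0, .ofNat 324, .ofNat 265, .negSucc 321, .ofNat 0, .ofNat 182, .negSucc 66, .ofNat 0, .ofNat 0, .ofNat 521, .ofNat 1870, .ofNat 0, .ofNat 6120137505188730116105131209523200,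 .ofNat 668154288775768440769924300800, .ofNat 0, .ofNat 0, .ofNat 0, .ofNat 184963194854395092000163705651200, .ofNat 0, .ofNat 0, .ofNat 326722748061168424317759542997811200, .ofNat 164306366271491759248911630336000, .ofNat 0, .ofNat 0, .ofNat 0, .ofNat 0, .ofNat 0⟩)
    (by decide +kernel)
theorem L00383 : Good (Phi V4.P V4.D 1 1) ⟨4, 12, 3, 1, 3, 6, 3, 5, 4, 3⟩ :=
  leaf_sound (S := T4.ds_pp) T4.ok_pp (w := 192) (c := ⟨⟨.negSucc 2374, .negSucc 515, .ofNat 166, .negSucc 441, .negSucc 380, .ofNat 75⟩, ⟨.negSucc 477, .negSucc 152, .negSucc 238, .negSucc 80, .negSucc 118, .ofNat 29⟩, ⟨.ofNat 1359, .ofNat 310, .negSucc 117, .ofNat 208, .ofNat 206, .negSucc 99⟩, ⟨.negSucc 4256, .negSucc 679, .ofNat 214, .negSucc 1021, .negSucc 653, .ofNat 108⟩, ⟨.ofNat 815, .ofNat 263, .negSucc 66, .ofNat 865, .ofNat 51, .ofNat 48⟩, .ofNat 479, .negSucc 400, .ofNat 0, .negSucc 400, .ofNat 1454, .ofNat 0,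 .ofNat 322, .ofNat 291, .negSucc 398, .ofNat 0, .ofNat 192, .negSucc 95, .ofNat 0, .ofNat 0, .ofNat 553, .ofNat 5986, .ofNat 0, .ofNat 7886088278862623717404450341519360000, .ofNat 1491978344030524903235349852979200, .ofNat 0, .ofNat 0, .ofNat 0, .ofNat 99302639866542102650515500721766400, .ofNat 0, .ofNat 0, .ofNat 0, .ofNat 91958778252686400182040517410816000, .ofNat 0, .ofNat 0, .ofNat 0, .ofNat 57375538828956524422354748571648000, .ofNat 0⟩)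
    (by decide +kernel)
theorem L00384 : Good (Phi V4.P V4.D 1 1) ⟨4, 12, 3, 1, 3, 7, 3, 5, 4, 3⟩ :=
  leaf_sound (S := T4.ds_pp) T4.ok_pp (w := 192) (c := ⟨⟨.negSucc 2837, .negSucc 477, .ofNat 164, .negSucc 50, .negSucc 424, .ofNat 98⟩, ⟨.negSucc 536, .negSucc 65, .negSucc 316, .ofNat 72, .negSucc 117, .ofNat 48⟩, ⟨.ofNat 1517, .ofNat 297, .negSucc 85, .ofNat 38, .ofNat 260, .negSucc 75⟩, ⟨.negSucc 5198, .negSucc 682, .ofNat 146, .negSucc 506, .negSucc 786, .ofNat 105⟩, ⟨.ofNat 1525, .ofNat 381, .negSucc 75, .ofNat 1324, .ofNat 219, .ofNat 173⟩, .ofNat 316, .negSucc 139, .ofNat 0, .negSucc 139, .ofNat 665, .ofNat 0, .ofNat 446, .ofNat 251, .negSucc 498, .ofNat 0, .ofNat 241, .negSucc 62, .ofNat 0, .ofNat 0, .ofNat 593, .ofNat 3832, .ofNat 0, .ofNat 6143326905329161165165140927892684800, .ofNat 1306088760173233359100862634393600, .ofNat 0, .ofNat 0, .ofNat 29740883440838634082392120122513817600,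 .ofNat 91025561128288215729015571768934400, .ofNat 0, .ofNat 0, .ofNat 66475751226168328014594135476404224000, .ofNat 60460458661358642149297143939072000, .ofNat 0, .ofNat 0, .ofNat 28170641599133967623762201775439872000, .ofNat 28349127839538629750584141833830400, .ofNat 0⟩)
    (by decide +kernel)
theorem L00385 : Good (Phi V4.P V4.D 1 1) ⟨4, 13, 3, 1, 1, 1, 2, 2, 3, 1⟩ :=
  out_sound (S := T4.ds_pp) T4.ok_pp (w := 56) (j := 3) (by decide +kernel)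
theorem L00386 : Good (Phi V4.P V4.D 1 1) ⟨3, 7, 3, 1, 1, 1, 2, 2, 3, 1⟩ :=
  out_sound (S := T4.ds_pp) T4.ok_pp (w := 48) (j := 3) (by decide +kernel)
theorem L00387 : Good (Phi V4.P V4.D 1 1) ⟨3, 4, 3, 1, 1, 1, 2, 3, 2, 0⟩ :=
  out_sound (S := T4.ds_pp) T4.ok_pp (w := 48) (j := 3) (by decide +kernel)
theorem L00388 : Good (Phi V4.P V4.D 1 1) ⟨4, 10, 3, 1, 2, 2, 2, 3, 2, 0⟩ :=
  leaf_sound (S := T4.ds_pp) T4.ok_pp (w := 176) (c := ⟨⟨.negSucc 578, .ofNat 0, .ofNat 615, .negSucc 832, .negSucc 269, .negSucc 886⟩, ⟨.negSucc 124, .ofNat 0, .ofNat 98, .negSucc 149, .negSucc 53, .negSucc 170⟩, ⟨.ofNat 295, .ofNat 0, .negSucc 477, .ofNat 571, .negSucc 12, .ofNat 459⟩, ⟨.negSucc 1003, .ofNat 0, .ofNat 1183, .negSucc 1665, .negSucc 505, .negSucc 1696⟩, ⟨.negSucc 301, .ofNat 0, .negSucc 266, .ofNat 657, .ofNat 42, .ofNat 317⟩, .ofNat 848, .negSucc 1862, .ofNat 0, .negSucc 1862, .ofNat 9213, .ofNat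 0, .ofNat 267, .ofNat 285, .negSucc 438, .ofNat 0, .ofNat 109, .negSucc 84, .ofNat 0, .ofNat 0, .ofNat 601, .ofNat 554, .ofNat 0, .ofNat 0, .ofNat 6236543060827066443025612800, .ofNat 0, .ofNat 0, .ofNat 0, .ofNat 0, .ofNat 0, .ofNat 0, .ofNat 9281418880289713585375025509171200, .ofNat 865336555912040059174177996800, .ofNat 0, .ofNat 0, .ofNat 0, .ofNat 609167350988297662745699942400, .ofNat 0⟩)
    (by decide +kernel)
theorem L00389 : Good (Phi V4.P V4.D 1 1) ⟨4, 11, 3, 1, 2, 2, 2, 3, 3, 0⟩ :=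
  leaf_sound (S := T4.ds_pp) T4.ok_pp (w := 176) (c := ⟨⟨.negSucc 505, .negSucc 442, .ofNat 221, .negSucc 719, .negSucc 181, .negSucc 751⟩, ⟨.negSucc 78, .negSucc 154, .negSucc 74, .negSucc 150, .negSucc 42, .negSucc 173⟩, ⟨.ofNat 217, .ofNat 347, .negSucc 233, .ofNat 524, .negSucc 109, .ofNat 467⟩, ⟨.negSucc 937, .negSucc 613, .ofNat 375, .negSucc 1422, .negSucc 308, .negSucc 1372⟩, ⟨.negSucc 242, .ofNat 77, .negSucc 17, .ofNat 593, .negSucc 9, .ofNat 180⟩, .ofNat 458, .negSucc 350, .ofNat 0, .negSucc 350, .ofNat 1659, .ofNat 0, .ofNat 359, .ofNat 258, .negSucc 635, .ofNat 0, .ofNat 181, .negSucc 130, .ofNat 0, .ofNat 0, .ofNat 740, .ofNat 516, .ofNat 0, .ofNat 0, .ofNat 0, .ofNat 0, .ofNat 0, .ofNat 0, .ofNat 0, .ofNat 0, .ofNat 0, .ofNat 0, .ofNat 0, .ofNat 0, .ofNat 0, .ofNat 0, .ofNat 0, .ofNat 0⟩)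
    (by decide +kernel)
theorem L00390 : Good (Phi V4.P V4.D 1 1) ⟨5, 22, 3, 1, 2, 2, 2, 3, 3, 1⟩ :=
  leaf_sound (S := T4.ds_pp) T4.ok_pp (w := 176) (c := ⟨⟨.negSucc 1031, .negSucc 214, .ofNat 173, .negSucc 1001, .negSucc 363, .negSucc 248⟩, ⟨.negSucc 203, .negSucc 78, .negSucc 118, .negSucc 190, .negSucc 77, .negSucc 49⟩, ⟨.ofNat 551, .ofNat 148, .negSucc 167, .ofNat 610, .ofNat 153, .ofNat 96⟩, ⟨.negSucc 1876, .negSucc 290, .ofNat 295, .negSucc 1977, .negSucc 663, .negSucc 481⟩, ⟨.negSucc 189, .ofNat 58, .negSucc 35, .ofNat 755, .ofNat 34, .ofNat 148⟩, .ofNat 454, .negSucc 334, .ofNat 0, .negSucc 334, .ofNat 1805, .ofNat 0, .ofNat 324, .ofNat 207, .negSucc 437, .ofNat 0, .ofNat 146, .negSucc 77, .ofNat 0, .ofNat 0, .ofNat 587, .ofNat 875, .ofNat 0, .ofNat 15074719260610936330493352109670400, .ofNat 0, .ofNat 0, .ofNat 0, .ofNat 900693089979059460363182307016704000, .ofNat 0, .ofNat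 0, .ofNat 0, .ofNat 1243722344589252864777568138769203200, .ofNat 0, .ofNat 0, .ofNat 0, .ofNat 1031537512920109197227085501825024000, .ofNat 0, .ofNat 0⟩)
    (by decide +kernel)
theorem L00391 : Good (Phi V4.P V4.D 1 1) ⟨5, 23, 3, 1, 2, 2, 3, 6, 3, 1⟩ :=
  leaf_sound (S := T4.ds_pp) T4.ok_pp (w := 184) (c := ⟨⟨.negSucc 1174, .negSucc 226, .ofNat 115, .negSucc 1051, .negSucc 240, .negSucc 278⟩, ⟨.negSucc 244, .negSucc 95, .negSucc 149, .negSucc 222, .negSucc 64, .negSucc 56⟩, ⟨.ofNat 645, .ofNat 158, .negSucc 127, .ofNat 635, .ofNat 122, .ofNat 135⟩, ⟨.negSucc 2071, .negSucc 295, .ofNat 181, .negSucc 2039, .negSucc 414, .negSucc 511⟩, ⟨.negSucc 107, .ofNat 58, .negSucc 29, .ofNat 785, .negSucc 22, .ofNat 105⟩, .ofNat 455, .negSucc 338, .ofNat 0, .negSucc 338, .ofNat 1562, .ofNat 0, .ofNat 329, .ofNat 230, .negSucc 489, .ofNat 0, .ofNat 168, .negSucc 101, .ofNat 0, .ofNat 0, .ofNat 620,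 .ofNat 1771, .ofNat 0, .ofNat 0, .ofNat 0, .ofNat 0, .ofNat 0, .ofNat 0, .ofNat 0, .ofNat 0, .ofNat 0, .ofNat 0, .ofNat 0, .ofNat 0, .ofNat 0, .ofNat 0, .ofNat 0, .ofNat 0⟩)
    (by decide +kernel)
theorem L00392 : Good (Phi V4.P V4.D 1 1) ⟨5, 23, 3, 1, 2, 2, 3, 7, 3, 1⟩ :=
  leaf_sound (S := T4.ds_pp) T4.ok_pp (w := 184) (c := ⟨⟨.negSucc 1216, .negSucc 315, .ofNat 173, .negSucc 1309, .negSucc 261, .negSucc 412⟩, ⟨.negSucc 249, .negSucc 119, .negSucc 119, .negSucc 300, .negSucc 66, .negSucc 98⟩, ⟨.ofNat 599, .ofNat 234, .negSucc 176, .ofNat 820, .ofNat 138, .ofNat 288⟩, ⟨.negSucc 2153, .negSucc 437, .ofNat 285, .negSucc 2472, .negSucc 461, .negSucc 751⟩, ⟨.negSucc 95, .ofNat 34, .negSucc 13, .ofNat 714, .ofNat 26, .ofNat 129⟩, .ofNat 461, .negSucc 358, .ofNat 0, .negSucc 358, .ofNat 1608, .ofNat 0, .ofNat 652, .ofNat 475, .negSucc 1151, .ofNat 0, .ofNat 341, .negSucc 266, .ofNat 0, .ofNat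 0, .ofNat 1340, .ofNat 1757, .ofNat 0, .ofNat 277093098856892764733242959986688000, .ofNat 0, .ofNat 0, .ofNat 0, .ofNat 19318158053509928289787309305574195200, .ofNat 0, .ofNat 0, .ofNat 0, .ofNat 18813760210969934801271299246968012800, .ofNat 0, .ofNat 0, .ofNat 0, .ofNat 18063156852260654505316143383288217600, .ofNat 0, .ofNat 0⟩)
    (by decide +kernel)
theorem L00393 : Good (Phi V4.P V4.D 1 1) ⟨3, 5, 3, 1, 2, 3, 2, 3, 3, 0⟩ :=
  leaf_sound (S := T4.ds_pp) T4.ok_pp (w := 168) (c := ⟨⟨.negSucc 84, .negSucc 1127, .ofNat 77, .negSucc 521, .negSucc 562, .negSucc 1603⟩, ⟨.ofNat 61, .negSucc 309, .negSucc 224, .negSucc 72, .negSucc 122, .negSucc 360⟩, ⟨.ofNat 84, .ofNat 675, .negSucc 80, .ofNat 326, .ofNat 203, .ofNat 853⟩, ⟨.negSucc 375, .negSucc 1683, .ofNat 27, .negSucc 1269, .negSucc 1064, .negSucc 2991⟩, ⟨.negSucc 275, .ofNat 432, .ofNat 94, .ofNat 1409, .ofNat 250, .ofNat 569⟩, .ofNat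 458, .negSucc 349, .ofNat 0, .negSucc 349, .ofNat 1699, .ofNat 0, .ofNat 420, .ofNat 387, .negSucc 692, .ofNat 0, .ofNat 212, .negSucc 134, .ofNat 0, .ofNat 0, .ofNat 688, .ofNat 464, .ofNat 0, .ofNat 0, .ofNat 0, .ofNat 0, .ofNat 0, .ofNat 0, .ofNat 0, .ofNat 0, .ofNat 0, .ofNat 1544332991186195647409706290380800, .ofNat 0, .ofNat 0, .ofNat 0, .ofNat 0, .ofNat 0, .ofNat 0⟩)
    (by decide +kernel)
theorem L00394 : Good (Phi V4.P V4.D 1 1) ⟨3, 5, 3, 1, 2, 3, 3, 6, 4, 2⟩ :=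
  leaf_sound (S := T4.ds_pp) T4.ok_pp (w := 176) (c := ⟨⟨.negSucc 1215, .negSucc 1388, .ofNat 266, .negSucc 787, .negSucc 469, .negSucc 187⟩, ⟨.negSucc 200, .negSucc 337, .negSucc 266, .negSucc 99, .negSucc 110, .negSucc 28⟩, ⟨.ofNat 699, .ofNat 774, .negSucc 148, .ofNat 389, .ofNat 255, .ofNat 89⟩, ⟨.negSucc 2540, .negSucc 1981, .ofNat 310, .negSucc 1926, .negSucc 879, .negSucc 428⟩, ⟨.negSucc 130, .ofNat 497, .ofNat 65, .ofNat 2146, .ofNat 183, .ofNat 383⟩, .ofNat 459, .negSucc 351, .ofNat 0, .negSucc 351, .ofNat 1704, .ofNat 0, .ofNat 399, .ofNat 333, .negSucc 508, .ofNat 0, .ofNat 191, .negSucc 92, .ofNat 0, .ofNat 0, .ofNat 592, .ofNat 1329, .ofNat 0, .ofNat 1158001213828515601645104109977600, .ofNat 0, .ofNat 0, .ofNat 0, .ofNat 0, .ofNat 398686867848666413207463238041600, .ofNat 0, .ofNat 0, .ofNat 24475376855182902382866053726208000, .ofNat 0, .ofNat 0, .ofNat 0, .ofNat 0, .ofNat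 0, .ofNat 0⟩)
    (by decide +kernel)
theorem L00395 : Good (Phi V4.P V4.D 1 1) ⟨3, 5, 3, 1, 2, 3, 3, 6, 4, 3⟩ :=
  leaf_sound (S := T4.ds_pp) T4.ok_pp (w := 176) (c := ⟨⟨.negSucc 1632, .negSucc 1058, .ofNat 182, .negSucc 872, .negSucc 397, .negSucc 46⟩, ⟨.negSucc 270, .negSucc 294, .negSucc 269, .negSucc 113, .negSucc 95, .ofNat 1⟩, ⟨.ofNat 887, .ofNat 629, .negSucc 130, .ofNat 437, .ofNat 226, .negSucc 9⟩, ⟨.negSucc 3351, .negSucc 1433, .ofNat 212, .negSucc 2065, .negSucc 749, .negSucc 116⟩, ⟨.ofNat 225, .ofNat 536, .negSucc 53, .ofNat 2075, .ofNat 140, .ofNat 148⟩, .ofNat 459, .negSucc 353, .ofNat 0, .negSucc 353, .ofNat 1676, .ofNat 0, .ofNat 364, .ofNat 282, .negSucc 431, .ofNat 0, .ofNat 175, .negSucc 80, .ofNat 0, .ofNat 0, .ofNat 560, .ofNat 1029, .ofNat 0, .ofNat 1972866956907590877164011624857600, .ofNat 0, .ofNat 0, .ofNat 0, .ofNat 0, .ofNat 0, .ofNat 0, .ofNat 0, .ofNat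 61410230003649581111877051403468800, .ofNat 0, .ofNat 0, .ofNat 0, .ofNat 0, .ofNat 0, .ofNat 0⟩)
    (by decide +kernel)
theorem L00396 : Good (Phi V4.P V4.D 1 1) ⟨3, 5, 3, 1, 2, 3, 3, 7, 3, 1⟩ :=
  leaf_sound (S := T4.ds_pp) T4.ok_pp (w := 176) (c := ⟨⟨.negSucc 1224, .negSucc 1709, .ofNat 267, .negSucc 1136, .negSucc 485, .negSucc 797⟩, ⟨.negSucc 159, .negSucc 485, .negSucc 260, .negSucc 170, .negSucc 99, .negSucc 151⟩, ⟨.ofNat 683, .ofNat 977, .negSucc 187, .ofNat 586, .ofNat 248, .ofNat 435⟩, ⟨.negSucc 2703, .negSucc 2468, .ofNat 372, .negSucc 2502, .negSucc 880, .negSucc 1509⟩, ⟨.ofNat 257, .ofNat 346, .negSucc 37, .ofNat 2040, .ofNat 127, .ofNat 427⟩, .ofNat 455, .negSucc 339, .ofNat 0, .negSucc 339, .ofNat 1690, .ofNat 0, .ofNat 816, .ofNat 680, .negSucc 1250, .ofNat 0, .ofNat 391, .negSucc 242, .ofNat 0, .ofNat 0, .ofNat 1295, .ofNat 2136, .ofNat 0, .ofNat 2983530941739164193367357233561600,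 .ofNat 0, .ofNat 0, .ofNat 0, .ofNat 129971464172771440319257165745356800, .ofNat 90154039789933680111671417241600, .ofNat 0, .ofNat 0, .ofNat 96531492505210380392352545400422400, .ofNat 0, .ofNat 0, .ofNat 0, .ofNat 107923094631971167899495561795993600, .ofNat 89297822737890303974462560665600, .ofNat 0⟩)
    (by decide +kernel)
theorem L00397 : Good (Phi V4.P V4.D 1 1) ⟨4, 12, 3, 1, 2, 2, 2, 3, 3, 0⟩ :=
  leaf_sound (S := T4.ds_pp) T4.ok_pp (w := 176) (c := ⟨⟨.negSucc 755, .negSucc 463, .ofNat 195, .negSucc 845, .negSucc 193, .negSucc 1018⟩, ⟨.negSucc 128, .negSucc 203, .negSucc 74, .negSucc 232, .negSucc 59, .negSucc 308⟩, ⟨.ofNat 478, .ofNat 297, .negSucc 213, .ofNat 564, .negSucc 108, .ofNat 649⟩, ⟨.negSucc 1238, .negSucc 612, .ofNat 299, .negSucc 1627, .negSucc 308, .negSucc 1781⟩, ⟨.negSucc 227, .ofNat 74, .ofNat 50, .ofNat 646, .negSucc 59, .ofNat 219⟩, .ofNat 648, .negSucc 781,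 .ofNat 0, .negSucc 781, .ofNat 2556, .ofNat 0, .ofNat 309, .ofNat 342, .negSucc 703, .ofNat 0, .ofNat 202, .negSucc 209, .ofNat 0, .ofNat 0, .ofNat 776, .ofNat 374, .ofNat 0, .ofNat 21549167564547242976651037900800, .ofNat 1500767160266601123545088000, .ofNat 0, .ofNat 0, .ofNat 22166344724008947970170131841024000, .ofNat 1054449576707511074059557273600, .ofNat 0, .ofNat 0, .ofNat 8561229726621420645106819321036800, .ofNat 991369117834135564257224294400, .ofNat 0, .ofNat 0, .ofNat 36600990093363639840701656596480000, .ofNat 250030415801772107691039129600, .ofNat 0⟩)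
    (by decide +kernel)
theorem L00398 : Good (Phi V4.P V4.D 1 1) ⟨5, 24, 3, 1, 2, 3, 2, 3, 3, 0⟩ :=
  leaf_sound (S := T4.ds_pp) T4.ok_pp (w := 184) (c := ⟨⟨.negSucc 827, .negSucc 389, .ofNat 176, .negSucc 830, .negSucc 894, .negSucc 1897⟩, ⟨.negSucc 81, .negSucc 157, .negSucc 188, .negSucc 135, .negSucc 265, .negSucc 530⟩, ⟨.ofNat 597, .ofNat 241, .negSucc 137, .ofNat 425, .ofNat 351, .ofNat 996⟩, ⟨.negSucc 1420, .negSucc 528, .ofNat 232, .negSucc 1915, .negSucc 1555, .negSucc 3428⟩, ⟨.ofNat 48, .ofNat 17, .negSucc 43, .ofNat 1634, .ofNat 157, .ofNat 755⟩, .ofNat 472, .negSucc 384, .ofNat 0, .negSucc 384, .ofNat 1438, .ofNat 0, .ofNat 406, .ofNat 463, .negSucc 836, .ofNat 0, .ofNat 266, .negSucc 219, .ofNat 0, .ofNat 0, .ofNat 744, .ofNat 538, .ofNat 0, .ofNat 16697656792196838241388735968051200, .ofNat 744979295893311543155097600, .ofNat 0, .ofNat 0, .ofNat 667622460425934110519770745300582400,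 .ofNat 174218031759008342841753600000, .ofNat 0, .ofNat 0, .ofNat 194655965645485407351245892275404800, .ofNat 130443091074732259154696601600, .ofNat 0, .ofNat 0, .ofNat 283667548214610404448746529934540800, .ofNat 50202106332686212684736102400, .ofNat 0⟩)
    (by decide +kernel)
theorem L00399 : Good (Phi V4.P V4.D 1 1) ⟨5, 25, 3, 1, 2, 3, 2, 3, 3, 0⟩ :=
  leaf_sound (S := T4.ds_pp) T4.ok_pp (w := 184) (c := ⟨⟨.negSucc 1821, .ofNat 260, .ofNat 757, .negSucc 793, .negSucc 887, .negSucc 1936⟩, ⟨.negSucc 481, .ofNat 115, .ofNat 128, .negSucc 153, .negSucc 304, .negSucc 618⟩, ⟨.ofNat 1134, .negSucc 124, .negSucc 427, .ofNat 404, .ofNat 344, .ofNat 1020⟩, ⟨.negSucc 3023, .ofNat 172, .ofNat 1196, .negSucc 1870, .negSucc 1473, .negSucc 3426⟩, ⟨.ofNat 99, .ofNat 938, .ofNat 92, .ofNat 1620, .ofNat 14, .ofNat 652⟩, .ofNat 812, .negSucc 1138, .ofNat 0, .negSucc 1138, .ofNat 3323, .ofNat 0, .ofNat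 329, .ofNat 514, .negSucc 798, .ofNat 0, .ofNat 265, .negSucc 258, .ofNat 0, .ofNat 0, .ofNat 726, .ofNat 571, .ofNat 0, .ofNat 9181791773889180407335913678438400, .ofNat 6123386944517262438039552000, .ofNat 0, .ofNat 0, .ofNat 238922409800075842014182905164595200, .ofNat 4271973264761294008336829644800, .ofNat 0, .ofNat 0, .ofNat 0, .ofNat 1588445276175842796405522432000, .ofNat 0, .ofNat 0, .ofNat 555442023222873549509531602098585600, .ofNat 212687540559522965570243788800, .ofNat 0⟩)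
    (by decide +kernel)
theorem L00400 : Good (Phi V4.P V4.D 1 1) ⟨4, 13, 3, 1, 1, 1, 2, 3, 3, 0⟩ :=
  out_sound (S := T4.ds_pp) T4.ok_pp (w := 56) (j := 3) (by decide +kernel)
theorem L00401 : Good (Phi V4.P V4.D 1 1) ⟨4, 12, 3, 1, 3, 4, 3, 6, 3, 1⟩ :=
  leaf_sound (S := T4.ds_pp) T4.ok_pp (w := 192) (c := ⟨⟨.negSucc 1413, .negSucc 475, .ofNat 118, .negSucc 511, .negSucc 225, .negSucc 259⟩, ⟨.negSucc 319, .negSucc 220, .negSucc 106, .negSucc 140, .negSucc 71, .negSucc 79⟩, ⟨.ofNat 801, .ofNat 374, .negSucc 132, .ofNat 316, .ofNat 115, .ofNat 142⟩, ⟨.negSucc 2427, .negSucc 604, .ofNat 194, .negSucc 957, .negSucc 374, .negSucc 463⟩, ⟨.ofNat 4, .ofNat 100, .negSucc 24, .ofNat 297, .negSucc 14, .ofNat 84⟩, .ofNat 475, .negSucc 391, .ofNat 0, .negSucc 391, .ofNat 1454, .ofNat 0, .ofNat 593, .ofNat 482, .negSucc 1008, .ofNat 0, .ofNat 359, .negSucc 270, .ofNat 0, .ofNat 0, .ofNat 1271, .ofNat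 5040, .ofNat 0, .ofNat 0, .ofNat 0, .ofNat 0, .ofNat 0, .ofNat 19379838606765857843194866371552870400, .ofNat 24756640402056369433363313432985600, .ofNat 0, .ofNat 0, .ofNat 26005314360730492670467928097816576000, .ofNat 21303484847534797627529216655360000, .ofNat 0, .ofNat 0, .ofNat 10384902752519525066703213813773107200, .ofNat 17501380827634915482829291152998400, .ofNat 0⟩)
    (by decide +kernel)
theorem L00402 : Good (Phi V4.P V4.D 1 1) ⟨4, 12, 3, 1, 3, 5, 3, 6, 4, 2⟩ :=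
  leaf_sound (S := T4.ds_pp) T4.ok_pp (w := 192) (c := ⟨⟨.negSucc 1785, .negSucc 652, .ofNat 170, .negSucc 675, .negSucc 356, .negSucc 233⟩, ⟨.negSucc 367, .negSucc 272, .negSucc 158, .negSucc 179, .negSucc 117, .negSucc 64⟩, ⟨.ofNat 1072, .ofNat 438, .negSucc 162, .ofNat 380, .ofNat 175, .ofNat 109⟩, ⟨.negSucc 3128, .negSucc 888, .ofNat 259, .negSucc 1298, .negSucc 592, .negSucc 417⟩, ⟨.ofNat 260, .ofNat 166, .negSucc 35, .ofNat 522, .negSucc 26, .ofNat 86⟩, .ofNat 474, .negSucc 389, .ofNat 0, .negSucc 389, .ofNat 1439, .ofNat 0, .ofNat 668, .ofNat 601, .negSucc 1173, .ofNat 0, .ofNat 406, .negSucc 306, .ofNat 0, .ofNat 0, .ofNat 1331, .ofNat 4959, .ofNat 0, .ofNat 9973843028265634029691225598066688000, .ofNat 6472488385792525180906829669990400, .ofNat 0, .ofNat 0, .ofNat 270819540726602051582241949331383910400, .ofNat 304956983960757887657144883137740800, .ofNat 0, .ofNat 0, .ofNat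 70337215667911175156837486653813555200, .ofNat 279632708186118916031257654591488000, .ofNat 0, .ofNat 0, .ofNat 175669021561715563164967781672996044800, .ofNat 143497872194167128882265935210086400, .ofNat 0⟩)
    (by decide +kernel)
theorem L00403 : Good (Phi V4.P V4.D 1 1) ⟨4, 12, 3, 1, 3, 5, 3, 6, 4, 3⟩ :=
  leaf_sound (S := T4.ds_pp) T4.ok_pp (w := 192) (c := ⟨⟨.negSucc 1971, .negSucc 619, .ofNat 165, .negSucc 657, .negSucc 465, .negSucc 70⟩, ⟨.negSucc 401, .negSucc 257, .negSucc 181, .negSucc 174, .negSucc 150, .negSucc 23⟩, ⟨.ofNat 1142, .ofNat 411, .negSucc 157, .ofNat 353, .ofNat 280, .ofNat 14⟩, ⟨.negSucc 3456, .negSucc 812, .ofNat 243, .negSucc 1281, .negSucc 780, .negSucc 134⟩, ⟨.ofNat 311, .ofNat 158, .negSucc 28, .ofNat 553, .negSucc 1, .ofNat 48⟩, .ofNat 477, .negSucc 395, .ofNat 0, .negSucc 395, .ofNat 1455, .ofNat 0, .ofNat 312, .ofNat 275, .negSucc 490, .ofNat 0, .ofNat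 189, .negSucc 129, .ofNat 0, .ofNat 0, .ofNat 602, .ofNat 2017, .ofNat 0, .ofNat 6436358579615254637740036237924761600, .ofNat 509110470124701942680606107238400, .ofNat 0, .ofNat 0, .ofNat 178473103569604742318654518868941209600, .ofNat 32469628502660383287799696274227200, .ofNat 0, .ofNat 0, .ofNat 46957743795020288560513459357011148800, .ofNat 61262308985038018291860173645414400, .ofNat 0, .ofNat 0, .ofNat 91190712413689476298134819395390668800, .ofNat 48443241793422637979853016950374400, .ofNat 0⟩)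
    (by decide +kernel)
theorem L00404 : Good (Phi V4.P V4.D 1 1) ⟨5, 24, 3, 1, 3, 4, 3, 7, 3, 1⟩ :=
  leaf_sound (S := T4.ds_pp) T4.ok_pp (w := 192) (c := ⟨⟨.negSucc 1498, .negSucc 317, .ofNat 161, .negSucc 668, .negSucc 359, .negSucc 388⟩, ⟨.negSucc 328, .negSucc 143, .negSucc 107, .negSucc 196, .negSucc 115, .negSucc 117⟩, ⟨.ofNat 800, .ofNat 246, .negSucc 175, .ofNat 427, .ofNat 227, .ofNat 289⟩, ⟨.negSucc 2577, .negSucc 423, .ofNat 265, .negSucc 1209, .negSucc 599, .negSucc 683⟩, ⟨.negSucc 2, .ofNat 31, .negSucc 7, .ofNat 266, .negSucc 13, .ofNat 94⟩, .ofNat 642, .negSucc 769, .ofNat 0, .negSucc 769, .ofNat 2565, .ofNat 0, .ofNat 1094, .ofNat 1128, .negSucc 2335, .ofNat 0, .ofNat 688, .negSucc 709, .ofNat 0, .ofNat 0, .ofNat 2722, .ofNat 3519, .ofNat 0, .ofNat 63953671368872394384469070191578316800, .ofNat 0, .ofNat 0, .ofNat 0, .ofNat 6630854201703883585114064619715952640000, .ofNat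 19949289522255719926735378474598400, .ofNat 0, .ofNat 0, .ofNat 4279790697200080338554711161973401190400, .ofNat 0, .ofNat 0, .ofNat 0, .ofNat 11121773124962218032529378388213760000000, .ofNat 0, .ofNat 0⟩)
    (by decide +kernel)
theorem L00405 : Good (Phi V4.P V4.D 1 1) ⟨5, 25, 3, 1, 3, 4, 3, 7, 3, 1⟩ :=
  leaf_sound (S := T4.ds_pp) T4.ok_pp (w := 192) (c := ⟨⟨.negSucc 1538, .negSucc 220, .negSucc 63, .negSucc 707, .negSucc 437, .negSucc 445⟩, ⟨.negSucc 435, .negSucc 119, .negSucc 114, .negSucc 222, .negSucc 153, .negSucc 146⟩, ⟨.ofNat 802, .ofNat 192, .ofNat 36, .ofNat 441, .ofNat 286, .ofNat 332⟩, ⟨.negSucc 2574, .negSucc 314, .negSucc 81, .negSucc 1268, .negSucc 712, .negSucc 769⟩, ⟨.ofNat 53, .ofNat 43, .negSucc 38, .ofNat 288, .negSucc 31, .ofNat 93⟩, .ofNat 833, .negSucc 1189, .ofNat 0, .negSucc 1189, .ofNat 3459, .ofNat 0, .ofNat 1041, .ofNat 1217, .negSucc 2434, .ofNat 0, .ofNat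 733, .negSucc 819, .ofNat 0, .ofNat 0, .ofNat 2780, .ofNat 4166, .ofNat 0, .ofNat 99134554457105568312513907862274048000, .ofNat 556516408251269945111576208998400, .ofNat 0, .ofNat 0, .ofNat 9454937725805049026278197411733674393600, .ofNat 315971737245974027824396941813350400, .ofNat 0, .ofNat 0, .ofNat 6024579761763821215746560177230734950400, .ofNat 338748366053814362789813142788505600, .ofNat 0, .ofNat 0, .ofNat 11991813078023088661393338276376687411200, .ofNat 32421193079606722013739712354713600, .ofNat 0⟩)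
    (by decide +kernel)
theorem L00406 : Good (Phi V4.P V4.D 1 1) ⟨5, 24, 3, 1, 3, 5, 3, 7, 4, 2⟩ :=
  leaf_sound (S := T4.ds_pp) T4.ok_pp (w := 200) (c := ⟨⟨.negSucc 2035, .negSucc 454, .ofNat 269, .negSucc 814, .negSucc 568, .negSucc 345⟩, ⟨.negSucc 436, .negSucc 187, .negSucc 137, .negSucc 224, .negSucc 182, .negSucc 101⟩, ⟨.ofNat 1177, .ofNat 314, .negSucc 245, .ofNat 460, .ofNat 331, .ofNat 211⟩, ⟨.negSucc 3555, .negSucc 634, .ofNat 427, .negSucc 1525, .negSucc 935, .negSucc 611⟩, ⟨.ofNat 254, .ofNat 62, .negSucc 33, .ofNat 493, .negSucc 57, .ofNat 93⟩, .ofNat 478, .negSucc 399, .ofNat 0, .negSucc 399, .ofNat 1461, .ofNat 0, .ofNat 1369, .ofNat 1281, .negSucc 2859, .ofNat 0, .ofNat 848, .negSucc 806, .ofNat 0, .ofNat 0, .ofNat 2931, .ofNat 4038, .ofNat 0, .ofNat 459755807187495549250103672550142771200, .ofNat 0, .ofNat 0, .ofNat 0, .ofNat 40194597388980200102851046291273259417600,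 .ofNat 0, .ofNat 0, .ofNat 0, .ofNat 39185519577307470020758615164630702489600, .ofNat 0, .ofNat 0, .ofNat 0, .ofNat 62507667119397734556531155212778550067200, .ofNat 0, .ofNat 0⟩)
    (by decide +kernel)
theorem L00407 : Good (Phi V4.P V4.D 1 1) ⟨5, 25, 4, 2, 3, 5, 3, 7, 4, 2⟩ :=
  out_sound (S := T4.ds_pp) T4.ok_pp (w := 64) (j := 3) (by decide +kernel)
theorem L00408 : Good (Phi V4.P V4.D 1 1) ⟨5, 25, 4, 3, 3, 5, 3, 7, 4, 2⟩ :=
  leaf_sound (S := T4.ds_pp) T4.ok_pp (w := 200) (c := ⟨⟨.negSucc 2009, .negSucc 234, .negSucc 166, .negSucc 881, .negSucc 698, .negSucc 358⟩, ⟨.negSucc 571, .negSucc 117, .negSucc 158, .negSucc 265, .negSucc 244, .negSucc 116⟩, ⟨.ofNat 1143, .ofNat 225, .ofNat 77, .ofNat 484, .ofNat 419, .ofNat 225⟩, ⟨.negSucc 3415, .negSucc 290, .negSucc 282, .negSucc 1634, .negSucc 1135, .negSucc 622⟩, ⟨.ofNat 268, .negSucc 21, .ofNat 16, .ofNat 512, .negSucc 57, .ofNat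 86⟩, .ofNat 763, .negSucc 1022, .ofNat 0, .negSucc 1022, .ofNat 3020, .ofNat 0, .ofNat 1153, .ofNat 1472, .negSucc 2755, .ofNat 0, .ofNat 833, .negSucc 915, .ofNat 0, .ofNat 0, .ofNat 2860, .ofNat 6370, .ofNat 0, .ofNat 2902733498353074476507889848962095513600, .ofNat 0, .ofNat 0, .ofNat 0, .ofNat 168541704453611037617989743488128568524800, .ofNat 5831561569255817018704368810275635200, .ofNat 0, .ofNat 0, .ofNat 191782669038709494258348252835840052428800, .ofNat 3986447396480706748777827392500531200, .ofNat 0, .ofNat 0, .ofNat 260588338844268389331792584247784715059200, .ofNat 721933253775121612944201782132736000, .ofNat 0⟩)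
    (by decide +kernel)
theorem L00409 : Good (Phi V4.P V4.D 1 1) ⟨4, 12, 3, 1, 3, 5, 3, 7, 4, 3⟩ :=
  leaf_sound (S := T4.ds_pp) T4.ok_pp (w := 192) (c := ⟨⟨.negSucc 2360, .negSucc 807, .ofNat 218, .negSucc 797, .negSucc 553, .negSucc 190⟩, ⟨.negSucc 533, .negSucc 337, .negSucc 154, .negSucc 217, .negSucc 172, .negSucc 52⟩, ⟨.ofNat 1370, .ofNat 563, .negSucc 208, .ofNat 443, .ofNat 365, .ofNat 124⟩, ⟨.negSucc 4129, .negSucc 1100, .ofNat 345, .negSucc 1502, .negSucc 915, .negSucc 336⟩, ⟨.ofNat 333, .ofNat 130, .negSucc 27, .ofNat 501, .negSucc 52, .ofNat 42⟩, .ofNat 316, .negSucc 139, .ofNat 0, .negSucc 139, .ofNat 663, .ofNat 0, .ofNat 1605, .ofNat 965, .negSucc 3626, .ofNat 0, .ofNat 959, .negSucc 817, .ofNat 0, .ofNat 0, .ofNat 3387, .ofNat 5044, .ofNat 0, .ofNat 68341594672627478469070291141971148800, .ofNat 7073526096784332514947156148224000, .ofNat 0, .ofNat 0, .ofNat 9583167146487405345786206138516530790400,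 .ofNat 0, .ofNat 0, .ofNat 0, .ofNat 8155055256306805741657618949263589376000, .ofNat 0, .ofNat 0, .ofNat 0, .ofNat 10428710406810965522132904689653304524800, .ofNat 459261433751447776441040553325363200, .ofNat 0⟩)
    (by decide +kernel)
theorem L00410 : Good (Phi V4.P V4.D 1 1) ⟨5, 24, 3, 1, 3, 6, 3, 6, 4, 2⟩ :=
  leaf_sound (S := T4.ds_pp) T4.ok_pp (w := 200) (c := ⟨⟨.negSucc 2379, .negSucc 369, .ofNat 203, .negSucc 676, .negSucc 531, .negSucc 268⟩, ⟨.negSucc 462, .negSucc 137, .negSucc 236, .negSucc 155, .negSucc 165, .negSucc 75⟩, ⟨.ofNat 1404, .ofNat 229, .negSucc 159, .ofNat 331, .ofNat 266, .ofNat 119⟩, ⟨.negSucc 4238, .negSucc 499, .ofNat 271, .negSucc 1411, .negSucc 899, .negSucc 508⟩, ⟨.ofNat 699, .ofNat 105, .negSucc 37, .ofNat 847, .ofNat 16, .ofNat 172⟩, .ofNat 478, .negSucc 399, .ofNat 0, .negSucc 399, .ofNat 1469, .ofNat 0, .ofNat 719, .ofNat 719, .negSucc 1232, .ofNat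 0, .ofNat 440, .negSucc 317, .ofNat 0, .ofNat 0, .ofNat 1309, .ofNat 3947, .ofNat 0, .ofNat 186996378206079485745684151925735424000, .ofNat 852739389089631575973529701580800, .ofNat 0, .ofNat 0, .ofNat 7911939390422487345239942160718390886400, .ofNat 31166730806673495120039727910092800, .ofNat 0, .ofNat 0, .ofNat 0, .ofNat 0, .ofNat 0, .ofNat 0, .ofNat 0, .ofNat 0, .ofNat 0⟩)
    (by decide +kernel)

end Crest.Agent.R097C4.N4pp
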