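import Crest.Agent.R097.T4

/-!
# Row 97, box cover in dimension n = 4 (generated)
-/

set_option autoImplicit false
set_option Elab.async false
set_option maxHeartbeats 0
set_option maxRecDepth 100000

open Crest.Agent.R097 Crest.Agent.R097.KA


namespace Crest.Agent.R097C4.N4pp

theorem L00411 : Good (Phi V4.P V4.D 1 1) ⟨5, 24, 3, 1, 3, 6, 3, 6, 4, 3⟩ :=
  leaf_sound (S := T4.ds_pp) T4.ok_pp (w := 200) (c := ⟨⟨.negSucc 2657, .negSucc 320, .ofNat 211, .negSucc 571, .negSucc 572, .negSucc 17⟩, ⟨.negSucc 541, .negSucc 113, .negSucc 236, .negSucc 117, .negSucc 181, .negSucc 8⟩, ⟨.ofNat 1512, .ofNat 199, .negSucc 162, .ofNat 282, .ofNat 319, .negSucc 29⟩, ⟨.negSucc 4741, .negSucc 424, .ofNat 280, .negSucc 1252, .negSucc 977, .negSucc 60⟩, ⟨.ofNat 830, .ofNat 109, .negSucc 38, .ofNat 915, .ofNat 32, .ofNat 80⟩, .ofNat 473, .negSucc 387, .ofNat 0, .negSucc 387, .ofNat 1440, .ofNat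 0, .ofNat 339, .ofNat 311, .negSucc 482, .ofNat 0, .ofNat 202, .negSucc 120, .ofNat 0, .ofNat 0, .ofNat 586, .ofNat 1810, .ofNat 0, .ofNat 116232356571262317817526795283254476800, .ofNat 195664471728765681815234858188800, .ofNat 0, .ofNat 0, .ofNat 3331676788413220223696131309272091852800, .ofNat 14237697530553001474323450219724800, .ofNat 0, .ofNat 0, .ofNat 0, .ofNat 0, .ofNat 0, .ofNat 0, .ofNat 0, .ofNat 0, .ofNat 0⟩)
    (by decide +kernel)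
theorem L00412 : Good (Phi V4.P V4.D 1 1) ⟨5, 24, 3, 1, 3, 7, 3, 6, 4, 2⟩ :=
  leaf_sound (S := T4.ds_pp) T4.ok_pp (w := 200) (c := ⟨⟨.negSucc 3050, .negSucc 414, .ofNat 229, .negSucc 130, .negSucc 671, .negSucc 171⟩, ⟨.negSucc 577, .negSucc 108, .negSucc 326, .ofNat 45, .negSucc 200, .negSucc 28⟩, ⟨.ofNat 1658, .ofNat 233, .negSucc 106, .ofNat 80, .ofNat 350, .ofNat 95⟩, ⟨.negSucc 5462, .negSucc 592, .ofNat 198, .negSucc 660, .negSucc 1202, .negSucc 430⟩, ⟨.ofNat 1206, .ofNat 154, .ofNat 59, .ofNat 1388, .ofNat 217, .ofNat 450⟩, .ofNat 475, .negSucc 391, .ofNat 0, .negSucc 391, .ofNat 1450, .ofNat 0, .ofNat 394, .ofNat 417, .negSucc 572, .ofNat 0, .ofNat 243, .negSucc 138, .ofNat 0, .ofNat 0, .ofNat 612, .ofNat 2529, .ofNat 0, .ofNat 149233063923957784648213057090093056000, .ofNat 539036076060175063194977225932800, .ofNat 0, .ofNat 0, .ofNat 993383801181699466211369089418605363200,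 .ofNat 20970974992698802692565621958246400, .ofNat 0, .ofNat 0, .ofNat 1745199799227196402209642268413080371200, .ofNat 17710442664684627338021161245081600, .ofNat 0, .ofNat 0, .ofNat 0, .ofNat 0, .ofNat 0⟩)
    (by decide +kernel)
theorem L00413 : Good (Phi V4.P V4.D 1 1) ⟨5, 24, 3, 1, 3, 7, 3, 6, 4, 3⟩ :=
  leaf_sound (S := T4.ds_pp) T4.ok_pp (w := 200) (c := ⟨⟨.negSucc 3237, .negSucc 337, .ofNat 244, .negSucc 149, .negSucc 710, .negSucc 11⟩, ⟨.negSucc 625, .negSucc 78, .negSucc 314, .ofNat 49, .negSucc 216, .ofNat 19⟩, ⟨.ofNat 1767, .ofNat 195, .negSucc 139, .ofNat 102, .ofNat 376, .negSucc 17⟩, ⟨.negSucc 5942, .negSucc 475, .ofNat 270, .negSucc 701, .negSucc 1236, .negSucc 79⟩, ⟨.ofNat 1687, .ofNat 166, .negSucc 42, .ofNat 1420, .ofNat 156, .ofNat 206⟩, .ofNat 475, .negSucc 392, .ofNat 0, .negSucc 392, .ofNat 1451, .ofNat 0, .ofNat 741, .ofNat 721, .negSucc 943, .ofNat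 0, .ofNat 442, .negSucc 223, .ofNat 0, .ofNat 0, .ofNat 1148, .ofNat 6016, .ofNat 0, .ofNat 470863188842888496416320641754673971200, .ofNat 1037601737051487752893691540275200, .ofNat 0, .ofNat 0, .ofNat 22556935330112466024105171852921824870400, .ofNat 63473494880183167140795437285376000, .ofNat 0, .ofNat 0, .ofNat 15542323703307773029682642882407484620800, .ofNat 98859739229263527170770267117977600, .ofNat 0, .ofNat 0, .ofNat 21111348536006484925112384149852992307200, .ofNat 0, .ofNat 0⟩)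
    (by decide +kernel)
theorem L00414 : Good (Phi V4.P V4.D 1 1) ⟨5, 24, 3, 1, 2, 3, 3, 7, 4, 2⟩ :=
  leaf_sound (S := T4.ds_pp) T4.ok_pp (w := 192) (c := ⟨⟨.negSucc 2843, .negSucc 618, .ofNat 342, .negSucc 1273, .negSucc 930, .negSucc 406⟩, ⟨.negSucc 581, .negSucc 209, .negSucc 239, .negSucc 258, .negSucc 307, .negSucc 120⟩, ⟨.ofNat 1637, .ofNat 347, .negSucc 242, .ofNat 621, .ofNat 489, .ofNat 224⟩, ⟨.negSucc 4982, .negSucc 877, .ofNat 483, .negSucc 2834, .negSucc 1571, .negSucc 780⟩, ⟨.ofNat 582, .ofNat 70, .negSucc 24, .ofNat 2189, .negSucc 19, .ofNat 265⟩, .ofNat 473, .negSucc 387, .ofNat 0, .negSucc 387, .ofNat 1444, .ofNat 0, .ofNat 386, .ofNat 406, .negSucc 744, .ofNat 0, .ofNat 242, .negSucc 198, .ofNat 0, .ofNat 0, .ofNat 701, .ofNat 1123, .ofNat 0, .ofNat 1647727595932069789197201503472844800, .ofNat 310119582731582883981636403200, .ofNat 0, .ofNat 0, .ofNat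 36632969989875872691040929281841561600, .ofNat 33819693522547424314284992102400, .ofNat 0, .ofNat 0, .ofNat 21841120035927539005318154806099968000, .ofNat 18354992685055447396783856025600, .ofNat 0, .ofNat 0, .ofNat 38110336706026638966983487567534489600, .ofNat 0, .ofNat 0⟩)
    (by decide +kernel)
theorem L00415 : Good (Phi V4.P V4.D 1 1) ⟨5, 24, 3, 1, 2, 3, 3, 7, 4, 3⟩ :=
  out_sound (S := T4.ds_pp) T4.ok_pp (w := 32) (j := 2) (by decide +kernel)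
theorem L00416 : Good (Phi V4.P V4.D 1 1) ⟨5, 25, 4, 2, 2, 3, 3, 6, 3, 1⟩ :=
  out_sound (S := T4.ds_pp) T4.ok_pp (w := 64) (j := 3) (by decide +kernel)
theorem L00417 : Good (Phi V4.P V4.D 1 1) ⟨5, 25, 4, 3, 2, 3, 3, 6, 4, 2⟩ :=
  leaf_sound (S := T4.ds_pp) T4.ok_pp (w := 192) (c := ⟨⟨.negSucc 2968, .ofNat 696, .ofNat 281, .negSucc 752, .negSucc 666, .negSucc 197⟩, ⟨.negSucc 867, .ofNat 260, .negSucc 22, .negSucc 87, .negSucc 223, .negSucc 46⟩, ⟨.ofNat 1631, .negSucc 247, .negSucc 102, .ofNat 377, .ofNat 342, .ofNat 94⟩, ⟨.negSucc 4918, .ofNat 1025, .ofNat 296, .negSucc 2047, .negSucc 1129, .negSucc 423⟩, ⟨.ofNat 105, .ofNat 599, .ofNat 411, .ofNat 2330, .ofNat 82, .ofNat 280⟩, .ofNat 827, .negSucc 1176, .ofNat 0, .negSucc 1176, .ofNat 3422, .ofNat 0, .ofNat 307, .ofNat 435, .negSucc 554, .ofNat 0, .ofNat 229, .negSucc 172, .ofNat 0, .ofNat 0, .ofNat 611, .ofNat 2047, .ofNat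 0, .ofNat 3398152664130550133196299204925849600, .ofNat 4564755701936631662040317952000, .ofNat 0, .ofNat 0, .ofNat 54749813045445214949594534831456256000, .ofNat 322028500209803065910786575564800, .ofNat 0, .ofNat 0, .ofNat 32877934851849651836930491069287628800, .ofNat 357155072359484104634454245376000, .ofNat 0, .ofNat 0, .ofNat 34100382968468963090348423379104563200, .ofNat 290457898651749962979276226560000, .ofNat 0⟩)
    (by decide +kernel)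
theorem L00418 : Good (Phi V4.P V4.D 1 1) ⟨5, 25, 4, 3, 2, 3, 3, 6, 4, 3⟩ :=
  leaf_sound (S := T4.ds_pp) T4.ok_pp (w := 192) (c := ⟨⟨.negSucc 3063, .negSucc 581, .ofNat 213, .negSucc 846, .negSucc 583, .ofNat 52⟩, ⟨.negSucc 887, .negSucc 236, .negSucc 34, .negSucc 129, .negSucc 195, .ofNat 28⟩, ⟨.ofNat 1699, .ofNat 260, .negSucc 111, .ofNat 435, .ofNat 325, .negSucc 64⟩, ⟨.negSucc 5239, .negSucc 785, .ofNat 246, .negSucc 2163, .negSucc 993, .ofNat 41⟩, ⟨.ofNat 573, .negSucc 275, .ofNat 240, .ofNat 2219, .ofNat 79, .ofNat 133⟩, .ofNat 834, .negSucc 1192, .ofNat 0, .negSucc 1192, .ofNat 3466, .ofNat 0, .ofNat 281, .ofNat 369, .negSucc 450, .ofNat 0, .ofNat 202, .negSucc 140, .ofNat 0, .ofNat 0, .ofNat 569, .ofNat 1661, .ofNat 0, .ofNat 3201637201470835413369066208257638400, .ofNat 877620822641343678628705075200, .ofNat 0, .ofNat 0, .ofNat 94180990418276353959345696042437836800,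 .ofNat 801642303112117641098161029120000, .ofNat 0, .ofNat 0, .ofNat 59729108585758838492561805626730086400, .ofNat 231357508239700894505677671628800, .ofNat 0, .ofNat 0, .ofNat 12148672225288207203400748066301542400, .ofNat 486888172979612032255475161497600, .ofNat 0⟩)
    (by decide +kernel)
theorem L00419 : Good (Phi V4.P V4.D 1 1) ⟨5, 25, 3, 1, 2, 3, 3, 7, 4, 2⟩ :=
  leaf_sound (S := T4.ds_pp) T4.ok_pp (w := 192) (c := ⟨⟨.negSucc 3948, .negSucc 308, .ofNat 957, .negSucc 1337, .negSucc 1107, .negSucc 651⟩, ⟨.negSucc 1168, .negSucc 185, .ofNat 191, .negSucc 298, .negSucc 388, .negSucc 219⟩, ⟨.ofNat 2099, .ofNat 149, .negSucc 403, .ofNat 644, .ofNat 568, .ofNat 328⟩, ⟨.negSucc 6517, .negSucc 340, .ofNat 1319, .negSucc 2971, .negSucc 1777, .negSucc 1103⟩, ⟨.ofNat 34, .negSucc 258, .ofNat 695, .ofNat 2205, .negSucc 150, .ofNat 76⟩, .ofNat 833, .negSucc 1190, .ofNat 0, .negSucc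 1190, .ofNat 3462, .ofNat 0, .ofNat 317, .ofNat 471, .negSucc 715, .ofNat 0, .ofNat 245, .negSucc 232, .ofNat 0, .ofNat 0, .ofNat 682, .ofNat 1189, .ofNat 0, .ofNat 1662723474009629010186135432226406400, .ofNat 1253765332345239317592303206400, .ofNat 0, .ofNat 0, .ofNat 26657389809410515390306613067566284800, .ofNat 804022594542986273656158132633600, .ofNat 0, .ofNat 0, .ofNat 46315684981553739070701446532956160000, .ofNat 267395723905506338261448209203200, .ofNat 0, .ofNat 0, .ofNat 49831484415217336626598919840307609600, .ofNat 118526257196233877676710323814400, .ofNat 0⟩)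
    (by decide +kernel)
theorem L00420 : Good (Phi V4.P V4.D 1 1) ⟨5, 25, 3, 1, 2, 3, 3, 7, 4, 3⟩ :=
  out_sound (S := T4.ds_pp) T4.ok_pp (w := 32) (j := 2) (by decide +kernel)
theorem L00421 : Good (Phi V4.P V4.D 1 1) ⟨4, 13, 3, 1, 1, 1, 2, 3, 3, 1⟩ :=
  out_sound (S := T4.ds_pp) T4.ok_pp (w := 56) (j := 3) (by decide +kernel)
theorem L00422 : Good (Phi V4.P V4.D 1 1) ⟨3, 7, 3, 1, 1, 1, 2, 3, 2, 0⟩ :=
  out_sound (S := T4.ds_pp) T4.ok_pp (w := 48) (j := 3) (by decide +kernel)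
theorem L00423 : Good (Phi V4.P V4.D 1 1) ⟨3, 4, 3, 1, 1, 1, 2, 2, 2, 1⟩ :=
  out_sound (S := T4.ds_pp) T4.ok_pp (w := 48) (j := 3) (by decide +kernel)
theorem L00424 : Good (Phi V4.P V4.D 1 1) ⟨3, 5, 3, 1, 2, 2, 2, 2, 3, 2⟩ :=
  leaf_sound (S := T4.ds_pp) T4.ok_pp (w := 168) (c := ⟨⟨.negSucc 933, .negSucc 539, .ofNat 28, .negSucc 658, .negSucc 266, .ofNat 138⟩, ⟨.negSucc 111, .negSucc 227, .negSucc 148, .negSucc 132, .negSucc 72, .ofNat 30⟩, ⟨.ofNat 484, .ofNat 362, .negSucc 39, .ofNat 309, .ofNat 151, .negSucc 193⟩, ⟨.negSucc 1922, .negSucc 607, .ofNat 26, .negSucc 1337, .negSucc 477, .ofNat 262⟩, ⟨.negSucc 109, .ofNat 193, .negSucc 20, .ofNat 694, .ofNat 26, .negSucc 72⟩, .ofNat 609, .negSucc 768, .ofNat 0, .negSucc 768, .ofNat 3349, .ofNat 0, .ofNat 461, .ofNat 393, .negSucc 475, .ofNat 0, .ofNat 220, .negSucc 97, .ofNat 0, .ofNat 0, .ofNat 941, .ofNat 1611, .ofNat 0,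 .ofNat 0, .ofNat 41487795789274720977813504000, .ofNat 0, .ofNat 0, .ofNat 0, .ofNat 0, .ofNat 0, .ofNat 0, .ofNat 0, .ofNat 0, .ofNat 0, .ofNat 0, .ofNat 0, .ofNat 0, .ofNat 0⟩)
    (by decide +kernel)
theorem L00425 : Good (Phi V4.P V4.D 1 1) ⟨3, 5, 3, 1, 2, 3, 3, 4, 3, 2⟩ :=
  leaf_sound (S := T4.ds_pp) T4.ok_pp (w := 176) (c := ⟨⟨.negSucc 1611, .negSucc 536, .ofNat 86, .negSucc 436, .negSucc 189, .ofNat 207⟩, ⟨.negSucc 288, .negSucc 152, .negSucc 210, .negSucc 22, .negSucc 47, .ofNat 50⟩, ⟨.ofNat 836, .ofNat 304, .negSucc 52, .ofNat 138, .ofNat 128, .negSucc 260⟩, ⟨.negSucc 3261, .negSucc 637, .ofNat 75, .negSucc 1185, .negSucc 335, .ofNat 393⟩, ⟨.ofNat 422, .ofNat 429, .negSucc 42, .ofNat 1724, .ofNat 26, .negSucc 80⟩, .ofNat 314, .negSucc 112, .ofNat 0, .negSucc 112, .ofNat 714, .ofNat 0, .ofNat 359, .ofNat 126, .negSucc 306, .ofNat 0, .ofNat 182, .negSucc 15, .ofNat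 0, .ofNat 0, .ofNat 514, .ofNat 2167, .ofNat 0, .ofNat 0, .ofNat 0, .ofNat 0, .ofNat 0, .ofNat 12060271137724781544538961765990400, .ofNat 0, .ofNat 0, .ofNat 0, .ofNat 9876674324557893381127856455680000, .ofNat 0, .ofNat 0, .ofNat 0, .ofNat 7903099020585501490624712618803200, .ofNat 0, .ofNat 0⟩)
    (by decide +kernel)
theorem L00426 : Good (Phi V4.P V4.D 1 1) ⟨3, 5, 3, 1, 2, 3, 3, 5, 3, 2⟩ :=
  leaf_sound (S := T4.ds_pp) T4.ok_pp (w := 176) (c := ⟨⟨.negSucc 1604, .negSucc 744, .ofNat 125, .negSucc 707, .negSucc 276, .ofNat 152⟩, ⟨.negSucc 273, .negSucc 210, .negSucc 218, .negSucc 94, .negSucc 70, .ofNat 43⟩, ⟨.ofNat 830, .ofNat 441, .negSucc 94, .ofNat 332, .ofNat 172, .negSucc 189⟩, ⟨.negSucc 3305, .negSucc 944, .ofNat 155, .negSucc 1630, .negSucc 498, .ofNat 275⟩, ⟨.ofNat 461, .ofNat 427, .negSucc 63, .ofNat 1605, .ofNat 58, .ofNat 14⟩, .ofNat 314, .negSucc 113, .ofNat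 0, .negSucc 113, .ofNat 715, .ofNat 0, .ofNat 382, .ofNat 154, .negSucc 390, .ofNat 0, .ofNat 193, .negSucc 33, .ofNat 0, .ofNat 0, .ofNat 547, .ofNat 1139, .ofNat 0, .ofNat 242040725394258491746108519219200, .ofNat 0, .ofNat 0, .ofNat 0, .ofNat 19277784582664901141425244287795200, .ofNat 0, .ofNat 0, .ofNat 0, .ofNat 22411153716884177519540748209356800, .ofNat 0, .ofNat 0, .ofNat 0, .ofNat 0, .ofNat 0, .ofNat 0⟩)
    (by decide +kernel)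
theorem L00427 : Good (Phi V4.P V4.D 1 1) ⟨3, 5, 3, 1, 1, 1, 2, 2, 3, 3⟩ :=
  leaf_sound (S := T4.ds_pp) T4.ok_pp (w := 160) (c := ⟨⟨.negSucc 1025, .negSucc 367, .ofNat 28, .negSucc 928, .negSucc 186, .ofNat 110⟩, ⟨.negSucc 142, .negSucc 195, .negSucc 107, .negSucc 182, .negSucc 40, .ofNat 29⟩, ⟨.ofNat 435, .ofNat 233, .negSucc 48, .ofNat 365, .ofNat 158, .negSucc 143⟩, ⟨.negSucc 2049, .negSucc 354, .ofNat 37, .negSucc 1888, .negSucc 345, .ofNat 199⟩, ⟨.negSucc 94, .ofNat 154, .negSucc 0, .ofNat 1006, .ofNat 61, .negSucc 0⟩, .ofNat 458, .negSucc 348, .ofNat 0, .negSucc 348, .ofNat 1695, .ofNat 0, .ofNat 431, .ofNat 259, .negSucc 362, .ofNat 0, .ofNat 216, .negSucc 64, .ofNat 0, .ofNat 0, .ofNat 853, .ofNat 2969, .ofNat 0, .ofNat 1254244747304316992426606592000, .ofNat 0, .ofNat 0, .ofNat 0, .ofNat 216837540883706592657681049190400, .ofNat 0, .ofNat 0, .ofNat 0, .ofNat 228271905498353902275950700134400,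 .ofNat 0, .ofNat 0, .ofNat 0, .ofNat 203934204891283296012052149043200, .ofNat 0, .ofNat 0⟩)
    (by decide +kernel)
theorem L00428 : Good (Phi V4.P V4.D 1 1) ⟨3, 4, 3, 1, 1, 1, 2, 3, 2, 1⟩ :=
  out_sound (S := T4.ds_pp) T4.ok_pp (w := 48) (j := 3) (by decide +kernel)
theorem L00429 : Good (Phi V4.P V4.D 1 1) ⟨3, 5, 3, 1, 2, 2, 3, 6, 2, 1⟩ :=
  leaf_sound (S := T4.ds_pp) T4.ok_pp (w := 168) (c := ⟨⟨.negSucc 891, .negSucc 785, .ofNat 120, .negSucc 918, .negSucc 196, .negSucc 53⟩, ⟨.negSucc 92, .negSucc 309, .negSucc 124, .negSucc 190, .negSucc 45, .negSucc 5⟩, ⟨.ofNat 353, .ofNat 580, .negSucc 124, .ofNat 535, .ofNat 129, .negSucc 16⟩, ⟨.negSucc 1876, .negSucc 1003, .ofNat 195, .negSucc 1789, .negSucc 353, .negSucc 130⟩, ⟨.negSucc 115, .ofNat 180, .negSucc 26, .ofNat 664, .ofNat 30, .ofNat 122⟩, .ofNat 458, .negSucc 349, .ofNat 0, .negSucc 349, .ofNat 1673, .ofNat 0, .ofNat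 555, .ofNat 364, .negSucc 708, .ofNat 0, .ofNat 277, .negSucc 146, .ofNat 0, .ofNat 0, .ofNat 1055, .ofNat 3112, .ofNat 0, .ofNat 212511966189458137191853483622400, .ofNat 0, .ofNat 0, .ofNat 0, .ofNat 19096908842905012822971137812070400, .ofNat 2957584794722409846267917107200, .ofNat 0, .ofNat 0, .ofNat 14337306124441716271183383704371200, .ofNat 0, .ofNat 0, .ofNat 0, .ofNat 5430367778125991893186930488115200, .ofNat 0, .ofNat 0⟩)
    (by decide +kernel)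
theorem L00430 : Good (Phi V4.P V4.D 1 1) ⟨3, 5, 3, 1, 2, 2, 3, 7, 2, 1⟩ :=
  leaf_sound (S := T4.ds_pp) T4.ok_pp (w := 176) (c := ⟨⟨.negSucc 980, .negSucc 881, .ofNat 98, .negSucc 1041, .negSucc 218, .negSucc 308⟩, ⟨.negSucc 102, .negSucc 348, .negSucc 113, .negSucc 248, .negSucc 58, .negSucc 70⟩, ⟨.ofNat 358, .ofNat 699, .negSucc 117, .ofNat 682, .ofNat 153, .ofNat 265⟩, ⟨.negSucc 2055, .negSucc 1166, .ofNat 162, .negSucc 1922, .negSucc 373, .negSucc 560⟩, ⟨.ofNat 0, .ofNat 96, .negSucc 5, .ofNat 409, .ofNat 24, .ofNat 122⟩, .ofNat 315, .negSucc 114, .ofNat 0, .negSucc 114, .ofNat 716, .ofNat 0, .ofNat 2731, .ofNat 1114, .negSucc 4891, .ofNat 0, .ofNat 1524, .negSucc 874, .ofNat 0, .ofNat 0, .ofNat 5536, .ofNat 18905, .ofNat 0, .ofNat 9602467597935840301164319997952000, .ofNat 0, .ofNat 0, .ofNat 0, .ofNat 1208229202251546941217658040745984000, .ofNat 0, .ofNat 0, .ofNat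 0, .ofNat 735457675869260225750433205636300800, .ofNat 0, .ofNat 0, .ofNat 0, .ofNat 1276585507826335795525118694575308800, .ofNat 163092885000708665184319910707200, .ofNat 0⟩)
    (by decide +kernel)
theorem L00431 : Good (Phi V4.P V4.D 1 1) ⟨3, 5, 3, 1, 2, 3, 2, 3, 2, 1⟩ :=
  leaf_sound (S := T4.ds_pp) T4.ok_pp (w := 176) (c := ⟨⟨.negSucc 1736, .negSucc 924, .ofNat 149, .ofNat 0, .negSucc 488, .ofNat 0⟩, ⟨.negSucc 261, .negSucc 316, .negSucc 199, .ofNat 0, .negSucc 106, .ofNat 0⟩, ⟨.ofNat 894, .ofNat 580, .negSucc 132, .ofNat 0, .ofNat 294, .ofNat 0⟩, ⟨.negSucc 3606, .negSucc 1196, .ofNat 208, .ofNat 0, .negSucc 888, .ofNat 0⟩, ⟨.ofNat 584, .ofNat 345, .negSucc 37, .ofNat 0, .ofNat 75, .ofNat 0⟩, .ofNat 314, .negSucc 113, .ofNat 0, .negSucc 113, .ofNat 715, .ofNat 0, .ofNat 3141, .ofNat 1385, .negSucc 3961, .ofNat 0, .ofNat 1603, .negSucc 484, .ofNat 0, .ofNat 0, .ofNat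 4764, .ofNat 37801, .ofNat 0, .ofNat 12005707362046942424713967488204800, .ofNat 0, .ofNat 0, .ofNat 0, .ofNat 2684530345378230188704038762263347200, .ofNat 2957699334352303901985944371200, .ofNat 0, .ofNat 0, .ofNat 1628194304914172779038309764982374400, .ofNat 0, .ofNat 0, .ofNat 0, .ofNat 2294315863013417171025515763046809600, .ofNat 12432515238169415379086789836800, .ofNat 0⟩)
    (by decide +kernel)
theorem L00432 : Good (Phi V4.P V4.D 1 1) ⟨4, 12, 3, 1, 2, 2, 2, 2, 2, 1⟩ :=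
  leaf_sound (S := T4.ds_pp) T4.ok_pp (w := 176) (c := ⟨⟨.negSucc 1460, .negSucc 278, .ofNat 77, .negSucc 661, .negSucc 362, .ofNat 245⟩, ⟨.negSucc 337, .negSucc 136, .negSucc 114, .negSucc 164, .negSucc 111, .ofNat 68⟩, ⟨.ofNat 831, .ofNat 207, .negSucc 76, .ofNat 294, .ofNat 235, .negSucc 367⟩, ⟨.negSucc 2505, .negSucc 302, .ofNat 106, .negSucc 1345, .negSucc 613, .ofNat 430⟩, ⟨.ofNat 47, .ofNat 108, .negSucc 2, .ofNat 728, .ofNat 11, .negSucc 58⟩, .ofNat 474, .negSucc 389, .ofNat 0, .negSucc 389, .ofNat 1438, .ofNat 0, .ofNat 476, .ofNat 362, .negSucc 493, .ofNat 0, .ofNat 288, .negSucc 118, .ofNat 0, .ofNat 0, .ofNat 946, .ofNat 1853, .ofNat 0, .ofNat 182014129042201295286898891161600, .ofNat 394057794710312390806732800, .ofNat 0, .ofNat 0, .ofNat 0, .ofNat 169301228628974467387333017600, .ofNat 0, .ofNat 0, .ofNat 34342510079220395695838926051737600, .ofNat 327890013263088675544734105600,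 .ofNat 0, .ofNat 0, .ofNat 0, .ofNat 0, .ofNat 0⟩)
    (by decide +kernel)
theorem L00433 : Good (Phi V4.P V4.D 1 1) ⟨4, 12, 3, 1, 2, 3, 3, 4, 3, 2⟩ :=
  leaf_sound (S := T4.ds_pp) T4.ok_pp (w := 184) (c := ⟨⟨.negSucc 2163, .negSucc 270, .ofNat 79, .negSucc 402, .negSucc 248, .ofNat 265⟩, ⟨.negSucc 439, .negSucc 62, .negSucc 238, .ofNat 9, .negSucc 74, .ofNat 84⟩, ⟨.ofNat 1147, .ofNat 166, .negSucc 46, .ofNat 144, .ofNat 159, .negSucc 305⟩, ⟨.negSucc 3891, .negSucc 335, .ofNat 68, .negSucc 1251, .negSucc 421, .ofNat 478⟩, ⟨.ofNat 827, .ofNat 273, .negSucc 96, .ofNat 1847, .ofNat 28, .negSucc 69⟩, .ofNat 472, .negSucc 384, .ofNat 0, .negSucc 384, .ofNat 1443, .ofNat 0, .ofNat 578, .ofNat 442, .negSucc 506, .ofNat 0, .ofNat 328, .negSucc 103, .ofNat 0, .ofNat 0, .ofNat 980, .ofNat 4759, .ofNat 0, .ofNat 4608021734273148147846166767206400, .ofNat 115728048018701022248357068800,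 .ofNat 0, .ofNat 0, .ofNat 870906771563749165485413761233715200, .ofNat 36345109161724227994621103308800, .ofNat 0, .ofNat 0, .ofNat 833390932183189077887410195818086400, .ofNat 34562440740873825005373436723200, .ofNat 0, .ofNat 0, .ofNat 0, .ofNat 0, .ofNat 0⟩)
    (by decide +kernel)
theorem L00434 : Good (Phi V4.P V4.D 1 1) ⟨4, 12, 3, 1, 3, 6, 3, 5, 3, 2⟩ :=
  leaf_sound (S := T4.ds_pp) T4.ok_pp (w := 192) (c := ⟨⟨.negSucc 2353, .negSucc 411, .ofNat 145, .negSucc 359, .negSucc 339, .ofNat 214⟩, ⟨.negSucc 483, .negSucc 141, .negSucc 213, .negSucc 57, .negSucc 103, .ofNat 69⟩, ⟨.ofNat 1275, .ofNat 255, .negSucc 108, .ofNat 176, .ofNat 204, .negSucc 237⟩, ⟨.negSucc 4229, .negSucc 518, .ofNat 174, .negSucc 877, .negSucc 591, .ofNat 356⟩, ⟨.ofNat 850, .ofNat 217, .negSucc 40, .ofNat 852, .ofNat 68, .ofNat 19⟩, .ofNat 316, .negSucc 140, .ofNat 0, .negSucc 140, .ofNat 661, .ofNat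 0, .ofNat 371, .ofNat 199, .negSucc 428, .ofNat 0, .ofNat 212, .negSucc 62, .ofNat 0, .ofNat 0, .ofNat 569, .ofNat 5229, .ofNat 0, .ofNat 2075789311436721356594624864452608000, .ofNat 86755453818981700491155393740800, .ofNat 0, .ofNat 0, .ofNat 62319953795150899189119040557259161600, .ofNat 2687144112038613471216059547648000, .ofNat 0, .ofNat 0, .ofNat 43552406197739821737201010105909248000, .ofNat 5906939881936654403866211018342400, .ofNat 0, .ofNat 0, .ofNat 65592164672664548364059039934028185600, .ofNat 1774871955441165215382646240051200, .ofNat 0⟩)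
    (by decide +kernel)
theorem L00435 : Good (Phi V4.P V4.D 1 1) ⟨4, 12, 3, 1, 3, 7, 3, 5, 3, 2⟩ :=
  leaf_sound (S := T4.ds_pp) T4.ok_pp (w := 192) (c := ⟨⟨.negSucc 2705, .negSucc 411, .ofNat 156, .negSucc 190, .negSucc 341, .ofNat 0⟩, ⟨.negSucc 504, .negSucc 86, .negSucc 270, .ofNat 18, .negSucc 97, .ofNat 0⟩, ⟨.ofNat 1430, .ofNat 252, .negSucc 90, .ofNat 96, .ofNat 215, .ofNat 0⟩, ⟨.negSucc 5068, .negSucc 551, .ofNat 157, .negSucc 659, .negSucc 611, .ofNat 0⟩, ⟨.ofNat 1743, .ofNat 294, .negSucc 69, .ofNat 1085, .ofNat 114, .ofNat 0⟩, .ofNat 315, .negSucc 136, .ofNat 0, .negSucc 136, .ofNat 658, .ofNat 0, .ofNat 3243, .ofNat 1654, .negSucc 3354, .ofNat 0, .ofNat 1772, .negSucc 398, .ofNat 0, .ofNat 0, .ofNat 4496, .ofNat 36840, .ofNat 0, .ofNat 28734599047248579529694472788194099200, .ofNat 1977904883242909272355955225395200, .ofNat 0, .ofNat 0, .ofNat 13567572320133773437836526588316457369600,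 .ofNat 0, .ofNat 0, .ofNat 0, .ofNat 20767757813083154776556938295616366182400, .ofNat 264997619092077870436190191720857600, .ofNat 0, .ofNat 0, .ofNat 15553060763501803227279031222390908518400, .ofNat 0, .ofNat 0⟩)
    (by decide +kernel)
theorem L00436 : Good (Phi V4.P V4.D 1 1) ⟨4, 12, 3, 1, 2, 3, 2, 2, 3, 3⟩ :=
  out_sound (S := T4.ds_pp) T4.ok_pp (w := 32) (j := 2) (by decide +kernel)
theorem L00437 : Good (Phi V4.P V4.D 1 1) ⟨4, 12, 3, 1, 2, 2, 4, 12, 2, 1⟩ :=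
  leaf_sound (S := T4.ds_pp) T4.ok_pp (w := 176) (c := ⟨⟨.negSucc 1604, .negSucc 420, .ofNat 91, .negSucc 1015, .negSucc 162, .negSucc 56⟩, ⟨.negSucc 368, .negSucc 191, .negSucc 139, .negSucc 259, .negSucc 46, .ofNat 9⟩, ⟨.ofNat 885, .ofNat 303, .negSucc 101, .ofNat 561, .ofNat 118, .negSucc 7⟩, ⟨.negSucc 2756, .negSucc 520, .ofNat 139, .negSucc 1939, .negSucc 281, .negSucc 126⟩, ⟨.ofNat 36, .ofNat 120, .negSucc 20, .ofNat 735, .ofNat 24, .ofNat 100⟩, .ofNat 473, .negSucc 386, .ofNat 0, .negSucc 386, .ofNat 1436, .ofNat 0, .ofNat 264, .ofNat 207, .negSucc 365, .ofNat 0, .ofNat 160, .negSucc 97, .ofNat 0, .ofNat 0, .ofNat 532, .ofNat 2578, .ofNat 0, .ofNat 6766692721243296945450700190515200, .ofNat 126532778161703285653556428800, .ofNat 0, .ofNat 0, .ofNat 155584569861280912667077595942092800, .ofNat 2129217744700815146620865740800, .ofNat 0, .ofNat 0, .ofNat 117662639965354508173596150674227200,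 .ofNat 4533308845347905412411477196800, .ofNat 0, .ofNat 0, .ofNat 112363408165039953956661211693056000, .ofNat 0, .ofNat 0⟩)
    (by decide +kernel)
theorem L00438 : Good (Phi V4.P V4.D 1 1) ⟨4, 12, 3, 1, 2, 2, 4, 13, 2, 1⟩ :=
  leaf_sound (S := T4.ds_pp) T4.ok_pp (w := 176) (c := ⟨⟨.negSucc 1718, .negSucc 519, .ofNat 123, .negSucc 1103, .negSucc 184, .negSucc 195⟩, ⟨.negSucc 399, .negSucc 241, .negSucc 118, .negSucc 304, .negSucc 59, .negSucc 53⟩, ⟨.ofNat 963, .ofNat 392, .negSucc 130, .ofNat 635, .ofNat 133, .ofNat 116⟩, ⟨.negSucc 2965, .negSucc 663, .ofNat 198, .negSucc 2054, .negSucc 308, .negSucc 373⟩, ⟨.ofNat 81, .ofNat 86, .negSucc 27, .ofNat 622, .ofNat 0, .ofNat 136⟩, .ofNat 317, .negSucc 141, .ofNat 0, .negSucc 141, .ofNat 666, .ofNat 0, .ofNat 662, .ofNat 353, .negSucc 1151, .ofNat 0, .ofNat 408, .negSucc 258, .ofNat 0, .ofNat 0, .ofNat 1321, .ofNat 3753, .ofNat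 0, .ofNat 19872460309828769290748729858457600, .ofNat 206099646542265408905281536000, .ofNat 0, .ofNat 0, .ofNat 1328103950229115824165980233059532800, .ofNat 2313779195914978333183023513600, .ofNat 0, .ofNat 0, .ofNat 712892458160054273507447889985536000, .ofNat 0, .ofNat 0, .ofNat 0, .ofNat 1030945642269811812751403972453990400, .ofNat 0, .ofNat 0⟩)
    (by decide +kernel)
theorem L00439 : Good (Phi V4.P V4.D 1 1) ⟨4, 12, 3, 1, 2, 3, 3, 6, 2, 1⟩ :=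
  leaf_sound (S := T4.ds_pp) T4.ok_pp (w := 184) (c := ⟨⟨.negSucc 2669, .negSucc 539, .ofNat 165, .ofNat 0, .negSucc 429, .ofNat 0⟩, ⟨.negSucc 576, .negSucc 210, .negSucc 202, .ofNat 0, .negSucc 137, .ofNat 0⟩, ⟨.ofNat 1480, .ofNat 343, .negSucc 143, .ofNat 0, .ofNat 257, .ofNat 0⟩, ⟨.negSucc 4810, .negSucc 692, .ofNat 228, .ofNat 0, .negSucc 734, .ofNat 0⟩, ⟨.ofNat 932, .ofNat 188, .negSucc 41, .ofNat 0, .ofNat 47, .ofNat 0⟩, .ofNat 476, .negSucc 395, .ofNat 0, .negSucc 395, .ofNat 1452, .ofNat 0, .ofNat 4925, .ofNat 4331, .negSucc 6528, .ofNat 0, .ofNat 2945, .negSucc 1659, .ofNat 0, .ofNat 0, .ofNat 8828, .ofNat 92119, .ofNat 0, .ofNat 222425806799498479481556348331622400, .ofNat 1354030888473239836181712076800, .ofNat 0, .ofNat 0, .ofNat 355069900766443688795529663828354662400, .ofNat 112099665101835440635483521024000, .ofNat 0, .ofNat 0, .ofNat 125618263470955301855164299403591680000,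 .ofNat 282931842552545606954345142681600, .ofNat 0, .ofNat 0, .ofNat 249862724739155693947531807785222144000, .ofNat 0, .ofNat 0⟩)
    (by decide +kernel)
theorem L00440 : Good (Phi V4.P V4.D 1 1) ⟨4, 12, 3, 1, 1, 1, 3, 7, 2, 1⟩ :=
  leaf_sound (S := T4.ds_pp) T4.ok_pp (w := 168) (c := ⟨⟨.negSucc 1864, .negSucc 562, .ofNat 102, .negSucc 2189, .negSucc 341, .negSucc 300⟩, ⟨.negSucc 448, .negSucc 265, .negSucc 114, .negSucc 645, .negSucc 114, .negSucc 96⟩, ⟨.ofNat 1061, .ofNat 449, .negSucc 122, .ofNat 1349, .ofNat 268, .ofNat 271⟩, ⟨.negSucc 3225, .negSucc 734, .ofNat 171, .negSucc 3931, .negSucc 564, .negSucc 523⟩, ⟨.ofNat 99, .ofNat 51, .negSucc 5, .ofNat 837, .negSucc 21, .ofNat 81⟩, .ofNat 475, .negSucc 393, .ofNat 0, .negSucc 393, .ofNat 1453, .ofNat 0, .ofNat 2223, .ofNat 1771, .negSucc 4136, .ofNat 0, .ofNat 1359, .negSucc 1191, .ofNat 0, .ofNat 0, .ofNat 5045, .ofNat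 20533, .ofNat 0, .ofNat 1142459094753681200614303019827200, .ofNat 0, .ofNat 0, .ofNat 0, .ofNat 222133828576556776702100456551219200, .ofNat 50298324268745764689149952000, .ofNat 0, .ofNat 0, .ofNat 137838686203417177161836763335884800, .ofNat 0, .ofNat 0, .ofNat 0, .ofNat 204812991489682827507723500991283200, .ofNat 0, .ofNat 0⟩)
    (by decide +kernel)
theorem L00441 : Good (Phi V4.P V4.D 1 1) ⟨4, 13, 3, 1, 1, 1, 1, 1, 2, 1⟩ :=
  out_sound (S := T4.ds_pp) T4.ok_pp (w := 56) (j := 3) (by decide +kernel)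
theorem L00442 : Good (Phi V4.P V4.D 1 1) ⟨3, 7, 3, 1, 1, 1, 1, 1, 2, 1⟩ :=
  out_sound (S := T4.ds_pp) T4.ok_pp (w := 48) (j := 3) (by decide +kernel)
theorem L00443 : Good (Phi V4.P V4.D 1 1) ⟨2, 2, 2, 1, 0, 0, 1, 0, 1, 0⟩ :=
  out_sound (S := T4.ds_pp) T4.ok_pp (w := 40) (j := 3) (by decide +kernel)
theorem L00444 : Good (Phi V4.P V4.D 1 1) ⟨4, 12, 4, 4, 1, 0, 3, 0, 3, 0⟩ :=
  leaf_sound (S := T4.ds_pp) T4.ok_pp (w := 168) (c := ⟨⟨.negSucc 990, .negSucc 247, .ofNat 21, .negSucc 53, .ofNat 43, .negSucc 389⟩, ⟨.negSucc 321, .negSucc 112, .negSucc 49, .ofNat 21, .ofNat 13, .negSucc 137⟩, ⟨.ofNat 1528, .ofNat 209, .negSucc 8, .ofNat 65, .negSucc 153, .ofNat 145⟩, ⟨.negSucc 1663, .negSucc 315, .ofNat 27, .negSucc 376, .ofNat 97, .negSucc 665⟩, ⟨.negSucc 86, .ofNat 96, .negSucc 0, .ofNat 796, .negSucc 74, .ofNat 50⟩, .ofNat 514, .negSucc 486, .ofNat 0, .negSucc 486, .ofNat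 1580, .ofNat 0, .ofNat 228, .ofNat 202, .negSucc 385, .ofNat 0, .ofNat 152, .negSucc 116, .ofNat 0, .ofNat 0, .ofNat 562, .ofNat 3597, .ofNat 0, .ofNat 0, .ofNat 0, .ofNat 0, .ofNat 0, .ofNat 0, .ofNat 0, .ofNat 0, .ofNat 0, .ofNat 0, .ofNat 0, .ofNat 0, .ofNat 0, .ofNat 0, .ofNat 0, .ofNat 0⟩)
    (by decide +kernel)
theorem L00445 : Good (Phi V4.P V4.D 1 1) ⟨4, 12, 4, 4, 2, 2, 3, 0, 3, 0⟩ :=
  leaf_sound (S := T4.ds_pp) T4.ok_pp (w := 184) (c := ⟨⟨.negSucc 592, .negSucc 76, .negSucc 71, .ofNat 86, .negSucc 214, .negSucc 1070⟩, ⟨.negSucc 156, .ofNat 12, .negSucc 107, .ofNat 58, .negSucc 82, .negSucc 368⟩, ⟨.ofNat 1399, .ofNat 76, .ofNat 72, .negSucc 226, .negSucc 0, .ofNat 368⟩, ⟨.negSucc 1225, .negSucc 76, .negSucc 158, .negSucc 56, .negSucc 326, .negSucc 1881⟩, ⟨.ofNat 590, .ofNat 128, .ofNat 20, .ofNat 560, .negSucc 75, .ofNat 297⟩, .ofNat 756, .negSucc 1026, .ofNat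 0, .negSucc 1026, .ofNat 3006, .ofNat 0, .ofNat 224, .ofNat 298, .negSucc 367, .ofNat 0, .ofNat 160, .negSucc 117, .ofNat 0, .ofNat 0, .ofNat 519, .ofNat 5505, .ofNat 0, .ofNat 0, .ofNat 0, .ofNat 0, .ofNat 2622302897654817000137487636076953600, .ofNat 0, .ofNat 13521732418594631631386758348800, .ofNat 0, .ofNat 0, .ofNat 0, .ofNat 7858867373557770614533521408000, .ofNat 0, .ofNat 0, .ofNat 0, .ofNat 0, .ofNat 0⟩)
    (by decide +kernel)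
theorem L00446 : Good (Phi V4.P V4.D 1 1) ⟨4, 12, 4, 4, 2, 3, 3, 0, 4, 0⟩ :=
  leaf_sound (S := T4.ds_pp) T4.ok_pp (w := 184) (c := ⟨⟨.ofNat 142, .negSucc 91, .ofNat 149, .ofNat 1233, .negSucc 475, .negSucc 2065⟩, ⟨.ofNat 81, .ofNat 75, .negSucc 4, .ofNat 499, .negSucc 179, .negSucc 733⟩, ⟨.ofNat 844, .ofNat 66, .negSucc 18, .negSucc 976, .ofNat 164, .ofNat 992⟩, ⟨.negSucc 60, .negSucc 226, .ofNat 171, .ofNat 1719, .negSucc 737, .negSucc 3532⟩, ⟨.ofNat 923, .ofNat 186, .ofNat 51, .ofNat 867, .negSucc 140, .ofNat 315⟩, .ofNat 749, .negSucc 1011, .ofNat 0, .negSucc 1011, .ofNat 2970, .ofNat 0, .ofNat 271, .ofNat 418, .negSucc 549, .ofNat 0, .ofNat 197, .negSucc 190, .ofNat 0, .ofNat 0, .ofNat 568, .ofNat 2674, .ofNat 0, .ofNat 0, .ofNat 0, .ofNat 0, .ofNat 0, .ofNat 0, .ofNat 287155109529175835965991052902400, .ofNat 0, .ofNat 0, .ofNat 0, .ofNat 208045769261923463404216909824000,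 .ofNat 0, .ofNat 0, .ofNat 0, .ofNat 196320591392058804753715219660800, .ofNat 0⟩)
    (by decide +kernel)
theorem L00447 : Good (Phi V4.P V4.D 1 1) ⟨4, 12, 4, 4, 2, 3, 3, 0, 4, 1⟩ :=
  leaf_sound (S := T4.ds_pp) T4.ok_pp (w := 184) (c := ⟨⟨.negSucc 1176, .negSucc 296, .ofNat 31, .negSucc 68, .negSucc 142, .negSucc 719⟩, ⟨.negSucc 341, .ofNat 6, .negSucc 125, .ofNat 33, .negSucc 59, .negSucc 235⟩, ⟨.ofNat 1475, .ofNat 130, .ofNat 76, .negSucc 408, .ofNat 2, .ofNat 148⟩, ⟨.negSucc 2423, .negSucc 502, .ofNat 17, .negSucc 491, .negSucc 170, .negSucc 1338⟩, ⟨.ofNat 1250, .ofNat 363, .negSucc 102, .ofNat 1053, .negSucc 186, .ofNat 404⟩, .ofNat 752, .negSucc 1023, .ofNat 0, .negSucc 1023, .ofNat 3023, .ofNat 0, .ofNat 266, .ofNat 384, .negSucc 385, .ofNat 0, .ofNat 184, .negSucc 128, .ofNat 0, .ofNat 0, .ofNat 516, .ofNat 5780, .ofNat 0, .ofNat 0, .ofNat 0, .ofNat 0, .ofNat 0,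 .ofNat 0, .ofNat 276855717371422491322906941849600, .ofNat 0, .ofNat 0, .ofNat 0, .ofNat 150621971096114021410214510592000, .ofNat 0, .ofNat 0, .ofNat 0, .ofNat 0, .ofNat 0⟩)
    (by decide +kernel)
theorem L00448 : Good (Phi V4.P V4.D 1 1) ⟨4, 12, 4, 4, 1, 0, 3, 1, 3, 0⟩ :=
  leaf_sound (S := T4.ds_pp) T4.ok_pp (w := 168) (c := ⟨⟨.negSucc 965, .negSucc 217, .negSucc 12, .negSucc 145, .ofNat 29, .negSucc 304⟩, ⟨.negSucc 308, .negSucc 115, .negSucc 53, .negSucc 20, .ofNat 8, .negSucc 106⟩, ⟨.ofNat 1390, .ofNat 158, .ofNat 30, .ofNat 174, .negSucc 167, .ofNat 37⟩, ⟨.negSucc 1647, .negSucc 227, .negSucc 36, .negSucc 461, .ofNat 75, .negSucc 517⟩, ⟨.negSucc 32, .ofNat 9, .ofNat 26, .ofNat 620, .negSucc 79, .ofNat 30⟩, .ofNat 512, .negSucc 481, .ofNat 0, .negSucc 481, .ofNat 1579, .ofNat 0, .ofNat 232, .ofNat 201, .negSucc 385, .ofNat 0, .ofNat 154, .negSucc 115, .ofNat 0, .ofNat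 0, .ofNat 582, .ofNat 5104, .ofNat 0, .ofNat 0, .ofNat 0, .ofNat 0, .ofNat 0, .ofNat 0, .ofNat 0, .ofNat 0, .ofNat 0, .ofNat 0, .ofNat 0, .ofNat 0, .ofNat 0, .ofNat 0, .ofNat 0, .ofNat 0⟩)
    (by decide +kernel)
theorem L00449 : Good (Phi V4.P V4.D 1 1) ⟨4, 12, 4, 4, 2, 2, 3, 1, 3, 0⟩ :=
  leaf_sound (S := T4.ds_pp) T4.ok_pp (w := 184) (c := ⟨⟨.negSucc 760, .negSucc 129, .negSucc 96, .negSucc 7, .negSucc 80, .negSucc 921⟩, ⟨.negSucc 214, .negSucc 24, .negSucc 110, .ofNat 22, .negSucc 38, .negSucc 318⟩, ⟨.ofNat 1355, .ofNat 123, .ofNat 94, .negSucc 138, .negSucc 80, .ofNat 278⟩, ⟨.negSucc 1497, .negSucc 132, .negSucc 207, .negSucc 207, .negSucc 85, .negSucc 1604⟩, ⟨.ofNat 544, .ofNat 101, .ofNat 40, .ofNat 549, .negSucc 126, .ofNat 203⟩, .ofNat 761, .negSucc 1038, .ofNat 0, .negSucc 1038, .ofNat 3035, .ofNat 0, .ofNat 225, .ofNat 301, .negSucc 381, .ofNat 0, .ofNat 163,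 .negSucc 121, .ofNat 0, .ofNat 0, .ofNat 545, .ofNat 2393, .ofNat 0, .ofNat 0, .ofNat 0, .ofNat 0, .ofNat 0, .ofNat 0, .ofNat 15204501514015425821446609305600, .ofNat 0, .ofNat 0, .ofNat 0, .ofNat 7954428867576640841886518476800, .ofNat 0, .ofNat 0, .ofNat 0, .ofNat 0, .ofNat 0⟩)
    (by decide +kernel)
theorem L00450 : Good (Phi V4.P V4.D 1 1) ⟨5, 24, 4, 4, 2, 3, 3, 1, 4, 0⟩ :=
  leaf_sound (S := T4.ds_pp) T4.ok_pp (w := 192) (c := ⟨⟨.negSucc 5, .negSucc 217, .negSucc 29, .ofNat 597, .negSucc 261, .negSucc 1539⟩, ⟨.ofNat 33, .negSucc 31, .negSucc 87, .ofNat 237, .negSucc 94, .negSucc 510⟩, ⟨.ofNat 824, .ofNat 130, .ofNat 75, .negSucc 591, .ofNat 41, .ofNat 693⟩, ⟨.negSucc 308, .negSucc 379, .negSucc 97, .ofNat 753, .negSucc 407, .negSucc 2699⟩, ⟨.ofNat 873, .ofNat 113, .negSucc 34, .ofNat 730, .negSucc 90, .ofNat 318⟩, .ofNat 952, .negSucc 1565, .ofNat 0, .negSucc 1565,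 .ofNat 4629, .ofNat 0, .ofNat 245, .ofNat 430, .negSucc 523, .ofNat 0, .ofNat 190, .negSucc 173, .ofNat 0, .ofNat 0, .ofNat 574, .ofNat 1742, .ofNat 0, .ofNat 0, .ofNat 0, .ofNat 0, .ofNat 0, .ofNat 0, .ofNat 0, .ofNat 0, .ofNat 0, .ofNat 0, .ofNat 0, .ofNat 0, .ofNat 0, .ofNat 0, .ofNat 0, .ofNat 0⟩)
    (by decide +kernel)
theorem L00451 : Good (Phi V4.P V4.D 1 1) ⟨5, 24, 4, 4, 2, 3, 3, 1, 4, 1⟩ :=
  leaf_sound (S := T4.ds_pp) T4.ok_pp (w := 192) (c := ⟨⟨.negSucc 1372, .negSucc 196, .negSucc 23, .negSucc 123, .negSucc 130, .negSucc 561⟩, ⟨.negSucc 411, .negSucc 25, .negSucc 143, .ofNat 5, .negSucc 52, .negSucc 174⟩, ⟨.ofNat 1478, .ofNat 133, .ofNat 67, .negSucc 352, .negSucc 3, .ofNat 72⟩, ⟨.negSucc 2714, .negSucc 298, .negSucc 95, .negSucc 563, .negSucc 154, .negSucc 1065⟩, ⟨.ofNat 1104, .ofNat 118, .negSucc 7, .ofNat 1046, .negSucc 185, .ofNat 365⟩, .ofNat 943, .negSucc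 1542, .ofNat 0, .negSucc 1542, .ofNat 4576, .ofNat 0, .ofNat 245, .ofNat 400, .negSucc 391, .ofNat 0, .ofNat 179, .negSucc 126, .ofNat 0, .ofNat 0, .ofNat 528, .ofNat 2960, .ofNat 0, .ofNat 0, .ofNat 0, .ofNat 0, .ofNat 0, .ofNat 0, .ofNat 0, .ofNat 0, .ofNat 0, .ofNat 0, .ofNat 0, .ofNat 0, .ofNat 0, .ofNat 0, .ofNat 0, .ofNat 0⟩)
    (by decide +kernel)
theorem L00452 : Good (Phi V4.P V4.D 1 1) ⟨5, 25, 4, 4, 2, 3, 3, 1, 4, 0⟩ :=
  leaf_sound (S := T4.ds_pp) T4.ok_pp (w := 192) (c := ⟨⟨.negSucc 246, .ofNat 62, .negSucc 4, .ofNat 904, .negSucc 284, .negSucc 1861⟩, ⟨.negSucc 3, .ofNat 86, .negSucc 71, .ofNat 385, .negSucc 109, .negSucc 684⟩, ⟨.ofNat 949, .negSucc 9, .ofNat 73, .negSucc 759, .ofNat 65, .ofNat 873⟩, ⟨.negSucc 711, .ofNat 70, .negSucc 75, .ofNat 1216, .negSucc 437, .negSucc 3190⟩, ⟨.ofNat 928, .ofNat 100, .ofNat 30, .ofNat 697, .negSucc 89, .ofNat 391⟩, .ofNat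 929, .negSucc 1389, .ofNat 0, .negSucc 1389, .ofNat 3745, .ofNat 0, .ofNat 255, .ofNat 447, .negSucc 590, .ofNat 0, .ofNat 215, .negSucc 215, .ofNat 0, .ofNat 0, .ofNat 599, .ofNat 1404, .ofNat 0, .ofNat 0, .ofNat 0, .ofNat 0, .ofNat 0, .ofNat 0, .ofNat 175764285771791826206597736038400, .ofNat 0, .ofNat 0, .ofNat 0, .ofNat 122108625681592048219036267315200, .ofNat 0, .ofNat 0, .ofNat 0, .ofNat 0, .ofNat 0⟩)
    (by decide +kernel)
theorem L00453 : Good (Phi V4.P V4.D 1 1) ⟨5, 25, 4, 4, 2, 3, 3, 1, 4, 1⟩ :=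
  leaf_sound (S := T4.ds_pp) T4.ok_pp (w := 192) (c := ⟨⟨.negSucc 1478, .negSucc 157, .negSucc 55, .negSucc 57, .negSucc 219, .negSucc 653⟩, ⟨.negSucc 394, .negSucc 6, .negSucc 157, .ofNat 32, .negSucc 91, .negSucc 224⟩, ⟨.ofNat 1544, .ofNat 81, .ofNat 93, .negSucc 374, .ofNat 40, .ofNat 134⟩, ⟨.negSucc 2869, .negSucc 261, .negSucc 148, .negSucc 447, .negSucc 310, .negSucc 1206⟩, ⟨.ofNat 1254, .ofNat 202, .negSucc 14, .ofNat 936, .negSucc 127, .ofNat 359⟩, .ofNat 1024, .negSucc 1608, .ofNat 0, .negSucc 1608, .ofNat 4277, .ofNat 0, .ofNat 250, .ofNat 409, .negSucc 426, .ofNat 0, .ofNat 201, .negSucc 150, .ofNat 0, .ofNat 0, .ofNat 541, .ofNat 4640, .ofNat 0, .ofNat 0, .ofNat 0, .ofNat 0, .ofNat 0, .ofNat 0, .ofNat 161643403367250206430572052480000, .ofNat 0, .ofNat 0, .ofNat 0, .ofNat 104025472478818262401473419673600, .ofNat 0, .ofNat 0, .ofNat 0, .ofNat 0, .ofNat 0⟩)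
    (by decide +kernel)
theorem L00454 : Good (Phi V4.P V4.D 1 1) ⟨4, 12, 4, 4, 1, 0, 2, 0, 3, 1⟩ :=
  leaf_sound (S := T4.ds_pp) T4.ok_pp (w := 168) (c := ⟨⟨.negSucc 1299, .negSucc 171, .negSucc 14, .negSucc 193, .ofNat 92, .ofNat 76⟩, ⟨.negSucc 413, .negSucc 102, .negSucc 63, .negSucc 41, .ofNat 23, .ofNat 20⟩, ⟨.ofNat 1765, .ofNat 175, .ofNat 3, .negSucc 80, .negSucc 385, .negSucc 324⟩, ⟨.negSucc 2269, .negSucc 127, .negSucc 31, .negSucc 507, .ofNat 217, .ofNat 171⟩, ⟨.ofNat 137, .negSucc 6, .negSucc 6, .ofNat 526, .negSucc 182, .negSucc 130⟩, .ofNat 322, .negSucc 160, .ofNat 0, .negSucc 160, .ofNat 681, .ofNat 0, .ofNat 266, .ofNat 139, .negSucc 332, .ofNat 0, .ofNat 178, .negSucc 65, .ofNat 0, .ofNat 0, .ofNat 559, .ofNat 4213, .ofNat 0, .ofNat 0, .ofNat 0, .ofNat 0, .ofNat 0, .ofNat 0, .ofNat 0, .ofNat 0, .ofNat 0, .ofNat 0, .ofNat 0, .ofNat 0, .ofNat 0, .ofNat 0,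 .ofNat 0, .ofNat 0⟩)
    (by decide +kernel)
theorem L00455 : Good (Phi V4.P V4.D 1 1) ⟨4, 12, 4, 4, 1, 1, 2, 0, 3, 1⟩ :=
  leaf_sound (S := T4.ds_pp) T4.ok_pp (w := 168) (c := ⟨⟨.negSucc 1372, .negSucc 346, .ofNat 73, .negSucc 745, .negSucc 161, .ofNat 41⟩, ⟨.negSucc 419, .negSucc 63, .negSucc 98, .negSucc 151, .negSucc 79, .ofNat 2⟩, ⟨.ofNat 1570, .ofNat 240, .negSucc 9, .negSucc 307, .negSucc 2, .negSucc 442⟩, ⟨.negSucc 2552, .negSucc 469, .ofNat 64, .negSucc 2087, .negSucc 107, .ofNat 131⟩, ⟨.ofNat 641, .ofNat 166, .ofNat 24, .ofNat 2371, .negSucc 465, .negSucc 194⟩, .ofNat 515, .negSucc 489, .ofNat 0, .negSucc 489, .ofNat 1596, .ofNat 0, .ofNat 541, .ofNat 504, .negSucc 493, .ofNat 0, .ofNat 329, .negSucc 130, .ofNat 0, .ofNat 0, .ofNat 988, .ofNat 4686, .ofNat 0, .ofNat 0, .ofNat 0, .ofNat 0, .ofNat 0, .ofNat 0, .ofNat 7716664085433746109707059200, .ofNat 0, .ofNat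 0, .ofNat 0, .ofNat 7840384917392274712480972800, .ofNat 0, .ofNat 0, .ofNat 0, .ofNat 5758252710206638556971008000, .ofNat 0⟩)
    (by decide +kernel)
theorem L00456 : Good (Phi V4.P V4.D 1 1) ⟨4, 12, 4, 4, 1, 0, 2, 0, 2, 1⟩ :=
  leaf_sound (S := T4.ds_pp) T4.ok_pp (w := 168) (c := ⟨⟨.negSucc 1153, .negSucc 104, .negSucc 3, .negSucc 280, .ofNat 35, .ofNat 284⟩, ⟨.negSucc 359, .negSucc 87, .negSucc 47, .negSucc 90, .ofNat 0, .ofNat 95⟩, ⟨.ofNat 1483, .ofNat 163, .negSucc 21, .negSucc 244, .negSucc 337, .negSucc 670⟩, ⟨.negSucc 2043, .negSucc 46, .ofNat 1, .negSucc 534, .ofNat 134, .ofNat 532⟩, ⟨.ofNat 182, .ofNat 45, .negSucc 25, .ofNat 191, .negSucc 210, .negSucc 170⟩, .ofNat 512, .negSucc 479, .ofNat 0, .negSucc 479, .ofNat 1559, .ofNat 0, .ofNat 375, .ofNat 319, .negSucc 361, .ofNat 0, .ofNat 252, .negSucc 102, .ofNat 0, .ofNat 0, .ofNat 931, .ofNat 8106, .ofNat 0, .ofNat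 0, .ofNat 0, .ofNat 0, .ofNat 0, .ofNat 0, .ofNat 0, .ofNat 0, .ofNat 0, .ofNat 0, .ofNat 0, .ofNat 0, .ofNat 25976974304548944927630465328742400, .ofNat 0, .ofNat 119794860471010516756070400, .ofNat 0⟩)
    (by decide +kernel)
theorem L00457 : Good (Phi V4.P V4.D 1 1) ⟨4, 12, 4, 4, 1, 1, 2, 0, 3, 2⟩ :=
  leaf_sound (S := T4.ds_pp) T4.ok_pp (w := 168) (c := ⟨⟨.negSucc 1461, .negSucc 187, .ofNat 44, .negSucc 577, .negSucc 105, .ofNat 271⟩, ⟨.negSucc 467, .negSucc 29, .negSucc 92, .negSucc 91, .negSucc 50, .ofNat 70⟩, ⟨.ofNat 1160, .ofNat 75, .ofNat 8, .negSucc 375, .ofNat 92, .negSucc 580⟩, ⟨.negSucc 2582, .negSucc 228, .ofNat 36, .negSucc 1796, .negSucc 92, .ofNat 616⟩, ⟨.ofNat 292, .ofNat 258, .negSucc 31, .ofNat 2346, .negSucc 250, .negSucc 476⟩, .ofNat 512, .negSucc 481, .ofNat 0, .negSucc 481, .ofNat 1591, .ofNat 0, .ofNat 447, .ofNat 376, .negSucc 290, .ofNat 0, .ofNat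 276, .negSucc 63, .ofNat 0, .ofNat 0, .ofNat 937, .ofNat 5244, .ofNat 0, .ofNat 0, .ofNat 0, .ofNat 0, .ofNat 0, .ofNat 0, .ofNat 8248610426269099075043328000, .ofNat 0, .ofNat 0, .ofNat 3584173802582144808327957184512000, .ofNat 7289863546584805662523392000, .ofNat 0, .ofNat 0, .ofNat 3212668267774687146839517639475200, .ofNat 0, .ofNat 0⟩)
    (by decide +kernel)
theorem L00458 : Good (Phi V4.P V4.D 1 1) ⟨4, 12, 4, 4, 1, 1, 2, 0, 3, 3⟩ :=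
  leaf_sound (S := T4.ds_pp) T4.ok_pp (w := 168) (c := ⟨⟨.negSucc 1229, .negSucc 130, .ofNat 14, .negSucc 547, .negSucc 79, .ofNat 192⟩, ⟨.negSucc 386, .negSucc 82, .negSucc 50, .negSucc 138, .negSucc 35, .ofNat 62⟩, ⟨.ofNat 570, .ofNat 59, .negSucc 17, .negSucc 268, .ofNat 83, .negSucc 394⟩, ⟨.negSucc 2157, .negSucc 120, .ofNat 33, .negSucc 1303, .negSucc 97, .ofNat 374⟩, ⟨.ofNat 152, .ofNat 142, .negSucc 41, .ofNat 1104, .negSucc 98, .negSucc 156⟩, .ofNat 766, .negSucc 1049, .ofNat 0, .negSucc 1049, .ofNat 3047, .ofNat 0, .ofNat 306, .ofNat 352, .negSucc 224, .ofNat 0, .ofNat 216, .negSucc 62, .ofNat 0, .ofNat 0, .ofNat 883, .ofNat 5765, .ofNat 0, .ofNat 0, .ofNat 0, .ofNat 0, .ofNat 0, .ofNat 5436716067306366645507821509017600, .ofNat 14241382076074758856350105600, .ofNat 0, .ofNat 0, .ofNat 8291354209690690478442197444198400, .ofNat 9556329861604151527263436800, .ofNat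 0, .ofNat 0, .ofNat 6345743212489249444136525129318400, .ofNat 0, .ofNat 0⟩)
    (by decide +kernel)
theorem L00459 : Good (Phi V4.P V4.D 1 1) ⟨4, 13, 4, 4, 0, 0, 2, 0, 1, 0⟩ :=
  out_sound (S := T4.ds_pp) T4.ok_pp (w := 56) (j := 3) (by decide +kernel)
theorem L00460 : Good (Phi V4.P V4.D 1 1) ⟨4, 12, 5, 8, 1, 0, 3, 2, 3, 0⟩ :=
  leaf_sound (S := T4.ds_pp) T4.ok_pp (w := 176) (c := ⟨⟨.negSucc 906, .negSucc 217, .negSucc 15, .negSucc 218, .ofNat 12, .negSucc 278⟩, ⟨.negSucc 287, .negSucc 116, .negSucc 30, .negSucc 51, .ofNat 1, .negSucc 97⟩, ⟨.ofNat 1188, .ofNat 237, .ofNat 16, .ofNat 224, .negSucc 200, .ofNat 13⟩, ⟨.negSucc 1554, .negSucc 247, .negSucc 16, .negSucc 527, .ofNat 44, .negSucc 457⟩, ⟨.negSucc 19, .ofNat 63, .negSucc 33, .ofNat 464, .negSucc 66, .negSucc 26⟩, .ofNat 1016, .negSucc 1701, .ofNat 0, .negSucc 1701, .ofNat 4918, .ofNat 0, .ofNat 195, .ofNat 241,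 .negSucc 352, .ofNat 0, .ofNat 138, .negSucc 115, .ofNat 0, .ofNat 0, .ofNat 573, .ofNat 2295, .ofNat 0, .ofNat 0, .ofNat 0, .ofNat 0, .ofNat 0, .ofNat 0, .ofNat 41215712401084984497222451200, .ofNat 0, .ofNat 0, .ofNat 0, .ofNat 40796821160659227160608768000, .ofNat 0, .ofNat 0, .ofNat 0, .ofNat 0, .ofNat 0⟩)
    (by decide +kernel)
theorem L00461 : Good (Phi V4.P V4.D 1 1) ⟨4, 12, 5, 8, 2, 2, 3, 2, 4, 0⟩ :=
  leaf_sound (S := T4.ds_pp) T4.ok_pp (w := 184) (c := ⟨⟨.negSucc 804, .negSucc 253, .negSucc 12, .negSucc 38, .negSucc 84, .negSucc 552⟩, ⟨.negSucc 244, .negSucc 65, .negSucc 38, .ofNat 13, .negSucc 37, .negSucc 185⟩, ⟨.ofNat 1233, .ofNat 210, .ofNat 12, .negSucc 78, .negSucc 90, .ofNat 209⟩, ⟨.negSucc 1524, .negSucc 376, .negSucc 36, .negSucc 244, .negSucc 91, .negSucc 961⟩, ⟨.ofNat 419, .ofNat 177, .ofNat 9, .ofNat 517, .negSucc 140, .ofNat 115⟩, .ofNat 732, .negSucc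 980, .ofNat 0, .negSucc 980, .ofNat 2965, .ofNat 0, .ofNat 243, .ofNat 315, .negSucc 427, .ofNat 0, .ofNat 170, .negSucc 130, .ofNat 0, .ofNat 0, .ofNat 582, .ofNat 3683, .ofNat 0, .ofNat 0, .ofNat 0, .ofNat 0, .ofNat 0, .ofNat 0, .ofNat 284030857638459193746317849395200, .ofNat 0, .ofNat 0, .ofNat 0, .ofNat 199144534633207800300910411776000, .ofNat 0, .ofNat 0, .ofNat 0, .ofNat 0, .ofNat 0⟩)
    (by decide +kernel)
theorem L00462 : Good (Phi V4.P V4.D 1 1) ⟨4, 12, 5, 8, 2, 3, 3, 2, 4, 0⟩ :=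
  leaf_sound (S := T4.ds_pp) T4.ok_pp (w := 184) (c := ⟨⟨.negSucc 426, .negSucc 197, .negSucc 50, .ofNat 534, .negSucc 260, .negSucc 1419⟩, ⟨.negSucc 110, .ofNat 6, .negSucc 61, .ofNat 223, .negSucc 94, .negSucc 474⟩, ⟨.ofNat 922, .ofNat 158, .ofNat 59, .negSucc 533, .ofNat 45, .ofNat 635⟩, ⟨.negSucc 999, .negSucc 338, .negSucc 104, .ofNat 657, .negSucc 403, .negSucc 2486⟩, ⟨.ofNat 773, .ofNat 237, .negSucc 0, .ofNat 671, .negSucc 96, .ofNat 349⟩, .ofNat 730, .negSucc 976, .ofNat 0, .negSucc 976, .ofNat 2950, .ofNat 0, .ofNat 280, .ofNat 425, .negSucc 564, .ofNat 0, .ofNat 204, .negSucc 181, .ofNat 0, .ofNat 0, .ofNat 604, .ofNat 934, .ofNat 0, .ofNat 0, .ofNat 0, .ofNat 0, .ofNat 0, .ofNat 0, .ofNat 0, .ofNat 0, .ofNat 0, .ofNat 0, .ofNat 216360626447300166068690799820800, .ofNat 0, .ofNat 0, .ofNat 0, .ofNat 0, .ofNat 0⟩)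
    (by decide +kernel)
theorem L00463 : Good (Phi V4.P V4.D 1 1) ⟨4, 12, 5, 8, 1, 1, 3, 2, 4, 1⟩ :=
  leaf_sound (S := T4.ds_pp) T4.ok_pp (w := 176) (c := ⟨⟨.negSucc 1041, .negSucc 366, .negSucc 21, .negSucc 806, .negSucc 134, .negSucc 411⟩, ⟨.negSucc 327, .negSucc 97, .negSucc 60, .negSucc 190, .negSucc 53, .negSucc 133⟩, ⟨.ofNat 1314, .ofNat 242, .ofNat 43, .ofNat 2, .negSucc 29, .ofNat 65⟩, ⟨.negSucc 1883, .negSucc 536, .negSucc 51, .negSucc 1933, .negSucc 179, .negSucc 749⟩, ⟨.ofNat 270, .ofNat 263, .negSucc 13, .ofNat 1693, .negSucc 130, .ofNat 178⟩, .ofNat 734, .negSucc 986, .ofNat 0, .negSucc 986, .ofNat 2976, .ofNat 0, .ofNat 251, .ofNat 336, .negSucc 389, .ofNat 0, .ofNat 175, .negSucc 118, .ofNat 0, .ofNat 0, .ofNat 554, .ofNat 2129, .ofNat 0, .ofNat 0, .ofNat 0, .ofNat 0, .ofNat 0, .ofNat 0, .ofNat 479057266938260945015459020800, .ofNat 0, .ofNat 0, .ofNat 0,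 .ofNat 241780541378674716116936294400, .ofNat 0, .ofNat 0, .ofNat 0, .ofNat 0, .ofNat 0⟩)
    (by decide +kernel)
theorem L00464 : Good (Phi V4.P V4.D 1 1) ⟨4, 12, 5, 8, 1, 0, 3, 2, 3, 1⟩ :=
  leaf_sound (S := T4.ds_pp) T4.ok_pp (w := 176) (c := ⟨⟨.negSucc 1160, .negSucc 130, .negSucc 5, .negSucc 327, .ofNat 45, .ofNat 53⟩, ⟨.negSucc 369, .negSucc 97, .negSucc 26, .negSucc 94, .ofNat 11, .ofNat 14⟩, ⟨.ofNat 1303, .ofNat 137, .ofNat 10, .ofNat 54, .negSucc 188, .negSucc 264⟩, ⟨.negSucc 2015, .negSucc 41, .negSucc 16, .negSucc 669, .ofNat 106, .ofNat 129⟩, ⟨.ofNat 64, .negSucc 66, .ofNat 17, .ofNat 351, .negSucc 89, .negSucc 116⟩, .ofNat 505, .negSucc 464, .ofNat 0, .negSucc 464, .ofNat 1555, .ofNat 0, .ofNat 223, .ofNat 186, .negSucc 287, .ofNat 0, .ofNat 147, .negSucc 81, .ofNat 0, .ofNat 0, .ofNat 533, .ofNat 6639, .ofNat 0, .ofNat 0, .ofNat 0, .ofNat 0, .ofNat 0, .ofNat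 0, .ofNat 17086127668316457780274790400, .ofNat 0, .ofNat 0, .ofNat 0, .ofNat 23872013750670707125754265600, .ofNat 0, .ofNat 0, .ofNat 0, .ofNat 0, .ofNat 0⟩)
    (by decide +kernel)
theorem L00465 : Good (Phi V4.P V4.D 1 1) ⟨5, 24, 5, 8, 1, 1, 3, 2, 3, 1⟩ :=
  leaf_sound (S := T4.ds_pp) T4.ok_pp (w := 176) (c := ⟨⟨.negSucc 1537, .negSucc 149, .ofNat 57, .negSucc 788, .negSucc 71, .ofNat 92⟩, ⟨.negSucc 495, .negSucc 40, .negSucc 39, .negSucc 161, .negSucc 33, .ofNat 27⟩, ⟨.ofNat 1436, .ofNat 92, .negSucc 34, .negSucc 62, .negSucc 16, .negSucc 375⟩, ⟨.negSucc 2685, .negSucc 160, .ofNat 56, .negSucc 2140, .negSucc 57, .ofNat 172⟩, ⟨.ofNat 183, .ofNat 3, .ofNat 38, .ofNat 2369, .negSucc 175, .negSucc 53⟩, .ofNat 752, .negSucc 1045, .ofNat 0, .negSucc 1045, .ofNat 3184, .ofNat 0, .ofNat 460, .ofNat 587, .negSucc 523, .ofNat 0, .ofNat 310, .negSucc 153, .ofNat 0, .ofNat 0, .ofNat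 1003, .ofNat 4505, .ofNat 0, .ofNat 0, .ofNat 0, .ofNat 0, .ofNat 0, .ofNat 0, .ofNat 0, .ofNat 0, .ofNat 0, .ofNat 0, .ofNat 0, .ofNat 0, .ofNat 0, .ofNat 0, .ofNat 0, .ofNat 0⟩)
    (by decide +kernel)
theorem L00466 : Good (Phi V4.P V4.D 1 1) ⟨5, 25, 5, 8, 1, 1, 3, 2, 3, 1⟩ :=
  leaf_sound (S := T4.ds_pp) T4.ok_pp (w := 176) (c := ⟨⟨.negSucc 1568, .ofNat 6, .negSucc 37, .negSucc 992, .negSucc 77, .ofNat 92⟩, ⟨.negSucc 500, .ofNat 13, .negSucc 77, .negSucc 199, .negSucc 40, .ofNat 22⟩, ⟨.ofNat 1454, .ofNat 4, .ofNat 44, .ofNat 85, .negSucc 24, .negSucc 400⟩, ⟨.negSucc 2716, .ofNat 67, .negSucc 51, .negSucc 2466, .negSucc 65, .ofNat 216⟩, ⟨.ofNat 383, .ofNat 93, .negSucc 88, .ofNat 2317, .negSucc 172, .negSucc 180⟩, .ofNat 703, .negSucc 878, .ofNat 0, .negSucc 878, .ofNat 2560, .ofNat 0, .ofNat 477, .ofNat 555, .negSucc 533, .ofNat 0, .ofNat 329, .negSucc 155, .ofNat 0,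 .ofNat 0, .ofNat 1012, .ofNat 4289, .ofNat 0, .ofNat 0, .ofNat 195015910454107948567756800, .ofNat 0, .ofNat 0, .ofNat 0, .ofNat 67364911149992930892054528000, .ofNat 0, .ofNat 0, .ofNat 0, .ofNat 46943234137748749490218598400, .ofNat 0, .ofNat 0, .ofNat 0, .ofNat 0, .ofNat 0⟩)
    (by decide +kernel)
theorem L00467 : Good (Phi V4.P V4.D 1 1) ⟨4, 12, 5, 8, 1, 0, 3, 2, 2, 1⟩ :=
  leaf_sound (S := T4.ds_pp) T4.ok_pp (w := 168) (c := ⟨⟨.negSucc 1098, .negSucc 73, .ofNat 0, .negSucc 344, .ofNat 10, .ofNat 293⟩, ⟨.negSucc 351, .negSucc 81, .negSucc 18, .negSucc 111, .ofNat 3, .ofNat 94⟩, ⟨.ofNat 1088, .ofNat 32, .ofNat 9, .negSucc 142, .negSucc 62, .negSucc 533⟩, ⟨.negSucc 1895, .ofNat 36, .negSucc 2, .negSucc 616, .ofNat 21, .ofNat 538⟩, ⟨.ofNat 34, .negSucc 63, .ofNat 9, .ofNat 111, .negSucc 12, .negSucc 138⟩, .ofNat 879, .negSucc 1349, .ofNat 0, .negSucc 1349, .ofNat 3981,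 .ofNat 0, .ofNat 300, .ofNat 347, .negSucc 338, .ofNat 0, .ofNat 208, .negSucc 108, .ofNat 0, .ofNat 0, .ofNat 883, .ofNat 8442, .ofNat 0, .ofNat 0, .ofNat 0, .ofNat 0, .ofNat 0, .ofNat 0, .ofNat 7014120925194629943813734400, .ofNat 0, .ofNat 0, .ofNat 0, .ofNat 5762920051625116411153612800, .ofNat 0, .ofNat 0, .ofNat 0, .ofNat 0, .ofNat 0⟩)
    (by decide +kernel)
theorem L00468 : Good (Phi V4.P V4.D 1 1) ⟨4, 12, 5, 8, 2, 2, 3, 2, 2, 1⟩ :=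
  leaf_sound (S := T4.ds_pp) T4.ok_pp (w := 176) (c := ⟨⟨.negSucc 1445, .negSucc 155, .negSucc 5, .negSucc 410, .negSucc 60, .ofNat 381⟩, ⟨.negSucc 459, .negSucc 87, .negSucc 34, .negSucc 107, .negSucc 22, .ofNat 114⟩, ⟨.ofNat 986, .ofNat 48, .ofNat 31, .ofNat 24, .ofNat 21, .negSucc 745⟩, ⟨.negSucc 2546, .negSucc 120, .negSucc 27, .negSucc 907, .negSucc 93, .ofNat 755⟩, ⟨.ofNat 210, .ofNat 87, .ofNat 35, .ofNat 643, .negSucc 25, .negSucc 341⟩, .ofNat 731, .negSucc 982, .ofNat 0, .negSucc 982, .ofNat 2992, .ofNat 0, .ofNat 357, .ofNat 401, .negSucc 320, .ofNat 0, .ofNat 240, .negSucc 88, .ofNat 0, .ofNat 0, .ofNat 907, .ofNat 5570, .ofNat 0, .ofNat 0, .ofNat 0, .ofNat 0, .ofNat 0, .ofNat 0, .ofNat 3681413151245909806830059520000, .ofNat 0, .ofNat 0, .ofNat 935962623186867878829605767662796800, .ofNat 2499540396458439084118061875200, .ofNat 0, .ofNat 0, .ofNat 0, .ofNat 0,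 .ofNat 0⟩)
    (by decide +kernel)
theorem L00469 : Good (Phi V4.P V4.D 1 1) ⟨4, 12, 5, 8, 2, 3, 3, 2, 2, 1⟩ :=
  leaf_sound (S := T4.ds_pp) T4.ok_pp (w := 184) (c := ⟨⟨.negSucc 1920, .negSucc 231, .ofNat 37, .negSucc 205, .negSucc 108, .ofNat 649⟩, ⟨.negSucc 606, .negSucc 22, .negSucc 52, .ofNat 16, .negSucc 39, .ofNat 202⟩, ⟨.ofNat 1015, .ofNat 122, .negSucc 7, .negSucc 103, .ofNat 108, .negSucc 893⟩, ⟨.negSucc 3560, .negSucc 296, .ofNat 33, .negSucc 929, .negSucc 164, .ofNat 1270⟩, ⟨.ofNat 876, .ofNat 235, .ofNat 5, .ofNat 1685, .negSucc 49, .negSucc 539⟩, .ofNat 506, .negSucc 469, .ofNat 0, .negSucc 469, .ofNat 1585, .ofNat 0, .ofNat 504, .ofNat 418, .negSucc 346, .ofNat 0, .ofNat 298, .negSucc 78, .ofNat 0, .ofNat 0, .ofNat 944, .ofNat 8924, .ofNat 0, .ofNat 0, .ofNat 0, .ofNat 0, .ofNat 0, .ofNat 1068456340707130333199915070101913600, .ofNat 0, .ofNat 0, .ofNat 0,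 .ofNat 2155229244971191366473565626118963200, .ofNat 1817664086588218142215687372800, .ofNat 0, .ofNat 0, .ofNat 1795502433190270852435102644201062400, .ofNat 0, .ofNat 0⟩)
    (by decide +kernel)
theorem L00470 : Good (Phi V4.P V4.D 1 1) ⟨4, 12, 5, 9, 1, 0, 3, 2, 3, 0⟩ :=
  leaf_sound (S := T4.ds_pp) T4.ok_pp (w := 176) (c := ⟨⟨.negSucc 921, .negSucc 204, .negSucc 18, .negSucc 228, .ofNat 37, .negSucc 266⟩, ⟨.negSucc 312, .negSucc 110, .negSucc 33, .negSucc 59, .ofNat 10, .negSucc 100⟩, ⟨.ofNat 1225, .ofNat 139, .ofNat 34, .ofNat 236, .negSucc 210, .ofNat 6⟩, ⟨.negSucc 1571, .negSucc 218, .negSucc 35, .negSucc 573, .ofNat 89, .negSucc 425⟩, ⟨.negSucc 59, .ofNat 62, .ofNat 1, .ofNat 527, .negSucc 77, .negSucc 34⟩, .ofNat 525, .negSucc 507, .ofNat 0, .negSucc 507, .ofNat 1581, .ofNat 0, .ofNat 233, .ofNat 215, .negSucc 382, .ofNat 0, .ofNat 162, .negSucc 120, .ofNat 0, .ofNat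 0, .ofNat 594, .ofNat 4504, .ofNat 0, .ofNat 0, .ofNat 0, .ofNat 0, .ofNat 0, .ofNat 0, .ofNat 0, .ofNat 0, .ofNat 0, .ofNat 0, .ofNat 0, .ofNat 0, .ofNat 0, .ofNat 0, .ofNat 0, .ofNat 0⟩)
    (by decide +kernel)
theorem L00471 : Good (Phi V4.P V4.D 1 1) ⟨4, 12, 5, 9, 2, 2, 3, 2, 3, 0⟩ :=
  leaf_sound (S := T4.ds_pp) T4.ok_pp (w := 184) (c := ⟨⟨.negSucc 730, .negSucc 335, .ofNat 38, .negSucc 303, .negSucc 97, .negSucc 802⟩, ⟨.negSucc 239, .negSucc 102, .negSucc 29, .negSucc 80, .negSucc 39, .negSucc 292⟩, ⟨.ofNat 1220, .ofNat 266, .negSucc 11, .ofNat 63, .negSucc 90, .ofNat 184⟩, ⟨.negSucc 1413, .negSucc 489, .ofNat 53, .negSucc 740, .negSucc 113, .negSucc 1373⟩, ⟨.ofNat 378, .ofNat 206, .negSucc 21, .ofNat 651, .negSucc 131, .ofNat 131⟩, .ofNat 526, .negSucc 509, .ofNat 0, .negSucc 509, .ofNat 1598, .ofNat 0, .ofNat 271, .ofNat 289, .negSucc 427, .ofNat 0, .ofNat 183, .negSucc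 121, .ofNat 0, .ofNat 0, .ofNat 589, .ofNat 2890, .ofNat 0, .ofNat 0, .ofNat 0, .ofNat 0, .ofNat 0, .ofNat 0, .ofNat 0, .ofNat 0, .ofNat 0, .ofNat 0, .ofNat 6150821502632016117850177536000, .ofNat 0, .ofNat 0, .ofNat 0, .ofNat 0, .ofNat 0⟩)
    (by decide +kernel)
theorem L00472 : Good (Phi V4.P V4.D 1 1) ⟨5, 24, 5, 9, 2, 3, 3, 2, 3, 0⟩ :=
  leaf_sound (S := T4.ds_pp) T4.ok_pp (w := 184) (c := ⟨⟨.negSucc 48, .negSucc 650, .ofNat 81, .ofNat 256, .negSucc 352, .negSucc 1954⟩, ⟨.negSucc 0, .negSucc 195, .negSucc 27, .ofNat 122, .negSucc 126, .negSucc 682⟩, ⟨.ofNat 792, .ofNat 346, .negSucc 16, .negSucc 394, .ofNat 77, .ofNat 752⟩, ⟨.negSucc 379, .negSucc 1083, .ofNat 105, .ofNat 145, .negSucc 569, .negSucc 3471⟩, ⟨.ofNat 688, .ofNat 200, .negSucc 2, .ofNat 795, .negSucc 61, .ofNat 586⟩, .ofNat 1166, .negSucc 2061, .ofNat 0, .negSucc 2061, .ofNat 5732, .ofNat 0, .ofNat 226,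 .ofNat 433, .negSucc 471, .ofNat 0, .ofNat 195, .negSucc 161, .ofNat 0, .ofNat 0, .ofNat 569, .ofNat 1384, .ofNat 0, .ofNat 0, .ofNat 0, .ofNat 0, .ofNat 0, .ofNat 0, .ofNat 0, .ofNat 0, .ofNat 0, .ofNat 0, .ofNat 1945583539637287308897130905600, .ofNat 0, .ofNat 0, .ofNat 0, .ofNat 0, .ofNat 0⟩)
    (by decide +kernel)

end Crest.Agent.R097C4.N4pp
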