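import Crest.Agent.R097.T4

/-!
# Row 97, box cover in dimension n = 4 (generated)
-/

set_option autoImplicit false
set_option Elab.async false
set_option maxHeartbeats 0
set_option maxRecDepth 100000

open Crest.Agent.R097 Crest.Agent.R097.KA


namespace Crest.Agent.R097C4.N4pp

theorem L00473 : Good (Phi V4.P V4.D 1 1) ⟨5, 25, 5, 9, 2, 3, 3, 2, 4, 0⟩ :=
  leaf_sound (S := T4.ds_pp) T4.ok_pp (w := 192) (c := ⟨⟨.negSucc 405, .negSucc 18, .negSucc 10, .ofNat 585, .negSucc 401, .negSucc 1634⟩, ⟨.negSucc 83, .ofNat 39, .negSucc 48, .ofNat 263, .negSucc 161, .negSucc 604⟩, ⟨.ofNat 969, .ofNat 32, .ofNat 39, .negSucc 572, .ofNat 114, .ofNat 744⟩, ⟨.negSucc 1010, .negSucc 31, .negSucc 43, .ofNat 696, .negSucc 613, .negSucc 2797⟩, ⟨.ofNat 912, .ofNat 112, .ofNat 2, .ofNat 686, .negSucc 108, .ofNat 333⟩, .ofNat 934, .negSucc 1397, .ofNat 0, .negSucc 1397,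 .ofNat 3745, .ofNat 0, .ofNat 255, .ofNat 451, .negSucc 586, .ofNat 0, .ofNat 221, .negSucc 210, .ofNat 0, .ofNat 0, .ofNat 613, .ofNat 1728, .ofNat 0, .ofNat 0, .ofNat 0, .ofNat 0, .ofNat 0, .ofNat 0, .ofNat 0, .ofNat 0, .ofNat 0, .ofNat 0, .ofNat 102499250115737784176688601497600, .ofNat 0, .ofNat 0, .ofNat 0, .ofNat 0, .ofNat 0⟩)
    (by decide +kernel)
theorem L00474 : Good (Phi V4.P V4.D 1 1) ⟨5, 25, 5, 9, 2, 3, 3, 2, 4, 1⟩ :=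
  leaf_sound (S := T4.ds_pp) T4.ok_pp (w := 192) (c := ⟨⟨.negSucc 1668, .negSucc 182, .ofNat 2, .negSucc 156, .negSucc 184, .negSucc 534⟩, ⟨.negSucc 536, .negSucc 27, .negSucc 73, .negSucc 1, .negSucc 76, .negSucc 183⟩, ⟨.ofNat 1551, .ofNat 101, .ofNat 37, .negSucc 273, .ofNat 20, .ofNat 94⟩, ⟨.negSucc 3159, .negSucc 270, .negSucc 9, .negSucc 632, .negSucc 260, .negSucc 994⟩, ⟨.ofNat 1107, .ofNat 154, .negSucc 46, .ofNat 1000, .negSucc 105, .ofNat 320⟩, .ofNat 1072, .negSucc 1726, .ofNat 0, .negSucc 1726, .ofNat 4565, .ofNat 0, .ofNat 245, .ofNat 421, .negSucc 433, .ofNat 0, .ofNat 206, .negSucc 152, .ofNat 0, .ofNat 0, .ofNat 553, .ofNat 4162, .ofNat 0, .ofNat 0, .ofNat 0, .ofNat 0, .ofNat 0, .ofNat 0, .ofNat 169732103343096041656220123136000, .ofNat 0, .ofNat 0, .ofNat 0, .ofNat 110755421869113263081473966080000, .ofNat 0, .ofNat 0, .ofNat 0, .ofNat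 0, .ofNat 0⟩)
    (by decide +kernel)
theorem L00475 : Good (Phi V4.P V4.D 1 1) ⟨4, 12, 5, 9, 1, 0, 3, 2, 3, 1⟩ :=
  leaf_sound (S := T4.ds_pp) T4.ok_pp (w := 176) (c := ⟨⟨.negSucc 1133, .negSucc 221, .ofNat 5, .negSucc 321, .ofNat 49, .ofNat 66⟩, ⟨.negSucc 380, .negSucc 132, .negSucc 22, .negSucc 101, .ofNat 14, .ofNat 20⟩, ⟨.ofNat 1296, .ofNat 165, .ofNat 1, .ofNat 45, .negSucc 181, .negSucc 270⟩, ⟨.negSucc 1955, .negSucc 232, .ofNat 9, .negSucc 659, .ofNat 113, .ofNat 143⟩, ⟨.ofNat 11, .ofNat 52, .negSucc 2, .ofNat 349, .negSucc 85, .negSucc 93⟩, .ofNat 982, .negSucc 1547, .ofNat 0, .negSucc 1547, .ofNat 4236, .ofNat 0, .ofNat 173, .ofNat 228, .negSucc 278, .ofNat 0, .ofNat 133, .negSucc 97, .ofNat 0, .ofNat 0, .ofNat 527, .ofNat 4883, .ofNat 0, .ofNat 0, .ofNat 0, .ofNat 0, .ofNat 0, .ofNat 0, .ofNat 33712562771635289262863155200, .ofNat 0, .ofNat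 0, .ofNat 0, .ofNat 33852553637822446719467520000, .ofNat 0, .ofNat 0, .ofNat 0, .ofNat 0, .ofNat 0⟩)
    (by decide +kernel)
theorem L00476 : Good (Phi V4.P V4.D 1 1) ⟨4, 12, 5, 9, 1, 1, 3, 2, 3, 1⟩ :=
  leaf_sound (S := T4.ds_pp) T4.ok_pp (w := 176) (c := ⟨⟨.negSucc 1454, .negSucc 339, .ofNat 64, .negSucc 885, .negSucc 84, .ofNat 107⟩, ⟨.negSucc 506, .negSucc 108, .negSucc 29, .negSucc 220, .negSucc 37, .ofNat 31⟩, ⟨.ofNat 1371, .ofNat 264, .negSucc 40, .ofNat 12, .negSucc 30, .negSucc 408⟩, ⟨.negSucc 2616, .negSucc 357, .ofNat 52, .negSucc 2292, .negSucc 82, .ofNat 236⟩, ⟨.ofNat 352, .negSucc 61, .ofNat 90, .ofNat 2239, .negSucc 148, .negSucc 164⟩, .ofNat 524, .negSucc 506, .ofNat 0, .negSucc 506, .ofNat 1596, .ofNat 0, .ofNat 264, .ofNat 264, .negSucc 284, .ofNat 0, .ofNat 172, .negSucc 76, .ofNat 0, .ofNat 0, .ofNat 516, .ofNat 1606, .ofNat 0,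 .ofNat 0, .ofNat 80594010863376762352435200, .ofNat 0, .ofNat 0, .ofNat 0, .ofNat 0, .ofNat 0, .ofNat 0, .ofNat 0, .ofNat 0, .ofNat 0, .ofNat 0, .ofNat 0, .ofNat 0, .ofNat 0⟩)
    (by decide +kernel)
theorem L00477 : Good (Phi V4.P V4.D 1 1) ⟨4, 12, 5, 9, 1, 0, 3, 2, 2, 1⟩ :=
  leaf_sound (S := T4.ds_pp) T4.ok_pp (w := 168) (c := ⟨⟨.negSucc 1082, .negSucc 120, .ofNat 10, .negSucc 346, .ofNat 11, .ofNat 284⟩, ⟨.negSucc 363, .negSucc 99, .negSucc 16, .negSucc 121, .ofNat 3, .ofNat 99⟩, ⟨.ofNat 1095, .ofNat 99, .negSucc 11, .negSucc 173, .negSucc 70, .negSucc 546⟩, ⟨.negSucc 1860, .negSucc 67, .ofNat 19, .negSucc 621, .ofNat 33, .ofNat 513⟩, ⟨.negSucc 3, .ofNat 28, .negSucc 5, .ofNat 133, .negSucc 40, .negSucc 122⟩, .ofNat 524, .negSucc 505, .ofNat 0, .negSucc 505, .ofNat 1586, .ofNat 0, .ofNat 356, .ofNat 319, .negSucc 360, .ofNat 0, .ofNat 247, .negSucc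 108, .ofNat 0, .ofNat 0, .ofNat 906, .ofNat 9079, .ofNat 0, .ofNat 0, .ofNat 0, .ofNat 0, .ofNat 0, .ofNat 0, .ofNat 0, .ofNat 0, .ofNat 0, .ofNat 0, .ofNat 0, .ofNat 0, .ofNat 0, .ofNat 0, .ofNat 0, .ofNat 0⟩)
    (by decide +kernel)
theorem L00478 : Good (Phi V4.P V4.D 1 1) ⟨4, 12, 5, 9, 1, 1, 3, 2, 2, 1⟩ :=
  leaf_sound (S := T4.ds_pp) T4.ok_pp (w := 168) (c := ⟨⟨.negSucc 1483, .negSucc 136, .ofNat 10, .negSucc 697, .negSucc 94, .ofNat 423⟩, ⟨.negSucc 525, .negSucc 51, .negSucc 38, .negSucc 146, .negSucc 42, .ofNat 142⟩, ⟨.ofNat 1018, .ofNat 75, .negSucc 15, .negSucc 24, .ofNat 55, .negSucc 799⟩, ⟨.negSucc 2516, .negSucc 196, .ofNat 23, .negSucc 1935, .negSucc 121, .ofNat 817⟩, ⟨.negSucc 35, .ofNat 372, .negSucc 50, .ofNat 2091, .negSucc 91, .negSucc 326⟩, .ofNat 524, .negSucc 505, .ofNat 0, .negSucc 505, .ofNat 1588, .ofNat 0, .ofNat 413, .ofNat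 378, .negSucc 331, .ofNat 0, .ofNat 275, .negSucc 83, .ofNat 0, .ofNat 0, .ofNat 926, .ofNat 4033, .ofNat 0, .ofNat 0, .ofNat 14768180305993092995481600, .ofNat 0, .ofNat 0, .ofNat 7134483487699758183657942653337600, .ofNat 0, .ofNat 0, .ofNat 0, .ofNat 9627718907797947759845637409996800, .ofNat 2253393449386517861498880000, .ofNat 0, .ofNat 0, .ofNat 6740038978027836201361511704166400, .ofNat 0, .ofNat 0⟩)
    (by decide +kernel)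
theorem L00479 : Good (Phi V4.P V4.D 1 1) ⟨4, 13, 4, 4, 0, 0, 3, 2, 1, 0⟩ :=
  out_sound (S := T4.ds_pp) T4.ok_pp (w := 56) (j := 3) (by decide +kernel)
theorem L00480 : Good (Phi V4.P V4.D 1 1) ⟨4, 12, 4, 4, 1, 0, 3, 3, 2, 0⟩ :=
  leaf_sound (S := T4.ds_pp) T4.ok_pp (w := 168) (c := ⟨⟨.negSucc 970, .negSucc 257, .ofNat 70, .negSucc 375, .ofNat 64, .negSucc 108⟩, ⟨.negSucc 302, .negSucc 140, .negSucc 22, .negSucc 120, .ofNat 18, .negSucc 45⟩, ⟨.ofNat 1111, .ofNat 181, .negSucc 47, .ofNat 207, .negSucc 188, .negSucc 249⟩, ⟨.negSucc 1673, .negSucc 309, .ofNat 132, .negSucc 715, .ofNat 130, .negSucc 149⟩, ⟨.negSucc 10, .ofNat 75, .negSucc 42, .ofNat 260, .negSucc 65, .negSucc 82⟩, .ofNat 759, .negSucc 1034, .ofNat 0, .negSucc 1034, .ofNat 3029, .ofNat 0, .ofNat 198, .ofNat 228, .negSucc 324, .ofNat 0, .ofNat 141, .negSucc 108, .ofNat 0, .ofNat 0, .ofNat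 565, .ofNat 1798, .ofNat 0, .ofNat 0, .ofNat 0, .ofNat 0, .ofNat 0, .ofNat 0, .ofNat 1049844739286883427260825600, .ofNat 0, .ofNat 0, .ofNat 0, .ofNat 784265780669265997096550400, .ofNat 0, .ofNat 0, .ofNat 0, .ofNat 0, .ofNat 0⟩)
    (by decide +kernel)
theorem L00481 : Good (Phi V4.P V4.D 1 1) ⟨4, 12, 4, 4, 1, 0, 3, 3, 2, 1⟩ :=
  leaf_sound (S := T4.ds_pp) T4.ok_pp (w := 168) (c := ⟨⟨.negSucc 998, .negSucc 144, .ofNat 6, .negSucc 411, .ofNat 7, .ofNat 225⟩, ⟨.negSucc 316, .negSucc 108, .negSucc 35, .negSucc 142, .ofNat 1, .ofNat 78⟩, ⟨.ofNat 883, .ofNat 67, .ofNat 19, .negSucc 37, .negSucc 59, .negSucc 401⟩, ⟨.negSucc 1706, .negSucc 105, .ofNat 8, .negSucc 709, .ofNat 16, .ofNat 394⟩, ⟨.negSucc 38, .ofNat 14, .ofNat 4, .ofNat 69, .negSucc 16, .negSucc 50⟩, .ofNat 752, .negSucc 1021, .ofNat 0, .negSucc 1021, .ofNat 3014, .ofNat 0, .ofNat 319, .ofNat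 359, .negSucc 391, .ofNat 0, .ofNat 225, .negSucc 128, .ofNat 0, .ofNat 0, .ofNat 902, .ofNat 7894, .ofNat 0, .ofNat 0, .ofNat 0, .ofNat 0, .ofNat 0, .ofNat 0, .ofNat 4302317846600530902437068800, .ofNat 0, .ofNat 0, .ofNat 0, .ofNat 5516966932634145772693094400, .ofNat 0, .ofNat 0, .ofNat 0, .ofNat 0, .ofNat 0⟩)
    (by decide +kernel)
theorem L00482 : Good (Phi V4.P V4.D 1 1) ⟨4, 12, 4, 4, 2, 2, 3, 3, 4, 0⟩ :=
  leaf_sound (S := T4.ds_pp) T4.ok_pp (w := 184) (c := ⟨⟨.negSucc 877, .negSucc 182, .negSucc 8, .negSucc 164, .negSucc 72, .negSucc 523⟩, ⟨.negSucc 261, .negSucc 70, .negSucc 71, .negSucc 28, .negSucc 33, .negSucc 184⟩, ⟨.ofNat 1121, .ofNat 155, .ofNat 23, .ofNat 33, .negSucc 118, .ofNat 192⟩, ⟨.negSucc 1617, .negSucc 211, .negSucc 41, .negSucc 473, .negSucc 63, .negSucc 898⟩, ⟨.ofNat 299, .ofNat 133, .ofNat 10, .ofNat 550, .negSucc 152,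 .ofNat 90⟩, .ofNat 752, .negSucc 1019, .ofNat 0, .negSucc 1019, .ofNat 2996, .ofNat 0, .ofNat 244, .ofNat 331, .negSucc 459, .ofNat 0, .ofNat 179, .negSucc 144, .ofNat 0, .ofNat 0, .ofNat 618, .ofNat 3608, .ofNat 0, .ofNat 0, .ofNat 0, .ofNat 0, .ofNat 0, .ofNat 0, .ofNat 258751646167512587239503691776000, .ofNat 0, .ofNat 0, .ofNat 0, .ofNat 177230118439601421519447864115200, .ofNat 0, .ofNat 0, .ofNat 0, .ofNat 0, .ofNat 0⟩)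
    (by decide +kernel)
theorem L00483 : Good (Phi V4.P V4.D 1 1) ⟨4, 12, 4, 4, 2, 3, 3, 3, 4, 0⟩ :=
  leaf_sound (S := T4.ds_pp) T4.ok_pp (w := 184) (c := ⟨⟨.negSucc 568, .negSucc 262, .negSucc 108, .ofNat 332, .negSucc 311, .negSucc 1361⟩, ⟨.negSucc 145, .negSucc 35, .negSucc 133, .ofNat 160, .negSucc 118, .negSucc 477⟩, ⟨.ofNat 880, .ofNat 196, .ofNat 98, .negSucc 381, .ofNat 65, .ofNat 610⟩, ⟨.negSucc 1200, .negSucc 421, .negSucc 231, .ofNat 292, .negSucc 490, .negSucc 2377⟩, ⟨.ofNat 636, .ofNat 250, .ofNat 28, .ofNat 706, .negSucc 69, .ofNat 347⟩, .ofNat 1003, .negSucc 1612, .ofNat 0, .negSucc 1612, .ofNat 4473, .ofNat 0, .ofNat 262, .ofNat 472, .negSucc 602, .ofNat 0, .ofNat 223, .negSucc 205, .ofNat 0, .ofNat 0, .ofNat 627, .ofNat 636, .ofNat 0, .ofNat 0, .ofNat 0, .ofNat 0, .ofNat 0, .ofNat 0, .ofNat 347370211234441371667088277504000, .ofNat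 0, .ofNat 0, .ofNat 0, .ofNat 229059260984067140902961597644800, .ofNat 0, .ofNat 0, .ofNat 0, .ofNat 0, .ofNat 0⟩)
    (by decide +kernel)
theorem L00484 : Good (Phi V4.P V4.D 1 1) ⟨4, 12, 4, 4, 1, 1, 3, 3, 4, 1⟩ :=
  leaf_sound (S := T4.ds_pp) T4.ok_pp (w := 176) (c := ⟨⟨.negSucc 1038, .negSucc 390, .negSucc 49, .negSucc 977, .negSucc 157, .negSucc 390⟩, ⟨.negSucc 320, .negSucc 114, .negSucc 127, .negSucc 257, .negSucc 62, .negSucc 136⟩, ⟨.ofNat 1139, .ofNat 244, .ofNat 64, .ofNat 198, .negSucc 11, .ofNat 97⟩, ⟨.negSucc 1823, .negSucc 545, .negSucc 137, .negSucc 2260, .negSucc 229, .negSucc 686⟩, ⟨.ofNat 105, .ofNat 225, .ofNat 46, .ofNat 1785, .negSucc 96, .ofNat 94⟩, .ofNat 918, .negSucc 1423, .ofNat 0, .negSucc 1423, .ofNat 4060, .ofNat 0, .ofNat 237, .ofNat 359, .negSucc 409, .ofNat 0, .ofNat 181, .negSucc 131, .ofNat 0, .ofNat 0, .ofNat 571,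 .ofNat 1340, .ofNat 0, .ofNat 0, .ofNat 0, .ofNat 0, .ofNat 0, .ofNat 0, .ofNat 485050709737145278536037171200, .ofNat 0, .ofNat 0, .ofNat 0, .ofNat 216123193404307794037624012800, .ofNat 0, .ofNat 0, .ofNat 0, .ofNat 0, .ofNat 0⟩)
    (by decide +kernel)
theorem L00485 : Good (Phi V4.P V4.D 1 1) ⟨5, 24, 4, 4, 2, 2, 3, 3, 3, 1⟩ :=
  leaf_sound (S := T4.ds_pp) T4.ok_pp (w := 184) (c := ⟨⟨.negSucc 1435, .negSucc 145, .ofNat 21, .negSucc 559, .negSucc 50, .ofNat 17⟩, ⟨.negSucc 448, .negSucc 64, .negSucc 78, .negSucc 160, .negSucc 21, .negSucc 0⟩, ⟨.ofNat 1196, .ofNat 92, .negSucc 15, .ofNat 215, .negSucc 58, .negSucc 295⟩, ⟨.negSucc 2560, .negSucc 173, .ofNat 16, .negSucc 1192, .negSucc 46, .ofNat 80⟩, ⟨.ofNat 296, .ofNat 69, .negSucc 2, .ofNat 733, .negSucc 113, .negSucc 153⟩, .ofNat 513, .negSucc 491, .ofNat 0, .negSucc 491, .ofNat 1671, .ofNat 0,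 .ofNat 256, .ofNat 243, .negSucc 313, .ofNat 0, .ofNat 160, .negSucc 78, .ofNat 0, .ofNat 0, .ofNat 538, .ofNat 4849, .ofNat 0, .ofNat 0, .ofNat 0, .ofNat 0, .ofNat 0, .ofNat 0, .ofNat 0, .ofNat 0, .ofNat 0, .ofNat 0, .ofNat 0, .ofNat 0, .ofNat 0, .ofNat 0, .ofNat 0, .ofNat 0⟩)
    (by decide +kernel)
theorem L00486 : Good (Phi V4.P V4.D 1 1) ⟨5, 24, 4, 4, 2, 3, 3, 3, 3, 1⟩ :=
  leaf_sound (S := T4.ds_pp) T4.ok_pp (w := 184) (c := ⟨⟨.negSucc 2074, .negSucc 208, .ofNat 74, .negSucc 388, .negSucc 125, .ofNat 105⟩, ⟨.negSucc 642, .negSucc 56, .negSucc 109, .negSucc 70, .negSucc 44, .ofNat 37⟩, ⟨.ofNat 1414, .ofNat 143, .negSucc 31, .negSucc 21, .ofNat 42, .negSucc 333⟩, ⟨.negSucc 3853, .negSucc 300, .ofNat 82, .negSucc 1154, .negSucc 182, .ofNat 181⟩, ⟨.ofNat 940, .ofNat 156, .negSucc 38, .ofNat 1463, .negSucc 79, .negSucc 15⟩, .ofNat 759, .negSucc 1073,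 .ofNat 0, .negSucc 1073, .ofNat 3298, .ofNat 0, .ofNat 242, .ofNat 331, .negSucc 300, .ofNat 0, .ofNat 165, .negSucc 87, .ofNat 0, .ofNat 0, .ofNat 515, .ofNat 1241, .ofNat 0, .ofNat 0, .ofNat 0, .ofNat 0, .ofNat 0, .ofNat 0, .ofNat 0, .ofNat 0, .ofNat 0, .ofNat 0, .ofNat 0, .ofNat 0, .ofNat 0, .ofNat 0, .ofNat 0, .ofNat 0⟩)
    (by decide +kernel)
theorem L00487 : Good (Phi V4.P V4.D 1 1) ⟨5, 25, 4, 4, 1, 1, 3, 3, 3, 1⟩ :=
  leaf_sound (S := T4.ds_pp) T4.ok_pp (w := 176) (c := ⟨⟨.negSucc 1628, .negSucc 181, .ofNat 6, .negSucc 1028, .negSucc 156, .ofNat 157⟩, ⟨.negSucc 525, .negSucc 67, .negSucc 118, .negSucc 235, .negSucc 66, .ofNat 63⟩, ⟨.ofNat 1310, .ofNat 140, .ofNat 6, .ofNat 257, .ofNat 49, .negSucc 368⟩, ⟨.negSucc 2641, .negSucc 225, .negSucc 33, .negSucc 2653, .negSucc 219, .ofNat 249⟩, ⟨.negSucc 45, .ofNat 55, .negSucc 1, .ofNat 2578, .negSucc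 106, .ofNat 29⟩, .ofNat 517, .negSucc 484, .ofNat 0, .negSucc 484, .ofNat 1494, .ofNat 0, .ofNat 277, .ofNat 279, .negSucc 317, .ofNat 0, .ofNat 186, .negSucc 86, .ofNat 0, .ofNat 0, .ofNat 531, .ofNat 2019, .ofNat 0, .ofNat 0, .ofNat 52318362814409613636403200, .ofNat 0, .ofNat 0, .ofNat 0, .ofNat 10043554071717446048494387200, .ofNat 0, .ofNat 0, .ofNat 0, .ofNat 7071243827544916787567001600, .ofNat 0, .ofNat 0, .ofNat 0, .ofNat 0, .ofNat 0⟩)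
    (by decide +kernel)
theorem L00488 : Good (Phi V4.P V4.D 1 1) ⟨4, 12, 4, 4, 2, 2, 3, 3, 2, 1⟩ :=
  leaf_sound (S := T4.ds_pp) T4.ok_pp (w := 176) (c := ⟨⟨.negSucc 1447, .negSucc 178, .ofNat 9, .negSucc 478, .negSucc 91, .ofNat 339⟩, ⟨.negSucc 463, .negSucc 100, .negSucc 65, .negSucc 130, .negSucc 32, .ofNat 112⟩, ⟨.ofNat 884, .ofNat 85, .negSucc 2, .ofNat 134, .ofNat 53, .negSucc 574⟩, ⟨.negSucc 2521, .negSucc 134, .ofNat 3, .negSucc 1040, .negSucc 149, .ofNat 635⟩, ⟨.ofNat 123, .ofNat 39, .ofNat 4, .ofNat 692, .negSucc 7, .negSucc 197⟩, .ofNat 754, .negSucc 1036, .ofNat 0, .negSucc 1036, .ofNat 3098, .ofNat 0, .ofNat 356, .ofNat 423, .negSucc 369, .ofNat 0, .ofNat 247, .negSucc 110, .ofNat 0, .ofNat 0, .ofNat 910, .ofNat 4258, .ofNat 0, .ofNat 0, .ofNat 0, .ofNat 0, .ofNat 0, .ofNat 0, .ofNat 3339697363630430554125080985600, .ofNat 0, .ofNat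 0, .ofNat 242790070297820041434895058416435200, .ofNat 1659731934767448422606281113600, .ofNat 0, .ofNat 0, .ofNat 0, .ofNat 0, .ofNat 0⟩)
    (by decide +kernel)
theorem L00489 : Good (Phi V4.P V4.D 1 1) ⟨4, 12, 4, 4, 2, 3, 3, 3, 2, 1⟩ :=
  leaf_sound (S := T4.ds_pp) T4.ok_pp (w := 176) (c := ⟨⟨.negSucc 2009, .negSucc 254, .ofNat 62, .negSucc 244, .negSucc 148, .ofNat 652⟩, ⟨.negSucc 638, .negSucc 38, .negSucc 112, .ofNat 4, .negSucc 48, .ofNat 228⟩, ⟨.ofNat 1054, .ofNat 159, .negSucc 27, .ofNat 19, .ofNat 112, .negSucc 800⟩, ⟨.negSucc 3656, .negSucc 327, .ofNat 54, .negSucc 1057, .negSucc 262, .ofNat 1199⟩, ⟨.ofNat 720, .ofNat 282, .negSucc 17, .ofNat 1796, .ofNat 40, .negSucc 280⟩, .ofNat 516, .negSucc 490, .ofNat 0, .negSucc 490, .ofNat 1595, .ofNat 0, .ofNat 509, .ofNat 469, .negSucc 426, .ofNat 0, .ofNat 318, .negSucc 105, .ofNat 0, .ofNat 0,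 .ofNat 966, .ofNat 5460, .ofNat 0, .ofNat 584133839943801940398212068147200, .ofNat 17928899102048004533020262400, .ofNat 0, .ofNat 0, .ofNat 349151881815936593897415307060838400, .ofNat 0, .ofNat 0, .ofNat 0, .ofNat 496471743939277729708958018646835200, .ofNat 2257011134572228195495654195200, .ofNat 0, .ofNat 0, .ofNat 568445308104073617320885198467891200, .ofNat 0, .ofNat 0⟩)
    (by decide +kernel)
theorem L00490 : Good (Phi V4.P V4.D 1 1) ⟨4, 13, 4, 4, 0, 0, 3, 3, 1, 0⟩ :=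
  out_sound (S := T4.ds_pp) T4.ok_pp (w := 56) (j := 3) (by decide +kernel)
theorem L00491 : Good (Phi V4.P V4.D 1 1) ⟨5, 24, 4, 5, 0, 0, 1, 0, 2, 0⟩ :=
  out_sound (S := T4.ds_pp) T4.ok_pp (w := 64) (j := 3) (by decide +kernel)
theorem L00492 : Good (Phi V4.P V4.D 1 1) ⟨6, 50, 4, 5, 1, 0, 2, 0, 3, 0⟩ :=
  leaf_sound (S := T4.ds_pp) T4.ok_pp (w := 176) (c := ⟨⟨.negSucc 1080, .negSucc 68, .ofNat 4, .negSucc 85, .ofNat 41, .negSucc 370⟩, ⟨.negSucc 408, .negSucc 32, .negSucc 60, .negSucc 3, .ofNat 9, .negSucc 142⟩, ⟨.ofNat 1600, .ofNat 57, .ofNat 21, .ofNat 132, .negSucc 289, .ofNat 104⟩, ⟨.negSucc 1791, .negSucc 84, .ofNat 18, .negSucc 426, .ofNat 128, .negSucc 620⟩, ⟨.ofNat 14, .ofNat 17, .negSucc 57, .ofNat 733, .negSucc 157, .ofNat 35⟩, .ofNat 1143, .negSucc 1897, .ofNat 0, .negSucc 1897, .ofNat 4937, .ofNat 0, .ofNat 166, .ofNat 258, .negSucc 368,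 .ofNat 0, .ofNat 141, .negSucc 137, .ofNat 0, .ofNat 0, .ofNat 556, .ofNat 3145, .ofNat 0, .ofNat 0, .ofNat 0, .ofNat 0, .ofNat 0, .ofNat 0, .ofNat 0, .ofNat 0, .ofNat 0, .ofNat 0, .ofNat 0, .ofNat 0, .ofNat 0, .ofNat 0, .ofNat 150050493579991001805619200, .ofNat 0⟩)
    (by decide +kernel)
theorem L00493 : Good (Phi V4.P V4.D 1 1) ⟨6, 50, 4, 5, 1, 0, 2, 1, 3, 0⟩ :=
  leaf_sound (S := T4.ds_pp) T4.ok_pp (w := 176) (c := ⟨⟨.negSucc 1021, .negSucc 40, .negSucc 48, .negSucc 234, .ofNat 33, .negSucc 249⟩, ⟨.negSucc 383, .negSucc 25, .negSucc 71, .negSucc 72, .ofNat 5, .negSucc 98⟩, ⟨.ofNat 1287, .ofNat 48, .ofNat 50, .ofNat 234, .negSucc 368, .ofNat 9⟩, ⟨.negSucc 1707, .negSucc 40, .negSucc 70, .negSucc 560, .ofNat 130, .negSucc 393⟩, ⟨.ofNat 42, .ofNat 22, .negSucc 35, .ofNat 450, .negSucc 191, .negSucc 41⟩, .ofNat 547, .negSucc 554, .ofNat 0, .negSucc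 554, .ofNat 1655, .ofNat 0, .ofNat 229, .ofNat 230, .negSucc 392, .ofNat 0, .ofNat 166, .negSucc 129, .ofNat 0, .ofNat 0, .ofNat 607, .ofNat 3575, .ofNat 0, .ofNat 0, .ofNat 0, .ofNat 0, .ofNat 0, .ofNat 0, .ofNat 0, .ofNat 0, .ofNat 0, .ofNat 0, .ofNat 0, .ofNat 0, .ofNat 0, .ofNat 0, .ofNat 0, .ofNat 0⟩)
    (by decide +kernel)
theorem L00494 : Good (Phi V4.P V4.D 1 1) ⟨6, 51, 4, 5, 1, 0, 2, 0, 3, 0⟩ :=
  leaf_sound (S := T4.ds_pp) T4.ok_pp (w := 176) (c := ⟨⟨.negSucc 1165, .negSucc 68, .negSucc 5, .negSucc 69, .ofNat 62, .negSucc 364⟩, ⟨.negSucc 445, .negSucc 33, .negSucc 62, .ofNat 8, .ofNat 18, .negSucc 151⟩, ⟨.ofNat 1695, .ofNat 37, .ofNat 8, .ofNat 126, .negSucc 339, .ofNat 131⟩, ⟨.negSucc 1882, .negSucc 85, .negSucc 24, .negSucc 439, .ofNat 166, .negSucc 597⟩, ⟨.negSucc 10, .ofNat 29, .ofNat 8, .ofNat 780, .negSucc 156, .ofNat 23⟩, .ofNat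 1345, .negSucc 2232, .ofNat 0, .negSucc 2232, .ofNat 5344, .ofNat 0, .ofNat 163, .ofNat 259, .negSucc 381, .ofNat 0, .ofNat 151, .negSucc 153, .ofNat 0, .ofNat 0, .ofNat 565, .ofNat 2958, .ofNat 0, .ofNat 0, .ofNat 0, .ofNat 0, .ofNat 1078231352231813069760716399129395200, .ofNat 0, .ofNat 754309717876526208358809600, .ofNat 0, .ofNat 0, .ofNat 0, .ofNat 0, .ofNat 0, .ofNat 0, .ofNat 0, .ofNat 0, .ofNat 0⟩)
    (by decide +kernel)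
theorem L00495 : Good (Phi V4.P V4.D 1 1) ⟨6, 51, 4, 5, 1, 0, 2, 1, 3, 0⟩ :=
  leaf_sound (S := T4.ds_pp) T4.ok_pp (w := 176) (c := ⟨⟨.negSucc 1112, .negSucc 75, .ofNat 1, .negSucc 223, .ofNat 74, .negSucc 203⟩, ⟨.negSucc 425, .negSucc 45, .negSucc 48, .negSucc 73, .ofNat 25, .negSucc 86⟩, ⟨.ofNat 1362, .ofNat 78, .negSucc 14, .ofNat 248, .negSucc 388, .negSucc 13⟩, ⟨.negSucc 1816, .negSucc 74, .negSucc 6, .negSucc 536, .ofNat 169, .negSucc 321⟩, ⟨.ofNat 25, .negSucc 27, .ofNat 10, .ofNat 424, .negSucc 120, .negSucc 16⟩, .ofNat 561, .negSucc 571, .ofNat 0, .negSucc 571, .ofNat 1588, .ofNat 0, .ofNat 222, .ofNat 231, .negSucc 403, .ofNat 0, .ofNat 173, .negSucc 146, .ofNat 0, .ofNat 0, .ofNat 619, .ofNat 3435, .ofNat 0, .ofNat 0, .ofNat 0, .ofNat 0, .ofNat 0, .ofNat 0, .ofNat 0, .ofNat 0, .ofNat 0, .ofNat 0, .ofNat 0, .ofNat 0, .ofNat 0, .ofNat 0,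 .ofNat 0, .ofNat 0⟩)
    (by decide +kernel)
theorem L00496 : Good (Phi V4.P V4.D 1 1) ⟨5, 25, 4, 5, 1, 0, 1, 0, 3, 1⟩ :=
  leaf_sound (S := T4.ds_pp) T4.ok_pp (w := 168) (c := ⟨⟨.negSucc 1319, .negSucc 119, .ofNat 9, .negSucc 283, .ofNat 149, .ofNat 58⟩, ⟨.negSucc 491, .negSucc 75, .negSucc 48, .negSucc 91, .ofNat 43, .ofNat 20⟩, ⟨.ofNat 1779, .ofNat 70, .ofNat 10, .ofNat 23, .negSucc 747, .negSucc 255⟩, ⟨.negSucc 2244, .negSucc 100, .negSucc 7, .negSucc 661, .ofNat 384, .ofNat 128⟩, ⟨.ofNat 164, .negSucc 41, .ofNat 42, .ofNat 500, .negSucc 355, .negSucc 86⟩, .ofNat 551, .negSucc 557, .ofNat 0, .negSucc 557, .ofNat 1617, .ofNat 0, .ofNat 208, .ofNat 209, .negSucc 306, .ofNat 0, .ofNat 155, .negSucc 103, .ofNat 0, .ofNat 0, .ofNat 542, .ofNat 2808, .ofNat 0, .ofNat 0, .ofNat 0, .ofNat 0, .ofNat 0, .ofNat 0, .ofNat 0, .ofNat 0, .ofNat 0, .ofNat 0,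 .ofNat 0, .ofNat 0, .ofNat 0, .ofNat 0, .ofNat 0, .ofNat 0⟩)
    (by decide +kernel)
theorem L00497 : Good (Phi V4.P V4.D 1 1) ⟨5, 25, 4, 5, 2, 2, 1, 0, 4, 0⟩ :=
  leaf_sound (S := T4.ds_pp) T4.ok_pp (w := 184) (c := ⟨⟨.negSucc 653, .negSucc 239, .ofNat 39, .ofNat 25, .negSucc 467, .negSucc 605⟩, ⟨.negSucc 209, .negSucc 79, .negSucc 60, .ofNat 32, .negSucc 207, .negSucc 237⟩, ⟨.ofNat 1409, .ofNat 217, .negSucc 36, .negSucc 85, .negSucc 263, .ofNat 258⟩, ⟨.negSucc 1350, .negSucc 387, .ofNat 36, .negSucc 178, .negSucc 567, .negSucc 1047⟩, ⟨.ofNat 681, .ofNat 131, .negSucc 6, .ofNat 547, .negSucc 479, .ofNat 147⟩, .ofNat 1268, .negSucc 2126, .ofNat 0, .negSucc 2126, .ofNat 5296, .ofNat 0, .ofNat 190, .ofNat 349, .negSucc 443, .ofNat 0, .ofNat 181, .negSucc 168, .ofNat 0, .ofNat 0, .ofNat 580, .ofNat 1534, .ofNat 0, .ofNat 0, .ofNat 0, .ofNat 0, .ofNat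 1211921838533441887446018526543872000, .ofNat 0, .ofNat 2493007723630192015316090880000, .ofNat 0, .ofNat 0, .ofNat 0, .ofNat 466042531302184200563589120000, .ofNat 0, .ofNat 0, .ofNat 0, .ofNat 0, .ofNat 0⟩)
    (by decide +kernel)
theorem L00498 : Good (Phi V4.P V4.D 1 1) ⟨5, 25, 4, 5, 2, 2, 1, 0, 4, 1⟩ :=
  leaf_sound (S := T4.ds_pp) T4.ok_pp (w := 184) (c := ⟨⟨.negSucc 1157, .negSucc 150, .negSucc 6, .negSucc 438, .negSucc 252, .negSucc 239⟩, ⟨.negSucc 394, .negSucc 50, .negSucc 97, .negSucc 146, .negSucc 131, .negSucc 97⟩, ⟨.ofNat 1656, .ofNat 124, .ofNat 32, .ofNat 131, .negSucc 416, .negSucc 33⟩, ⟨.negSucc 2238, .negSucc 206, .negSucc 44, .negSucc 1019, .negSucc 150, .negSucc 395⟩, ⟨.ofNat 816, .ofNat 98, .negSucc 2, .ofNat 758, .negSucc 633, .ofNat 26⟩, .ofNat 890, .negSucc 1267, .ofNat 0, .negSucc 1267, .ofNat 3250, .ofNat 0, .ofNat 202,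 .ofNat 331, .negSucc 380, .ofNat 0, .ofNat 180, .negSucc 139, .ofNat 0, .ofNat 0, .ofNat 556, .ofNat 3591, .ofNat 0, .ofNat 0, .ofNat 0, .ofNat 0, .ofNat 3667787819449259824830623356079308800, .ofNat 0, .ofNat 1710195191365553694706552012800, .ofNat 0, .ofNat 0, .ofNat 0, .ofNat 0, .ofNat 0, .ofNat 0, .ofNat 0, .ofNat 0, .ofNat 0⟩)
    (by decide +kernel)
theorem L00499 : Good (Phi V4.P V4.D 1 1) ⟨5, 25, 4, 5, 3, 6, 2, 0, 4, 0⟩ :=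
  leaf_sound (S := T4.ds_pp) T4.ok_pp (w := 200) (c := ⟨⟨.ofNat 94, .negSucc 48, .negSucc 181, .ofNat 327, .negSucc 696, .negSucc 1573⟩, ⟨.ofNat 96, .ofNat 38, .negSucc 167, .ofNat 141, .negSucc 286, .negSucc 620⟩, ⟨.ofNat 893, .ofNat 55, .ofNat 155, .negSucc 302, .ofNat 188, .ofNat 771⟩, ⟨.negSucc 259, .negSucc 96, .negSucc 347, .ofNat 420, .negSucc 1082, .negSucc 2721⟩, ⟨.ofNat 1033, .ofNat 97, .ofNat 24, .ofNat 270, .negSucc 117, .ofNat 416⟩, .ofNat 1322, .negSucc 2225, .ofNat 0, .negSucc 2225, .ofNat 5450, .ofNat 0, .ofNat 203, .ofNat 430, .negSucc 563, .ofNat 0, .ofNat 210, .negSucc 222, .ofNat 0, .ofNat 0, .ofNat 597, .ofNat 2318, .ofNat 0, .ofNat 0, .ofNat 0, .ofNat 0, .ofNat 0, .ofNat 0, .ofNat 10544265064498219460861141975040000, .ofNat 0, .ofNat 0, .ofNat 0, .ofNat 0, .ofNat 0, .ofNat 0, .ofNat 0, .ofNat 0, .ofNat 0⟩)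
    (by decide +kernel)
theorem L00500 : Good (Phi V4.P V4.D 1 1) ⟨5, 25, 4, 5, 3, 6, 2, 1, 4, 0⟩ :=
  leaf_sound (S := T4.ds_pp) T4.ok_pp (w := 192) (c := ⟨⟨.negSucc 508, .negSucc 288, .ofNat 43, .negSucc 14, .negSucc 487, .negSucc 1241⟩, ⟨.negSucc 148, .negSucc 88, .negSucc 76, .ofNat 11, .negSucc 199, .negSucc 480⟩, ⟨.ofNat 1009, .ofNat 205, .ofNat 13, .negSucc 74, .ofNat 19, .ofNat 585⟩, ⟨.negSucc 1194, .negSucc 477, .ofNat 35, .negSucc 161, .negSucc 722, .negSucc 2156⟩, ⟨.ofNat 886, .ofNat 156, .ofNat 0, .ofNat 346, .negSucc 183, .ofNat 341⟩, .ofNat 869, .negSucc 1234, .ofNat 0, .negSucc 1234, .ofNat 3228, .ofNat 0, .ofNat 237, .ofNat 447, .negSucc 637, .ofNat 0, .ofNat 224, .negSucc 236, .ofNat 0, .ofNat 0, .ofNat 664, .ofNat 1691, .ofNat 0, .ofNat 0, .ofNat 0, .ofNat 0, .ofNat 0, .ofNat 0, .ofNat 0, .ofNat 0, .ofNat 0, .ofNat 0, .ofNat 0, .ofNat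 0, .ofNat 0, .ofNat 0, .ofNat 0, .ofNat 0⟩)
    (by decide +kernel)
theorem L00501 : Good (Phi V4.P V4.D 1 1) ⟨5, 25, 4, 5, 3, 7, 1, 0, 4, 0⟩ :=
  leaf_sound (S := T4.ds_pp) T4.ok_pp (w := 192) (c := ⟨⟨.ofNat 918, .negSucc 5, .negSucc 128, .ofNat 675, .negSucc 1854, .negSucc 2180⟩, ⟨.ofNat 453, .ofNat 37, .negSucc 124, .ofNat 296, .negSucc 775, .negSucc 872⟩, ⟨.ofNat 346, .ofNat 2, .ofNat 145, .negSucc 496, .ofNat 630, .ofNat 1039⟩, ⟨.ofNat 952, .negSucc 44, .negSucc 257, .ofNat 885, .negSucc 2857, .negSucc 3685⟩, ⟨.ofNat 1329, .ofNat 152, .negSucc 25, .ofNat 519, .negSucc 357, .ofNat 378⟩, .ofNat 876, .negSucc 1238, .ofNat 0, .negSucc 1238, .ofNat 3199, .ofNat 0, .ofNat 248, .ofNat 506, .negSucc 699, .ofNat 0, .ofNat 245, .negSucc 274, .ofNat 0, .ofNat 0, .ofNat 637, .ofNat 976, .ofNat 0, .ofNat 0, .ofNat 0, .ofNat 0, .ofNat 0, .ofNat 0, .ofNat 0,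 .ofNat 0, .ofNat 0, .ofNat 0, .ofNat 0, .ofNat 0, .ofNat 0, .ofNat 0, .ofNat 0, .ofNat 0⟩)
    (by decide +kernel)
theorem L00502 : Good (Phi V4.P V4.D 1 1) ⟨5, 25, 4, 5, 2, 3, 1, 0, 4, 1⟩ :=
  leaf_sound (S := T4.ds_pp) T4.ok_pp (w := 184) (c := ⟨⟨.negSucc 1386, .negSucc 118, .negSucc 12, .negSucc 162, .negSucc 756, .negSucc 498⟩, ⟨.negSucc 460, .ofNat 0, .negSucc 151, .negSucc 18, .negSucc 331, .negSucc 189⟩, ⟨.ofNat 1631, .ofNat 52, .ofNat 103, .negSucc 300, .ofNat 72, .ofNat 37⟩, ⟨.negSucc 2817, .negSucc 161, .negSucc 64, .negSucc 691, .negSucc 1026, .negSucc 951⟩, ⟨.ofNat 1343, .ofNat 147, .negSucc 68, .ofNat 1056, .negSucc 496, .ofNat 375⟩, .ofNat 878, .negSucc 1244, .ofNat 0, .negSucc 1244, .ofNat 3219, .ofNat 0, .ofNat 236, .ofNat 433, .negSucc 456, .ofNat 0, .ofNat 215, .negSucc 172, .ofNat 0, .ofNat 0, .ofNat 554, .ofNat 1806, .ofNat 0,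 .ofNat 0, .ofNat 0, .ofNat 0, .ofNat 0, .ofNat 0, .ofNat 1565058219005105736651060019200, .ofNat 0, .ofNat 0, .ofNat 0, .ofNat 0, .ofNat 0, .ofNat 0, .ofNat 0, .ofNat 0, .ofNat 0⟩)
    (by decide +kernel)
theorem L00503 : Good (Phi V4.P V4.D 1 1) ⟨5, 25, 4, 5, 2, 2, 1, 0, 3, 1⟩ :=
  leaf_sound (S := T4.ds_pp) T4.ok_pp (w := 176) (c := ⟨⟨.negSucc 1438, .negSucc 58, .negSucc 23, .negSucc 503, .negSucc 225, .ofNat 20⟩, ⟨.negSucc 506, .negSucc 25, .negSucc 104, .negSucc 166, .negSucc 116, .negSucc 1⟩, ⟨.ofNat 1647, .ofNat 22, .ofNat 29, .ofNat 134, .negSucc 341, .negSucc 389⟩, ⟨.negSucc 2713, .negSucc 18, .negSucc 69, .negSucc 1145, .negSucc 116, .ofNat 124⟩, ⟨.ofNat 847, .ofNat 48, .ofNat 2, .ofNat 807, .negSucc 616, .negSucc 230⟩, .ofNat 887, .negSucc 1272, .ofNat 0, .negSucc 1272, .ofNat 3305, .ofNat 0, .ofNat 191, .ofNat 297, .negSucc 279, .ofNat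 0, .ofNat 164, .negSucc 98, .ofNat 0, .ofNat 0, .ofNat 516, .ofNat 2281, .ofNat 0, .ofNat 0, .ofNat 0, .ofNat 0, .ofNat 0, .ofNat 0, .ofNat 0, .ofNat 0, .ofNat 0, .ofNat 0, .ofNat 0, .ofNat 0, .ofNat 0, .ofNat 0, .ofNat 0, .ofNat 0⟩)
    (by decide +kernel)
theorem L00504 : Good (Phi V4.P V4.D 1 1) ⟨5, 25, 4, 5, 3, 6, 1, 0, 3, 1⟩ :=
  leaf_sound (S := T4.ds_pp) T4.ok_pp (w := 192) (c := ⟨⟨.negSucc 1945, .negSucc 175, .ofNat 27, .negSucc 237, .negSucc 460, .ofNat 210⟩, ⟨.negSucc 674, .negSucc 32, .negSucc 134, .negSucc 64, .negSucc 214, .ofNat 76⟩, ⟨.ofNat 1677, .ofNat 89, .ofNat 42, .negSucc 52, .ofNat 37, .negSucc 557⟩, ⟨.negSucc 3844, .negSucc 247, .negSucc 10, .negSucc 648, .negSucc 509, .ofNat 415⟩, ⟨.ofNat 1633, .ofNat 147, .negSucc 11, .ofNat 644, .negSucc 583, .negSucc 191⟩, .ofNat 872, .negSucc 1235, .ofNat 0, .negSucc 1235, .ofNat 3207, .ofNat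 0, .ofNat 418, .ofNat 667, .negSucc 526, .ofNat 0, .ofNat 353, .negSucc 186, .ofNat 0, .ofNat 0, .ofNat 1002, .ofNat 4331, .ofNat 0, .ofNat 0, .ofNat 341155582060080213685960704000, .ofNat 0, .ofNat 0, .ofNat 0, .ofNat 0, .ofNat 0, .ofNat 0, .ofNat 0, .ofNat 0, .ofNat 0, .ofNat 0, .ofNat 0, .ofNat 51454763309787102926871094886400, .ofNat 0⟩)
    (by decide +kernel)
theorem L00505 : Good (Phi V4.P V4.D 1 1) ⟨5, 25, 4, 5, 3, 7, 1, 0, 4, 2⟩ :=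
  leaf_sound (S := T4.ds_pp) T4.ok_pp (w := 192) (c := ⟨⟨.negSucc 2150, .negSucc 233, .ofNat 61, .ofNat 88, .negSucc 545, .ofNat 40⟩, ⟨.negSucc 737, .negSucc 20, .negSucc 159, .ofNat 71, .negSucc 246, .ofNat 27⟩, ⟨.ofNat 1555, .ofNat 80, .ofNat 28, .negSucc 261, .ofNat 202, .negSucc 233⟩, ⟨.negSucc 4377, .negSucc 382, .ofNat 59, .negSucc 172, .negSucc 646, .negSucc 7⟩, ⟨.ofNat 2155, .ofNat 228, .negSucc 104, .ofNat 777, .negSucc 588, .ofNat 176⟩, .ofNat 876, .negSucc 1244, .ofNat 0, .negSucc 1244, .ofNat 3236, .ofNat 0, .ofNat 468, .ofNat 783, .negSucc 600, .ofNat 0, .ofNat 397, .negSucc 223, .ofNat 0, .ofNat 0, .ofNat 1004, .ofNat 5928, .ofNat 0, .ofNat 0, .ofNat 0, .ofNat 0, .ofNat 0, .ofNat 0, .ofNat 4671887695318148295094674495897600, .ofNat 0, .ofNat 0, .ofNat 0, .ofNat 0, .ofNat 0, .ofNat 0, .ofNat 0, .ofNat 0, .ofNat 0⟩)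
    (by decide +kernel)
theorem L00506 : Good (Phi V4.P V4.D 1 1) ⟨5, 25, 4, 5, 3, 7, 1, 0, 4, 3⟩ :=
  leaf_sound (S := T4.ds_pp) T4.ok_pp (w := 192) (c := ⟨⟨.negSucc 2123, .negSucc 160, .ofNat 66, .ofNat 29, .negSucc 474, .ofNat 170⟩, ⟨.negSucc 728, .ofNat 7, .negSucc 154, .ofNat 61, .negSucc 213, .ofNat 67⟩, ⟨.ofNat 1192, .ofNat 38, .ofNat 43, .negSucc 206, .ofNat 381, .negSucc 269⟩, ⟨.negSucc 4316, .negSucc 257, .ofNat 77, .negSucc 355, .negSucc 573, .ofNat 279⟩, ⟨.ofNat 2115, .ofNat 220, .negSucc 139, .ofNat 988, .negSucc 484, .negSucc 8⟩, .ofNat 868, .negSucc 1223, .ofNat 0, .negSucc 1223, .ofNat 3175, .ofNat 0, .ofNat 430, .ofNat 639, .negSucc 406, .ofNat 0, .ofNat 345, .negSucc 147, .ofNat 0, .ofNat 0, .ofNat 961, .ofNat 7402, .ofNat 0, .ofNat 0, .ofNat 0, .ofNat 0, .ofNat 0, .ofNat 0, .ofNat 4267684300226768664645630689280000, .ofNat 0, .ofNat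 0, .ofNat 0, .ofNat 2286041080305799821914350918041600, .ofNat 0, .ofNat 0, .ofNat 0, .ofNat 2198402935259728120859550390681600, .ofNat 0⟩)
    (by decide +kernel)
theorem L00507 : Good (Phi V4.P V4.D 1 1) ⟨4, 13, 5, 10, 1, 0, 1, 0, 2, 0⟩ :=
  out_sound (S := T4.ds_pp) T4.ok_pp (w := 56) (j := 3) (by decide +kernel)
theorem L00508 : Good (Phi V4.P V4.D 1 1) ⟨6, 52, 6, 22, 1, 0, 1, 0, 2, 0⟩ :=
  out_sound (S := T4.ds_pp) T4.ok_pp (w := 72) (j := 3) (by decide +kernel)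
theorem L00509 : Good (Phi V4.P V4.D 1 1) ⟨6, 52, 6, 23, 1, 0, 2, 0, 3, 0⟩ :=
  leaf_sound (S := T4.ds_pp) T4.ok_pp (w := 184) (c := ⟨⟨.negSucc 1267, .ofNat 20, .negSucc 41, .negSucc 83, .ofNat 112, .negSucc 316⟩, ⟨.negSucc 537, .ofNat 0, .negSucc 31, .ofNat 1, .ofNat 41, .negSucc 138⟩, ⟨.ofNat 1813, .ofNat 47, .negSucc 3, .ofNat 130, .negSucc 393, .ofNat 89⟩, ⟨.negSucc 2029, .ofNat 83, .negSucc 77, .negSucc 468, .ofNat 245, .negSucc 500⟩, ⟨.ofNat 22, .negSucc 36, .ofNat 21, .ofNat 770, .negSucc 151, .negSucc 8⟩, .ofNat 1364, .negSucc 2201, .ofNat 0, .negSucc 2201, .ofNat 5068, .ofNat 0, .ofNat 161, .ofNat 259, .negSucc 384, .ofNat 0, .ofNat 156, .negSucc 161, .ofNat 0, .ofNat 0, .ofNat 573, .ofNat 2794, .ofNat 0, .ofNat 0, .ofNat 7356647301608895469977600, .ofNat 0, .ofNat 10784685449761737285561710893911244800, .ofNat 0, .ofNat 3390734114709649594358169600,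 .ofNat 0, .ofNat 0, .ofNat 0, .ofNat 2404749786375394081898496000, .ofNat 0, .ofNat 0, .ofNat 0, .ofNat 359642082158845057931673600, .ofNat 0⟩)
    (by decide +kernel)
theorem L00510 : Good (Phi V4.P V4.D 1 1) ⟨6, 52, 6, 23, 1, 0, 2, 1, 3, 0⟩ :=
  leaf_sound (S := T4.ds_pp) T4.ok_pp (w := 184) (c := ⟨⟨.negSucc 1132, .negSucc 34, .negSucc 16, .negSucc 283, .ofNat 38, .negSucc 216⟩, ⟨.negSucc 477, .negSucc 14, .negSucc 24, .negSucc 99, .ofNat 8, .negSucc 94⟩, ⟨.ofNat 1422, .negSucc 43, .ofNat 41, .ofNat 227, .negSucc 397, .negSucc 25⟩, ⟨.negSucc 1835, .negSucc 119, .ofNat 3, .negSucc 653, .ofNat 136, .negSucc 338⟩, ⟨.ofNat 66, .ofNat 230, .negSucc 73, .ofNat 465, .negSucc 175, .negSucc 15⟩, .ofNat 569, .negSucc 578, .ofNat 0, .negSucc 578, .ofNat 1541, .ofNat 0, .ofNat 223, .ofNat 242, .negSucc 413, .ofNat 0, .ofNat 182, .negSucc 154, .ofNat 0, .ofNat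 0, .ofNat 626, .ofNat 3309, .ofNat 0, .ofNat 0, .ofNat 0, .ofNat 0, .ofNat 0, .ofNat 0, .ofNat 0, .ofNat 0, .ofNat 0, .ofNat 0, .ofNat 0, .ofNat 0, .ofNat 0, .ofNat 0, .ofNat 0, .ofNat 0⟩)
    (by decide +kernel)
theorem L00511 : Good (Phi V4.P V4.D 1 1) ⟨6, 52, 6, 23, 1, 0, 1, 0, 3, 1⟩ :=
  leaf_sound (S := T4.ds_pp) T4.ok_pp (w := 176) (c := ⟨⟨.negSucc 1547, .negSucc 50, .ofNat 75, .negSucc 218, .ofNat 159, .ofNat 98⟩, ⟨.negSucc 657, .negSucc 53, .ofNat 25, .negSucc 70, .ofNat 55, .ofNat 39⟩, ⟨.ofNat 1928, .negSucc 73, .negSucc 14, .negSucc 40, .negSucc 727, .negSucc 300⟩, ⟨.negSucc 2496, .ofNat 138, .ofNat 58, .negSucc 562, .ofNat 385, .ofNat 194⟩, ⟨.ofNat 63, .negSucc 414, .ofNat 140, .ofNat 493, .negSucc 302, .negSucc 87⟩, .ofNat 570, .negSucc 580, .ofNat 0, .negSucc 580, .ofNat 1549, .ofNat 0, .ofNat 201, .ofNat 215, .negSucc 311, .ofNat 0,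 .ofNat 163, .negSucc 116, .ofNat 0, .ofNat 0, .ofNat 546, .ofNat 2711, .ofNat 0, .ofNat 0, .ofNat 0, .ofNat 0, .ofNat 0, .ofNat 0, .ofNat 0, .ofNat 0, .ofNat 0, .ofNat 0, .ofNat 124832877776087629529088000, .ofNat 0, .ofNat 5635903096178311577449624645297766400, .ofNat 0, .ofNat 40221073324590431433523200, .ofNat 0⟩)
    (by decide +kernel)
theorem L00512 : Good (Phi V4.P V4.D 1 1) ⟨6, 53, 5, 11, 1, 0, 1, 0, 2, 0⟩ :=
  out_sound (S := T4.ds_pp) T4.ok_pp (w := 72) (j := 3) (by decide +kernel)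
theorem L00513 : Good (Phi V4.P V4.D 1 1) ⟨5, 27, 5, 11, 1, 0, 1, 0, 2, 0⟩ :=
  out_sound (S := T4.ds_pp) T4.ok_pp (w := 64) (j := 3) (by decide +kernel)
theorem L00514 : Good (Phi V4.P V4.D 1 1) ⟨4, 13, 5, 10, 1, 1, 1, 0, 2, 0⟩ :=
  out_sound (S := T4.ds_pp) T4.ok_pp (w := 56) (j := 3) (by decide +kernel)
theorem L00515 : Good (Phi V4.P V4.D 1 1) ⟨4, 13, 6, 22, 1, 1, 1, 0, 2, 0⟩ :=
  out_sound (S := T4.ds_pp) T4.ok_pp (w := 64) (j := 3) (by decide +kernel)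
theorem L00516 : Good (Phi V4.P V4.D 1 1) ⟨5, 26, 6, 23, 2, 2, 2, 0, 3, 0⟩ :=
  leaf_sound (S := T4.ds_pp) T4.ok_pp (w := 184) (c := ⟨⟨.negSucc 903, .negSucc 74, .ofNat 69, .negSucc 52, .negSucc 217, .negSucc 929⟩, ⟨.negSucc 338, .negSucc 8, .ofNat 6, .ofNat 9, .negSucc 105, .negSucc 392⟩, ⟨.ofNat 1653, .ofNat 17, .negSucc 21, .negSucc 96, .negSucc 117, .ofNat 269⟩, ⟨.negSucc 1777, .negSucc 105, .ofNat 115, .negSucc 357, .negSucc 244, .negSucc 1577⟩, ⟨.ofNat 785, .ofNat 86, .negSucc 26, .ofNat 630, .negSucc 235, .ofNat 224⟩, .ofNat 910, .negSucc 1253, .ofNat 0, .negSucc 1253, .ofNat 3023, .ofNat 0, .ofNat 195, .ofNat 328, .negSucc 400, .ofNat 0, .ofNat 187, .negSucc 158, .ofNat 0, .ofNat 0, .ofNat 548, .ofNat 3695, .ofNat 0, .ofNat 0, .ofNat 0, .ofNat 0, .ofNat 0, .ofNat 0, .ofNat 5662479757208214081018160742400, .ofNat 0, .ofNat 0, .ofNat 0, .ofNat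 818726092587436120420751769600, .ofNat 0, .ofNat 0, .ofNat 0, .ofNat 0, .ofNat 0⟩)
    (by decide +kernel)
theorem L00517 : Good (Phi V4.P V4.D 1 1) ⟨5, 26, 6, 23, 2, 2, 2, 1, 3, 0⟩ :=
  leaf_sound (S := T4.ds_pp) T4.ok_pp (w := 184) (c := ⟨⟨.negSucc 980, .negSucc 527, .negSucc 30, .negSucc 359, .negSucc 167, .negSucc 785⟩, ⟨.negSucc 382, .negSucc 213, .negSucc 32, .negSucc 122, .negSucc 87, .negSucc 336⟩, ⟨.ofNat 1438, .ofNat 409, .ofNat 20, .ofNat 158, .negSucc 221, .ofNat 167⟩, ⟨.negSucc 1796, .negSucc 849, .negSucc 67, .negSucc 871, .negSucc 134, .negSucc 1299⟩, ⟨.ofNat 543, .ofNat 173, .ofNat 31, .ofNat 687, .negSucc 303, .ofNat 108⟩, .ofNat 1384, .negSucc 2244, .ofNat 0, .negSucc 2244, .ofNat 5161, .ofNat 0, .ofNat 189, .ofNat 359, .negSucc 440, .ofNat 0, .ofNat 198, .negSucc 177, .ofNat 0, .ofNat 0, .ofNat 605, .ofNat 2405, .ofNat 0, .ofNat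 0, .ofNat 0, .ofNat 0, .ofNat 0, .ofNat 0, .ofNat 7145159006351198302712207769600, .ofNat 0, .ofNat 0, .ofNat 0, .ofNat 1625969469149545276432082534400, .ofNat 0, .ofNat 0, .ofNat 0, .ofNat 2693953846214001094071995596800, .ofNat 0⟩)
    (by decide +kernel)
theorem L00518 : Good (Phi V4.P V4.D 1 1) ⟨5, 26, 6, 23, 2, 2, 1, 0, 3, 1⟩ :=
  leaf_sound (S := T4.ds_pp) T4.ok_pp (w := 184) (c := ⟨⟨.negSucc 1529, .ofNat 1, .negSucc 24, .negSucc 542, .negSucc 208, .ofNat 54⟩, ⟨.negSucc 603, .ofNat 12, .negSucc 33, .negSucc 194, .negSucc 120, .ofNat 12⟩, ⟨.ofNat 1699, .ofNat 1, .ofNat 68, .ofNat 134, .negSucc 361, .negSucc 416⟩, ⟨.negSucc 2815, .negSucc 6, .negSucc 50, .negSucc 1236, .negSucc 63, .ofNat 185⟩, ⟨.ofNat 874, .ofNat 200, .ofNat 10, .ofNat 854, .negSucc 616, .negSucc 226⟩, .ofNat 914, .negSucc 1263, .ofNat 0, .negSucc 1263, .ofNat 3044, .ofNat 0,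 .ofNat 186, .ofNat 298, .negSucc 279, .ofNat 0, .ofNat 174, .negSucc 105, .ofNat 0, .ofNat 0, .ofNat 518, .ofNat 1787, .ofNat 0, .ofNat 0, .ofNat 499262043738840951973478400, .ofNat 0, .ofNat 29935319143948180429279265604344217600, .ofNat 0, .ofNat 583161300554703812445811507200, .ofNat 0, .ofNat 0, .ofNat 0, .ofNat 494290802428088498727262617600, .ofNat 0, .ofNat 0, .ofNat 0, .ofNat 0, .ofNat 0⟩)
    (by decide +kernel)
theorem L00519 : Good (Phi V4.P V4.D 1 1) ⟨5, 26, 6, 23, 2, 3, 2, 0, 4, 0⟩ :=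
  leaf_sound (S := T4.ds_pp) T4.ok_pp (w := 192) (c := ⟨⟨.ofNat 198, .negSucc 75, .ofNat 80, .ofNat 1119, .negSucc 923, .negSucc 2228⟩, ⟨.ofNat 160, .ofNat 71, .ofNat 7, .ofNat 522, .negSucc 409, .negSucc 951⟩, ⟨.ofNat 928, .ofNat 85, .negSucc 28, .negSucc 902, .ofNat 318, .ofNat 1086⟩, ⟨.negSucc 181, .negSucc 455, .ofNat 153, .ofNat 1472, .negSucc 1411, .negSucc 3718⟩, ⟨.ofNat 1165, .ofNat 755, .negSucc 84, .ofNat 709, .negSucc 137, .ofNat 388⟩, .ofNat 1385, .negSucc 2246, .ofNat 0, .negSucc 2246, .ofNat 5162, .ofNat 0, .ofNat 207, .ofNat 468, .negSucc 623, .ofNat 0, .ofNat 236, .negSucc 266, .ofNat 0, .ofNat 0, .ofNat 609, .ofNat 2104, .ofNat 0, .ofNat 0, .ofNat 0, .ofNat 0, .ofNat 0, .ofNat 0, .ofNat 125912930634560777446641106944000, .ofNat 0, .ofNat 0, .ofNat 0, .ofNat 29628602044951799375722237132800, .ofNat 0, .ofNat 0, .ofNat 0, .ofNat 25116240034884218167408302489600,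 .ofNat 0⟩)
    (by decide +kernel)
theorem L00520 : Good (Phi V4.P V4.D 1 1) ⟨5, 26, 6, 23, 2, 3, 2, 1, 4, 0⟩ :=
  leaf_sound (S := T4.ds_pp) T4.ok_pp (w := 192) (c := ⟨⟨.negSucc 502, .negSucc 11, .negSucc 183, .ofNat 410, .negSucc 644, .negSucc 1620⟩, ⟨.negSucc 149, .ofNat 33, .negSucc 108, .ofNat 213, .negSucc 286, .negSucc 684⟩, ⟨.ofNat 1116, .ofNat 29, .ofNat 100, .negSucc 445, .ofNat 124, .ofNat 742⟩, ⟨.negSucc 1238, .negSucc 28, .negSucc 288, .ofNat 347, .negSucc 967, .negSucc 2749⟩, ⟨.ofNat 1023, .ofNat 133, .negSucc 35, .ofNat 703, .negSucc 137, .ofNat 386⟩, .ofNat 1309, .negSucc 2087, .ofNat 0, .negSucc 2087, .ofNat 4823, .ofNat 0, .ofNat 216, .ofNat 502, .negSucc 694, .ofNat 0, .ofNat 256, .negSucc 290, .ofNat 0, .ofNat 0, .ofNat 670, .ofNat 1265, .ofNat 0, .ofNat 0, .ofNat 0, .ofNat 0, .ofNat 0, .ofNat 0, .ofNat 136736685989847696514534185369600,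 .ofNat 0, .ofNat 0, .ofNat 0, .ofNat 35529568326664404065768492236800, .ofNat 0, .ofNat 0, .ofNat 0, .ofNat 0, .ofNat 0⟩)
    (by decide +kernel)
theorem L00521 : Good (Phi V4.P V4.D 1 1) ⟨5, 26, 6, 23, 2, 3, 1, 0, 4, 1⟩ :=
  leaf_sound (S := T4.ds_pp) T4.ok_pp (w := 192) (c := ⟨⟨.negSucc 1657, .negSucc 898, .ofNat 136, .negSucc 136, .negSucc 785, .negSucc 442⟩, ⟨.negSucc 619, .negSucc 348, .ofNat 21, .negSucc 9, .negSucc 362, .negSucc 177⟩, ⟨.ofNat 1844, .ofNat 603, .negSucc 80, .negSucc 294, .ofNat 62, .ofNat 16⟩, ⟨.negSucc 3281, .negSucc 1378, .ofNat 201, .negSucc 653, .negSucc 1067, .negSucc 830⟩, ⟨.ofNat 1491, .ofNat 46, .ofNat 2, .ofNat 1000, .negSucc 423, .ofNat 291⟩, .ofNat 1310, .negSucc 2089, .ofNat 0, .negSucc 2089, .ofNat 4827, .ofNat 0, .ofNat 209, .ofNat 449, .negSucc 471, .ofNat 0, .ofNat 230, .negSucc 195, .ofNat 0, .ofNat 0, .ofNat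 564, .ofNat 1859, .ofNat 6945933146990658389384556074080665600, .ofNat 0, .ofNat 96005924552168212010316595200, .ofNat 0, .ofNat 0, .ofNat 0, .ofNat 10718019287962008517797425971200, .ofNat 0, .ofNat 0, .ofNat 0, .ofNat 5966611043723565216080855040000, .ofNat 0, .ofNat 0, .ofNat 0, .ofNat 6913502967814723052552532787200, .ofNat 0⟩)
    (by decide +kernel)
theorem L00522 : Good (Phi V4.P V4.D 1 1) ⟨6, 52, 6, 23, 2, 3, 1, 0, 4, 2⟩ :=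
  leaf_sound (S := T4.ds_pp) T4.ok_pp (w := 192) (c := ⟨⟨.negSucc 2090, .negSucc 407, .ofNat 77, .negSucc 256, .negSucc 548, .ofNat 34⟩, ⟨.negSucc 798, .negSucc 155, .negSucc 4, .negSucc 41, .negSucc 266, .ofNat 18⟩, ⟨.ofNat 1754, .ofNat 416, .negSucc 1, .negSucc 258, .ofNat 93, .negSucc 249⟩, ⟨.negSucc 4031, .negSucc 616, .ofNat 97, .negSucc 1026, .negSucc 634, .ofNat 30⟩, ⟨.ofNat 1634, .ofNat 22, .ofNat 19, .ofNat 1420, .negSucc 549, .ofNat 58⟩, .ofNat 1313, .negSucc 2094, .ofNat 0, .negSucc 2094, .ofNat 4837, .ofNat 0, .ofNat 198, .ofNat 387, .negSucc 309, .ofNat 0, .ofNat 204, .negSucc 125, .ofNat 0, .ofNat 0, .ofNat 512, .ofNat 1798, .ofNat 0, .ofNat 0, .ofNat 21883358634895340450139340800, .ofNat 0, .ofNat 0, .ofNat 0, .ofNat 3140909760635236988051521536000, .ofNat 0, .ofNat 0, .ofNat 0, .ofNat 1791871261884383893549114982400, .ofNat 0, .ofNat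 0, .ofNat 0, .ofNat 1615250822475434291170482585600, .ofNat 0⟩)
    (by decide +kernel)
theorem L00523 : Good (Phi V4.P V4.D 1 1) ⟨6, 52, 6, 23, 2, 3, 1, 0, 4, 3⟩ :=
  leaf_sound (S := T4.ds_pp) T4.ok_pp (w := 192) (c := ⟨⟨.negSucc 2085, .negSucc 60, .ofNat 59, .negSucc 221, .negSucc 497, .ofNat 172⟩, ⟨.negSucc 801, .negSucc 11, .negSucc 12, .negSucc 14, .negSucc 239, .ofNat 68⟩, ⟨.ofNat 1463, .ofNat 3, .negSucc 4, .negSucc 225, .ofNat 251, .negSucc 311⟩, ⟨.negSucc 3979, .ofNat 51, .ofNat 56, .negSucc 1074, .negSucc 586, .ofNat 331⟩, ⟨.ofNat 1536, .negSucc 247, .ofNat 48, .ofNat 1657, .negSucc 472, .negSucc 130⟩, .ofNat 1379, .negSucc 2232, .ofNat 0, .negSucc 2232, .ofNat 5134, .ofNat 0, .ofNat 370, .ofNat 665, .negSucc 437, .ofNat 0, .ofNat 363, .negSucc 173, .ofNat 0, .ofNat 0, .ofNat 977, .ofNat 4010, .ofNat 0, .ofNat 0, .ofNat 15311010452075601212945203200,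 .ofNat 0, .ofNat 0, .ofNat 0, .ofNat 14867585723714831208462208204800, .ofNat 0, .ofNat 0, .ofNat 0, .ofNat 6437952546957822074153022259200, .ofNat 0, .ofNat 0, .ofNat 0, .ofNat 0, .ofNat 0⟩)
    (by decide +kernel)
theorem L00524 : Good (Phi V4.P V4.D 1 1) ⟨6, 53, 6, 23, 2, 3, 1, 0, 3, 1⟩ :=
  out_sound (S := T4.ds_pp) T4.ok_pp (w := 72) (j := 3) (by decide +kernel)
theorem L00525 : Good (Phi V4.P V4.D 1 1) ⟨5, 27, 6, 23, 1, 1, 1, 0, 2, 0⟩ :=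
  out_sound (S := T4.ds_pp) T4.ok_pp (w := 64) (j := 3) (by decide +kernel)
theorem L00526 : Good (Phi V4.P V4.D 1 1) ⟨4, 12, 4, 5, 2, 0, 1, 0, 2, 1⟩ :=
  leaf_sound (S := T4.ds_pp) T4.ok_pp (w := 168) (c := ⟨⟨.negSucc 1145, .negSucc 151, .ofNat 8, .negSucc 122, .ofNat 108, .ofNat 268⟩, ⟨.negSucc 403, .negSucc 114, .negSucc 31, .negSucc 50, .ofNat 38, .ofNat 105⟩, ⟨.ofNat 1294, .ofNat 140, .negSucc 20, .negSucc 63, .negSucc 474, .negSucc 433⟩, ⟨.negSucc 1998, .negSucc 110, .ofNat 12, .negSucc 185, .ofNat 215, .ofNat 459⟩, ⟨.ofNat 99, .negSucc 20, .ofNat 8, .negSucc 35, .negSucc 95, .negSucc 55⟩, .ofNat 1129, .negSucc 1803, .ofNat 0, .negSucc 1803, .ofNat 4521, .ofNat 0, .ofNat 259, .ofNat 381, .negSucc 391, .ofNat 0, .ofNat 225, .negSucc 154, .ofNat 0, .ofNat 0, .ofNat 902, .ofNat 2990, .ofNat 0, .ofNat 0, .ofNat 0, .ofNat 0, .ofNat 0, .ofNat 0, .ofNat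 0, .ofNat 0, .ofNat 0, .ofNat 0, .ofNat 0, .ofNat 0, .ofNat 222757916529422594014308655851110400, .ofNat 0, .ofNat 0, .ofNat 0⟩)
    (by decide +kernel)
theorem L00527 : Good (Phi V4.P V4.D 1 1) ⟨4, 12, 4, 5, 2, 1, 1, 0, 2, 1⟩ :=
  leaf_sound (S := T4.ds_pp) T4.ok_pp (w := 168) (c := ⟨⟨.negSucc 1195, .negSucc 93, .negSucc 11, .negSucc 247, .negSucc 75, .ofNat 311⟩, ⟨.negSucc 417, .negSucc 91, .negSucc 52, .negSucc 90, .negSucc 39, .ofNat 118⟩, ⟨.ofNat 1226, .ofNat 31, .ofNat 25, .negSucc 99, .negSucc 225, .negSucc 630⟩, ⟨.negSucc 2112, .negSucc 6, .negSucc 25, .negSucc 476, .negSucc 46, .ofNat 580⟩, ⟨.ofNat 140, .ofNat 15, .ofNat 13, .ofNat 184, .negSucc 183, .negSucc 186⟩, .ofNat 1269, .negSucc 2128, .ofNat 0, .negSucc 2128, .ofNat 5299, .ofNat 0, .ofNat 270, .ofNat 416, .negSucc 343, .ofNat 0, .ofNat 238, .negSucc 128, .ofNat 0, .ofNat 0, .ofNat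 902, .ofNat 2335, .ofNat 0, .ofNat 0, .ofNat 0, .ofNat 0, .ofNat 15894416229499537956565535843942400, .ofNat 0, .ofNat 77458581737172696744905932800, .ofNat 0, .ofNat 49335239898472449251310106469990400, .ofNat 0, .ofNat 0, .ofNat 0, .ofNat 288573130186051063695937226617651200, .ofNat 0, .ofNat 0, .ofNat 0⟩)
    (by decide +kernel)
theorem L00528 : Good (Phi V4.P V4.D 1 1) ⟨6, 52, 4, 5, 1, 0, 2, 0, 3, 2⟩ :=
  leaf_sound (S := T4.ds_pp) T4.ok_pp (w := 176) (c := ⟨⟨.negSucc 1315, .ofNat 47, .negSucc 17, .negSucc 236, .ofNat 29, .ofNat 191⟩, ⟨.negSucc 514, .ofNat 0, .negSucc 61, .negSucc 88, .ofNat 6, .ofNat 78⟩, ⟨.ofNat 1717, .ofNat 38, .negSucc 94, .negSucc 285, .negSucc 285, .negSucc 413⟩, ⟨.negSucc 2206, .ofNat 168, .ofNat 33, .negSucc 498, .ofNat 101, .ofNat 351⟩, ⟨.ofNat 251, .negSucc 132, .negSucc 148, .ofNat 281, .negSucc 126, .negSucc 106⟩,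 .ofNat 1360, .negSucc 2193, .ofNat 0, .negSucc 2193, .ofNat 5051, .ofNat 0, .ofNat 274, .ofNat 435, .negSucc 387, .ofNat 0, .ofNat 264, .negSucc 158, .ofNat 0, .ofNat 0, .ofNat 954, .ofNat 15497, .ofNat 0, .ofNat 0, .ofNat 0, .ofNat 0, .ofNat 1334055458818538939575028637971251200, .ofNat 0, .ofNat 14975440624513576746772070400, .ofNat 0, .ofNat 8274500121753828996568762605266534400, .ofNat 0, .ofNat 9570645287576121256810905600, .ofNat 0, .ofNat 0, .ofNat 0, .ofNat 2963625615024544138081075200, .ofNat 0⟩)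
    (by decide +kernel)
theorem L00529 : Good (Phi V4.P V4.D 1 1) ⟨6, 52, 4, 5, 1, 0, 2, 1, 3, 2⟩ :=
  leaf_sound (S := T4.ds_pp) T4.ok_pp (w := 176) (c := ⟨⟨.negSucc 1091, .negSucc 3, .negSucc 101, .negSucc 405, .ofNat 6, .ofNat 142⟩, ⟨.negSucc 434, .negSucc 14, .negSucc 86, .negSucc 167, .ofNat 0, .ofNat 59⟩, ⟨.ofNat 1087, .negSucc 93, .ofNat 88, .negSucc 76, .negSucc 185, .negSucc 266⟩, ⟨.negSucc 1733, .ofNat 10, .negSucc 167, .negSucc 718, .ofNat 28, .ofNat 251⟩, ⟨.negSucc 22, .ofNat 41, .ofNat 14, .ofNat 166, .negSucc 41, .negSucc 55⟩, .ofNat 1168, .negSucc 1790, .ofNat 0, .negSucc 1790, .ofNat 4182, .ofNat 0, .ofNat 279, .ofNat 433, .negSucc 446, .ofNat 0, .ofNat 266, .negSucc 186, .ofNat 0, .ofNat 0, .ofNat 962, .ofNat 9168, .ofNat 0, .ofNat 0, .ofNat 0, .ofNat 0, .ofNat 0, .ofNat 0, .ofNat 11363220574618841933414400000, .ofNat 0, .ofNat 0,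 .ofNat 0, .ofNat 10180077944874753923953459200, .ofNat 0, .ofNat 0, .ofNat 0, .ofNat 2372971202150967939170304000, .ofNat 0⟩)
    (by decide +kernel)
theorem L00530 : Good (Phi V4.P V4.D 1 1) ⟨6, 52, 4, 5, 1, 0, 1, 0, 3, 3⟩ :=
  leaf_sound (S := T4.ds_pp) T4.ok_pp (w := 176) (c := ⟨⟨.negSucc 1029, .negSucc 108, .ofNat 64, .negSucc 378, .negSucc 55, .ofNat 113⟩, ⟨.negSucc 412, .negSucc 55, .negSucc 11, .negSucc 161, .negSucc 23, .ofNat 49⟩, ⟨.ofNat 1036, .ofNat 112, .negSucc 129, .negSucc 178, .negSucc 130, .negSucc 209⟩, ⟨.negSucc 1651, .negSucc 196, .ofNat 149, .negSucc 630, .negSucc 91, .ofNat 180⟩, ⟨.ofNat 17, .ofNat 129, .negSucc 105, .ofNat 63, .ofNat 5, .negSucc 0⟩, .ofNat 1311, .negSucc 2088, .ofNat 0, .negSucc 2088, .ofNat 4821, .ofNat 0, .ofNat 243, .ofNat 381, .negSucc 340, .ofNat 0, .ofNat 233, .negSucc 142, .ofNat 0, .ofNat 0, .ofNat 868,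 .ofNat 3517, .ofNat 0, .ofNat 0, .ofNat 0, .ofNat 0, .ofNat 171986807256857644060889990981222400, .ofNat 0, .ofNat 1694789301649930259949158400, .ofNat 0, .ofNat 3775783582035967298779463098879180800, .ofNat 0, .ofNat 277646892344584657698816000, .ofNat 0, .ofNat 3857524275650797027592513734783795200, .ofNat 0, .ofNat 70358478647790027512217600, .ofNat 0⟩)
    (by decide +kernel)
theorem L00531 : Good (Phi V4.P V4.D 1 1) ⟨6, 53, 4, 5, 1, 0, 1, 0, 2, 1⟩ :=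
  out_sound (S := T4.ds_pp) T4.ok_pp (w := 72) (j := 3) (by decide +kernel)
theorem L00532 : Good (Phi V4.P V4.D 1 1) ⟨5, 27, 4, 5, 1, 0, 1, 0, 2, 1⟩ :=
  out_sound (S := T4.ds_pp) T4.ok_pp (w := 64) (j := 3) (by decide +kernel)
theorem L00533 : Good (Phi V4.P V4.D 1 1) ⟨5, 24, 4, 5, 1, 1, 1, 0, 3, 2⟩ :=
  out_sound (S := T4.ds_pp) T4.ok_pp (w := 64) (j := 3) (by decide +kernel)
theorem L00534 : Good (Phi V4.P V4.D 1 1) ⟨5, 25, 4, 5, 2, 2, 1, 0, 3, 2⟩ :=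
  leaf_sound (S := T4.ds_pp) T4.ok_pp (w := 176) (c := ⟨⟨.negSucc 1413, .negSucc 82, .ofNat 15, .negSucc 398, .negSucc 278, .ofNat 236⟩, ⟨.negSucc 512, .negSucc 49, .negSucc 67, .negSucc 127, .negSucc 126, .ofNat 86⟩, ⟨.ofNat 1097, .ofNat 29, .negSucc 1, .ofNat 7, .ofNat 37, .negSucc 483⟩, ⟨.negSucc 2507, .negSucc 72, .ofNat 13, .negSucc 949, .negSucc 344, .ofNat 488⟩, ⟨.ofNat 434, .ofNat 58, .negSucc 15, .ofNat 746, .negSucc 262, .negSucc 262⟩, .ofNat 1119, .negSucc 1777, .ofNat 0, .negSucc 1777, .ofNat 4453, .ofNat 0, .ofNat 310, .ofNat 484, .negSucc 341, .ofNat 0, .ofNat 272, .negSucc 121, .ofNat 0, .ofNat 0, .ofNat 936, .ofNat 3687, .ofNat 0, .ofNat 0, .ofNat 0, .ofNat 0, .ofNat 0, .ofNat 0, .ofNat 505821707297014907368636416000, .ofNat 0, .ofNat 0, .ofNat 0, .ofNat 0, .ofNat 0, .ofNat 0, .ofNat 0, .ofNat 0, .ofNat 0⟩)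
    (by decide +kernel)
theorem L00535 : Good (Phi V4.P V4.D 1 1) ⟨5, 25, 4, 5, 2, 3, 1, 0, 3, 2⟩ :=
  leaf_sound (S := T4.ds_pp) T4.ok_pp (w := 176) (c := ⟨⟨.negSucc 1857, .negSucc 79, .ofNat 18, .negSucc 149, .negSucc 413, .ofNat 397⟩, ⟨.negSucc 662, .ofNat 14, .negSucc 133, .ofNat 17, .negSucc 183, .ofNat 145⟩, ⟨.ofNat 1030, .ofNat 22, .ofNat 28, .negSucc 228, .ofNat 338, .negSucc 617⟩, ⟨.negSucc 3553, .negSucc 87, .negSucc 17, .negSucc 917, .negSucc 507, .ofNat 813⟩, ⟨.ofNat 1267, .ofNat 107, .negSucc 25, .ofNat 1683, .negSucc 396, .negSucc 404⟩, .ofNat 552, .negSucc 559, .ofNat 0, .negSucc 559, .ofNat 1615, .ofNat 0, .ofNat 457, .ofNat 458, .negSucc 317, .ofNat 0, .ofNat 312, .negSucc 91, .ofNat 0, .ofNat 0, .ofNat 950, .ofNat 3678, .ofNat 0, .ofNat 0, .ofNat 0, .ofNat 0, .ofNat 0, .ofNat 0, .ofNat 0, .ofNat 0, .ofNat 0, .ofNat 0, .ofNat 0, .ofNat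 0, .ofNat 0, .ofNat 1773167520996372343276462800686284800, .ofNat 0, .ofNat 0⟩)
    (by decide +kernel)
theorem L00536 : Good (Phi V4.P V4.D 1 1) ⟨4, 12, 4, 5, 1, 1, 1, 0, 3, 3⟩ :=
  leaf_sound (S := T4.ds_pp) T4.ok_pp (w := 168) (c := ⟨⟨.negSucc 1144, .negSucc 155, .ofNat 14, .negSucc 577, .negSucc 279, .ofNat 203⟩, ⟨.negSucc 402, .negSucc 104, .negSucc 50, .negSucc 192, .negSucc 112, .ofNat 77⟩, ⟨.ofNat 468, .ofNat 84, .negSucc 22, .negSucc 212, .ofNat 282, .negSucc 366⟩, ⟨.negSucc 1998, .negSucc 127, .ofNat 13, .negSucc 1350, .negSucc 454, .ofNat 378⟩, ⟨.ofNat 62, .ofNat 74, .ofNat 6, .ofNat 1017, .ofNat 4, .negSucc 120⟩, .ofNat 885, .negSucc 1263, .ofNat 0, .negSucc 1263, .ofNat 3268, .ofNat 0, .ofNat 282, .ofNat 391, .negSucc 261, .ofNat 0, .ofNat 235, .negSucc 89, .ofNat 0, .ofNat 0, .ofNat 878, .ofNat 1683, .ofNat 0, .ofNat 5059404852297607740325153996800,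 .ofNat 1917035776061594836992000, .ofNat 0, .ofNat 0, .ofNat 2337951424542862364073443878502400, .ofNat 0, .ofNat 0, .ofNat 0, .ofNat 2567451263296476974116546333900800, .ofNat 0, .ofNat 0, .ofNat 0, .ofNat 2222726248101657565663243901337600, .ofNat 0, .ofNat 0⟩)
    (by decide +kernel)
theorem L00537 : Good (Phi V4.P V4.D 1 1) ⟨6, 52, 5, 10, 1, 1, 1, 0, 3, 2⟩ :=
  out_sound (S := T4.ds_pp) T4.ok_pp (w := 72) (j := 3) (by decide +kernel)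

end Crest.Agent.R097C4.N4pp
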