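import Crest.Agent.R097.T4

/-!
# Row 97, box cover in dimension n = 4 (generated)
-/

set_option autoImplicit false
set_option Elab.async false
set_option maxHeartbeats 0
set_option maxRecDepth 100000

open Crest.Agent.R097 Crest.Agent.R097.KA


namespace Crest.Agent.R097C4.N4pp

theorem L00538 : Good (Phi V4.P V4.D 1 1) ⟨6, 52, 5, 11, 2, 2, 1, 0, 3, 2⟩ :=
  leaf_sound (S := T4.ds_pp) T4.ok_pp (w := 184) (c := ⟨⟨.negSucc 1525, .ofNat 14, .ofNat 22, .negSucc 400, .negSucc 273, .ofNat 260⟩, ⟨.negSucc 604, .negSucc 4, .negSucc 25, .negSucc 137, .negSucc 134, .ofNat 98⟩, ⟨.ofNat 1152, .negSucc 157, .ofNat 72, .ofNat 7, .negSucc 38, .negSucc 523⟩, ⟨.negSucc 2638, .ofNat 85, .negSucc 5, .negSucc 958, .negSucc 299, .ofNat 550⟩, ⟨.ofNat 487, .negSucc 50, .ofNat 75, .ofNat 738, .negSucc 314, .negSucc 311⟩, .ofNat 1169, .negSucc 1791, .ofNat 0, .negSucc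 1791, .ofNat 4184, .ofNat 0, .ofNat 303, .ofNat 495, .negSucc 351, .ofNat 0, .ofNat 291, .negSucc 133, .ofNat 0, .ofNat 0, .ofNat 945, .ofNat 3147, .ofNat 0, .ofNat 0, .ofNat 1049638069616897887410585600, .ofNat 0, .ofNat 0, .ofNat 0, .ofNat 836197320049901708047810560000, .ofNat 0, .ofNat 0, .ofNat 0, .ofNat 0, .ofNat 0, .ofNat 0, .ofNat 0, .ofNat 0, .ofNat 0⟩)
    (by decide +kernel)
theorem L00539 : Good (Phi V4.P V4.D 1 1) ⟨6, 52, 5, 11, 2, 3, 1, 0, 3, 2⟩ :=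
  leaf_sound (S := T4.ds_pp) T4.ok_pp (w := 184) (c := ⟨⟨.negSucc 1886, .negSucc 24, .negSucc 36, .negSucc 155, .negSucc 412, .ofNat 406⟩, ⟨.negSucc 699, .ofNat 10, .negSucc 78, .ofNat 14, .negSucc 197, .ofNat 156⟩, ⟨.ofNat 1061, .negSucc 23, .ofNat 74, .negSucc 235, .ofNat 289, .negSucc 667⟩, ⟨.negSucc 3600, .negSucc 47, .negSucc 48, .negSucc 966, .negSucc 502, .ofNat 822⟩, ⟨.ofNat 1407, .ofNat 98, .negSucc 71, .ofNat 1652, .negSucc 356, .negSucc 403⟩, .ofNat 569, .negSucc 577, .ofNat 0, .negSucc 577, .ofNat 1541, .ofNat 0, .ofNat 436, .ofNat 468, .negSucc 327, .ofNat 0, .ofNat 326, .negSucc 101, .ofNat 0, .ofNat 0, .ofNat 958, .ofNat 2788, .ofNat 0, .ofNat 29339142155126493634952181684633600, .ofNat 166050675899717353773465600, .ofNat 0, .ofNat 0, .ofNat 0, .ofNat 0, .ofNat 0, .ofNat 0, .ofNat 0, .ofNat 0, .ofNat 0, .ofNat 0, .ofNat 281752835840709268723717964060373811200,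 .ofNat 0, .ofNat 0⟩)
    (by decide +kernel)
theorem L00540 : Good (Phi V4.P V4.D 1 1) ⟨6, 52, 4, 5, 1, 1, 1, 0, 3, 3⟩ :=
  leaf_sound (S := T4.ds_pp) T4.ok_pp (w := 176) (c := ⟨⟨.negSucc 1311, .negSucc 54, .ofNat 39, .negSucc 576, .negSucc 286, .ofNat 196⟩, ⟨.negSucc 516, .negSucc 33, .negSucc 31, .negSucc 196, .negSucc 124, .ofNat 80⟩, ⟨.ofNat 549, .ofNat 124, .negSucc 60, .negSucc 122, .ofNat 281, .negSucc 331⟩, ⟨.negSucc 2106, .negSucc 84, .ofNat 22, .negSucc 1393, .negSucc 454, .ofNat 360⟩, ⟨.ofNat 41, .ofNat 76, .ofNat 83, .ofNat 1092, .negSucc 4, .negSucc 110⟩, .ofNat 1384, .negSucc 2243, .ofNat 0, .negSucc 2243, .ofNat 5155, .ofNat 0, .ofNat 255, .ofNat 410, .negSucc 272, .ofNat 0, .ofNat 246, .negSucc 105, .ofNat 0, .ofNat 0, .ofNat 873, .ofNat 2235, .ofNat 0, .ofNat 1726896362385511298278005040742400, .ofNat 174091569057857687961600,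 .ofNat 0, .ofNat 0, .ofNat 471745992413390051567586913969766400, .ofNat 1879116092741396024996659200, .ofNat 0, .ofNat 0, .ofNat 852015180156655751547310570261708800, .ofNat 1007426399769433143351705600, .ofNat 0, .ofNat 0, .ofNat 694044599656260529464742668297830400, .ofNat 0, .ofNat 0⟩)
    (by decide +kernel)
theorem L00541 : Good (Phi V4.P V4.D 1 1) ⟨6, 53, 4, 5, 1, 1, 1, 0, 2, 1⟩ :=
  out_sound (S := T4.ds_pp) T4.ok_pp (w := 72) (j := 3) (by decide +kernel)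
theorem L00542 : Good (Phi V4.P V4.D 1 1) ⟨5, 27, 4, 5, 1, 1, 1, 0, 2, 1⟩ :=
  out_sound (S := T4.ds_pp) T4.ok_pp (w := 64) (j := 3) (by decide +kernel)
theorem L00543 : Good (Phi V4.P V4.D 1 1) ⟨5, 24, 3, 3, 0, 0, 1, 0, 1, 0⟩ :=
  out_sound (S := T4.ds_pp) T4.ok_pp (w := 64) (j := 3) (by decide +kernel)
theorem L00544 : Good (Phi V4.P V4.D 1 1) ⟨6, 50, 3, 3, 0, 0, 1, 0, 1, 0⟩ :=
  out_sound (S := T4.ds_pp) T4.ok_pp (w := 64) (j := 3) (by decide +kernel)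
theorem L00545 : Good (Phi V4.P V4.D 1 1) ⟨7, 102, 5, 12, 0, 0, 1, 0, 2, 0⟩ :=
  out_sound (S := T4.ds_pp) T4.ok_pp (w := 80) (j := 3) (by decide +kernel)
theorem L00546 : Good (Phi V4.P V4.D 1 1) ⟨7, 103, 5, 12, 2, 0, 2, 0, 3, 0⟩ :=
  leaf_sound (S := T4.ds_pp) T4.ok_pp (w := 192) (c := ⟨⟨.negSucc 1273, .negSucc 18, .negSucc 17, .negSucc 95, .ofNat 139, .negSucc 280⟩, ⟨.negSucc 546, .negSucc 12, .negSucc 34, .negSucc 30, .ofNat 57, .negSucc 121⟩, ⟨.ofNat 1716, .ofNat 11, .ofNat 21, .ofNat 179, .negSucc 394, .ofNat 135⟩, ⟨.negSucc 2057, .negSucc 22, .negSucc 14, .negSucc 283, .ofNat 261, .negSucc 454⟩, ⟨.ofNat 15, .ofNat 28, .negSucc 37, .ofNat 299, .negSucc 85, .ofNat 11⟩, .ofNat 1771, .negSucc 3126, .ofNat 0, .negSucc 3126, .ofNat 7181, .ofNat 0, .ofNat 138, .ofNat 256, .negSucc 403, .ofNat 0, .ofNat 144, .negSucc 173, .ofNat 0, .ofNat 0,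 .ofNat 593, .ofNat 2980, .ofNat 0, .ofNat 0, .ofNat 0, .ofNat 0, .ofNat 0, .ofNat 0, .ofNat 0, .ofNat 0, .ofNat 0, .ofNat 0, .ofNat 0, .ofNat 0, .ofNat 0, .ofNat 0, .ofNat 0, .ofNat 0⟩)
    (by decide +kernel)
theorem L00547 : Good (Phi V4.P V4.D 1 1) ⟨7, 103, 5, 12, 2, 1, 2, 0, 3, 0⟩ :=
  leaf_sound (S := T4.ds_pp) T4.ok_pp (w := 192) (c := ⟨⟨.negSucc 1224, .negSucc 52, .negSucc 29, .ofNat 13, .ofNat 10, .negSucc 350⟩, ⟨.negSucc 514, .negSucc 23, .negSucc 45, .ofNat 22, .negSucc 2, .negSucc 150⟩, ⟨.ofNat 1838, .ofNat 44, .ofNat 25, .negSucc 35, .negSucc 285, .ofNat 40⟩, ⟨.negSucc 2133, .negSucc 75, .negSucc 55, .negSucc 184, .ofNat 105, .negSucc 575⟩, ⟨.ofNat 374, .ofNat 19, .negSucc 2, .ofNat 472, .negSucc 205, .ofNat 30⟩, .ofNat 1649, .negSucc 2860, .ofNat 0, .negSucc 2860, .ofNat 6597, .ofNat 0, .ofNat 144, .ofNat 283, .negSucc 358, .ofNat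 0, .ofNat 155, .negSucc 149, .ofNat 0, .ofNat 0, .ofNat 546, .ofNat 7836, .ofNat 0, .ofNat 0, .ofNat 0, .ofNat 0, .ofNat 0, .ofNat 0, .ofNat 0, .ofNat 0, .ofNat 0, .ofNat 0, .ofNat 0, .ofNat 0, .ofNat 0, .ofNat 0, .ofNat 0, .ofNat 0⟩)
    (by decide +kernel)
theorem L00548 : Good (Phi V4.P V4.D 1 1) ⟨7, 103, 5, 12, 1, 0, 2, 1, 3, 0⟩ :=
  leaf_sound (S := T4.ds_pp) T4.ok_pp (w := 184) (c := ⟨⟨.negSucc 1108, .negSucc 48, .ofNat 1, .negSucc 227, .ofNat 58, .negSucc 245⟩, ⟨.negSucc 476, .negSucc 25, .negSucc 26, .negSucc 79, .ofNat 18, .negSucc 106⟩, ⟨.ofNat 1399, .ofNat 29, .ofNat 20, .ofNat 222, .negSucc 374, .negSucc 16⟩, ⟨.negSucc 1785, .negSucc 62, .ofNat 2, .negSucc 601, .ofNat 180, .negSucc 387⟩, ⟨.ofNat 1, .ofNat 6, .negSucc 9, .ofNat 546, .negSucc 198, .negSucc 14⟩, .ofNat 1733, .negSucc 3050, .ofNat 0, .negSucc 3050, .ofNat 7038, .ofNat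 0, .ofNat 149, .ofNat 286, .negSucc 374, .ofNat 0, .ofNat 158, .negSucc 157, .ofNat 0, .ofNat 0, .ofNat 592, .ofNat 3222, .ofNat 0, .ofNat 0, .ofNat 0, .ofNat 0, .ofNat 0, .ofNat 0, .ofNat 0, .ofNat 0, .ofNat 0, .ofNat 0, .ofNat 0, .ofNat 0, .ofNat 0, .ofNat 0, .ofNat 0, .ofNat 0⟩)
    (by decide +kernel)
theorem L00549 : Good (Phi V4.P V4.D 1 1) ⟨7, 103, 5, 12, 1, 0, 1, 0, 3, 1⟩ :=
  leaf_sound (S := T4.ds_pp) T4.ok_pp (w := 176) (c := ⟨⟨.negSucc 1462, .ofNat 2, .ofNat 13, .negSucc 251, .ofNat 182, .ofNat 98⟩, ⟨.negSucc 624, .negSucc 2, .negSucc 22, .negSucc 91, .ofNat 70, .ofNat 38⟩, ⟨.ofNat 1914, .ofNat 20, .negSucc 11, .negSucc 47, .negSucc 775, .negSucc 318⟩, ⟨.negSucc 2409, .ofNat 9, .ofNat 30, .negSucc 619, .ofNat 401, .ofNat 211⟩, ⟨.ofNat 129, .ofNat 31, .negSucc 28, .ofNat 497, .negSucc 250, .negSucc 125⟩, .ofNat 592, .negSucc 634,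 .ofNat 0, .negSucc 634, .ofNat 1688, .ofNat 0, .ofNat 193, .ofNat 219, .negSucc 303, .ofNat 0, .ofNat 157, .negSucc 113, .ofNat 0, .ofNat 0, .ofNat 542, .ofNat 2166, .ofNat 0, .ofNat 0, .ofNat 0, .ofNat 0, .ofNat 0, .ofNat 0, .ofNat 0, .ofNat 0, .ofNat 0, .ofNat 0, .ofNat 0, .ofNat 0, .ofNat 0, .ofNat 0, .ofNat 0, .ofNat 0⟩)
    (by decide +kernel)
theorem L00550 : Good (Phi V4.P V4.D 1 1) ⟨7, 103, 6, 24, 2, 2, 1, 0, 4, 0⟩ :=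
  leaf_sound (S := T4.ds_pp) T4.ok_pp (w := 200) (c := ⟨⟨.negSucc 770, .negSucc 51, .negSucc 4, .negSucc 19, .negSucc 448, .negSucc 579⟩, ⟨.negSucc 304, .negSucc 17, .negSucc 22, .ofNat 12, .negSucc 212, .negSucc 246⟩, ⟨.ofNat 1550, .ofNat 43, .ofNat 22, .negSucc 58, .negSucc 297, .ofNat 230⟩, ⟨.negSucc 1571, .negSucc 81, .negSucc 14, .negSucc 279, .negSucc 504, .negSucc 991⟩, ⟨.ofNat 759, .ofNat 29, .ofNat 1, .ofNat 569, .negSucc 492, .ofNat 145⟩, .ofNat 1753, .negSucc 3083, .ofNat 0, .negSucc 3083, .ofNat 7083, .ofNat 0, .ofNat 162, .ofNat 365, .negSucc 453, .ofNat 0, .ofNat 189, .negSucc 188, .ofNat 0, .ofNat 0, .ofNat 587, .ofNat 1974, .ofNat 0, .ofNat 0, .ofNat 0, .ofNat 0, .ofNat 0, .ofNat 0, .ofNat 0, .ofNat 0, .ofNat 0, .ofNat 0, .ofNat 0, .ofNat 0, .ofNat 0, .ofNat 0, .ofNat 0, .ofNat 0⟩)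
    (by decide +kernel)
theorem L00551 : Good (Phi V4.P V4.D 1 1) ⟨7, 103, 6, 24, 2, 2, 1, 0, 4, 1⟩ :=
  leaf_sound (S := T4.ds_pp) T4.ok_pp (w := 200) (c := ⟨⟨.negSucc 1268, .negSucc 55, .ofNat 42, .negSucc 472, .negSucc 270, .negSucc 234⟩, ⟨.negSucc 515, .negSucc 20, .negSucc 5, .negSucc 177, .negSucc 139, .negSucc 101⟩, ⟨.ofNat 1780, .ofNat 39, .negSucc 28, .ofNat 163, .negSucc 421, .negSucc 40⟩, ⟨.negSucc 2423, .negSucc 85, .ofNat 68, .negSucc 1098, .negSucc 165, .negSucc 389⟩, ⟨.ofNat 877, .ofNat 35, .negSucc 20, .ofNat 781, .negSucc 616, .ofNat 32⟩, .ofNat 1763, .negSucc 3111, .ofNat 0, .negSucc 3111, .ofNat 7157, .ofNat 0, .ofNat 159, .ofNat 350, .negSucc 370, .ofNat 0, .ofNat 182, .negSucc 152, .ofNat 0, .ofNat 0, .ofNat 550, .ofNat 3071, .ofNat 0, .ofNat 0, .ofNat 0, .ofNat 0, .ofNat 0, .ofNat 0, .ofNat 0, .ofNat 0, .ofNat 0, .ofNat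 0, .ofNat 0, .ofNat 0, .ofNat 0, .ofNat 0, .ofNat 0, .ofNat 0⟩)
    (by decide +kernel)
theorem L00552 : Good (Phi V4.P V4.D 1 1) ⟨7, 103, 6, 24, 2, 3, 2, 0, 4, 0⟩ :=
  leaf_sound (S := T4.ds_pp) T4.ok_pp (w := 200) (c := ⟨⟨.ofNat 324, .ofNat 38, .negSucc 95, .ofNat 1113, .negSucc 952, .negSucc 2232⟩, ⟨.ofNat 179, .ofNat 35, .negSucc 64, .ofNat 511, .negSucc 420, .negSucc 959⟩, ⟨.ofNat 857, .negSucc 12, .ofNat 61, .negSucc 859, .ofNat 347, .ofNat 1088⟩, ⟨.ofNat 50, .ofNat 45, .negSucc 165, .ofNat 1473, .negSucc 1470, .negSucc 3748⟩, ⟨.ofNat 1084, .ofNat 40, .negSucc 0, .ofNat 705, .negSucc 120, .ofNat 393⟩, .ofNat 1632, .negSucc 2818, .ofNat 0, .negSucc 2818, .ofNat 6493, .ofNat 0, .ofNat 178, .ofNat 471, .negSucc 611, .ofNat 0, .ofNat 229, .negSucc 262, .ofNat 0, .ofNat 0, .ofNat 603, .ofNat 1846, .ofNat 12765835339653144051983472056719323955200,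 .ofNat 0, .ofNat 12854363243587135057428480000, .ofNat 0, .ofNat 0, .ofNat 0, .ofNat 0, .ofNat 0, .ofNat 0, .ofNat 0, .ofNat 0, .ofNat 0, .ofNat 0, .ofNat 0, .ofNat 0, .ofNat 0⟩)
    (by decide +kernel)
theorem L00553 : Good (Phi V4.P V4.D 1 1) ⟨7, 103, 6, 24, 2, 3, 2, 1, 4, 0⟩ :=
  leaf_sound (S := T4.ds_pp) T4.ok_pp (w := 200) (c := ⟨⟨.negSucc 588, .negSucc 3, .negSucc 45, .ofNat 537, .negSucc 760, .negSucc 1643⟩, ⟨.negSucc 219, .ofNat 10, .negSucc 44, .ofNat 259, .negSucc 334, .negSucc 701⟩, ⟨.ofNat 1151, .ofNat 1, .ofNat 52, .negSucc 501, .ofNat 193, .ofNat 751⟩, ⟨.negSucc 1360, .negSucc 14, .negSucc 87, .ofNat 567, .negSucc 1172, .negSucc 2802⟩, ⟨.ofNat 950, .ofNat 49, .ofNat 4, .ofNat 673, .negSucc 107, .ofNat 393⟩, .ofNat 1640, .negSucc 2839, .ofNat 0, .negSucc 2839, .ofNat 6548, .ofNat 0, .ofNat 188, .ofNat 518, .negSucc 694, .ofNat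 0, .ofNat 254, .negSucc 294, .ofNat 0, .ofNat 0, .ofNat 666, .ofNat 1197, .ofNat 0, .ofNat 0, .ofNat 0, .ofNat 0, .ofNat 0, .ofNat 0, .ofNat 0, .ofNat 0, .ofNat 0, .ofNat 0, .ofNat 0, .ofNat 0, .ofNat 0, .ofNat 0, .ofNat 0, .ofNat 0⟩)
    (by decide +kernel)
theorem L00554 : Good (Phi V4.P V4.D 1 1) ⟨7, 103, 6, 24, 2, 3, 1, 0, 4, 1⟩ :=
  leaf_sound (S := T4.ds_pp) T4.ok_pp (w := 200) (c := ⟨⟨.negSucc 1473, .ofNat 46, .negSucc 96, .negSucc 233, .negSucc 772, .negSucc 577⟩, ⟨.negSucc 585, .ofNat 32, .negSucc 79, .negSucc 66, .negSucc 351, .negSucc 238⟩, ⟨.ofNat 1744, .negSucc 50, .ofNat 71, .negSucc 221, .ofNat 54, .ofNat 100⟩, ⟨.negSucc 3008, .ofNat 109, .negSucc 192, .negSucc 789, .negSucc 1050, .negSucc 1082⟩, ⟨.ofNat 1473, .negSucc 31, .ofNat 47, .ofNat 947, .negSucc 435, .ofNat 360⟩, .ofNat 1638, .negSucc 2838, .ofNat 0, .negSucc 2838,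 .ofNat 6552, .ofNat 0, .ofNat 180, .ofNat 458, .negSucc 463, .ofNat 0, .ofNat 225, .negSucc 195, .ofNat 0, .ofNat 0, .ofNat 560, .ofNat 1581, .ofNat 0, .ofNat 0, .ofNat 0, .ofNat 0, .ofNat 0, .ofNat 0, .ofNat 0, .ofNat 0, .ofNat 0, .ofNat 0, .ofNat 0, .ofNat 0, .ofNat 0, .ofNat 0, .ofNat 0, .ofNat 0⟩)
    (by decide +kernel)
theorem L00555 : Good (Phi V4.P V4.D 1 1) ⟨7, 103, 6, 24, 2, 2, 1, 0, 3, 1⟩ :=
  leaf_sound (S := T4.ds_pp) T4.ok_pp (w := 192) (c := ⟨⟨.negSucc 1528, .negSucc 10, .ofNat 0, .negSucc 521, .negSucc 224, .ofNat 79⟩, ⟨.negSucc 626, .negSucc 4, .negSucc 23, .negSucc 196, .negSucc 120, .ofNat 26⟩, ⟨.ofNat 1759, .negSucc 6, .ofNat 17, .ofNat 110, .negSucc 350, .negSucc 455⟩, ⟨.negSucc 2847, .ofNat 1, .negSucc 3, .negSucc 1199, .negSucc 88, .ofNat 234⟩, ⟨.ofNat 893, .ofNat 12, .negSucc 6, .ofNat 833, .negSucc 623, .negSucc 245⟩,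 .ofNat 1642, .negSucc 2843, .ofNat 0, .negSucc 2843, .ofNat 6556, .ofNat 0, .ofNat 300, .ofNat 633, .negSucc 538, .ofNat 0, .ofNat 334, .negSucc 218, .ofNat 0, .ofNat 0, .ofNat 1024, .ofNat 6089, .ofNat 0, .ofNat 0, .ofNat 0, .ofNat 0, .ofNat 0, .ofNat 0, .ofNat 0, .ofNat 0, .ofNat 0, .ofNat 0, .ofNat 0, .ofNat 0, .ofNat 17861167755062725779492447797224302182400, .ofNat 0, .ofNat 0, .ofNat 0⟩)
    (by decide +kernel)
theorem L00556 : Good (Phi V4.P V4.D 1 1) ⟨7, 103, 6, 24, 3, 6, 1, 0, 3, 1⟩ :=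
  leaf_sound (S := T4.ds_pp) T4.ok_pp (w := 200) (c := ⟨⟨.negSucc 1955, .negSucc 80, .ofNat 31, .negSucc 311, .negSucc 521, .ofNat 218⟩, ⟨.negSucc 785, .negSucc 25, .negSucc 22, .negSucc 111, .negSucc 244, .ofNat 87⟩, ⟨.ofNat 1754, .ofNat 25, .negSucc 31, .ofNat 20, .ofNat 28, .negSucc 584⟩, ⟨.negSucc 3871, .negSucc 121, .ofNat 41, .negSucc 799, .negSucc 611, .ofNat 442⟩, ⟨.ofNat 1676, .ofNat 36, .negSucc 9, .ofNat 684, .negSucc 514, .negSucc 212⟩, .ofNat 1773, .negSucc 3129, .ofNat 0, .negSucc 3129, .ofNat 7187, .ofNat 0, .ofNat 321, .ofNat 722, .negSucc 543, .ofNat 0, .ofNat 368, .negSucc 221, .ofNat 0, .ofNat 0, .ofNat 1016, .ofNat 5213, .ofNat 0, .ofNat 0, .ofNat 0, .ofNat 0, .ofNat 0, .ofNat 0, .ofNat 0, .ofNat 0, .ofNat 0, .ofNat 0, .ofNat 0, .ofNat 0, .ofNat 0, .ofNat 0, .ofNat 0, .ofNat 0⟩)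
    (by decide +kernel)
theorem L00557 : Good (Phi V4.P V4.D 1 1) ⟨7, 103, 6, 24, 3, 7, 1, 0, 4, 2⟩ :=
  leaf_sound (S := T4.ds_pp) T4.ok_pp (w := 208) (c := ⟨⟨.negSucc 2249, .negSucc 79, .ofNat 23, .ofNat 127, .negSucc 585, .ofNat 32⟩, ⟨.negSucc 896, .negSucc 14, .negSucc 36, .ofNat 81, .negSucc 272, .ofNat 20⟩, ⟨.ofNat 1690, .ofNat 45, .negSucc 6, .negSucc 318, .ofNat 198, .negSucc 244⟩, ⟨.negSucc 4576, .negSucc 137, .ofNat 35, .negSucc 119, .negSucc 714, .negSucc 12⟩, ⟨.ofNat 2219, .ofNat 71, .negSucc 43, .ofNat 744, .negSucc 515, .ofNat 146⟩, .ofNat 1015, .negSucc 1501, .ofNat 0, .negSucc 1501, .ofNat 3618, .ofNat 0, .ofNat 409, .ofNat 812, .negSucc 593, .ofNat 0, .ofNat 413, .negSucc 242, .ofNat 0, .ofNat 0, .ofNat 1001, .ofNat 5928, .ofNat 0, .ofNat 0, .ofNat 0, .ofNat 0, .ofNat 0, .ofNat 0, .ofNat 0, .ofNat 0, .ofNat 0, .ofNat 0, .ofNat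 0, .ofNat 0, .ofNat 0, .ofNat 0, .ofNat 0, .ofNat 0⟩)
    (by decide +kernel)
theorem L00558 : Good (Phi V4.P V4.D 1 1) ⟨7, 103, 6, 24, 3, 7, 1, 0, 4, 3⟩ :=
  leaf_sound (S := T4.ds_pp) T4.ok_pp (w := 208) (c := ⟨⟨.negSucc 2212, .negSucc 29, .negSucc 26, .ofNat 60, .negSucc 489, .ofNat 215⟩, ⟨.negSucc 879, .ofNat 5, .negSucc 52, .ofNat 59, .negSucc 229, .ofNat 90⟩, ⟨.ofNat 1365, .ofNat 11, .ofNat 22, .negSucc 254, .ofNat 319, .negSucc 324⟩, ⟨.negSucc 4531, .negSucc 33, .negSucc 102, .negSucc 297, .negSucc 578, .ofNat 385⟩, ⟨.ofNat 2250, .ofNat 13, .ofNat 88, .ofNat 906, .negSucc 470, .negSucc 90⟩, .ofNat 1390, .negSucc 2302, .ofNat 0, .negSucc 2302, .ofNat 5379, .ofNat 0, .ofNat 342, .ofNat 696, .negSucc 391, .ofNat 0, .ofNat 358, .negSucc 162, .ofNat 0, .ofNat 0, .ofNat 955, .ofNat 6801, .ofNat 0, .ofNat 0, .ofNat 0, .ofNat 0, .ofNat 0, .ofNat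 0, .ofNat 0, .ofNat 0, .ofNat 0, .ofNat 0, .ofNat 0, .ofNat 0, .ofNat 0, .ofNat 0, .ofNat 0, .ofNat 0⟩)
    (by decide +kernel)
theorem L00559 : Good (Phi V4.P V4.D 1 1) ⟨7, 103, 6, 25, 2, 2, 2, 0, 3, 0⟩ :=
  leaf_sound (S := T4.ds_pp) T4.ok_pp (w := 192) (c := ⟨⟨.negSucc 808, .ofNat 35, .negSucc 114, .negSucc 64, .negSucc 254, .negSucc 1016⟩, ⟨.negSucc 337, .ofNat 21, .negSucc 71, .negSucc 8, .negSucc 120, .negSucc 443⟩, ⟨.ofNat 1649, .negSucc 66, .ofNat 96, .negSucc 71, .negSucc 92, .ofNat 327⟩, ⟨.negSucc 1631, .ofNat 72, .negSucc 224, .negSucc 381, .negSucc 304, .negSucc 1746⟩, ⟨.ofNat 743, .negSucc 6, .ofNat 71, .ofNat 628, .negSucc 230, .ofNat 274⟩, .ofNat 1971, .negSucc 3517, .ofNat 0, .negSucc 3517, .ofNat 7921, .ofNat 0, .ofNat 147, .ofNat 357, .negSucc 398, .ofNat 0, .ofNat 184, .negSucc 169, .ofNat 0, .ofNat 0, .ofNat 546, .ofNat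 3474, .ofNat 0, .ofNat 0, .ofNat 0, .ofNat 0, .ofNat 0, .ofNat 0, .ofNat 0, .ofNat 0, .ofNat 0, .ofNat 0, .ofNat 155680636986715916217404620800, .ofNat 0, .ofNat 0, .ofNat 0, .ofNat 261742568871289419411436339200, .ofNat 0⟩)
    (by decide +kernel)
theorem L00560 : Good (Phi V4.P V4.D 1 1) ⟨7, 103, 6, 25, 2, 2, 2, 1, 3, 0⟩ :=
  leaf_sound (S := T4.ds_pp) T4.ok_pp (w := 192) (c := ⟨⟨.negSucc 1034, .ofNat 21, .negSucc 124, .negSucc 448, .negSucc 163, .negSucc 689⟩, ⟨.negSucc 438, .ofNat 9, .negSucc 75, .negSucc 176, .negSucc 82, .negSucc 303⟩, ⟨.ofNat 1459, .ofNat 11, .ofNat 101, .ofNat 215, .negSucc 233, .ofNat 107⟩, ⟨.negSucc 1930, .ofNat 64, .negSucc 239, .negSucc 1039, .negSucc 125, .negSucc 1132⟩, ⟨.ofNat 587, .negSucc 25, .ofNat 75, .ofNat 726, .negSucc 304, .ofNat 70⟩, .ofNat 1070, .negSucc 1602, .ofNat 0, .negSucc 1602, .ofNat 3780,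 .ofNat 0, .ofNat 180, .ofNat 361, .negSucc 435, .ofNat 0, .ofNat 195, .negSucc 177, .ofNat 0, .ofNat 0, .ofNat 604, .ofNat 2210, .ofNat 0, .ofNat 0, .ofNat 0, .ofNat 0, .ofNat 0, .ofNat 0, .ofNat 0, .ofNat 0, .ofNat 0, .ofNat 0, .ofNat 84911475179138026278223872000, .ofNat 0, .ofNat 0, .ofNat 0, .ofNat 0, .ofNat 0⟩)
    (by decide +kernel)
theorem L00561 : Good (Phi V4.P V4.D 1 1) ⟨8, 206, 6, 25, 2, 3, 2, 0, 4, 0⟩ :=
  out_sound (S := T4.ds_pp) T4.ok_pp (w := 88) (j := 3) (by decide +kernel)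
theorem L00562 : Good (Phi V4.P V4.D 1 1) ⟨8, 207, 6, 25, 2, 3, 2, 0, 4, 0⟩ :=
  leaf_sound (S := T4.ds_pp) T4.ok_pp (w := 208) (c := ⟨⟨.ofNat 530, .ofNat 41, .negSucc 217, .ofNat 808, .negSucc 978, .negSucc 2267⟩, ⟨.ofNat 268, .ofNat 23, .negSucc 115, .ofNat 380, .negSucc 436, .negSucc 993⟩, ⟨.ofNat 786, .negSucc 44, .ofNat 149, .negSucc 704, .ofNat 364, .ofNat 1099⟩, ⟨.ofNat 352, .ofNat 94, .negSucc 401, .ofNat 983, .negSucc 1520, .negSucc 3810⟩, ⟨.ofNat 1115, .negSucc 63, .ofNat 92, .ofNat 692, .negSucc 97, .ofNat 426⟩, .ofNat 1975, .negSucc 3527, .ofNat 0, .negSucc 3527, .ofNat 7946, .ofNat 0, .ofNat 168, .ofNat 493, .negSucc 639, .ofNat 0, .ofNat 240, .negSucc 281, .ofNat 0, .ofNat 0, .ofNat 614, .ofNat 2561, .ofNat 0, .ofNat 0, .ofNat 0, .ofNat 0, .ofNat 0, .ofNat 0, .ofNat 0, .ofNat 0, .ofNat 0, .ofNat 0, .ofNat 746551977022037504102812876800,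 .ofNat 0, .ofNat 0, .ofNat 0, .ofNat 834343075342841243495930265600, .ofNat 0⟩)
    (by decide +kernel)
theorem L00563 : Good (Phi V4.P V4.D 1 1) ⟨7, 103, 6, 25, 2, 3, 2, 1, 4, 0⟩ :=
  leaf_sound (S := T4.ds_pp) T4.ok_pp (w := 200) (c := ⟨⟨.negSucc 919, .ofNat 377, .negSucc 265, .ofNat 423, .negSucc 723, .negSucc 1611⟩, ⟨.negSucc 385, .ofNat 179, .negSucc 142, .ofNat 210, .negSucc 324, .negSucc 703⟩, ⟨.ofNat 1327, .negSucc 171, .ofNat 174, .negSucc 441, .ofNat 160, .ofNat 731⟩, ⟨.negSucc 1884, .ofNat 583, .negSucc 456, .ofNat 364, .negSucc 1109, .negSucc 2750⟩, ⟨.ofNat 912, .ofNat 73, .ofNat 44, .ofNat 699, .negSucc 103, .ofNat 395⟩, .ofNat 1981, .negSucc 3540, .ofNat 0, .negSucc 3540, .ofNat 7974, .ofNat 0, .ofNat 175, .ofNat 518, .negSucc 686, .ofNat 0, .ofNat 255, .negSucc 297, .ofNat 0, .ofNat 0, .ofNat 666, .ofNat 1464, .ofNat 0, .ofNat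 0, .ofNat 0, .ofNat 0, .ofNat 0, .ofNat 0, .ofNat 0, .ofNat 0, .ofNat 0, .ofNat 0, .ofNat 4894902904985450859597712588800, .ofNat 0, .ofNat 0, .ofNat 0, .ofNat 4436645713939643168179460505600, .ofNat 0⟩)
    (by decide +kernel)
theorem L00564 : Good (Phi V4.P V4.D 1 1) ⟨7, 103, 6, 25, 2, 3, 2, 0, 4, 1⟩ :=
  leaf_sound (S := T4.ds_pp) T4.ok_pp (w := 200) (c := ⟨⟨.negSucc 1524, .negSucc 31, .ofNat 15, .negSucc 146, .negSucc 440, .negSucc 501⟩, ⟨.negSucc 635, .negSucc 4, .negSucc 24, .negSucc 34, .negSucc 202, .negSucc 211⟩, ⟨.ofNat 1805, .ofNat 55, .negSucc 20, .negSucc 339, .ofNat 56, .ofNat 13⟩, ⟨.negSucc 3135, .ofNat 11, .negSucc 67, .negSucc 655, .negSucc 609, .negSucc 961⟩, ⟨.ofNat 1546, .negSucc 97, .ofNat 168, .ofNat 948, .negSucc 213, .ofNat 361⟩, .ofNat 1974, .negSucc 3526, .ofNat 0, .negSucc 3526, .ofNat 7946, .ofNat 0, .ofNat 165,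 .ofNat 450, .negSucc 427, .ofNat 0, .ofNat 220, .negSucc 185, .ofNat 0, .ofNat 0, .ofNat 537, .ofNat 3348, .ofNat 0, .ofNat 0, .ofNat 0, .ofNat 0, .ofNat 0, .ofNat 0, .ofNat 0, .ofNat 0, .ofNat 0, .ofNat 0, .ofNat 0, .ofNat 0, .ofNat 0, .ofNat 0, .ofNat 0, .ofNat 0⟩)
    (by decide +kernel)
theorem L00565 : Good (Phi V4.P V4.D 1 1) ⟨7, 103, 6, 25, 2, 3, 2, 1, 4, 1⟩ :=
  leaf_sound (S := T4.ds_pp) T4.ok_pp (w := 200) (c := ⟨⟨.negSucc 1538, .negSucc 504, .ofNat 251, .negSucc 182, .negSucc 429, .negSucc 446⟩, ⟨.negSucc 650, .negSucc 210, .ofNat 71, .negSucc 50, .negSucc 196, .negSucc 189⟩, ⟨.ofNat 1505, .ofNat 361, .negSucc 194, .negSucc 224, .ofNat 41, .ofNat 71⟩, ⟨.negSucc 3004, .negSucc 836, .ofNat 411, .negSucc 723, .negSucc 612, .negSucc 829⟩, ⟨.ofNat 1181, .ofNat 127, .negSucc 55, .ofNat 972, .negSucc 165, .ofNat 261⟩, .ofNat 1987, .negSucc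 3552, .ofNat 0, .negSucc 3552, .ofNat 7998, .ofNat 0, .ofNat 169, .ofNat 469, .negSucc 490, .ofNat 0, .ofNat 232, .negSucc 209, .ofNat 0, .ofNat 0, .ofNat 586, .ofNat 2512, .ofNat 0, .ofNat 0, .ofNat 0, .ofNat 0, .ofNat 0, .ofNat 0, .ofNat 0, .ofNat 0, .ofNat 0, .ofNat 0, .ofNat 4106169177835057106347936972800, .ofNat 0, .ofNat 0, .ofNat 0, .ofNat 1735772833903301727256313856000, .ofNat 0⟩)
    (by decide +kernel)
theorem L00566 : Good (Phi V4.P V4.D 1 1) ⟨7, 103, 6, 25, 2, 2, 1, 0, 3, 1⟩ :=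
  leaf_sound (S := T4.ds_pp) T4.ok_pp (w := 192) (c := ⟨⟨.negSucc 1507, .negSucc 68, .ofNat 10, .negSucc 488, .negSucc 184, .ofNat 66⟩, ⟨.negSucc 637, .negSucc 30, .negSucc 17, .negSucc 191, .negSucc 101, .ofNat 21⟩, ⟨.ofNat 1735, .ofNat 39, .ofNat 13, .ofNat 102, .negSucc 394, .negSucc 431⟩, ⟨.negSucc 2847, .negSucc 73, .negSucc 15, .negSucc 1136, .negSucc 21, .ofNat 218⟩, ⟨.ofNat 947, .negSucc 35, .ofNat 59, .ofNat 800, .negSucc 617, .negSucc 251⟩, .ofNat 1973, .negSucc 3525, .ofNat 0, .negSucc 3525, .ofNat 7948, .ofNat 0, .ofNat 280, .ofNat 634, .negSucc 524, .ofNat 0, .ofNat 333, .negSucc 218, .ofNat 0, .ofNat 0, .ofNat 1021, .ofNat 6135, .ofNat 0, .ofNat 0, .ofNat 0, .ofNat 0, .ofNat 0, .ofNat 0, .ofNat 0, .ofNat 0, .ofNat 0, .ofNat 0, .ofNat 149325236948202966279939686400, .ofNat 0, .ofNat 35924543776959797965237033833409491763200, .ofNat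 0, .ofNat 0, .ofNat 0⟩)
    (by decide +kernel)
theorem L00567 : Good (Phi V4.P V4.D 1 1) ⟨7, 103, 6, 25, 2, 3, 2, 0, 3, 1⟩ :=
  leaf_sound (S := T4.ds_pp) T4.ok_pp (w := 192) (c := ⟨⟨.negSucc 2067, .negSucc 159, .ofNat 83, .negSucc 167, .negSucc 218, .ofNat 314⟩, ⟨.negSucc 876, .negSucc 52, .negSucc 2, .negSucc 26, .negSucc 108, .ofNat 135⟩, ⟨.ofNat 1735, .ofNat 194, .negSucc 62, .negSucc 352, .ofNat 64, .negSucc 672⟩, ⟨.negSucc 4017, .negSucc 291, .ofNat 126, .negSucc 929, .negSucc 181, .ofNat 566⟩, ⟨.ofNat 1574, .ofNat 125, .negSucc 21, .ofNat 1491, .negSucc 379, .negSucc 144⟩, .ofNat 1071, .negSucc 1605, .ofNat 0, .negSucc 1605, .ofNat 3791, .ofNat 0, .ofNat 358, .ofNat 699, .negSucc 446, .ofNat 0, .ofNat 367, .negSucc 183, .ofNat 0, .ofNat 0, .ofNat 970, .ofNat 5080, .ofNat 0, .ofNat 0, .ofNat 0, .ofNat 0, .ofNat 0, .ofNat 0, .ofNat 0,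 .ofNat 0, .ofNat 0, .ofNat 0, .ofNat 0, .ofNat 0, .ofNat 0, .ofNat 0, .ofNat 0, .ofNat 0⟩)
    (by decide +kernel)
theorem L00568 : Good (Phi V4.P V4.D 1 1) ⟨7, 103, 6, 25, 2, 3, 2, 1, 3, 1⟩ :=
  leaf_sound (S := T4.ds_pp) T4.ok_pp (w := 192) (c := ⟨⟨.negSucc 2414, .ofNat 42, .negSucc 83, .negSucc 240, .negSucc 290, .ofNat 338⟩, ⟨.negSucc 1044, .ofNat 36, .negSucc 81, .negSucc 56, .negSucc 132, .ofNat 150⟩, ⟨.ofNat 1644, .ofNat 97, .ofNat 34, .negSucc 67, .ofNat 66, .negSucc 494⟩, ⟨.negSucc 4334, .negSucc 13, .negSucc 87, .negSucc 1072, .negSucc 407, .ofNat 550⟩, ⟨.ofNat 1028, .ofNat 240, .negSucc 142, .ofNat 1550, .negSucc 127, .negSucc 20⟩, .ofNat 1522, .negSucc 2558, .ofNat 0, .negSucc 2558, .ofNat 5851, .ofNat 0, .ofNat 164, .ofNat 390, .negSucc 306, .ofNat 0, .ofNat 199, .negSucc 127, .ofNat 0, .ofNat 0, .ofNat 520, .ofNat 2121, .ofNat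 0, .ofNat 0, .ofNat 0, .ofNat 0, .ofNat 0, .ofNat 0, .ofNat 0, .ofNat 0, .ofNat 0, .ofNat 0, .ofNat 324697386457721873394302976000, .ofNat 0, .ofNat 0, .ofNat 0, .ofNat 0, .ofNat 0⟩)
    (by decide +kernel)
theorem L00569 : Good (Phi V4.P V4.D 1 1) ⟨6, 51, 5, 12, 1, 0, 1, 0, 3, 2⟩ :=
  leaf_sound (S := T4.ds_pp) T4.ok_pp (w := 176) (c := ⟨⟨.negSucc 1234, .negSucc 8, .negSucc 40, .negSucc 327, .ofNat 50, .ofNat 168⟩, ⟨.negSucc 518, .negSucc 16, .negSucc 43, .negSucc 133, .ofNat 13, .ofNat 68⟩, ⟨.ofNat 1515, .negSucc 34, .ofNat 37, .negSucc 166, .negSucc 464, .negSucc 364⟩, ⟨.negSucc 2055, .ofNat 2, .negSucc 34, .negSucc 631, .ofNat 179, .ofNat 332⟩, ⟨.ofNat 112, .ofNat 44, .negSucc 69, .ofNat 244, .negSucc 227, .negSucc 143⟩, .ofNat 593, .negSucc 636, .ofNat 0, .negSucc 636, .ofNat 1694, .ofNat 0, .ofNat 346, .ofNat 392, .negSucc 433, .ofNat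 0, .ofNat 282, .negSucc 158, .ofNat 0, .ofNat 0, .ofNat 970, .ofNat 5016, .ofNat 0, .ofNat 0, .ofNat 0, .ofNat 0, .ofNat 0, .ofNat 0, .ofNat 0, .ofNat 0, .ofNat 0, .ofNat 0, .ofNat 0, .ofNat 0, .ofNat 5060719875358426661639664865955020800, .ofNat 0, .ofNat 116380720917052693571174400, .ofNat 0⟩)
    (by decide +kernel)
theorem L00570 : Good (Phi V4.P V4.D 1 1) ⟨6, 51, 5, 12, 1, 0, 1, 0, 3, 3⟩ :=
  leaf_sound (S := T4.ds_pp) T4.ok_pp (w := 176) (c := ⟨⟨.negSucc 965, .negSucc 46, .ofNat 5, .negSucc 348, .negSucc 55, .ofNat 144⟩, ⟨.negSucc 408, .negSucc 33, .negSucc 15, .negSucc 149, .negSucc 24, .ofNat 62⟩, ⟨.ofNat 884, .ofNat 61, .negSucc 22, .negSucc 257, .negSucc 71, .negSucc 248⟩, ⟨.negSucc 1561, .negSucc 32, .ofNat 6, .negSucc 589, .negSucc 82, .ofNat 243⟩, ⟨.negSucc 28, .negSucc 17, .ofNat 5, .ofNat 71, .negSucc 14, .negSucc 29⟩, .ofNat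 1775, .negSucc 3130, .ofNat 0, .negSucc 3130, .ofNat 7181, .ofNat 0, .ofNat 211, .ofNat 393, .negSucc 316, .ofNat 0, .ofNat 221, .negSucc 133, .ofNat 0, .ofNat 0, .ofNat 863, .ofNat 3304, .ofNat 0, .ofNat 0, .ofNat 0, .ofNat 0, .ofNat 0, .ofNat 0, .ofNat 0, .ofNat 0, .ofNat 0, .ofNat 0, .ofNat 0, .ofNat 0, .ofNat 7694829709370994045643796917518336000, .ofNat 0, .ofNat 0, .ofNat 0⟩)
    (by decide +kernel)
theorem L00571 : Good (Phi V4.P V4.D 1 1) ⟨6, 51, 5, 12, 2, 2, 1, 0, 3, 2⟩ :=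
  leaf_sound (S := T4.ds_pp) T4.ok_pp (w := 184) (c := ⟨⟨.negSucc 1413, .negSucc 78, .ofNat 11, .negSucc 399, .negSucc 279, .ofNat 244⟩, ⟨.negSucc 590, .negSucc 33, .negSucc 39, .negSucc 147, .negSucc 131, .ofNat 97⟩, ⟨.ofNat 1063, .ofNat 81, .negSucc 46, .ofNat 33, .ofNat 6, .negSucc 476⟩, ⟨.negSucc 2461, .negSucc 152, .ofNat 57, .negSucc 961, .negSucc 330, .ofNat 501⟩, ⟨.ofNat 380, .ofNat 156, .negSucc 108, .ofNat 736, .negSucc 270, .negSucc 254⟩, .ofNat 1416, .negSucc 2360, .ofNat 0, .negSucc 2360, .ofNat 5509, .ofNat 0, .ofNat 265, .ofNat 509, .negSucc 352, .ofNat 0, .ofNat 278, .negSucc 140, .ofNat 0, .ofNat 0, .ofNat 941, .ofNat 2423, .ofNat 573506762132582616335775075768729600, .ofNat 0, .ofNat 398251250431714267103232000, .ofNat 0, .ofNat 0, .ofNat 0, .ofNat 0, .ofNat 0, .ofNat 0, .ofNat 0, .ofNat 0, .ofNat 0, .ofNat 0, .ofNat 0, .ofNat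 0, .ofNat 0⟩)
    (by decide +kernel)
theorem L00572 : Good (Phi V4.P V4.D 1 1) ⟨6, 51, 5, 12, 2, 2, 1, 0, 3, 3⟩ :=
  leaf_sound (S := T4.ds_pp) T4.ok_pp (w := 184) (c := ⟨⟨.negSucc 1245, .negSucc 24, .ofNat 4, .negSucc 299, .negSucc 296, .ofNat 211⟩, ⟨.negSucc 527, .negSucc 16, .negSucc 31, .negSucc 109, .negSucc 131, .ofNat 86⟩, ⟨.ofNat 499, .ofNat 28, .negSucc 19, .negSucc 72, .ofNat 284, .negSucc 379⟩, ⟨.negSucc 2072, .negSucc 31, .ofNat 33, .negSucc 720, .negSucc 460, .ofNat 405⟩, ⟨.ofNat 108, .ofNat 71, .negSucc 70, .ofNat 554, .negSucc 34, .negSucc 154⟩, .ofNat 1396, .negSucc 2312, .ofNat 0, .negSucc 2312, .ofNat 5391, .ofNat 0, .ofNat 233, .ofNat 426, .negSucc 260, .ofNat 0, .ofNat 239, .negSucc 102, .ofNat 0, .ofNat 0, .ofNat 884, .ofNat 2383, .ofNat 0, .ofNat 0, .ofNat 0, .ofNat 0, .ofNat 0, .ofNat 0, .ofNat 0, .ofNat 0, .ofNat 0,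 .ofNat 0, .ofNat 0, .ofNat 0, .ofNat 1662712404571638328263075880029388800000, .ofNat 0, .ofNat 0, .ofNat 0⟩)
    (by decide +kernel)
theorem L00573 : Good (Phi V4.P V4.D 1 1) ⟨6, 51, 5, 12, 2, 3, 1, 0, 3, 2⟩ :=
  leaf_sound (S := T4.ds_pp) T4.ok_pp (w := 184) (c := ⟨⟨.negSucc 1902, .negSucc 56, .ofNat 100, .negSucc 104, .negSucc 410, .ofNat 428⟩, ⟨.negSucc 786, .negSucc 4, .negSucc 24, .ofNat 11, .negSucc 189, .ofNat 172⟩, ⟨.ofNat 1111, .ofNat 16, .negSucc 35, .negSucc 228, .ofNat 294, .negSucc 665⟩, ⟨.negSucc 3644, .negSucc 41, .ofNat 114, .negSucc 894, .negSucc 515, .ofNat 862⟩, ⟨.ofNat 1313, .negSucc 25, .ofNat 33, .ofNat 1662, .negSucc 328, .negSucc 402⟩, .ofNat 1021, .negSucc 1513, .ofNat 0, .negSucc 1513, .ofNat 3639, .ofNat 0, .ofNat 327, .ofNat 549, .negSucc 297, .ofNat 0, .ofNat 306, .negSucc 114, .ofNat 0, .ofNat 0, .ofNat 946,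 .ofNat 3567, .ofNat 0, .ofNat 0, .ofNat 0, .ofNat 0, .ofNat 0, .ofNat 0, .ofNat 0, .ofNat 0, .ofNat 0, .ofNat 0, .ofNat 0, .ofNat 0, .ofNat 0, .ofNat 201345255719260908060428958296545689600, .ofNat 0, .ofNat 0⟩)
    (by decide +kernel)
theorem L00574 : Good (Phi V4.P V4.D 1 1) ⟨6, 51, 5, 12, 2, 3, 1, 0, 3, 3⟩ :=
  leaf_sound (S := T4.ds_pp) T4.ok_pp (w := 192) (c := ⟨⟨.negSucc 1532, .negSucc 34, .ofNat 15, .ofNat 0, .negSucc 267, .ofNat 0⟩, ⟨.negSucc 631, .negSucc 9, .negSucc 38, .ofNat 0, .negSucc 124, .ofNat 0⟩, ⟨.ofNat 412, .ofNat 14, .negSucc 0, .ofNat 0, .ofNat 377, .ofNat 0⟩, ⟨.negSucc 2874, .negSucc 32, .ofNat 14, .ofNat 0, .negSucc 328, .ofNat 0⟩, ⟨.ofNat 901, .ofNat 34, .negSucc 10, .ofNat 0, .negSucc 230, .ofNat 0⟩, .ofNat 592, .negSucc 632, .ofNat 0, .negSucc 632, .ofNat 1685, .ofNat 0, .ofNat 1422, .ofNat 1561, .negSucc 920, .ofNat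 0, .ofNat 1096, .negSucc 261, .ofNat 0, .ofNat 0, .ofNat 3803, .ofNat 70432, .ofNat 0, .ofNat 0, .ofNat 0, .ofNat 0, .ofNat 0, .ofNat 95339444269877365446901263490640510976000, .ofNat 0, .ofNat 0, .ofNat 0, .ofNat 86693628411254145672511737438090874060800, .ofNat 0, .ofNat 0, .ofNat 0, .ofNat 105021085136478042375629657056548067737600, .ofNat 0, .ofNat 0⟩)
    (by decide +kernel)
theorem L00575 : Good (Phi V4.P V4.D 1 1) ⟨6, 51, 5, 13, 0, 0, 1, 0, 1, 0⟩ :=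
  out_sound (S := T4.ds_pp) T4.ok_pp (w := 72) (j := 3) (by decide +kernel)
theorem L00576 : Good (Phi V4.P V4.D 1 1) ⟨6, 51, 4, 7, 0, 0, 1, 0, 1, 0⟩ :=
  out_sound (S := T4.ds_pp) T4.ok_pp (w := 72) (j := 3) (by decide +kernel)
theorem L00577 : Good (Phi V4.P V4.D 1 1) ⟨6, 52, 5, 12, 1, 0, 2, 0, 3, 0⟩ :=
  leaf_sound (S := T4.ds_pp) T4.ok_pp (w := 176) (c := ⟨⟨.negSucc 1286, .negSucc 146, .ofNat 52, .negSucc 51, .ofNat 86, .negSucc 350⟩, ⟨.negSucc 556, .negSucc 73, .negSucc 5, .ofNat 9, .ofNat 32, .negSucc 158⟩, ⟨.ofNat 1821, .ofNat 168, .negSucc 68, .ofNat 86, .negSucc 374, .ofNat 116⟩, ⟨.negSucc 2050, .negSucc 197, .ofNat 60, .negSucc 448, .ofNat 212, .negSucc 551⟩, ⟨.ofNat 0, .ofNat 7, .ofNat 38, .ofNat 808, .negSucc 165, .negSucc 11⟩, .ofNat 1631, .negSucc 2725, .ofNat 0, .negSucc 2725, .ofNat 6060, .ofNat 0, .ofNat 146, .ofNat 267, .negSucc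 393, .ofNat 0, .ofNat 156, .negSucc 172, .ofNat 0, .ofNat 0, .ofNat 576, .ofNat 2764, .ofNat 0, .ofNat 0, .ofNat 0, .ofNat 0, .ofNat 3562948220836389617653424797306060800, .ofNat 0, .ofNat 1905633633740254148453990400, .ofNat 0, .ofNat 0, .ofNat 0, .ofNat 0, .ofNat 0, .ofNat 0, .ofNat 0, .ofNat 183720294375273453138739200, .ofNat 0⟩)
    (by decide +kernel)
theorem L00578 : Good (Phi V4.P V4.D 1 1) ⟨6, 52, 5, 12, 1, 0, 2, 1, 3, 0⟩ :=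
  leaf_sound (S := T4.ds_pp) T4.ok_pp (w := 176) (c := ⟨⟨.negSucc 1176, .negSucc 77, .ofNat 8, .negSucc 224, .ofNat 79, .negSucc 230⟩, ⟨.negSucc 508, .negSucc 45, .negSucc 21, .negSucc 79, .ofNat 29, .negSucc 104⟩, ⟨.ofNat 1463, .ofNat 78, .negSucc 11, .ofNat 201, .negSucc 412, .negSucc 27⟩, ⟨.negSucc 1881, .negSucc 88, .ofNat 7, .negSucc 583, .ofNat 199, .negSucc 355⟩, ⟨.ofNat 13, .ofNat 4, .ofNat 7, .ofNat 505, .negSucc 164, .negSucc 22⟩, .ofNat 594, .negSucc 626, .ofNat 0, .negSucc 626, .ofNat 1615, .ofNat 0, .ofNat 214, .ofNat 247, .negSucc 414, .ofNat 0, .ofNat 181, .negSucc 161, .ofNat 0, .ofNat 0, .ofNat 626, .ofNat 3415, .ofNat 0, .ofNat 0, .ofNat 0, .ofNat 0, .ofNat 0, .ofNat 0, .ofNat 0, .ofNat 0, .ofNat 0, .ofNat 0, .ofNat 0, .ofNat 0, .ofNat 0, .ofNat 0, .ofNat 0, .ofNat 0⟩)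
    (by decide +kernel)
theorem L00579 : Good (Phi V4.P V4.D 1 1) ⟨6, 52, 5, 13, 2, 0, 2, 0, 3, 0⟩ :=
  leaf_sound (S := T4.ds_pp) T4.ok_pp (w := 184) (c := ⟨⟨.negSucc 1326, .negSucc 130, .ofNat 29, .negSucc 66, .ofNat 175, .negSucc 256⟩, ⟨.negSucc 598, .negSucc 73, .negSucc 12, .negSucc 20, .ofNat 79, .negSucc 119⟩, ⟨.ofNat 1777, .ofNat 141, .negSucc 35, .ofNat 142, .negSucc 438, .ofNat 100⟩, ⟨.negSucc 2134, .negSucc 153, .ofNat 25, .negSucc 256, .ofNat 322, .negSucc 402⟩, ⟨.ofNat 42, .negSucc 29, .ofNat 39, .ofNat 325, .negSucc 99, .negSucc 3⟩, .ofNat 1116, .negSucc 1642, .ofNat 0, .negSucc 1642, .ofNat 3701, .ofNat 0, .ofNat 148, .ofNat 256, .negSucc 417, .ofNat 0, .ofNat 156, .negSucc 187, .ofNat 0, .ofNat 0, .ofNat 603, .ofNat 3202, .ofNat 0, .ofNat 0, .ofNat 0, .ofNat 0, .ofNat 0, .ofNat 0, .ofNat 0, .ofNat 0, .ofNat 0, .ofNat 0, .ofNat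 0, .ofNat 0, .ofNat 0, .ofNat 0, .ofNat 0, .ofNat 0⟩)
    (by decide +kernel)
theorem L00580 : Good (Phi V4.P V4.D 1 1) ⟨6, 52, 5, 13, 2, 1, 2, 0, 3, 0⟩ :=
  leaf_sound (S := T4.ds_pp) T4.ok_pp (w := 192) (c := ⟨⟨.negSucc 1273, .negSucc 39, .negSucc 21, .ofNat 46, .negSucc 0, .negSucc 373⟩, ⟨.negSucc 565, .negSucc 17, .negSucc 47, .ofNat 37, .negSucc 8, .negSucc 171⟩, ⟨.ofNat 1904, .ofNat 44, .ofNat 3, .negSucc 60, .negSucc 296, .ofNat 51⟩, ⟨.negSucc 2216, .negSucc 28, .negSucc 45, .negSucc 148, .ofNat 107, .negSucc 602⟩, ⟨.ofNat 404, .ofNat 0, .ofNat 7, .ofNat 478, .negSucc 232, .ofNat 29⟩, .ofNat 2059, .negSucc 3563, .ofNat 0, .negSucc 3563, .ofNat 7678, .ofNat 0, .ofNat 133, .ofNat 293, .negSucc 364, .ofNat 0, .ofNat 164, .negSucc 163, .ofNat 0, .ofNat 0, .ofNat 549, .ofNat 8287, .ofNat 0, .ofNat 0, .ofNat 0, .ofNat 0, .ofNat 0, .ofNat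 0, .ofNat 1304498198116128726294567321600, .ofNat 0, .ofNat 0, .ofNat 0, .ofNat 667515546218719911922473369600, .ofNat 0, .ofNat 0, .ofNat 0, .ofNat 0, .ofNat 0⟩)
    (by decide +kernel)
theorem L00581 : Good (Phi V4.P V4.D 1 1) ⟨6, 52, 5, 13, 1, 0, 2, 1, 3, 0⟩ :=
  leaf_sound (S := T4.ds_pp) T4.ok_pp (w := 176) (c := ⟨⟨.negSucc 1151, .negSucc 98, .ofNat 1, .negSucc 226, .ofNat 61, .negSucc 224⟩, ⟨.negSucc 521, .negSucc 50, .negSucc 31, .negSucc 86, .ofNat 22, .negSucc 104⟩, ⟨.ofNat 1466, .ofNat 96, .negSucc 10, .ofNat 201, .negSucc 397, .negSucc 68⟩, ⟨.negSucc 1828, .negSucc 146, .ofNat 16, .negSucc 614, .ofNat 184, .negSucc 344⟩, ⟨.negSucc 22, .ofNat 63, .negSucc 41, .ofNat 554, .negSucc 190, .negSucc 21⟩, .ofNat 620, .negSucc 675, .ofNat 0, .negSucc 675, .ofNat 1688, .ofNat 0, .ofNat 209, .ofNat 261, .negSucc 418, .ofNat 0, .ofNat 184,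 .negSucc 167, .ofNat 0, .ofNat 0, .ofNat 627, .ofNat 2846, .ofNat 0, .ofNat 0, .ofNat 0, .ofNat 0, .ofNat 0, .ofNat 0, .ofNat 0, .ofNat 0, .ofNat 0, .ofNat 0, .ofNat 0, .ofNat 0, .ofNat 0, .ofNat 0, .ofNat 0, .ofNat 0⟩)
    (by decide +kernel)
theorem L00582 : Good (Phi V4.P V4.D 1 1) ⟨6, 53, 5, 12, 1, 0, 1, 0, 3, 0⟩ :=
  out_sound (S := T4.ds_pp) T4.ok_pp (w := 72) (j := 3) (by decide +kernel)
theorem L00583 : Good (Phi V4.P V4.D 1 1) ⟨6, 53, 5, 13, 1, 0, 2, 0, 4, 0⟩ :=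
  leaf_sound (S := T4.ds_pp) T4.ok_pp (w := 184) (c := ⟨⟨.negSucc 1418, .negSucc 87, .ofNat 62, .ofNat 47, .ofNat 77, .negSucc 251⟩, ⟨.negSucc 653, .negSucc 46, .ofNat 1, .ofNat 51, .ofNat 32, .negSucc 118⟩, ⟨.ofNat 1865, .ofNat 55, .negSucc 47, .ofNat 119, .negSucc 329, .ofNat 134⟩, ⟨.negSucc 2211, .negSucc 149, .ofNat 93, .negSucc 314, .ofNat 185, .negSucc 411⟩, ⟨.negSucc 17, .ofNat 97, .negSucc 0, .ofNat 812, .negSucc 132, .ofNat 37⟩, .ofNat 1597, .negSucc 2546, .ofNat 0, .negSucc 2546, .ofNat 5396, .ofNat 0, .ofNat 135, .ofNat 278, .negSucc 431, .ofNat 0, .ofNat 164, .negSucc 201, .ofNat 0, .ofNat 0, .ofNat 599, .ofNat 3699, .ofNat 0, .ofNat 0, .ofNat 0, .ofNat 0, .ofNat 14545284835771255376697115299073228800, .ofNat 0, .ofNat 83126403063565023559915929600, .ofNat 0, .ofNat 0, .ofNat 0, .ofNat 0, .ofNat 0, .ofNat 0, .ofNat 0, .ofNat 0,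 .ofNat 0⟩)
    (by decide +kernel)
theorem L00584 : Good (Phi V4.P V4.D 1 1) ⟨6, 53, 5, 13, 1, 0, 2, 0, 4, 1⟩ :=
  leaf_sound (S := T4.ds_pp) T4.ok_pp (w := 184) (c := ⟨⟨.negSucc 1599, .negSucc 56, .ofNat 29, .negSucc 95, .ofNat 129, .negSucc 64⟩, ⟨.negSucc 734, .negSucc 34, .negSucc 19, .negSucc 18, .ofNat 57, .negSucc 30⟩, ⟨.ofNat 2039, .ofNat 102, .negSucc 19, .ofNat 60, .negSucc 422, .negSucc 56⟩, ⟨.negSucc 2533, .negSucc 38, .ofNat 53, .negSucc 524, .ofNat 274, .negSucc 106⟩, ⟨.ofNat 65, .negSucc 18, .negSucc 23, .ofNat 783, .negSucc 150, .ofNat 10⟩, .ofNat 631, .negSucc 685, .ofNat 0, .negSucc 685, .ofNat 1654, .ofNat 0, .ofNat 194, .ofNat 246, .negSucc 405, .ofNat 0, .ofNat 177, .negSucc 169, .ofNat 0, .ofNat 0, .ofNat 595, .ofNat 6686, .ofNat 0, .ofNat 0, .ofNat 0, .ofNat 0, .ofNat 0, .ofNat 0, .ofNat 0, .ofNat 0, .ofNat 28225237465002979494814784006651904000,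 .ofNat 0, .ofNat 1073329273382651059765248000, .ofNat 0, .ofNat 0, .ofNat 0, .ofNat 0, .ofNat 0⟩)
    (by decide +kernel)
theorem L00585 : Good (Phi V4.P V4.D 1 1) ⟨6, 53, 5, 13, 1, 0, 2, 1, 3, 0⟩ :=
  leaf_sound (S := T4.ds_pp) T4.ok_pp (w := 176) (c := ⟨⟨.negSucc 1175, .negSucc 21, .negSucc 44, .negSucc 241, .ofNat 75, .negSucc 249⟩, ⟨.negSucc 535, .negSucc 21, .negSucc 49, .negSucc 97, .ofNat 29, .negSucc 119⟩, ⟨.ofNat 1548, .ofNat 52, .ofNat 23, .ofNat 167, .negSucc 421, .negSucc 56⟩, ⟨.negSucc 1876, .ofNat 2, .negSucc 49, .negSucc 626, .ofNat 208, .negSucc 384⟩, ⟨.ofNat 77, .negSucc 0, .negSucc 47, .ofNat 516, .negSucc 188, .negSucc 11⟩, .ofNat 630, .negSucc 683, .ofNat 0, .negSucc 683, .ofNat 1651, .ofNat 0, .ofNat 205, .ofNat 260, .negSucc 417, .ofNat 0, .ofNat 188, .negSucc 174, .ofNat 0, .ofNat 0, .ofNat 630, .ofNat 2619, .ofNat 0,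 .ofNat 0, .ofNat 0, .ofNat 0, .ofNat 0, .ofNat 0, .ofNat 0, .ofNat 0, .ofNat 0, .ofNat 0, .ofNat 3343475405109095683640524800, .ofNat 0, .ofNat 0, .ofNat 0, .ofNat 0, .ofNat 0⟩)
    (by decide +kernel)
theorem L00586 : Good (Phi V4.P V4.D 1 1) ⟨6, 52, 4, 6, 1, 0, 1, 0, 3, 1⟩ :=
  leaf_sound (S := T4.ds_pp) T4.ok_pp (w := 176) (c := ⟨⟨.negSucc 1463, .negSucc 110, .ofNat 62, .negSucc 299, .ofNat 160, .ofNat 110⟩, ⟨.negSucc 632, .negSucc 63, .negSucc 24, .negSucc 121, .ofNat 65, .ofNat 48⟩, ⟨.ofNat 1914, .ofNat 39, .ofNat 4, .negSucc 26, .negSucc 737, .negSucc 317⟩, ⟨.negSucc 2397, .negSucc 128, .ofNat 66, .negSucc 670, .ofNat 386, .ofNat 211⟩, ⟨.ofNat 143, .negSucc 12, .ofNat 57, .ofNat 429, .negSucc 287, .negSucc 82⟩, .ofNat 1816, .negSucc 3082, .ofNat 0, .negSucc 3082, .ofNat 6734, .ofNat 0, .ofNat 135, .ofNat 262, .negSucc 291, .ofNat 0,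 .ofNat 151, .negSucc 129, .ofNat 0, .ofNat 0, .ofNat 535, .ofNat 1897, .ofNat 0, .ofNat 0, .ofNat 294612103957000138444800, .ofNat 0, .ofNat 0, .ofNat 0, .ofNat 167600479469958814747852800, .ofNat 0, .ofNat 250183101921599139730248690774835200, .ofNat 0, .ofNat 51240246057265685977497600, .ofNat 0, .ofNat 0, .ofNat 0, .ofNat 0, .ofNat 0⟩)
    (by decide +kernel)
theorem L00587 : Good (Phi V4.P V4.D 1 1) ⟨6, 53, 4, 6, 1, 0, 2, 0, 3, 1⟩ :=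
  leaf_sound (S := T4.ds_pp) T4.ok_pp (w := 176) (c := ⟨⟨.negSucc 1538, .ofNat 36, .negSucc 56, .negSucc 187, .ofNat 111, .ofNat 134⟩, ⟨.negSucc 677, .ofNat 7, .negSucc 84, .negSucc 66, .ofNat 47, .ofNat 60⟩, ⟨.ofNat 1966, .ofNat 16, .ofNat 116, .negSucc 120, .negSucc 437, .negSucc 369⟩, ⟨.negSucc 2470, .ofNat 79, .negSucc 73, .negSucc 614, .ofNat 256, .ofNat 273⟩, ⟨.ofNat 136, .ofNat 35, .negSucc 41, .ofNat 669, .negSucc 171, .negSucc 131⟩, .ofNat 344, .negSucc 218, .ofNat 0, .negSucc 218, .ofNat 670, .ofNat 0, .ofNat 249, .ofNat 184, .negSucc 368, .ofNat 0, .ofNat 197, .negSucc 113, .ofNat 0, .ofNat 0, .ofNat 588, .ofNat 5336, .ofNat 0, .ofNat 0, .ofNat 0, .ofNat 0, .ofNat 0, .ofNat 0, .ofNat 0, .ofNat 0, .ofNat 4441225228655303777785550397348249600, .ofNat 0, .ofNat 698174587462142221457817600, .ofNat 0, .ofNat 0, .ofNat 0, .ofNat 0, .ofNat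 0⟩)
    (by decide +kernel)
theorem L00588 : Good (Phi V4.P V4.D 1 1) ⟨6, 53, 4, 6, 1, 0, 2, 1, 3, 1⟩ :=
  leaf_sound (S := T4.ds_pp) T4.ok_pp (w := 176) (c := ⟨⟨.negSucc 1392, .ofNat 65, .negSucc 1, .negSucc 339, .ofNat 69, .ofNat 80⟩, ⟨.negSucc 617, .ofNat 11, .negSucc 49, .negSucc 149, .ofNat 27, .ofNat 36⟩, ⟨.ofNat 1466, .ofNat 8, .ofNat 64, .ofNat 5, .negSucc 343, .negSucc 272⟩, ⟨.negSucc 2171, .ofNat 250, .negSucc 47, .negSucc 710, .ofNat 189, .ofNat 158⟩, ⟨.negSucc 16, .negSucc 225, .ofNat 88, .ofNat 376, .negSucc 167, .negSucc 67⟩, .ofNat 1602, .negSucc 2558, .ofNat 0, .negSucc 2558, .ofNat 5420, .ofNat 0, .ofNat 130, .ofNat 266, .negSucc 299, .ofNat 0, .ofNat 157, .negSucc 138, .ofNat 0, .ofNat 0, .ofNat 543, .ofNat 3516, .ofNat 0, .ofNat 0, .ofNat 0, .ofNat 0, .ofNat 0, .ofNat 0, .ofNat 2852452159339657344476774400, .ofNat 0, .ofNat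 0, .ofNat 0, .ofNat 2365640079551340331873075200, .ofNat 0, .ofNat 0, .ofNat 0, .ofNat 0, .ofNat 0⟩)
    (by decide +kernel)
theorem L00589 : Good (Phi V4.P V4.D 1 1) ⟨5, 26, 4, 6, 1, 0, 2, 0, 2, 1⟩ :=
  leaf_sound (S := T4.ds_pp) T4.ok_pp (w := 168) (c := ⟨⟨.negSucc 1335, .negSucc 59, .negSucc 14, .negSucc 229, .ofNat 45, .ofNat 388⟩, ⟨.negSucc 579, .negSucc 54, .negSucc 50, .negSucc 97, .ofNat 17, .ofNat 172⟩, ⟨.ofNat 1649, .ofNat 23, .ofNat 12, .negSucc 332, .negSucc 302, .negSucc 773⟩, ⟨.negSucc 2185, .negSucc 45, .negSucc 12, .negSucc 468, .ofNat 125, .ofNat 719⟩, ⟨.ofNat 121, .ofNat 45, .negSucc 24, .ofNat 228, .negSucc 116, .negSucc 232⟩, .ofNat 341, .negSucc 212, .ofNat 0, .negSucc 212, .ofNat 674, .ofNat 0, .ofNat 430, .ofNat 302, .negSucc 452, .ofNat 0, .ofNat 335, .negSucc 130, .ofNat 0, .ofNat 0, .ofNat 999, .ofNat 7566, .ofNat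 0, .ofNat 0, .ofNat 0, .ofNat 0, .ofNat 0, .ofNat 0, .ofNat 0, .ofNat 0, .ofNat 0, .ofNat 0, .ofNat 0, .ofNat 0, .ofNat 336216146524484835741605218064793600, .ofNat 0, .ofNat 0, .ofNat 0⟩)
    (by decide +kernel)
theorem L00590 : Good (Phi V4.P V4.D 1 1) ⟨5, 26, 4, 6, 1, 0, 2, 1, 2, 1⟩ :=
  leaf_sound (S := T4.ds_pp) T4.ok_pp (w := 168) (c := ⟨⟨.negSucc 1191, .negSucc 28, .negSucc 16, .negSucc 386, .negSucc 37, .ofNat 334⟩, ⟨.negSucc 516, .negSucc 51, .negSucc 45, .negSucc 171, .negSucc 17, .ofNat 148⟩, ⟨.ofNat 1181, .ofNat 21, .ofNat 25, .negSucc 168, .negSucc 88, .negSucc 584⟩, ⟨.negSucc 1909, .ofNat 66, .negSucc 41, .negSucc 681, .negSucc 52, .ofNat 590⟩, ⟨.ofNat 14, .negSucc 81, .ofNat 29, .ofNat 152, .negSucc 15, .negSucc 134⟩, .ofNat 1837, .negSucc 3118, .ofNat 0, .negSucc 3118, .ofNat 6787, .ofNat 0, .ofNat 226, .ofNat 437, .negSucc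 385, .ofNat 0, .ofNat 254, .negSucc 171, .ofNat 0, .ofNat 0, .ofNat 916, .ofNat 5286, .ofNat 0, .ofNat 0, .ofNat 0, .ofNat 0, .ofNat 2654743125403371442364135925350400, .ofNat 0, .ofNat 744529699403662368020889600, .ofNat 0, .ofNat 0, .ofNat 0, .ofNat 463313438108286887500185600, .ofNat 0, .ofNat 0, .ofNat 0, .ofNat 0, .ofNat 0⟩)
    (by decide +kernel)
theorem L00591 : Good (Phi V4.P V4.D 1 1) ⟨5, 26, 4, 6, 2, 2, 2, 0, 4, 0⟩ :=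
  leaf_sound (S := T4.ds_pp) T4.ok_pp (w := 184) (c := ⟨⟨.negSucc 855, .negSucc 213, .ofNat 108, .ofNat 149, .negSucc 306, .negSucc 711⟩, ⟨.negSucc 327, .negSucc 67, .negSucc 34, .ofNat 92, .negSucc 146, .negSucc 321⟩, ⟨.ofNat 1586, .ofNat 166, .negSucc 26, .negSucc 169, .negSucc 44, .ofNat 327⟩, ⟨.negSucc 1699, .negSucc 339, .ofNat 150, .negSucc 10, .negSucc 403, .negSucc 1214⟩, ⟨.ofNat 762, .ofNat 104, .negSucc 25, .ofNat 531, .negSucc 170, .ofNat 202⟩, .ofNat 1462, .negSucc 2346, .ofNat 0, .negSucc 2346, .ofNat 5176, .ofNat 0, .ofNat 158, .ofNat 357, .negSucc 451, .ofNat 0, .ofNat 194, .negSucc 198, .ofNat 0, .ofNat 0, .ofNat 572, .ofNat 3651, .ofNat 0, .ofNat 0, .ofNat 0, .ofNat 0, .ofNat 22186574448754742126267724169268428800, .ofNat 0, .ofNat 29321223065203905276668175974400, .ofNat 0, .ofNat 0, .ofNat 0, .ofNat 11547332584914791551061930803200,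 .ofNat 0, .ofNat 0, .ofNat 0, .ofNat 0, .ofNat 0⟩)
    (by decide +kernel)
theorem L00592 : Good (Phi V4.P V4.D 1 1) ⟨5, 26, 4, 6, 2, 2, 2, 1, 4, 0⟩ :=
  leaf_sound (S := T4.ds_pp) T4.ok_pp (w := 184) (c := ⟨⟨.negSucc 1017, .negSucc 129, .negSucc 28, .negSucc 305, .negSucc 135, .negSucc 505⟩, ⟨.negSucc 400, .negSucc 53, .negSucc 94, .negSucc 117, .negSucc 74, .negSucc 231⟩, ⟨.ofNat 1462, .ofNat 122, .ofNat 34, .ofNat 139, .negSucc 260, .ofNat 163⟩, ⟨.negSucc 1870, .negSucc 169, .negSucc 83, .negSucc 795, .negSucc 68, .negSucc 839⟩, ⟨.ofNat 562, .ofNat 68, .ofNat 28, .ofNat 676, .negSucc 313, .ofNat 95⟩, .ofNat 1894, .negSucc 3213, .ofNat 0, .negSucc 3213, .ofNat 6927, .ofNat 0, .ofNat 159, .ofNat 379, .negSucc 471, .ofNat 0, .ofNat 206, .negSucc 208, .ofNat 0, .ofNat 0, .ofNat 624, .ofNat 1104, .ofNat 0, .ofNat 0, .ofNat 0, .ofNat 0, .ofNat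 0, .ofNat 0, .ofNat 36085390517218593921802489036800, .ofNat 0, .ofNat 0, .ofNat 0, .ofNat 17618857545113722224374081126400, .ofNat 0, .ofNat 0, .ofNat 0, .ofNat 0, .ofNat 0⟩)
    (by decide +kernel)
theorem L00593 : Good (Phi V4.P V4.D 1 1) ⟨5, 26, 4, 6, 2, 2, 1, 0, 4, 1⟩ :=
  leaf_sound (S := T4.ds_pp) T4.ok_pp (w := 184) (c := ⟨⟨.negSucc 1182, .negSucc 131, .negSucc 42, .negSucc 599, .negSucc 316, .negSucc 220⟩, ⟨.negSucc 456, .negSucc 52, .negSucc 120, .negSucc 246, .negSucc 167, .negSucc 101⟩, ⟨.ofNat 1722, .ofNat 95, .ofNat 59, .ofNat 273, .negSucc 410, .negSucc 55⟩, ⟨.negSucc 2265, .negSucc 154, .negSucc 117, .negSucc 1329, .negSucc 219, .negSucc 362⟩, ⟨.ofNat 856, .ofNat 93, .ofNat 19, .ofNat 828, .negSucc 607, .ofNat 25⟩, .ofNat 1488, .negSucc 2396, .ofNat 0, .negSucc 2396, .ofNat 5269, .ofNat 0, .ofNat 160, .ofNat 364, .negSucc 401,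 .ofNat 0, .ofNat 198, .negSucc 174, .ofNat 0, .ofNat 0, .ofNat 573, .ofNat 3119, .ofNat 0, .ofNat 0, .ofNat 0, .ofNat 0, .ofNat 5528210112250467211073224359228211200, .ofNat 0, .ofNat 2426464399847084370323885260800, .ofNat 0, .ofNat 3770363955670688171645189760850329600, .ofNat 0, .ofNat 1338931955332099496827315814400, .ofNat 0, .ofNat 0, .ofNat 0, .ofNat 0, .ofNat 0⟩)
    (by decide +kernel)
theorem L00594 : Good (Phi V4.P V4.D 1 1) ⟨5, 26, 4, 6, 3, 6, 2, 0, 4, 0⟩ :=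
  leaf_sound (S := T4.ds_pp) T4.ok_pp (w := 200) (c := ⟨⟨.ofNat 53, .ofNat 328, .negSucc 279, .ofNat 285, .negSucc 829, .negSucc 1676⟩, ⟨.ofNat 106, .ofNat 192, .negSucc 218, .ofNat 144, .negSucc 388, .negSucc 759⟩, ⟨.ofNat 978, .negSucc 132, .ofNat 204, .negSucc 268, .ofNat 271, .ofNat 843⟩, ⟨.negSucc 406, .ofNat 541, .negSucc 508, .ofNat 321, .negSucc 1282, .negSucc 2856⟩, ⟨.ofNat 1101, .ofNat 40, .ofNat 29, .ofNat 269, .negSucc 53, .ofNat 461⟩, .ofNat 1501, .negSucc 2417, .ofNat 0, .negSucc 2417, .ofNat 5295, .ofNat 0, .ofNat 169, .ofNat 457, .negSucc 630, .ofNat 0, .ofNat 236, .negSucc 283, .ofNat 0, .ofNat 0, .ofNat 630, .ofNat 1666, .ofNat 440374606585681694621816264077187481600, .ofNat 0, .ofNat 0, .ofNat 0, .ofNat 0, .ofNat 0, .ofNat 18084839513659394653395536471654400, .ofNat 0, .ofNat 0, .ofNat 0, .ofNat 9568295078085090651060923321548800,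 .ofNat 0, .ofNat 0, .ofNat 0, .ofNat 0, .ofNat 0⟩)
    (by decide +kernel)

end Crest.Agent.R097C4.N4pp
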