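import Crest.Agent.R097.T4

/-!
# Row 97, box cover in dimension n = 4 (generated)
-/

set_option autoImplicit false
set_option Elab.async false
set_option maxHeartbeats 0
set_option maxRecDepth 100000

open Crest.Agent.R097 Crest.Agent.R097.KA


namespace Crest.Agent.R097C4.N4pp

theorem L00595 : Good (Phi V4.P V4.D 1 1) ⟨5, 26, 4, 6, 3, 6, 2, 1, 4, 0⟩ :=
  leaf_sound (S := T4.ds_pp) T4.ok_pp (w := 200) (c := ⟨⟨.negSucc 622, .negSucc 121, .negSucc 227, .negSucc 196, .negSucc 561, .negSucc 1283⟩, ⟨.negSucc 199, .negSucc 33, .negSucc 208, .negSucc 76, .negSucc 260, .negSucc 574⟩, ⟨.ofNat 1154, .ofNat 115, .ofNat 181, .ofNat 30, .ofNat 50, .ofNat 608⟩, ⟨.negSucc 1432, .negSucc 167, .negSucc 440, .negSucc 484, .negSucc 817, .negSucc 2200⟩, ⟨.ofNat 986, .ofNat 118, .ofNat 70, .ofNat 379, .negSucc 148, .ofNat 379⟩, .ofNat 1061, .negSucc 1534, .ofNat 0, .negSucc 1534,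 .ofNat 3488, .ofNat 0, .ofNat 203, .ofNat 486, .negSucc 743, .ofNat 0, .ofNat 257, .negSucc 321, .ofNat 0, .ofNat 0, .ofNat 720, .ofNat 1683, .ofNat 0, .ofNat 0, .ofNat 0, .ofNat 0, .ofNat 0, .ofNat 0, .ofNat 18868015529487788164517751422976000, .ofNat 0, .ofNat 0, .ofNat 0, .ofNat 7587907847611272540096000373555200, .ofNat 0, .ofNat 0, .ofNat 0, .ofNat 3600490669384015110697685876736000, .ofNat 0⟩)
    (by decide +kernel)
theorem L00596 : Good (Phi V4.P V4.D 1 1) ⟨5, 26, 4, 6, 3, 6, 1, 0, 4, 1⟩ :=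
  leaf_sound (S := T4.ds_pp) T4.ok_pp (w := 192) (c := ⟨⟨.negSucc 1451, .negSucc 249, .negSucc 91, .negSucc 395, .negSucc 743, .negSucc 368⟩, ⟨.negSucc 543, .negSucc 58, .negSucc 192, .negSucc 164, .negSucc 359, .negSucc 159⟩, ⟨.ofNat 1730, .ofNat 136, .ofNat 125, .ofNat 89, .negSucc 18, .negSucc 4⟩, ⟨.negSucc 2972, .negSucc 380, .negSucc 221, .negSucc 877, .negSucc 969, .negSucc 679⟩, ⟨.ofNat 1497, .ofNat 150, .ofNat 51, .ofNat 547, .negSucc 438, .ofNat 200⟩, .ofNat 1799, .negSucc 3028, .ofNat 0, .negSucc 3028, .ofNat 6564, .ofNat 0, .ofNat 164, .ofNat 442, .negSucc 478, .ofNat 0, .ofNat 229, .negSucc 212, .ofNat 0, .ofNat 0, .ofNat 580, .ofNat 2729, .ofNat 0, .ofNat 0, .ofNat 0, .ofNat 0, .ofNat 141176460063778466223983889796300800000, .ofNat 0, .ofNat 1633534729310577330236644392960000, .ofNat 0, .ofNat 331477500043725772183580820131492659200, .ofNat 0,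 .ofNat 917998488771719433541819092172800, .ofNat 0, .ofNat 0, .ofNat 0, .ofNat 0, .ofNat 0⟩)
    (by decide +kernel)
theorem L00597 : Good (Phi V4.P V4.D 1 1) ⟨6, 52, 4, 6, 3, 7, 2, 0, 4, 0⟩ :=
  leaf_sound (S := T4.ds_pp) T4.ok_pp (w := 200) (c := ⟨⟨.ofNat 1145, .negSucc 254, .ofNat 180, .ofNat 884, .negSucc 1231, .negSucc 2975⟩, ⟨.ofNat 596, .negSucc 84, .ofNat 13, .ofNat 426, .negSucc 571, .negSucc 1347⟩, ⟨.ofNat 294, .ofNat 181, .negSucc 57, .negSucc 606, .ofNat 492, .ofNat 1461⟩, ⟨.ofNat 1225, .negSucc 446, .ofNat 245, .ofNat 1205, .negSucc 1914, .negSucc 4909⟩, ⟨.ofNat 1348, .ofNat 113, .negSucc 68, .ofNat 404, .negSucc 66, .ofNat 450⟩, .ofNat 1059, .negSucc 1534, .ofNat 0, .negSucc 1534, .ofNat 3503, .ofNat 0, .ofNat 207, .ofNat 524, .negSucc 755, .ofNat 0, .ofNat 264, .negSucc 339, .ofNat 0, .ofNat 0, .ofNat 647, .ofNat 2256, .ofNat 0, .ofNat 0, .ofNat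 0, .ofNat 0, .ofNat 0, .ofNat 0, .ofNat 0, .ofNat 0, .ofNat 0, .ofNat 0, .ofNat 0, .ofNat 0, .ofNat 0, .ofNat 0, .ofNat 428775493583894359306497372979200, .ofNat 0⟩)
    (by decide +kernel)
theorem L00598 : Good (Phi V4.P V4.D 1 1) ⟨6, 52, 4, 6, 3, 7, 2, 1, 4, 0⟩ :=
  leaf_sound (S := T4.ds_pp) T4.ok_pp (w := 200) (c := ⟨⟨.negSucc 282, .negSucc 239, .negSucc 147, .ofNat 646, .negSucc 939, .negSucc 1966⟩, ⟨.negSucc 37, .negSucc 85, .negSucc 185, .ofNat 311, .negSucc 432, .negSucc 878⟩, ⟨.ofNat 906, .ofNat 115, .ofNat 171, .negSucc 484, .ofNat 291, .ofNat 894⟩, ⟨.negSucc 1022, .negSucc 364, .negSucc 318, .ofNat 883, .negSucc 1455, .negSucc 3326⟩, ⟨.ofNat 1287, .ofNat 24, .ofNat 73, .ofNat 302, .negSucc 65, .ofNat 467⟩, .ofNat 1058, .negSucc 1532, .ofNat 0, .negSucc 1532, .ofNat 3503, .ofNat 0, .ofNat 217, .ofNat 561, .negSucc 791, .ofNat 0, .ofNat 289, .negSucc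 347, .ofNat 0, .ofNat 0, .ofNat 686, .ofNat 1621, .ofNat 0, .ofNat 0, .ofNat 0, .ofNat 0, .ofNat 0, .ofNat 0, .ofNat 0, .ofNat 0, .ofNat 0, .ofNat 0, .ofNat 0, .ofNat 0, .ofNat 0, .ofNat 0, .ofNat 0, .ofNat 0⟩)
    (by decide +kernel)
theorem L00599 : Good (Phi V4.P V4.D 1 1) ⟨6, 53, 5, 12, 3, 7, 1, 0, 4, 0⟩ :=
  out_sound (S := T4.ds_pp) T4.ok_pp (w := 72) (j := 3) (by decide +kernel)
theorem L00600 : Good (Phi V4.P V4.D 1 1) ⟨6, 53, 5, 13, 3, 7, 2, 0, 4, 0⟩ :=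
  leaf_sound (S := T4.ds_pp) T4.ok_pp (w := 208) (c := ⟨⟨.ofNat 1256, .ofNat 169, .negSucc 152, .ofNat 935, .negSucc 1322, .negSucc 3192⟩, ⟨.ofNat 690, .ofNat 122, .negSucc 118, .ofNat 463, .negSucc 637, .negSucc 1517⟩, ⟨.ofNat 288, .negSucc 129, .ofNat 147, .negSucc 633, .ofNat 528, .ofNat 1546⟩, ⟨.ofNat 1320, .ofNat 264, .negSucc 287, .ofNat 1268, .negSucc 2026, .negSucc 5186⟩, ⟨.ofNat 1394, .negSucc 6, .ofNat 50, .ofNat 406, .negSucc 87, .ofNat 401⟩, .ofNat 1934, .negSucc 3214, .ofNat 0, .negSucc 3214, .ofNat 6731, .ofNat 0, .ofNat 168, .ofNat 546, .negSucc 768, .ofNat 0, .ofNat 280, .negSucc 367, .ofNat 0, .ofNat 0, .ofNat 651, .ofNat 2027, .ofNat 0, .ofNat 0, .ofNat 0, .ofNat 0, .ofNat 0, .ofNat 0, .ofNat 29629006065077335120114977079296000, .ofNat 0, .ofNat 0, .ofNat 0, .ofNat 0, .ofNat 0, .ofNat 0, .ofNat 0, .ofNat 6370400514143010640575886000128000,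 .ofNat 0⟩)
    (by decide +kernel)
theorem L00601 : Good (Phi V4.P V4.D 1 1) ⟨6, 53, 5, 13, 3, 7, 2, 1, 4, 0⟩ :=
  leaf_sound (S := T4.ds_pp) T4.ok_pp (w := 200) (c := ⟨⟨.negSucc 490, .ofNat 17, .negSucc 183, .ofNat 873, .negSucc 1083, .negSucc 1996⟩, ⟨.negSucc 127, .ofNat 36, .negSucc 157, .ofNat 428, .negSucc 519, .negSucc 938⟩, ⟨.ofNat 1052, .negSucc 44, .ofNat 164, .negSucc 611, .ofNat 362, .ofNat 904⟩, ⟨.negSucc 1398, .ofNat 24, .negSucc 323, .ofNat 1225, .negSucc 1675, .negSucc 3356⟩, ⟨.ofNat 1354, .ofNat 63, .ofNat 26, .ofNat 294, .negSucc 40, .ofNat 490⟩, .ofNat 1598, .negSucc 2550, .ofNat 0, .negSucc 2550, .ofNat 5407, .ofNat 0, .ofNat 183, .ofNat 581, .negSucc 854, .ofNat 0, .ofNat 304, .negSucc 400, .ofNat 0, .ofNat 0, .ofNat 718, .ofNat 2232, .ofNat 0, .ofNat 0, .ofNat 0, .ofNat 0, .ofNat 0, .ofNat 0, .ofNat 29227625738821852431718768076390400,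 .ofNat 0, .ofNat 0, .ofNat 0, .ofNat 7913206412713227656247309552844800, .ofNat 0, .ofNat 0, .ofNat 0, .ofNat 3434138456686752498315915637555200, .ofNat 0⟩)
    (by decide +kernel)
theorem L00602 : Good (Phi V4.P V4.D 1 1) ⟨5, 26, 4, 6, 3, 7, 1, 0, 4, 1⟩ :=
  leaf_sound (S := T4.ds_pp) T4.ok_pp (w := 192) (c := ⟨⟨.negSucc 1787, .negSucc 337, .negSucc 25, .ofNat 289, .negSucc 933, .negSucc 438⟩, ⟨.negSucc 677, .negSucc 87, .negSucc 183, .ofNat 149, .negSucc 440, .negSucc 184⟩, ⟨.ofNat 1740, .ofNat 185, .ofNat 71, .negSucc 375, .ofNat 199, .ofNat 21⟩, ⟨.negSucc 3678, .negSucc 575, .negSucc 72, .ofNat 237, .negSucc 1335, .negSucc 889⟩, ⟨.ofNat 1890, .ofNat 277, .negSucc 86, .ofNat 479, .negSucc 301, .ofNat 422⟩, .ofNat 1709, .negSucc 2849, .ofNat 0, .negSucc 2849, .ofNat 6216, .ofNat 0, .ofNat 182, .ofNat 497, .negSucc 493, .ofNat 0, .ofNat 252, .negSucc 221,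 .ofNat 0, .ofNat 0, .ofNat 559, .ofNat 1577, .ofNat 0, .ofNat 0, .ofNat 0, .ofNat 0, .ofNat 0, .ofNat 0, .ofNat 2365413451099086613701393697996800, .ofNat 0, .ofNat 0, .ofNat 0, .ofNat 1155318711387174885670100611891200, .ofNat 0, .ofNat 0, .ofNat 0, .ofNat 0, .ofNat 0⟩)
    (by decide +kernel)
theorem L00603 : Good (Phi V4.P V4.D 1 1) ⟨5, 26, 4, 6, 2, 2, 1, 0, 3, 1⟩ :=
  leaf_sound (S := T4.ds_pp) T4.ok_pp (w := 176) (c := ⟨⟨.negSucc 1546, .negSucc 180, .ofNat 34, .negSucc 545, .negSucc 224, .ofNat 92⟩, ⟨.negSucc 623, .negSucc 73, .negSucc 85, .negSucc 218, .negSucc 127, .ofNat 32⟩, ⟨.ofNat 1766, .ofNat 151, .negSucc 11, .ofNat 167, .negSucc 379, .negSucc 471⟩, ⟨.negSucc 2870, .negSucc 309, .ofNat 67, .negSucc 1254, .negSucc 69, .ofNat 271⟩, ⟨.ofNat 903, .ofNat 214, .negSucc 74, .ofNat 855, .negSucc 617, .negSucc 272⟩, .ofNat 1069, .negSucc 1548, .ofNat 0,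 .negSucc 1548, .ofNat 3514, .ofNat 0, .ofNat 164, .ofNat 309, .negSucc 275, .ofNat 0, .ofNat 177, .negSucc 113, .ofNat 0, .ofNat 0, .ofNat 519, .ofNat 1998, .ofNat 0, .ofNat 0, .ofNat 547544432931452529514905600, .ofNat 0, .ofNat 1439518607974003979189256656309452800, .ofNat 0, .ofNat 150248262311837605097688268800, .ofNat 0, .ofNat 820020163239935213443925481514598400, .ofNat 0, .ofNat 19425015268839829038484684800, .ofNat 0, .ofNat 0, .ofNat 0, .ofNat 0, .ofNat 0⟩)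
    (by decide +kernel)
theorem L00604 : Good (Phi V4.P V4.D 1 1) ⟨5, 26, 4, 6, 3, 6, 1, 0, 3, 1⟩ :=
  leaf_sound (S := T4.ds_pp) T4.ok_pp (w := 192) (c := ⟨⟨.negSucc 2092, .negSucc 180, .ofNat 28, .negSucc 253, .negSucc 519, .ofNat 315⟩, ⟨.negSucc 827, .negSucc 32, .negSucc 141, .negSucc 94, .negSucc 258, .ofNat 141⟩, ⟨.ofNat 1828, .ofNat 150, .negSucc 5, .negSucc 22, .ofNat 39, .negSucc 626⟩, ⟨.negSucc 4100, .negSucc 261, .ofNat 8, .negSucc 701, .negSucc 580, .ofNat 592⟩, ⟨.ofNat 1744, .ofNat 142, .negSucc 42, .ofNat 652, .negSucc 522, .negSucc 203⟩, .ofNat 1065, .negSucc 1545, .ofNat 0, .negSucc 1545, .ofNat 3518, .ofNat 0, .ofNat 357, .ofNat 715, .negSucc 555, .ofNat 0, .ofNat 391, .negSucc 230, .ofNat 0, .ofNat 0, .ofNat 1022, .ofNat 4949, .ofNat 0, .ofNat 0, .ofNat 688447164520802709593181388800, .ofNat 0, .ofNat 1081905755156521842928319694499951411200,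 .ofNat 0, .ofNat 264276581027842089048014113996800, .ofNat 0, .ofNat 0, .ofNat 0, .ofNat 156812908562682746009548750848000, .ofNat 0, .ofNat 0, .ofNat 0, .ofNat 0, .ofNat 0⟩)
    (by decide +kernel)
theorem L00605 : Good (Phi V4.P V4.D 1 1) ⟨5, 26, 4, 6, 3, 7, 1, 0, 4, 2⟩ :=
  leaf_sound (S := T4.ds_pp) T4.ok_pp (w := 192) (c := ⟨⟨.negSucc 2347, .negSucc 255, .ofNat 68, .ofNat 132, .negSucc 631, .ofNat 125⟩, ⟨.negSucc 914, .negSucc 44, .negSucc 154, .ofNat 88, .negSucc 307, .ofNat 62⟩, ⟨.ofNat 1723, .ofNat 72, .ofNat 53, .negSucc 291, .ofNat 194, .negSucc 267⟩, ⟨.negSucc 4727, .negSucc 424, .ofNat 65, .negSucc 131, .negSucc 791, .ofNat 151⟩, ⟨.ofNat 2262, .ofNat 264, .negSucc 95, .ofNat 734, .negSucc 447, .ofNat 99⟩, .ofNat 1483, .negSucc 2390, .ofNat 0, .negSucc 2390, .ofNat 5269, .ofNat 0, .ofNat 351, .ofNat 845, .negSucc 624, .ofNat 0, .ofNat 439, .negSucc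 275, .ofNat 0, .ofNat 0, .ofNat 1017, .ofNat 6702, .ofNat 0, .ofNat 0, .ofNat 0, .ofNat 0, .ofNat 0, .ofNat 0, .ofNat 8637084177156051610054304150323200, .ofNat 0, .ofNat 0, .ofNat 0, .ofNat 3698882674870498533292586198630400, .ofNat 0, .ofNat 0, .ofNat 0, .ofNat 0, .ofNat 0⟩)
    (by decide +kernel)
theorem L00606 : Good (Phi V4.P V4.D 1 1) ⟨5, 26, 4, 6, 3, 7, 1, 0, 4, 3⟩ :=
  leaf_sound (S := T4.ds_pp) T4.ok_pp (w := 192) (c := ⟨⟨.negSucc 2239, .negSucc 181, .ofNat 58, .ofNat 59, .negSucc 528, .ofNat 230⟩, ⟨.negSucc 871, .ofNat 0, .negSucc 155, .ofNat 63, .negSucc 256, .ofNat 103⟩, ⟨.ofNat 1330, .ofNat 156, .negSucc 1, .negSucc 218, .ofNat 365, .negSucc 307⟩, ⟨.negSucc 4514, .negSucc 279, .ofNat 30, .negSucc 363, .negSucc 670, .ofNat 392⟩, ⟨.ofNat 2164, .ofNat 156, .negSucc 38, .ofNat 994, .negSucc 353, .negSucc 60⟩, .ofNat 1068, .negSucc 1549, .ofNat 0,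 .negSucc 1549, .ofNat 3519, .ofNat 0, .ofNat 365, .ofNat 693, .negSucc 421, .ofNat 0, .ofNat 382, .negSucc 178, .ofNat 0, .ofNat 0, .ofNat 969, .ofNat 6026, .ofNat 0, .ofNat 0, .ofNat 21356156016543247090542496972800, .ofNat 0, .ofNat 0, .ofNat 0, .ofNat 7333351728660490351064993759232000, .ofNat 0, .ofNat 0, .ofNat 0, .ofNat 3795212984708478591583349479833600, .ofNat 0, .ofNat 0, .ofNat 0, .ofNat 2325131987708308258764363084595200, .ofNat 0⟩)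
    (by decide +kernel)
theorem L00607 : Good (Phi V4.P V4.D 1 1) ⟨5, 26, 4, 6, 2, 2, 1, 0, 3, 2⟩ :=
  leaf_sound (S := T4.ds_pp) T4.ok_pp (w := 184) (c := ⟨⟨.negSucc 1487, .negSucc 120, .ofNat 29, .negSucc 378, .negSucc 279, .ofNat 246⟩, ⟨.negSucc 621, .negSucc 63, .negSucc 62, .negSucc 149, .negSucc 138, .ofNat 103⟩, ⟨.ofNat 1162, .ofNat 148, .negSucc 27, .ofNat 3, .negSucc 30, .negSucc 524⟩, ⟨.negSucc 2604, .negSucc 137, .ofNat 27, .negSucc 938, .negSucc 291, .ofNat 523⟩, ⟨.ofNat 515, .ofNat 59, .ofNat 13, .ofNat 736, .negSucc 321, .negSucc 288⟩, .ofNat 1786, .negSucc 3008, .ofNat 0, .negSucc 3008, .ofNat 6544, .ofNat 0, .ofNat 249, .ofNat 522, .negSucc 348, .ofNat 0, .ofNat 293, .negSucc 148, .ofNat 0, .ofNat 0, .ofNat 949, .ofNat 3490, .ofNat 0, .ofNat 0, .ofNat 1660356629800973194965811200, .ofNat 0, .ofNat 0, .ofNat 0, .ofNat 810542025944088694203875328000,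 .ofNat 0, .ofNat 3402357852760108637402312151662592000, .ofNat 0, .ofNat 288178563375744131354591232000, .ofNat 0, .ofNat 10466451709234253162942969057535590400, .ofNat 0, .ofNat 0, .ofNat 0⟩)
    (by decide +kernel)
theorem L00608 : Good (Phi V4.P V4.D 1 1) ⟨5, 26, 4, 6, 2, 3, 2, 0, 3, 2⟩ :=
  leaf_sound (S := T4.ds_pp) T4.ok_pp (w := 184) (c := ⟨⟨.negSucc 1926, .negSucc 77, .ofNat 18, .negSucc 126, .negSucc 182, .ofNat 404⟩, ⟨.negSucc 777, .ofNat 8, .negSucc 121, .ofNat 2, .negSucc 92, .ofNat 171⟩, ⟨.ofNat 1156, .ofNat 24, .ofNat 44, .negSucc 301, .ofNat 141, .negSucc 719⟩, ⟨.negSucc 3687, .negSucc 129, .ofNat 22, .negSucc 951, .negSucc 146, .ofNat 828⟩, ⟨.ofNat 1411, .ofNat 161, .negSucc 84, .ofNat 1615, .negSucc 298, .negSucc 415⟩, .ofNat 1062, .negSucc 1533, .ofNat 0, .negSucc 1533, .ofNat 3475, .ofNat 0, .ofNat 310, .ofNat 536, .negSucc 274, .ofNat 0,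 .ofNat 311, .negSucc 111, .ofNat 0, .ofNat 0, .ofNat 952, .ofNat 12084, .ofNat 0, .ofNat 0, .ofNat 0, .ofNat 0, .ofNat 0, .ofNat 2073227461470190463777508192524697600, .ofNat 5614606338488992524482799206400, .ofNat 0, .ofNat 0, .ofNat 10310906223939754058288500942936473600, .ofNat 2472262569389189712003150643200, .ofNat 0, .ofNat 0, .ofNat 6232686676932979970791991948397772800, .ofNat 0, .ofNat 0⟩)
    (by decide +kernel)
theorem L00609 : Good (Phi V4.P V4.D 1 1) ⟨5, 26, 4, 6, 2, 3, 2, 1, 3, 2⟩ :=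
  leaf_sound (S := T4.ds_pp) T4.ok_pp (w := 184) (c := ⟨⟨.negSucc 2078, .negSucc 75, .ofNat 20, .negSucc 168, .negSucc 295, .ofNat 402⟩, ⟨.negSucc 854, .negSucc 6, .negSucc 122, .negSucc 8, .negSucc 135, .ofNat 171⟩, ⟨.ofNat 1146, .ofNat 2, .ofNat 27, .negSucc 46, .ofNat 189, .negSucc 530⟩, ⟨.negSucc 3761, .negSucc 108, .ofNat 10, .negSucc 1039, .negSucc 442, .ofNat 761⟩, ⟨.ofNat 1038, .ofNat 171, .negSucc 69, .ofNat 1690, .negSucc 40, .negSucc 264⟩, .ofNat 604, .negSucc 644, .ofNat 0, .negSucc 644, .ofNat 1627, .ofNat 0, .ofNat 426, .ofNat 528, .negSucc 401, .ofNat 0, .ofNat 351, .negSucc 138, .ofNat 0, .ofNat 0, .ofNat 977, .ofNat 6429, .ofNat 0, .ofNat 28410441586918921409564773240012800, .ofNat 22631722916240014012160409600, .ofNat 0, .ofNat 0, .ofNat 518762825161502666397274869438873600, .ofNat 5701479139163280048831804211200, .ofNat 0, .ofNat 0, .ofNat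 14884459906280581387866604801779302400, .ofNat 1370059886513018897071865856000, .ofNat 0, .ofNat 0, .ofNat 8951401253326775426814128599911628800, .ofNat 0, .ofNat 0⟩)
    (by decide +kernel)
theorem L00610 : Good (Phi V4.P V4.D 1 1) ⟨5, 26, 4, 6, 1, 1, 1, 0, 3, 3⟩ :=
  leaf_sound (S := T4.ds_pp) T4.ok_pp (w := 168) (c := ⟨⟨.negSucc 1279, .negSucc 66, .ofNat 13, .negSucc 545, .negSucc 303, .ofNat 218⟩, ⟨.negSucc 544, .negSucc 45, .negSucc 55, .negSucc 214, .negSucc 141, .ofNat 97⟩, ⟨.ofNat 526, .negSucc 2, .negSucc 9, .negSucc 175, .ofNat 298, .negSucc 380⟩, ⟨.negSucc 2095, .negSucc 45, .ofNat 19, .negSucc 1378, .negSucc 485, .ofNat 403⟩, ⟨.ofNat 123, .ofNat 40, .negSucc 13, .ofNat 1109, .ofNat 13, .negSucc 129⟩, .ofNat 1088, .negSucc 1588, .ofNat 0, .negSucc 1588, .ofNat 3594, .ofNat 0, .ofNat 244, .ofNat 421, .negSucc 268, .ofNat 0, .ofNat 254, .negSucc 109,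 .ofNat 0, .ofNat 0, .ofNat 886, .ofNat 2147, .ofNat 0, .ofNat 118658407320028840996870343884800, .ofNat 109306545197767335360000, .ofNat 0, .ofNat 0, .ofNat 36900007750419762437314924511232000, .ofNat 1599226472092660364161843200, .ofNat 0, .ofNat 0, .ofNat 41207665580268769461308444010086400, .ofNat 1223006857370628809608396800, .ofNat 0, .ofNat 0, .ofNat 38252343682480214095694980448256000, .ofNat 0, .ofNat 0⟩)
    (by decide +kernel)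
theorem L00611 : Good (Phi V4.P V4.D 1 1) ⟨5, 27, 4, 6, 0, 0, 1, 0, 1, 0⟩ :=
  out_sound (S := T4.ds_pp) T4.ok_pp (w := 64) (j := 3) (by decide +kernel)
theorem L00612 : Good (Phi V4.P V4.D 1 1) ⟨5, 26, 4, 7, 2, 0, 2, 0, 3, 0⟩ :=
  leaf_sound (S := T4.ds_pp) T4.ok_pp (w := 184) (c := ⟨⟨.negSucc 1309, .negSucc 185, .ofNat 1, .negSucc 60, .ofNat 187, .negSucc 329⟩, ⟨.negSucc 618, .negSucc 103, .negSucc 63, .negSucc 20, .ofNat 91, .negSucc 163⟩, ⟨.ofNat 1747, .ofNat 182, .ofNat 7, .ofNat 155, .negSucc 452, .ofNat 186⟩, ⟨.negSucc 2103, .negSucc 211, .negSucc 4, .negSucc 262, .ofNat 340, .negSucc 512⟩, ⟨.ofNat 23, .ofNat 7, .ofNat 8, .ofNat 335, .negSucc 96, .ofNat 2⟩, .ofNat 1306, .negSucc 1947, .ofNat 0, .negSucc 1947, .ofNat 4099, .ofNat 0, .ofNat 132, .ofNat 265, .negSucc 439, .ofNat 0, .ofNat 162, .negSucc 211, .ofNat 0, .ofNat 0, .ofNat 618, .ofNat 4689, .ofNat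 0, .ofNat 0, .ofNat 0, .ofNat 0, .ofNat 0, .ofNat 0, .ofNat 0, .ofNat 0, .ofNat 0, .ofNat 0, .ofNat 0, .ofNat 0, .ofNat 0, .ofNat 0, .ofNat 0, .ofNat 0⟩)
    (by decide +kernel)
theorem L00613 : Good (Phi V4.P V4.D 1 1) ⟨5, 26, 4, 7, 2, 0, 2, 1, 3, 0⟩ :=
  leaf_sound (S := T4.ds_pp) T4.ok_pp (w := 184) (c := ⟨⟨.negSucc 1211, .negSucc 175, .ofNat 18, .negSucc 94, .ofNat 103, .negSucc 158⟩, ⟨.negSucc 564, .negSucc 111, .negSucc 39, .negSucc 43, .ofNat 48, .negSucc 78⟩, ⟨.ofNat 1448, .ofNat 150, .negSucc 7, .ofNat 124, .negSucc 427, .negSucc 10⟩, ⟨.negSucc 1952, .negSucc 218, .ofNat 35, .negSucc 215, .ofNat 209, .negSucc 232⟩, ⟨.ofNat 30, .ofNat 42, .negSucc 12, .ofNat 137, .negSucc 99, .negSucc 27⟩, .ofNat 1296, .negSucc 1932, .ofNat 0, .negSucc 1932, .ofNat 4081, .ofNat 0, .ofNat 141, .ofNat 281, .negSucc 410, .ofNat 0, .ofNat 171, .negSucc 196, .ofNat 0, .ofNat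 0, .ofNat 631, .ofNat 3938, .ofNat 0, .ofNat 0, .ofNat 0, .ofNat 0, .ofNat 0, .ofNat 0, .ofNat 0, .ofNat 0, .ofNat 0, .ofNat 0, .ofNat 0, .ofNat 0, .ofNat 0, .ofNat 0, .ofNat 0, .ofNat 0⟩)
    (by decide +kernel)
theorem L00614 : Good (Phi V4.P V4.D 1 1) ⟨5, 26, 4, 7, 2, 1, 1, 0, 3, 0⟩ :=
  leaf_sound (S := T4.ds_pp) T4.ok_pp (w := 184) (c := ⟨⟨.negSucc 1348, .negSucc 73, .negSucc 35, .negSucc 73, .ofNat 107, .negSucc 250⟩, ⟨.negSucc 628, .negSucc 41, .negSucc 86, .negSucc 22, .ofNat 40, .negSucc 123⟩, ⟨.ofNat 1971, .ofNat 75, .ofNat 26, .ofNat 53, .negSucc 744, .negSucc 53⟩, ⟨.negSucc 2334, .negSucc 109, .negSucc 27, .negSucc 337, .ofNat 406, .negSucc 397⟩, ⟨.ofNat 382, .ofNat 135, .negSucc 75, .ofNat 451, .negSucc 482, .ofNat 16⟩, .ofNat 2452, .negSucc 4172, .ofNat 0, .negSucc 4172, .ofNat 8468, .ofNat 0, .ofNat 120, .ofNat 311, .negSucc 385, .ofNat 0, .ofNat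 176, .negSucc 185, .ofNat 0, .ofNat 0, .ofNat 584, .ofNat 2531, .ofNat 0, .ofNat 0, .ofNat 0, .ofNat 0, .ofNat 1117990623160321639617728938298572800, .ofNat 0, .ofNat 217010340185196882758624870400, .ofNat 0, .ofNat 0, .ofNat 0, .ofNat 105133690189478568177067622400, .ofNat 0, .ofNat 0, .ofNat 0, .ofNat 0, .ofNat 0⟩)
    (by decide +kernel)
theorem L00615 : Good (Phi V4.P V4.D 1 1) ⟨5, 26, 4, 7, 1, 0, 2, 0, 3, 1⟩ :=
  leaf_sound (S := T4.ds_pp) T4.ok_pp (w := 176) (c := ⟨⟨.negSucc 1620, .negSucc 3, .negSucc 32, .negSucc 133, .ofNat 99, .ofNat 161⟩, ⟨.negSucc 769, .negSucc 12, .negSucc 82, .negSucc 49, .ofNat 45, .ofNat 76⟩, ⟨.ofNat 2034, .ofNat 47, .ofNat 15, .negSucc 107, .negSucc 397, .negSucc 389⟩, ⟨.negSucc 2585, .negSucc 28, .negSucc 10, .negSucc 524, .ofNat 255, .ofNat 297⟩, ⟨.ofNat 14, .ofNat 212, .negSucc 98, .ofNat 637, .negSucc 196, .negSucc 97⟩,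 .ofNat 2514, .negSucc 4281, .ofNat 0, .negSucc 4281, .ofNat 8660, .ofNat 0, .ofNat 107, .ofNat 274, .negSucc 287, .ofNat 0, .ofNat 157, .negSucc 139, .ofNat 0, .ofNat 0, .ofNat 529, .ofNat 3693, .ofNat 0, .ofNat 0, .ofNat 0, .ofNat 0, .ofNat 62604986233393056147479661536870400, .ofNat 0, .ofNat 4323550863655346324373504000, .ofNat 0, .ofNat 52682709522672220397302910759731200, .ofNat 0, .ofNat 2130970473356650076543385600, .ofNat 0, .ofNat 0, .ofNat 0, .ofNat 0, .ofNat 0⟩)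
    (by decide +kernel)
theorem L00616 : Good (Phi V4.P V4.D 1 1) ⟨5, 26, 4, 7, 1, 0, 2, 1, 3, 1⟩ :=
  leaf_sound (S := T4.ds_pp) T4.ok_pp (w := 176) (c := ⟨⟨.negSucc 1470, .ofNat 156, .negSucc 159, .negSucc 322, .ofNat 69, .ofNat 84⟩, ⟨.negSucc 690, .ofNat 54, .negSucc 134, .negSucc 150, .ofNat 30, .ofNat 39⟩, ⟨.ofNat 1550, .negSucc 20, .ofNat 63, .ofNat 2, .negSucc 345, .negSucc 286⟩, ⟨.negSucc 2405, .ofNat 386, .negSucc 281, .negSucc 685, .ofNat 189, .ofNat 177⟩, ⟨.ofNat 125, .negSucc 122, .ofNat 60, .ofNat 370, .negSucc 163, .negSucc 93⟩, .ofNat 667, .negSucc 747, .ofNat 0, .negSucc 747, .ofNat 1737, .ofNat 0, .ofNat 179, .ofNat 244, .negSucc 324, .ofNat 0, .ofNat 174, .negSucc 140, .ofNat 0, .ofNat 0, .ofNat 562, .ofNat 3401, .ofNat 0, .ofNat 0, .ofNat 0, .ofNat 0, .ofNat 0, .ofNat 0, .ofNat 2638583597395162807507353600, .ofNat 0, .ofNat 0, .ofNat 0, .ofNat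 2437844065365064230214041600, .ofNat 0, .ofNat 0, .ofNat 0, .ofNat 2165870793197900882195251200, .ofNat 0⟩)
    (by decide +kernel)
theorem L00617 : Good (Phi V4.P V4.D 1 1) ⟨6, 54, 5, 14, 1, 0, 1, 0, 2, 0⟩ :=
  out_sound (S := T4.ds_pp) T4.ok_pp (w := 72) (j := 3) (by decide +kernel)
theorem L00618 : Good (Phi V4.P V4.D 1 1) ⟨6, 54, 6, 30, 1, 0, 1, 0, 2, 0⟩ :=
  out_sound (S := T4.ds_pp) T4.ok_pp (w := 72) (j := 3) (by decide +kernel)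
theorem L00619 : Good (Phi V4.P V4.D 1 1) ⟨8, 216, 6, 31, 1, 0, 2, 0, 3, 0⟩ :=
  leaf_sound (S := T4.ds_pp) T4.ok_pp (w := 192) (c := ⟨⟨.negSucc 1485, .negSucc 5, .ofNat 16, .ofNat 25, .ofNat 85, .negSucc 309⟩, ⟨.negSucc 761, .negSucc 3, .negSucc 8, .ofNat 31, .ofNat 41, .negSucc 160⟩, ⟨.ofNat 1967, .negSucc 25, .ofNat 36, .ofNat 70, .negSucc 364, .ofNat 81⟩, ⟨.negSucc 2301, .negSucc 5, .ofNat 25, .negSucc 404, .ofNat 215, .negSucc 477⟩, ⟨.ofNat 33, .ofNat 12, .negSucc 7, .ofNat 851, .negSucc 161, .ofNat 6⟩, .ofNat 3756, .negSucc 6445, .ofNat 0, .negSucc 6445, .ofNat 12357, .ofNat 0, .ofNat 96, .ofNat 297, .negSucc 410, .ofNat 0, .ofNat 171, .negSucc 211, .ofNat 0, .ofNat 0, .ofNat 588, .ofNat 3342, .ofNat 0, .ofNat 0, .ofNat 0, .ofNat 0, .ofNat 0, .ofNat 0, .ofNat 0, .ofNat 0, .ofNat 0, .ofNat 0, .ofNat 0, .ofNat 0, .ofNat 0, .ofNat 0, .ofNat 0, .ofNat 0⟩)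
    (by decide +kernel)
theorem L00620 : Good (Phi V4.P V4.D 1 1) ⟨8, 216, 6, 31, 1, 0, 2, 1, 3, 0⟩ :=
  leaf_sound (S := T4.ds_pp) T4.ok_pp (w := 192) (c := ⟨⟨.negSucc 1331, .negSucc 57, .ofNat 55, .negSucc 154, .ofNat 56, .negSucc 259⟩, ⟨.negSucc 683, .negSucc 31, .ofNat 15, .negSucc 68, .ofNat 26, .negSucc 136⟩, ⟨.ofNat 1663, .ofNat 19, .negSucc 18, .ofNat 127, .negSucc 418, .negSucc 64⟩, ⟨.negSucc 2056, .negSucc 96, .ofNat 72, .negSucc 541, .ofNat 196, .negSucc 371⟩, ⟨.ofNat 14, .ofNat 33, .ofNat 23, .ofNat 582, .negSucc 208, .negSucc 51⟩, .ofNat 707, .negSucc 807, .ofNat 0, .negSucc 807, .ofNat 1784, .ofNat 0, .ofNat 186, .ofNat 277, .negSucc 434, .ofNat 0, .ofNat 195, .negSucc 200, .ofNat 0, .ofNat 0, .ofNat 641, .ofNat 2887, .ofNat 0, .ofNat 0, .ofNat 0, .ofNat 0, .ofNat 0, .ofNat 0, .ofNat 0, .ofNat 0, .ofNat 0, .ofNat 0, .ofNat 0, .ofNat 0, .ofNat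 0, .ofNat 0, .ofNat 0, .ofNat 0⟩)
    (by decide +kernel)
theorem L00621 : Good (Phi V4.P V4.D 1 1) ⟨8, 217, 6, 31, 1, 0, 1, 0, 3, 0⟩ :=
  out_sound (S := T4.ds_pp) T4.ok_pp (w := 88) (j := 3) (by decide +kernel)
theorem L00622 : Good (Phi V4.P V4.D 1 1) ⟨7, 109, 6, 31, 1, 0, 1, 0, 3, 0⟩ :=
  out_sound (S := T4.ds_pp) T4.ok_pp (w := 80) (j := 3) (by decide +kernel)
theorem L00623 : Good (Phi V4.P V4.D 1 1) ⟨6, 54, 6, 31, 1, 0, 2, 0, 3, 1⟩ :=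
  leaf_sound (S := T4.ds_pp) T4.ok_pp (w := 184) (c := ⟨⟨.negSucc 1708, .ofNat 13, .negSucc 10, .negSucc 86, .ofNat 125, .ofNat 169⟩, ⟨.negSucc 876, .ofNat 3, .negSucc 21, .negSucc 31, .ofNat 61, .ofNat 85⟩, ⟨.ofNat 2162, .ofNat 56, .ofNat 1, .negSucc 165, .negSucc 431, .negSucc 415⟩, ⟨.negSucc 2675, .negSucc 49, .negSucc 22, .negSucc 498, .ofNat 297, .ofNat 338⟩, ⟨.ofNat 91, .ofNat 211, .ofNat 9, .ofNat 700, .negSucc 200, .negSucc 149⟩, .ofNat 2479, .negSucc 4067, .ofNat 0, .negSucc 4067, .ofNat 7912, .ofNat 0, .ofNat 97, .ofNat 277, .negSucc 286, .ofNat 0, .ofNat 161, .negSucc 145, .ofNat 0, .ofNat 0, .ofNat 529, .ofNat 4675, .ofNat 0, .ofNat 0, .ofNat 0, .ofNat 0, .ofNat 8718308329553629449275159121965875200, .ofNat 0, .ofNat 9875553523753859106943795200, .ofNat 0, .ofNat 18879054545575103680987281077619916800, .ofNat 0, .ofNat 1140710518253791262697062400,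 .ofNat 0, .ofNat 0, .ofNat 0, .ofNat 0, .ofNat 0⟩)
    (by decide +kernel)
theorem L00624 : Good (Phi V4.P V4.D 1 1) ⟨6, 54, 6, 31, 1, 0, 2, 1, 3, 1⟩ :=
  leaf_sound (S := T4.ds_pp) T4.ok_pp (w := 184) (c := ⟨⟨.negSucc 1418, .ofNat 247, .negSucc 57, .negSucc 328, .ofNat 48, .ofNat 84⟩, ⟨.negSucc 727, .ofNat 118, .negSucc 43, .negSucc 162, .ofNat 22, .ofNat 41⟩, ⟨.ofNat 1605, .ofNat 27, .negSucc 0, .ofNat 9, .negSucc 355, .negSucc 312⟩, ⟨.negSucc 2203, .ofNat 402, .negSucc 107, .negSucc 733, .ofNat 164, .ofNat 208⟩, ⟨.ofNat 41, .ofNat 33, .ofNat 34, .ofNat 438, .negSucc 171, .negSucc 150⟩, .ofNat 3709, .negSucc 6354, .ofNat 0, .negSucc 6354, .ofNat 12178, .ofNat 0, .ofNat 93, .ofNat 288, .negSucc 310, .ofNat 0, .ofNat 166, .negSucc 159, .ofNat 0, .ofNat 0, .ofNat 552, .ofNat 2148, .ofNat 0, .ofNat 0, .ofNat 20098280658479388504883200, .ofNat 0, .ofNat 0, .ofNat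 0, .ofNat 10154408231453481331222118400, .ofNat 0, .ofNat 0, .ofNat 0, .ofNat 5257900633167590522565427200, .ofNat 0, .ofNat 0, .ofNat 0, .ofNat 0, .ofNat 0⟩)
    (by decide +kernel)
theorem L00625 : Good (Phi V4.P V4.D 1 1) ⟨6, 55, 4, 7, 1, 0, 1, 0, 2, 0⟩ :=
  out_sound (S := T4.ds_pp) T4.ok_pp (w := 72) (j := 3) (by decide +kernel)
theorem L00626 : Good (Phi V4.P V4.D 1 1) ⟨5, 26, 4, 7, 1, 0, 1, 0, 3, 2⟩ :=
  leaf_sound (S := T4.ds_pp) T4.ok_pp (w := 176) (c := ⟨⟨.negSucc 1291, .ofNat 13, .negSucc 58, .negSucc 338, .ofNat 22, .ofNat 186⟩, ⟨.negSucc 603, .negSucc 15, .negSucc 78, .negSucc 162, .ofNat 6, .ofNat 89⟩, ⟨.ofNat 1591, .negSucc 72, .ofNat 71, .negSucc 186, .negSucc 453, .negSucc 380⟩, ⟨.negSucc 2120, .ofNat 107, .negSucc 106, .negSucc 641, .ofNat 128, .ofNat 347⟩, ⟨.ofNat 123, .negSucc 29, .ofNat 30, .ofNat 229, .negSucc 186, .negSucc 115⟩, .ofNat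 2018, .negSucc 3313, .ofNat 0, .negSucc 3313, .ofNat 6752, .ofNat 0, .ofNat 201, .ofNat 485, .negSucc 440, .ofNat 0, .ofNat 282, .negSucc 213, .ofNat 0, .ofNat 0, .ofNat 972, .ofNat 3976, .ofNat 0, .ofNat 0, .ofNat 0, .ofNat 0, .ofNat 0, .ofNat 0, .ofNat 1784343863166579384621465600, .ofNat 0, .ofNat 0, .ofNat 0, .ofNat 0, .ofNat 0, .ofNat 53486967615447662604439164813312000, .ofNat 0, .ofNat 166092587735425816382668800, .ofNat 0⟩)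
    (by decide +kernel)
theorem L00627 : Good (Phi V4.P V4.D 1 1) ⟨5, 26, 4, 7, 1, 0, 1, 0, 3, 3⟩ :=
  leaf_sound (S := T4.ds_pp) T4.ok_pp (w := 168) (c := ⟨⟨.negSucc 929, .negSucc 164, .ofNat 49, .negSucc 382, .negSucc 79, .ofNat 143⟩, ⟨.negSucc 430, .negSucc 102, .negSucc 17, .negSucc 187, .negSucc 40, .ofNat 69⟩, ⟨.ofNat 858, .ofNat 117, .negSucc 37, .negSucc 235, .negSucc 41, .negSucc 228⟩, ⟨.negSucc 1427, .negSucc 270, .ofNat 125, .negSucc 637, .negSucc 122, .ofNat 224⟩, ⟨.negSucc 131, .ofNat 155, .negSucc 89, .ofNat 84, .negSucc 2, .negSucc 1⟩, .ofNat 1283, .negSucc 1902, .ofNat 0, .negSucc 1902, .ofNat 4014, .ofNat 0, .ofNat 206, .ofNat 406, .negSucc 357, .ofNat 0, .ofNat 249, .negSucc 169, .ofNat 0, .ofNat 0, .ofNat 873, .ofNat 3565, .ofNat 0, .ofNat 0, .ofNat 0, .ofNat 0, .ofNat 0, .ofNat 0, .ofNat 0, .ofNat 0, .ofNat 0, .ofNat 0, .ofNat 0, .ofNat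 0, .ofNat 240921752049444827532885932113920000, .ofNat 0, .ofNat 0, .ofNat 0⟩)
    (by decide +kernel)
theorem L00628 : Good (Phi V4.P V4.D 1 1) ⟨6, 54, 5, 14, 1, 0, 1, 0, 2, 1⟩ :=
  out_sound (S := T4.ds_pp) T4.ok_pp (w := 72) (j := 3) (by decide +kernel)
theorem L00629 : Good (Phi V4.P V4.D 1 1) ⟨7, 108, 5, 15, 1, 0, 1, 0, 3, 2⟩ :=
  leaf_sound (S := T4.ds_pp) T4.ok_pp (w := 184) (c := ⟨⟨.negSucc 1356, .negSucc 112, .ofNat 12, .negSucc 300, .ofNat 30, .ofNat 208⟩, ⟨.negSucc 683, .negSucc 64, .negSucc 17, .negSucc 151, .ofNat 12, .ofNat 107⟩, ⟨.ofNat 1646, .ofNat 179, .negSucc 84, .negSucc 247, .negSucc 443, .negSucc 393⟩, ⟨.negSucc 2151, .negSucc 173, .ofNat 33, .negSucc 597, .ofNat 139, .ofNat 374⟩, ⟨.ofNat 123, .ofNat 38, .negSucc 28, .ofNat 259, .negSucc 178, .negSucc 103⟩, .ofNat 3307, .negSucc 5606, .ofNat 0, .negSucc 5606, .ofNat 10783, .ofNat 0, .ofNat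 165, .ofNat 498, .negSucc 427, .ofNat 0, .ofNat 288, .negSucc 219, .ofNat 0, .ofNat 0, .ofNat 970, .ofNat 4245, .ofNat 0, .ofNat 0, .ofNat 475410074343957591552000, .ofNat 0, .ofNat 0, .ofNat 0, .ofNat 901670377749706818610790400, .ofNat 0, .ofNat 47690446650152489153326094183143833600, .ofNat 0, .ofNat 463282110456340587400396800, .ofNat 0, .ofNat 34338963664145816100450288530148556800, .ofNat 0, .ofNat 309753387520478986685644800, .ofNat 0⟩)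
    (by decide +kernel)
theorem L00630 : Good (Phi V4.P V4.D 1 1) ⟨7, 108, 5, 15, 1, 0, 2, 0, 3, 3⟩ :=
  leaf_sound (S := T4.ds_pp) T4.ok_pp (w := 184) (c := ⟨⟨.negSucc 1223, .negSucc 18, .negSucc 13, .negSucc 210, .ofNat 68, .ofNat 124⟩, ⟨.negSucc 617, .negSucc 15, .negSucc 25, .negSucc 108, .ofNat 32, .ofNat 64⟩, ⟨.ofNat 1215, .negSucc 2, .ofNat 1, .negSucc 452, .negSucc 131, .negSucc 353⟩, ⟨.negSucc 1955, .negSucc 18, .negSucc 17, .negSucc 359, .ofNat 200, .ofNat 197⟩, ⟨.ofNat 139, .ofNat 14, .negSucc 4, .ofNat 69, .negSucc 183, .negSucc 11⟩, .ofNat 2490, .negSucc 4086, .ofNat 0, .negSucc 4086, .ofNat 7943, .ofNat 0, .ofNat 156, .ofNat 436, .negSucc 312, .ofNat 0, .ofNat 255, .negSucc 158, .ofNat 0, .ofNat 0, .ofNat 902, .ofNat 32996, .ofNat 0, .ofNat 0, .ofNat 0, .ofNat 0, .ofNat 268307702172933164596805354791737753600, .ofNat 0, .ofNat 6188692448942984887743283200,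 .ofNat 0, .ofNat 1257280413137308644181644880403811532800, .ofNat 0, .ofNat 2085576135621618369665433600, .ofNat 0, .ofNat 3768130000311367895352571184165368627200, .ofNat 0, .ofNat 0, .ofNat 0⟩)
    (by decide +kernel)
theorem L00631 : Good (Phi V4.P V4.D 1 1) ⟨7, 108, 5, 15, 1, 0, 2, 1, 3, 3⟩ :=
  leaf_sound (S := T4.ds_pp) T4.ok_pp (w := 184) (c := ⟨⟨.negSucc 1149, .negSucc 32, .ofNat 55, .negSucc 351, .negSucc 40, .ofNat 170⟩, ⟨.negSucc 583, .negSucc 24, .ofNat 10, .negSucc 181, .negSucc 20, .ofNat 88⟩, ⟨.ofNat 971, .negSucc 4, .negSucc 23, .negSucc 287, .negSucc 21, .negSucc 256⟩, ⟨.negSucc 1762, .negSucc 31, .ofNat 98, .negSucc 571, .negSucc 63, .ofNat 279⟩, ⟨.negSucc 14, .negSucc 4, .negSucc 23, .ofNat 61, .ofNat 1, .negSucc 35⟩, .ofNat 3692, .negSucc 6323, .ofNat 0, .negSucc 6323, .ofNat 12121, .ofNat 0, .ofNat 143, .ofNat 432, .negSucc 351, .ofNat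 0, .ofNat 250, .negSucc 180, .ofNat 0, .ofNat 0, .ofNat 874, .ofNat 9254, .ofNat 0, .ofNat 0, .ofNat 0, .ofNat 0, .ofNat 0, .ofNat 0, .ofNat 6745393464533036007476428800, .ofNat 0, .ofNat 0, .ofNat 0, .ofNat 4982538249050101001905766400, .ofNat 0, .ofNat 0, .ofNat 0, .ofNat 0, .ofNat 0⟩)
    (by decide +kernel)
theorem L00632 : Good (Phi V4.P V4.D 1 1) ⟨7, 109, 5, 15, 1, 0, 1, 0, 2, 1⟩ :=
  out_sound (S := T4.ds_pp) T4.ok_pp (w := 80) (j := 3) (by decide +kernel)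
theorem L00633 : Good (Phi V4.P V4.D 1 1) ⟨6, 55, 4, 7, 1, 0, 1, 0, 2, 1⟩ :=
  out_sound (S := T4.ds_pp) T4.ok_pp (w := 72) (j := 3) (by decide +kernel)
theorem L00634 : Good (Phi V4.P V4.D 1 1) ⟨7, 104, 5, 14, 2, 2, 1, 0, 3, 0⟩ :=
  out_sound (S := T4.ds_pp) T4.ok_pp (w := 80) (j := 3) (by decide +kernel)
theorem L00635 : Good (Phi V4.P V4.D 1 1) ⟨7, 105, 5, 14, 2, 2, 2, 0, 3, 0⟩ :=
  leaf_sound (S := T4.ds_pp) T4.ok_pp (w := 192) (c := ⟨⟨.negSucc 787, .negSucc 83, .ofNat 142, .negSucc 229, .negSucc 230, .negSucc 873⟩, ⟨.negSucc 360, .negSucc 33, .ofNat 20, .negSucc 90, .negSucc 116, .negSucc 413⟩, ⟨.ofNat 1607, .ofNat 75, .negSucc 22, .ofNat 46, .negSucc 121, .ofNat 247⟩, ⟨.negSucc 1602, .negSucc 134, .ofNat 239, .negSucc 698, .negSucc 247, .negSucc 1478⟩, ⟨.ofNat 739, .ofNat 41, .negSucc 66, .ofNat 706, .negSucc 237, .ofNat 225⟩, .ofNat 2589, .negSucc 4557,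 .ofNat 0, .negSucc 4557, .ofNat 9496, .ofNat 0, .ofNat 125, .ofNat 359, .negSucc 389, .ofNat 0, .ofNat 192, .negSucc 180, .ofNat 0, .ofNat 0, .ofNat 546, .ofNat 2730, .ofNat 0, .ofNat 0, .ofNat 0, .ofNat 0, .ofNat 0, .ofNat 0, .ofNat 0, .ofNat 0, .ofNat 0, .ofNat 0, .ofNat 95853261926871253398218342400, .ofNat 0, .ofNat 0, .ofNat 0, .ofNat 0, .ofNat 0⟩)
    (by decide +kernel)
theorem L00636 : Good (Phi V4.P V4.D 1 1) ⟨7, 105, 5, 14, 2, 2, 2, 1, 3, 0⟩ :=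
  leaf_sound (S := T4.ds_pp) T4.ok_pp (w := 192) (c := ⟨⟨.negSucc 925, .negSucc 177, .ofNat 118, .negSucc 499, .negSucc 117, .negSucc 736⟩, ⟨.negSucc 428, .negSucc 81, .ofNat 11, .negSucc 218, .negSucc 64, .negSucc 350⟩, ⟨.ofNat 1467, .ofNat 95, .negSucc 72, .ofNat 261, .negSucc 275, .ofNat 120⟩, ⟨.negSucc 1726, .negSucc 287, .ofNat 176, .negSucc 1154, .negSucc 29, .negSucc 1207⟩, ⟨.ofNat 539, .ofNat 57, .negSucc 10, .ofNat 774, .negSucc 322, .ofNat 105⟩, .ofNat 2318, .negSucc 4015, .ofNat 0, .negSucc 4015, .ofNat 8410, .ofNat 0, .ofNat 134, .ofNat 386, .negSucc 449, .ofNat 0, .ofNat 207, .negSucc 208, .ofNat 0, .ofNat 0, .ofNat 610, .ofNat 1920, .ofNat 0, .ofNat 0, .ofNat 0, .ofNat 0, .ofNat 0, .ofNat 0, .ofNat 0, .ofNat 0, .ofNat 0, .ofNat 0, .ofNat 250466247246752271227997388800, .ofNat 0, .ofNat 0, .ofNat 0, .ofNat 0, .ofNat 0⟩)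
    (by decide +kernel)
theorem L00637 : Good (Phi V4.P V4.D 1 1) ⟨6, 52, 5, 15, 2, 2, 1, 0, 3, 0⟩ :=
  out_sound (S := T4.ds_pp) T4.ok_pp (w := 72) (j := 3) (by decide +kernel)
theorem L00638 : Good (Phi V4.P V4.D 1 1) ⟨6, 53, 5, 14, 2, 2, 1, 0, 4, 0⟩ :=
  leaf_sound (S := T4.ds_pp) T4.ok_pp (w := 192) (c := ⟨⟨.negSucc 729, .negSucc 16, .negSucc 54, .negSucc 140, .negSucc 574, .negSucc 651⟩, ⟨.negSucc 317, .ofNat 3, .negSucc 68, .negSucc 52, .negSucc 295, .negSucc 317⟩, ⟨.ofNat 1574, .ofNat 20, .ofNat 52, .ofNat 46, .negSucc 239, .ofNat 273⟩, ⟨.negSucc 1519, .negSucc 12, .negSucc 105, .negSucc 525, .negSucc 684, .negSucc 1087⟩, ⟨.ofNat 769, .ofNat 31, .ofNat 9, .ofNat 625, .negSucc 426, .ofNat 152⟩, .ofNat 1899, .negSucc 3101, .ofNat 0, .negSucc 3101, .ofNat 6387, .ofNat 0, .ofNat 137, .ofNat 384, .negSucc 490, .ofNat 0, .ofNat 211, .negSucc 233, .ofNat 0,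 .ofNat 0, .ofNat 614, .ofNat 1737, .ofNat 0, .ofNat 0, .ofNat 2049026922078180539262566400, .ofNat 0, .ofNat 0, .ofNat 0, .ofNat 2974361034382184816907072307200, .ofNat 0, .ofNat 0, .ofNat 0, .ofNat 0, .ofNat 0, .ofNat 0, .ofNat 0, .ofNat 0, .ofNat 0⟩)
    (by decide +kernel)
theorem L00639 : Good (Phi V4.P V4.D 1 1) ⟨6, 53, 5, 15, 2, 2, 2, 0, 4, 0⟩ :=
  leaf_sound (S := T4.ds_pp) T4.ok_pp (w := 192) (c := ⟨⟨.negSucc 707, .negSucc 349, .ofNat 201, .negSucc 42, .negSucc 285, .negSucc 648⟩, ⟨.negSucc 345, .negSucc 152, .ofNat 51, .negSucc 7, .negSucc 149, .negSucc 326⟩, ⟨.ofNat 1534, .ofNat 271, .negSucc 120, .negSucc 13, .negSucc 70, .ofNat 287⟩, ⟨.negSucc 1464, .negSucc 596, .ofNat 330, .negSucc 378, .negSucc 354, .negSucc 1100⟩, ⟨.ofNat 700, .ofNat 162, .negSucc 74, .ofNat 614, .negSucc 171, .ofNat 193⟩, .ofNat 3381, .negSucc 5862, .ofNat 0, .negSucc 5862,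 .ofNat 11515, .ofNat 0, .ofNat 110, .ofNat 382, .negSucc 475, .ofNat 0, .ofNat 210, .negSucc 236, .ofNat 0, .ofNat 0, .ofNat 587, .ofNat 3410, .ofNat 0, .ofNat 0, .ofNat 0, .ofNat 0, .ofNat 0, .ofNat 0, .ofNat 0, .ofNat 0, .ofNat 0, .ofNat 0, .ofNat 8772958530363387695241520742400, .ofNat 0, .ofNat 0, .ofNat 0, .ofNat 0, .ofNat 0⟩)
    (by decide +kernel)
theorem L00640 : Good (Phi V4.P V4.D 1 1) ⟨6, 53, 5, 15, 2, 2, 2, 1, 4, 0⟩ :=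
  leaf_sound (S := T4.ds_pp) T4.ok_pp (w := 192) (c := ⟨⟨.negSucc 924, .negSucc 163, .negSucc 28, .negSucc 409, .negSucc 212, .negSucc 583⟩, ⟨.negSucc 447, .negSucc 77, .negSucc 56, .negSucc 193, .negSucc 113, .negSucc 295⟩, ⟨.ofNat 1421, .ofNat 158, .ofNat 13, .ofNat 245, .negSucc 238, .ofNat 217⟩, ⟨.negSucc 1738, .negSucc 237, .negSucc 78, .negSucc 1003, .negSucc 185, .negSucc 970⟩, ⟨.ofNat 567, .ofNat 35, .ofNat 43, .ofNat 726, .negSucc 281, .ofNat 131⟩, .ofNat 2896, .negSucc 4935, .ofNat 0, .negSucc 4935, .ofNat 9740, .ofNat 0, .ofNat 120, .ofNat 401, .negSucc 503, .ofNat 0, .ofNat 222, .negSucc 249, .ofNat 0, .ofNat 0, .ofNat 645, .ofNat 3856, .ofNat 0, .ofNat 0, .ofNat 0, .ofNat 0, .ofNat 0, .ofNat 0, .ofNat 28493971922849134827762037555200, .ofNat 0, .ofNat 0, .ofNat 0, .ofNat 3847891889089628552499403161600, .ofNat 0, .ofNat 0, .ofNat 0, .ofNat 4641040096431538287283273728000,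 .ofNat 0⟩)
    (by decide +kernel)
theorem L00641 : Good (Phi V4.P V4.D 1 1) ⟨6, 53, 4, 7, 2, 2, 1, 0, 4, 1⟩ :=
  leaf_sound (S := T4.ds_pp) T4.ok_pp (w := 184) (c := ⟨⟨.negSucc 1311, .negSucc 89, .negSucc 20, .negSucc 645, .negSucc 297, .negSucc 156⟩, ⟨.negSucc 588, .negSucc 45, .negSucc 104, .negSucc 302, .negSucc 165, .negSucc 76⟩, ⟨.ofNat 1851, .ofNat 74, .ofNat 36, .ofNat 335, .negSucc 466, .negSucc 94⟩, ⟨.negSucc 2513, .negSucc 134, .negSucc 59, .negSucc 1423, .negSucc 150, .negSucc 233⟩, ⟨.ofNat 941, .ofNat 77, .negSucc 6, .ofNat 845, .negSucc 625, .negSucc 23⟩, .ofNat 1314, .negSucc 1959, .ofNat 0, .negSucc 1959, .ofNat 4110, .ofNat 0, .ofNat 151, .ofNat 367, .negSucc 411, .ofNat 0, .ofNat 209, .negSucc 190, .ofNat 0, .ofNat 0, .ofNat 587, .ofNat 2341, .ofNat 0, .ofNat 0, .ofNat 0, .ofNat 0, .ofNat 0, .ofNat 0, .ofNat 0, .ofNat 0, .ofNat 0, .ofNat 0,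 .ofNat 0, .ofNat 0, .ofNat 0, .ofNat 0, .ofNat 0, .ofNat 0⟩)
    (by decide +kernel)
theorem L00642 : Good (Phi V4.P V4.D 1 1) ⟨6, 54, 5, 14, 2, 2, 1, 0, 3, 0⟩ :=
  out_sound (S := T4.ds_pp) T4.ok_pp (w := 72) (j := 3) (by decide +kernel)
theorem L00643 : Good (Phi V4.P V4.D 1 1) ⟨7, 108, 5, 15, 2, 2, 2, 0, 4, 0⟩ :=
  leaf_sound (S := T4.ds_pp) T4.ok_pp (w := 200) (c := ⟨⟨.negSucc 868, .negSucc 105, .negSucc 8, .ofNat 35, .negSucc 379, .negSucc 764⟩, ⟨.negSucc 398, .negSucc 46, .negSucc 50, .ofNat 30, .negSucc 200, .negSucc 394⟩, ⟨.ofNat 1661, .ofNat 75, .ofNat 40, .negSucc 74, .negSucc 3, .ofNat 362⟩, ⟨.negSucc 1734, .negSucc 166, .negSucc 33, .negSucc 252, .negSucc 514, .negSucc 1297⟩, ⟨.ofNat 791, .ofNat 33, .ofNat 4, .ofNat 585, .negSucc 131, .ofNat 235⟩, .ofNat 3872, .negSucc 6655, .ofNat 0, .negSucc 6655, .ofNat 12736, .ofNat 0, .ofNat 102, .ofNat 382,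 .negSucc 482, .ofNat 0, .ofNat 213, .negSucc 248, .ofNat 0, .ofNat 0, .ofNat 591, .ofNat 3643, .ofNat 0, .ofNat 0, .ofNat 0, .ofNat 0, .ofNat 21558439927382064706814384442057110323200, .ofNat 0, .ofNat 15211850985124468277912587468800, .ofNat 0, .ofNat 0, .ofNat 0, .ofNat 5802974888686940444870836224000, .ofNat 0, .ofNat 0, .ofNat 0, .ofNat 0, .ofNat 0⟩)
    (by decide +kernel)
theorem L00644 : Good (Phi V4.P V4.D 1 1) ⟨7, 108, 5, 15, 2, 2, 2, 1, 4, 0⟩ :=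
  leaf_sound (S := T4.ds_pp) T4.ok_pp (w := 200) (c := ⟨⟨.negSucc 1163, .negSucc 3, .ofNat 21, .negSucc 483, .negSucc 129, .negSucc 499⟩, ⟨.negSucc 554, .ofNat 3, .negSucc 35, .negSucc 236, .negSucc 73, .negSucc 258⟩, ⟨.ofNat 1615, .negSucc 3, .ofNat 4, .ofNat 304, .negSucc 299, .ofNat 156⟩, ⟨.negSucc 2121, .negSucc 1, .ofNat 28, .negSucc 1142, .negSucc 34, .negSucc 816⟩, ⟨.ofNat 655, .ofNat 27, .negSucc 15, .ofNat 765, .negSucc 314, .ofNat 94⟩, .ofNat 3828, .negSucc 6577, .ofNat 0, .negSucc 6577, .ofNat 12597, .ofNat 0, .ofNat 109, .ofNat 401, .negSucc 497, .ofNat 0, .ofNat 224, .negSucc 254, .ofNat 0, .ofNat 0, .ofNat 644, .ofNat 2267, .ofNat 0, .ofNat 0, .ofNat 0, .ofNat 0, .ofNat 0, .ofNat 0, .ofNat 17169102628278312200487881932800, .ofNat 0, .ofNat 0, .ofNat 0, .ofNat 4987060231254221644084386201600, .ofNat 0, .ofNat 0, .ofNat 0, .ofNat 0, .ofNat 0⟩)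
    (by decide +kernel)
theorem L00645 : Good (Phi V4.P V4.D 1 1) ⟨7, 108, 5, 15, 2, 2, 1, 0, 4, 1⟩ :=
  leaf_sound (S := T4.ds_pp) T4.ok_pp (w := 200) (c := ⟨⟨.negSucc 1488, .negSucc 272, .ofNat 130, .negSucc 634, .negSucc 285, .negSucc 174⟩, ⟨.negSucc 710, .negSucc 135, .ofNat 12, .negSucc 312, .negSucc 161, .negSucc 90⟩, ⟨.ofNat 1973, .ofNat 186, .negSucc 38, .ofNat 326, .negSucc 480, .negSucc 88⟩, ⟨.negSucc 2815, .negSucc 464, .ofNat 226, .negSucc 1433, .negSucc 113, .negSucc 263⟩, ⟨.ofNat 1031, .ofNat 130, .negSucc 83, .ofNat 881, .negSucc 623, .negSucc 9⟩, .ofNat 3753, .negSucc 6440, .ofNat 0, .negSucc 6440, .ofNat 12349, .ofNat 0, .ofNat 106, .ofNat 383, .negSucc 412, .ofNat 0, .ofNat 214, .negSucc 209, .ofNat 0, .ofNat 0, .ofNat 583, .ofNat 3067, .ofNat 0, .ofNat 0, .ofNat 0, .ofNat 0, .ofNat 5008135201883211939716434010903779737600, .ofNat 0, .ofNat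 2143291970821932037532182118400, .ofNat 0, .ofNat 0, .ofNat 0, .ofNat 893387427941500515451404288000, .ofNat 0, .ofNat 12016775501863598335766006111521053081600, .ofNat 0, .ofNat 170837735524091547765807513600, .ofNat 0⟩)
    (by decide +kernel)
theorem L00646 : Good (Phi V4.P V4.D 1 1) ⟨7, 109, 5, 15, 2, 2, 1, 0, 3, 0⟩ :=
  out_sound (S := T4.ds_pp) T4.ok_pp (w := 80) (j := 3) (by decide +kernel)
theorem L00647 : Good (Phi V4.P V4.D 1 1) ⟨6, 55, 4, 7, 2, 2, 1, 0, 3, 0⟩ :=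
  out_sound (S := T4.ds_pp) T4.ok_pp (w := 72) (j := 3) (by decide +kernel)
theorem L00648 : Good (Phi V4.P V4.D 1 1) ⟨5, 26, 4, 7, 3, 6, 2, 0, 5, 0⟩ :=
  leaf_sound (S := T4.ds_pp) T4.ok_pp (w := 200) (c := ⟨⟨.ofNat 282, .negSucc 153, .negSucc 58, .ofNat 569, .negSucc 1185, .negSucc 1293⟩, ⟨.ofNat 163, .negSucc 23, .negSucc 107, .ofNat 286, .negSucc 592, .negSucc 635⟩, ⟨.ofNat 846, .ofNat 146, .ofNat 73, .negSucc 417, .ofNat 499, .ofNat 731⟩, ⟨.negSucc 98, .negSucc 251, .negSucc 160, .ofNat 786, .negSucc 1854, .negSucc 2145⟩, ⟨.ofNat 1092, .ofNat 61, .ofNat 41, .ofNat 201, .ofNat 26, .ofNat 271⟩, .ofNat 1298, .negSucc 1933, .ofNat 0, .negSucc 1933, .ofNat 4077, .ofNat 0, .ofNat 162, .ofNat 470, .negSucc 767, .ofNat 0, .ofNat 252, .negSucc 367, .ofNat 0, .ofNat 0, .ofNat 697, .ofNat 1378, .ofNat 0, .ofNat 0, .ofNat 446653135525099980515837372006400, .ofNat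 0, .ofNat 0, .ofNat 0, .ofNat 0, .ofNat 0, .ofNat 0, .ofNat 0, .ofNat 0, .ofNat 0, .ofNat 0, .ofNat 0, .ofNat 0, .ofNat 0⟩)
    (by decide +kernel)
theorem L00649 : Good (Phi V4.P V4.D 1 1) ⟨5, 26, 4, 7, 3, 6, 2, 0, 5, 1⟩ :=
  leaf_sound (S := T4.ds_pp) T4.ok_pp (w := 200) (c := ⟨⟨.negSucc 871, .negSucc 32, .negSucc 207, .negSucc 164, .negSucc 729, .negSucc 663⟩, ⟨.negSucc 390, .ofNat 42, .negSucc 234, .negSucc 71, .negSucc 363, .negSucc 325⟩, ⟨.ofNat 1529, .ofNat 44, .ofNat 191, .negSucc 26, .ofNat 210, .ofNat 300⟩, ⟨.negSucc 2026, .negSucc 35, .negSucc 396, .negSucc 423, .negSucc 1124, .negSucc 1149⟩, ⟨.ofNat 1299, .ofNat 92, .ofNat 43, .ofNat 335, .negSucc 17, .ofNat 241⟩, .ofNat 1994, .negSucc 3265, .ofNat 0, .negSucc 3265, .ofNat 6655, .ofNat 0, .ofNat 139, .ofNat 469, .negSucc 627, .ofNat 0, .ofNat 249, .negSucc 305, .ofNat 0, .ofNat 0, .ofNat 634, .ofNat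 5345, .ofNat 0, .ofNat 0, .ofNat 0, .ofNat 0, .ofNat 0, .ofNat 0, .ofNat 234757420370177294673208619827200000, .ofNat 0, .ofNat 25275306731220208722376706884964764876800, .ofNat 0, .ofNat 93538141772329914966778822262784000, .ofNat 0, .ofNat 0, .ofNat 0, .ofNat 92924202085297912986245849205964800, .ofNat 0⟩)
    (by decide +kernel)
theorem L00650 : Good (Phi V4.P V4.D 1 1) ⟨5, 26, 4, 7, 3, 7, 3, 0, 5, 0⟩ :=
  leaf_sound (S := T4.ds_pp) T4.ok_pp (w := 208) (c := ⟨⟨.ofNat 1769, .negSucc 165, .ofNat 268, .ofNat 1262, .negSucc 1016, .negSucc 2483⟩, ⟨.ofNat 874, .negSucc 8, .ofNat 107, .ofNat 639, .negSucc 503, .negSucc 1230⟩, ⟨.negSucc 53, .ofNat 114, .negSucc 86, .negSucc 719, .ofNat 485, .ofNat 1330⟩, ⟨.ofNat 2179, .negSucc 459, .ofNat 461, .ofNat 1656, .negSucc 1554, .negSucc 3883⟩, ⟨.ofNat 1270, .ofNat 312, .negSucc 236, .ofNat 622, .negSucc 56, .ofNat 39⟩,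 .ofNat 1297, .negSucc 1928, .ofNat 0, .negSucc 1928, .ofNat 4059, .ofNat 0, .ofNat 172, .ofNat 547, .negSucc 953, .ofNat 0, .ofNat 286, .negSucc 466, .ofNat 0, .ofNat 0, .ofNat 727, .ofNat 3119, .ofNat 0, .ofNat 0, .ofNat 0, .ofNat 0, .ofNat 0, .ofNat 0, .ofNat 0, .ofNat 0, .ofNat 0, .ofNat 0, .ofNat 0, .ofNat 0, .ofNat 0, .ofNat 0, .ofNat 0, .ofNat 0⟩)
    (by decide +kernel)
theorem L00651 : Good (Phi V4.P V4.D 1 1) ⟨5, 26, 4, 7, 3, 7, 3, 1, 5, 0⟩ :=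
  leaf_sound (S := T4.ds_pp) T4.ok_pp (w := 200) (c := ⟨⟨.ofNat 518, .ofNat 250, .negSucc 354, .ofNat 1079, .negSucc 800, .negSucc 2019⟩, ⟨.ofNat 248, .ofNat 221, .negSucc 270, .ofNat 550, .negSucc 397, .negSucc 987⟩, ⟨.ofNat 587, .negSucc 109, .ofNat 274, .negSucc 677, .ofNat 339, .ofNat 1046⟩, ⟨.ofNat 223, .ofNat 262, .negSucc 570, .ofNat 1486, .negSucc 1235, .negSucc 3247⟩, ⟨.ofNat 1253, .ofNat 198, .negSucc 52, .ofNat 384, .negSucc 21, .ofNat 209⟩, .ofNat 661, .negSucc 738, .ofNat 0, .negSucc 738, .ofNat 1727, .ofNat 0, .ofNat 263, .ofNat 562, .negSucc 1114, .ofNat 0, .ofNat 303, .negSucc 506, .ofNat 0, .ofNat 0, .ofNat 803, .ofNat 1233, .ofNat 0, .ofNat 0, .ofNat 0, .ofNat 0, .ofNat 0, .ofNat 0, .ofNat 0, .ofNat 0, .ofNat 0, .ofNat 0, .ofNat 0, .ofNat 0, .ofNat 0, .ofNat 0, .ofNat 1721982987689855990139743769722880000, .ofNat 0⟩)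
    (by decide +kernel)
theorem L00652 : Good (Phi V4.P V4.D 1 1) ⟨5, 26, 4, 7, 3, 7, 2, 0, 5, 1⟩ :=
  leaf_sound (S := T4.ds_pp) T4.ok_pp (w := 200) (c := ⟨⟨.negSucc 586, .negSucc 253, .negSucc 99, .ofNat 749, .negSucc 1066, .negSucc 1041⟩, ⟨.negSucc 264, .negSucc 30, .negSucc 188, .ofNat 382, .negSucc 531, .negSucc 511⟩, ⟨.ofNat 1290, .ofNat 153, .ofNat 135, .negSucc 606, .ofNat 387, .ofNat 449⟩, ⟨.negSucc 1668, .negSucc 456, .negSucc 197, .ofNat 1052, .negSucc 1669, .negSucc 1771⟩, ⟨.ofNat 1516, .ofNat 189, .negSucc 26, .ofNat 222, .ofNat 28, .ofNat 309⟩, .ofNat 1297, .negSucc 1930, .ofNat 0, .negSucc 1930, .ofNat 4066, .ofNat 0, .ofNat 175, .ofNat 543, .negSucc 746, .ofNat 0, .ofNat 284, .negSucc 361, .ofNat 0, .ofNat 0, .ofNat 643, .ofNat 5340, .ofNat 0, .ofNat 0, .ofNat 0, .ofNat 0, .ofNat 0, .ofNat 0, .ofNat 0, .ofNat 0, .ofNat 0, .ofNat 0, .ofNat 0,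 .ofNat 0, .ofNat 0, .ofNat 0, .ofNat 90968786725717441712089999186329600, .ofNat 0⟩)
    (by decide +kernel)
theorem L00653 : Good (Phi V4.P V4.D 1 1) ⟨6, 54, 5, 14, 3, 6, 2, 0, 4, 0⟩ :=
  out_sound (S := T4.ds_pp) T4.ok_pp (w := 72) (j := 3) (by decide +kernel)
theorem L00654 : Good (Phi V4.P V4.D 1 1) ⟨6, 54, 5, 15, 3, 6, 2, 0, 4, 0⟩ :=
  leaf_sound (S := T4.ds_pp) T4.ok_pp (w := 208) (c := ⟨⟨.ofNat 282, .ofNat 3, .negSucc 411, .ofNat 177, .negSucc 946, .negSucc 1949⟩, ⟨.ofNat 213, .ofNat 26, .negSucc 267, .ofNat 97, .negSucc 492, .negSucc 1004⟩, ⟨.ofNat 948, .ofNat 70, .ofNat 257, .negSucc 204, .ofNat 352, .ofNat 1026⟩, ⟨.negSucc 110, .ofNat 33, .negSucc 707, .ofNat 137, .negSucc 1476, .negSucc 3285⟩, ⟨.ofNat 1080, .negSucc 2, .ofNat 92, .ofNat 258, .ofNat 42, .ofNat 557⟩, .ofNat 3606, .negSucc 6169, .ofNat 0, .negSucc 6169, .ofNat 11849, .ofNat 0, .ofNat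 112, .ofNat 489, .negSucc 737, .ofNat 0, .ofNat 266, .negSucc 380, .ofNat 0, .ofNat 0, .ofNat 684, .ofNat 1811, .ofNat 0, .ofNat 0, .ofNat 35241978041298948194777117491200, .ofNat 0, .ofNat 343913472648043008409020489738130921881600, .ofNat 0, .ofNat 33645694852591593386050173114777600, .ofNat 0, .ofNat 0, .ofNat 0, .ofNat 15798566077969180109572702155571200, .ofNat 0, .ofNat 0, .ofNat 0, .ofNat 2107828896174734006122880119603200, .ofNat 0⟩)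
    (by decide +kernel)
theorem L00655 : Good (Phi V4.P V4.D 1 1) ⟨6, 54, 5, 14, 3, 7, 2, 0, 4, 0⟩ :=
  out_sound (S := T4.ds_pp) T4.ok_pp (w := 72) (j := 3) (by decide +kernel)
theorem L00656 : Good (Phi V4.P V4.D 1 1) ⟨6, 54, 5, 15, 3, 7, 2, 0, 5, 0⟩ :=
  leaf_sound (S := T4.ds_pp) T4.ok_pp (w := 208) (c := ⟨⟨.ofNat 1658, .ofNat 813, .ofNat 93, .ofNat 1162, .negSucc 2021, .negSucc 2456⟩, ⟨.ofNat 925, .ofNat 484, .ofNat 8, .ofNat 616, .negSucc 1056, .negSucc 1280⟩, ⟨.ofNat 63, .negSucc 460, .ofNat 33, .negSucc 689, .ofNat 920, .ofNat 1297⟩, ⟨.ofNat 1861, .ofNat 1084, .ofNat 72, .ofNat 1571, .negSucc 3086, .negSucc 3865⟩, ⟨.ofNat 1356, .ofNat 271, .ofNat 88, .ofNat 409, .negSucc 35, .ofNat 177⟩, .ofNat 2439, .negSucc 3992, .ofNat 0, .negSucc 3992, .ofNat 7770, .ofNat 0, .ofNat 129, .ofNat 578, .negSucc 999, .ofNat 0, .ofNat 311, .negSucc 518, .ofNat 0, .ofNat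 0, .ofNat 751, .ofNat 1797, .ofNat 0, .ofNat 0, .ofNat 0, .ofNat 0, .ofNat 0, .ofNat 0, .ofNat 671286880593003833398438145084620800, .ofNat 0, .ofNat 0, .ofNat 0, .ofNat 0, .ofNat 0, .ofNat 0, .ofNat 0, .ofNat 181371001428114180736586471807385600, .ofNat 0⟩)
    (by decide +kernel)
theorem L00657 : Good (Phi V4.P V4.D 1 1) ⟨6, 54, 5, 15, 3, 7, 2, 0, 5, 1⟩ :=
  leaf_sound (S := T4.ds_pp) T4.ok_pp (w := 208) (c := ⟨⟨.negSucc 839, .negSucc 172, .negSucc 157, .ofNat 931, .negSucc 1189, .negSucc 1057⟩, ⟨.negSucc 346, .negSucc 46, .negSucc 153, .ofNat 489, .negSucc 619, .negSucc 545⟩, ⟨.ofNat 1493, .ofNat 136, .ofNat 107, .negSucc 713, .ofNat 450, .ofNat 459⟩, ⟨.negSucc 2153, .negSucc 298, .negSucc 257, .ofNat 1353, .negSucc 1865, .negSucc 1791⟩, ⟨.ofNat 1699, .ofNat 101, .negSucc 26, .ofNat 149, .ofNat 74, .ofNat 318⟩, .ofNat 3651, .negSucc 6247, .ofNat 0, .negSucc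 6247, .ofNat 11982, .ofNat 0, .ofNat 118, .ofNat 563, .negSucc 773, .ofNat 0, .ofNat 303, .negSucc 401, .ofNat 0, .ofNat 0, .ofNat 654, .ofNat 6812, .ofNat 0, .ofNat 0, .ofNat 0, .ofNat 0, .ofNat 0, .ofNat 0, .ofNat 665042485266765033712627398318489600, .ofNat 0, .ofNat 0, .ofNat 0, .ofNat 158134875378245183313694374336921600, .ofNat 0, .ofNat 181958743405309680348341700948568886476800, .ofNat 0, .ofNat 86410025310520252804139927470080000, .ofNat 0⟩)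
    (by decide +kernel)
theorem L00658 : Good (Phi V4.P V4.D 1 1) ⟨6, 55, 4, 7, 2, 3, 2, 0, 4, 0⟩ :=
  out_sound (S := T4.ds_pp) T4.ok_pp (w := 72) (j := 3) (by decide +kernel)
theorem L00659 : Good (Phi V4.P V4.D 1 1) ⟨5, 26, 4, 7, 2, 3, 2, 1, 4, 0⟩ :=
  leaf_sound (S := T4.ds_pp) T4.ok_pp (w := 184) (c := ⟨⟨.negSucc 252, .negSucc 1054, .ofNat 356, .ofNat 178, .negSucc 824, .negSucc 1502⟩, ⟨.negSucc 77, .negSucc 484, .ofNat 48, .ofNat 107, .negSucc 412, .negSucc 735⟩, ⟨.ofNat 1068, .ofNat 586, .negSucc 111, .negSucc 343, .ofNat 202, .ofNat 671⟩, ⟨.negSucc 874, .negSucc 1732, .ofNat 533, .negSucc 55, .negSucc 1242, .negSucc 2546⟩, ⟨.ofNat 893, .ofNat 341, .negSucc 59, .ofNat 672, .negSucc 77, .ofNat 427⟩, .ofNat 1294, .negSucc 1924, .ofNat 0, .negSucc 1924, .ofNat 4055, .ofNat 0, .ofNat 177, .ofNat 530, .negSucc 797, .ofNat 0, .ofNat 286, .negSucc 378, .ofNat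 0, .ofNat 0, .ofNat 725, .ofNat 609, .ofNat 0, .ofNat 0, .ofNat 171879564341323810336879411200, .ofNat 0, .ofNat 0, .ofNat 0, .ofNat 0, .ofNat 0, .ofNat 0, .ofNat 0, .ofNat 0, .ofNat 0, .ofNat 0, .ofNat 0, .ofNat 0, .ofNat 0⟩)
    (by decide +kernel)

end Crest.Agent.R097C4.N4pp
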