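import Crest.Agent.R097.T4

/-!
# Row 97, box cover in dimension n = 4 (generated)
-/

set_option autoImplicit false
set_option Elab.async false
set_option maxHeartbeats 0
set_option maxRecDepth 100000

open Crest.Agent.R097 Crest.Agent.R097.KA


namespace Crest.Agent.R097C4.N4pp

theorem L00660 : Good (Phi V4.P V4.D 1 1) ⟨5, 27, 4, 7, 2, 3, 2, 1, 4, 0⟩ :=
  leaf_sound (S := T4.ds_pp) T4.ok_pp (w := 192) (c := ⟨⟨.negSucc 31, .ofNat 1115, .negSucc 1089, .ofNat 135, .negSucc 961, .negSucc 1583⟩, ⟨.ofNat 122, .ofNat 622, .negSucc 694, .ofNat 84, .negSucc 501, .negSucc 816⟩, ⟨.ofNat 979, .negSucc 469, .ofNat 637, .negSucc 280, .ofNat 261, .ofNat 733⟩, ⟨.negSucc 554, .ofNat 1689, .negSucc 1793, .negSucc 141, .negSucc 1452, .negSucc 2664⟩, ⟨.ofNat 1045, .ofNat 170, .ofNat 143, .ofNat 669, .negSucc 46, .ofNat 440⟩, .ofNat 3272, .negSucc 5547, .ofNat 0, .negSucc 5547, .ofNat 10684,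 .ofNat 0, .ofNat 123, .ofNat 556, .negSucc 874, .ofNat 0, .ofNat 303, .negSucc 450, .ofNat 0, .ofNat 0, .ofNat 767, .ofNat 1160, .ofNat 0, .ofNat 0, .ofNat 1633453866128528210176612761600, .ofNat 0, .ofNat 0, .ofNat 0, .ofNat 89903310269298650397878412902400, .ofNat 0, .ofNat 0, .ofNat 0, .ofNat 27432879016249151150671842508800, .ofNat 0, .ofNat 0, .ofNat 0, .ofNat 11487650482863934403020377292800, .ofNat 0⟩)
    (by decide +kernel)
theorem L00661 : Good (Phi V4.P V4.D 1 1) ⟨5, 26, 4, 7, 3, 6, 1, 0, 4, 1⟩ :=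
  leaf_sound (S := T4.ds_pp) T4.ok_pp (w := 192) (c := ⟨⟨.negSucc 1409, .negSucc 405, .ofNat 27, .negSucc 468, .negSucc 826, .negSucc 276⟩, ⟨.negSucc 639, .negSucc 150, .negSucc 142, .negSucc 215, .negSucc 417, .negSucc 132⟩, ⟨.ofNat 1759, .ofNat 272, .ofNat 30, .ofNat 145, .negSucc 2, .negSucc 56⟩, ⟨.negSucc 2959, .negSucc 660, .ofNat 0, .negSucc 1006, .negSucc 1105, .negSucc 512⟩, ⟨.ofNat 1447, .ofNat 265, .negSucc 37, .ofNat 559, .negSucc 363, .ofNat 159⟩, .ofNat 1290, .negSucc 1920, .ofNat 0, .negSucc 1920, .ofNat 4059, .ofNat 0, .ofNat 166, .ofNat 452, .negSucc 520, .ofNat 0, .ofNat 245, .negSucc 242, .ofNat 0, .ofNat 0, .ofNat 605, .ofNat 3273, .ofNat 0, .ofNat 0, .ofNat 0, .ofNat 0, .ofNat 0, .ofNat 0, .ofNat 0, .ofNat 0, .ofNat 0, .ofNat 0, .ofNat 0, .ofNat 0, .ofNat 0, .ofNat 0, .ofNat 0, .ofNat 0⟩)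
    (by decide +kernel)
theorem L00662 : Good (Phi V4.P V4.D 1 1) ⟨5, 26, 4, 7, 3, 7, 1, 0, 4, 1⟩ :=
  leaf_sound (S := T4.ds_pp) T4.ok_pp (w := 192) (c := ⟨⟨.negSucc 1801, .negSucc 653, .ofNat 176, .ofNat 471, .negSucc 1022, .negSucc 241⟩, ⟨.negSucc 834, .negSucc 237, .negSucc 108, .ofNat 246, .negSucc 513, .negSucc 109⟩, ⟨.ofNat 1853, .ofNat 284, .ofNat 20, .negSucc 489, .ofNat 221, .negSucc 74⟩, ⟨.negSucc 3754, .negSucc 1079, .ofNat 252, .ofNat 548, .negSucc 1484, .negSucc 548⟩, ⟨.ofNat 1843, .ofNat 290, .negSucc 70, .ofNat 371, .negSucc 211, .ofNat 348⟩, .ofNat 1974, .negSucc 3240, .ofNat 0, .negSucc 3240, .ofNat 6642, .ofNat 0, .ofNat 152, .ofNat 521, .negSucc 529, .ofNat 0, .ofNat 274, .negSucc 256, .ofNat 0, .ofNat 0, .ofNat 580, .ofNat 1739, .ofNat 36354388802036384051159182969562726400, .ofNat 0, .ofNat 5215808935767791986571162419200, .ofNat 0, .ofNat 0, .ofNat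 0, .ofNat 2159519100718912949265727330713600, .ofNat 0, .ofNat 0, .ofNat 0, .ofNat 926030934023420117222277355929600, .ofNat 0, .ofNat 0, .ofNat 0, .ofNat 0, .ofNat 0⟩)
    (by decide +kernel)
theorem L00663 : Good (Phi V4.P V4.D 1 1) ⟨6, 54, 5, 14, 2, 3, 1, 0, 4, 1⟩ :=
  out_sound (S := T4.ds_pp) T4.ok_pp (w := 72) (j := 3) (by decide +kernel)
theorem L00664 : Good (Phi V4.P V4.D 1 1) ⟨6, 54, 5, 15, 3, 6, 1, 0, 4, 1⟩ :=
  leaf_sound (S := T4.ds_pp) T4.ok_pp (w := 200) (c := ⟨⟨.negSucc 1817, .negSucc 268, .negSucc 9, .negSucc 525, .negSucc 892, .negSucc 110⟩, ⟨.negSucc 845, .negSucc 114, .negSucc 87, .negSucc 263, .negSucc 472, .negSucc 56⟩, ⟨.ofNat 2064, .ofNat 164, .ofNat 51, .ofNat 167, .ofNat 30, .negSucc 175⟩, ⟨.negSucc 3644, .negSucc 464, .negSucc 51, .negSucc 1106, .negSucc 1198, .negSucc 216⟩, ⟨.ofNat 1670, .ofNat 197, .ofNat 13, .ofNat 574, .negSucc 331, .ofNat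 87⟩, .ofNat 3832, .negSucc 6589, .ofNat 0, .negSucc 6589, .ofNat 12626, .ofNat 0, .ofNat 111, .ofNat 469, .negSucc 521, .ofNat 0, .ofNat 256, .negSucc 267, .ofNat 0, .ofNat 0, .ofNat 605, .ofNat 2441, .ofNat 0, .ofNat 0, .ofNat 0, .ofNat 0, .ofNat 28732505406963519133012859656386851635200, .ofNat 0, .ofNat 3568514457739571160849470560665600, .ofNat 0, .ofNat 86793027423568578500253186990260669644800, .ofNat 0, .ofNat 943736441955770081185902467481600, .ofNat 0, .ofNat 0, .ofNat 0, .ofNat 0, .ofNat 0⟩)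
    (by decide +kernel)
theorem L00665 : Good (Phi V4.P V4.D 1 1) ⟨6, 54, 5, 15, 3, 7, 1, 0, 4, 1⟩ :=
  leaf_sound (S := T4.ds_pp) T4.ok_pp (w := 200) (c := ⟨⟨.negSucc 2413, .negSucc 748, .ofNat 260, .ofNat 424, .negSucc 1120, .negSucc 228⟩, ⟨.negSucc 1136, .negSucc 347, .ofNat 36, .ofNat 228, .negSucc 587, .negSucc 112⟩, ⟨.ofNat 2184, .ofNat 405, .negSucc 66, .negSucc 485, .ofNat 262, .negSucc 113⟩, ⟨.negSucc 4785, .negSucc 1298, .ofNat 420, .ofNat 476, .negSucc 1652, .negSucc 529⟩, ⟨.ofNat 2108, .ofNat 374, .negSucc 103, .ofNat 338, .negSucc 132, .ofNat 342⟩, .ofNat 3764, .negSucc 6460, .ofNat 0, .negSucc 6460, .ofNat 12384, .ofNat 0, .ofNat 120, .ofNat 530, .negSucc 545, .ofNat 0, .ofNat 287, .negSucc 280, .ofNat 0, .ofNat 0, .ofNat 583, .ofNat 2017, .ofNat 2584664258960857917469580812264616755200, .ofNat 0, .ofNat 4507353782023692562662319718400, .ofNat 0, .ofNat 113978607592525303806376657838854373376000,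 .ofNat 0, .ofNat 2069091734359765319156856206131200, .ofNat 0, .ofNat 0, .ofNat 0, .ofNat 1726572673365438846183440331571200, .ofNat 0, .ofNat 0, .ofNat 0, .ofNat 2205156086336585576500504716902400, .ofNat 0⟩)
    (by decide +kernel)
theorem L00666 : Good (Phi V4.P V4.D 1 1) ⟨6, 55, 4, 7, 2, 3, 1, 0, 4, 1⟩ :=
  out_sound (S := T4.ds_pp) T4.ok_pp (w := 72) (j := 3) (by decide +kernel)
theorem L00667 : Good (Phi V4.P V4.D 1 1) ⟨5, 26, 4, 7, 2, 2, 1, 0, 3, 1⟩ :=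
  leaf_sound (S := T4.ds_pp) T4.ok_pp (w := 184) (c := ⟨⟨.negSucc 1530, .negSucc 88, .negSucc 24, .negSucc 563, .negSucc 303, .ofNat 149⟩, ⟨.negSucc 709, .negSucc 26, .negSucc 119, .negSucc 255, .negSucc 165, .ofNat 67⟩, ⟨.ofNat 1801, .ofNat 16, .ofNat 51, .ofNat 203, .negSucc 331, .negSucc 527⟩, ⟨.negSucc 2904, .negSucc 19, .negSucc 112, .negSucc 1323, .negSucc 180, .ofNat 382⟩, ⟨.ofNat 960, .negSucc 65, .ofNat 88, .ofNat 901, .negSucc 590, .negSucc 306⟩, .ofNat 2425, .negSucc 4118, .ofNat 0, .negSucc 4118, .ofNat 8365, .ofNat 0, .ofNat 120, .ofNat 335, .negSucc 273, .ofNat 0, .ofNat 185, .negSucc 128, .ofNat 0, .ofNat 0, .ofNat 518, .ofNat 2845, .ofNat 0, .ofNat 0, .ofNat 0, .ofNat 0, .ofNat 0, .ofNat 0, .ofNat 338441392736920207758458880000, .ofNat 0, .ofNat 0, .ofNat 0, .ofNat 79394063872425763607779737600, .ofNat 0, .ofNat 199782566127462189227373938029363200, .ofNat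 0, .ofNat 63252221331931540713426124800, .ofNat 0⟩)
    (by decide +kernel)
theorem L00668 : Good (Phi V4.P V4.D 1 1) ⟨5, 26, 4, 7, 2, 3, 2, 0, 3, 1⟩ :=
  leaf_sound (S := T4.ds_pp) T4.ok_pp (w := 184) (c := ⟨⟨.negSucc 2104, .negSucc 225, .ofNat 60, .negSucc 137, .negSucc 293, .ofNat 316⟩, ⟨.negSucc 986, .negSucc 42, .negSucc 138, .negSucc 32, .negSucc 151, .ofNat 152⟩, ⟨.ofNat 1826, .ofNat 258, .negSucc 41, .negSucc 364, .ofNat 91, .negSucc 672⟩, ⟨.negSucc 4131, .negSucc 355, .ofNat 51, .negSucc 895, .negSucc 322, .ofNat 594⟩, ⟨.ofNat 1670, .ofNat 170, .negSucc 54, .ofNat 1378, .negSucc 274, .negSucc 206⟩, .ofNat 1287, .negSucc 1913, .ofNat 0, .negSucc 1913, .ofNat 4043, .ofNat 0, .ofNat 310, .ofNat 735, .negSucc 474, .ofNat 0, .ofNat 406, .negSucc 220, .ofNat 0, .ofNat 0, .ofNat 980, .ofNat 6423, .ofNat 0, .ofNat 0, .ofNat 0, .ofNat 0, .ofNat 0, .ofNat 0, .ofNat 0, .ofNat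 0, .ofNat 0, .ofNat 0, .ofNat 0, .ofNat 0, .ofNat 0, .ofNat 0, .ofNat 0, .ofNat 0⟩)
    (by decide +kernel)
theorem L00669 : Good (Phi V4.P V4.D 1 1) ⟨5, 26, 4, 7, 2, 3, 2, 1, 3, 1⟩ :=
  leaf_sound (S := T4.ds_pp) T4.ok_pp (w := 184) (c := ⟨⟨.negSucc 2646, .ofNat 172, .negSucc 166, .negSucc 246, .negSucc 316, .ofNat 511⟩, ⟨.negSucc 1256, .ofNat 140, .negSucc 250, .negSucc 84, .negSucc 159, .ofNat 253⟩, ⟨.ofNat 1957, .negSucc 130, .ofNat 147, .negSucc 79, .ofNat 83, .negSucc 648⟩, ⟨.negSucc 4731, .ofNat 198, .negSucc 264, .negSucc 1151, .negSucc 432, .ofNat 858⟩, ⟨.ofNat 1157, .ofNat 331, .negSucc 112, .ofNat 1534, .negSucc 117, .negSucc 127⟩, .ofNat 1305, .negSucc 1943, .ofNat 0, .negSucc 1943, .ofNat 4083, .ofNat 0, .ofNat 157, .ofNat 387, .negSucc 299, .ofNat 0, .ofNat 216, .negSucc 137, .ofNat 0, .ofNat 0, .ofNat 523, .ofNat 2296, .ofNat 0, .ofNat 0, .ofNat 9738763946528913715573555200,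 .ofNat 0, .ofNat 0, .ofNat 0, .ofNat 0, .ofNat 0, .ofNat 0, .ofNat 0, .ofNat 639463018009523997727575244800, .ofNat 0, .ofNat 0, .ofNat 0, .ofNat 536607101115840479972504371200, .ofNat 0⟩)
    (by decide +kernel)
theorem L00670 : Good (Phi V4.P V4.D 1 1) ⟨6, 54, 4, 7, 2, 2, 1, 0, 3, 1⟩ :=
  leaf_sound (S := T4.ds_pp) T4.ok_pp (w := 184) (c := ⟨⟨.negSucc 1742, .negSucc 164, .ofNat 125, .negSucc 570, .negSucc 281, .ofNat 142⟩, ⟨.negSucc 798, .negSucc 85, .negSucc 32, .negSucc 278, .negSucc 158, .ofNat 68⟩, ⟨.ofNat 2012, .ofNat 149, .negSucc 143, .ofNat 198, .negSucc 368, .negSucc 531⟩, ⟨.negSucc 3179, .negSucc 232, .ofNat 200, .negSucc 1356, .negSucc 112, .ofNat 359⟩, ⟨.ofNat 999, .ofNat 38, .negSucc 62, .ofNat 920, .negSucc 612, .negSucc 270⟩, .ofNat 2453, .negSucc 4018, .ofNat 0, .negSucc 4018, .ofNat 7818, .ofNat 0, .ofNat 106, .ofNat 336, .negSucc 272, .ofNat 0, .ofNat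 191, .negSucc 135, .ofNat 0, .ofNat 0, .ofNat 523, .ofNat 2424, .ofNat 505121130646851973777334265603686400, .ofNat 0, .ofNat 687698109785595532227379200, .ofNat 0, .ofNat 17900476458800922773045782077505536000, .ofNat 0, .ofNat 97758644240528236638476697600, .ofNat 0, .ofNat 11667960126697790889439102471923302400, .ofNat 0, .ofNat 20014745511150693199223193600, .ofNat 0, .ofNat 15158013893256155254080407124679065600, .ofNat 0, .ofNat 21249980786767175819565465600, .ofNat 0⟩)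
    (by decide +kernel)
theorem L00671 : Good (Phi V4.P V4.D 1 1) ⟨6, 54, 5, 14, 2, 3, 1, 0, 3, 1⟩ :=
  out_sound (S := T4.ds_pp) T4.ok_pp (w := 72) (j := 3) (by decide +kernel)
theorem L00672 : Good (Phi V4.P V4.D 1 1) ⟨6, 54, 5, 15, 2, 3, 2, 0, 3, 1⟩ :=
  leaf_sound (S := T4.ds_pp) T4.ok_pp (w := 192) (c := ⟨⟨.negSucc 2345, .negSucc 51, .negSucc 20, .negSucc 136, .negSucc 295, .ofNat 468⟩, ⟨.negSucc 1119, .ofNat 4, .negSucc 94, .negSucc 43, .negSucc 159, .ofNat 240⟩, ⟨.ofNat 2122, .negSucc 33, .ofNat 25, .negSucc 344, .ofNat 47, .negSucc 796⟩, ⟨.negSucc 4513, .negSucc 16, .negSucc 63, .negSucc 921, .negSucc 323, .ofNat 830⟩, ⟨.ofNat 1793, .negSucc 43, .negSucc 6, .ofNat 1365, .negSucc 252, .negSucc 212⟩, .ofNat 3813, .negSucc 6554, .ofNat 0, .negSucc 6554, .ofNat 12567, .ofNat 0, .ofNat 207, .ofNat 759, .negSucc 481, .ofNat 0, .ofNat 419, .negSucc 245, .ofNat 0, .ofNat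 0, .ofNat 989, .ofNat 10343, .ofNat 0, .ofNat 0, .ofNat 0, .ofNat 0, .ofNat 0, .ofNat 0, .ofNat 12979683925665857601932781158400, .ofNat 0, .ofNat 0, .ofNat 0, .ofNat 3511066205594906796406446489600, .ofNat 0, .ofNat 0, .ofNat 0, .ofNat 0, .ofNat 0⟩)
    (by decide +kernel)
theorem L00673 : Good (Phi V4.P V4.D 1 1) ⟨6, 54, 5, 15, 2, 3, 2, 1, 3, 1⟩ :=
  leaf_sound (S := T4.ds_pp) T4.ok_pp (w := 192) (c := ⟨⟨.negSucc 2448, .ofNat 388, .negSucc 257, .negSucc 223, .negSucc 327, .ofNat 533⟩, ⟨.negSucc 1175, .ofNat 235, .negSucc 223, .negSucc 85, .negSucc 172, .ofNat 275⟩, ⟨.ofNat 1824, .negSucc 276, .ofNat 218, .negSucc 101, .ofNat 85, .negSucc 662⟩, ⟨.negSucc 4467, .ofNat 524, .negSucc 421, .negSucc 1136, .negSucc 458, .ofNat 881⟩, ⟨.ofNat 1400, .ofNat 230, .negSucc 17, .ofNat 1518, .negSucc 83, .negSucc 119⟩, .ofNat 3780, .negSucc 6485, .ofNat 0, .negSucc 6485, .ofNat 12422,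 .ofNat 0, .ofNat 110, .ofNat 418, .negSucc 320, .ofNat 0, .ofNat 231, .negSucc 162, .ofNat 0, .ofNat 0, .ofNat 531, .ofNat 2098, .ofNat 0, .ofNat 0, .ofNat 12135223939304826949179801600, .ofNat 0, .ofNat 0, .ofNat 0, .ofNat 4344953960352803806968702566400, .ofNat 0, .ofNat 0, .ofNat 0, .ofNat 1086507816802510109992707686400, .ofNat 0, .ofNat 0, .ofNat 0, .ofNat 1414086019172063236227229286400, .ofNat 0⟩)
    (by decide +kernel)
theorem L00674 : Good (Phi V4.P V4.D 1 1) ⟨6, 55, 4, 7, 1, 1, 1, 0, 3, 1⟩ :=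
  out_sound (S := T4.ds_pp) T4.ok_pp (w := 72) (j := 3) (by decide +kernel)
theorem L00675 : Good (Phi V4.P V4.D 1 1) ⟨5, 26, 4, 7, 2, 2, 1, 0, 3, 2⟩ :=
  leaf_sound (S := T4.ds_pp) T4.ok_pp (w := 184) (c := ⟨⟨.negSucc 1487, .negSucc 69, .ofNat 24, .negSucc 385, .negSucc 329, .ofNat 281⟩, ⟨.negSucc 691, .negSucc 37, .negSucc 73, .negSucc 170, .negSucc 170, .ofNat 132⟩, ⟨.ofNat 1276, .negSucc 108, .ofNat 56, .ofNat 23, .ofNat 2, .negSucc 569⟩, ⟨.negSucc 2660, .ofNat 25, .negSucc 15, .negSucc 975, .negSucc 369, .ofNat 593⟩, ⟨.ofNat 580, .negSucc 76, .ofNat 60, .ofNat 755, .negSucc 286, .negSucc 314⟩, .ofNat 2496, .negSucc 4242, .ofNat 0, .negSucc 4242, .ofNat 8573, .ofNat 0, .ofNat 206, .ofNat 545, .negSucc 350, .ofNat 0, .ofNat 307, .negSucc 164, .ofNat 0, .ofNat 0, .ofNat 955, .ofNat 3729, .ofNat 19511823038310278850639254519808000, .ofNat 0, .ofNat 1822596686181799907504947200,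 .ofNat 0, .ofNat 0, .ofNat 0, .ofNat 1065148002216473641145597952000, .ofNat 0, .ofNat 0, .ofNat 0, .ofNat 458943252523988929780226457600, .ofNat 0, .ofNat 4146682598732900494541775487736217600, .ofNat 0, .ofNat 255558035314287340192530432000, .ofNat 0⟩)
    (by decide +kernel)
theorem L00676 : Good (Phi V4.P V4.D 1 1) ⟨5, 26, 4, 7, 2, 3, 1, 0, 3, 2⟩ :=
  leaf_sound (S := T4.ds_pp) T4.ok_pp (w := 184) (c := ⟨⟨.negSucc 1879, .negSucc 90, .ofNat 25, .negSucc 131, .negSucc 464, .ofNat 419⟩, ⟨.negSucc 882, .ofNat 5, .negSucc 128, .negSucc 23, .negSucc 237, .ofNat 197⟩, ⟨.ofNat 1149, .negSucc 40, .ofNat 71, .negSucc 135, .ofNat 275, .negSucc 636⟩, ⟨.negSucc 3556, .negSucc 160, .ofNat 16, .negSucc 1011, .negSucc 591, .ofNat 854⟩, ⟨.ofNat 1217, .ofNat 179, .negSucc 59, .ofNat 1624, .negSucc 266, .negSucc 410⟩, .ofNat 1987, .negSucc 3261, .ofNat 0, .negSucc 3261, .ofNat 6674,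 .ofNat 0, .ofNat 237, .ofNat 610, .negSucc 327, .ofNat 0, .ofNat 340, .negSucc 153, .ofNat 0, .ofNat 0, .ofNat 959, .ofNat 4353, .ofNat 0, .ofNat 0, .ofNat 1904915718671926231144857600, .ofNat 0, .ofNat 0, .ofNat 845793591387713248771157205712896000, .ofNat 1195929305293716605955892838400, .ofNat 0, .ofNat 0, .ofNat 2908674310026410136964332654900019200, .ofNat 300522393414086358159536947200, .ofNat 0, .ofNat 0, .ofNat 3033948161110596090038807077217894400, .ofNat 35715936854618204800234291200, .ofNat 0⟩)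
    (by decide +kernel)
theorem L00677 : Good (Phi V4.P V4.D 1 1) ⟨6, 54, 5, 14, 1, 1, 1, 0, 3, 2⟩ :=
  out_sound (S := T4.ds_pp) T4.ok_pp (w := 72) (j := 3) (by decide +kernel)
theorem L00678 : Good (Phi V4.P V4.D 1 1) ⟨6, 54, 5, 15, 2, 2, 1, 0, 3, 2⟩ :=
  leaf_sound (S := T4.ds_pp) T4.ok_pp (w := 192) (c := ⟨⟨.negSucc 1576, .negSucc 49, .ofNat 23, .negSucc 371, .negSucc 309, .ofNat 280⟩, ⟨.negSucc 774, .negSucc 26, .negSucc 29, .negSucc 179, .negSucc 167, .ofNat 140⟩, ⟨.ofNat 1327, .ofNat 65, .negSucc 54, .ofNat 4, .negSucc 64, .negSucc 601⟩, ⟨.negSucc 2701, .negSucc 53, .ofNat 4, .negSucc 955, .negSucc 314, .ofNat 600⟩, ⟨.ofNat 543, .ofNat 31, .ofNat 41, .ofNat 734, .negSucc 306, .negSucc 325⟩, .ofNat 3849, .negSucc 6617, .ofNat 0, .negSucc 6617, .ofNat 12673, .ofNat 0, .ofNat 172, .ofNat 559, .negSucc 347, .ofNat 0, .ofNat 318, .negSucc 174, .ofNat 0, .ofNat 0, .ofNat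 965, .ofNat 4821, .ofNat 0, .ofNat 0, .ofNat 0, .ofNat 0, .ofNat 0, .ofNat 0, .ofNat 1540751411683761341846047948800, .ofNat 0, .ofNat 283267045453138931084257574110258790400, .ofNat 0, .ofNat 224897035538566453021743513600, .ofNat 0, .ofNat 549802679007073892292377125068157747200, .ofNat 0, .ofNat 244319082976332408212265369600, .ofNat 0⟩)
    (by decide +kernel)
theorem L00679 : Good (Phi V4.P V4.D 1 1) ⟨6, 54, 5, 15, 2, 3, 1, 0, 3, 2⟩ :=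
  leaf_sound (S := T4.ds_pp) T4.ok_pp (w := 192) (c := ⟨⟨.negSucc 1957, .negSucc 4, .negSucc 53, .negSucc 78, .negSucc 430, .ofNat 481⟩, ⟨.negSucc 936, .ofNat 25, .negSucc 97, .negSucc 8, .negSucc 229, .ofNat 242⟩, ⟨.ofNat 1253, .ofNat 85, .ofNat 25, .negSucc 202, .ofNat 208, .negSucc 779⟩, ⟨.negSucc 3713, .ofNat 65, .negSucc 113, .negSucc 930, .negSucc 520, .ofNat 987⟩, ⟨.ofNat 1388, .negSucc 72, .ofNat 11, .ofNat 1553, .negSucc 267, .negSucc 472⟩, .ofNat 2458, .negSucc 4025, .ofNat 0, .negSucc 4025, .ofNat 7830, .ofNat 0, .ofNat 201, .ofNat 604, .negSucc 299, .ofNat 0, .ofNat 343, .negSucc 149, .ofNat 0, .ofNat 0, .ofNat 960, .ofNat 3018, .ofNat 0, .ofNat 0, .ofNat 1640150283048415875248947200, .ofNat 0, .ofNat 0, .ofNat 181160937954990317505933895166381260800, .ofNat 1693383086726857192872974745600, .ofNat 0, .ofNat 0, .ofNat 0, .ofNat 782820800815664031851977113600,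 .ofNat 0, .ofNat 0, .ofNat 181728700152167057249920387709612851200, .ofNat 0, .ofNat 0⟩)
    (by decide +kernel)
theorem L00680 : Good (Phi V4.P V4.D 1 1) ⟨6, 55, 4, 7, 1, 1, 1, 0, 3, 2⟩ :=
  out_sound (S := T4.ds_pp) T4.ok_pp (w := 72) (j := 3) (by decide +kernel)
theorem L00681 : Good (Phi V4.P V4.D 1 1) ⟨5, 26, 4, 7, 2, 2, 1, 0, 3, 3⟩ :=
  leaf_sound (S := T4.ds_pp) T4.ok_pp (w := 184) (c := ⟨⟨.negSucc 1253, .negSucc 34, .negSucc 1, .negSucc 284, .negSucc 345, .ofNat 211⟩, ⟨.negSucc 581, .negSucc 38, .negSucc 58, .negSucc 123, .negSucc 171, .ofNat 103⟩, ⟨.ofNat 511, .negSucc 41, .negSucc 9, .negSucc 66, .ofNat 330, .negSucc 347⟩, ⟨.negSucc 2102, .ofNat 83, .negSucc 33, .negSucc 728, .negSucc 536, .ofNat 384⟩, ⟨.ofNat 210, .negSucc 124, .ofNat 52, .ofNat 580, .negSucc 5, .negSucc 112⟩, .ofNat 1966, .negSucc 3221, .ofNat 0, .negSucc 3221, .ofNat 6598, .ofNat 0, .ofNat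 189, .ofNat 453, .negSucc 275, .ofNat 0, .ofNat 261, .negSucc 128, .ofNat 0, .ofNat 0, .ofNat 888, .ofNat 2163, .ofNat 79599130195627816584632979790233600, .ofNat 0, .ofNat 225925039860331585418035200, .ofNat 0, .ofNat 0, .ofNat 1188690309279487933197229903734374400, .ofNat 0, .ofNat 0, .ofNat 0, .ofNat 0, .ofNat 0, .ofNat 0, .ofNat 30182757267001021548365415076960665600, .ofNat 0, .ofNat 0, .ofNat 0⟩)
    (by decide +kernel)
theorem L00682 : Good (Phi V4.P V4.D 1 1) ⟨5, 27, 4, 7, 2, 2, 1, 0, 3, 3⟩ :=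
  leaf_sound (S := T4.ds_pp) T4.ok_pp (w := 184) (c := ⟨⟨.negSucc 1307, .negSucc 122, .ofNat 1, .negSucc 262, .negSucc 346, .ofNat 233⟩, ⟨.negSucc 620, .negSucc 74, .negSucc 60, .negSucc 124, .negSucc 182, .ofNat 119⟩, ⟨.ofNat 542, .ofNat 164, .ofNat 1, .negSucc 94, .ofNat 282, .negSucc 411⟩, ⟨.negSucc 2123, .negSucc 194, .ofNat 27, .negSucc 709, .negSucc 514, .ofNat 430⟩, ⟨.ofNat 219, .ofNat 137, .negSucc 56, .ofNat 588, .negSucc 35, .negSucc 138⟩, .ofNat 3273, .negSucc 5546, .ofNat 0, .negSucc 5546, .ofNat 10679, .ofNat 0, .ofNat 155, .ofNat 472, .negSucc 274, .ofNat 0, .ofNat 271, .negSucc 137, .ofNat 0, .ofNat 0, .ofNat 901, .ofNat 2444, .ofNat 68184466401613649064485949171302400, .ofNat 285626599893068930835126681600, .ofNat 935433119598690174920294400, .ofNat 0, .ofNat 3103375413520031216581993674099916800, .ofNat 1194224642792744924260407221157888000, .ofNat 2465385993577929319503416524800,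 .ofNat 0, .ofNat 3275001145433985699378775001451724800, .ofNat 5078170161551927822390841153945600, .ofNat 2441214256309994817975641702400, .ofNat 0, .ofNat 31044555446420272293079638365070950400, .ofNat 511709141936007947668498572902400, .ofNat 494539722946251731012419584000, .ofNat 0⟩)
    (by decide +kernel)
theorem L00683 : Good (Phi V4.P V4.D 1 1) ⟨4, 13, 4, 7, 2, 3, 1, 0, 3, 3⟩ :=
  leaf_sound (S := T4.ds_pp) T4.ok_pp (w := 176) (c := ⟨⟨.negSucc 1537, .negSucc 120, .ofNat 20, .ofNat 0, .negSucc 296, .ofNat 0⟩, ⟨.negSucc 712, .negSucc 36, .negSucc 80, .ofNat 0, .negSucc 155, .ofNat 0⟩, ⟨.ofNat 439, .ofNat 57, .ofNat 2, .ofNat 0, .ofNat 336, .ofNat 0⟩, ⟨.negSucc 2885, .negSucc 123, .ofNat 13, .ofNat 0, .negSucc 343, .ofNat 0⟩, ⟨.ofNat 921, .ofNat 117, .negSucc 9, .ofNat 0, .negSucc 226, .ofNat 0⟩, .ofNat 677, .negSucc 762, .ofNat 0, .negSucc 762, .ofNat 1746, .ofNat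 0, .ofNat 634, .ofNat 861, .negSucc 487, .ofNat 0, .ofNat 597, .negSucc 176, .ofNat 0, .ofNat 0, .ofNat 1941, .ofNat 31324, .ofNat 93458432654032801304267389403136000, .ofNat 0, .ofNat 0, .ofNat 0, .ofNat 0, .ofNat 20429921530486617768858952957899571200, .ofNat 2502876933893520725435744256000, .ofNat 0, .ofNat 0, .ofNat 11708064410503327473843393542907494400, .ofNat 0, .ofNat 0, .ofNat 0, .ofNat 25240501547054909259642439160404377600, .ofNat 986316790799567144350855987200, .ofNat 0⟩)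
    (by decide +kernel)
theorem L00684 : Good (Phi V4.P V4.D 1 1) ⟨3, 7, 2, 1, 0, 0, 1, 0, 1, 0⟩ :=
  out_sound (S := T4.ds_pp) T4.ok_pp (w := 48) (j := 3) (by decide +kernel)
theorem L00685 : Good (Phi V4.P V4.D 1 1) ⟨2, 2, 2, 1, 1, 0, 2, 2, 2, 0⟩ :=
  out_sound (S := T4.ds_pp) T4.ok_pp (w := 40) (j := 3) (by decide +kernel)
theorem L00686 : Good (Phi V4.P V4.D 1 1) ⟨4, 12, 3, 2, 1, 0, 2, 2, 2, 0⟩ :=
  leaf_sound (S := T4.ds_pp) T4.ok_pp (w := 160) (c := ⟨⟨.negSucc 813, .negSucc 261, .ofNat 67, .negSucc 490, .ofNat 42, .negSucc 174⟩, ⟨.negSucc 241, .negSucc 155, .negSucc 56, .negSucc 178, .ofNat 10, .negSucc 65⟩, ⟨.ofNat 774, .ofNat 236, .negSucc 30, .ofNat 278, .negSucc 302, .negSucc 95⟩, ⟨.negSucc 1414, .negSucc 288, .ofNat 113, .negSucc 848, .ofNat 106, .negSucc 286⟩, ⟨.negSucc 18, .ofNat 9, .negSucc 3, .ofNat 108, .negSucc 94, .negSucc 1⟩, .ofNat 530, .negSucc 516,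 .ofNat 0, .negSucc 516, .ofNat 1593, .ofNat 0, .ofNat 236, .ofNat 221, .negSucc 402, .ofNat 0, .ofNat 166, .negSucc 132, .ofNat 0, .ofNat 0, .ofNat 619, .ofNat 1515, .ofNat 0, .ofNat 0, .ofNat 0, .ofNat 0, .ofNat 0, .ofNat 0, .ofNat 0, .ofNat 0, .ofNat 0, .ofNat 0, .ofNat 0, .ofNat 0, .ofNat 0, .ofNat 0, .ofNat 0, .ofNat 0⟩)
    (by decide +kernel)
theorem L00687 : Good (Phi V4.P V4.D 1 1) ⟨4, 12, 3, 3, 1, 0, 2, 2, 2, 0⟩ :=
  leaf_sound (S := T4.ds_pp) T4.ok_pp (w := 160) (c := ⟨⟨.negSucc 719, .negSucc 388, .ofNat 191, .negSucc 406, .ofNat 83, .negSucc 139⟩, ⟨.negSucc 261, .negSucc 220, .negSucc 4, .negSucc 172, .ofNat 32, .negSucc 60⟩, ⟨.ofNat 1029, .negSucc 27, .ofNat 121, .ofNat 219, .negSucc 327, .negSucc 119⟩, ⟨.negSucc 1218, .negSucc 553, .ofNat 363, .negSucc 707, .ofNat 185, .negSucc 227⟩, ⟨.negSucc 137, .ofNat 143, .negSucc 111, .ofNat 129, .negSucc 119, .ofNat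 8⟩, .ofNat 1021, .negSucc 1511, .ofNat 0, .negSucc 1511, .ofNat 3627, .ofNat 0, .ofNat 173, .ofNat 280, .negSucc 413, .ofNat 0, .ofNat 166, .negSucc 172, .ofNat 0, .ofNat 0, .ofNat 635, .ofNat 1274, .ofNat 0, .ofNat 0, .ofNat 3245797072867399829913600, .ofNat 0, .ofNat 0, .ofNat 0, .ofNat 873225844917477123450470400, .ofNat 0, .ofNat 0, .ofNat 0, .ofNat 206500216380877618230067200, .ofNat 0, .ofNat 0, .ofNat 0, .ofNat 751907209597533667668787200, .ofNat 0⟩)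
    (by decide +kernel)
theorem L00688 : Good (Phi V4.P V4.D 1 1) ⟨4, 13, 3, 2, 1, 0, 2, 2, 2, 0⟩ :=
  leaf_sound (S := T4.ds_pp) T4.ok_pp (w := 160) (c := ⟨⟨.negSucc 830, .negSucc 750, .negSucc 180, .negSucc 488, .negSucc 16, .negSucc 124⟩, ⟨.negSucc 283, .negSucc 341, .negSucc 157, .negSucc 203, .negSucc 12, .negSucc 56⟩, ⟨.ofNat 759, .ofNat 473, .ofNat 216, .ofNat 305, .negSucc 290, .negSucc 142⟩, ⟨.negSucc 1277, .negSucc 1397, .negSucc 320, .negSucc 865, .ofNat 18, .negSucc 172⟩, ⟨.negSucc 144, .ofNat 711, .ofNat 110, .ofNat 200, .negSucc 101, .negSucc 59⟩, .ofNat 570, .negSucc 581, .ofNat 0, .negSucc 581, .ofNat 1549, .ofNat 0, .ofNat 226, .ofNat 246, .negSucc 422, .ofNat 0, .ofNat 184, .negSucc 159, .ofNat 0, .ofNat 0, .ofNat 638, .ofNat 1657, .ofNat 0, .ofNat 0, .ofNat 16466643664892745936076800, .ofNat 0, .ofNat 0, .ofNat 0, .ofNat 1811097542491799361159168000,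 .ofNat 0, .ofNat 0, .ofNat 0, .ofNat 1263721811375445544481587200, .ofNat 0, .ofNat 0, .ofNat 0, .ofNat 1256155467242465929671475200, .ofNat 0⟩)
    (by decide +kernel)
theorem L00689 : Good (Phi V4.P V4.D 1 1) ⟨5, 26, 3, 3, 1, 0, 2, 2, 3, 0⟩ :=
  leaf_sound (S := T4.ds_pp) T4.ok_pp (w := 168) (c := ⟨⟨.negSucc 1078, .negSucc 173, .ofNat 85, .negSucc 356, .ofNat 56, .negSucc 193⟩, ⟨.negSucc 459, .negSucc 109, .negSucc 53, .negSucc 161, .ofNat 21, .negSucc 92⟩, ⟨.ofNat 1036, .ofNat 60, .ofNat 38, .ofNat 234, .negSucc 414, .ofNat 8⟩, ⟨.negSucc 1723, .negSucc 263, .ofNat 200, .negSucc 671, .ofNat 177, .negSucc 291⟩, ⟨.negSucc 10, .ofNat 146, .negSucc 143, .ofNat 234, .negSucc 186, .negSucc 23⟩, .ofNat 637, .negSucc 700, .ofNat 0, .negSucc 700, .ofNat 1689, .ofNat 0, .ofNat 219, .ofNat 285, .negSucc 493, .ofNat 0, .ofNat 203, .negSucc 208, .ofNat 0, .ofNat 0, .ofNat 702, .ofNat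 2479, .ofNat 0, .ofNat 0, .ofNat 0, .ofNat 0, .ofNat 0, .ofNat 0, .ofNat 989588216737965797277696000, .ofNat 0, .ofNat 0, .ofNat 0, .ofNat 598359757212962371613491200, .ofNat 0, .ofNat 0, .ofNat 0, .ofNat 0, .ofNat 0⟩)
    (by decide +kernel)
theorem L00690 : Good (Phi V4.P V4.D 1 1) ⟨5, 26, 3, 3, 1, 0, 2, 2, 3, 1⟩ :=
  leaf_sound (S := T4.ds_pp) T4.ok_pp (w := 168) (c := ⟨⟨.negSucc 1116, .negSucc 44, .negSucc 123, .negSucc 543, .ofNat 47, .ofNat 27⟩, ⟨.negSucc 474, .negSucc 69, .negSucc 130, .negSucc 259, .ofNat 17, .ofNat 13⟩, ⟨.ofNat 950, .ofNat 42, .ofNat 99, .ofNat 189, .negSucc 253, .negSucc 109⟩, ⟨.negSucc 1776, .ofNat 56, .negSucc 239, .negSucc 914, .ofNat 106, .ofNat 44⟩, ⟨.negSucc 27, .negSucc 85, .ofNat 84, .ofNat 133, .negSucc 63, .negSucc 2⟩, .ofNat 642, .negSucc 707, .ofNat 0, .negSucc 707, .ofNat 1699, .ofNat 0, .ofNat 194, .ofNat 251, .negSucc 406, .ofNat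 0, .ofNat 180, .negSucc 175, .ofNat 0, .ofNat 0, .ofNat 617, .ofNat 2566, .ofNat 0, .ofNat 0, .ofNat 0, .ofNat 0, .ofNat 0, .ofNat 0, .ofNat 477885071391138798737817600, .ofNat 0, .ofNat 0, .ofNat 0, .ofNat 0, .ofNat 0, .ofNat 0, .ofNat 0, .ofNat 542955624694818547905331200, .ofNat 0⟩)
    (by decide +kernel)
theorem L00691 : Good (Phi V4.P V4.D 1 1) ⟨5, 27, 4, 6, 1, 0, 2, 2, 2, 0⟩ :=
  out_sound (S := T4.ds_pp) T4.ok_pp (w := 64) (j := 3) (by decide +kernel)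
theorem L00692 : Good (Phi V4.P V4.D 1 1) ⟨6, 54, 5, 14, 1, 0, 2, 2, 2, 0⟩ :=
  out_sound (S := T4.ds_pp) T4.ok_pp (w := 72) (j := 3) (by decide +kernel)
theorem L00693 : Good (Phi V4.P V4.D 1 1) ⟨6, 54, 5, 15, 1, 0, 2, 2, 2, 0⟩ :=
  leaf_sound (S := T4.ds_pp) T4.ok_pp (w := 176) (c := ⟨⟨.negSucc 1143, .ofNat 169, .negSucc 99, .negSucc 444, .ofNat 34, .negSucc 82⟩, ⟨.negSucc 574, .ofNat 68, .negSucc 75, .negSucc 227, .ofNat 16, .negSucc 44⟩, ⟨.ofNat 1201, .negSucc 154, .negSucc 9, .ofNat 171, .negSucc 276, .negSucc 202⟩, ⟨.negSucc 1750, .ofNat 459, .negSucc 169, .negSucc 810, .ofNat 104, .negSucc 96⟩, ⟨.negSucc 16, .negSucc 307, .ofNat 30, .ofNat 243, .negSucc 99, .negSucc 59⟩, .ofNat 2470, .negSucc 4047, .ofNat 0, .negSucc 4047, .ofNat 7870, .ofNat 0, .ofNat 108, .ofNat 310, .negSucc 404, .ofNat 0, .ofNat 181, .negSucc 207, .ofNat 0, .ofNat 0, .ofNat 622, .ofNat 1242,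 .ofNat 0, .ofNat 0, .ofNat 880268738762456441856000, .ofNat 0, .ofNat 0, .ofNat 0, .ofNat 380149205401790835720192000, .ofNat 0, .ofNat 0, .ofNat 0, .ofNat 50252471589345890697216000, .ofNat 0, .ofNat 0, .ofNat 0, .ofNat 0, .ofNat 0⟩)
    (by decide +kernel)
theorem L00694 : Good (Phi V4.P V4.D 1 1) ⟨6, 55, 4, 7, 1, 0, 2, 2, 2, 0⟩ :=
  out_sound (S := T4.ds_pp) T4.ok_pp (w := 72) (j := 3) (by decide +kernel)
theorem L00695 : Good (Phi V4.P V4.D 1 1) ⟨3, 7, 2, 1, 1, 0, 2, 2, 2, 0⟩ :=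
  out_sound (S := T4.ds_pp) T4.ok_pp (w := 48) (j := 3) (by decide +kernel)
theorem L00696 : Good (Phi V4.P V4.D 1 1) ⟨2, 2, 2, 1, 1, 0, 2, 2, 2, 1⟩ :=
  out_sound (S := T4.ds_pp) T4.ok_pp (w := 40) (j := 3) (by decide +kernel)
theorem L00697 : Good (Phi V4.P V4.D 1 1) ⟨4, 12, 3, 2, 1, 0, 2, 2, 2, 1⟩ :=
  leaf_sound (S := T4.ds_pp) T4.ok_pp (w := 160) (c := ⟨⟨.negSucc 856, .negSucc 200, .ofNat 8, .negSucc 632, .ofNat 10, .ofNat 195⟩, ⟨.negSucc 263, .negSucc 122, .negSucc 77, .negSucc 233, .ofNat 3, .ofNat 69⟩, ⟨.ofNat 586, .ofNat 200, .negSucc 46, .ofNat 198, .negSucc 55, .negSucc 228⟩, ⟨.negSucc 1462, .negSucc 196, .ofNat 5, .negSucc 1071, .ofNat 22, .ofNat 325⟩, ⟨.negSucc 57, .negSucc 24, .ofNat 47, .ofNat 75, .negSucc 15, .negSucc 4⟩, .ofNat 524, .negSucc 504, .ofNat 0, .negSucc 504, .ofNat 1571, .ofNat 0, .ofNat 369, .ofNat 332, .negSucc 509, .ofNat 0, .ofNat 258,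 .negSucc 169, .ofNat 0, .ofNat 0, .ofNat 938, .ofNat 2795, .ofNat 0, .ofNat 0, .ofNat 0, .ofNat 0, .ofNat 0, .ofNat 0, .ofNat 0, .ofNat 0, .ofNat 0, .ofNat 0, .ofNat 0, .ofNat 0, .ofNat 0, .ofNat 0, .ofNat 0, .ofNat 0⟩)
    (by decide +kernel)
theorem L00698 : Good (Phi V4.P V4.D 1 1) ⟨4, 12, 3, 3, 1, 0, 2, 2, 2, 1⟩ :=
  leaf_sound (S := T4.ds_pp) T4.ok_pp (w := 168) (c := ⟨⟨.negSucc 650, .negSucc 345, .negSucc 183, .negSucc 683, .negSucc 76, .ofNat 230⟩, ⟨.negSucc 233, .negSucc 201, .negSucc 159, .negSucc 293, .negSucc 32, .ofNat 99⟩, ⟨.ofNat 504, .ofNat 201, .ofNat 194, .ofNat 207, .ofNat 15, .negSucc 246⟩, ⟨.negSucc 1056, .negSucc 506, .negSucc 314, .negSucc 1146, .negSucc 133, .ofNat 386⟩, ⟨.negSucc 259, .ofNat 200, .ofNat 60, .ofNat 119, .ofNat 23, .negSucc 41⟩, .ofNat 1753, .negSucc 3083, .ofNat 0, .negSucc 3083, .ofNat 7083, .ofNat 0, .ofNat 240, .ofNat 450, .negSucc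 509, .ofNat 0, .ofNat 252, .negSucc 218, .ofNat 0, .ofNat 0, .ofNat 946, .ofNat 3676, .ofNat 0, .ofNat 0, .ofNat 3481765713290847751372800, .ofNat 0, .ofNat 0, .ofNat 0, .ofNat 0, .ofNat 0, .ofNat 0, .ofNat 0, .ofNat 844240762695946386957926400, .ofNat 0, .ofNat 0, .ofNat 0, .ofNat 1367870685111612756040089600, .ofNat 0⟩)
    (by decide +kernel)
theorem L00699 : Good (Phi V4.P V4.D 1 1) ⟨4, 13, 2, 1, 2, 0, 2, 2, 3, 2⟩ :=
  leaf_sound (S := T4.ds_pp) T4.ok_pp (w := 176) (c := ⟨⟨.negSucc 1075, .negSucc 145, .negSucc 63, .negSucc 234, .ofNat 61, .ofNat 112⟩, ⟨.negSucc 398, .negSucc 137, .negSucc 167, .negSucc 113, .ofNat 30, .ofNat 55⟩, ⟨.ofNat 780, .ofNat 146, .ofNat 71, .ofNat 53, .negSucc 162, .negSucc 128⟩, ⟨.negSucc 1715, .negSucc 86, .negSucc 101, .negSucc 339, .ofNat 101, .ofNat 176⟩, ⟨.negSucc 26, .negSucc 25, .ofNat 36, .negSucc 58, .negSucc 11, .negSucc 4⟩, .ofNat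 639, .negSucc 700, .ofNat 0, .negSucc 700, .ofNat 1679, .ofNat 0, .ofNat 168, .ofNat 210, .negSucc 321, .ofNat 0, .ofNat 154, .negSucc 141, .ofNat 0, .ofNat 0, .ofNat 534, .ofNat 2916, .ofNat 0, .ofNat 0, .ofNat 0, .ofNat 0, .ofNat 0, .ofNat 0, .ofNat 863375476157238624184487116800, .ofNat 0, .ofNat 0, .ofNat 0, .ofNat 954349947484539651924531609600, .ofNat 0, .ofNat 0, .ofNat 0, .ofNat 485519963636370416862442291200, .ofNat 0⟩)
    (by decide +kernel)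
theorem L00700 : Good (Phi V4.P V4.D 1 1) ⟨4, 13, 2, 1, 2, 1, 2, 2, 3, 2⟩ :=
  leaf_sound (S := T4.ds_pp) T4.ok_pp (w := 176) (c := ⟨⟨.negSucc 1131, .negSucc 177, .negSucc 53, .negSucc 470, .negSucc 189, .ofNat 42⟩, ⟨.negSucc 364, .negSucc 134, .negSucc 247, .negSucc 222, .negSucc 91, .ofNat 19⟩, ⟨.ofNat 703, .ofNat 136, .ofNat 10, .ofNat 162, .ofNat 107, .negSucc 79⟩, ⟨.negSucc 1774, .negSucc 145, .negSucc 67, .negSucc 833, .negSucc 299, .ofNat 64⟩, ⟨.negSucc 117, .ofNat 34, .ofNat 18, .ofNat 202, .ofNat 8, .ofNat 4⟩, .ofNat 644, .negSucc 711, .ofNat 0, .negSucc 711, .ofNat 1701, .ofNat 0, .ofNat 174, .ofNat 230, .negSucc 314, .ofNat 0, .ofNat 163, .negSucc 134, .ofNat 0, .ofNat 0, .ofNat 521, .ofNat 2007, .ofNat 0, .ofNat 0, .ofNat 5207127607562656531297075200, .ofNat 0, .ofNat 0, .ofNat 0, .ofNat 744097230166047349612216320000, .ofNat 0, .ofNat 0, .ofNat 0, .ofNat 878304204743834744305326489600,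 .ofNat 0, .ofNat 0, .ofNat 0, .ofNat 527411072370791591488939622400, .ofNat 0⟩)
    (by decide +kernel)
theorem L00701 : Good (Phi V4.P V4.D 1 1) ⟨4, 13, 2, 1, 2, 0, 2, 2, 3, 3⟩ :=
  leaf_sound (S := T4.ds_pp) T4.ok_pp (w := 176) (c := ⟨⟨.negSucc 1000, .negSucc 229, .ofNat 61, .negSucc 246, .negSucc 7, .ofNat 105⟩, ⟨.negSucc 367, .negSucc 167, .negSucc 102, .negSucc 120, .negSucc 3, .ofNat 51⟩, ⟨.ofNat 682, .ofNat 215, .negSucc 65, .ofNat 35, .negSucc 17, .negSucc 104⟩, ⟨.negSucc 1612, .negSucc 268, .ofNat 137, .negSucc 354, .negSucc 12, .ofNat 165⟩, ⟨.ofNat 2, .ofNat 47, .negSucc 42, .negSucc 63, .ofNat 3, .negSucc 0⟩, .ofNat 645, .negSucc 712, .ofNat 0, .negSucc 712, .ofNat 1698, .ofNat 0, .ofNat 293, .ofNat 372, .negSucc 510, .ofNat 0, .ofNat 273, .negSucc 226, .ofNat 0, .ofNat 0, .ofNat 929, .ofNat 5302, .ofNat 0, .ofNat 0, .ofNat 0, .ofNat 0, .ofNat 0, .ofNat 0, .ofNat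 3386208835309211083986488524800, .ofNat 0, .ofNat 0, .ofNat 0, .ofNat 3592236582246756812516543692800, .ofNat 0, .ofNat 0, .ofNat 0, .ofNat 0, .ofNat 0⟩)
    (by decide +kernel)
theorem L00702 : Good (Phi V4.P V4.D 1 1) ⟨4, 13, 2, 1, 2, 1, 2, 2, 3, 3⟩ :=
  leaf_sound (S := T4.ds_pp) T4.ok_pp (w := 176) (c := ⟨⟨.negSucc 1051, .negSucc 45, .negSucc 147, .negSucc 423, .negSucc 222, .ofNat 135⟩, ⟨.negSucc 354, .negSucc 94, .negSucc 250, .negSucc 195, .negSucc 104, .ofNat 63⟩, ⟨.ofNat 573, .ofNat 42, .ofNat 73, .ofNat 96, .ofNat 201, .negSucc 142⟩, ⟨.negSucc 1616, .ofNat 116, .negSucc 270, .negSucc 760, .negSucc 369, .ofNat 212⟩, ⟨.negSucc 170, .negSucc 93, .ofNat 121, .ofNat 201, .ofNat 44, .negSucc 2⟩, .ofNat 638, .negSucc 701, .ofNat 0, .negSucc 701, .ofNat 1689, .ofNat 0, .ofNat 311, .ofNat 401, .negSucc 494, .ofNat 0, .ofNat 287, .negSucc 210, .ofNat 0, .ofNat 0, .ofNat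 916, .ofNat 4200, .ofNat 0, .ofNat 0, .ofNat 11349704471091700242264883200, .ofNat 0, .ofNat 0, .ofNat 22371011199640291505870384765337600, .ofNat 2147343179350268043686471270400, .ofNat 0, .ofNat 0, .ofNat 0, .ofNat 3004923666732242731220651212800, .ofNat 0, .ofNat 0, .ofNat 26820321040715225611066351917465600, .ofNat 896865122187327836187839692800, .ofNat 0⟩)
    (by decide +kernel)
theorem L00703 : Good (Phi V4.P V4.D 1 1) ⟨3, 7, 2, 1, 1, 0, 2, 2, 2, 1⟩ :=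
  out_sound (S := T4.ds_pp) T4.ok_pp (w := 48) (j := 3) (by decide +kernel)
theorem L00704 : Good (Phi V4.P V4.D 1 1) ⟨2, 2, 2, 1, 1, 0, 2, 3, 1, 0⟩ :=
  out_sound (S := T4.ds_pp) T4.ok_pp (w := 40) (j := 3) (by decide +kernel)
theorem L00705 : Good (Phi V4.P V4.D 1 1) ⟨4, 12, 2, 1, 1, 0, 3, 6, 3, 0⟩ :=
  leaf_sound (S := T4.ds_pp) T4.ok_pp (w := 168) (c := ⟨⟨.negSucc 749, .negSucc 141, .negSucc 151, .negSucc 443, .ofNat 62, .negSucc 151⟩, ⟨.negSucc 221, .negSucc 125, .negSucc 180, .negSucc 166, .ofNat 20, .negSucc 55⟩, ⟨.ofNat 322, .ofNat 145, .ofNat 96, .ofNat 351, .negSucc 213, .ofNat 112⟩, ⟨.negSucc 1276, .negSucc 92, .negSucc 242, .negSucc 713, .ofNat 115, .negSucc 272⟩, ⟨.negSucc 98, .negSucc 4, .ofNat 28, .negSucc 55, .negSucc 32, .ofNat 62⟩, .ofNat 529, .negSucc 518, .ofNat 0, .negSucc 518, .ofNat 1616, .ofNat 0, .ofNat 272, .ofNat 253, .negSucc 584, .ofNat 0,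 .ofNat 190, .negSucc 195, .ofNat 0, .ofNat 0, .ofNat 780, .ofNat 1012, .ofNat 0, .ofNat 0, .ofNat 0, .ofNat 0, .ofNat 0, .ofNat 0, .ofNat 0, .ofNat 0, .ofNat 0, .ofNat 0, .ofNat 5526099198959282512566681600, .ofNat 0, .ofNat 0, .ofNat 0, .ofNat 0, .ofNat 0⟩)
    (by decide +kernel)
theorem L00706 : Good (Phi V4.P V4.D 1 1) ⟨4, 13, 2, 1, 1, 0, 3, 6, 3, 0⟩ :=
  leaf_sound (S := T4.ds_pp) T4.ok_pp (w := 168) (c := ⟨⟨.negSucc 1118, .negSucc 515, .ofNat 302, .negSucc 416, .ofNat 79, .negSucc 211⟩, ⟨.negSucc 403, .negSucc 315, .negSucc 16, .negSucc 197, .ofNat 36, .negSucc 98⟩, ⟨.ofNat 704, .ofNat 429, .negSucc 265, .ofNat 219, .negSucc 211, .ofNat 148⟩, ⟨.negSucc 1792, .negSucc 722, .ofNat 558, .negSucc 655, .ofNat 147, .negSucc 355⟩, ⟨.negSucc 30, .ofNat 120, .negSucc 125, .ofNat 5, .negSucc 47, .ofNat 50⟩, .ofNat 638, .negSucc 701, .ofNat 0, .negSucc 701, .ofNat 1688, .ofNat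 0, .ofNat 233, .ofNat 303, .negSucc 642, .ofNat 0, .ofNat 216, .negSucc 278, .ofNat 0, .ofNat 0, .ofNat 817, .ofNat 882, .ofNat 0, .ofNat 0, .ofNat 0, .ofNat 0, .ofNat 0, .ofNat 0, .ofNat 12859211537468660486504448000, .ofNat 0, .ofNat 0, .ofNat 0, .ofNat 12618977027883990863000371200, .ofNat 0, .ofNat 0, .ofNat 0, .ofNat 0, .ofNat 0⟩)
    (by decide +kernel)
theorem L00707 : Good (Phi V4.P V4.D 1 1) ⟨4, 12, 2, 1, 1, 0, 3, 6, 3, 1⟩ :=
  leaf_sound (S := T4.ds_pp) T4.ok_pp (w := 168) (c := ⟨⟨.negSucc 682, .negSucc 280, .ofNat 46, .negSucc 865, .ofNat 41, .negSucc 10⟩, ⟨.negSucc 191, .negSucc 168, .negSucc 152, .negSucc 329, .ofNat 18, .negSucc 0⟩, ⟨.ofNat 283, .ofNat 258, .negSucc 85, .ofNat 544, .negSucc 108, .ofNat 27⟩, ⟨.negSucc 1176, .negSucc 320, .ofNat 90, .negSucc 1435, .ofNat 64, .negSucc 24⟩, ⟨.negSucc 86, .ofNat 13, .ofNat 8, .ofNat 40, .ofNat 9, .ofNat 15⟩, .ofNat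 530, .negSucc 516, .ofNat 0, .negSucc 516, .ofNat 1583, .ofNat 0, .ofNat 240, .ofNat 225, .negSucc 499, .ofNat 0, .ofNat 170, .negSucc 171, .ofNat 0, .ofNat 0, .ofNat 675, .ofNat 1003, .ofNat 0, .ofNat 0, .ofNat 0, .ofNat 0, .ofNat 0, .ofNat 0, .ofNat 0, .ofNat 0, .ofNat 0, .ofNat 0, .ofNat 4156126575560987440368844800, .ofNat 0, .ofNat 0, .ofNat 0, .ofNat 0, .ofNat 0⟩)
    (by decide +kernel)
theorem L00708 : Good (Phi V4.P V4.D 1 1) ⟨4, 13, 2, 1, 1, 0, 3, 6, 3, 1⟩ :=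
  leaf_sound (S := T4.ds_pp) T4.ok_pp (w := 168) (c := ⟨⟨.negSucc 767, .negSucc 397, .ofNat 7, .negSucc 971, .negSucc 73, .negSucc 105⟩, ⟨.negSucc 188, .negSucc 237, .negSucc 221, .negSucc 463, .negSucc 36, .negSucc 53⟩, ⟨.ofNat 414, .ofNat 336, .negSucc 10, .ofNat 540, .negSucc 6, .ofNat 93⟩, ⟨.negSucc 1232, .negSucc 537, .ofNat 94, .negSucc 1586, .negSucc 110, .negSucc 174⟩, ⟨.negSucc 72, .ofNat 132, .negSucc 101, .ofNat 136, .negSucc 8, .ofNat 24⟩, .ofNat 637, .negSucc 698, .ofNat 0, .negSucc 698, .ofNat 1687, .ofNat 0, .ofNat 207, .ofNat 267, .negSucc 551, .ofNat 0, .ofNat 191, .negSucc 240, .ofNat 0, .ofNat 0, .ofNat 711, .ofNat 861, .ofNat 0, .ofNat 0, .ofNat 124053857425066284004147200, .ofNat 0, .ofNat 0, .ofNat 0, .ofNat 12143828479802274535912243200, .ofNat 0, .ofNat 0, .ofNat 0, .ofNat 13814599086018792056999116800, .ofNat 0, .ofNat 0, .ofNat 0, .ofNat 11468880185625664635587788800,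 .ofNat 0⟩)
    (by decide +kernel)
theorem L00709 : Good (Phi V4.P V4.D 1 1) ⟨4, 12, 2, 1, 1, 0, 3, 6, 2, 1⟩ :=
  leaf_sound (S := T4.ds_pp) T4.ok_pp (w := 160) (c := ⟨⟨.negSucc 594, .negSucc 266, .ofNat 55, .negSucc 1046, .ofNat 35, .ofNat 49⟩, ⟨.negSucc 173, .negSucc 154, .negSucc 111, .negSucc 381, .ofNat 10, .ofNat 23⟩, ⟨.ofNat 206, .ofNat 255, .negSucc 68, .ofNat 658, .negSucc 38, .ofNat 5⟩, ⟨.negSucc 1019, .negSucc 308, .ofNat 88, .negSucc 1754, .ofNat 65, .ofNat 61⟩, ⟨.negSucc 78, .negSucc 5, .ofNat 8, .ofNat 66, .negSucc 10, .ofNat 48⟩, .ofNat 324, .negSucc 167, .ofNat 0, .negSucc 167, .ofNat 679, .ofNat 0, .ofNat 245, .ofNat 134, .negSucc 461, .ofNat 0, .ofNat 170, .negSucc 131, .ofNat 0, .ofNat 0, .ofNat 608, .ofNat 748, .ofNat 0, .ofNat 175311935995833032000510361600, .ofNat 157156205269046493542400, .ofNat 0, .ofNat 0, .ofNat 25727460232693027780491529420800,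 .ofNat 0, .ofNat 0, .ofNat 0, .ofNat 0, .ofNat 0, .ofNat 0, .ofNat 0, .ofNat 0, .ofNat 0, .ofNat 0⟩)
    (by decide +kernel)
theorem L00710 : Good (Phi V4.P V4.D 1 1) ⟨4, 13, 2, 1, 2, 0, 3, 6, 2, 1⟩ :=
  leaf_sound (S := T4.ds_pp) T4.ok_pp (w := 168) (c := ⟨⟨.negSucc 885, .negSucc 339, .ofNat 39, .negSucc 547, .ofNat 34, .ofNat 151⟩, ⟨.negSucc 299, .negSucc 203, .negSucc 135, .negSucc 265, .ofNat 14, .ofNat 75⟩, ⟨.ofNat 458, .ofNat 323, .negSucc 24, .ofNat 373, .negSucc 50, .negSucc 79⟩, ⟨.negSucc 1436, .negSucc 439, .ofNat 115, .negSucc 828, .ofNat 52, .ofNat 225⟩, ⟨.negSucc 5, .ofNat 21, .negSucc 35, .negSucc 57, .ofNat 8, .ofNat 18⟩, .ofNat 645, .negSucc 712, .ofNat 0, .negSucc 712, .ofNat 1699, .ofNat 0, .ofNat 165, .ofNat 209, .negSucc 417, .ofNat 0, .ofNat 153, .negSucc 187, .ofNat 0, .ofNat 0, .ofNat 579, .ofNat 1085, .ofNat 0, .ofNat 0, .ofNat 0, .ofNat 0, .ofNat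 0, .ofNat 0, .ofNat 447528394459483086955688755200, .ofNat 0, .ofNat 0, .ofNat 0, .ofNat 0, .ofNat 0, .ofNat 0, .ofNat 0, .ofNat 0, .ofNat 0⟩)
    (by decide +kernel)
theorem L00711 : Good (Phi V4.P V4.D 1 1) ⟨4, 13, 3, 2, 2, 1, 3, 6, 2, 1⟩ :=
  leaf_sound (S := T4.ds_pp) T4.ok_pp (w := 176) (c := ⟨⟨.negSucc 1273, .negSucc 304, .ofNat 54, .negSucc 681, .negSucc 241, .ofNat 32⟩, ⟨.negSucc 455, .negSucc 185, .negSucc 81, .negSucc 285, .negSucc 104, .ofNat 16⟩, ⟨.ofNat 764, .ofNat 271, .negSucc 102, .ofNat 353, .ofNat 213, .ofNat 7⟩, ⟨.negSucc 1999, .negSucc 419, .ofNat 101, .negSucc 1180, .negSucc 389, .ofNat 35⟩, ⟨.negSucc 116, .ofNat 147, .ofNat 9, .ofNat 217, .ofNat 9, .ofNat 36⟩, .ofNat 1380, .negSucc 2236, .ofNat 0, .negSucc 2236, .ofNat 5142, .ofNat 0, .ofNat 149, .ofNat 245, .negSucc 366, .ofNat 0, .ofNat 146, .negSucc 157, .ofNat 0, .ofNat 0, .ofNat 532, .ofNat 1090,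 .ofNat 0, .ofNat 336233195846796567103466058547200, .ofNat 5767068926116363230196531200, .ofNat 0, .ofNat 0, .ofNat 3465781665061788462498740541849600, .ofNat 15769638010191734588346413875200, .ofNat 0, .ofNat 0, .ofNat 0, .ofNat 9304458084933374291419437465600, .ofNat 0, .ofNat 0, .ofNat 29221058727636380433222710014771200, .ofNat 3329311831874852541762738585600, .ofNat 0⟩)
    (by decide +kernel)
theorem L00712 : Good (Phi V4.P V4.D 1 1) ⟨4, 13, 3, 3, 2, 1, 4, 12, 2, 1⟩ :=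
  leaf_sound (S := T4.ds_pp) T4.ok_pp (w := 176) (c := ⟨⟨.negSucc 1242, .negSucc 444, .ofNat 84, .negSucc 634, .negSucc 112, .ofNat 38⟩, ⟨.negSucc 525, .negSucc 260, .negSucc 82, .negSucc 299, .negSucc 51, .ofNat 19⟩, ⟨.ofNat 696, .ofNat 311, .negSucc 59, .ofNat 295, .ofNat 103, .negSucc 13⟩, ⟨.negSucc 1937, .negSucc 562, .ofNat 146, .negSucc 1101, .negSucc 179, .ofNat 39⟩, ⟨.negSucc 117, .ofNat 56, .negSucc 2, .ofNat 224, .ofNat 4, .ofNat 45⟩, .ofNat 345, .negSucc 220, .ofNat 0, .negSucc 220, .ofNat 677, .ofNat 0, .ofNat 240, .ofNat 185, .negSucc 466, .ofNat 0, .ofNat 190, .negSucc 168, .ofNat 0, .ofNat 0, .ofNat 603, .ofNat 2114, .ofNat 0, .ofNat 1496483338210284585844892447539200, .ofNat 70510750769793685703255654400, .ofNat 0, .ofNat 0, .ofNat 0, .ofNat 0, .ofNat 0, .ofNat 0, .ofNat 0, .ofNat 0, .ofNat 0, .ofNat 0, .ofNat 0, .ofNat 3374699068521294520694656204800,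 .ofNat 0⟩)
    (by decide +kernel)
theorem L00713 : Good (Phi V4.P V4.D 1 1) ⟨5, 26, 3, 3, 2, 1, 4, 13, 2, 1⟩ :=
  leaf_sound (S := T4.ds_pp) T4.ok_pp (w := 184) (c := ⟨⟨.negSucc 1197, .negSucc 283, .ofNat 76, .negSucc 824, .negSucc 163, .negSucc 83⟩, ⟨.negSucc 505, .negSucc 165, .negSucc 81, .negSucc 385, .negSucc 80, .negSucc 35⟩, ⟨.ofNat 631, .ofNat 244, .negSucc 82, .ofNat 462, .ofNat 145, .ofNat 149⟩, ⟨.negSucc 1873, .negSucc 376, .ofNat 141, .negSucc 1393, .negSucc 258, .negSucc 155⟩, ⟨.negSucc 105, .ofNat 39, .negSucc 24, .ofNat 212, .ofNat 8, .ofNat 48⟩, .ofNat 628, .negSucc 684, .ofNat 0, .negSucc 684, .ofNat 1669, .ofNat 0, .ofNat 367, .ofNat 470, .negSucc 930, .ofNat 0, .ofNat 335, .negSucc 407, .ofNat 0, .ofNat 0, .ofNat 1205, .ofNat 3962, .ofNat 0, .ofNat 75439980060615467574673428342374400, .ofNat 0, .ofNat 0, .ofNat 0, .ofNat 0, .ofNat 0, .ofNat 0, .ofNat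 0, .ofNat 4849131659636128178155288117483929600, .ofNat 0, .ofNat 0, .ofNat 0, .ofNat 0, .ofNat 0, .ofNat 0⟩)
    (by decide +kernel)
theorem L00714 : Good (Phi V4.P V4.D 1 1) ⟨5, 27, 4, 6, 2, 1, 4, 13, 2, 1⟩ :=
  out_sound (S := T4.ds_pp) T4.ok_pp (w := 64) (j := 3) (by decide +kernel)
theorem L00715 : Good (Phi V4.P V4.D 1 1) ⟨5, 27, 4, 7, 2, 1, 4, 13, 2, 1⟩ :=
  leaf_sound (S := T4.ds_pp) T4.ok_pp (w := 184) (c := ⟨⟨.negSucc 1367, .negSucc 238, .negSucc 38, .negSucc 796, .negSucc 201, .negSucc 62⟩, ⟨.negSucc 660, .negSucc 160, .negSucc 77, .negSucc 411, .negSucc 105, .negSucc 30⟩, ⟨.ofNat 816, .ofNat 263, .negSucc 24, .ofNat 423, .ofNat 190, .ofNat 127⟩, ⟨.negSucc 2040, .negSucc 255, .negSucc 86, .negSucc 1329, .negSucc 307, .negSucc 115⟩, ⟨.negSucc 137, .negSucc 66, .ofNat 67, .ofNat 201, .negSucc 4, .ofNat 38⟩, .ofNat 705, .negSucc 803, .ofNat 0, .negSucc 803, .ofNat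 1779, .ofNat 0, .ofNat 165, .ofNat 247, .negSucc 475, .ofNat 0, .ofNat 173, .negSucc 228, .ofNat 0, .ofNat 0, .ofNat 610, .ofNat 1855, .ofNat 0, .ofNat 230117865887506218604346263103078400, .ofNat 25833040458455319868499558400, .ofNat 0, .ofNat 0, .ofNat 5018657510062496305641606269947084800, .ofNat 11762796201624100601501161881600, .ofNat 0, .ofNat 0, .ofNat 6914206860906686120988099644856729600, .ofNat 8823214100509532012671716556800, .ofNat 0, .ofNat 0, .ofNat 4049205687695900369443552985559859200, .ofNat 0, .ofNat 0⟩)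
    (by decide +kernel)
theorem L00716 : Good (Phi V4.P V4.D 1 1) ⟨3, 7, 2, 1, 1, 0, 3, 6, 1, 0⟩ :=
  out_sound (S := T4.ds_pp) T4.ok_pp (w := 48) (j := 3) (by decide +kernel)
theorem L00717 : Good (Phi V4.P V4.D 1 1) ⟨4, 12, 3, 2, 1, 0, 3, 7, 3, 0⟩ :=
  leaf_sound (S := T4.ds_pp) T4.ok_pp (w := 168) (c := ⟨⟨.negSucc 530, .negSucc 487, .ofNat 101, .negSucc 632, .ofNat 261, .negSucc 68⟩, ⟨.negSucc 154, .negSucc 229, .negSucc 28, .negSucc 241, .ofNat 99, .negSucc 21⟩, ⟨.negSucc 43, .ofNat 403, .negSucc 88, .ofNat 499, .negSucc 360, .ofNat 137⟩, ⟨.negSucc 882, .negSucc 720, .ofNat 187, .negSucc 1006, .ofNat 415, .negSucc 129⟩, ⟨.negSucc 164, .ofNat 108, .negSucc 34, .negSucc 96, .ofNat 49, .ofNat 47⟩, .ofNat 524, .negSucc 505, .ofNat 0, .negSucc 505, .ofNat 1592, .ofNat 0, .ofNat 291, .ofNat 267, .negSucc 817, .ofNat 0, .ofNat 202, .negSucc 277, .ofNat 0, .ofNat 0, .ofNat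 956, .ofNat 440, .ofNat 0, .ofNat 0, .ofNat 0, .ofNat 0, .ofNat 0, .ofNat 0, .ofNat 0, .ofNat 0, .ofNat 0, .ofNat 0, .ofNat 0, .ofNat 0, .ofNat 0, .ofNat 2042331958965374454138049187020800, .ofNat 0, .ofNat 0⟩)
    (by decide +kernel)
theorem L00718 : Good (Phi V4.P V4.D 1 1) ⟨5, 24, 3, 2, 1, 0, 3, 7, 3, 1⟩ :=
  leaf_sound (S := T4.ds_pp) T4.ok_pp (w := 176) (c := ⟨⟨.negSucc 339, .negSucc 148, .negSucc 221, .negSucc 1296, .ofNat 214, .negSucc 55⟩, ⟨.negSucc 96, .negSucc 74, .negSucc 133, .negSucc 443, .ofNat 73, .negSucc 22⟩, ⟨.negSucc 130, .ofNat 122, .ofNat 173, .ofNat 989, .negSucc 259, .ofNat 108⟩, ⟨.negSucc 571, .negSucc 198, .negSucc 379, .negSucc 2185, .ofNat 346, .negSucc 98⟩, ⟨.negSucc 105, .ofNat 14, .ofNat 35, .ofNat 25, .ofNat 39, .ofNat 28⟩, .ofNat 753, .negSucc 1053, .ofNat 0, .negSucc 1053, .ofNat 3229, .ofNat 0, .ofNat 220, .ofNat 252, .negSucc 619, .ofNat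 0, .ofNat 150, .negSucc 208, .ofNat 0, .ofNat 0, .ofNat 763, .ofNat 655, .ofNat 0, .ofNat 0, .ofNat 0, .ofNat 0, .ofNat 0, .ofNat 0, .ofNat 0, .ofNat 0, .ofNat 0, .ofNat 24919965262640548957572493737984000, .ofNat 5514527867301423638957260800, .ofNat 0, .ofNat 0, .ofNat 13302043935218129057888177278156800, .ofNat 2332311675307605878007398400, .ofNat 0⟩)
    (by decide +kernel)
theorem L00719 : Good (Phi V4.P V4.D 1 1) ⟨5, 25, 3, 2, 1, 0, 3, 7, 3, 1⟩ :=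
  leaf_sound (S := T4.ds_pp) T4.ok_pp (w := 176) (c := ⟨⟨.negSucc 388, .negSucc 223, .negSucc 2, .negSucc 1532, .ofNat 275, .negSucc 146⟩, ⟨.negSucc 101, .negSucc 128, .negSucc 60, .negSucc 614, .ofNat 109, .negSucc 57⟩, ⟨.negSucc 53, .ofNat 201, .negSucc 21, .ofNat 1136, .negSucc 306, .ofNat 181⟩, ⟨.negSucc 616, .negSucc 291, .negSucc 14, .negSucc 2509, .ofNat 445, .negSucc 261⟩, ⟨.negSucc 130, .ofNat 7, .ofNat 23, .ofNat 58, .ofNat 11, .ofNat 55⟩, .ofNat 540, .negSucc 532, .ofNat 0, .negSucc 532, .ofNat 1562, .ofNat 0, .ofNat 245, .ofNat 238, .negSucc 723, .ofNat 0, .ofNat 181, .negSucc 266, .ofNat 0, .ofNat 0, .ofNat 845, .ofNat 486, .ofNat 0, .ofNat 0, .ofNat 0, .ofNat 0, .ofNat 0, .ofNat 0, .ofNat 0, .ofNat 0, .ofNat 0, .ofNat 0, .ofNat 0, .ofNat 0, .ofNat 0, .ofNat 35362936526029894167612463094169600, .ofNat 0, .ofNat 0⟩)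
    (by decide +kernel)
theorem L00720 : Good (Phi V4.P V4.D 1 1) ⟨4, 12, 3, 2, 2, 0, 3, 7, 3, 2⟩ :=
  leaf_sound (S := T4.ds_pp) T4.ok_pp (w := 176) (c := ⟨⟨.negSucc 370, .negSucc 187, .negSucc 124, .negSucc 766, .ofNat 222, .negSucc 16⟩, ⟨.negSucc 92, .negSucc 115, .negSucc 94, .negSucc 286, .ofNat 81, .negSucc 12⟩, ⟨.negSucc 84, .ofNat 176, .ofNat 127, .ofNat 642, .negSucc 229, .ofNat 73⟩, ⟨.negSucc 661, .negSucc 203, .negSucc 208, .negSucc 1241, .ofNat 359, .negSucc 23⟩, ⟨.negSucc 25, .negSucc 2, .ofNat 0, .negSucc 61, .ofNat 24, .ofNat 10⟩, .ofNat 796, .negSucc 1099, .ofNat 0, .negSucc 1099, .ofNat 3071, .ofNat 0, .ofNat 183, .ofNat 220, .negSucc 547, .ofNat 0, .ofNat 138, .negSucc 202, .ofNat 0, .ofNat 0, .ofNat 687, .ofNat 322, .ofNat 0, .ofNat 0, .ofNat 0, .ofNat 0, .ofNat 0, .ofNat 0, .ofNat 0, .ofNat 0, .ofNat 0, .ofNat 0, .ofNat 0, .ofNat 0, .ofNat 0, .ofNat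 0, .ofNat 0, .ofNat 0⟩)
    (by decide +kernel)
theorem L00721 : Good (Phi V4.P V4.D 1 1) ⟨4, 12, 3, 2, 2, 1, 3, 7, 3, 2⟩ :=
  leaf_sound (S := T4.ds_pp) T4.ok_pp (w := 176) (c := ⟨⟨.negSucc 834, .negSucc 530, .ofNat 68, .negSucc 928, .negSucc 201, .negSucc 104⟩, ⟨.negSucc 236, .negSucc 256, .negSucc 94, .negSucc 343, .negSucc 85, .negSucc 39⟩, ⟨.ofNat 302, .ofNat 478, .negSucc 84, .ofNat 618, .ofNat 170, .ofNat 140⟩, ⟨.negSucc 1435, .negSucc 704, .ofNat 122, .negSucc 1593, .negSucc 332, .negSucc 182⟩, ⟨.negSucc 109, .ofNat 15, .negSucc 3, .ofNat 176, .ofNat 24, .ofNat 29⟩, .ofNat 529, .negSucc 515, .ofNat 0, .negSucc 515, .ofNat 1583, .ofNat 0, .ofNat 453, .ofNat 435, .negSucc 1062, .ofNat 0, .ofNat 321, .negSucc 374, .ofNat 0, .ofNat 0, .ofNat 1308, .ofNat 1451, .ofNat 0, .ofNat 10507366763963201633214217479782400, .ofNat 0, .ofNat 0, .ofNat 0, .ofNat 1045289622551286804571451386390118400,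 .ofNat 0, .ofNat 0, .ofNat 0, .ofNat 1146695812617291417062982017246822400, .ofNat 0, .ofNat 0, .ofNat 0, .ofNat 1540576550383956543225312396391219200, .ofNat 0, .ofNat 0⟩)
    (by decide +kernel)
theorem L00722 : Good (Phi V4.P V4.D 1 1) ⟨5, 24, 3, 2, 2, 0, 3, 7, 3, 3⟩ :=
  leaf_sound (S := T4.ds_pp) T4.ok_pp (w := 184) (c := ⟨⟨.negSucc 366, .negSucc 110, .negSucc 61, .negSucc 837, .ofNat 266, .negSucc 35⟩, ⟨.negSucc 109, .negSucc 55, .negSucc 74, .negSucc 291, .ofNat 91, .negSucc 10⟩, ⟨.negSucc 36, .ofNat 109, .ofNat 61, .ofNat 703, .negSucc 261, .ofNat 82⟩, ⟨.negSucc 636, .negSucc 136, .negSucc 104, .negSucc 1390, .ofNat 442, .negSucc 61⟩, ⟨.negSucc 19, .negSucc 5, .ofNat 1, .negSucc 35, .ofNat 18, .ofNat 7⟩, .ofNat 944, .negSucc 1530, .ofNat 0, .negSucc 1530, .ofNat 4493, .ofNat 0, .ofNat 160, .ofNat 197, .negSucc 436, .ofNat 0, .ofNat 113, .negSucc 150, .ofNat 0,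 .ofNat 0, .ofNat 576, .ofNat 540, .ofNat 0, .ofNat 0, .ofNat 0, .ofNat 0, .ofNat 0, .ofNat 0, .ofNat 0, .ofNat 0, .ofNat 0, .ofNat 0, .ofNat 0, .ofNat 0, .ofNat 0, .ofNat 2789879619873772483699919918255308800, .ofNat 0, .ofNat 0⟩)
    (by decide +kernel)
theorem L00723 : Good (Phi V4.P V4.D 1 1) ⟨5, 24, 3, 2, 2, 1, 3, 7, 3, 3⟩ :=
  leaf_sound (S := T4.ds_pp) T4.ok_pp (w := 184) (c := ⟨⟨.negSucc 1038, .negSucc 187, .ofNat 28, .negSucc 800, .negSucc 165, .negSucc 55⟩, ⟨.negSucc 330, .negSucc 95, .negSucc 78, .negSucc 270, .negSucc 56, .negSucc 17⟩, ⟨.ofNat 505, .ofNat 175, .negSucc 41, .ofNat 559, .ofNat 165, .ofNat 96⟩, ⟨.negSucc 1770, .negSucc 236, .ofNat 46, .negSucc 1379, .negSucc 284, .negSucc 100⟩, ⟨.negSucc 54, .negSucc 0, .ofNat 5, .ofNat 102, .ofNat 22, .ofNat 18⟩, .ofNat 509, .negSucc 478, .ofNat 0, .negSucc 478, .ofNat 1630, .ofNat 0, .ofNat 1628, .ofNat 1382,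 .negSucc 3306, .ofNat 0, .ofNat 1054, .negSucc 1062, .ofNat 0, .ofNat 0, .ofNat 4419, .ofNat 11228, .ofNat 0, .ofNat 1444833680631145060457772523664179200, .ofNat 0, .ofNat 0, .ofNat 0, .ofNat 547591033085353514943280413488971776000, .ofNat 0, .ofNat 0, .ofNat 0, .ofNat 505888498055722860882929393105633280000, .ofNat 0, .ofNat 0, .ofNat 0, .ofNat 564089833828090084923234244188595814400, .ofNat 0, .ofNat 0⟩)
    (by decide +kernel)
theorem L00724 : Good (Phi V4.P V4.D 1 1) ⟨5, 25, 4, 4, 2, 0, 3, 7, 3, 3⟩ :=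
  leaf_sound (S := T4.ds_pp) T4.ok_pp (w := 184) (c := ⟨⟨.negSucc 448, .negSucc 84, .negSucc 23, .negSucc 922, .ofNat 228, .negSucc 4⟩, ⟨.negSucc 143, .negSucc 49, .negSucc 36, .negSucc 347, .ofNat 86, .negSucc 2⟩, ⟨.ofNat 47, .ofNat 72, .ofNat 24, .ofNat 782, .negSucc 219, .ofNat 48⟩, ⟨.negSucc 739, .negSucc 93, .negSucc 37, .negSucc 1495, .ofNat 369, .negSucc 10⟩, ⟨.negSucc 23, .ofNat 11, .negSucc 2, .negSucc 38, .ofNat 13, .ofNat 10⟩, .ofNat 1008, .negSucc 1577, .ofNat 0, .negSucc 1577, .ofNat 4227, .ofNat 0, .ofNat 163, .ofNat 197, .negSucc 462, .ofNat 0, .ofNat 124, .negSucc 173, .ofNat 0, .ofNat 0, .ofNat 597, .ofNat 852, .ofNat 0, .ofNat 0, .ofNat 0, .ofNat 0, .ofNat 0, .ofNat 6299861695786070150996100118059417600, .ofNat 9832392774437930371208812953600, .ofNat 0, .ofNat 0, .ofNat 7634370109280708920578546007749427200, .ofNat 9432853816792608243095017881600, .ofNat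 0, .ofNat 0, .ofNat 23165460438866392569712895677641523200, .ofNat 953888763622444326839962828800, .ofNat 0⟩)
    (by decide +kernel)
theorem L00725 : Good (Phi V4.P V4.D 1 1) ⟨5, 25, 4, 4, 2, 1, 3, 7, 3, 3⟩ :=
  leaf_sound (S := T4.ds_pp) T4.ok_pp (w := 192) (c := ⟨⟨.negSucc 1204, .negSucc 213, .ofNat 9, .negSucc 867, .negSucc 275, .negSucc 58⟩, ⟨.negSucc 413, .negSucc 116, .negSucc 42, .negSucc 320, .negSucc 102, .negSucc 19⟩, ⟨.ofNat 658, .ofNat 199, .negSucc 15, .ofNat 607, .ofNat 277, .ofNat 100⟩, ⟨.negSucc 1976, .negSucc 263, .ofNat 15, .negSucc 1461, .negSucc 454, .negSucc 101⟩, ⟨.negSucc 50, .negSucc 0, .ofNat 1, .ofNat 102, .ofNat 3, .ofNat 15⟩, .ofNat 517, .negSucc 484, .ofNat 0, .negSucc 484, .ofNat 1500, .ofNat 0, .ofNat 1610, .ofNat 1443, .negSucc 3480, .ofNat 0, .ofNat 1138, .negSucc 1230, .ofNat 0, .ofNat 0, .ofNat 4544, .ofNat 8770, .ofNat 0, .ofNat 5611373390888768072356923807734169600,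 .ofNat 0, .ofNat 0, .ofNat 0, .ofNat 1951576091766719748966083015970127872000, .ofNat 0, .ofNat 0, .ofNat 0, .ofNat 1901319376680617503441298995586845900800, .ofNat 0, .ofNat 0, .ofNat 0, .ofNat 2577903035675808956263668107842682880000, .ofNat 0, .ofNat 0⟩)
    (by decide +kernel)
theorem L00726 : Good (Phi V4.P V4.D 1 1) ⟨5, 25, 4, 5, 2, 0, 3, 7, 3, 3⟩ :=
  leaf_sound (S := T4.ds_pp) T4.ok_pp (w := 184) (c := ⟨⟨.negSucc 443, .negSucc 175, .ofNat 37, .negSucc 977, .ofNat 234, .negSucc 23⟩, ⟨.negSucc 157, .negSucc 94, .negSucc 9, .negSucc 400, .ofNat 95, .negSucc 6⟩, ⟨.ofNat 39, .ofNat 173, .negSucc 38, .ofNat 834, .negSucc 223, .ofNat 71⟩, ⟨.negSucc 742, .negSucc 229, .ofNat 56, .negSucc 1564, .ofNat 377, .negSucc 42⟩, ⟨.negSucc 13, .negSucc 2, .ofNat 1, .negSucc 49, .ofNat 6, .ofNat 9⟩, .ofNat 1286, .negSucc 2154, .ofNat 0, .negSucc 2154, .ofNat 5321, .ofNat 0, .ofNat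 142, .ofNat 216, .negSucc 486, .ofNat 0, .ofNat 126, .negSucc 198, .ofNat 0, .ofNat 0, .ofNat 616, .ofNat 762, .ofNat 0, .ofNat 0, .ofNat 0, .ofNat 0, .ofNat 0, .ofNat 5290338909991976174204156704613990400, .ofNat 9653235388204194176323446374400, .ofNat 0, .ofNat 0, .ofNat 7469637482766934124629304075196825600, .ofNat 0, .ofNat 0, .ofNat 0, .ofNat 19606451999429135777006625595431321600, .ofNat 0, .ofNat 0⟩)
    (by decide +kernel)

end Crest.Agent.R097C4.N4pp
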