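import Crest.Agent.R097.T4

/-!
# Row 97, box cover in dimension n = 4 (generated)
-/

set_option autoImplicit false
set_option Elab.async false
set_option maxHeartbeats 0
set_option maxRecDepth 100000

open Crest.Agent.R097 Crest.Agent.R097.KA


namespace Crest.Agent.R097C4.N4pp

theorem L00787 : Good (Phi V4.P V4.D 1 1) ⟨6, 54, 5, 15, 2, 0, 4, 14, 2, 1⟩ :=
  leaf_sound (S := T4.ds_pp) T4.ok_pp (w := 192) (c := ⟨⟨.negSucc 700, .negSucc 202, .ofNat 4, .negSucc 1009, .negSucc 61, .ofNat 7⟩, ⟨.negSucc 348, .negSucc 120, .negSucc 15, .negSucc 528, .negSucc 31, .ofNat 4⟩, ⟨.ofNat 251, .ofNat 173, .negSucc 4, .ofNat 836, .ofNat 61, .ofNat 94⟩, ⟨.negSucc 1071, .negSucc 289, .ofNat 7, .negSucc 1519, .negSucc 93, .ofNat 6⟩, ⟨.negSucc 18, .ofNat 24, .negSucc 0, .negSucc 58, .negSucc 0, .ofNat 11⟩, .ofNat 3841, .negSucc 6606, .ofNat 0, .negSucc 6606, .ofNat 12660, .ofNat 0, .ofNat 86, .ofNat 260,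 .negSucc 550, .ofNat 0, .ofNat 151, .negSucc 287, .ofNat 0, .ofNat 0, .ofNat 678, .ofNat 2118, .ofNat 0, .ofNat 0, .ofNat 0, .ofNat 0, .ofNat 0, .ofNat 74672995503967295165435520489200025600, .ofNat 16005299754310792142233219891200, .ofNat 0, .ofNat 0, .ofNat 56799183781056664110893601274409779200, .ofNat 9935895701906327264419853107200, .ofNat 0, .ofNat 0, .ofNat 137032733907725190827473268815115059200, .ofNat 2515872251254668846989259571200, .ofNat 0⟩)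
    (by decide +kernel)
theorem L00788 : Good (Phi V4.P V4.D 1 1) ⟨6, 54, 5, 15, 2, 0, 4, 15, 2, 1⟩ :=
  leaf_sound (S := T4.ds_pp) T4.ok_pp (w := 200) (c := ⟨⟨.negSucc 210, .ofNat 30, .negSucc 286, .negSucc 1575, .ofNat 132, .negSucc 109⟩, ⟨.negSucc 93, .ofNat 7, .negSucc 167, .negSucc 822, .ofNat 68, .negSucc 57⟩, ⟨.negSucc 257, .negSucc 31, .ofNat 298, .ofNat 1394, .negSucc 131, .ofNat 222⟩, ⟨.negSucc 321, .ofNat 83, .negSucc 440, .negSucc 2384, .ofNat 202, .negSucc 173⟩, ⟨.negSucc 11, .negSucc 10, .negSucc 0, .negSucc 67, .ofNat 1, .ofNat 9⟩, .ofNat 3788, .negSucc 6507, .ofNat 0, .negSucc 6507, .ofNat 12475, .ofNat 0, .ofNat 181, .ofNat 543, .negSucc 1468, .ofNat 0, .ofNat 315, .negSucc 766, .ofNat 0, .ofNat 0, .ofNat 1670, .ofNat 1243, .ofNat 0, .ofNat 28155056821611208362015347709680025600, .ofNat 114619447032267687794520883200, .ofNat 0, .ofNat 0, .ofNat 0, .ofNat 65193298273014884377780499251200,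 .ofNat 0, .ofNat 0, .ofNat 1789400098877294967992094032163923558400, .ofNat 48835757842130747245372165324800, .ofNat 0, .ofNat 0, .ofNat 4073610039800623890706908508800732364800, .ofNat 25688500538972715321771058790400, .ofNat 0⟩)
    (by decide +kernel)
theorem L00789 : Good (Phi V4.P V4.D 1 1) ⟨6, 54, 5, 15, 2, 1, 4, 14, 2, 1⟩ :=
  leaf_sound (S := T4.ds_pp) T4.ok_pp (w := 200) (c := ⟨⟨.negSucc 1483, .negSucc 264, .ofNat 42, .negSucc 1034, .negSucc 312, .negSucc 252⟩, ⟨.negSucc 746, .negSucc 159, .negSucc 9, .negSucc 535, .negSucc 163, .negSucc 130⟩, ⟨.ofNat 866, .ofNat 245, .negSucc 37, .ofNat 627, .ofNat 290, .ofNat 322⟩, ⟨.negSucc 2249, .negSucc 350, .ofNat 70, .negSucc 1686, .negSucc 472, .negSucc 409⟩, ⟨.negSucc 69, .negSucc 8, .negSucc 7, .ofNat 183, .negSucc 14, .ofNat 40⟩, .ofNat 3788, .negSucc 6511, .ofNat 0, .negSucc 6511, .ofNat 12489, .ofNat 0, .ofNat 188, .ofNat 590, .negSucc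 1132, .ofNat 0, .ofNat 339, .negSucc 590, .ofNat 0, .ofNat 0, .ofNat 1357, .ofNat 4086, .ofNat 0, .ofNat 65477842555629671237586682892412518400, .ofNat 56642458901353349278334976000, .ofNat 0, .ofNat 0, .ofNat 1535280791286011318061785621372023603200, .ofNat 55120890396497198861664858931200, .ofNat 0, .ofNat 0, .ofNat 3343758640659421389915014728466930073600, .ofNat 15757850583400912476419653632000, .ofNat 0, .ofNat 0, .ofNat 2962183558263929314807615429863171686400, .ofNat 14268652739899797557873737728000, .ofNat 0⟩)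
    (by decide +kernel)
theorem L00790 : Good (Phi V4.P V4.D 1 1) ⟨6, 54, 5, 15, 2, 1, 4, 15, 2, 1⟩ :=
  leaf_sound (S := T4.ds_pp) T4.ok_pp (w := 200) (c := ⟨⟨.negSucc 1699, .negSucc 254, .ofNat 20, .negSucc 1318, .negSucc 553, .negSucc 563⟩, ⟨.negSucc 858, .negSucc 157, .negSucc 21, .negSucc 686, .negSucc 289, .negSucc 293⟩, ⟨.ofNat 1066, .ofNat 232, .negSucc 27, .ofNat 914, .ofNat 533, .ofNat 645⟩, ⟨.negSucc 2579, .negSucc 333, .ofNat 31, .negSucc 2073, .negSucc 830, .negSucc 880⟩, ⟨.negSucc 75, .negSucc 3, .ofNat 5, .ofNat 92, .negSucc 39, .ofNat 27⟩, .ofNat 1484, .negSucc 2219, .ofNat 0, .negSucc 2219, .ofNat 4448, .ofNat 0, .ofNat 510, .ofNat 1187, .negSucc 3152, .ofNat 0, .ofNat 721, .negSucc 1618, .ofNat 0, .ofNat 0, .ofNat 3466, .ofNat 4413, .ofNat 0, .ofNat 210806927987495557665541282591879987200, .ofNat 0, .ofNat 0, .ofNat 0, .ofNat 12330855188500861417642526693480044953600,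 .ofNat 0, .ofNat 0, .ofNat 0, .ofNat 30162904551125602218296369831306959257600, .ofNat 0, .ofNat 0, .ofNat 0, .ofNat 39166233473305702594865270767789434470400, .ofNat 0, .ofNat 0⟩)
    (by decide +kernel)
theorem L00791 : Good (Phi V4.P V4.D 1 1) ⟨6, 55, 4, 7, 1, 0, 3, 7, 1, 0⟩ :=
  out_sound (S := T4.ds_pp) T4.ok_pp (w := 72) (j := 3) (by decide +kernel)
theorem L00792 : Good (Phi V4.P V4.D 1 1) ⟨3, 7, 3, 3, 1, 0, 3, 7, 1, 0⟩ :=
  out_sound (S := T4.ds_pp) T4.ok_pp (w := 48) (j := 3) (by decide +kernel)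
theorem L00793 : Good (Phi V4.P V4.D 1 1) ⟨2, 2, 2, 1, 1, 1, 1, 1, 2, 0⟩ :=
  out_sound (S := T4.ds_pp) T4.ok_pp (w := 40) (j := 3) (by decide +kernel)
theorem L00794 : Good (Phi V4.P V4.D 1 1) ⟨4, 12, 2, 1, 2, 2, 2, 2, 3, 0⟩ :=
  leaf_sound (S := T4.ds_pp) T4.ok_pp (w := 176) (c := ⟨⟨.negSucc 753, .negSucc 272, .negSucc 33, .negSucc 534, .negSucc 185, .negSucc 779⟩, ⟨.negSucc 196, .negSucc 138, .negSucc 302, .negSucc 173, .negSucc 77, .negSucc 288⟩, ⟨.ofNat 828, .ofNat 208, .negSucc 4, .ofNat 320, .negSucc 207, .ofNat 297⟩, ⟨.negSucc 1355, .negSucc 324, .negSucc 123, .negSucc 1134, .negSucc 211, .negSucc 1337⟩, ⟨.ofNat 72, .ofNat 143, .ofNat 8, .ofNat 676, .negSucc 251, .ofNat 148⟩, .ofNat 531, .negSucc 518, .ofNat 0, .negSucc 518, .ofNat 1587, .ofNat 0, .ofNat 289, .ofNat 323, .negSucc 555, .ofNat 0, .ofNat 207, .negSucc 169, .ofNat 0, .ofNat 0, .ofNat 694, .ofNat 685, .ofNat 0, .ofNat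 0, .ofNat 0, .ofNat 0, .ofNat 0, .ofNat 0, .ofNat 0, .ofNat 0, .ofNat 0, .ofNat 0, .ofNat 305222144738874953137599283200, .ofNat 0, .ofNat 0, .ofNat 0, .ofNat 281723191980276012839180697600, .ofNat 0⟩)
    (by decide +kernel)
theorem L00795 : Good (Phi V4.P V4.D 1 1) ⟨4, 13, 2, 1, 2, 2, 2, 2, 3, 0⟩ :=
  leaf_sound (S := T4.ds_pp) T4.ok_pp (w := 176) (c := ⟨⟨.negSucc 1157, .negSucc 400, .ofNat 126, .negSucc 752, .negSucc 72, .negSucc 652⟩, ⟨.negSucc 296, .negSucc 230, .negSucc 257, .negSucc 338, .negSucc 43, .negSucc 318⟩, ⟨.ofNat 1122, .ofNat 198, .ofNat 18, .ofNat 461, .negSucc 345, .ofNat 161⟩, ⟨.negSucc 1973, .negSucc 577, .ofNat 206, .negSucc 1559, .ofNat 54, .negSucc 1057⟩, ⟨.ofNat 327, .ofNat 276, .negSucc 146, .ofNat 792, .negSucc 346, .ofNat 79⟩, .ofNat 641, .negSucc 705, .ofNat 0, .negSucc 705, .ofNat 1692, .ofNat 0, .ofNat 241, .ofNat 374, .negSucc 614, .ofNat 0, .ofNat 238,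 .negSucc 249, .ofNat 0, .ofNat 0, .ofNat 735, .ofNat 506, .ofNat 0, .ofNat 0, .ofNat 6219508494157975890218188800, .ofNat 0, .ofNat 0, .ofNat 0, .ofNat 776327347767819052839547699200, .ofNat 0, .ofNat 0, .ofNat 0, .ofNat 496492025772076629094091980800, .ofNat 0, .ofNat 0, .ofNat 0, .ofNat 258676400437899857006218444800, .ofNat 0⟩)
    (by decide +kernel)
theorem L00796 : Good (Phi V4.P V4.D 1 1) ⟨3, 7, 2, 1, 2, 2, 2, 2, 3, 0⟩ :=
  out_sound (S := T4.ds_pp) T4.ok_pp (w := 48) (j := 3) (by decide +kernel)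
theorem L00797 : Good (Phi V4.P V4.D 1 1) ⟨4, 12, 2, 1, 2, 2, 2, 2, 3, 1⟩ :=
  leaf_sound (S := T4.ds_pp) T4.ok_pp (w := 176) (c := ⟨⟨.negSucc 1317, .negSucc 314, .ofNat 57, .negSucc 801, .negSucc 277, .negSucc 3⟩, ⟨.negSucc 395, .negSucc 151, .negSucc 341, .negSucc 267, .negSucc 109, .negSucc 0⟩, ⟨.ofNat 946, .ofNat 212, .negSucc 69, .ofNat 412, .ofNat 38, .negSucc 182⟩, ⟨.negSucc 2313, .negSucc 315, .negSucc 29, .negSucc 1624, .negSucc 424, .ofNat 13⟩, ⟨.ofNat 100, .ofNat 44, .ofNat 119, .ofNat 806, .negSucc 89, .negSucc 51⟩, .ofNat 529, .negSucc 516, .ofNat 0, .negSucc 516, .ofNat 1608, .ofNat 0, .ofNat 258, .ofNat 271, .negSucc 380, .ofNat 0, .ofNat 178, .negSucc 112, .ofNat 0, .ofNat 0, .ofNat 569, .ofNat 756, .ofNat 0, .ofNat 0, .ofNat 3560984295393402780490137600, .ofNat 0, .ofNat 0, .ofNat 0, .ofNat 0, .ofNat 0, .ofNat 0, .ofNat 0, .ofNat 217659335217288264518153011200, .ofNat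 0, .ofNat 0, .ofNat 0, .ofNat 0, .ofNat 0⟩)
    (by decide +kernel)
theorem L00798 : Good (Phi V4.P V4.D 1 1) ⟨4, 13, 3, 2, 2, 2, 2, 2, 3, 1⟩ :=
  leaf_sound (S := T4.ds_pp) T4.ok_pp (w := 176) (c := ⟨⟨.negSucc 1548, .negSucc 146, .ofNat 5, .negSucc 877, .negSucc 295, .negSucc 30⟩, ⟨.negSucc 495, .negSucc 101, .negSucc 170, .negSucc 338, .negSucc 133, .negSucc 13⟩, ⟨.ofNat 1095, .ofNat 36, .ofNat 11, .ofNat 453, .ofNat 20, .negSucc 167⟩, ⟨.negSucc 2510, .negSucc 153, .negSucc 23, .negSucc 1771, .negSucc 421, .negSucc 42⟩, ⟨.ofNat 124, .ofNat 162, .ofNat 40, .ofNat 859, .negSucc 112, .negSucc 13⟩, .ofNat 1322, .negSucc 2115, .ofNat 0, .negSucc 2115, .ofNat 4888, .ofNat 0, .ofNat 182, .ofNat 336, .negSucc 386, .ofNat 0, .ofNat 188, .negSucc 157, .ofNat 0, .ofNat 0, .ofNat 573, .ofNat 1738, .ofNat 0, .ofNat 0, .ofNat 212455114394668284334886092800, .ofNat 0, .ofNat 0, .ofNat 0, .ofNat 43233315375367812677137072128000,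 .ofNat 0, .ofNat 0, .ofNat 0, .ofNat 12572825736275525328161262796800, .ofNat 0, .ofNat 0, .ofNat 0, .ofNat 16740279958532487623322107904000, .ofNat 0⟩)
    (by decide +kernel)
theorem L00799 : Good (Phi V4.P V4.D 1 1) ⟨4, 13, 3, 3, 2, 2, 2, 2, 4, 2⟩ :=
  leaf_sound (S := T4.ds_pp) T4.ok_pp (w := 176) (c := ⟨⟨.negSucc 1497, .negSucc 463, .ofNat 123, .negSucc 953, .negSucc 263, .negSucc 63⟩, ⟨.negSucc 613, .negSucc 283, .negSucc 116, .negSucc 429, .negSucc 130, .negSucc 26⟩, ⟨.ofNat 1096, .ofNat 314, .negSucc 98, .ofNat 535, .negSucc 62, .negSucc 66⟩, ⟨.negSucc 2473, .negSucc 620, .ofNat 199, .negSucc 1937, .negSucc 320, .negSucc 93⟩, ⟨.ofNat 186, .ofNat 227, .negSucc 77, .ofNat 922, .negSucc 192, .negSucc 14⟩, .ofNat 640, .negSucc 704, .ofNat 0, .negSucc 704, .ofNat 1693, .ofNat 0, .ofNat 227, .ofNat 343, .negSucc 494, .ofNat 0, .ofNat 220, .negSucc 200, .ofNat 0, .ofNat 0, .ofNat 646,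 .ofNat 914, .ofNat 0, .ofNat 0, .ofNat 207680893648996803660899942400, .ofNat 0, .ofNat 0, .ofNat 0, .ofNat 30826086284726525645397216460800, .ofNat 0, .ofNat 0, .ofNat 0, .ofNat 13421480406778319275815233126400, .ofNat 0, .ofNat 0, .ofNat 0, .ofNat 0, .ofNat 0⟩)
    (by decide +kernel)
theorem L00800 : Good (Phi V4.P V4.D 1 1) ⟨4, 13, 3, 3, 2, 2, 2, 2, 4, 3⟩ :=
  leaf_sound (S := T4.ds_pp) T4.ok_pp (w := 176) (c := ⟨⟨.negSucc 1597, .negSucc 280, .ofNat 30, .negSucc 800, .negSucc 354, .ofNat 38⟩, ⟨.negSucc 654, .negSucc 161, .negSucc 177, .negSucc 361, .negSucc 175, .ofNat 16⟩, ⟨.ofNat 1034, .ofNat 135, .negSucc 10, .ofNat 394, .ofNat 90, .negSucc 118⟩, ⟨.negSucc 2605, .negSucc 248, .ofNat 5, .negSucc 1680, .negSucc 505, .ofNat 74⟩, ⟨.ofNat 133, .negSucc 3, .ofNat 53, .ofNat 882, .negSucc 97, .negSucc 29⟩, .ofNat 648, .negSucc 716, .ofNat 0, .negSucc 716, .ofNat 1701, .ofNat 0, .ofNat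 209, .ofNat 311, .negSucc 397, .ofNat 0, .ofNat 203, .negSucc 162, .ofNat 0, .ofNat 0, .ofNat 583, .ofNat 961, .ofNat 0, .ofNat 0, .ofNat 142345892464924018501641830400, .ofNat 0, .ofNat 0, .ofNat 0, .ofNat 27103440344697185520078500659200, .ofNat 0, .ofNat 0, .ofNat 0, .ofNat 13205128685948598365806657536000, .ofNat 0, .ofNat 0, .ofNat 0, .ofNat 0, .ofNat 0⟩)
    (by decide +kernel)
theorem L00801 : Good (Phi V4.P V4.D 1 1) ⟨3, 7, 2, 1, 2, 2, 2, 2, 3, 1⟩ :=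
  out_sound (S := T4.ds_pp) T4.ok_pp (w := 48) (j := 3) (by decide +kernel)
theorem L00802 : Good (Phi V4.P V4.D 1 1) ⟨5, 24, 3, 2, 3, 4, 2, 3, 3, 0⟩ :=
  leaf_sound (S := T4.ds_pp) T4.ok_pp (w := 192) (c := ⟨⟨.negSucc 863, .negSucc 201, .ofNat 131, .negSucc 322, .negSucc 6, .negSucc 701⟩, ⟨.negSucc 271, .negSucc 95, .negSucc 65, .negSucc 101, .negSucc 4, .negSucc 235⟩, ⟨.ofNat 464, .ofNat 167, .negSucc 168, .ofNat 230, .negSucc 285, .ofNat 441⟩, ⟨.negSucc 1458, .negSucc 270, .ofNat 227, .negSucc 620, .ofNat 15, .negSucc 1225⟩, ⟨.negSucc 123, .ofNat 63, .negSucc 49, .ofNat 229, .negSucc 74, .ofNat 141⟩, .ofNat 1080, .negSucc 1891, .ofNat 0, .negSucc 1891, .ofNat 5501, .ofNat 0, .ofNat 246, .ofNat 358, .negSucc 641, .ofNat 0, .ofNat 183, .negSucc 212, .ofNat 0, .ofNat 0, .ofNat 757, .ofNat 669, .ofNat 0, .ofNat 0, .ofNat 0, .ofNat 0, .ofNat 0, .ofNat 0, .ofNat 0, .ofNat 0, .ofNat 0, .ofNat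 104221653195079643943082621545322905600, .ofNat 90351347530255866243568159948800, .ofNat 0, .ofNat 0, .ofNat 136626746076605066267668743176218214400, .ofNat 213701325050244280726497263616000, .ofNat 0⟩)
    (by decide +kernel)
theorem L00803 : Good (Phi V4.P V4.D 1 1) ⟨5, 24, 3, 2, 3, 5, 2, 3, 3, 0⟩ :=
  leaf_sound (S := T4.ds_pp) T4.ok_pp (w := 192) (c := ⟨⟨.negSucc 830, .negSucc 260, .ofNat 43, .negSucc 423, .negSucc 266, .negSucc 1202⟩, ⟨.negSucc 242, .negSucc 112, .negSucc 150, .negSucc 129, .negSucc 97, .negSucc 409⟩, ⟨.ofNat 481, .ofNat 199, .negSucc 120, .ofNat 262, .negSucc 82, .ofNat 720⟩, ⟨.negSucc 1473, .negSucc 349, .ofNat 37, .negSucc 854, .negSucc 411, .negSucc 2097⟩, ⟨.ofNat 49, .ofNat 66, .ofNat 0, .ofNat 420, .negSucc 92, .ofNat 246⟩, .ofNat 758, .negSucc 1064, .ofNat 0, .negSucc 1064, .ofNat 3252, .ofNat 0, .ofNat 278, .ofNat 403, .negSucc 722, .ofNat 0, .ofNat 206, .negSucc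 233, .ofNat 0, .ofNat 0, .ofNat 766, .ofNat 516, .ofNat 0, .ofNat 0, .ofNat 0, .ofNat 0, .ofNat 0, .ofNat 0, .ofNat 0, .ofNat 0, .ofNat 0, .ofNat 74257427188562890655777192706834432000, .ofNat 0, .ofNat 0, .ofNat 0, .ofNat 0, .ofNat 166503766195696814923655518617600, .ofNat 0⟩)
    (by decide +kernel)
theorem L00804 : Good (Phi V4.P V4.D 1 1) ⟨5, 25, 4, 4, 2, 2, 2, 3, 3, 0⟩ :=
  leaf_sound (S := T4.ds_pp) T4.ok_pp (w := 184) (c := ⟨⟨.negSucc 732, .negSucc 319, .ofNat 60, .negSucc 856, .negSucc 179, .negSucc 1096⟩, ⟨.negSucc 214, .negSucc 150, .negSucc 54, .negSucc 282, .negSucc 77, .negSucc 402⟩, ⟨.ofNat 414, .ofNat 217, .negSucc 53, .ofNat 542, .negSucc 138, .ofNat 692⟩, ⟨.negSucc 1174, .negSucc 447, .ofNat 96, .negSucc 1654, .negSucc 245, .negSucc 1870⟩, ⟨.negSucc 138, .ofNat 69, .negSucc 5, .ofNat 669, .negSucc 128, .ofNat 207⟩, .ofNat 908, .negSucc 1337, .ofNat 0, .negSucc 1337, .ofNat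 3614, .ofNat 0, .ofNat 262, .ofNat 388, .negSucc 728, .ofNat 0, .ofNat 215, .negSucc 262, .ofNat 0, .ofNat 0, .ofNat 786, .ofNat 604, .ofNat 0, .ofNat 0, .ofNat 0, .ofNat 0, .ofNat 0, .ofNat 1547780186350284842061618060931891200, .ofNat 788388916907690424871472332800, .ofNat 0, .ofNat 0, .ofNat 2420830330139313499417670754238464000, .ofNat 340547869391256327689758310400, .ofNat 0, .ofNat 0, .ofNat 1589679351314487207346325228303155200, .ofNat 146012994855511246111349145600, .ofNat 0⟩)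
    (by decide +kernel)
theorem L00805 : Good (Phi V4.P V4.D 1 1) ⟨5, 25, 4, 5, 2, 2, 2, 3, 3, 0⟩ :=
  leaf_sound (S := T4.ds_pp) T4.ok_pp (w := 184) (c := ⟨⟨.negSucc 789, .negSucc 74, .negSucc 23, .negSucc 852, .negSucc 78, .negSucc 1078⟩, ⟨.negSucc 285, .negSucc 56, .negSucc 80, .negSucc 308, .negSucc 37, .negSucc 424⟩, ⟨.ofNat 427, .ofNat 55, .negSucc 18, .ofNat 533, .negSucc 227, .ofNat 706⟩, ⟨.negSucc 1273, .negSucc 42, .negSucc 37, .negSucc 1653, .negSucc 83, .negSucc 1835⟩, ⟨.negSucc 128, .ofNat 38, .negSucc 16, .ofNat 669, .negSucc 123, .ofNat 204⟩, .ofNat 853, .negSucc 1193, .ofNat 0, .negSucc 1193, .ofNat 3126, .ofNat 0, .ofNat 250, .ofNat 401, .negSucc 760, .ofNat 0, .ofNat 223, .negSucc 289, .ofNat 0, .ofNat 0, .ofNat 812, .ofNat 320, .ofNat 0, .ofNat 0, .ofNat 3121051206113780552014233600, .ofNat 0, .ofNat 0, .ofNat 0, .ofNat 0, .ofNat 0, .ofNat 0, .ofNat 3135390796841801009227030694618726400,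 .ofNat 0, .ofNat 0, .ofNat 0, .ofNat 0, .ofNat 0, .ofNat 0⟩)
    (by decide +kernel)
theorem L00806 : Good (Phi V4.P V4.D 1 1) ⟨4, 13, 4, 4, 2, 2, 2, 3, 3, 0⟩ :=
  out_sound (S := T4.ds_pp) T4.ok_pp (w := 56) (j := 3) (by decide +kernel)
theorem L00807 : Good (Phi V4.P V4.D 1 1) ⟨4, 13, 4, 5, 2, 2, 2, 3, 3, 0⟩ :=
  leaf_sound (S := T4.ds_pp) T4.ok_pp (w := 184) (c := ⟨⟨.negSucc 1331, .negSucc 778, .ofNat 580, .negSucc 922, .negSucc 131, .negSucc 1207⟩, ⟨.negSucc 505, .negSucc 377, .ofNat 171, .negSucc 367, .negSucc 63, .negSucc 515⟩, ⟨.ofNat 852, .ofNat 808, .negSucc 465, .ofNat 583, .negSucc 219, .ofNat 790⟩, ⟨.negSucc 2106, .negSucc 1110, .ofNat 950, .negSucc 1765, .negSucc 144, .negSucc 2013⟩, ⟨.negSucc 42, .ofNat 29, .negSucc 55, .ofNat 678, .negSucc 149, .ofNat 206⟩, .ofNat 1367, .negSucc 2207, .ofNat 0, .negSucc 2207, .ofNat 5079, .ofNat 0, .ofNat 220, .ofNat 426, .negSucc 811, .ofNat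 0, .ofNat 238, .negSucc 344, .ofNat 0, .ofNat 0, .ofNat 844, .ofNat 459, .ofNat 0, .ofNat 553440460345975639712822250700800, .ofNat 53447612916307155279151104000, .ofNat 0, .ofNat 0, .ofNat 0, .ofNat 30244142866090656465531017625600, .ofNat 0, .ofNat 0, .ofNat 248289161832841370239429189514035200, .ofNat 8319423366908489142322908364800, .ofNat 0, .ofNat 0, .ofNat 234942327980883858973993364304691200, .ofNat 311065271548478964555684249600, .ofNat 0⟩)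
    (by decide +kernel)
theorem L00808 : Good (Phi V4.P V4.D 1 1) ⟨5, 24, 3, 2, 2, 2, 3, 6, 3, 1⟩ :=
  leaf_sound (S := T4.ds_pp) T4.ok_pp (w := 184) (c := ⟨⟨.negSucc 1255, .negSucc 242, .ofNat 148, .negSucc 1092, .negSucc 271, .negSucc 274⟩, ⟨.negSucc 392, .negSucc 119, .negSucc 117, .negSucc 340, .negSucc 94, .negSucc 87⟩, ⟨.ofNat 673, .ofNat 192, .negSucc 160, .ofNat 624, .ofNat 142, .ofNat 130⟩, ⟨.negSucc 2149, .negSucc 292, .ofNat 208, .negSucc 2109, .negSucc 448, .negSucc 502⟩, ⟨.negSucc 73, .ofNat 20, .ofNat 34, .ofNat 796, .negSucc 21, .ofNat 120⟩, .ofNat 511, .negSucc 486, .ofNat 0, .negSucc 486, .ofNat 1655, .ofNat 0, .ofNat 284, .ofNat 284, .negSucc 522, .ofNat 0, .ofNat 183, .negSucc 153, .ofNat 0, .ofNat 0, .ofNat 640, .ofNat 943, .ofNat 0, .ofNat 0, .ofNat 0, .ofNat 0, .ofNat 0, .ofNat 0, .ofNat 0, .ofNat 0, .ofNat 0, .ofNat 0, .ofNat 0, .ofNat 0, .ofNat 0, .ofNat 0, .ofNat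 0, .ofNat 0⟩)
    (by decide +kernel)
theorem L00809 : Good (Phi V4.P V4.D 1 1) ⟨5, 24, 3, 2, 3, 4, 3, 7, 3, 1⟩ :=
  leaf_sound (S := T4.ds_pp) T4.ok_pp (w := 192) (c := ⟨⟨.negSucc 1334, .negSucc 312, .ofNat 222, .negSucc 626, .negSucc 335, .negSucc 446⟩, ⟨.negSucc 418, .negSucc 144, .negSucc 87, .negSucc 199, .negSucc 113, .negSucc 148⟩, ⟨.ofNat 630, .ofNat 240, .negSucc 214, .ofNat 386, .ofNat 205, .ofNat 329⟩, ⟨.negSucc 2300, .negSucc 414, .ofNat 368, .negSucc 1145, .negSucc 562, .negSucc 790⟩, ⟨.negSucc 23, .ofNat 34, .negSucc 31, .ofNat 270, .negSucc 6, .ofNat 114⟩, .ofNat 755, .negSucc 1057, .ofNat 0, .negSucc 1057, .ofNat 3233, .ofNat 0, .ofNat 960, .ofNat 1249, .negSucc 2352, .ofNat 0, .ofNat 677, .negSucc 782, .ofNat 0, .ofNat 0, .ofNat 2733, .ofNat 3840, .ofNat 0, .ofNat 0, .ofNat 0, .ofNat 0, .ofNat 0, .ofNat 0, .ofNat 0, .ofNat 0, .ofNat 0, .ofNat 9222761958285813479680964066517241036800,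 .ofNat 0, .ofNat 0, .ofNat 0, .ofNat 7903016278570300101484246531672375296000, .ofNat 0, .ofNat 0⟩)
    (by decide +kernel)
theorem L00810 : Good (Phi V4.P V4.D 1 1) ⟨5, 24, 3, 2, 3, 5, 3, 7, 3, 1⟩ :=
  leaf_sound (S := T4.ds_pp) T4.ok_pp (w := 192) (c := ⟨⟨.negSucc 1780, .negSucc 456, .ofNat 338, .negSucc 811, .negSucc 533, .negSucc 665⟩, ⟨.negSucc 554, .negSucc 191, .negSucc 106, .negSucc 252, .negSucc 179, .negSucc 218⟩, ⟨.ofNat 940, .ofNat 310, .negSucc 288, .ofNat 456, .ofNat 302, .ofNat 416⟩, ⟨.negSucc 3147, .negSucc 636, .ofNat 537, .negSucc 1536, .negSucc 878, .negSucc 1173⟩, ⟨.ofNat 223, .ofNat 67, .negSucc 44, .ofNat 505, .negSucc 50, .ofNat 162⟩, .ofNat 754, .negSucc 1057, .ofNat 0, .negSucc 1057, .ofNat 3243, .ofNat 0, .ofNat 1054, .ofNat 1507, .negSucc 2608, .ofNat 0, .ofNat 768, .negSucc 856, .ofNat 0, .ofNat 0, .ofNat 2777, .ofNat 4308, .ofNat 0, .ofNat 122116807464852681013841034771588710400,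 .ofNat 0, .ofNat 0, .ofNat 0, .ofNat 0, .ofNat 0, .ofNat 0, .ofNat 0, .ofNat 12938469908312850733010807573031419904000, .ofNat 0, .ofNat 0, .ofNat 0, .ofNat 9822029570042505395194917974799758131200, .ofNat 0, .ofNat 0⟩)
    (by decide +kernel)
theorem L00811 : Good (Phi V4.P V4.D 1 1) ⟨5, 25, 3, 2, 3, 4, 3, 6, 3, 1⟩ :=
  leaf_sound (S := T4.ds_pp) T4.ok_pp (w := 192) (c := ⟨⟨.negSucc 1503, .negSucc 281, .ofNat 145, .negSucc 515, .negSucc 257, .negSucc 300⟩, ⟨.negSucc 482, .negSucc 147, .negSucc 100, .negSucc 187, .negSucc 102, .negSucc 114⟩, ⟨.ofNat 848, .ofNat 191, .negSucc 131, .ofNat 287, .ofNat 139, .ofNat 168⟩, ⟨.negSucc 2500, .negSucc 368, .ofNat 235, .negSucc 957, .negSucc 411, .negSucc 525⟩, ⟨.ofNat 24, .ofNat 67, .negSucc 34, .ofNat 303, .negSucc 19, .ofNat 94⟩, .ofNat 541, .negSucc 535, .ofNat 0, .negSucc 535, .ofNat 1562, .ofNat 0, .ofNat 262, .ofNat 292, .negSucc 549, .ofNat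 0, .ofNat 197, .negSucc 191, .ofNat 0, .ofNat 0, .ofNat 665, .ofNat 2501, .ofNat 0, .ofNat 0, .ofNat 0, .ofNat 0, .ofNat 0, .ofNat 0, .ofNat 0, .ofNat 0, .ofNat 0, .ofNat 0, .ofNat 0, .ofNat 0, .ofNat 0, .ofNat 0, .ofNat 0, .ofNat 0⟩)
    (by decide +kernel)
theorem L00812 : Good (Phi V4.P V4.D 1 1) ⟨5, 25, 3, 2, 3, 5, 3, 6, 3, 1⟩ :=
  leaf_sound (S := T4.ds_pp) T4.ok_pp (w := 192) (c := ⟨⟨.negSucc 1951, .negSucc 330, .ofNat 176, .negSucc 669, .negSucc 451, .negSucc 233⟩, ⟨.negSucc 611, .negSucc 160, .negSucc 154, .negSucc 235, .negSucc 181, .negSucc 84⟩, ⟨.ofNat 1145, .ofNat 221, .negSucc 166, .ofNat 357, .ofNat 235, .ofNat 69⟩, ⟨.negSucc 3334, .negSucc 428, .ofNat 259, .negSucc 1308, .negSucc 725, .negSucc 425⟩, ⟨.ofNat 302, .ofNat 77, .negSucc 37, .ofNat 558, .negSucc 23, .ofNat 113⟩, .ofNat 538, .negSucc 528, .ofNat 0, .negSucc 528, .ofNat 1552, .ofNat 0, .ofNat 281, .ofNat 334, .negSucc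 564, .ofNat 0, .ofNat 213, .negSucc 191, .ofNat 0, .ofNat 0, .ofNat 652, .ofNat 2169, .ofNat 0, .ofNat 22300467288551599185767486375696793600, .ofNat 0, .ofNat 0, .ofNat 0, .ofNat 307083382188938082250738475755320115200, .ofNat 1058788723442675567677814498918400, .ofNat 0, .ofNat 0, .ofNat 151493985510727891223345381507491430400, .ofNat 0, .ofNat 0, .ofNat 0, .ofNat 188825349342496502609696566468096819200, .ofNat 447083235792629616219664888627200, .ofNat 0⟩)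
    (by decide +kernel)
theorem L00813 : Good (Phi V4.P V4.D 1 1) ⟨5, 25, 3, 2, 3, 4, 3, 7, 3, 1⟩ :=
  leaf_sound (S := T4.ds_pp) T4.ok_pp (w := 192) (c := ⟨⟨.negSucc 1609, .negSucc 360, .ofNat 191, .negSucc 658, .negSucc 457, .negSucc 504⟩, ⟨.negSucc 518, .negSucc 180, .negSucc 96, .negSucc 246, .negSucc 179, .negSucc 193⟩, ⟨.ofNat 850, .ofNat 281, .negSucc 200, .ofNat 387, .ofNat 301, .ofNat 377⟩, ⟨.negSucc 2673, .negSucc 482, .ofNat 311, .negSucc 1185, .negSucc 732, .negSucc 864⟩, ⟨.ofNat 11, .ofNat 49, .negSucc 24, .ofNat 285, .negSucc 35, .ofNat 111⟩, .ofNat 542, .negSucc 538, .ofNat 0, .negSucc 538, .ofNat 1572, .ofNat 0, .ofNat 1095, .ofNat 1238, .negSucc 2842, .ofNat 0, .ofNat 829, .negSucc 1028, .ofNat 0, .ofNat 0, .ofNat 3061, .ofNat 2430, .ofNat 0, .ofNat 62126359537390207344943734497004748800, .ofNat 5767815892772394494883318988800, .ofNat 0, .ofNat 0, .ofNat 0, .ofNat 0, .ofNat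 0, .ofNat 0, .ofNat 8579625839166651373356294706247290060800, .ofNat 0, .ofNat 0, .ofNat 0, .ofNat 13862475259328415749823308805908830617600, .ofNat 0, .ofNat 0⟩)
    (by decide +kernel)
theorem L00814 : Good (Phi V4.P V4.D 1 1) ⟨5, 25, 3, 2, 3, 5, 4, 14, 3, 1⟩ :=
  leaf_sound (S := T4.ds_pp) T4.ok_pp (w := 200) (c := ⟨⟨.negSucc 2126, .negSucc 519, .ofNat 321, .negSucc 904, .negSucc 370, .negSucc 754⟩, ⟨.negSucc 657, .negSucc 246, .negSucc 123, .negSucc 336, .negSucc 147, .negSucc 293⟩, ⟨.ofNat 1197, .ofNat 364, .negSucc 297, .ofNat 493, .ofNat 220, .ofNat 476⟩, ⟨.negSucc 3614, .negSucc 706, .ofNat 490, .negSucc 1686, .negSucc 589, .negSucc 1292⟩, ⟨.ofNat 265, .ofNat 59, .negSucc 17, .ofNat 538, .negSucc 37, .ofNat 163⟩, .ofNat 546, .negSucc 544, .ofNat 0, .negSucc 544, .ofNat 1581, .ofNat 0, .ofNat 1188, .ofNat 1509, .negSucc 3143, .ofNat 0, .ofNat 934, .negSucc 1131, .ofNat 0, .ofNat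 0, .ofNat 3080, .ofNat 6420, .ofNat 0, .ofNat 389104000147980431746560760082123980800, .ofNat 0, .ofNat 0, .ofNat 0, .ofNat 19598928581043473102457498627865155993600, .ofNat 0, .ofNat 0, .ofNat 0, .ofNat 14240063992941381142037673756054886809600, .ofNat 0, .ofNat 0, .ofNat 0, .ofNat 14932251594848993084276864185688024678400, .ofNat 0, .ofNat 0⟩)
    (by decide +kernel)
theorem L00815 : Good (Phi V4.P V4.D 1 1) ⟨5, 25, 3, 2, 3, 5, 4, 15, 3, 1⟩ :=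
  leaf_sound (S := T4.ds_pp) T4.ok_pp (w := 200) (c := ⟨⟨.negSucc 2401, .negSucc 682, .ofNat 432, .negSucc 989, .negSucc 446, .negSucc 1285⟩, ⟨.negSucc 777, .negSucc 320, .negSucc 65, .negSucc 362, .negSucc 188, .negSucc 500⟩, ⟨.ofNat 1346, .ofNat 475, .negSucc 370, .ofNat 543, .ofNat 271, .ofNat 875⟩, ⟨.negSucc 4074, .negSucc 961, .ofNat 684, .negSucc 1794, .negSucc 702, .negSucc 2144⟩, ⟨.ofNat 269, .ofNat 49, .negSucc 34, .ofNat 474, .negSucc 48, .ofNat 164⟩, .ofNat 538, .negSucc 527, .ofNat 0, .negSucc 527, .ofNat 1542, .ofNat 0, .ofNat 1251, .ofNat 1571, .negSucc 3910, .ofNat 0, .ofNat 984, .negSucc 1423, .ofNat 0, .ofNat 0, .ofNat 3559, .ofNat 10467, .ofNat 0, .ofNat 1874688540224230332558471519942790348800, .ofNat 0, .ofNat 0, .ofNat 0, .ofNat 54968852834782110874068737645485228032000, .ofNat 342713638617551291445165436384051200, .ofNat 0, .ofNat 0, .ofNat 80366283444952219522740403250543984640000,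 .ofNat 0, .ofNat 0, .ofNat 0, .ofNat 108095116022560338413062043093922584985600, .ofNat 92664228888199818577379325483417600, .ofNat 0⟩)
    (by decide +kernel)
theorem L00816 : Good (Phi V4.P V4.D 1 1) ⟨5, 26, 3, 2, 3, 4, 3, 6, 3, 1⟩ :=
  leaf_sound (S := T4.ds_pp) T4.ok_pp (w := 192) (c := ⟨⟨.negSucc 1652, .negSucc 282, .ofNat 48, .negSucc 523, .negSucc 310, .negSucc 293⟩, ⟨.negSucc 577, .negSucc 166, .negSucc 119, .negSucc 210, .negSucc 136, .negSucc 122⟩, ⟨.ofNat 908, .ofNat 209, .negSucc 14, .ofNat 293, .ofNat 166, .ofNat 153⟩, ⟨.negSucc 2674, .negSucc 401, .ofNat 94, .negSucc 972, .negSucc 481, .negSucc 503⟩, ⟨.ofNat 92, .ofNat 117, .negSucc 43, .ofNat 319, .negSucc 30, .ofNat 83⟩, .ofNat 1165, .negSucc 1783, .ofNat 0, .negSucc 1783, .ofNat 4167, .ofNat 0, .ofNat 384, .ofNat 685, .negSucc 1041, .ofNat 0, .ofNat 391, .negSucc 438, .ofNat 0, .ofNat 0, .ofNat 1292, .ofNat 4992, .ofNat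 0, .ofNat 34583880428562985360007287999876300800, .ofNat 882510530099531084655217134796800, .ofNat 0, .ofNat 0, .ofNat 1368656537226607008718661661065478144000, .ofNat 115814745569015894007239484742041600, .ofNat 0, .ofNat 0, .ofNat 0, .ofNat 75676001716256705882004069443174400, .ofNat 0, .ofNat 0, .ofNat 573308616926101612707521362295311564800, .ofNat 30760914348506585376084959900467200, .ofNat 0⟩)
    (by decide +kernel)
theorem L00817 : Good (Phi V4.P V4.D 1 1) ⟨5, 26, 3, 2, 3, 5, 3, 6, 3, 1⟩ :=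
  leaf_sound (S := T4.ds_pp) T4.ok_pp (w := 192) (c := ⟨⟨.negSucc 2296, .negSucc 76, .ofNat 203, .negSucc 681, .negSucc 562, .negSucc 222⟩, ⟨.negSucc 771, .negSucc 71, .negSucc 125, .negSucc 268, .negSucc 244, .negSucc 91⟩, ⟨.ofNat 1385, .ofNat 67, .negSucc 186, .ofNat 360, .ofNat 308, .ofNat 55⟩, ⟨.negSucc 3809, .ofNat 15, .ofNat 313, .negSucc 1329, .negSucc 885, .negSucc 399⟩, ⟨.ofNat 408, .negSucc 26, .negSucc 49, .ofNat 558, .negSucc 21, .ofNat 102⟩, .ofNat 1377, .negSucc 2230, .ofNat 0, .negSucc 2230, .ofNat 5133, .ofNat 0, .ofNat 199, .ofNat 389, .negSucc 546, .ofNat 0, .ofNat 214, .negSucc 229, .ofNat 0, .ofNat 0, .ofNat 640, .ofNat 1224, .ofNat 0, .ofNat 9969756334528057068144402672648192000, .ofNat 16240493400609824192637960192000, .ofNat 0, .ofNat 0, .ofNat 12950737206708412824195367654391808000, .ofNat 47249779297361440271014761490022400, .ofNat 0, .ofNat 0, .ofNat 0, .ofNat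 20622263533162272810529895271628800, .ofNat 0, .ofNat 0, .ofNat 258076533772666435732427498248470528000, .ofNat 9460461271992418273556748356812800, .ofNat 0⟩)
    (by decide +kernel)
theorem L00818 : Good (Phi V4.P V4.D 1 1) ⟨5, 27, 3, 2, 2, 2, 3, 6, 3, 1⟩ :=
  out_sound (S := T4.ds_pp) T4.ok_pp (w := 64) (j := 3) (by decide +kernel)
theorem L00819 : Good (Phi V4.P V4.D 1 1) ⟨5, 26, 4, 4, 2, 2, 4, 14, 3, 1⟩ :=
  out_sound (S := T4.ds_pp) T4.ok_pp (w := 64) (j := 3) (by decide +kernel)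
theorem L00820 : Good (Phi V4.P V4.D 1 1) ⟨6, 52, 4, 5, 2, 2, 4, 14, 4, 2⟩ :=
  leaf_sound (S := T4.ds_pp) T4.ok_pp (w := 200) (c := ⟨⟨.negSucc 1481, .negSucc 236, .negSucc 133, .negSucc 1651, .negSucc 339, .negSucc 382⟩, ⟨.negSucc 554, .negSucc 129, .negSucc 151, .negSucc 678, .negSucc 150, .negSucc 161⟩, ⟨.ofNat 851, .ofNat 150, .ofNat 2, .ofNat 911, .ofNat 224, .ofNat 261⟩, ⟨.negSucc 2271, .negSucc 329, .negSucc 295, .negSucc 2988, .negSucc 523, .negSucc 652⟩, ⟨.negSucc 208, .ofNat 48, .ofNat 177, .ofNat 826, .negSucc 40, .ofNat 102⟩, .ofNat 569, .negSucc 579, .ofNat 0, .negSucc 579, .ofNat 1543, .ofNat 0, .ofNat 557, .ofNat 731, .negSucc 1697, .ofNat 0, .ofNat 478, .negSucc 670, .ofNat 0, .ofNat 0, .ofNat 1671, .ofNat 3573, .ofNat 0, .ofNat 207145075682176400291207839314503270400, .ofNat 0, .ofNat 0, .ofNat 0, .ofNat 8169457005606329732426397242231881728000, .ofNat 521579497506994387930257240883200,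 .ofNat 0, .ofNat 0, .ofNat 0, .ofNat 1345992640656119312795265348403200, .ofNat 0, .ofNat 0, .ofNat 2320645886202940444521926007234704179200, .ofNat 586750430663157688624768824115200, .ofNat 0⟩)
    (by decide +kernel)
theorem L00821 : Good (Phi V4.P V4.D 1 1) ⟨6, 53, 4, 5, 2, 2, 4, 14, 4, 2⟩ :=
  out_sound (S := T4.ds_pp) T4.ok_pp (w := 72) (j := 3) (by decide +kernel)
theorem L00822 : Good (Phi V4.P V4.D 1 1) ⟨5, 26, 4, 5, 2, 2, 4, 14, 4, 3⟩ :=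
  leaf_sound (S := T4.ds_pp) T4.ok_pp (w := 192) (c := ⟨⟨.negSucc 2053, .negSucc 441, .ofNat 66, .negSucc 1539, .negSucc 374, .negSucc 205⟩, ⟨.negSucc 803, .negSucc 235, .negSucc 59, .negSucc 635, .negSucc 163, .negSucc 87⟩, ⟨.ofNat 1206, .ofNat 348, .negSucc 105, .ofNat 848, .ofNat 272, .ofNat 157⟩, ⟨.negSucc 3264, .negSucc 582, .ofNat 63, .negSucc 2767, .negSucc 588, .negSucc 347⟩, ⟨.negSucc 20, .ofNat 16, .ofNat 87, .ofNat 726, .negSucc 18, .ofNat 45⟩, .ofNat 1169, .negSucc 1792, .ofNat 0, .negSucc 1792, .ofNat 4188, .ofNat 0, .ofNat 391, .ofNat 711, .negSucc 1283, .ofNat 0, .ofNat 404, .negSucc 550, .ofNat 0, .ofNat 0, .ofNat 1412, .ofNat 2085, .ofNat 0, .ofNat 17838561058514919873003008246258073600, .ofNat 13083948528467687312371325337600, .ofNat 0, .ofNat 0, .ofNat 1286320745977081917819984199535925657600, .ofNat 20179270881300482350480633312051200, .ofNat 0, .ofNat 0, .ofNat 795739583738296396490536006079584665600,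 .ofNat 18968655903443324755923836495462400, .ofNat 0, .ofNat 0, .ofNat 857804938652339789488816849866561945600, .ofNat 0, .ofNat 0⟩)
    (by decide +kernel)
theorem L00823 : Good (Phi V4.P V4.D 1 1) ⟨5, 26, 3, 2, 2, 2, 4, 15, 3, 1⟩ :=
  leaf_sound (S := T4.ds_pp) T4.ok_pp (w := 192) (c := ⟨⟨.negSucc 2061, .negSucc 470, .ofNat 181, .negSucc 1795, .negSucc 371, .negSucc 915⟩, ⟨.negSucc 742, .negSucc 269, .negSucc 75, .negSucc 746, .negSucc 162, .negSucc 392⟩, ⟨.ofNat 1181, .ofNat 424, .negSucc 192, .ofNat 1022, .ofNat 270, .ofNat 737⟩, ⟨.negSucc 3265, .negSucc 524, .ofNat 260, .negSucc 3171, .negSucc 575, .negSucc 1498⟩, ⟨.negSucc 39, .negSucc 202, .ofNat 52, .ofNat 715, .negSucc 39, .ofNat 92⟩, .ofNat 910, .negSucc 1254, .ofNat 0, .negSucc 1254, .ofNat 3024, .ofNat 0, .ofNat 917, .ofNat 1572, .negSucc 3602, .ofNat 0, .ofNat 913, .negSucc 1533, .ofNat 0, .ofNat 0, .ofNat 3510, .ofNat 3958,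 .ofNat 0, .ofNat 4534085685138309338551983434996121600, .ofNat 4154743905628264424053250457600, .ofNat 0, .ofNat 0, .ofNat 301027364358910648760369588720998809600, .ofNat 7044530116569228520728590234419200, .ofNat 0, .ofNat 0, .ofNat 334739767415290746155923467853312819200, .ofNat 4996950299677654644764251363737600, .ofNat 0, .ofNat 0, .ofNat 569156713445500737213612742221496320000, .ofNat 1506093735756976871255549411328000, .ofNat 0⟩)
    (by decide +kernel)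
theorem L00824 : Good (Phi V4.P V4.D 1 1) ⟨5, 27, 3, 2, 2, 2, 3, 7, 3, 1⟩ :=
  out_sound (S := T4.ds_pp) T4.ok_pp (w := 64) (j := 3) (by decide +kernel)
theorem L00825 : Good (Phi V4.P V4.D 1 1) ⟨3, 7, 3, 2, 2, 2, 2, 3, 2, 0⟩ :=
  out_sound (S := T4.ds_pp) T4.ok_pp (w := 48) (j := 3) (by decide +kernel)
theorem L00826 : Good (Phi V4.P V4.D 1 1) ⟨4, 12, 3, 3, 2, 2, 3, 6, 3, 0⟩ :=
  leaf_sound (S := T4.ds_pp) T4.ok_pp (w := 184) (c := ⟨⟨.negSucc 760, .negSucc 243, .ofNat 0, .negSucc 742, .negSucc 46, .negSucc 910⟩, ⟨.negSucc 278, .negSucc 157, .negSucc 147, .negSucc 300, .negSucc 23, .negSucc 391⟩, ⟨.ofNat 335, .ofNat 274, .negSucc 125, .ofNat 475, .negSucc 133, .ofNat 506⟩, ⟨.negSucc 1317, .negSucc 229, .negSucc 33, .negSucc 1494, .negSucc 31, .negSucc 1541⟩, ⟨.negSucc 156, .ofNat 42, .ofNat 45, .ofNat 700, .negSucc 98, .ofNat 193⟩, .ofNat 1745, .negSucc 3060, .ofNat 0, .negSucc 3060, .ofNat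 7012, .ofNat 0, .ofNat 188, .ofNat 433, .negSucc 694, .ofNat 0, .ofNat 226, .negSucc 295, .ofNat 0, .ofNat 0, .ofNat 772, .ofNat 885, .ofNat 0, .ofNat 0, .ofNat 0, .ofNat 0, .ofNat 0, .ofNat 0, .ofNat 0, .ofNat 0, .ofNat 0, .ofNat 0, .ofNat 31593407135043180921530351616000, .ofNat 0, .ofNat 0, .ofNat 0, .ofNat 53513046929161251433672291123200, .ofNat 0⟩)
    (by decide +kernel)
theorem L00827 : Good (Phi V4.P V4.D 1 1) ⟨4, 13, 3, 3, 3, 4, 3, 6, 3, 0⟩ :=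
  leaf_sound (S := T4.ds_pp) T4.ok_pp (w := 192) (c := ⟨⟨.negSucc 1146, .negSucc 425, .ofNat 116, .negSucc 264, .ofNat 2, .negSucc 777⟩, ⟨.negSucc 474, .negSucc 260, .negSucc 68, .negSucc 114, .negSucc 6, .negSucc 368⟩, ⟨.ofNat 681, .ofNat 290, .negSucc 100, .ofNat 159, .negSucc 183, .ofNat 458⟩, ⟨.negSucc 1822, .negSucc 552, .ofNat 194, .negSucc 537, .ofNat 55, .negSucc 1291⟩, ⟨.negSucc 36, .ofNat 134, .negSucc 39, .ofNat 255, .negSucc 105, .ofNat 159⟩, .ofNat 1172, .negSucc 1721, .ofNat 0, .negSucc 1721, .ofNat 3757, .ofNat 0, .ofNat 191, .ofNat 409, .negSucc 705, .ofNat 0, .ofNat 236, .negSucc 322, .ofNat 0, .ofNat 0, .ofNat 803, .ofNat 790, .ofNat 0, .ofNat 0, .ofNat 0, .ofNat 0, .ofNat 0, .ofNat 0, .ofNat 10350875147054165904490358007398400, .ofNat 0, .ofNat 0, .ofNat 0, .ofNat 7090023430203243341949571380019200, .ofNat 0, .ofNat 0, .ofNat 0, .ofNat 4446534609347898070236796865740800,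 .ofNat 0⟩)
    (by decide +kernel)
theorem L00828 : Good (Phi V4.P V4.D 1 1) ⟨4, 13, 3, 3, 3, 5, 3, 6, 3, 0⟩ :=
  leaf_sound (S := T4.ds_pp) T4.ok_pp (w := 192) (c := ⟨⟨.negSucc 1118, .negSucc 375, .ofNat 49, .negSucc 560, .negSucc 34, .negSucc 1303⟩, ⟨.negSucc 439, .negSucc 233, .negSucc 158, .negSucc 251, .negSucc 12, .negSucc 607⟩, ⟨.ofNat 687, .ofNat 195, .negSucc 52, .ofNat 338, .negSucc 137, .ofNat 749⟩, ⟨.negSucc 1858, .negSucc 468, .ofNat 78, .negSucc 1106, .ofNat 6, .negSucc 2191⟩, ⟨.ofNat 146, .ofNat 164, .negSucc 36, .ofNat 475, .negSucc 133, .ofNat 304⟩, .ofNat 1169, .negSucc 1723, .ofNat 0, .negSucc 1723, .ofNat 3787, .ofNat 0, .ofNat 198, .ofNat 468, .negSucc 809, .ofNat 0, .ofNat 261, .negSucc 367, .ofNat 0, .ofNat 0, .ofNat 818, .ofNat 395, .ofNat 0, .ofNat 0, .ofNat 66071668671090132894653349888000, .ofNat 0, .ofNat 0, .ofNat 0, .ofNat 9710357460627102525616958314905600,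 .ofNat 0, .ofNat 0, .ofNat 0, .ofNat 4737193950034493633336798556979200, .ofNat 0, .ofNat 0, .ofNat 0, .ofNat 1980849276224687866050988159795200, .ofNat 0⟩)
    (by decide +kernel)
theorem L00829 : Good (Phi V4.P V4.D 1 1) ⟨3, 7, 3, 3, 2, 2, 3, 6, 3, 0⟩ :=
  out_sound (S := T4.ds_pp) T4.ok_pp (w := 48) (j := 3) (by decide +kernel)
theorem L00830 : Good (Phi V4.P V4.D 1 1) ⟨4, 12, 3, 3, 2, 2, 3, 7, 3, 0⟩ :=
  leaf_sound (S := T4.ds_pp) T4.ok_pp (w := 184) (c := ⟨⟨.negSucc 392, .negSucc 211, .negSucc 211, .negSucc 1069, .negSucc 36, .negSucc 1527⟩, ⟨.negSucc 120, .negSucc 144, .negSucc 258, .negSucc 443, .negSucc 17, .negSucc 658⟩, ⟨.negSucc 95, .ofNat 220, .negSucc 8, .ofNat 660, .negSucc 131, .ofNat 1054⟩, ⟨.negSucc 798, .negSucc 56, .negSucc 397, .negSucc 2014, .negSucc 46, .negSucc 2551⟩, ⟨.negSucc 13, .negSucc 223, .ofNat 127, .ofNat 690, .negSucc 23, .ofNat 240⟩, .ofNat 1786, .negSucc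 3153, .ofNat 0, .negSucc 3153, .ofNat 7228, .ofNat 0, .ofNat 198, .ofNat 463, .negSucc 935, .ofNat 0, .ofNat 242, .negSucc 403, .ofNat 0, .ofNat 0, .ofNat 905, .ofNat 527, .ofNat 0, .ofNat 0, .ofNat 756186066854302102298453606400, .ofNat 0, .ofNat 0, .ofNat 0, .ofNat 0, .ofNat 0, .ofNat 0, .ofNat 104339529502612059204797751676108800, .ofNat 10493256241395537884678298009600, .ofNat 0, .ofNat 0, .ofNat 91098665084214387156991121503027200, .ofNat 25108438917874984032723900825600, .ofNat 0⟩)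
    (by decide +kernel)
theorem L00831 : Good (Phi V4.P V4.D 1 1) ⟨5, 26, 3, 3, 3, 4, 4, 14, 3, 0⟩ :=
  leaf_sound (S := T4.ds_pp) T4.ok_pp (w := 200) (c := ⟨⟨.negSucc 962, .negSucc 226, .ofNat 156, .negSucc 350, .ofNat 18, .negSucc 1126⟩, ⟨.negSucc 389, .negSucc 160, .negSucc 19, .negSucc 159, .ofNat 4, .negSucc 537⟩, ⟨.ofNat 344, .ofNat 195, .negSucc 198, .ofNat 202, .negSucc 96, .ofNat 824⟩, ⟨.negSucc 1485, .negSucc 269, .ofNat 243, .negSucc 664, .ofNat 39, .negSucc 1864⟩, ⟨.negSucc 145, .ofNat 33, .negSucc 21, .ofNat 239, .negSucc 21, .ofNat 213⟩, .ofNat 636, .negSucc 698, .ofNat 0, .negSucc 698, .ofNat 1688, .ofNat 0, .ofNat 531, .ofNat 796, .negSucc 2070, .ofNat 0, .ofNat 521, .negSucc 897, .ofNat 0, .ofNat 0, .ofNat 2043, .ofNat 3206, .ofNat 0, .ofNat 0, .ofNat 0, .ofNat 0, .ofNat 0, .ofNat 0, .ofNat 0, .ofNat 0, .ofNat 0, .ofNat 0, .ofNat 0, .ofNat 0, .ofNat 0, .ofNat 0, .ofNat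 18083960103875436290624075071488000, .ofNat 0⟩)
    (by decide +kernel)
theorem L00832 : Good (Phi V4.P V4.D 1 1) ⟨5, 26, 4, 6, 3, 4, 4, 15, 3, 0⟩ :=
  leaf_sound (S := T4.ds_pp) T4.ok_pp (w := 200) (c := ⟨⟨.negSucc 827, .negSucc 426, .ofNat 190, .negSucc 390, .ofNat 72, .negSucc 1441⟩, ⟨.negSucc 340, .negSucc 227, .ofNat 21, .negSucc 172, .ofNat 35, .negSucc 656⟩, ⟨.ofNat 142, .ofNat 336, .negSucc 188, .ofNat 234, .negSucc 122, .ofNat 1114⟩, ⟨.negSucc 1264, .negSucc 595, .ofNat 306, .negSucc 721, .ofNat 108, .negSucc 2364⟩, ⟨.negSucc 154, .ofNat 27, .negSucc 6, .ofNat 232, .ofNat 11, .ofNat 194⟩, .ofNat 1059, .negSucc 1531, .ofNat 0, .negSucc 1531, .ofNat 3488, .ofNat 0, .ofNat 219, .ofNat 428, .negSucc 1103, .ofNat 0, .ofNat 247, .negSucc 495, .ofNat 0, .ofNat 0, .ofNat 1059, .ofNat 733, .ofNat 0, .ofNat 0, .ofNat 0, .ofNat 0, .ofNat 0, .ofNat 0, .ofNat 0, .ofNat 0, .ofNat 0, .ofNat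 4981354587239177152775538462963636633600, .ofNat 0, .ofNat 0, .ofNat 0, .ofNat 10171773864605749294710677678312757657600, .ofNat 9907438393851755647324390214860800, .ofNat 0⟩)
    (by decide +kernel)
theorem L00833 : Good (Phi V4.P V4.D 1 1) ⟨5, 26, 4, 7, 3, 4, 4, 15, 3, 0⟩ :=
  leaf_sound (S := T4.ds_pp) T4.ok_pp (w := 200) (c := ⟨⟨.negSucc 199, .negSucc 1054, .ofNat 693, .negSucc 439, .ofNat 166, .negSucc 1765⟩, ⟨.negSucc 49, .negSucc 573, .ofNat 295, .negSucc 212, .ofNat 90, .negSucc 874⟩, ⟨.negSucc 399, .ofNat 867, .negSucc 611, .ofNat 260, .negSucc 211, .ofNat 1385⟩, ⟨.negSucc 312, .negSucc 1532, .ofNat 1060, .negSucc 798, .ofNat 249, .negSucc 2835⟩, ⟨.negSucc 138, .negSucc 14, .ofNat 25, .ofNat 231, .ofNat 8, .ofNat 188⟩, .ofNat 1297, .negSucc 1931, .ofNat 0, .negSucc 1931, .ofNat 4073, .ofNat 0, .ofNat 189, .ofNat 448, .negSucc 1197, .ofNat 0, .ofNat 260, .negSucc 581, .ofNat 0,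 .ofNat 0, .ofNat 1125, .ofNat 515, .ofNat 0, .ofNat 0, .ofNat 0, .ofNat 0, .ofNat 0, .ofNat 0, .ofNat 0, .ofNat 0, .ofNat 0, .ofNat 0, .ofNat 0, .ofNat 0, .ofNat 0, .ofNat 3656228552661400794480458087747341516800, .ofNat 39219289525811724504082180315545600, .ofNat 0⟩)
    (by decide +kernel)
theorem L00834 : Good (Phi V4.P V4.D 1 1) ⟨5, 26, 4, 6, 3, 5, 3, 7, 3, 0⟩ :=
  leaf_sound (S := T4.ds_pp) T4.ok_pp (w := 200) (c := ⟨⟨.negSucc 627, .negSucc 938, .ofNat 316, .negSucc 785, .negSucc 243, .negSucc 1929⟩, ⟨.negSucc 206, .negSucc 452, .ofNat 40, .negSucc 355, .negSucc 119, .negSucc 890⟩, ⟨.ofNat 159, .ofNat 639, .negSucc 263, .ofNat 487, .negSucc 0, .ofNat 1258⟩, ⟨.negSucc 1048, .negSucc 1396, .ofNat 496, .negSucc 1440, .negSucc 356, .negSucc 3174⟩, ⟨.ofNat 47, .ofNat 58, .negSucc 6, .ofNat 444, .negSucc 48, .ofNat 290⟩, .ofNat 1091, .negSucc 1588, .ofNat 0, .negSucc 1588, .ofNat 3578,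 .ofNat 0, .ofNat 439, .ofNat 987, .negSucc 2117, .ofNat 0, .ofNat 550, .negSucc 954, .ofNat 0, .ofNat 0, .ofNat 1901, .ofNat 698, .ofNat 0, .ofNat 33116228082091046460157038219283660800, .ofNat 66281118967520755049481161932800, .ofNat 0, .ofNat 0, .ofNat 0, .ofNat 0, .ofNat 0, .ofNat 0, .ofNat 5520494241193682362396022405299018137600, .ofNat 0, .ofNat 0, .ofNat 0, .ofNat 9896555311910627954974600493695972147200, .ofNat 3609140137375861545816343707648000, .ofNat 0⟩)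
    (by decide +kernel)
theorem L00835 : Good (Phi V4.P V4.D 1 1) ⟨5, 26, 4, 7, 3, 5, 3, 7, 3, 0⟩ :=
  leaf_sound (S := T4.ds_pp) T4.ok_pp (w := 200) (c := ⟨⟨.negSucc 293, .negSucc 1172, .ofNat 674, .negSucc 685, .negSucc 31, .negSucc 2003⟩, ⟨.negSucc 90, .negSucc 612, .ofNat 249, .negSucc 328, .negSucc 13, .negSucc 989⟩, ⟨.negSucc 104, .ofNat 812, .negSucc 514, .ofNat 416, .negSucc 154, .ofNat 1306⟩, ⟨.negSucc 543, .negSucc 1745, .ofNat 1054, .negSucc 1287, .negSucc 24, .negSucc 3268⟩, ⟨.ofNat 15, .ofNat 78, .negSucc 42, .ofNat 448, .negSucc 52, .ofNat 314⟩, .ofNat 1295, .negSucc 1922, .ofNat 0, .negSucc 1922, .ofNat 4039, .ofNat 0, .ofNat 193, .ofNat 510, .negSucc 1128, .ofNat 0, .ofNat 290, .negSucc 545, .ofNat 0, .ofNat 0, .ofNat 1000, .ofNat 307, .ofNat 0, .ofNat 0, .ofNat 50314403898560943250965371289600, .ofNat 0, .ofNat 0, .ofNat 0, .ofNat 0, .ofNat 0, .ofNat 0, .ofNat 0, .ofNat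 0, .ofNat 0, .ofNat 0, .ofNat 1868808788283911814535698701233422336000, .ofNat 0, .ofNat 0⟩)
    (by decide +kernel)
theorem L00836 : Good (Phi V4.P V4.D 1 1) ⟨5, 27, 4, 6, 2, 2, 3, 7, 3, 0⟩ :=
  out_sound (S := T4.ds_pp) T4.ok_pp (w := 64) (j := 3) (by decide +kernel)
theorem L00837 : Good (Phi V4.P V4.D 1 1) ⟨5, 27, 4, 7, 2, 2, 3, 7, 4, 0⟩ :=
  leaf_sound (S := T4.ds_pp) T4.ok_pp (w := 192) (c := ⟨⟨.negSucc 1237, .ofNat 764, .ofNat 578, .negSucc 827, .ofNat 452, .negSucc 1270⟩, ⟨.negSucc 591, .ofNat 381, .ofNat 240, .negSucc 417, .ofNat 237, .negSucc 660⟩, ⟨.ofNat 583, .negSucc 402, .negSucc 512, .ofNat 549, .negSucc 539, .ofNat 892⟩, ⟨.negSucc 1778, .ofNat 1250, .ofNat 864, .negSucc 1619, .ofNat 702, .negSucc 2017⟩, ⟨.negSucc 238, .negSucc 22, .ofNat 43, .ofNat 666, .negSucc 13, .ofNat 124⟩, .ofNat 3285, .negSucc 5571, .ofNat 0, .negSucc 5571, .ofNat 10730, .ofNat 0, .ofNat 139, .ofNat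 521, .negSucc 1233, .ofNat 0, .ofNat 293, .negSucc 640, .ofNat 0, .ofNat 0, .ofNat 1105, .ofNat 394, .ofNat 0, .ofNat 0, .ofNat 3730045658866175362852926259200, .ofNat 0, .ofNat 0, .ofNat 0, .ofNat 799997934337835617556374958899200, .ofNat 0, .ofNat 0, .ofNat 3811048612790378933216652584760115200, .ofNat 346563487323697449081898008576000, .ofNat 0, .ofNat 0, .ofNat 63911690907511270466712801584244326400, .ofNat 183120767157271216212924589670400, .ofNat 0⟩)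
    (by decide +kernel)
theorem L00838 : Good (Phi V4.P V4.D 1 1) ⟨6, 54, 4, 7, 2, 2, 3, 7, 4, 1⟩ :=
  leaf_sound (S := T4.ds_pp) T4.ok_pp (w := 200) (c := ⟨⟨.negSucc 2019, .negSucc 313, .ofNat 903, .negSucc 1465, .negSucc 384, .negSucc 905⟩, ⟨.negSucc 980, .negSucc 184, .ofNat 392, .negSucc 750, .negSucc 200, .negSucc 469⟩, ⟨.ofNat 1048, .ofNat 259, .negSucc 602, .ofNat 809, .ofNat 152, .ofNat 655⟩, ⟨.negSucc 3022, .negSucc 385, .ofNat 1336, .negSucc 2630, .negSucc 559, .negSucc 1458⟩, ⟨.negSucc 155, .negSucc 67, .ofNat 87, .ofNat 724, .negSucc 59, .ofNat 127⟩, .ofNat 3327, .negSucc 5646, .ofNat 0, .negSucc 5646, .ofNat 10861, .ofNat 0, .ofNat 260, .ofNat 961, .negSucc 2168, .ofNat 0, .ofNat 540, .negSucc 1127, .ofNat 0, .ofNat 0, .ofNat 2012, .ofNat 660, .ofNat 0, .ofNat 5234176223222943237954606093828096000, .ofNat 640120515452373278700601344000, .ofNat 0, .ofNat 0, .ofNat 0, .ofNat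 698745487681947340400071016448000, .ofNat 0, .ofNat 0, .ofNat 1619352473186484720533309213649980620800, .ofNat 356891463636142012178471741030400, .ofNat 0, .ofNat 0, .ofNat 6398126011634093415663465486969785548800, .ofNat 317637038638167348491071782912000, .ofNat 0⟩)
    (by decide +kernel)
theorem L00839 : Good (Phi V4.P V4.D 1 1) ⟨6, 55, 4, 7, 2, 2, 3, 7, 4, 1⟩ :=
  out_sound (S := T4.ds_pp) T4.ok_pp (w := 72) (j := 3) (by decide +kernel)
theorem L00840 : Good (Phi V4.P V4.D 1 1) ⟨3, 7, 3, 3, 2, 2, 3, 7, 3, 0⟩ :=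
  out_sound (S := T4.ds_pp) T4.ok_pp (w := 48) (j := 3) (by decide +kernel)
theorem L00841 : Good (Phi V4.P V4.D 1 1) ⟨4, 12, 3, 3, 3, 4, 3, 6, 3, 1⟩ :=
  leaf_sound (S := T4.ds_pp) T4.ok_pp (w := 192) (c := ⟨⟨.negSucc 1297, .negSucc 342, .ofNat 121, .negSucc 507, .negSucc 274, .negSucc 256⟩, ⟨.negSucc 493, .negSucc 216, .negSucc 96, .negSucc 210, .negSucc 120, .negSucc 107⟩, ⟨.ofNat 697, .ofNat 211, .negSucc 143, .ofNat 281, .ofNat 141, .ofNat 137⟩, ⟨.negSucc 2292, .negSucc 348, .ofNat 193, .negSucc 943, .negSucc 431, .negSucc 445⟩, ⟨.ofNat 14, .ofNat 46, .negSucc 14, .ofNat 299, .negSucc 20, .ofNat 78⟩, .ofNat 1391, .negSucc 2301, .ofNat 0, .negSucc 2301, .ofNat 5367, .ofNat 0, .ofNat 339, .ofNat 696, .negSucc 1033, .ofNat 0, .ofNat 375, .negSucc 439, .ofNat 0, .ofNat 0, .ofNat 1290, .ofNat 4500, .ofNat 0, .ofNat 0, .ofNat 0, .ofNat 0, .ofNat 0, .ofNat 0, .ofNat 0, .ofNat 0, .ofNat 0,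 .ofNat 40542033977699232582987957486275788800, .ofNat 49637509768888044237041493344256000, .ofNat 0, .ofNat 0, .ofNat 0, .ofNat 88841555244915914565307121585356800, .ofNat 0⟩)
    (by decide +kernel)
theorem L00842 : Good (Phi V4.P V4.D 1 1) ⟨4, 12, 3, 3, 3, 4, 3, 7, 3, 1⟩ :=
  leaf_sound (S := T4.ds_pp) T4.ok_pp (w := 192) (c := ⟨⟨.negSucc 848, .negSucc 868, .ofNat 162, .negSucc 703, .negSucc 607, .negSucc 559⟩, ⟨.negSucc 284, .negSucc 457, .negSucc 106, .negSucc 297, .negSucc 268, .negSucc 241⟩, ⟨.ofNat 249, .ofNat 646, .negSucc 194, .ofNat 404, .ofNat 409, .ofNat 416⟩, ⟨.negSucc 1560, .negSucc 1190, .ofNat 269, .negSucc 1254, .negSucc 957, .negSucc 943⟩, ⟨.negSucc 66, .ofNat 98, .negSucc 30, .ofNat 293, .negSucc 38, .ofNat 107⟩, .ofNat 1408, .negSucc 2335, .ofNat 0, .negSucc 2335, .ofNat 5429, .ofNat 0, .ofNat 353, .ofNat 744, .negSucc 1366, .ofNat 0, .ofNat 399, .negSucc 590, .ofNat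 0, .ofNat 0, .ofNat 1485, .ofNat 1890, .ofNat 0, .ofNat 1637037608686445286249267108564172800, .ofNat 0, .ofNat 0, .ofNat 0, .ofNat 0, .ofNat 0, .ofNat 0, .ofNat 0, .ofNat 89646151982639678137535985604362240000, .ofNat 18182786444366054459036025854361600, .ofNat 0, .ofNat 0, .ofNat 175445985935940517480273665054474240000, .ofNat 5800778402650911819554862661632000, .ofNat 0⟩)
    (by decide +kernel)
theorem L00843 : Good (Phi V4.P V4.D 1 1) ⟨5, 26, 3, 3, 3, 4, 3, 6, 3, 1⟩ :=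
  leaf_sound (S := T4.ds_pp) T4.ok_pp (w := 192) (c := ⟨⟨.negSucc 1577, .negSucc 424, .ofNat 260, .negSucc 544, .negSucc 355, .negSucc 295⟩, ⟨.negSucc 653, .negSucc 251, .negSucc 24, .negSucc 254, .negSucc 172, .negSucc 142⟩, ⟨.ofNat 873, .ofNat 296, .negSucc 214, .ofNat 294, .ofNat 201, .ofNat 167⟩, ⟨.negSucc 2553, .negSucc 571, .ofNat 400, .negSucc 999, .negSucc 543, .negSucc 499⟩, ⟨.ofNat 58, .ofNat 62, .negSucc 26, .ofNat 308, .negSucc 24, .ofNat 78⟩, .ofNat 638, .negSucc 699, .ofNat 0, .negSucc 699, .ofNat 1683, .ofNat 0, .ofNat 227, .ofNat 332, .negSucc 611, .ofNat 0, .ofNat 219, .negSucc 262, .ofNat 0, .ofNat 0, .ofNat 708, .ofNat 2044, .ofNat 0, .ofNat 0, .ofNat 0, .ofNat 0, .ofNat 0, .ofNat 0, .ofNat 0, .ofNat 0, .ofNat 0, .ofNat 0, .ofNat 0, .ofNat 0, .ofNat 0, .ofNat 0, .ofNat 0, .ofNat 0⟩)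
    (by decide +kernel)
theorem L00844 : Good (Phi V4.P V4.D 1 1) ⟨5, 26, 4, 6, 3, 4, 4, 14, 3, 1⟩ :=
  leaf_sound (S := T4.ds_pp) T4.ok_pp (w := 200) (c := ⟨⟨.negSucc 1709, .negSucc 381, .ofNat 60, .negSucc 698, .negSucc 352, .negSucc 560⟩, ⟨.negSucc 723, .negSucc 211, .negSucc 65, .negSucc 309, .negSucc 164, .negSucc 255⟩, ⟨.ofNat 890, .ofNat 299, .negSucc 74, .ofNat 390, .ofNat 248, .ofNat 416⟩, ⟨.negSucc 2747, .negSucc 489, .ofNat 93, .negSucc 1243, .negSucc 547, .negSucc 934⟩, ⟨.ofNat 29, .ofNat 43, .negSucc 10, .ofNat 303, .negSucc 20, .ofNat 108⟩, .ofNat 1063, .negSucc 1537, .ofNat 0, .negSucc 1537, .ofNat 3495, .ofNat 0, .ofNat 380, .ofNat 739, .negSucc 1403, .ofNat 0, .ofNat 426, .negSucc 628, .ofNat 0, .ofNat 0, .ofNat 1509, .ofNat 2173, .ofNat 0, .ofNat 355182897824538114866523882798868070400, .ofNat 0, .ofNat 0, .ofNat 0, .ofNat 5237583695710671887721810751978576281600, .ofNat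 0, .ofNat 0, .ofNat 0, .ofNat 20922363521957987064587443668550837862400, .ofNat 112342894695696257791589599307366400, .ofNat 0, .ofNat 0, .ofNat 14732715740499769952513956331925798912000, .ofNat 0, .ofNat 0⟩)
    (by decide +kernel)
theorem L00845 : Good (Phi V4.P V4.D 1 1) ⟨5, 26, 4, 6, 3, 4, 4, 15, 3, 1⟩ :=
  leaf_sound (S := T4.ds_pp) T4.ok_pp (w := 200) (c := ⟨⟨.negSucc 1859, .negSucc 604, .ofNat 141, .negSucc 810, .negSucc 450, .negSucc 1017⟩, ⟨.negSucc 789, .negSucc 329, .negSucc 22, .negSucc 368, .negSucc 209, .negSucc 469⟩, ⟨.ofNat 966, .ofNat 496, .negSucc 153, .ofNat 473, .ofNat 328, .ofNat 829⟩, ⟨.negSucc 2988, .negSucc 823, .ofNat 218, .negSucc 1398, .negSucc 694, .negSucc 1648⟩, ⟨.ofNat 30, .ofNat 16, .ofNat 3, .ofNat 259, .negSucc 38, .ofNat 91⟩, .ofNat 617, .negSucc 667, .ofNat 0, .negSucc 667, .ofNat 1658, .ofNat 0, .ofNat 1022, .ofNat 1452, .negSucc 4166, .ofNat 0, .ofNat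 954, .negSucc 1797, .ofNat 0, .ofNat 0, .ofNat 3983, .ofNat 5153, .ofNat 0, .ofNat 2384956034302911167229340255181497958400, .ofNat 0, .ofNat 0, .ofNat 0, .ofNat 174089217640160604491773290576333294796800, .ofNat 0, .ofNat 0, .ofNat 0, .ofNat 239389878258028080343324608100739894476800, .ofNat 0, .ofNat 0, .ofNat 0, .ofNat 331753876695480552327451368086182664601600, .ofNat 202233615089834011885052580436377600, .ofNat 0⟩)
    (by decide +kernel)
theorem L00846 : Good (Phi V4.P V4.D 1 1) ⟨5, 26, 4, 7, 3, 4, 4, 14, 3, 1⟩ :=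
  leaf_sound (S := T4.ds_pp) T4.ok_pp (w := 200) (c := ⟨⟨.negSucc 1535, .negSucc 392, .ofNat 46, .negSucc 736, .negSucc 400, .negSucc 663⟩, ⟨.negSucc 702, .negSucc 219, .negSucc 82, .negSucc 359, .negSucc 200, .negSucc 327⟩, ⟨.ofNat 730, .ofNat 312, .negSucc 74, .ofNat 401, .ofNat 284, .ofNat 508⟩, ⟨.negSucc 2492, .negSucc 498, .ofNat 73, .negSucc 1294, .negSucc 609, .negSucc 1083⟩, ⟨.ofNat 23, .ofNat 41, .negSucc 7, .ofNat 301, .negSucc 26, .ofNat 105⟩, .ofNat 1297, .negSucc 1929, .ofNat 0, .negSucc 1929, .ofNat 4064, .ofNat 0, .ofNat 330, .ofNat 777, .negSucc 1518, .ofNat 0, .ofNat 450, .negSucc 735, .ofNat 0, .ofNat 0, .ofNat 1584, .ofNat 4285, .ofNat 0, .ofNat 525417187183961418567157166634958848000, .ofNat 0, .ofNat 0, .ofNat 0, .ofNat 0, .ofNat 0, .ofNat 0, .ofNat 0, .ofNat 13036444560712119680278528045895752089600, .ofNat 0, .ofNat 0, .ofNat 0, .ofNat 15283975548608359103978211454172843212800,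 .ofNat 90316618815428531594431535303884800, .ofNat 0⟩)
    (by decide +kernel)
theorem L00847 : Good (Phi V4.P V4.D 1 1) ⟨5, 26, 4, 7, 3, 4, 4, 15, 3, 1⟩ :=
  leaf_sound (S := T4.ds_pp) T4.ok_pp (w := 200) (c := ⟨⟨.negSucc 1572, .negSucc 757, .ofNat 174, .negSucc 840, .negSucc 533, .negSucc 1147⟩, ⟨.negSucc 713, .negSucc 415, .negSucc 15, .negSucc 409, .negSucc 269, .negSucc 567⟩, ⟨.ofNat 716, .ofNat 604, .negSucc 171, .ofNat 478, .ofNat 386, .ofNat 924⟩, ⟨.negSucc 2562, .negSucc 1040, .ofNat 269, .negSucc 1438, .negSucc 807, .negSucc 1831⟩, ⟨.ofNat 35, .ofNat 3, .ofNat 9, .ofNat 263, .negSucc 41, .ofNat 94⟩, .ofNat 667, .negSucc 748, .ofNat 0, .negSucc 748, .ofNat 1741, .ofNat 0, .ofNat 956, .ofNat 1522, .negSucc 4492, .ofNat 0, .ofNat 992, .negSucc 2067, .ofNat 0, .ofNat 0, .ofNat 4203, .ofNat 3777, .ofNat 0, .ofNat 1690659986730760686064401622046343168000, .ofNat 0, .ofNat 0, .ofNat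 0, .ofNat 0, .ofNat 0, .ofNat 0, .ofNat 0, .ofNat 195767635085219370391533407305471308595200, .ofNat 0, .ofNat 0, .ofNat 0, .ofNat 261500412395054332120839591514335923404800, .ofNat 0, .ofNat 0⟩)
    (by decide +kernel)
theorem L00848 : Good (Phi V4.P V4.D 1 1) ⟨5, 27, 4, 6, 3, 4, 2, 3, 3, 1⟩ :=
  out_sound (S := T4.ds_pp) T4.ok_pp (w := 64) (j := 3) (by decide +kernel)
theorem L00849 : Good (Phi V4.P V4.D 1 1) ⟨6, 54, 5, 14, 3, 4, 2, 3, 3, 1⟩ :=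
  out_sound (S := T4.ds_pp) T4.ok_pp (w := 72) (j := 3) (by decide +kernel)

end Crest.Agent.R097C4.N4pp
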