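import Crest.Agent.R097.T4

/-!
# Row 97, box cover in dimension n = 4 (generated)
-/

set_option autoImplicit false
set_option Elab.async false
set_option maxHeartbeats 0
set_option maxRecDepth 100000

open Crest.Agent.R097 Crest.Agent.R097.KA


namespace Crest.Agent.R097C4.N4pp

theorem L00850 : Good (Phi V4.P V4.D 1 1) ⟨7, 108, 5, 15, 3, 4, 3, 6, 3, 1⟩ :=
  leaf_sound (S := T4.ds_pp) T4.ok_pp (w := 208) (c := ⟨⟨.negSucc 1747, .negSucc 104, .ofNat 37, .negSucc 535, .negSucc 386, .negSucc 323⟩, ⟨.negSucc 871, .negSucc 62, .negSucc 23, .negSucc 272, .negSucc 202, .negSucc 167⟩, ⟨.ofNat 979, .ofNat 78, .negSucc 45, .ofNat 281, .ofNat 221, .ofNat 179⟩, ⟨.negSucc 2734, .negSucc 138, .ofNat 56, .negSucc 990, .negSucc 580, .negSucc 538⟩, ⟨.ofNat 90, .ofNat 17, .negSucc 5, .ofNat 320, .negSucc 24, .ofNat 80⟩, .ofNat 3768, .negSucc 6468, .ofNat 0, .negSucc 6468, .ofNat 12398, .ofNat 0, .ofNat 111, .ofNat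 386, .negSucc 574, .ofNat 0, .ofNat 218, .negSucc 297, .ofNat 0, .ofNat 0, .ofNat 683, .ofNat 2606, .ofNat 0, .ofNat 0, .ofNat 0, .ofNat 0, .ofNat 0, .ofNat 435080871643596881531801870628476367667200, .ofNat 5461982370790494957949068037324800, .ofNat 0, .ofNat 0, .ofNat 0, .ofNat 2120413705161184540556071324876800, .ofNat 0, .ofNat 0, .ofNat 0, .ofNat 0, .ofNat 0⟩)
    (by decide +kernel)
theorem L00851 : Good (Phi V4.P V4.D 1 1) ⟨7, 108, 5, 15, 3, 4, 4, 14, 3, 1⟩ :=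
  leaf_sound (S := T4.ds_pp) T4.ok_pp (w := 216) (c := ⟨⟨.negSucc 1889, .negSucc 221, .ofNat 71, .negSucc 746, .negSucc 469, .negSucc 685⟩, ⟨.negSucc 939, .negSucc 125, .negSucc 11, .negSucc 384, .negSucc 246, .negSucc 356⟩, ⟨.ofNat 1007, .ofNat 152, .negSucc 64, .ofNat 388, .ofNat 333, .ofNat 522⟩, ⟨.negSucc 2937, .negSucc 319, .ofNat 111, .negSucc 1307, .negSucc 709, .negSucc 1110⟩, ⟨.ofNat 57, .ofNat 30, .negSucc 10, .ofNat 307, .negSucc 23, .ofNat 109⟩, .ofNat 3801, .negSucc 6527, .ofNat 0, .negSucc 6527, .ofNat 12506, .ofNat 0, .ofNat 232, .ofNat 824, .negSucc 1595, .ofNat 0, .ofNat 465, .negSucc 830, .ofNat 0, .ofNat 0, .ofNat 1636, .ofNat 4360, .ofNat 0, .ofNat 621680013370373121280623396536938030694400, .ofNat 0, .ofNat 0, .ofNat 0, .ofNat 9225881385333314894427138625970942194483200, .ofNat 199208714844551647550809875834470400, .ofNat 0, .ofNat 0, .ofNat 6678614171029199856851342615206139265024000,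 .ofNat 67086034749030277792377096634368000, .ofNat 0, .ofNat 0, .ofNat 21255845145330735012788867733075792809164800, .ofNat 26913272686079983774882101146419200, .ofNat 0⟩)
    (by decide +kernel)
theorem L00852 : Good (Phi V4.P V4.D 1 1) ⟨7, 108, 5, 15, 3, 4, 4, 15, 3, 1⟩ :=
  leaf_sound (S := T4.ds_pp) T4.ok_pp (w := 216) (c := ⟨⟨.negSucc 2232, .negSucc 164, .ofNat 131, .negSucc 860, .negSucc 669, .negSucc 1309⟩, ⟨.negSucc 1117, .negSucc 97, .ofNat 17, .negSucc 443, .negSucc 350, .negSucc 681⟩, ⟨.ofNat 1228, .ofNat 140, .negSucc 119, .ofNat 472, .ofNat 507, .ofNat 1057⟩, ⟨.negSucc 3459, .negSucc 212, .ofNat 195, .negSucc 1461, .negSucc 996, .negSucc 2058⟩, ⟨.ofNat 45, .negSucc 4, .ofNat 6, .ofNat 267, .negSucc 61, .ofNat 89⟩, .ofNat 3864, .negSucc 6643, .ofNat 0, .negSucc 6643, .ofNat 12719, .ofNat 0, .ofNat 481, .ofNat 1732, .negSucc 4214, .ofNat 0, .ofNat 977, .negSucc 2200, .ofNat 0, .ofNat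 0, .ofNat 3996, .ofNat 5725, .ofNat 0, .ofNat 2737278944756197917085176681764506042368000, .ofNat 0, .ofNat 0, .ofNat 0, .ofNat 84061553972055206409693847369212641044070400, .ofNat 605462334671883789562546557340876800, .ofNat 0, .ofNat 0, .ofNat 186859120173322643310491711823255371041996800, .ofNat 359100058660923012161261195073945600, .ofNat 0, .ofNat 0, .ofNat 337957730940672251942315698543059593802547200, .ofNat 108792104343051391141921804202803200, .ofNat 0⟩)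
    (by decide +kernel)
theorem L00853 : Good (Phi V4.P V4.D 1 1) ⟨7, 109, 5, 15, 3, 4, 2, 3, 3, 1⟩ :=
  out_sound (S := T4.ds_pp) T4.ok_pp (w := 80) (j := 3) (by decide +kernel)
theorem L00854 : Good (Phi V4.P V4.D 1 1) ⟨6, 55, 4, 7, 3, 4, 2, 3, 3, 1⟩ :=
  out_sound (S := T4.ds_pp) T4.ok_pp (w := 72) (j := 3) (by decide +kernel)
theorem L00855 : Good (Phi V4.P V4.D 1 1) ⟨3, 7, 3, 3, 3, 4, 2, 3, 3, 1⟩ :=
  out_sound (S := T4.ds_pp) T4.ok_pp (w := 48) (j := 3) (by decide +kernel)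
theorem L00856 : Good (Phi V4.P V4.D 1 1) ⟨4, 12, 3, 3, 3, 5, 3, 6, 3, 1⟩ :=
  leaf_sound (S := T4.ds_pp) T4.ok_pp (w := 192) (c := ⟨⟨.negSucc 1420, .negSucc 659, .ofNat 140, .negSucc 677, .negSucc 489, .negSucc 245⟩, ⟨.negSucc 538, .negSucc 350, .negSucc 167, .negSucc 276, .negSucc 214, .negSucc 102⟩, ⟨.ofNat 689, .ofNat 499, .negSucc 178, .ofNat 352, .ofNat 255, .ofNat 89⟩, ⟨.negSucc 2631, .negSucc 831, .ofNat 201, .negSucc 1329, .negSucc 772, .negSucc 448⟩, ⟨.ofNat 277, .ofNat 54, .ofNat 2, .ofNat 558, .negSucc 25, .ofNat 123⟩, .ofNat 1763, .negSucc 3109, .ofNat 0, .negSucc 3109, .ofNat 7145, .ofNat 0, .ofNat 344, .ofNat 807, .negSucc 1107, .ofNat 0, .ofNat 417, .negSucc 472, .ofNat 0, .ofNat 0, .ofNat 1283, .ofNat 4534, .ofNat 0, .ofNat 0, .ofNat 0, .ofNat 0, .ofNat 0, .ofNat 0, .ofNat 0, .ofNat 0, .ofNat 0, .ofNat 0, .ofNat 29569414011439283732954885809766400, .ofNat 0, .ofNat 0, .ofNat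 0, .ofNat 47162141260153094855128472616960000, .ofNat 0⟩)
    (by decide +kernel)
theorem L00857 : Good (Phi V4.P V4.D 1 1) ⟨5, 24, 3, 3, 3, 5, 3, 7, 3, 1⟩ :=
  out_sound (S := T4.ds_pp) T4.ok_pp (w := 64) (j := 3) (by decide +kernel)
theorem L00858 : Good (Phi V4.P V4.D 1 1) ⟨5, 25, 3, 3, 3, 5, 3, 7, 4, 2⟩ :=
  leaf_sound (S := T4.ds_pp) T4.ok_pp (w := 200) (c := ⟨⟨.negSucc 1726, .negSucc 601, .ofNat 418, .negSucc 919, .negSucc 790, .negSucc 415⟩, ⟨.negSucc 693, .negSucc 306, .negSucc 43, .negSucc 382, .negSucc 345, .negSucc 177⟩, ⟨.ofNat 837, .ofNat 439, .negSucc 396, .ofNat 487, .ofNat 464, .ofNat 266⟩, ⟨.negSucc 3007, .negSucc 827, .ofNat 604, .negSucc 1712, .negSucc 1239, .negSucc 710⟩, ⟨.ofNat 240, .ofNat 46, .ofNat 76, .ofNat 545, .negSucc 65, .ofNat 102⟩, .ofNat 1809, .negSucc 3210, .ofNat 0, .negSucc 3210, .ofNat 7370, .ofNat 0, .ofNat 736, .ofNat 1784, .negSucc 3074, .ofNat 0, .ofNat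 917, .negSucc 1325, .ofNat 0, .ofNat 0, .ofNat 3039, .ofNat 3583, .ofNat 0, .ofNat 260482495051877708384160097760811417600, .ofNat 0, .ofNat 0, .ofNat 0, .ofNat 0, .ofNat 0, .ofNat 0, .ofNat 0, .ofNat 48308424329439771124294963427117786726400, .ofNat 1122493785902571201908458975867699200, .ofNat 0, .ofNat 0, .ofNat 38595706912605040463134357423464539750400, .ofNat 405827862663875978800214987872665600, .ofNat 0⟩)
    (by decide +kernel)
theorem L00859 : Good (Phi V4.P V4.D 1 1) ⟨5, 25, 3, 3, 3, 5, 3, 7, 4, 3⟩ :=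
  leaf_sound (S := T4.ds_pp) T4.ok_pp (w := 208) (c := ⟨⟨.negSucc 2243, .negSucc 476, .ofNat 247, .negSucc 849, .negSucc 825, .negSucc 236⟩, ⟨.negSucc 917, .negSucc 249, .negSucc 128, .negSucc 351, .negSucc 361, .negSucc 100⟩, ⟨.ofNat 1180, .ofNat 337, .negSucc 236, .ofNat 444, .ofNat 528, .ofNat 151⟩, ⟨.negSucc 3883, .negSucc 623, .ofNat 368, .negSucc 1592, .negSucc 1313, .negSucc 409⟩, ⟨.ofNat 352, .ofNat 34, .negSucc 11, .ofNat 530, .negSucc 20, .ofNat 68⟩, .ofNat 1020, .negSucc 1509, .ofNat 0, .negSucc 1509, .ofNat 3624, .ofNat 0, .ofNat 3205, .ofNat 6378, .negSucc 10632, .ofNat 0, .ofNat 3454, .negSucc 4494, .ofNat 0, .ofNat 0, .ofNat 11209, .ofNat 24381, .ofNat 0, .ofNat 4461125673182615080580522582982682214400, .ofNat 0, .ofNat 0, .ofNat 0, .ofNat 1880273948116565830174990678104728194252800, .ofNat 0, .ofNat 0, .ofNat 0, .ofNat 1864297564289294215939140694621324050432000, .ofNat 0, .ofNat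 0, .ofNat 0, .ofNat 1589525102506544999689339742960358103449600, .ofNat 0, .ofNat 0⟩)
    (by decide +kernel)
theorem L00860 : Good (Phi V4.P V4.D 1 1) ⟨5, 26, 3, 3, 3, 5, 3, 6, 3, 1⟩ :=
  leaf_sound (S := T4.ds_pp) T4.ok_pp (w := 192) (c := ⟨⟨.negSucc 2024, .negSucc 465, .ofNat 310, .negSucc 741, .negSucc 581, .negSucc 256⟩, ⟨.negSucc 823, .negSucc 267, .negSucc 76, .negSucc 338, .negSucc 279, .negSucc 123⟩, ⟨.ofNat 1168, .ofNat 342, .negSucc 293, .ofNat 398, .ofNat 298, .ofNat 75⟩, ⟨.negSucc 3383, .negSucc 626, .ofNat 459, .negSucc 1444, .negSucc 896, .negSucc 451⟩, ⟨.ofNat 340, .ofNat 79, .negSucc 36, .ofNat 587, .negSucc 28, .ofNat 101⟩, .ofNat 1183, .negSucc 1741, .ofNat 0, .negSucc 1741, .ofNat 3789, .ofNat 0, .ofNat 180, .ofNat 418, .negSucc 604, .ofNat 0, .ofNat 235, .negSucc 277, .ofNat 0, .ofNat 0, .ofNat 674, .ofNat 1821, .ofNat 0, .ofNat 19833655462716387221108431827605913600, .ofNat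 17611156726198939573561589760000, .ofNat 0, .ofNat 0, .ofNat 200453167793353842275702226042853785600, .ofNat 3126428572907661361707319138713600, .ofNat 0, .ofNat 0, .ofNat 0, .ofNat 1201315920382098252356702227660800, .ofNat 0, .ofNat 0, .ofNat 0, .ofNat 0, .ofNat 0⟩)
    (by decide +kernel)
theorem L00861 : Good (Phi V4.P V4.D 1 1) ⟨5, 26, 4, 6, 3, 5, 4, 14, 3, 1⟩ :=
  leaf_sound (S := T4.ds_pp) T4.ok_pp (w := 200) (c := ⟨⟨.negSucc 2240, .negSucc 700, .ofNat 205, .negSucc 982, .negSucc 491, .negSucc 825⟩, ⟨.negSucc 939, .negSucc 361, .negSucc 33, .negSucc 432, .negSucc 226, .negSucc 368⟩, ⟨.ofNat 1223, .ofNat 483, .negSucc 174, .ofNat 517, .ofNat 288, .ofNat 521⟩, ⟨.negSucc 3707, .negSucc 968, .ofNat 307, .negSucc 1812, .negSucc 757, .negSucc 1392⟩, ⟨.ofNat 288, .ofNat 67, .negSucc 8, .ofNat 563, .negSucc 40, .ofNat 193⟩, .ofNat 1073, .negSucc 1554, .ofNat 0, .negSucc 1554, .ofNat 3521, .ofNat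 0, .ofNat 410, .ofNat 890, .negSucc 1613, .ofNat 0, .ofNat 496, .negSucc 722, .ofNat 0, .ofNat 0, .ofNat 1561, .ofNat 2125, .ofNat 0, .ofNat 579271962908691697641820851348386611200, .ofNat 0, .ofNat 0, .ofNat 0, .ofNat 7272929991267960907583959348739781427200, .ofNat 279524066834177245459964224969113600, .ofNat 0, .ofNat 0, .ofNat 19422393704705204511734906683047228211200, .ofNat 0, .ofNat 0, .ofNat 0, .ofNat 16785763415680544952355075475635804569600, .ofNat 0, .ofNat 0⟩)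
    (by decide +kernel)
theorem L00862 : Good (Phi V4.P V4.D 1 1) ⟨5, 26, 4, 6, 3, 5, 4, 15, 3, 1⟩ :=
  leaf_sound (S := T4.ds_pp) T4.ok_pp (w := 200) (c := ⟨⟨.negSucc 2602, .negSucc 949, .ofNat 308, .negSucc 1087, .negSucc 531, .negSucc 1442⟩, ⟨.negSucc 1092, .negSucc 476, .ofNat 5, .negSucc 492, .negSucc 260, .negSucc 689⟩, ⟨.ofNat 1424, .ofNat 648, .negSucc 247, .ofNat 579, .ofNat 343, .ofNat 1008⟩, ⟨.negSucc 4290, .negSucc 1351, .ofNat 479, .negSucc 1935, .negSucc 778, .negSucc 2317⟩, ⟨.ofNat 297, .ofNat 68, .negSucc 20, .ofNat 477, .negSucc 121, .ofNat 103⟩, .ofNat 618, .negSucc 671, .ofNat 0, .negSucc 671, .ofNat 1672, .ofNat 0, .ofNat 2207, .ofNat 3533, .negSucc 9330, .ofNat 0, .ofNat 2181, .negSucc 3990, .ofNat 0, .ofNat 0, .ofNat 8020, .ofNat 10711, .ofNat 0, .ofNat 8196957146002406156632156375109704089600, .ofNat 0, .ofNat 0, .ofNat 0, .ofNat 860999060264038586137013569032062553292800,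 .ofNat 0, .ofNat 0, .ofNat 0, .ofNat 1477530256648303857123317734882026297753600, .ofNat 0, .ofNat 0, .ofNat 0, .ofNat 1660998708292434365943487017901237469184000, .ofNat 0, .ofNat 0⟩)
    (by decide +kernel)
theorem L00863 : Good (Phi V4.P V4.D 1 1) ⟨5, 26, 4, 7, 3, 5, 4, 14, 3, 1⟩ :=
  leaf_sound (S := T4.ds_pp) T4.ok_pp (w := 200) (c := ⟨⟨.negSucc 2003, .negSucc 706, .ofNat 199, .negSucc 992, .negSucc 564, .negSucc 833⟩, ⟨.negSucc 914, .negSucc 384, .negSucc 38, .negSucc 477, .negSucc 282, .negSucc 400⟩, ⟨.ofNat 1004, .ofNat 516, .negSucc 188, .ofNat 516, .ofNat 346, .ofNat 552⟩, ⟨.negSucc 3355, .negSucc 1007, .ofNat 326, .negSucc 1817, .negSucc 849, .negSucc 1378⟩, ⟨.ofNat 266, .ofNat 132, .negSucc 53, .ofNat 553, .negSucc 56, .ofNat 160⟩, .ofNat 1298, .negSucc 1929, .ofNat 0, .negSucc 1929, .ofNat 4057, .ofNat 0, .ofNat 703, .ofNat 1809, .negSucc 3369, .ofNat 0, .ofNat 1025, .negSucc 1630,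 .ofNat 0, .ofNat 0, .ofNat 3223, .ofNat 6843, .ofNat 0, .ofNat 1587328881460188482331308271243519590400, .ofNat 0, .ofNat 0, .ofNat 0, .ofNat 0, .ofNat 0, .ofNat 0, .ofNat 0, .ofNat 75581222528282389117751110609478143180800, .ofNat 0, .ofNat 0, .ofNat 0, .ofNat 40459444179691889959876005939102980505600, .ofNat 0, .ofNat 0⟩)
    (by decide +kernel)
theorem L00864 : Good (Phi V4.P V4.D 1 1) ⟨5, 26, 4, 7, 3, 5, 4, 15, 3, 1⟩ :=
  leaf_sound (S := T4.ds_pp) T4.ok_pp (w := 200) (c := ⟨⟨.negSucc 2220, .negSucc 984, .ofNat 283, .negSucc 1148, .negSucc 680, .negSucc 1656⟩, ⟨.negSucc 1017, .negSucc 525, .ofNat 0, .negSucc 559, .negSucc 340, .negSucc 815⟩, ⟨.ofNat 1117, .ofNat 701, .negSucc 244, .ofNat 603, .ofNat 444, .ofNat 1162⟩, ⟨.negSucc 3712, .negSucc 1373, .ofNat 429, .negSucc 2026, .negSucc 1016, .negSucc 2659⟩, ⟨.ofNat 283, .ofNat 28, .ofNat 4, .ofNat 484, .negSucc 81, .ofNat 167⟩, .ofNat 667,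 .negSucc 747, .ofNat 0, .negSucc 747, .ofNat 1738, .ofNat 0, .ofNat 2059, .ofNat 3646, .negSucc 10229, .ofNat 0, .ofNat 2273, .negSucc 4688, .ofNat 0, .ofNat 0, .ofNat 8628, .ofNat 9191, .ofNat 0, .ofNat 7249584223786814308873219703066276659200, .ofNat 0, .ofNat 0, .ofNat 0, .ofNat 1227575989846164713413430769569049555763200, .ofNat 0, .ofNat 0, .ofNat 0, .ofNat 1288524170505495574592712366480092351692800, .ofNat 0, .ofNat 0, .ofNat 0, .ofNat 1534052605496402105564875236302825875046400, .ofNat 0, .ofNat 0⟩)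
    (by decide +kernel)
theorem L00865 : Good (Phi V4.P V4.D 1 1) ⟨5, 27, 4, 6, 3, 5, 2, 3, 3, 1⟩ :=
  out_sound (S := T4.ds_pp) T4.ok_pp (w := 64) (j := 3) (by decide +kernel)
theorem L00866 : Good (Phi V4.P V4.D 1 1) ⟨6, 54, 5, 14, 3, 5, 2, 3, 3, 1⟩ :=
  out_sound (S := T4.ds_pp) T4.ok_pp (w := 72) (j := 3) (by decide +kernel)
theorem L00867 : Good (Phi V4.P V4.D 1 1) ⟨6, 54, 5, 15, 3, 5, 3, 6, 3, 1⟩ :=
  leaf_sound (S := T4.ds_pp) T4.ok_pp (w := 208) (c := ⟨⟨.negSucc 2343, .negSucc 272, .ofNat 144, .negSucc 734, .negSucc 603, .negSucc 195⟩, ⟨.negSucc 1158, .negSucc 152, .ofNat 10, .negSucc 370, .negSucc 315, .negSucc 99⟩, ⟨.ofNat 1330, .ofNat 168, .negSucc 96, .ofNat 376, .ofNat 311, .ofNat 55⟩, ⟨.negSucc 3816, .negSucc 395, .ofNat 227, .negSucc 1435, .negSucc 905, .negSucc 357⟩, ⟨.ofNat 417, .ofNat 92, .negSucc 31, .ofNat 588, .negSucc 42, .ofNat 109⟩, .ofNat 3685, .negSucc 6315, .ofNat 0,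 .negSucc 6315, .ofNat 12115, .ofNat 0, .ofNat 115, .ofNat 440, .negSucc 618, .ofNat 0, .ofNat 246, .negSucc 319, .ofNat 0, .ofNat 0, .ofNat 681, .ofNat 2515, .ofNat 0, .ofNat 6095512749135418882693213995226732953600, .ofNat 0, .ofNat 0, .ofNat 0, .ofNat 6961408661279476755199608592578851635200, .ofNat 16869358371700670718480731445657600, .ofNat 0, .ofNat 0, .ofNat 0, .ofNat 4879523027353217594834585596723200, .ofNat 0, .ofNat 0, .ofNat 22917770543247445309201958472896426803200, .ofNat 2310336659276041904014623768576000, .ofNat 0⟩)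
    (by decide +kernel)
theorem L00868 : Good (Phi V4.P V4.D 1 1) ⟨6, 54, 5, 15, 3, 5, 4, 14, 3, 1⟩ :=
  leaf_sound (S := T4.ds_pp) T4.ok_pp (w := 208) (c := ⟨⟨.negSucc 2606, .negSucc 773, .ofNat 270, .negSucc 1055, .negSucc 625, .negSucc 975⟩, ⟨.negSucc 1294, .negSucc 419, .ofNat 74, .negSucc 538, .negSucc 327, .negSucc 504⟩, ⟨.ofNat 1439, .ofNat 532, .negSucc 210, .ofNat 548, .ofNat 378, .ofNat 630⟩, ⟨.negSucc 4188, .negSucc 1132, .ofNat 416, .negSucc 1914, .negSucc 934, .negSucc 1595⟩, ⟨.ofNat 351, .ofNat 50, .negSucc 19, .ofNat 563, .negSucc 51, .ofNat 184⟩, .ofNat 2410, .negSucc 3938, .ofNat 0, .negSucc 3938, .ofNat 7670, .ofNat 0, .ofNat 269, .ofNat 954, .negSucc 1774, .ofNat 0, .ofNat 537, .negSucc 915, .ofNat 0, .ofNat 0, .ofNat 1661, .ofNat 3648, .ofNat 0, .ofNat 61125255042604303322664066269190920601600, .ofNat 0, .ofNat 0, .ofNat 0, .ofNat 611278961495153397647530275890233815859200,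 .ofNat 541791949554251241145030986537369600, .ofNat 0, .ofNat 0, .ofNat 2004601607150607297929222516315845243699200, .ofNat 107320031853818331792833979088896000, .ofNat 0, .ofNat 0, .ofNat 2022784500386667138096014605556525511475200, .ofNat 100270508128138285516929551774515200, .ofNat 0⟩)
    (by decide +kernel)
theorem L00869 : Good (Phi V4.P V4.D 1 1) ⟨6, 54, 5, 15, 3, 5, 4, 15, 3, 1⟩ :=
  leaf_sound (S := T4.ds_pp) T4.ok_pp (w := 208) (c := ⟨⟨.negSucc 3038, .negSucc 566, .ofNat 179, .negSucc 1232, .negSucc 827, .negSucc 1819⟩, ⟨.negSucc 1514, .negSucc 318, .ofNat 22, .negSucc 634, .negSucc 435, .negSucc 950⟩, ⟨.ofNat 1682, .ofNat 392, .negSucc 142, .ofNat 642, .ofNat 539, .ofNat 1286⟩, ⟨.negSucc 4845, .negSucc 793, .ofNat 278, .negSucc 2151, .negSucc 1214, .negSucc 2861⟩, ⟨.ofNat 331, .ofNat 26, .negSucc 16, .ofNat 493, .negSucc 108, .ofNat 127⟩, .ofNat 707, .negSucc 808, .ofNat 0, .negSucc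 808, .ofNat 1788, .ofNat 0, .ofNat 1962, .ofNat 3788, .negSucc 11236, .ofNat 0, .ofNat 2379, .negSucc 5408, .ofNat 0, .ofNat 0, .ofNat 9241, .ofNat 11735, .ofNat 0, .ofNat 622668489608444726135797242579325550592000, .ofNat 0, .ofNat 0, .ofNat 0, .ofNat 68184311390338778269857270026383191441408000, .ofNat 0, .ofNat 0, .ofNat 0, .ofNat 109887310948781372561200632310019503895347200, .ofNat 0, .ofNat 0, .ofNat 0, .ofNat 145982755921214918775888987849242129203200000, .ofNat 661885074975426607670339791591833600, .ofNat 0⟩)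
    (by decide +kernel)
theorem L00870 : Good (Phi V4.P V4.D 1 1) ⟨6, 55, 4, 7, 3, 5, 2, 3, 3, 1⟩ :=
  out_sound (S := T4.ds_pp) T4.ok_pp (w := 72) (j := 3) (by decide +kernel)
theorem L00871 : Good (Phi V4.P V4.D 1 1) ⟨3, 7, 3, 3, 3, 5, 2, 3, 3, 1⟩ :=
  out_sound (S := T4.ds_pp) T4.ok_pp (w := 48) (j := 3) (by decide +kernel)
theorem L00872 : Good (Phi V4.P V4.D 1 1) ⟨4, 12, 3, 2, 2, 3, 2, 2, 4, 0⟩ :=
  leaf_sound (S := T4.ds_pp) T4.ok_pp (w := 184) (c := ⟨⟨.negSucc 626, .negSucc 619, .negSucc 27, .negSucc 54, .negSucc 423, .negSucc 1188⟩, ⟨.negSucc 144, .negSucc 186, .negSucc 231, .ofNat 19, .negSucc 164, .negSucc 434⟩, ⟨.ofNat 769, .ofNat 375, .ofNat 77, .negSucc 82, .negSucc 8, .ofNat 531⟩, ⟨.negSucc 1271, .negSucc 950, .negSucc 143, .negSucc 429, .negSucc 639, .negSucc 2068⟩, ⟨.ofNat 483, .ofNat 238, .ofNat 64, .ofNat 912, .negSucc 152, .ofNat 311⟩, .ofNat 802, .negSucc 1106, .ofNat 0, .negSucc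 1106, .ofNat 3056, .ofNat 0, .ofNat 273, .ofNat 495, .negSucc 701, .ofNat 0, .ofNat 246, .negSucc 245, .ofNat 0, .ofNat 0, .ofNat 691, .ofNat 474, .ofNat 0, .ofNat 0, .ofNat 0, .ofNat 0, .ofNat 0, .ofNat 0, .ofNat 0, .ofNat 0, .ofNat 0, .ofNat 0, .ofNat 13903621445534429503574507520000, .ofNat 0, .ofNat 0, .ofNat 0, .ofNat 0, .ofNat 0⟩)
    (by decide +kernel)
theorem L00873 : Good (Phi V4.P V4.D 1 1) ⟨4, 12, 3, 2, 2, 3, 2, 2, 4, 1⟩ :=
  leaf_sound (S := T4.ds_pp) T4.ok_pp (w := 184) (c := ⟨⟨.negSucc 1590, .negSucc 609, .negSucc 44, .negSucc 398, .negSucc 517, .negSucc 457⟩, ⟨.negSucc 476, .negSucc 174, .negSucc 327, .negSucc 85, .negSucc 193, .negSucc 144⟩, ⟨.ofNat 1178, .ofNat 339, .ofNat 87, .ofNat 54, .ofNat 152, .ofNat 164⟩, ⟨.negSucc 2913, .negSucc 843, .negSucc 218, .negSucc 1138, .negSucc 848, .negSucc 890⟩, ⟨.ofNat 551, .ofNat 190, .ofNat 113, .ofNat 1287, .negSucc 2, .ofNat 360⟩, .ofNat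 793, .negSucc 1098, .ofNat 0, .negSucc 1098, .ofNat 3091, .ofNat 0, .ofNat 272, .ofNat 468, .negSucc 556, .ofNat 0, .ofNat 231, .negSucc 186, .ofNat 0, .ofNat 0, .ofNat 617, .ofNat 930, .ofNat 0, .ofNat 0, .ofNat 0, .ofNat 0, .ofNat 0, .ofNat 0, .ofNat 33882436962889531467024354508800, .ofNat 0, .ofNat 0, .ofNat 0, .ofNat 0, .ofNat 0, .ofNat 0, .ofNat 0, .ofNat 0, .ofNat 0⟩)
    (by decide +kernel)
theorem L00874 : Good (Phi V4.P V4.D 1 1) ⟨5, 24, 3, 2, 2, 3, 2, 3, 3, 0⟩ :=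
  leaf_sound (S := T4.ds_pp) T4.ok_pp (w := 184) (c := ⟨⟨.negSucc 803, .negSucc 330, .ofNat 200, .negSucc 820, .negSucc 718, .negSucc 1844⟩, ⟨.negSucc 242, .negSucc 114, .negSucc 244, .negSucc 201, .negSucc 239, .negSucc 595⟩, ⟨.ofNat 558, .ofNat 151, .negSucc 64, .ofNat 468, .ofNat 251, .ofNat 948⟩, ⟨.negSucc 1402, .negSucc 474, .ofNat 243, .negSucc 1948, .negSucc 1259, .negSucc 3342⟩, ⟨.negSucc 30, .ofNat 138, .ofNat 10, .ofNat 1665, .ofNat 141, .ofNat 723⟩, .ofNat 754, .negSucc 1058, .ofNat 0, .negSucc 1058, .ofNat 3252, .ofNat 0, .ofNat 304, .ofNat 526, .negSucc 772, .ofNat 0, .ofNat 248, .negSucc 246, .ofNat 0, .ofNat 0, .ofNat 715, .ofNat 521, .ofNat 0, .ofNat 0, .ofNat 0, .ofNat 0, .ofNat 0, .ofNat 0, .ofNat 0, .ofNat 0, .ofNat 0, .ofNat 635926719701641583140481888000409600, .ofNat 105110329311343817527394304000, .ofNat 0, .ofNat 0, .ofNat 0, .ofNat 242922801100927726859688345600, .ofNat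 0⟩)
    (by decide +kernel)
theorem L00875 : Good (Phi V4.P V4.D 1 1) ⟨5, 25, 3, 2, 3, 6, 2, 3, 3, 0⟩ :=
  leaf_sound (S := T4.ds_pp) T4.ok_pp (w := 192) (c := ⟨⟨.negSucc 1078, .negSucc 586, .ofNat 419, .negSucc 684, .negSucc 615, .negSucc 1930⟩, ⟨.negSucc 217, .negSucc 239, .negSucc 130, .negSucc 231, .negSucc 252, .negSucc 754⟩, ⟨.ofNat 724, .ofNat 363, .negSucc 291, .ofNat 366, .ofNat 107, .ofNat 1056⟩, ⟨.negSucc 1953, .negSucc 872, .ofNat 650, .negSucc 1385, .negSucc 956, .negSucc 3319⟩, ⟨.ofNat 421, .ofNat 135, .negSucc 70, .ofNat 687, .negSucc 113, .ofNat 471⟩, .ofNat 836, .negSucc 1153, .ofNat 0, .negSucc 1153, .ofNat 3036, .ofNat 0, .ofNat 276, .ofNat 523, .negSucc 890, .ofNat 0, .ofNat 272, .negSucc 335, .ofNat 0, .ofNat 0, .ofNat 795, .ofNat 423, .ofNat 0, .ofNat 537873210084851044067611850991206400, .ofNat 1061775909278764466661280972800, .ofNat 0, .ofNat 0, .ofNat 46840383192550248732031396838218137600,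 .ofNat 242226141607843340835023644262400, .ofNat 0, .ofNat 0, .ofNat 59018545821583454674729665072778444800, .ofNat 0, .ofNat 0, .ofNat 0, .ofNat 137418110784343714030657982524764979200, .ofNat 92125271334170903415999587942400, .ofNat 0⟩)
    (by decide +kernel)
theorem L00876 : Good (Phi V4.P V4.D 1 1) ⟨5, 25, 4, 4, 3, 7, 2, 3, 3, 0⟩ :=
  leaf_sound (S := T4.ds_pp) T4.ok_pp (w := 192) (c := ⟨⟨.negSucc 1445, .negSucc 561, .ofNat 79, .negSucc 143, .negSucc 1124, .negSucc 1999⟩, ⟨.negSucc 391, .negSucc 206, .negSucc 131, .ofNat 2, .negSucc 410, .negSucc 685⟩, ⟨.ofNat 914, .ofNat 315, .negSucc 30, .ofNat 92, .ofNat 442, .ofNat 1004⟩, ⟨.negSucc 2594, .negSucc 843, .ofNat 47, .negSucc 631, .negSucc 1899, .negSucc 3640⟩, ⟨.ofNat 613, .ofNat 175, .ofNat 81, .ofNat 1052, .ofNat 146, .ofNat 965⟩, .ofNat 748, .negSucc 973, .ofNat 0, .negSucc 973, .ofNat 2722, .ofNat 0, .ofNat 316, .ofNat 592, .negSucc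 841, .ofNat 0, .ofNat 300, .negSucc 294, .ofNat 0, .ofNat 0, .ofNat 720, .ofNat 628, .ofNat 0, .ofNat 12732864583422251220890875169498726400, .ofNat 1318765935192659837482696704000, .ofNat 0, .ofNat 0, .ofNat 463501958195692572074421401140435353600, .ofNat 350355055778392902580068522393600, .ofNat 0, .ofNat 0, .ofNat 287207147360174078864512357776123494400, .ofNat 359239670064355999505683002163200, .ofNat 0, .ofNat 0, .ofNat 604214244503440278932236383563651481600, .ofNat 48694769875031707200747523276800, .ofNat 0⟩)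
    (by decide +kernel)
theorem L00877 : Good (Phi V4.P V4.D 1 1) ⟨5, 25, 4, 5, 3, 7, 2, 3, 4, 0⟩ :=
  leaf_sound (S := T4.ds_pp) T4.ok_pp (w := 200) (c := ⟨⟨.negSucc 1330, .negSucc 407, .ofNat 10, .negSucc 226, .negSucc 783, .negSucc 1395⟩, ⟨.negSucc 460, .negSucc 140, .negSucc 150, .negSucc 49, .negSucc 305, .negSucc 538⟩, ⟨.ofNat 872, .ofNat 224, .negSucc 5, .ofNat 178, .ofNat 216, .ofNat 696⟩, ⟨.negSucc 2519, .negSucc 555, .negSucc 55, .negSucc 718, .negSucc 1343, .negSucc 2441⟩, ⟨.ofNat 804, .ofNat 8, .ofNat 62, .ofNat 857, .ofNat 172, .ofNat 430⟩, .ofNat 874, .negSucc 1240, .ofNat 0, .negSucc 1240, .ofNat 3225, .ofNat 0, .ofNat 1134, .ofNat 2667, .negSucc 4031, .ofNat 0, .ofNat 1337, .negSucc 1558, .ofNat 0, .ofNat 0, .ofNat 3141, .ofNat 3606, .ofNat 0, .ofNat 0, .ofNat 0, .ofNat 0, .ofNat 0, .ofNat 0, .ofNat 0, .ofNat 0, .ofNat 0, .ofNat 0, .ofNat 0, .ofNat 0, .ofNat 0, .ofNat 0, .ofNat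 0, .ofNat 0⟩)
    (by decide +kernel)
theorem L00878 : Good (Phi V4.P V4.D 1 1) ⟨5, 25, 4, 5, 3, 7, 2, 3, 4, 1⟩ :=
  leaf_sound (S := T4.ds_pp) T4.ok_pp (w := 200) (c := ⟨⟨.negSucc 2409, .negSucc 839, .ofNat 264, .negSucc 116, .negSucc 1359, .negSucc 706⟩, ⟨.negSucc 851, .negSucc 314, .negSucc 103, .ofNat 2, .negSucc 546, .negSucc 266⟩, ⟨.ofNat 1389, .ofNat 465, .negSucc 144, .ofNat 81, .ofNat 573, .ofNat 354⟩, ⟨.negSucc 4388, .negSucc 1267, .ofNat 360, .negSucc 667, .negSucc 2266, .negSucc 1360⟩, ⟨.ofNat 1026, .ofNat 174, .negSucc 6, .ofNat 1186, .ofNat 160, .ofNat 542⟩, .ofNat 1137, .negSucc 1823, .ofNat 0, .negSucc 1823, .ofNat 4565, .ofNat 0, .ofNat 254, .ofNat 606, .negSucc 796, .ofNat 0, .ofNat 298, .negSucc 309, .ofNat 0, .ofNat 0, .ofNat 702, .ofNat 588, .ofNat 0, .ofNat 55208454861216745860629448756717158400, .ofNat 44482730417855860157289647308800, .ofNat 0, .ofNat 0, .ofNat 1215396186142267623175524876535883366400,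 .ofNat 8736073445485914677675739316224000, .ofNat 0, .ofNat 0, .ofNat 1995041767085310967422612412945976524800, .ofNat 1023202510182464499344480403456000, .ofNat 0, .ofNat 0, .ofNat 2288166810103417347420792316658240716800, .ofNat 0, .ofNat 0⟩)
    (by decide +kernel)
theorem L00879 : Good (Phi V4.P V4.D 1 1) ⟨5, 26, 4, 4, 2, 3, 1, 1, 3, 0⟩ :=
  out_sound (S := T4.ds_pp) T4.ok_pp (w := 64) (j := 3) (by decide +kernel)
theorem L00880 : Good (Phi V4.P V4.D 1 1) ⟨6, 52, 5, 10, 2, 3, 1, 1, 3, 0⟩ :=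
  out_sound (S := T4.ds_pp) T4.ok_pp (w := 72) (j := 3) (by decide +kernel)
theorem L00881 : Good (Phi V4.P V4.D 1 1) ⟨6, 52, 5, 11, 2, 3, 1, 1, 4, 0⟩ :=
  leaf_sound (S := T4.ds_pp) T4.ok_pp (w := 192) (c := ⟨⟨.negSucc 847, .negSucc 1088, .ofNat 339, .negSucc 741, .negSucc 1223, .negSucc 1582⟩, ⟨.negSucc 284, .negSucc 466, .ofNat 78, .negSucc 258, .negSucc 536, .negSucc 664⟩, ⟨.ofNat 1009, .ofNat 810, .negSucc 312, .ofNat 406, .ofNat 117, .ofNat 810⟩, ⟨.negSucc 1527, .negSucc 1717, .ofNat 505, .negSucc 1742, .negSucc 1904, .negSucc 2722⟩, ⟨.ofNat 435, .ofNat 80, .ofNat 35, .ofNat 1290, .negSucc 100, .ofNat 465⟩, .ofNat 1374, .negSucc 2221, .ofNat 0, .negSucc 2221, .ofNat 5110, .ofNat 0, .ofNat 242, .ofNat 605, .negSucc 941, .ofNat 0, .ofNat 315, .negSucc 397, .ofNat 0, .ofNat 0, .ofNat 785, .ofNat 467, .ofNat 0, .ofNat 0, .ofNat 25631991860872560188483174400, .ofNat 0, .ofNat 0, .ofNat 72093816961812926482975275438047232000,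 .ofNat 4446805687721286049755404697600, .ofNat 0, .ofNat 0, .ofNat 0, .ofNat 1327884922625972066152611840000, .ofNat 0, .ofNat 0, .ofNat 0, .ofNat 1199949436315565952244855603200, .ofNat 0⟩)
    (by decide +kernel)
theorem L00882 : Good (Phi V4.P V4.D 1 1) ⟨6, 52, 5, 11, 2, 3, 2, 2, 4, 1⟩ :=
  leaf_sound (S := T4.ds_pp) T4.ok_pp (w := 192) (c := ⟨⟨.negSucc 2522, .negSucc 490, .ofNat 251, .negSucc 475, .negSucc 482, .negSucc 312⟩, ⟨.negSucc 977, .negSucc 202, .ofNat 25, .negSucc 138, .negSucc 214, .negSucc 124⟩, ⟨.ofNat 1817, .ofNat 272, .negSucc 146, .ofNat 96, .ofNat 79, .ofNat 47⟩, ⟨.negSucc 4399, .negSucc 735, .ofNat 372, .negSucc 1360, .negSucc 727, .negSucc 602⟩, ⟨.ofNat 917, .ofNat 35, .ofNat 3, .ofNat 1386, .negSucc 95, .ofNat 238⟩, .ofNat 1387, .negSucc 2250, .ofNat 0, .negSucc 2250, .ofNat 5174, .ofNat 0, .ofNat 224, .ofNat 515, .negSucc 628, .ofNat 0, .ofNat 268, .negSucc 257, .ofNat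 0, .ofNat 0, .ofNat 652, .ofNat 1773, .ofNat 0, .ofNat 0, .ofNat 0, .ofNat 0, .ofNat 0, .ofNat 0, .ofNat 31757348915913869832439096934400, .ofNat 0, .ofNat 0, .ofNat 0, .ofNat 16813210703124454474943928729600, .ofNat 0, .ofNat 0, .ofNat 0, .ofNat 11938963247144876553315287040000, .ofNat 0⟩)
    (by decide +kernel)
theorem L00883 : Good (Phi V4.P V4.D 1 1) ⟨6, 52, 5, 11, 2, 3, 3, 6, 4, 1⟩ :=
  leaf_sound (S := T4.ds_pp) T4.ok_pp (w := 200) (c := ⟨⟨.negSucc 1967, .negSucc 187, .negSucc 388, .negSucc 979, .negSucc 532, .negSucc 696⟩, ⟨.negSucc 745, .negSucc 92, .negSucc 258, .negSucc 336, .negSucc 231, .negSucc 285⟩, ⟨.ofNat 1220, .ofNat 93, .ofNat 188, .ofNat 521, .ofNat 186, .ofNat 349⟩, ⟨.negSucc 3381, .negSucc 102, .negSucc 635, .negSucc 2353, .negSucc 852, .negSucc 1274⟩, ⟨.ofNat 608, .negSucc 273, .negSucc 26, .ofNat 1822, .ofNat 10, .ofNat 376⟩, .ofNat 1391, .negSucc 2258, .ofNat 0, .negSucc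 2258, .ofNat 5189, .ofNat 0, .ofNat 234, .ofNat 556, .negSucc 796, .ofNat 0, .ofNat 292, .negSucc 332, .ofNat 0, .ofNat 0, .ofNat 731, .ofNat 1358, .ofNat 0, .ofNat 0, .ofNat 0, .ofNat 0, .ofNat 0, .ofNat 0, .ofNat 281622768410819000588625248256000, .ofNat 0, .ofNat 0, .ofNat 0, .ofNat 81801734018921330001911060889600, .ofNat 0, .ofNat 0, .ofNat 0, .ofNat 141940610339634935788483274342400, .ofNat 0⟩)
    (by decide +kernel)
theorem L00884 : Good (Phi V4.P V4.D 1 1) ⟨6, 52, 5, 11, 2, 3, 3, 7, 4, 1⟩ :=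
  leaf_sound (S := T4.ds_pp) T4.ok_pp (w := 200) (c := ⟨⟨.negSucc 2545, .negSucc 1206, .ofNat 199, .negSucc 1427, .negSucc 928, .negSucc 903⟩, ⟨.negSucc 998, .negSucc 530, .negSucc 12, .negSucc 511, .negSucc 410, .negSucc 372⟩, ⟨.ofNat 1387, .ofNat 585, .negSucc 99, .ofNat 782, .ofNat 391, .ofNat 503⟩, ⟨.negSucc 4214, .negSucc 1649, .ofNat 276, .negSucc 3242, .negSucc 1423, .negSucc 1631⟩, ⟨.ofNat 398, .negSucc 395, .ofNat 34, .ofNat 2227, .negSucc 127, .ofNat 442⟩, .ofNat 1171, .negSucc 1793, .ofNat 0, .negSucc 1793, .ofNat 4185, .ofNat 0, .ofNat 251, .ofNat 609, .negSucc 1010, .ofNat 0, .ofNat 321, .negSucc 429, .ofNat 0, .ofNat 0, .ofNat 815, .ofNat 696, .ofNat 0, .ofNat 142354433479446862708931707472864870400, .ofNat 2860535002613428320806633472000, .ofNat 0, .ofNat 0, .ofNat 586009889238396713917985120333699481600, .ofNat 215022755517486492402040858214400, .ofNat 0, .ofNat 0, .ofNat 173683633476656227521658328230920192000,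 .ofNat 29444226626745840287604119961600, .ofNat 0, .ofNat 0, .ofNat 4263004420257679367360210307293537894400, .ofNat 64411775041380173586944439091200, .ofNat 0⟩)
    (by decide +kernel)
theorem L00885 : Good (Phi V4.P V4.D 1 1) ⟨6, 53, 4, 5, 2, 3, 1, 1, 3, 0⟩ :=
  out_sound (S := T4.ds_pp) T4.ok_pp (w := 72) (j := 3) (by decide +kernel)
theorem L00886 : Good (Phi V4.P V4.D 1 1) ⟨5, 27, 3, 2, 2, 3, 1, 1, 3, 0⟩ :=
  out_sound (S := T4.ds_pp) T4.ok_pp (w := 64) (j := 3) (by decide +kernel)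
theorem L00887 : Good (Phi V4.P V4.D 1 1) ⟨5, 24, 3, 2, 3, 6, 2, 2, 3, 1⟩ :=
  leaf_sound (S := T4.ds_pp) T4.ok_pp (w := 192) (c := ⟨⟨.negSucc 2046, .negSucc 242, .ofNat 88, .negSucc 378, .negSucc 482, .ofNat 57⟩, ⟨.negSucc 633, .negSucc 76, .negSucc 254, .negSucc 96, .negSucc 165, .ofNat 25⟩, ⟨.ofNat 1288, .ofNat 155, .negSucc 53, .ofNat 151, .ofNat 201, .negSucc 199⟩, ⟨.negSucc 3758, .negSucc 339, .ofNat 72, .negSucc 900, .negSucc 801, .ofNat 63⟩, ⟨.ofNat 763, .ofNat 161, .negSucc 44, .ofNat 766, .negSucc 26, .ofNat 100⟩, .ofNat 760, .negSucc 1070, .ofNat 0, .negSucc 1070, .ofNat 3268, .ofNat 0, .ofNat 248, .ofNat 354, .negSucc 372, .ofNat 0, .ofNat 177, .negSucc 112, .ofNat 0, .ofNat 0, .ofNat 547, .ofNat 2767, .ofNat 0, .ofNat 0, .ofNat 0, .ofNat 0, .ofNat 0, .ofNat 0, .ofNat 319076389807248579000782133657600, .ofNat 0, .ofNat 0, .ofNat 0, .ofNat 132342945234775955639897790873600, .ofNat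 0, .ofNat 0, .ofNat 0, .ofNat 93855233809754164155732354662400, .ofNat 0⟩)
    (by decide +kernel)
theorem L00888 : Good (Phi V4.P V4.D 1 1) ⟨5, 24, 3, 2, 3, 7, 2, 2, 3, 1⟩ :=
  leaf_sound (S := T4.ds_pp) T4.ok_pp (w := 192) (c := ⟨⟨.negSucc 2487, .negSucc 252, .ofNat 173, .negSucc 4, .negSucc 574, .ofNat 164⟩, ⟨.negSucc 771, .negSucc 44, .negSucc 296, .ofNat 47, .negSucc 184, .ofNat 69⟩, ⟨.ofNat 1426, .ofNat 147, .negSucc 82, .negSucc 43, .ofNat 326, .negSucc 208⟩, ⟨.negSucc 4686, .negSucc 370, .ofNat 154, .negSucc 367, .negSucc 1034, .ofNat 172⟩, ⟨.ofNat 1344, .ofNat 171, .negSucc 77, .ofNat 1050, .ofNat 214, .ofNat 304⟩, .ofNat 749, .negSucc 1045, .ofNat 0, .negSucc 1045, .ofNat 3216, .ofNat 0, .ofNat 263, .ofNat 364, .negSucc 317, .ofNat 0, .ofNat 182, .negSucc 92, .ofNat 0, .ofNat 0, .ofNat 518, .ofNat 1497, .ofNat 0, .ofNat 1491299222912521027345004920779571200, .ofNat 0, .ofNat 0, .ofNat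 0, .ofNat 0, .ofNat 0, .ofNat 0, .ofNat 0, .ofNat 0, .ofNat 107705819859335802577896446361600, .ofNat 0, .ofNat 0, .ofNat 0, .ofNat 0, .ofNat 0⟩)
    (by decide +kernel)
theorem L00889 : Good (Phi V4.P V4.D 1 1) ⟨5, 25, 3, 2, 2, 3, 2, 2, 4, 2⟩ :=
  leaf_sound (S := T4.ds_pp) T4.ok_pp (w := 184) (c := ⟨⟨.negSucc 2327, .negSucc 324, .ofNat 194, .negSucc 420, .negSucc 632, .ofNat 5⟩, ⟨.negSucc 706, .negSucc 100, .negSucc 266, .negSucc 69, .negSucc 236, .ofNat 21⟩, ⟨.ofNat 1446, .ofNat 222, .negSucc 119, .ofNat 138, .ofNat 294, .negSucc 88⟩, ⟨.negSucc 4048, .negSucc 515, .ofNat 266, .negSucc 1430, .negSucc 1089, .negSucc 50⟩, ⟨.ofNat 704, .ofNat 250, .negSucc 181, .ofNat 1891, .ofNat 152, .ofNat 162⟩, .ofNat 819, .negSucc 1121, .ofNat 0, .negSucc 1121, .ofNat 2988, .ofNat 0, .ofNat 253, .ofNat 420, .negSucc 441, .ofNat 0, .ofNat 221, .negSucc 154, .ofNat 0, .ofNat 0, .ofNat 573, .ofNat 1327, .ofNat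 0, .ofNat 0, .ofNat 0, .ofNat 0, .ofNat 0, .ofNat 0, .ofNat 10460549777725390090871085465600, .ofNat 0, .ofNat 0, .ofNat 0, .ofNat 6348682856525911700806198886400, .ofNat 0, .ofNat 0, .ofNat 0, .ofNat 0, .ofNat 0⟩)
    (by decide +kernel)
theorem L00890 : Good (Phi V4.P V4.D 1 1) ⟨5, 25, 3, 2, 3, 6, 2, 2, 4, 3⟩ :=
  leaf_sound (S := T4.ds_pp) T4.ok_pp (w := 192) (c := ⟨⟨.negSucc 2259, .negSucc 208, .ofNat 88, .negSucc 383, .negSucc 621, .ofNat 147⟩, ⟨.negSucc 674, .negSucc 78, .negSucc 255, .negSucc 109, .negSucc 248, .ofNat 56⟩, ⟨.ofNat 1327, .ofNat 136, .negSucc 60, .ofNat 175, .ofNat 293, .negSucc 173⟩, ⟨.negSucc 4050, .negSucc 265, .ofNat 69, .negSucc 950, .negSucc 1030, .ofNat 249⟩, ⟨.ofNat 934, .ofNat 122, .negSucc 37, .ofNat 827, .ofNat 50, .negSucc 27⟩, .ofNat 541, .negSucc 533, .ofNat 0, .negSucc 533, .ofNat 1554, .ofNat 0, .ofNat 276, .ofNat 326, .negSucc 389, .ofNat 0, .ofNat 204,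 .negSucc 120, .ofNat 0, .ofNat 0, .ofNat 559, .ofNat 2966, .ofNat 0, .ofNat 11498403883430042900858830532168908800, .ofNat 22210711015528628049755190067200, .ofNat 0, .ofNat 0, .ofNat 0, .ofNat 4080587554534522312973424682598400, .ofNat 0, .ofNat 0, .ofNat 0, .ofNat 3837241923812983535759507482214400, .ofNat 0, .ofNat 0, .ofNat 0, .ofNat 0, .ofNat 0⟩)
    (by decide +kernel)
theorem L00891 : Good (Phi V4.P V4.D 1 1) ⟨5, 25, 3, 2, 3, 7, 3, 4, 4, 3⟩ :=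
  leaf_sound (S := T4.ds_pp) T4.ok_pp (w := 200) (c := ⟨⟨.negSucc 2695, .negSucc 182, .ofNat 138, .ofNat 41, .negSucc 272, .ofNat 177⟩, ⟨.negSucc 792, .negSucc 14, .negSucc 312, .ofNat 77, .negSucc 102, .ofNat 72⟩, ⟨.ofNat 1466, .ofNat 119, .negSucc 50, .negSucc 37, .ofNat 169, .negSucc 162⟩, ⟨.negSucc 4981, .negSucc 263, .ofNat 89, .negSucc 396, .negSucc 492, .ofNat 267⟩, ⟨.ofNat 1639, .ofNat 183, .negSucc 90, .ofNat 1162, .ofNat 126, .ofNat 59⟩, .ofNat 537, .negSucc 525, .ofNat 0, .negSucc 525, .ofNat 1545, .ofNat 0, .ofNat 292, .ofNat 326, .negSucc 310, .ofNat 0, .ofNat 205, .negSucc 90, .ofNat 0, .ofNat 0, .ofNat 520, .ofNat 4292, .ofNat 0, .ofNat 18559003970421228558617084310847488000, .ofNat 975168612237524190064738408857600, .ofNat 0, .ofNat 0, .ofNat 8640958432077832505982882215362560000, .ofNat 46263550036440921362376884748288000, .ofNat 0, .ofNat 0, .ofNat 384247398698546383879386087343679078400,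 .ofNat 10136755278387517351461693633331200, .ofNat 0, .ofNat 0, .ofNat 0, .ofNat 0, .ofNat 0⟩)
    (by decide +kernel)
theorem L00892 : Good (Phi V4.P V4.D 1 1) ⟨5, 25, 3, 2, 3, 7, 3, 5, 4, 3⟩ :=
  leaf_sound (S := T4.ds_pp) T4.ok_pp (w := 200) (c := ⟨⟨.negSucc 2936, .negSucc 264, .ofNat 180, .ofNat 11, .negSucc 457, .ofNat 163⟩, ⟨.negSucc 869, .negSucc 54, .negSucc 320, .ofNat 73, .negSucc 173, .ofNat 72⟩, ⟨.ofNat 1596, .ofNat 167, .negSucc 102, .ofNat 41, .ofNat 257, .negSucc 130⟩, ⟨.negSucc 5382, .negSucc 385, .ofNat 170, .negSucc 534, .negSucc 837, .ofNat 214⟩, ⟨.ofNat 1634, .ofNat 190, .negSucc 106, .ofNat 1384, .ofNat 242, .ofNat 138⟩, .ofNat 545, .negSucc 542, .ofNat 0, .negSucc 542, .ofNat 1576, .ofNat 0, .ofNat 301, .ofNat 372, .negSucc 395, .ofNat 0, .ofNat 225, .negSucc 122, .ofNat 0, .ofNat 0, .ofNat 553, .ofNat 3731, .ofNat 0, .ofNat 92240904131406610806930959280321331200, .ofNat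 474828439994341531092908192563200, .ofNat 0, .ofNat 0, .ofNat 1396159296622029711640605397807949414400, .ofNat 35464589288376423284465779448217600, .ofNat 0, .ofNat 0, .ofNat 1380185895764779761344779296558179942400, .ofNat 17112569571186803685999780456038400, .ofNat 0, .ofNat 0, .ofNat 0, .ofNat 0, .ofNat 0⟩)
    (by decide +kernel)
theorem L00893 : Good (Phi V4.P V4.D 1 1) ⟨5, 24, 3, 2, 3, 6, 3, 6, 3, 1⟩ :=
  leaf_sound (S := T4.ds_pp) T4.ok_pp (w := 192) (c := ⟨⟨.negSucc 2225, .negSucc 325, .ofNat 145, .negSucc 611, .negSucc 561, .negSucc 292⟩, ⟨.negSucc 686, .negSucc 123, .negSucc 256, .negSucc 170, .negSucc 194, .negSucc 88⟩, ⟨.ofNat 1272, .ofNat 197, .negSucc 128, .ofNat 312, .ofNat 280, .ofNat 83⟩, ⟨.negSucc 4036, .negSucc 428, .ofNat 171, .negSucc 1339, .negSucc 948, .negSucc 582⟩, ⟨.ofNat 643, .ofNat 104, .negSucc 47, .ofNat 910, .ofNat 16, .ofNat 264⟩, .ofNat 755, .negSucc 1056, .ofNat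 0, .negSucc 1056, .ofNat 3233, .ofNat 0, .ofNat 265, .ofNat 395, .negSucc 501, .ofNat 0, .ofNat 195, .negSucc 158, .ofNat 0, .ofNat 0, .ofNat 598, .ofNat 1307, .ofNat 0, .ofNat 15018971703933101074697912322097152000, .ofNat 0, .ofNat 0, .ofNat 0, .ofNat 0, .ofNat 0, .ofNat 0, .ofNat 0, .ofNat 0, .ofNat 0, .ofNat 0, .ofNat 0, .ofNat 0, .ofNat 0, .ofNat 0⟩)
    (by decide +kernel)
theorem L00894 : Good (Phi V4.P V4.D 1 1) ⟨5, 24, 3, 2, 3, 7, 3, 6, 3, 1⟩ :=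
  leaf_sound (S := T4.ds_pp) T4.ok_pp (w := 192) (c := ⟨⟨.negSucc 2814, .negSucc 407, .ofNat 298, .negSucc 170, .negSucc 683, .negSucc 289⟩, ⟨.negSucc 873, .negSucc 109, .negSucc 313, .ofNat 11, .negSucc 223, .negSucc 68⟩, ⟨.ofNat 1546, .ofNat 242, .negSucc 199, .ofNat 123, .ofNat 342, .ofNat 122⟩, ⟨.negSucc 5241, .negSucc 601, .ofNat 414, .negSucc 778, .negSucc 1208, .negSucc 719⟩, ⟨.ofNat 1285, .ofNat 220, .negSucc 233, .ofNat 1438, .ofNat 183, .ofNat 691⟩, .ofNat 511, .negSucc 485, .ofNat 0, .negSucc 485, .ofNat 1651, .ofNat 0, .ofNat 355, .ofNat 435, .negSucc 568, .ofNat 0, .ofNat 238, .negSucc 156, .ofNat 0, .ofNat 0, .ofNat 616, .ofNat 867, .ofNat 0, .ofNat 13342581166649424357043366954795008000, .ofNat 0, .ofNat 0, .ofNat 0, .ofNat 0, .ofNat 0, .ofNat 0, .ofNat 0, .ofNat 0, .ofNat 0, .ofNat 0, .ofNat 0, .ofNat 0, .ofNat 0, .ofNat 0⟩)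
    (by decide +kernel)
theorem L00895 : Good (Phi V4.P V4.D 1 1) ⟨5, 24, 3, 2, 2, 3, 3, 7, 4, 2⟩ :=
  leaf_sound (S := T4.ds_pp) T4.ok_pp (w := 192) (c := ⟨⟨.negSucc 2547, .negSucc 535, .ofNat 210, .negSucc 1276, .negSucc 718, .negSucc 412⟩, ⟨.negSucc 799, .negSucc 196, .negSucc 292, .negSucc 337, .negSucc 237, .negSucc 126⟩, ⟨.ofNat 1405, .ofNat 313, .negSucc 187, .ofNat 659, .ofNat 351, .ofNat 221⟩, ⟨.negSucc 4549, .negSucc 776, .ofNat 317, .negSucc 2896, .negSucc 1213, .negSucc 780⟩, ⟨.ofNat 531, .ofNat 149, .negSucc 199, .ofNat 2204, .ofNat 40, .ofNat 258⟩, .ofNat 764, .negSucc 1084, .ofNat 0, .negSucc 1084, .ofNat 3326, .ofNat 0, .ofNat 574, .ofNat 941, .negSucc 1371, .ofNat 0, .ofNat 448, .negSucc 442, .ofNat 0, .ofNat 0, .ofNat 1350, .ofNat 2113, .ofNat 0, .ofNat 2640286975804775819962020042847027200, .ofNat 0, .ofNat 0, .ofNat 0, .ofNat 55077158902172856415518716446585651200, .ofNat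 0, .ofNat 0, .ofNat 0, .ofNat 89185357134326391585857127921903206400, .ofNat 67707918132968241821937932697600, .ofNat 0, .ofNat 0, .ofNat 100978704287923073361610514332070707200, .ofNat 157509399844705552905663833702400, .ofNat 0⟩)
    (by decide +kernel)
theorem L00896 : Good (Phi V4.P V4.D 1 1) ⟨5, 24, 3, 2, 2, 3, 3, 7, 4, 3⟩ :=
  out_sound (S := T4.ds_pp) T4.ok_pp (w := 32) (j := 2) (by decide +kernel)
theorem L00897 : Good (Phi V4.P V4.D 1 1) ⟨5, 25, 3, 2, 2, 3, 3, 6, 4, 2⟩ :=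
  leaf_sound (S := T4.ds_pp) T4.ok_pp (w := 192) (c := ⟨⟨.negSucc 2727, .negSucc 400, .ofNat 272, .negSucc 768, .negSucc 799, .negSucc 91⟩, ⟨.negSucc 824, .negSucc 139, .negSucc 285, .negSucc 189, .negSucc 310, .negSucc 27⟩, ⟨.ofNat 1537, .ofNat 256, .negSucc 181, .ofNat 423, .ofNat 386, .ofNat 36⟩, ⟨.negSucc 4610, .negSucc 582, .ofNat 328, .negSucc 2192, .negSucc 1323, .negSucc 277⟩, ⟨.ofNat 472, .ofNat 237, .negSucc 55, .ofNat 2362, .ofNat 72, .ofNat 293⟩, .ofNat 538, .negSucc 528, .ofNat 0, .negSucc 528, .ofNat 1547, .ofNat 0, .ofNat 331, .ofNat 460, .negSucc 666, .ofNat 0, .ofNat 266, .negSucc 220, .ofNat 0, .ofNat 0, .ofNat 667, .ofNat 1402, .ofNat 0, .ofNat 526290792403927324471924359168000000, .ofNat 355959229286254428678625689600, .ofNat 0, .ofNat 0, .ofNat 10093051298623760818199467251675955200, .ofNat 47436765470170348131997817241600, .ofNat 0, .ofNat 0, .ofNat 8442567655326317791535682995984793600,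 .ofNat 33157545315885367577067021926400, .ofNat 0, .ofNat 0, .ofNat 0, .ofNat 0, .ofNat 0⟩)
    (by decide +kernel)
theorem L00898 : Good (Phi V4.P V4.D 1 1) ⟨5, 25, 3, 2, 3, 6, 3, 6, 4, 3⟩ :=
  leaf_sound (S := T4.ds_pp) T4.ok_pp (w := 200) (c := ⟨⟨.negSucc 2791, .negSucc 379, .ofNat 260, .negSucc 547, .negSucc 671, .ofNat 30⟩, ⟨.negSucc 863, .negSucc 156, .negSucc 212, .negSucc 177, .negSucc 274, .ofNat 13⟩, ⟨.ofNat 1564, .ofNat 237, .negSucc 197, .ofNat 280, .ofNat 350, .negSucc 62⟩, ⟨.negSucc 4891, .negSucc 506, .ofNat 342, .negSucc 1286, .negSucc 1115, .ofNat 4⟩, ⟨.ofNat 856, .ofNat 110, .negSucc 29, .ofNat 981, .ofNat 53, .ofNat 101⟩, .ofNat 545, .negSucc 541, .ofNat 0, .negSucc 541, .ofNat 1573, .ofNat 0, .ofNat 291, .ofNat 374, .negSucc 528, .ofNat 0, .ofNat 226, .negSucc 177, .ofNat 0, .ofNat 0, .ofNat 613, .ofNat 2517, .ofNat 0, .ofNat 148337014523899627316203906051709337600, .ofNat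 352668698020839123526638108672000, .ofNat 0, .ofNat 0, .ofNat 3276655472492064194915039833364417740800, .ofNat 12224875498954421062715378447155200, .ofNat 0, .ofNat 0, .ofNat 2315450153051463602832811150022384025600, .ofNat 0, .ofNat 0, .ofNat 0, .ofNat 2585466456896880071643156492211716096000, .ofNat 0, .ofNat 0⟩)
    (by decide +kernel)
theorem L00899 : Good (Phi V4.P V4.D 1 1) ⟨5, 25, 3, 2, 3, 7, 3, 6, 4, 3⟩ :=
  leaf_sound (S := T4.ds_pp) T4.ok_pp (w := 200) (c := ⟨⟨.negSucc 3405, .negSucc 386, .ofNat 284, .negSucc 23, .negSucc 644, .ofNat 171⟩, ⟨.negSucc 1028, .negSucc 107, .negSucc 313, .ofNat 68, .negSucc 246, .ofNat 83⟩, ⟨.ofNat 1840, .ofNat 228, .negSucc 161, .ofNat 93, .ofNat 341, .negSucc 101⟩, ⟨.negSucc 6200, .negSucc 547, .ofNat 312, .negSucc 658, .negSucc 1136, .ofNat 175⟩, ⟨.ofNat 1743, .ofNat 174, .negSucc 44, .ofNat 1559, .ofNat 257, .ofNat 266⟩, .ofNat 542, .negSucc 535, .ofNat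 0, .negSucc 535, .ofNat 1555, .ofNat 0, .ofNat 638, .ofNat 849, .negSucc 1033, .ofNat 0, .ofNat 500, .negSucc 333, .ofNat 0, .ofNat 0, .ofNat 1199, .ofNat 3150, .ofNat 0, .ofNat 228200739087314709097636691427773644800, .ofNat 619772445111118642946296617369600, .ofNat 0, .ofNat 0, .ofNat 14202174094532696735419005046532918476800, .ofNat 0, .ofNat 0, .ofNat 0, .ofNat 15242665155703902724532500095380855193600, .ofNat 0, .ofNat 0, .ofNat 0, .ofNat 16606038653304781460557135231580110848000, .ofNat 0, .ofNat 0⟩)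
    (by decide +kernel)
theorem L00900 : Good (Phi V4.P V4.D 1 1) ⟨5, 25, 3, 2, 3, 6, 4, 14, 4, 2⟩ :=
  leaf_sound (S := T4.ds_pp) T4.ok_pp (w := 200) (c := ⟨⟨.negSucc 2940, .negSucc 772, .ofNat 483, .negSucc 937, .negSucc 535, .negSucc 480⟩, ⟨.negSucc 901, .negSucc 341, .negSucc 146, .negSucc 337, .negSucc 219, .negSucc 191⟩, ⟨.ofNat 1666, .ofNat 462, .negSucc 350, .ofNat 462, .ofNat 271, .ofNat 254⟩, ⟨.negSucc 5117, .negSucc 1112, .ofNat 724, .negSucc 1891, .negSucc 848, .negSucc 856⟩, ⟨.ofNat 736, .ofNat 121, .negSucc 44, .ofNat 924, .negSucc 51, .ofNat 189⟩, .ofNat 545, .negSucc 542, .ofNat 0, .negSucc 542, .ofNat 1575, .ofNat 0, .ofNat 650, .ofNat 928, .negSucc 1772, .ofNat 0, .ofNat 538, .negSucc 629, .ofNat 0, .ofNat 0, .ofNat 1565, .ofNat 3147, .ofNat 0, .ofNat 921781077553827160695310974710081126400, .ofNat 0, .ofNat 0, .ofNat 0, .ofNat 23484760940167782508319403773983614566400, .ofNat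 1126707891890898308025435808805683200, .ofNat 0, .ofNat 0, .ofNat 0, .ofNat 0, .ofNat 0, .ofNat 0, .ofNat 0, .ofNat 0, .ofNat 0⟩)
    (by decide +kernel)
theorem L00901 : Good (Phi V4.P V4.D 1 1) ⟨5, 25, 3, 2, 3, 6, 4, 15, 4, 2⟩ :=
  leaf_sound (S := T4.ds_pp) T4.ok_pp (w := 208) (c := ⟨⟨.negSucc 3394, .negSucc 854, .ofNat 535, .negSucc 1067, .negSucc 345, .negSucc 643⟩, ⟨.negSucc 1102, .negSucc 378, .negSucc 106, .negSucc 387, .negSucc 111, .negSucc 231⟩, ⟨.ofNat 1899, .ofNat 534, .negSucc 413, .ofNat 532, .ofNat 178, .ofNat 395⟩, ⟨.negSucc 5873, .negSucc 1221, .ofNat 822, .negSucc 2019, .negSucc 533, .negSucc 1100⟩, ⟨.ofNat 752, .ofNat 63, .negSucc 18, .ofNat 713, .negSucc 96, .ofNat 115⟩, .ofNat 538, .negSucc 528, .ofNat 0, .negSucc 528, .ofNat 1554, .ofNat 0, .ofNat 5333, .ofNat 7397, .negSucc 16856, .ofNat 0, .ofNat 4353, .negSucc 6057, .ofNat 0, .ofNat 0, .ofNat 14128, .ofNat 36294, .ofNat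 0, .ofNat 55832201740646489310406495968134430720000, .ofNat 0, .ofNat 0, .ofNat 0, .ofNat 19199359583389576221583956567866581450752000, .ofNat 0, .ofNat 0, .ofNat 0, .ofNat 14834587530442351816888417914606990655488000, .ofNat 0, .ofNat 0, .ofNat 0, .ofNat 14011844889677597697486311619027938574336000, .ofNat 0, .ofNat 0⟩)
    (by decide +kernel)
theorem L00902 : Good (Phi V4.P V4.D 1 1) ⟨5, 25, 3, 2, 3, 7, 3, 7, 4, 2⟩ :=
  leaf_sound (S := T4.ds_pp) T4.ok_pp (w := 200) (c := ⟨⟨.negSucc 3926, .negSucc 748, .ofNat 478, .negSucc 190, .negSucc 1106, .negSucc 417⟩, ⟨.negSucc 1214, .negSucc 272, .negSucc 278, .ofNat 7, .negSucc 426, .negSucc 133⟩, ⟨.ofNat 2102, .ofNat 394, .negSucc 249, .ofNat 175, .ofNat 543, .ofNat 228⟩, ⟨.negSucc 6970, .negSucc 1052, .ofNat 583, .negSucc 975, .negSucc 1847, .negSucc 866⟩, ⟨.ofNat 1478, .ofNat 100, .ofNat 81, .ofNat 1657, .ofNat 142, .ofNat 482⟩, .ofNat 540, .negSucc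 531, .ofNat 0, .negSucc 531, .ofNat 1557, .ofNat 0, .ofNat 708, .ofNat 1102, .negSucc 1735, .ofNat 0, .ofNat 615, .negSucc 595, .ofNat 0, .ofNat 0, .ofNat 1474, .ofNat 1519, .ofNat 0, .ofNat 350354035514315904183961586069667840000, .ofNat 514922269217356817168102483558400, .ofNat 0, .ofNat 0, .ofNat 17121555131850347052600811742832466329600, .ofNat 0, .ofNat 0, .ofNat 0, .ofNat 22802714741557093963806339546933205401600, .ofNat 0, .ofNat 0, .ofNat 0, .ofNat 22092110749943892649127183970825614131200, .ofNat 0, .ofNat 0⟩)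
    (by decide +kernel)
theorem L00903 : Good (Phi V4.P V4.D 1 1) ⟨5, 25, 3, 2, 2, 3, 3, 7, 4, 3⟩ :=
  out_sound (S := T4.ds_pp) T4.ok_pp (w := 32) (j := 2) (by decide +kernel)
theorem L00904 : Good (Phi V4.P V4.D 1 1) ⟨5, 26, 4, 4, 2, 3, 2, 2, 3, 1⟩ :=
  out_sound (S := T4.ds_pp) T4.ok_pp (w := 64) (j := 3) (by decide +kernel)
theorem L00905 : Good (Phi V4.P V4.D 1 1) ⟨5, 26, 4, 5, 2, 3, 2, 2, 4, 2⟩ :=
  leaf_sound (S := T4.ds_pp) T4.ok_pp (w := 192) (c := ⟨⟨.negSucc 2621, .negSucc 586, .ofNat 209, .negSucc 499, .negSucc 626, .negSucc 48⟩, ⟨.negSucc 924, .negSucc 236, .negSucc 92, .negSucc 127, .negSucc 267, .negSucc 13⟩, ⟨.ofNat 1656, .ofNat 319, .negSucc 110, .ofNat 185, .ofNat 243, .negSucc 51⟩, ⟨.negSucc 4617, .negSucc 854, .ofNat 390, .negSucc 1586, .negSucc 1030, .negSucc 133⟩, ⟨.ofNat 1130, .ofNat 68, .negSucc 266, .ofNat 1817, .ofNat 78, .ofNat 127⟩, .ofNat 1171, .negSucc 1795, .ofNat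 0, .negSucc 1795, .ofNat 4190, .ofNat 0, .ofNat 215, .ofNat 445, .negSucc 464, .ofNat 0, .ofNat 237, .negSucc 186, .ofNat 0, .ofNat 0, .ofNat 586, .ofNat 1554, .ofNat 0, .ofNat 0, .ofNat 1319698721836789438018800844800, .ofNat 0, .ofNat 0, .ofNat 0, .ofNat 134488739037731941590389017804800, .ofNat 0, .ofNat 0, .ofNat 0, .ofNat 48500647044006085293604287283200, .ofNat 0, .ofNat 0, .ofNat 0, .ofNat 67483275876966104576492883148800, .ofNat 0⟩)
    (by decide +kernel)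
theorem L00906 : Good (Phi V4.P V4.D 1 1) ⟨5, 26, 4, 5, 2, 3, 3, 4, 4, 3⟩ :=
  leaf_sound (S := T4.ds_pp) T4.ok_pp (w := 192) (c := ⟨⟨.negSucc 2215, .ofNat 194, .negSucc 335, .negSucc 266, .negSucc 290, .ofNat 179⟩, ⟨.negSucc 739, .ofNat 154, .negSucc 340, .negSucc 16, .negSucc 120, .ofNat 79⟩, ⟨.ofNat 1337, .negSucc 4, .ofNat 128, .ofNat 108, .ofNat 165, .negSucc 183⟩, ⟨.negSucc 4063, .ofNat 88, .negSucc 366, .negSucc 1290, .negSucc 504, .ofNat 280⟩, ⟨.ofNat 1362, .ofNat 734, .negSucc 538, .ofNat 1987, .ofNat 96, .ofNat 10⟩, .ofNat 1379, .negSucc 2231, .ofNat 0, .negSucc 2231, .ofNat 5130, .ofNat 0, .ofNat 197, .ofNat 377, .negSucc 313, .ofNat 0, .ofNat 205, .negSucc 124, .ofNat 0, .ofNat 0, .ofNat 523, .ofNat 2530, .ofNat 0, .ofNat 344761710994552541124488151328358400, .ofNat 1792996854285664726627752345600, .ofNat 0, .ofNat 0, .ofNat 0, .ofNat 1175877038438336410247102673715200, .ofNat 0,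 .ofNat 0, .ofNat 0, .ofNat 555542534015187179520230896435200, .ofNat 0, .ofNat 0, .ofNat 0, .ofNat 620384304271662751357972198195200, .ofNat 0⟩)
    (by decide +kernel)
theorem L00907 : Good (Phi V4.P V4.D 1 1) ⟨5, 26, 4, 5, 2, 3, 3, 5, 4, 3⟩ :=
  leaf_sound (S := T4.ds_pp) T4.ok_pp (w := 192) (c := ⟨⟨.negSucc 2801, .ofNat 109, .ofNat 38, .negSucc 399, .negSucc 407, .ofNat 187⟩, ⟨.negSucc 1008, .ofNat 89, .negSucc 166, .negSucc 59, .negSucc 168, .ofNat 83⟩, ⟨.ofNat 1583, .negSucc 11, .negSucc 48, .ofNat 258, .ofNat 210, .negSucc 172⟩, ⟨.negSucc 4814, .ofNat 177, .ofNat 68, .negSucc 1633, .negSucc 717, .ofNat 288⟩, ⟨.ofNat 923, .ofNat 241, .negSucc 150, .ofNat 2292, .ofNat 157, .ofNat 20⟩, .ofNat 1168, .negSucc 1789, .ofNat 0, .negSucc 1789, .ofNat 4180, .ofNat 0, .ofNat 206, .ofNat 402, .negSucc 383, .ofNat 0, .ofNat 219, .negSucc 153, .ofNat 0, .ofNat 0, .ofNat 550, .ofNat 1812, .ofNat 0, .ofNat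 1025620512098667270675232999027507200, .ofNat 823452750063785842533885542400, .ofNat 0, .ofNat 0, .ofNat 25565547283549888857447417810989875200, .ofNat 898213427614511335643601803673600, .ofNat 0, .ofNat 0, .ofNat 0, .ofNat 415006685857526579038509229670400, .ofNat 0, .ofNat 0, .ofNat 0, .ofNat 0, .ofNat 0⟩)
    (by decide +kernel)
theorem L00908 : Good (Phi V4.P V4.D 1 1) ⟨5, 27, 3, 2, 2, 3, 2, 2, 3, 1⟩ :=
  out_sound (S := T4.ds_pp) T4.ok_pp (w := 64) (j := 3) (by decide +kernel)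
theorem L00909 : Good (Phi V4.P V4.D 1 1) ⟨5, 26, 3, 2, 3, 6, 3, 6, 3, 1⟩ :=
  leaf_sound (S := T4.ds_pp) T4.ok_pp (w := 192) (c := ⟨⟨.negSucc 3187, .negSucc 672, .ofNat 428, .negSucc 696, .negSucc 740, .negSucc 85⟩, ⟨.negSucc 1054, .negSucc 307, .negSucc 111, .negSucc 255, .negSucc 320, .negSucc 25⟩, ⟨.ofNat 1874, .ofNat 351, .negSucc 282, .ofNat 352, .ofNat 346, .negSucc 57⟩, ⟨.negSucc 5371, .negSucc 962, .ofNat 599, .negSucc 1528, .negSucc 1180, .negSucc 233⟩, ⟨.ofNat 822, .ofNat 82, .ofNat 21, .ofNat 963, .ofNat 2, .ofNat 221⟩, .ofNat 1387, .negSucc 2251, .ofNat 0, .negSucc 2251, .ofNat 5175, .ofNat 0, .ofNat 212, .ofNat 453, .negSucc 571, .ofNat 0, .ofNat 242, .negSucc 238, .ofNat 0, .ofNat 0, .ofNat 633, .ofNat 1179, .ofNat 0, .ofNat 14190623089926463500045253874181734400, .ofNat 48920154016252635011433155788800, .ofNat 0, .ofNat 0, .ofNat 227783066268781072661597039867461632000, .ofNat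 49236108423532404001994605540147200, .ofNat 0, .ofNat 0, .ofNat 292134408841594354582477185486107443200, .ofNat 3779614799237252416304013587251200, .ofNat 0, .ofNat 0, .ofNat 233694316610058232284859508675995238400, .ofNat 11908239211807011843323793820876800, .ofNat 0⟩)
    (by decide +kernel)
theorem L00910 : Good (Phi V4.P V4.D 1 1) ⟨5, 26, 4, 4, 3, 7, 3, 6, 3, 1⟩ :=
  out_sound (S := T4.ds_pp) T4.ok_pp (w := 64) (j := 3) (by decide +kernel)
theorem L00911 : Good (Phi V4.P V4.D 1 1) ⟨5, 26, 4, 5, 3, 7, 3, 6, 4, 2⟩ :=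
  leaf_sound (S := T4.ds_pp) T4.ok_pp (w := 200) (c := ⟨⟨.negSucc 3463, .negSucc 335, .negSucc 46, .negSucc 6, .negSucc 834, .negSucc 10⟩, ⟨.negSucc 1227, .negSucc 146, .negSucc 232, .ofNat 71, .negSucc 353, .ofNat 15⟩, ⟨.ofNat 1908, .ofNat 100, .ofNat 38, .ofNat 77, .ofNat 396, .negSucc 6⟩, ⟨.negSucc 6094, .negSucc 216, .negSucc 204, .negSucc 668, .negSucc 1414, .negSucc 186⟩, ⟨.ofNat 1475, .negSucc 433, .ofNat 129, .ofNat 1510, .ofNat 197, .ofNat 392⟩, .ofNat 1382, .negSucc 2239, .ofNat 0, .negSucc 2239, .ofNat 5147, .ofNat 0, .ofNat 234, .ofNat 542, .negSucc 616, .ofNat 0, .ofNat 284, .negSucc 253, .ofNat 0, .ofNat 0, .ofNat 636, .ofNat 2288, .ofNat 0, .ofNat 549425112324948736848633230262691430400, .ofNat 2905684695397681495507221243494400, .ofNat 0, .ofNat 0, .ofNat 8809526721282661397223367742815469568000, .ofNat 304088227104701335460837364596736000, .ofNat 0, .ofNat 0, .ofNat 7747062151348505379113909622038908108800,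 .ofNat 144598724148967405201380955756953600, .ofNat 0, .ofNat 0, .ofNat 7257372194445655859057102275003967078400, .ofNat 127087496407493674449810848376422400, .ofNat 0⟩)
    (by decide +kernel)

end Crest.Agent.R097C4.N4pp
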