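import Crest.Agent.R097.T4

/-!
# Row 97, box cover in dimension n = 4 (generated)
-/

set_option autoImplicit false
set_option Elab.async false
set_option maxHeartbeats 0
set_option maxRecDepth 100000

open Crest.Agent.R097 Crest.Agent.R097.KA


namespace Crest.Agent.R097C4.N4pp

theorem L00912 : Good (Phi V4.P V4.D 1 1) ⟨5, 26, 4, 5, 3, 7, 3, 6, 4, 3⟩ :=
  leaf_sound (S := T4.ds_pp) T4.ok_pp (w := 200) (c := ⟨⟨.negSucc 3649, .negSucc 310, .ofNat 156, .negSucc 40, .negSucc 765, .ofNat 151⟩, ⟨.negSucc 1301, .negSucc 99, .negSucc 135, .ofNat 58, .negSucc 323, .ofNat 74⟩, ⟨.ofNat 1981, .ofNat 187, .negSucc 78, .ofNat 105, .ofNat 380, .negSucc 109⟩, ⟨.negSucc 6568, .negSucc 434, .ofNat 169, .negSucc 732, .negSucc 1302, .ofNat 154⟩, ⟨.ofNat 1873, .ofNat 137, .ofNat 26, .ofNat 1533, .ofNat 188, .ofNat 197⟩, .ofNat 1166, .negSucc 1786, .ofNat 0, .negSucc 1786, .ofNat 4176, .ofNat 0,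 .ofNat 226, .ofNat 476, .negSucc 492, .ofNat 0, .ofNat 254, .negSucc 199, .ofNat 0, .ofNat 0, .ofNat 589, .ofNat 3284, .ofNat 0, .ofNat 1074092730273916549559672420032944537600, .ofNat 3709228147366641445699898572800000, .ofNat 0, .ofNat 0, .ofNat 16071227152804762183572084531716633395200, .ofNat 581937096729486206752385009084006400, .ofNat 0, .ofNat 0, .ofNat 16439025276365742426832031714644485734400, .ofNat 308399839699544863831098097296998400, .ofNat 0, .ofNat 0, .ofNat 29413730875547590793075562859955906150400, .ofNat 116817720392652217148492871421132800, .ofNat 0⟩)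
    (by decide +kernel)
theorem L00913 : Good (Phi V4.P V4.D 1 1) ⟨5, 27, 3, 2, 2, 3, 3, 6, 3, 1⟩ :=
  out_sound (S := T4.ds_pp) T4.ok_pp (w := 64) (j := 3) (by decide +kernel)
theorem L00914 : Good (Phi V4.P V4.D 1 1) ⟨5, 26, 3, 2, 2, 3, 4, 14, 4, 2⟩ :=
  leaf_sound (S := T4.ds_pp) T4.ok_pp (w := 192) (c := ⟨⟨.negSucc 4367, .negSucc 489, .ofNat 986, .negSucc 1279, .negSucc 595, .negSucc 294⟩, ⟨.negSucc 1577, .negSucc 256, .ofNat 130, .negSucc 430, .negSucc 257, .negSucc 109⟩, ⟨.ofNat 2310, .ofNat 332, .negSucc 476, .ofNat 696, .ofNat 309, .ofNat 182⟩, ⟨.negSucc 7023, .negSucc 802, .ofNat 1367, .negSucc 3139, .negSucc 945, .negSucc 629⟩, ⟨.ofNat 253, .ofNat 405, .ofNat 345, .ofNat 2529, .negSucc 5, .ofNat 366⟩, .ofNat 1380, .negSucc 2237, .ofNat 0, .negSucc 2237, .ofNat 5148, .ofNat 0, .ofNat 232, .ofNat 532, .negSucc 831, .ofNat 0, .ofNat 281, .negSucc 352, .ofNat 0, .ofNat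 0, .ofNat 745, .ofNat 773, .ofNat 0, .ofNat 1580941761257298052842529145801932800, .ofNat 43755200932896362859285027225600, .ofNat 0, .ofNat 0, .ofNat 40845769420909029054583132395248025600, .ofNat 13638308206531892703114372002611200, .ofNat 0, .ofNat 0, .ofNat 50960174414439379776080204589642547200, .ofNat 4942084851829873616216405940633600, .ofNat 0, .ofNat 0, .ofNat 21586732682029961339959029364948992000, .ofNat 7015757667188443481718659638886400, .ofNat 0⟩)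
    (by decide +kernel)
theorem L00915 : Good (Phi V4.P V4.D 1 1) ⟨5, 26, 3, 2, 2, 3, 4, 15, 4, 2⟩ :=
  leaf_sound (S := T4.ds_pp) T4.ok_pp (w := 200) (c := ⟨⟨.negSucc 4209, .negSucc 846, .ofNat 494, .negSucc 2313, .negSucc 468, .negSucc 722⟩, ⟨.negSucc 1502, .negSucc 427, .negSucc 77, .negSucc 935, .negSucc 213, .negSucc 310⟩, ⟨.ofNat 2404, .ofNat 529, .negSucc 379, .ofNat 1141, .ofNat 263, .ofNat 452⟩, ⟨.negSucc 7044, .negSucc 1206, .ofNat 769, .negSucc 4284, .negSucc 684, .negSucc 1189⟩, ⟨.ofNat 841, .ofNat 69, .negSucc 39, .ofNat 1379, .negSucc 146, .ofNat 81⟩, .ofNat 909, .negSucc 1253, .ofNat 0, .negSucc 1253, .ofNat 3024, .ofNat 0, .ofNat 4056, .ofNat 8186, .negSucc 16648, .ofNat 0, .ofNat 4478, .negSucc 7032, .ofNat 0, .ofNat 0, .ofNat 13981, .ofNat 41558, .ofNat 0, .ofNat 283686728943525689002076525720449843200, .ofNat 10192167314518821502241728364544000, .ofNat 0,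 .ofNat 0, .ofNat 147879035206827819184945216756975140864000, .ofNat 1322936510153490535283054251868160000, .ofNat 0, .ofNat 0, .ofNat 115007020392970290342885770557769593651200, .ofNat 1965841548276426579073965828656332800, .ofNat 0, .ofNat 0, .ofNat 138139169394029230220996266257495254630400, .ofNat 1370671695007099517887287530618880000, .ofNat 0⟩)
    (by decide +kernel)
theorem L00916 : Good (Phi V4.P V4.D 1 1) ⟨5, 27, 3, 2, 2, 3, 3, 7, 4, 2⟩ :=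
  out_sound (S := T4.ds_pp) T4.ok_pp (w := 64) (j := 3) (by decide +kernel)
theorem L00917 : Good (Phi V4.P V4.D 1 1) ⟨4, 13, 3, 2, 2, 3, 3, 7, 4, 3⟩ :=
  out_sound (S := T4.ds_pp) T4.ok_pp (w := 32) (j := 2) (by decide +kernel)
theorem L00918 : Good (Phi V4.P V4.D 1 1) ⟨4, 12, 3, 3, 2, 3, 2, 2, 3, 0⟩ :=
  leaf_sound (S := T4.ds_pp) T4.ok_pp (w := 176) (c := ⟨⟨.negSucc 911, .negSucc 415, .negSucc 210, .negSucc 303, .negSucc 541, .negSucc 1433⟩, ⟨.negSucc 409, .negSucc 133, .negSucc 366, .negSucc 88, .negSucc 240, .negSucc 600⟩, ⟨.ofNat 807, .ofNat 443, .ofNat 315, .ofNat 50, .ofNat 76, .ofNat 555⟩, ⟨.negSucc 1810, .negSucc 538, .negSucc 655, .negSucc 1029, .negSucc 828, .negSucc 2605⟩, ⟨.ofNat 373, .ofNat 171, .ofNat 481, .ofNat 1246, .negSucc 90, .ofNat 711⟩, .ofNat 1768, .negSucc 3118, .ofNat 0, .negSucc 3118, .ofNat 7160, .ofNat 0, .ofNat 196, .ofNat 533, .negSucc 661, .ofNat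 0, .ofNat 265, .negSucc 277, .ofNat 0, .ofNat 0, .ofNat 669, .ofNat 787, .ofNat 0, .ofNat 0, .ofNat 69347984788203683722769203200, .ofNat 0, .ofNat 0, .ofNat 0, .ofNat 0, .ofNat 0, .ofNat 0, .ofNat 0, .ofNat 2229524189864971794908813721600, .ofNat 0, .ofNat 0, .ofNat 0, .ofNat 2482230673400267265825728102400, .ofNat 0⟩)
    (by decide +kernel)
theorem L00919 : Good (Phi V4.P V4.D 1 1) ⟨5, 26, 4, 6, 2, 3, 2, 2, 4, 0⟩ :=
  leaf_sound (S := T4.ds_pp) T4.ok_pp (w := 192) (c := ⟨⟨.negSucc 1083, .negSucc 534, .negSucc 94, .negSucc 207, .negSucc 505, .negSucc 1314⟩, ⟨.negSucc 403, .negSucc 220, .negSucc 173, .negSucc 64, .negSucc 236, .negSucc 589⟩, ⟨.ofNat 1131, .ofNat 347, .ofNat 66, .ofNat 14, .negSucc 26, .ofNat 634⟩, ⟨.negSucc 2031, .negSucc 835, .negSucc 223, .negSucc 774, .negSucc 719, .negSucc 2275⟩, ⟨.ofNat 696, .ofNat 183, .ofNat 69, .ofNat 970, .negSucc 176, .ofNat 425⟩,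 .ofNat 1455, .negSucc 2329, .ofNat 0, .negSucc 2329, .ofNat 5133, .ofNat 0, .ofNat 200, .ofNat 565, .negSucc 835, .ofNat 0, .ofNat 295, .negSucc 371, .ofNat 0, .ofNat 0, .ofNat 755, .ofNat 740, .ofNat 0, .ofNat 0, .ofNat 0, .ofNat 0, .ofNat 0, .ofNat 0, .ofNat 36074146895808713674033043865600, .ofNat 0, .ofNat 0, .ofNat 0, .ofNat 14061401931274071372539206041600, .ofNat 0, .ofNat 0, .ofNat 0, .ofNat 0, .ofNat 0⟩)
    (by decide +kernel)
theorem L00920 : Good (Phi V4.P V4.D 1 1) ⟨5, 26, 4, 7, 3, 6, 2, 2, 4, 0⟩ :=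
  leaf_sound (S := T4.ds_pp) T4.ok_pp (w := 200) (c := ⟨⟨.negSucc 1189, .negSucc 116, .negSucc 347, .negSucc 767, .negSucc 283, .negSucc 1111⟩, ⟨.negSucc 540, .negSucc 25, .negSucc 313, .negSucc 365, .negSucc 146, .negSucc 540⟩, ⟨.ofNat 1219, .ofNat 103, .ofNat 220, .ofNat 425, .negSucc 222, .ofNat 528⟩, ⟨.negSucc 2325, .negSucc 129, .negSucc 614, .negSucc 1492, .negSucc 283, .negSucc 1889⟩, ⟨.ofNat 834, .ofNat 106, .ofNat 83, .ofNat 602, .negSucc 317, .ofNat 322⟩, .ofNat 1281, .negSucc 1902, .ofNat 0, .negSucc 1902, .ofNat 4019, .ofNat 0, .ofNat 374, .ofNat 1094, .negSucc 1896, .ofNat 0, .ofNat 600, .negSucc 892, .ofNat 0, .ofNat 0, .ofNat 1706, .ofNat 3868, .ofNat 0, .ofNat 0, .ofNat 0, .ofNat 0, .ofNat 0, .ofNat 0, .ofNat 0, .ofNat 0, .ofNat 0, .ofNat 0, .ofNat 0, .ofNat 0, .ofNat 0, .ofNat 0, .ofNat 23832325742611317927344591811379200, .ofNat 0⟩)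
    (by decide +kernel)
theorem L00921 : Good (Phi V4.P V4.D 1 1) ⟨5, 26, 4, 7, 3, 7, 2, 2, 4, 0⟩ :=
  leaf_sound (S := T4.ds_pp) T4.ok_pp (w := 200) (c := ⟨⟨.negSucc 1048, .negSucc 1227, .ofNat 6, .ofNat 414, .negSucc 768, .negSucc 1398⟩, ⟨.negSucc 472, .negSucc 539, .negSucc 172, .ofNat 215, .negSucc 384, .negSucc 679⟩, ⟨.ofNat 1111, .ofNat 719, .ofNat 23, .negSucc 305, .ofNat 138, .ofNat 626⟩, ⟨.negSucc 2237, .negSucc 1957, .negSucc 36, .ofNat 428, .negSucc 1171, .negSucc 2413⟩, ⟨.ofNat 1127, .ofNat 276, .ofNat 1, .ofNat 442, .negSucc 43, .ofNat 479⟩, .ofNat 1980, .negSucc 3242, .ofNat 0, .negSucc 3242, .ofNat 6619, .ofNat 0, .ofNat 336, .ofNat 1306, .negSucc 2058, .ofNat 0, .ofNat 698, .negSucc 1004, .ofNat 0, .ofNat 0, .ofNat 1616, .ofNat 2897, .ofNat 0, .ofNat 0, .ofNat 0, .ofNat 0, .ofNat 0, .ofNat 0, .ofNat 74580471089606755197396952547328000, .ofNat 0, .ofNat 0, .ofNat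 0, .ofNat 0, .ofNat 0, .ofNat 0, .ofNat 0, .ofNat 46869237517923687283198151727513600, .ofNat 0⟩)
    (by decide +kernel)
theorem L00922 : Good (Phi V4.P V4.D 1 1) ⟨5, 26, 3, 3, 2, 3, 2, 2, 4, 1⟩ :=
  leaf_sound (S := T4.ds_pp) T4.ok_pp (w := 184) (c := ⟨⟨.negSucc 2203, .negSucc 745, .ofNat 325, .negSucc 678, .negSucc 527, .negSucc 164⟩, ⟨.negSucc 859, .negSucc 347, .negSucc 179, .negSucc 289, .negSucc 259, .negSucc 72⟩, ⟨.ofNat 1612, .ofNat 555, .negSucc 253, .ofNat 258, .ofNat 58, .negSucc 12⟩, ⟨.negSucc 3852, .negSucc 1230, .ofNat 474, .negSucc 1779, .negSucc 782, .negSucc 394⟩, ⟨.ofNat 815, .ofNat 357, .negSucc 109, .ofNat 1490, .negSucc 92, .ofNat 284⟩, .ofNat 1189, .negSucc 1746, .ofNat 0, .negSucc 1746, .ofNat 3782, .ofNat 0, .ofNat 197, .ofNat 529, .negSucc 690, .ofNat 0, .ofNat 288, .negSucc 313, .ofNat 0, .ofNat 0, .ofNat 693, .ofNat 899, .ofNat 0, .ofNat 0, .ofNat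 0, .ofNat 0, .ofNat 0, .ofNat 0, .ofNat 14232239132272721305313004748800, .ofNat 0, .ofNat 0, .ofNat 0, .ofNat 6773558763105648520214033203200, .ofNat 0, .ofNat 0, .ofNat 0, .ofNat 0, .ofNat 0⟩)
    (by decide +kernel)
theorem L00923 : Good (Phi V4.P V4.D 1 1) ⟨5, 27, 4, 6, 2, 3, 2, 2, 3, 0⟩ :=
  out_sound (S := T4.ds_pp) T4.ok_pp (w := 64) (j := 3) (by decide +kernel)
theorem L00924 : Good (Phi V4.P V4.D 1 1) ⟨6, 54, 4, 7, 2, 3, 2, 2, 3, 0⟩ :=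
  leaf_sound (S := T4.ds_pp) T4.ok_pp (w := 192) (c := ⟨⟨.negSucc 2032, .negSucc 1251, .ofNat 199, .negSucc 695, .negSucc 598, .negSucc 932⟩, ⟨.negSucc 896, .negSucc 631, .negSucc 53, .negSucc 339, .negSucc 315, .negSucc 475⟩, ⟨.ofNat 1666, .ofNat 859, .negSucc 16, .ofNat 288, .ofNat 9, .ofNat 262⟩, ⟨.negSucc 3489, .negSucc 2025, .ofNat 214, .negSucc 1713, .negSucc 844, .negSucc 1761⟩, ⟨.ofNat 784, .ofNat 313, .ofNat 75, .ofNat 1233, .negSucc 143, .ofNat 630⟩, .ofNat 1492, .negSucc 2233, .ofNat 0, .negSucc 2233, .ofNat 4474, .ofNat 0, .ofNat 169, .ofNat 580, .negSucc 897, .ofNat 0, .ofNat 325, .negSucc 448, .ofNat 0, .ofNat 0, .ofNat 795, .ofNat 766, .ofNat 0, .ofNat 0, .ofNat 15435639141057199785325363200, .ofNat 0, .ofNat 0, .ofNat 0, .ofNat 1483283206733837273193775104000, .ofNat 0, .ofNat 0, .ofNat 0, .ofNat 508455327818979502688777011200, .ofNat 0, .ofNat 0, .ofNat 0, .ofNat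 436858600923836850233357107200, .ofNat 0⟩)
    (by decide +kernel)
theorem L00925 : Good (Phi V4.P V4.D 1 1) ⟨6, 55, 4, 7, 2, 3, 2, 2, 3, 0⟩ :=
  out_sound (S := T4.ds_pp) T4.ok_pp (w := 72) (j := 3) (by decide +kernel)
theorem L00926 : Good (Phi V4.P V4.D 1 1) ⟨4, 12, 3, 3, 3, 6, 2, 2, 3, 1⟩ :=
  leaf_sound (S := T4.ds_pp) T4.ok_pp (w := 184) (c := ⟨⟨.negSucc 2068, .negSucc 396, .ofNat 135, .negSucc 432, .negSucc 558, .ofNat 234⟩, ⟨.negSucc 866, .negSucc 159, .negSucc 222, .negSucc 157, .negSucc 244, .ofNat 102⟩, ⟨.ofNat 1327, .ofNat 266, .negSucc 50, .ofNat 219, .ofNat 196, .negSucc 362⟩, ⟨.negSucc 3918, .negSucc 457, .ofNat 117, .negSucc 1058, .negSucc 887, .ofNat 378⟩, ⟨.ofNat 888, .ofNat 129, .ofNat 54, .ofNat 838, .negSucc 16, .negSucc 9⟩, .ofNat 1391, .negSucc 2301, .ofNat 0, .negSucc 2301, .ofNat 5365, .ofNat 0, .ofNat 178, .ofNat 403, .negSucc 406, .ofNat 0, .ofNat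 208, .negSucc 166, .ofNat 0, .ofNat 0, .ofNat 568, .ofNat 1379, .ofNat 0, .ofNat 0, .ofNat 0, .ofNat 0, .ofNat 0, .ofNat 0, .ofNat 0, .ofNat 0, .ofNat 0, .ofNat 0, .ofNat 1352553790334843029779436378521600, .ofNat 0, .ofNat 0, .ofNat 0, .ofNat 2398608402748364212201716291993600, .ofNat 0⟩)
    (by decide +kernel)
theorem L00927 : Good (Phi V4.P V4.D 1 1) ⟨4, 12, 3, 3, 3, 7, 2, 2, 3, 1⟩ :=
  leaf_sound (S := T4.ds_pp) T4.ok_pp (w := 184) (c := ⟨⟨.negSucc 2693, .negSucc 204, .negSucc 62, .ofNat 61, .negSucc 688, .ofNat 343⟩, ⟨.negSucc 1197, .ofNat 8, .negSucc 391, .ofNat 69, .negSucc 287, .ofNat 159⟩, ⟨.ofNat 1381, .ofNat 346, .ofNat 2, .negSucc 39, .ofNat 349, .negSucc 339⟩, ⟨.negSucc 4886, .negSucc 429, .negSucc 143, .negSucc 407, .negSucc 1242, .ofNat 440⟩, ⟨.ofNat 899, .ofNat 685, .negSucc 222, .ofNat 1160, .ofNat 321, .ofNat 252⟩, .ofNat 1793, .negSucc 3166, .ofNat 0, .negSucc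 3166, .ofNat 7249, .ofNat 0, .ofNat 181, .ofNat 434, .negSucc 354, .ofNat 0, .ofNat 220, .negSucc 145, .ofNat 0, .ofNat 0, .ofNat 538, .ofNat 1989, .ofNat 0, .ofNat 0, .ofNat 0, .ofNat 0, .ofNat 0, .ofNat 0, .ofNat 4343895811215152224345893371904000, .ofNat 0, .ofNat 0, .ofNat 0, .ofNat 1396312917557647057752523014144000, .ofNat 0, .ofNat 0, .ofNat 0, .ofNat 1978314348237791791020588505497600, .ofNat 0⟩)
    (by decide +kernel)
theorem L00928 : Good (Phi V4.P V4.D 1 1) ⟨5, 26, 3, 3, 3, 6, 2, 2, 4, 2⟩ :=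
  leaf_sound (S := T4.ds_pp) T4.ok_pp (w := 192) (c := ⟨⟨.negSucc 2404, .negSucc 323, .ofNat 74, .negSucc 526, .negSucc 539, .ofNat 121⟩, ⟨.negSucc 971, .negSucc 160, .negSucc 252, .negSucc 230, .negSucc 266, .ofNat 57⟩, ⟨.ofNat 1589, .ofNat 201, .negSucc 16, .ofNat 266, .ofNat 115, .negSucc 198⟩, ⟨.negSucc 4291, .negSucc 457, .ofNat 35, .negSucc 1222, .negSucc 791, .ofNat 186⟩, ⟨.ofNat 1046, .ofNat 150, .ofNat 0, .ofNat 829, .negSucc 113, .ofNat 8⟩, .ofNat 640, .negSucc 704, .ofNat 0, .negSucc 704, .ofNat 1693, .ofNat 0, .ofNat 249, .ofNat 420, .negSucc 572, .ofNat 0, .ofNat 252, .negSucc 229, .ofNat 0, .ofNat 0, .ofNat 659, .ofNat 2005, .ofNat 0, .ofNat 0, .ofNat 0, .ofNat 0, .ofNat 0, .ofNat 0, .ofNat 5837121225812867930096920009113600, .ofNat 0, .ofNat 0, .ofNat 0, .ofNat 0, .ofNat 0, .ofNat 0, .ofNat 0, .ofNat 0, .ofNat 0⟩)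
    (by decide +kernel)
theorem L00929 : Good (Phi V4.P V4.D 1 1) ⟨5, 26, 3, 3, 3, 7, 2, 2, 4, 2⟩ :=
  leaf_sound (S := T4.ds_pp) T4.ok_pp (w := 192) (c := ⟨⟨.negSucc 2960, .negSucc 239, .ofNat 38, .ofNat 142, .negSucc 677, .ofNat 160⟩, ⟨.negSucc 1196, .negSucc 67, .negSucc 381, .ofNat 97, .negSucc 315, .ofNat 85⟩, ⟨.ofNat 1773, .ofNat 191, .negSucc 6, .negSucc 113, .ofNat 294, .negSucc 163⟩, ⟨.negSucc 5384, .negSucc 412, .negSucc 37, .negSucc 263, .negSucc 1179, .ofNat 155⟩, ⟨.ofNat 1579, .ofNat 326, .negSucc 108, .ofNat 1033, .ofNat 229, .ofNat 208⟩, .ofNat 1130, .negSucc 1647, .ofNat 0, .negSucc 1647, .ofNat 3640, .ofNat 0, .ofNat 202, .ofNat 486, .negSucc 477, .ofNat 0, .ofNat 264, .negSucc 208, .ofNat 0, .ofNat 0, .ofNat 587, .ofNat 1825, .ofNat 0, .ofNat 0, .ofNat 110367544217481176224821254553600, .ofNat 0, .ofNat 0, .ofNat 0, .ofNat 7893291310846094659057985205043200,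 .ofNat 0, .ofNat 0, .ofNat 0, .ofNat 2354265779968531346182354501632000, .ofNat 0, .ofNat 0, .ofNat 0, .ofNat 0, .ofNat 0⟩)
    (by decide +kernel)
theorem L00930 : Good (Phi V4.P V4.D 1 1) ⟨5, 27, 4, 6, 2, 3, 2, 2, 4, 2⟩ :=
  out_sound (S := T4.ds_pp) T4.ok_pp (w := 64) (j := 3) (by decide +kernel)
theorem L00931 : Good (Phi V4.P V4.D 1 1) ⟨6, 54, 5, 14, 2, 3, 2, 2, 4, 2⟩ :=
  out_sound (S := T4.ds_pp) T4.ok_pp (w := 72) (j := 3) (by decide +kernel)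
theorem L00932 : Good (Phi V4.P V4.D 1 1) ⟨6, 54, 5, 15, 2, 3, 2, 2, 4, 2⟩ :=
  leaf_sound (S := T4.ds_pp) T4.ok_pp (w := 200) (c := ⟨⟨.negSucc 2940, .negSucc 471, .ofNat 27, .negSucc 329, .negSucc 660, .ofNat 356⟩, ⟨.negSucc 1436, .negSucc 222, .negSucc 78, .negSucc 131, .negSucc 344, .ofNat 188⟩, ⟨.ofNat 1857, .ofNat 386, .ofNat 22, .ofNat 145, .ofNat 203, .negSucc 312⟩, ⟨.negSucc 4947, .negSucc 841, .negSucc 45, .negSucc 1534, .negSucc 1030, .ofNat 504⟩, ⟨.ofNat 861, .ofNat 346, .ofNat 112, .ofNat 1972, .ofNat 28, .ofNat 82⟩, .ofNat 3822, .negSucc 6573, .ofNat 0, .negSucc 6573, .ofNat 12602, .ofNat 0, .ofNat 119, .ofNat 488, .negSucc 507, .ofNat 0, .ofNat 269, .negSucc 258, .ofNat 0, .ofNat 0, .ofNat 615, .ofNat 1505, .ofNat 0, .ofNat 0, .ofNat 620772918892191423344620339200, .ofNat 0, .ofNat 0, .ofNat 0, .ofNat 56184353269349497487892047462400, .ofNat 0, .ofNat 0, .ofNat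 0, .ofNat 28609149104774540100108288000000, .ofNat 0, .ofNat 0, .ofNat 0, .ofNat 16938822040326172437632778240000, .ofNat 0⟩)
    (by decide +kernel)
theorem L00933 : Good (Phi V4.P V4.D 1 1) ⟨6, 55, 4, 7, 2, 3, 2, 2, 4, 2⟩ :=
  out_sound (S := T4.ds_pp) T4.ok_pp (w := 72) (j := 3) (by decide +kernel)
theorem L00934 : Good (Phi V4.P V4.D 1 1) ⟨4, 13, 3, 3, 3, 6, 2, 2, 4, 3⟩ :=
  leaf_sound (S := T4.ds_pp) T4.ok_pp (w := 192) (c := ⟨⟨.negSucc 2403, .negSucc 597, .ofNat 228, .negSucc 356, .negSucc 651, .ofNat 190⟩, ⟨.negSucc 985, .negSucc 256, .negSucc 191, .negSucc 142, .negSucc 307, .ofNat 95⟩, ⟨.ofNat 1421, .ofNat 352, .negSucc 130, .ofNat 182, .ofNat 271, .negSucc 199⟩, ⟨.negSucc 4257, .negSucc 772, .ofNat 280, .negSucc 980, .negSucc 1041, .ofNat 306⟩, ⟨.ofNat 989, .ofNat 160, .negSucc 21, .ofNat 876, .ofNat 45, .negSucc 16⟩, .ofNat 640, .negSucc 705, .ofNat 0, .negSucc 705,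 .ofNat 1699, .ofNat 0, .ofNat 235, .ofNat 374, .negSucc 434, .ofNat 0, .ofNat 230, .negSucc 172, .ofNat 0, .ofNat 0, .ofNat 586, .ofNat 1794, .ofNat 0, .ofNat 192865198638919896614643007330713600, .ofNat 98265188518720563856628986675200, .ofNat 0, .ofNat 0, .ofNat 0, .ofNat 18410044619103647916931591805337600, .ofNat 0, .ofNat 0, .ofNat 0, .ofNat 7352814383528167204597291548672000, .ofNat 0, .ofNat 0, .ofNat 0, .ofNat 0, .ofNat 0⟩)
    (by decide +kernel)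
theorem L00935 : Good (Phi V4.P V4.D 1 1) ⟨4, 13, 3, 3, 3, 7, 3, 4, 4, 3⟩ :=
  leaf_sound (S := T4.ds_pp) T4.ok_pp (w := 192) (c := ⟨⟨.negSucc 2821, .negSucc 237, .ofNat 31, .ofNat 106, .negSucc 266, .ofNat 252⟩, ⟨.negSucc 1144, .ofNat 10, .negSucc 360, .ofNat 87, .negSucc 121, .ofNat 119⟩, ⟨.ofNat 1586, .ofNat 170, .ofNat 22, .negSucc 62, .ofNat 147, .negSucc 223⟩, ⟨.negSucc 5233, .negSucc 324, .negSucc 82, .negSucc 377, .negSucc 485, .ofNat 390⟩, ⟨.ofNat 1744, .ofNat 205, .ofNat 14, .ofNat 1137, .ofNat 136, .ofNat 12⟩, .ofNat 637, .negSucc 699, .ofNat 0, .negSucc 699, .ofNat 1692, .ofNat 0, .ofNat 246, .ofNat 377, .negSucc 343, .ofNat 0, .ofNat 231, .negSucc 131, .ofNat 0, .ofNat 0, .ofNat 540, .ofNat 2335, .ofNat 0, .ofNat 883344529876075071674548124594995200, .ofNat 1107696329280728961898689803059200, .ofNat 0, .ofNat 0, .ofNat 21974621321793704953238364232876032000, .ofNat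 157272492667045892730665085960192000, .ofNat 0, .ofNat 0, .ofNat 13699035563279605405769197545534259200, .ofNat 85372672613180632412499103186944000, .ofNat 0, .ofNat 0, .ofNat 0, .ofNat 0, .ofNat 0⟩)
    (by decide +kernel)
theorem L00936 : Good (Phi V4.P V4.D 1 1) ⟨5, 26, 3, 3, 3, 7, 3, 5, 4, 3⟩ :=
  leaf_sound (S := T4.ds_pp) T4.ok_pp (w := 200) (c := ⟨⟨.negSucc 3085, .negSucc 332, .ofNat 278, .ofNat 69, .negSucc 451, .ofNat 262⟩, ⟨.negSucc 1255, .negSucc 99, .negSucc 264, .ofNat 72, .negSucc 213, .ofNat 128⟩, ⟨.ofNat 1695, .ofNat 205, .negSucc 142, .ofNat 37, .ofNat 232, .negSucc 195⟩, ⟨.negSucc 5653, .negSucc 498, .ofNat 313, .negSucc 549, .negSucc 812, .ofNat 362⟩, ⟨.ofNat 1744, .ofNat 116, .ofNat 26, .ofNat 1362, .ofNat 217, .ofNat 103⟩, .ofNat 638, .negSucc 701, .ofNat 0, .negSucc 701, .ofNat 1690, .ofNat 0, .ofNat 255, .ofNat 413, .negSucc 425, .ofNat 0, .ofNat 251,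 .negSucc 167, .ofNat 0, .ofNat 0, .ofNat 574, .ofNat 3105, .ofNat 0, .ofNat 64164446933843042138750477928077721600, .ofNat 398010360288736674673706454220800, .ofNat 0, .ofNat 0, .ofNat 1016791012832969922385162183892375961600, .ofNat 48872512430583263781487864971264000, .ofNat 0, .ofNat 0, .ofNat 867397984260736077313711448558823014400, .ofNat 36123696755292645025706908267315200, .ofNat 0, .ofNat 0, .ofNat 1219367823314524334599637892421228953600, .ofNat 0, .ofNat 0⟩)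
    (by decide +kernel)
theorem L00937 : Good (Phi V4.P V4.D 1 1) ⟨5, 27, 3, 3, 3, 7, 3, 5, 4, 3⟩ :=
  leaf_sound (S := T4.ds_pp) T4.ok_pp (w := 200) (c := ⟨⟨.negSucc 3320, .negSucc 171, .ofNat 120, .ofNat 121, .negSucc 464, .ofNat 303⟩, ⟨.negSucc 1358, .negSucc 56, .negSucc 288, .ofNat 90, .negSucc 237, .ofNat 162⟩, ⟨.ofNat 1805, .ofNat 163, .negSucc 33, .ofNat 45, .ofNat 243, .negSucc 219⟩, ⟨.negSucc 5847, .negSucc 316, .negSucc 12, .negSucc 579, .negSucc 869, .ofNat 405⟩, ⟨.ofNat 1650, .ofNat 257, .ofNat 142, .ofNat 1465, .ofNat 296, .ofNat 116⟩, .ofNat 706, .negSucc 806, .ofNat 0, .negSucc 806, .ofNat 1783, .ofNat 0, .ofNat 234, .ofNat 438, .negSucc 454, .ofNat 0, .ofNat 270, .negSucc 198, .ofNat 0, .ofNat 0, .ofNat 590, .ofNat 2885, .ofNat 0, .ofNat 50030955999652165031276196951962419200, .ofNat 774950105900359496623787606016000, .ofNat 0, .ofNat 0, .ofNat 1554244412393922266327504378895374745600,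 .ofNat 79295497238819886463310026191667200, .ofNat 0, .ofNat 0, .ofNat 1582601133052822694296941340753762713600, .ofNat 56122184031039186188447444159692800, .ofNat 0, .ofNat 0, .ofNat 0, .ofNat 0, .ofNat 0⟩)
    (by decide +kernel)
theorem L00938 : Good (Phi V4.P V4.D 1 1) ⟨5, 24, 3, 3, 2, 3, 2, 3, 3, 0⟩ :=
  out_sound (S := T4.ds_pp) T4.ok_pp (w := 64) (j := 3) (by decide +kernel)
theorem L00939 : Good (Phi V4.P V4.D 1 1) ⟨5, 25, 4, 6, 2, 3, 2, 3, 4, 0⟩ :=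
  leaf_sound (S := T4.ds_pp) T4.ok_pp (w := 192) (c := ⟨⟨.negSucc 1181, .ofNat 37, .negSucc 478, .negSucc 1204, .negSucc 388, .negSucc 1207⟩, ⟨.negSucc 515, .ofNat 43, .negSucc 357, .negSucc 471, .negSucc 169, .negSucc 512⟩, ⟨.ofNat 790, .negSucc 52, .ofNat 311, .ofNat 752, .negSucc 76, .ofNat 631⟩, ⟨.negSucc 2077, .ofNat 118, .negSucc 772, .negSucc 2601, .negSucc 626, .negSucc 2085⟩, ⟨.ofNat 185, .ofNat 147, .negSucc 94, .ofNat 1536, .ofNat 7, .ofNat 345⟩, .ofNat 1418, .negSucc 2362, .ofNat 0, .negSucc 2362, .ofNat 5503, .ofNat 0, .ofNat 439, .ofNat 1241, .negSucc 2074, .ofNat 0, .ofNat 626, .negSucc 885, .ofNat 0, .ofNat 0, .ofNat 1694, .ofNat 1692, .ofNat 0, .ofNat 0, .ofNat 0, .ofNat 0, .ofNat 0, .ofNat 0, .ofNat 0, .ofNat 0, .ofNat 0, .ofNat 0, .ofNat 100078204817702869067131099545600, .ofNat 0, .ofNat 0, .ofNat 0, .ofNat 103314332419084085850488910643200, .ofNat 0⟩)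
    (by decide +kernel)
theorem L00940 : Good (Phi V4.P V4.D 1 1) ⟨5, 25, 4, 6, 3, 6, 2, 3, 4, 1⟩ :=
  leaf_sound (S := T4.ds_pp) T4.ok_pp (w := 200) (c := ⟨⟨.negSucc 1097, .negSucc 1114, .ofNat 399, .negSucc 870, .negSucc 895, .negSucc 786⟩, ⟨.negSucc 431, .negSucc 495, .ofNat 14, .negSucc 352, .negSucc 396, .negSucc 334⟩, ⟨.ofNat 656, .ofNat 675, .negSucc 246, .ofNat 456, .ofNat 259, .ofNat 428⟩, ⟨.negSucc 2170, .negSucc 1653, .ofNat 571, .negSucc 1733, .negSucc 1358, .negSucc 1363⟩, ⟨.ofNat 622, .ofNat 71, .ofNat 60, .ofNat 775, .negSucc 176, .ofNat 235⟩, .ofNat 1747, .negSucc 3073, .ofNat 0, .negSucc 3073, .ofNat 7065, .ofNat 0, .ofNat 203, .ofNat 552, .negSucc 885, .ofNat 0, .ofNat 277, .negSucc 377, .ofNat 0, .ofNat 0, .ofNat 788, .ofNat 716, .ofNat 0, .ofNat 0, .ofNat 0, .ofNat 0, .ofNat 0, .ofNat 0, .ofNat 0, .ofNat 0, .ofNat 0, .ofNat 420901636911819606127681339980880281600,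 .ofNat 4637318971738894903714095562752000, .ofNat 0, .ofNat 0, .ofNat 1452135221820184224624394622226923520000, .ofNat 4755464569484309867838463121817600, .ofNat 0⟩)
    (by decide +kernel)
theorem L00941 : Good (Phi V4.P V4.D 1 1) ⟨5, 25, 4, 6, 3, 7, 2, 3, 4, 1⟩ :=
  leaf_sound (S := T4.ds_pp) T4.ok_pp (w := 200) (c := ⟨⟨.negSucc 2258, .negSucc 692, .ofNat 229, .negSucc 228, .negSucc 1313, .negSucc 697⟩, ⟨.negSucc 951, .negSucc 273, .negSucc 109, .negSucc 55, .negSucc 564, .negSucc 284⟩, ⟨.ofNat 1282, .ofNat 406, .negSucc 122, .ofNat 170, .ofNat 528, .ofNat 353⟩, ⟨.negSucc 4198, .negSucc 1010, .ofNat 273, .negSucc 913, .negSucc 2186, .negSucc 1356⟩, ⟨.ofNat 1004, .ofNat 158, .ofNat 53, .ofNat 1254, .ofNat 183, .ofNat 546⟩, .ofNat 1410, .negSucc 2347, .ofNat 0, .negSucc 2347, .ofNat 5477, .ofNat 0, .ofNat 222, .ofNat 642, .negSucc 886, .ofNat 0, .ofNat 321, .negSucc 374, .ofNat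 0, .ofNat 0, .ofNat 741, .ofNat 597, .ofNat 0, .ofNat 36450041518875718233854533544863334400, .ofNat 0, .ofNat 0, .ofNat 0, .ofNat 0, .ofNat 0, .ofNat 0, .ofNat 0, .ofNat 0, .ofNat 0, .ofNat 0, .ofNat 0, .ofNat 2299832687158266076051899631569312153600, .ofNat 9466230682582164483456941162496000, .ofNat 0⟩)
    (by decide +kernel)
theorem L00942 : Good (Phi V4.P V4.D 1 1) ⟨5, 25, 4, 7, 2, 3, 2, 3, 3, 0⟩ :=
  out_sound (S := T4.ds_pp) T4.ok_pp (w := 64) (j := 3) (by decide +kernel)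
theorem L00943 : Good (Phi V4.P V4.D 1 1) ⟨6, 52, 4, 6, 3, 6, 2, 3, 3, 0⟩ :=
  leaf_sound (S := T4.ds_pp) T4.ok_pp (w := 200) (c := ⟨⟨.negSucc 1164, .negSucc 287, .ofNat 135, .negSucc 617, .negSucc 688, .negSucc 2068⟩, ⟨.negSucc 443, .negSucc 141, .negSucc 74, .negSucc 257, .negSucc 322, .negSucc 923⟩, ⟨.ofNat 769, .ofNat 185, .negSucc 120, .ofNat 340, .ofNat 86, .ofNat 1136⟩, ⟨.negSucc 2100, .negSucc 383, .ofNat 176, .negSucc 1300, .negSucc 989, .negSucc 3492⟩, ⟨.ofNat 528, .ofNat 6, .ofNat 13, .ofNat 701, .negSucc 217, .ofNat 471⟩, .ofNat 1057, .negSucc 1536, .ofNat 0, .negSucc 1536, .ofNat 3523, .ofNat 0, .ofNat 231, .ofNat 564, .negSucc 1048, .ofNat 0, .ofNat 304, .negSucc 460, .ofNat 0, .ofNat 0, .ofNat 882, .ofNat 360, .ofNat 0, .ofNat 43796148655161283543026471524106240000, .ofNat 141928303837097593431864115200, .ofNat 0, .ofNat 0, .ofNat 0, .ofNat 0, .ofNat 0, .ofNat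 0, .ofNat 0, .ofNat 0, .ofNat 0, .ofNat 0, .ofNat 5724587072097311806192372423232952729600, .ofNat 0, .ofNat 0⟩)
    (by decide +kernel)
theorem L00944 : Good (Phi V4.P V4.D 1 1) ⟨6, 52, 4, 6, 3, 7, 2, 3, 4, 0⟩ :=
  leaf_sound (S := T4.ds_pp) T4.ok_pp (w := 200) (c := ⟨⟨.negSucc 1598, .negSucc 375, .negSucc 55, .negSucc 400, .negSucc 797, .negSucc 1532⟩, ⟨.negSucc 618, .negSucc 165, .negSucc 184, .negSucc 153, .negSucc 364, .negSucc 685⟩, ⟨.ofNat 1039, .ofNat 216, .ofNat 30, .ofNat 277, .ofNat 162, .ofNat 771⟩, ⟨.negSucc 2948, .negSucc 545, .negSucc 153, .negSucc 1024, .negSucc 1300, .negSucc 2653⟩, ⟨.ofNat 904, .ofNat 44, .ofNat 28, .ofNat 856, .ofNat 88, .ofNat 500⟩, .ofNat 1067, .negSucc 1552, .ofNat 0, .negSucc 1552, .ofNat 3544, .ofNat 0, .ofNat 487, .ofNat 1403, .negSucc 2338, .ofNat 0, .ofNat 746, .negSucc 1036, .ofNat 0, .ofNat 0, .ofNat 1725, .ofNat 1433, .ofNat 0,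 .ofNat 0, .ofNat 0, .ofNat 0, .ofNat 0, .ofNat 0, .ofNat 0, .ofNat 0, .ofNat 0, .ofNat 0, .ofNat 0, .ofNat 0, .ofNat 0, .ofNat 0, .ofNat 0, .ofNat 0⟩)
    (by decide +kernel)
theorem L00945 : Good (Phi V4.P V4.D 1 1) ⟨6, 52, 4, 6, 3, 7, 3, 6, 4, 1⟩ :=
  leaf_sound (S := T4.ds_pp) T4.ok_pp (w := 208) (c := ⟨⟨.negSucc 3045, .negSucc 418, .ofNat 201, .negSucc 38, .negSucc 669, .negSucc 498⟩, ⟨.negSucc 1256, .negSucc 170, .negSucc 124, .ofNat 30, .negSucc 299, .negSucc 203⟩, ⟨.ofNat 1743, .ofNat 247, .negSucc 121, .ofNat 65, .ofNat 273, .ofNat 246⟩, ⟨.negSucc 5364, .negSucc 639, .ofNat 272, .negSucc 618, .negSucc 1109, .negSucc 1043⟩, ⟨.ofNat 1180, .ofNat 133, .negSucc 51, .ofNat 1216, .ofNat 115, .ofNat 559⟩, .ofNat 1050, .negSucc 1516, .ofNat 0, .negSucc 1516, .ofNat 3468, .ofNat 0, .ofNat 477, .ofNat 1244, .negSucc 1732, .ofNat 0, .ofNat 662, .negSucc 751, .ofNat 0, .ofNat 0,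 .ofNat 1480, .ofNat 5565, .ofNat 0, .ofNat 0, .ofNat 0, .ofNat 0, .ofNat 0, .ofNat 0, .ofNat 194976772742941549022435888804659200, .ofNat 0, .ofNat 0, .ofNat 0, .ofNat 83166808273296546622433820829286400, .ofNat 0, .ofNat 0, .ofNat 0, .ofNat 62606749024286422261924981270118400, .ofNat 0⟩)
    (by decide +kernel)
theorem L00946 : Good (Phi V4.P V4.D 1 1) ⟨6, 52, 4, 6, 3, 7, 3, 7, 4, 1⟩ :=
  leaf_sound (S := T4.ds_pp) T4.ok_pp (w := 208) (c := ⟨⟨.negSucc 3416, .negSucc 539, .ofNat 198, .negSucc 228, .negSucc 1010, .negSucc 787⟩, ⟨.negSucc 1408, .negSucc 236, .negSucc 143, .negSucc 46, .negSucc 463, .negSucc 336⟩, ⟨.ofNat 1811, .ofNat 280, .negSucc 106, .ofNat 236, .ofNat 428, .ofNat 436⟩, ⟨.negSucc 5891, .negSucc 753, .ofNat 211, .negSucc 1086, .negSucc 1626, .negSucc 1565⟩, ⟨.ofNat 1036, .negSucc 7, .ofNat 74, .ofNat 1587, .ofNat 63, .ofNat 703⟩, .ofNat 1068, .negSucc 1556, .ofNat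 0, .negSucc 1556, .ofNat 3560, .ofNat 0, .ofNat 490, .ofNat 1361, .negSucc 2167, .ofNat 0, .ofNat 723, .negSucc 955, .ofNat 0, .ofNat 0, .ofNat 1646, .ofNat 1483, .ofNat 0, .ofNat 12059413644814940235069339999372155289600, .ofNat 0, .ofNat 0, .ofNat 0, .ofNat 0, .ofNat 0, .ofNat 0, .ofNat 0, .ofNat 489119517414432054791813967553969835212800, .ofNat 0, .ofNat 0, .ofNat 0, .ofNat 701501189912474320020076013130024694579200, .ofNat 0, .ofNat 0⟩)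
    (by decide +kernel)
theorem L00947 : Good (Phi V4.P V4.D 1 1) ⟨6, 53, 5, 12, 2, 3, 2, 3, 3, 0⟩ :=
  out_sound (S := T4.ds_pp) T4.ok_pp (w := 72) (j := 3) (by decide +kernel)
theorem L00948 : Good (Phi V4.P V4.D 1 1) ⟨6, 53, 5, 13, 2, 3, 2, 3, 4, 0⟩ :=
  leaf_sound (S := T4.ds_pp) T4.ok_pp (w := 200) (c := ⟨⟨.negSucc 1252, .negSucc 341, .ofNat 219, .negSucc 1753, .negSucc 432, .negSucc 1574⟩, ⟨.negSucc 521, .negSucc 148, .ofNat 27, .negSucc 785, .negSucc 207, .negSucc 739⟩, ⟨.ofNat 813, .ofNat 119, .negSucc 119, .ofNat 1071, .negSucc 108, .ofNat 864⟩, ⟨.negSucc 2125, .negSucc 606, .ofNat 346, .negSucc 3488, .negSucc 657, .negSucc 2651⟩, ⟨.ofNat 369, .ofNat 293, .negSucc 51, .ofNat 1557, .negSucc 39, .ofNat 394⟩, .ofNat 2060, .negSucc 3465, .ofNat 0, .negSucc 3465, .ofNat 7238, .ofNat 0, .ofNat 198, .ofNat 660, .negSucc 1173, .ofNat 0, .ofNat 355, .negSucc 554, .ofNat 0, .ofNat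 0, .ofNat 905, .ofNat 923, .ofNat 0, .ofNat 0, .ofNat 0, .ofNat 0, .ofNat 0, .ofNat 0, .ofNat 40288708842117666373891207987200, .ofNat 0, .ofNat 0, .ofNat 0, .ofNat 17679569386407688713410917171200, .ofNat 0, .ofNat 0, .ofNat 49346275949820516862583410864737484800, .ofNat 18513141429410263971407698329600, .ofNat 0⟩)
    (by decide +kernel)
theorem L00949 : Good (Phi V4.P V4.D 1 1) ⟨6, 53, 5, 13, 3, 6, 2, 3, 4, 1⟩ :=
  leaf_sound (S := T4.ds_pp) T4.ok_pp (w := 208) (c := ⟨⟨.negSucc 2367, .negSucc 612, .ofNat 182, .negSucc 970, .negSucc 1198, .negSucc 685⟩, ⟨.negSucc 1033, .negSucc 299, .ofNat 6, .negSucc 437, .negSucc 584, .negSucc 320⟩, ⟨.ofNat 1458, .ofNat 429, .negSucc 145, .ofNat 504, .ofNat 396, .ofNat 369⟩, ⟨.negSucc 4063, .negSucc 869, .ofNat 256, .negSucc 1907, .negSucc 1735, .negSucc 1191⟩, ⟨.ofNat 764, .negSucc 3, .ofNat 24, .ofNat 811, .negSucc 289, .ofNat 249⟩, .ofNat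 2077, .negSucc 3495, .ofNat 0, .negSucc 3495, .ofNat 7291, .ofNat 0, .ofNat 372, .ofNat 1138, .negSucc 1956, .ofNat 0, .ofNat 613, .negSucc 922, .ofNat 0, .ofNat 0, .ofNat 1676, .ofNat 1033, .ofNat 0, .ofNat 3169583247257582889947118547209132441600, .ofNat 367750234186466481070142599987200, .ofNat 0, .ofNat 0, .ofNat 0, .ofNat 86779384138510545965312615487897600, .ofNat 0, .ofNat 0, .ofNat 804870391401325350996753518642871454924800, .ofNat 43901060237224164189429774365491200, .ofNat 0, .ofNat 0, .ofNat 685510077293319189754677824696712639283200, .ofNat 5195166374180678701424413822156800, .ofNat 0⟩)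
    (by decide +kernel)
theorem L00950 : Good (Phi V4.P V4.D 1 1) ⟨6, 53, 5, 13, 3, 7, 3, 6, 4, 1⟩ :=
  leaf_sound (S := T4.ds_pp) T4.ok_pp (w := 208) (c := ⟨⟨.negSucc 3418, .negSucc 484, .ofNat 17, .ofNat 23, .negSucc 630, .negSucc 351⟩, ⟨.negSucc 1502, .negSucc 213, .negSucc 96, .ofNat 54, .negSucc 299, .negSucc 146⟩, ⟨.ofNat 1937, .ofNat 284, .ofNat 1, .ofNat 38, .ofNat 246, .ofNat 182⟩, ⟨.negSucc 5886, .negSucc 729, .negSucc 31, .negSucc 560, .negSucc 1038, .negSucc 855⟩, ⟨.ofNat 1167, .ofNat 118, .ofNat 54, .ofNat 1245, .ofNat 107, .ofNat 635⟩, .ofNat 1603, .negSucc 2559, .ofNat 0, .negSucc 2559, .ofNat 5424, .ofNat 0, .ofNat 402, .ofNat 1278, .negSucc 1763, .ofNat 0, .ofNat 685, .negSucc 819, .ofNat 0, .ofNat 0, .ofNat 1494, .ofNat 5424, .ofNat 0, .ofNat 0, .ofNat 0, .ofNat 0, .ofNat 0, .ofNat 0, .ofNat 817881576472046507016962622829363200, .ofNat 0, .ofNat 0, .ofNat 0,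 .ofNat 494630560402928445423054996740505600, .ofNat 0, .ofNat 0, .ofNat 0, .ofNat 281562930208604854729844025458688000, .ofNat 0⟩)
    (by decide +kernel)
theorem L00951 : Good (Phi V4.P V4.D 1 1) ⟨6, 53, 5, 13, 3, 7, 3, 7, 4, 1⟩ :=
  leaf_sound (S := T4.ds_pp) T4.ok_pp (w := 208) (c := ⟨⟨.negSucc 4002, .negSucc 539, .ofNat 400, .negSucc 300, .negSucc 1131, .negSucc 842⟩, ⟨.negSucc 1778, .negSucc 266, .ofNat 85, .negSucc 91, .negSucc 544, .negSucc 382⟩, ⟨.ofNat 2098, .ofNat 199, .negSucc 155, .ofNat 268, .ofNat 465, .ofNat 452⟩, ⟨.negSucc 6725, .negSucc 545, .ofNat 449, .negSucc 1210, .negSucc 1745, .negSucc 1602⟩, ⟨.ofNat 1010, .negSucc 409, .ofNat 300, .ofNat 1542, .negSucc 50, .ofNat 595⟩, .ofNat 2034, .negSucc 3412, .ofNat 0, .negSucc 3412, .ofNat 7131, .ofNat 0, .ofNat 405, .ofNat 1388, .negSucc 2237, .ofNat 0, .ofNat 742, .negSucc 1057, .ofNat 0, .ofNat 0, .ofNat 1681,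 .ofNat 2235, .ofNat 0, .ofNat 77293418247967873446594638898554260684800, .ofNat 0, .ofNat 0, .ofNat 0, .ofNat 376085176744508091000268489351523362406400, .ofNat 653598851171909661505550653430169600, .ofNat 0, .ofNat 0, .ofNat 2220105887139314123082031060935577593446400, .ofNat 227681660654976977249237174373580800, .ofNat 0, .ofNat 0, .ofNat 3747343878162162457392297262611060228096000, .ofNat 164341030375248500353073817216614400, .ofNat 0⟩)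
    (by decide +kernel)
theorem L00952 : Good (Phi V4.P V4.D 1 1) ⟨5, 27, 4, 6, 2, 3, 2, 3, 3, 0⟩ :=
  out_sound (S := T4.ds_pp) T4.ok_pp (w := 64) (j := 3) (by decide +kernel)
theorem L00953 : Good (Phi V4.P V4.D 1 1) ⟨6, 52, 4, 7, 3, 6, 2, 3, 3, 0⟩ :=
  leaf_sound (S := T4.ds_pp) T4.ok_pp (w := 200) (c := ⟨⟨.negSucc 1459, .ofNat 338, .ofNat 1197, .negSucc 1011, .negSucc 455, .negSucc 2289⟩, ⟨.negSucc 667, .ofNat 148, .ofNat 455, .negSucc 466, .negSucc 224, .negSucc 1088⟩, ⟨.ofNat 975, .negSucc 257, .negSucc 785, .ofNat 585, .negSucc 82, .ofNat 1288⟩, ⟨.negSucc 2579, .ofNat 557, .ofNat 1805, .negSucc 1932, .negSucc 598, .negSucc 3814⟩, ⟨.ofNat 480, .ofNat 76, .ofNat 113, .ofNat 721, .negSucc 241, .ofNat 464⟩, .ofNat 2582, .negSucc 4541, .ofNat 0, .negSucc 4541, .ofNat 9459, .ofNat 0, .ofNat 85, .ofNat 302, .negSucc 560, .ofNat 0, .ofNat 159, .negSucc 266, .ofNat 0, .ofNat 0,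 .ofNat 456, .ofNat 236, .ofNat 0, .ofNat 0, .ofNat 6233023356859078091308479283200, .ofNat 0, .ofNat 0, .ofNat 0, .ofNat 0, .ofNat 0, .ofNat 0, .ofNat 1265402876040453233270756439899504640000, .ofNat 322840397998589576331308669337600, .ofNat 0, .ofNat 0, .ofNat 792944463404186596524921014488714444800, .ofNat 177484222668036079041954132787200, .ofNat 0⟩)
    (by decide +kernel)
theorem L00954 : Good (Phi V4.P V4.D 1 1) ⟨6, 52, 4, 7, 3, 7, 2, 3, 4, 0⟩ :=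
  leaf_sound (S := T4.ds_pp) T4.ok_pp (w := 208) (c := ⟨⟨.negSucc 1933, .ofNat 89, .negSucc 810, .negSucc 582, .negSucc 882, .negSucc 1383⟩, ⟨.negSucc 889, .ofNat 31, .negSucc 525, .negSucc 253, .negSucc 421, .negSucc 650⟩, ⟨.ofNat 1247, .negSucc 84, .ofNat 523, .ofNat 398, .ofNat 194, .ofNat 700⟩, ⟨.negSucc 3645, .ofNat 375, .negSucc 1745, .negSucc 1404, .negSucc 1423, .negSucc 2430⟩, ⟨.ofNat 1144, .negSucc 344, .ofNat 890, .ofNat 1021, .ofNat 80, .ofNat 540⟩, .ofNat 1870, .negSucc 3117, .ofNat 0, .negSucc 3117, .ofNat 6593, .ofNat 0, .ofNat 382, .ofNat 1476, .negSucc 2492, .ofNat 0, .ofNat 777, .negSucc 1182, .ofNat 0, .ofNat 0, .ofNat 1781, .ofNat 1897, .ofNat 0, .ofNat 0, .ofNat 0, .ofNat 0, .ofNat 0, .ofNat 0, .ofNat 179626512218381617321618745956761600, .ofNat 0, .ofNat 0, .ofNat 0, .ofNat 0, .ofNat 0, .ofNat 0, .ofNat 0, .ofNat 86206030931961194495084673682636800, .ofNat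 0⟩)
    (by decide +kernel)
theorem L00955 : Good (Phi V4.P V4.D 1 1) ⟨6, 52, 4, 7, 3, 7, 3, 6, 4, 1⟩ :=
  leaf_sound (S := T4.ds_pp) T4.ok_pp (w := 208) (c := ⟨⟨.negSucc 3209, .negSucc 134, .ofNat 576, .negSucc 45, .negSucc 622, .negSucc 411⟩, ⟨.negSucc 1503, .negSucc 61, .ofNat 96, .ofNat 10, .negSucc 296, .negSucc 183⟩, ⟨.ofNat 1866, .ofNat 58, .negSucc 274, .ofNat 72, .ofNat 237, .ofNat 182⟩, ⟨.negSucc 5732, .negSucc 142, .ofNat 780, .negSucc 651, .negSucc 1024, .negSucc 882⟩, ⟨.ofNat 1316, .ofNat 5, .ofNat 142, .ofNat 1205, .ofNat 97, .ofNat 491⟩, .ofNat 2587, .negSucc 4552, .ofNat 0, .negSucc 4552, .ofNat 9486, .ofNat 0, .ofNat 345, .ofNat 1291, .negSucc 1741, .ofNat 0, .ofNat 674, .negSucc 819, .ofNat 0, .ofNat 0, .ofNat 1484, .ofNat 5734, .ofNat 0, .ofNat 0, .ofNat 0, .ofNat 0, .ofNat 0, .ofNat 0, .ofNat 1195883509584772117168156387049472000, .ofNat 0, .ofNat 0, .ofNat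 0, .ofNat 182902884327599351144202454538649600, .ofNat 0, .ofNat 0, .ofNat 0, .ofNat 547263946447072899485792211881164800, .ofNat 0⟩)
    (by decide +kernel)
theorem L00956 : Good (Phi V4.P V4.D 1 1) ⟨6, 52, 4, 7, 3, 7, 3, 7, 4, 1⟩ :=
  leaf_sound (S := T4.ds_pp) T4.ok_pp (w := 208) (c := ⟨⟨.negSucc 3132, .negSucc 624, .ofNat 203, .negSucc 228, .negSucc 968, .negSucc 753⟩, ⟨.negSucc 1468, .negSucc 299, .negSucc 98, .negSucc 65, .negSucc 462, .negSucc 342⟩, ⟨.ofNat 1711, .ofNat 263, .ofNat 1, .ofNat 260, .ofNat 399, .ofNat 407⟩, ⟨.negSucc 5575, .negSucc 829, .ofNat 83, .negSucc 1142, .negSucc 1550, .negSucc 1502⟩, ⟨.ofNat 1201, .negSucc 122, .ofNat 365, .ofNat 1634, .ofNat 65, .ofNat 668⟩, .ofNat 1854, .negSucc 3086, .ofNat 0, .negSucc 3086, .ofNat 6533, .ofNat 0, .ofNat 382, .ofNat 1403, .negSucc 2197, .ofNat 0, .ofNat 738, .negSucc 1037, .ofNat 0, .ofNat 0, .ofNat 1659, .ofNat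 1921, .ofNat 0, .ofNat 10786935229563557988975963637225724313600, .ofNat 0, .ofNat 0, .ofNat 0, .ofNat 0, .ofNat 0, .ofNat 0, .ofNat 0, .ofNat 332455027437556533586244211748826303692800, .ofNat 650835940862134198105739205437030400, .ofNat 0, .ofNat 0, .ofNat 611308235757355061209498122200028492595200, .ofNat 56477057744480322011829856999833600, .ofNat 0⟩)
    (by decide +kernel)
theorem L00957 : Good (Phi V4.P V4.D 1 1) ⟨6, 53, 5, 14, 3, 6, 3, 6, 3, 0⟩ :=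
  leaf_sound (S := T4.ds_pp) T4.ok_pp (w := 200) (c := ⟨⟨.negSucc 1437, .negSucc 257, .ofNat 44, .negSucc 1030, .negSucc 201, .negSucc 1760⟩, ⟨.negSucc 648, .negSucc 128, .negSucc 51, .negSucc 489, .negSucc 101, .negSucc 854⟩, ⟨.ofNat 949, .ofNat 198, .negSucc 69, .ofNat 592, .negSucc 62, .ofNat 914⟩, ⟨.negSucc 2501, .negSucc 348, .ofNat 34, .negSucc 1983, .negSucc 244, .negSucc 3008⟩, ⟨.ofNat 501, .ofNat 32, .ofNat 39, .ofNat 770, .negSucc 138, .ofNat 544⟩, .ofNat 1875, .negSucc 3056, .ofNat 0, .negSucc 3056, .ofNat 6306, .ofNat 0, .ofNat 174, .ofNat 580, .negSucc 1003, .ofNat 0, .ofNat 314, .negSucc 482, .ofNat 0, .ofNat 0, .ofNat 864, .ofNat 1839, .ofNat 0, .ofNat 0, .ofNat 0, .ofNat 0, .ofNat 0, .ofNat 0, .ofNat 7216893472150783837661904764928000, .ofNat 0, .ofNat 0, .ofNat 0, .ofNat 2959620442420448355028551755366400, .ofNat 0, .ofNat 0, .ofNat 0, .ofNat 0, .ofNat 0⟩)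
    (by decide +kernel)
theorem L00958 : Good (Phi V4.P V4.D 1 1) ⟨6, 53, 5, 14, 3, 6, 3, 7, 3, 0⟩ :=
  leaf_sound (S := T4.ds_pp) T4.ok_pp (w := 208) (c := ⟨⟨.negSucc 1122, .ofNat 92, .negSucc 266, .negSucc 1154, .negSucc 143, .negSucc 2662⟩, ⟨.negSucc 495, .ofNat 44, .negSucc 213, .negSucc 547, .negSucc 74, .negSucc 1295⟩, ⟨.ofNat 532, .negSucc 54, .ofNat 143, .ofNat 661, .negSucc 104, .ofNat 1530⟩, ⟨.negSucc 1972, .ofNat 164, .negSucc 397, .negSucc 2174, .negSucc 167, .negSucc 4394⟩, ⟨.ofNat 417, .ofNat 116, .negSucc 64, .ofNat 767, .negSucc 115, .ofNat 505⟩, .ofNat 1892, .negSucc 3089, .ofNat 0, .negSucc 3089, .ofNat 6366, .ofNat 0, .ofNat 182, .ofNat 625, .negSucc 1286, .ofNat 0, .ofNat 339, .negSucc 626, .ofNat 0, .ofNat 0, .ofNat 992, .ofNat 428, .ofNat 0, .ofNat 1477819258204181582616553798644636057600, .ofNat 0, .ofNat 0, .ofNat 0, .ofNat 0, .ofNat 0, .ofNat 0, .ofNat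 0, .ofNat 80375678018603138315436632364983884185600, .ofNat 0, .ofNat 0, .ofNat 0, .ofNat 139720516630190766655492676263526950502400, .ofNat 1906696114328454872341972569292800, .ofNat 0⟩)
    (by decide +kernel)
theorem L00959 : Good (Phi V4.P V4.D 1 1) ⟨6, 53, 5, 15, 3, 6, 3, 6, 3, 0⟩ :=
  leaf_sound (S := T4.ds_pp) T4.ok_pp (w := 208) (c := ⟨⟨.negSucc 1506, .negSucc 301, .negSucc 7, .negSucc 961, .negSucc 172, .negSucc 1582⟩, ⟨.negSucc 733, .negSucc 148, .negSucc 83, .negSucc 472, .negSucc 92, .negSucc 793⟩, ⟨.ofNat 1003, .ofNat 158, .ofNat 22, .ofNat 565, .negSucc 95, .ofNat 788⟩, ⟨.negSucc 2618, .negSucc 487, .ofNat 0, .negSucc 1863, .negSucc 180, .negSucc 2720⟩, ⟨.ofNat 469, .ofNat 186, .negSucc 58, .ofNat 739, .negSucc 168, .ofNat 539⟩, .ofNat 2903, .negSucc 4949, .ofNat 0, .negSucc 4949, .ofNat 9766, .ofNat 0, .ofNat 147, .ofNat 597, .negSucc 1045, .ofNat 0, .ofNat 325,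 .negSucc 524, .ofNat 0, .ofNat 0, .ofNat 885, .ofNat 1314, .ofNat 0, .ofNat 0, .ofNat 0, .ofNat 0, .ofNat 0, .ofNat 0, .ofNat 0, .ofNat 0, .ofNat 0, .ofNat 0, .ofNat 0, .ofNat 0, .ofNat 0, .ofNat 0, .ofNat 0, .ofNat 0⟩)
    (by decide +kernel)
theorem L00960 : Good (Phi V4.P V4.D 1 1) ⟨6, 53, 5, 15, 3, 6, 3, 7, 3, 0⟩ :=
  leaf_sound (S := T4.ds_pp) T4.ok_pp (w := 208) (c := ⟨⟨.negSucc 929, .negSucc 482, .ofNat 136, .negSucc 1110, .negSucc 62, .negSucc 2744⟩, ⟨.negSucc 444, .negSucc 237, .negSucc 10, .negSucc 548, .negSucc 33, .negSucc 1384⟩, ⟨.ofNat 441, .ofNat 241, .negSucc 75, .ofNat 645, .negSucc 162, .ofNat 1560⟩, ⟨.negSucc 1664, .negSucc 724, .ofNat 206, .negSucc 2110, .negSucc 40, .negSucc 4514⟩, ⟨.ofNat 343, .ofNat 105, .negSucc 22, .ofNat 774, .negSucc 107, .ofNat 533⟩, .ofNat 2215, .negSucc 3645, .ofNat 0, .negSucc 3645, .ofNat 7283, .ofNat 0, .ofNat 164, .ofNat 632,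 .negSucc 1337, .ofNat 0, .ofNat 347, .negSucc 672, .ofNat 0, .ofNat 0, .ofNat 1021, .ofNat 309, .ofNat 0, .ofNat 867090664955233190853876670037124710400, .ofNat 0, .ofNat 0, .ofNat 0, .ofNat 0, .ofNat 0, .ofNat 0, .ofNat 0, .ofNat 0, .ofNat 0, .ofNat 0, .ofNat 0, .ofNat 86346940020923024526892658051046703104000, .ofNat 0, .ofNat 0⟩)
    (by decide +kernel)
theorem L00961 : Good (Phi V4.P V4.D 1 1) ⟨6, 53, 4, 7, 3, 7, 2, 3, 4, 0⟩ :=
  leaf_sound (S := T4.ds_pp) T4.ok_pp (w := 200) (c := ⟨⟨.negSucc 1812, .negSucc 933, .ofNat 376, .negSucc 719, .negSucc 742, .negSucc 1427⟩, ⟨.negSucc 803, .negSucc 447, .negSucc 13, .negSucc 335, .negSucc 370, .negSucc 699⟩, ⟨.ofNat 1181, .ofNat 492, .negSucc 188, .ofNat 467, .ofNat 76, .ofNat 716⟩, ⟨.negSucc 3355, .negSucc 1332, .ofNat 495, .negSucc 1556, .negSucc 1139, .negSucc 2465⟩, ⟨.ofNat 1048, .negSucc 88, .ofNat 87, .ofNat 881, .negSucc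 24, .ofNat 507⟩, .ofNat 1302, .negSucc 1931, .ofNat 0, .negSucc 1931, .ofNat 4050, .ofNat 0, .ofNat 213, .ofNat 741, .negSucc 1374, .ofNat 0, .ofNat 410, .negSucc 667, .ofNat 0, .ofNat 0, .ofNat 957, .ofNat 300, .ofNat 0, .ofNat 0, .ofNat 0, .ofNat 0, .ofNat 0, .ofNat 0, .ofNat 0, .ofNat 0, .ofNat 0, .ofNat 0, .ofNat 0, .ofNat 0, .ofNat 0, .ofNat 0, .ofNat 0, .ofNat 0⟩)
    (by decide +kernel)
theorem L00962 : Good (Phi V4.P V4.D 1 1) ⟨6, 53, 5, 14, 3, 7, 3, 6, 4, 1⟩ :=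
  leaf_sound (S := T4.ds_pp) T4.ok_pp (w := 208) (c := ⟨⟨.negSucc 3513, .negSucc 390, .ofNat 127, .negSucc 24, .negSucc 572, .negSucc 250⟩, ⟨.negSucc 1640, .negSucc 174, .negSucc 49, .ofNat 25, .negSucc 278, .negSucc 108⟩, ⟨.ofNat 2007, .ofNat 209, .negSucc 67, .ofNat 82, .ofNat 216, .ofNat 106⟩, ⟨.negSucc 6104, .negSucc 541, .ofNat 162, .negSucc 685, .negSucc 947, .negSucc 658⟩, ⟨.ofNat 1265, .ofNat 43, .ofNat 1, .ofNat 1309, .ofNat 117, .ofNat 540⟩, .ofNat 2640, .negSucc 4547, .ofNat 0, .negSucc 4547, .ofNat 9224, .ofNat 0, .ofNat 339, .ofNat 1286, .negSucc 1772, .ofNat 0, .ofNat 688, .negSucc 857, .ofNat 0, .ofNat 0, .ofNat 1505, .ofNat 3761, .ofNat 0, .ofNat 0, .ofNat 0, .ofNat 0, .ofNat 0, .ofNat 0, .ofNat 502767019273125412844628207678259200, .ofNat 0, .ofNat 0, .ofNat 0, .ofNat 279175140725821024267746774142156800, .ofNat 0, .ofNat 0, .ofNat 0, .ofNat 0, .ofNat 0⟩)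
    (by decide +kernel)
theorem L00963 : Good (Phi V4.P V4.D 1 1) ⟨6, 53, 5, 14, 3, 7, 3, 7, 4, 1⟩ :=
  leaf_sound (S := T4.ds_pp) T4.ok_pp (w := 208) (c := ⟨⟨.negSucc 3644, .negSucc 581, .ofNat 92, .negSucc 231, .negSucc 1207, .negSucc 744⟩, ⟨.negSucc 1701, .negSucc 274, .negSucc 76, .negSucc 69, .negSucc 595, .negSucc 346⟩, ⟨.ofNat 1939, .ofNat 335, .negSucc 63, .ofNat 256, .ofNat 496, .ofNat 405⟩, ⟨.negSucc 6271, .negSucc 849, .ofNat 106, .negSucc 1142, .negSucc 1852, .negSucc 1492⟩, ⟨.ofNat 1178, .ofNat 85, .ofNat 5, .ofNat 1590, .negSucc 55, .ofNat 674⟩, .ofNat 1887, .negSucc 3080, .ofNat 0, .negSucc 3080, .ofNat 6354, .ofNat 0, .ofNat 190, .ofNat 713, .negSucc 1173, .ofNat 0, .ofNat 384, .negSucc 568, .ofNat 0, .ofNat 0, .ofNat 864, .ofNat 677, .ofNat 0, .ofNat 23156255606237177163819510840636211200000, .ofNat 0, .ofNat 0, .ofNat 0, .ofNat 235137392443567852575467152478452265779200,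 .ofNat 122020099580782919663000720769024000, .ofNat 0, .ofNat 0, .ofNat 527569707192871656300138131157181425254400, .ofNat 0, .ofNat 0, .ofNat 0, .ofNat 742559839169417484560607192210414659174400, .ofNat 34044380956939733127751626915840000, .ofNat 0⟩)
    (by decide +kernel)
theorem L00964 : Good (Phi V4.P V4.D 1 1) ⟨6, 53, 5, 15, 3, 7, 3, 6, 4, 1⟩ :=
  leaf_sound (S := T4.ds_pp) T4.ok_pp (w := 208) (c := ⟨⟨.negSucc 3441, .negSucc 226, .negSucc 123, .ofNat 27, .negSucc 673, .negSucc 239⟩, ⟨.negSucc 1705, .negSucc 88, .negSucc 183, .ofNat 43, .negSucc 341, .negSucc 109⟩, ⟨.ofNat 1984, .ofNat 135, .ofNat 53, .ofNat 50, .ofNat 253, .ofNat 98⟩, ⟨.negSucc 6040, .negSucc 312, .negSucc 208, .negSucc 594, .negSucc 1098, .negSucc 646⟩, ⟨.ofNat 1304, .ofNat 96, .negSucc 36, .ofNat 1253, .ofNat 112, .ofNat 540⟩, .ofNat 2238, .negSucc 3682, .ofNat 0, .negSucc 3682, .ofNat 7340, .ofNat 0,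 .ofNat 325, .ofNat 1333, .negSucc 1919, .ofNat 0, .ofNat 727, .negSucc 957, .ofNat 0, .ofNat 0, .ofNat 1568, .ofNat 4249, .ofNat 0, .ofNat 0, .ofNat 0, .ofNat 0, .ofNat 0, .ofNat 0, .ofNat 0, .ofNat 0, .ofNat 0, .ofNat 0, .ofNat 0, .ofNat 0, .ofNat 0, .ofNat 0, .ofNat 166845034900754868291295679977881600, .ofNat 0⟩)
    (by decide +kernel)
theorem L00965 : Good (Phi V4.P V4.D 1 1) ⟨6, 53, 5, 15, 3, 7, 3, 7, 4, 1⟩ :=
  leaf_sound (S := T4.ds_pp) T4.ok_pp (w := 208) (c := ⟨⟨.negSucc 3601, .negSucc 517, .ofNat 119, .negSucc 330, .negSucc 1079, .negSucc 678⟩, ⟨.negSucc 1780, .negSucc 247, .negSucc 65, .negSucc 130, .negSucc 549, .negSucc 331⟩, ⟨.ofNat 1899, .ofNat 305, .negSucc 80, .ofNat 318, .ofNat 425, .ofNat 361⟩, ⟨.negSucc 6233, .negSucc 748, .ofNat 151, .negSucc 1328, .negSucc 1640, .negSucc 1361⟩, ⟨.ofNat 1172, .ofNat 103, .negSucc 1, .ofNat 1606, .negSucc 53, .ofNat 615⟩,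 .ofNat 2195, .negSucc 3604, .ofNat 0, .negSucc 3604, .ofNat 7203, .ofNat 0, .ofNat 172, .ofNat 721, .negSucc 1234, .ofNat 0, .ofNat 394, .negSucc 619, .ofNat 0, .ofNat 0, .ofNat 895, .ofNat 623, .ofNat 0, .ofNat 19397183271194139939963205718401194393600, .ofNat 0, .ofNat 0, .ofNat 0, .ofNat 0, .ofNat 0, .ofNat 0, .ofNat 0, .ofNat 0, .ofNat 0, .ofNat 0, .ofNat 0, .ofNat 669204142174720137112969669931261598105600, .ofNat 0, .ofNat 0⟩)
    (by decide +kernel)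
theorem L00966 : Good (Phi V4.P V4.D 1 1) ⟨6, 54, 5, 14, 2, 3, 2, 3, 3, 0⟩ :=
  out_sound (S := T4.ds_pp) T4.ok_pp (w := 72) (j := 3) (by decide +kernel)
theorem L00967 : Good (Phi V4.P V4.D 1 1) ⟨7, 108, 6, 30, 2, 3, 2, 3, 3, 0⟩ :=
  out_sound (S := T4.ds_pp) T4.ok_pp (w := 80) (j := 3) (by decide +kernel)
theorem L00968 : Good (Phi V4.P V4.D 1 1) ⟨8, 216, 6, 31, 3, 6, 3, 6, 3, 0⟩ :=
  leaf_sound (S := T4.ds_pp) T4.ok_pp (w := 216) (c := ⟨⟨.negSucc 1832, .negSucc 98, .ofNat 164, .negSucc 1234, .negSucc 113, .negSucc 1568⟩, ⟨.negSucc 915, .negSucc 50, .ofNat 46, .negSucc 628, .negSucc 62, .negSucc 808⟩, ⟨.ofNat 1190, .ofNat 60, .negSucc 103, .ofNat 715, .negSucc 139, .ofNat 795⟩, ⟨.negSucc 3138, .negSucc 141, .ofNat 255, .negSucc 2328, .negSucc 72, .negSucc 2679⟩, ⟨.ofNat 618, .ofNat 17, .negSucc 24, .ofNat 826, .negSucc 195, .ofNat 518⟩, .ofNat 2477, .negSucc 4061, .ofNat 0,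 .negSucc 4061, .ofNat 7896, .ofNat 0, .ofNat 144, .ofNat 595, .negSucc 1068, .ofNat 0, .ofNat 331, .negSucc 547, .ofNat 0, .ofNat 0, .ofNat 903, .ofNat 1243, .ofNat 0, .ofNat 0, .ofNat 0, .ofNat 0, .ofNat 0, .ofNat 0, .ofNat 0, .ofNat 0, .ofNat 0, .ofNat 0, .ofNat 0, .ofNat 0, .ofNat 0, .ofNat 0, .ofNat 0, .ofNat 0⟩)
    (by decide +kernel)
theorem L00969 : Good (Phi V4.P V4.D 1 1) ⟨8, 216, 6, 31, 3, 6, 3, 7, 3, 0⟩ :=
  leaf_sound (S := T4.ds_pp) T4.ok_pp (w := 216) (c := ⟨⟨.negSucc 1162, .negSucc 277, .ofNat 147, .negSucc 1191, .negSucc 278, .negSucc 2916⟩, ⟨.negSucc 568, .negSucc 149, .ofNat 41, .negSucc 607, .negSucc 150, .negSucc 1513⟩, ⟨.ofNat 558, .ofNat 162, .negSucc 109, .ofNat 685, .negSucc 46, .ofNat 1673⟩, ⟨.negSucc 2013, .negSucc 392, .ofNat 194, .negSucc 2232, .negSucc 345, .negSucc 4748⟩, ⟨.ofNat 428, .negSucc 23, .ofNat 47, .ofNat 771, .negSucc 157, .ofNat 515⟩,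 .ofNat 3614, .negSucc 6177, .ofNat 0, .negSucc 6177, .ofNat 11848, .ofNat 0, .ofNat 142, .ofNat 634, .negSucc 1350, .ofNat 0, .ofNat 351, .negSucc 701, .ofNat 0, .ofNat 0, .ofNat 1031, .ofNat 596, .ofNat 0, .ofNat 0, .ofNat 0, .ofNat 0, .ofNat 0, .ofNat 23591126975214686558820545880744313592217600, .ofNat 0, .ofNat 0, .ofNat 0, .ofNat 71450612983948776306032332025195868979200000, .ofNat 0, .ofNat 0, .ofNat 0, .ofNat 135675755894254051979798891465218780141977600, .ofNat 73644603685962385760846453145600, .ofNat 0⟩)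
    (by decide +kernel)
theorem L00970 : Good (Phi V4.P V4.D 1 1) ⟨8, 217, 6, 31, 3, 6, 2, 3, 3, 0⟩ :=
  out_sound (S := T4.ds_pp) T4.ok_pp (w := 88) (j := 3) (by decide +kernel)

end Crest.Agent.R097C4.N4pp
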