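import Crest.Agent.R097.T4

/-!
# Row 97, box cover in dimension n = 4 (generated)
-/

set_option autoImplicit false
set_option Elab.async false
set_option maxHeartbeats 0
set_option maxRecDepth 100000

open Crest.Agent.R097 Crest.Agent.R097.KA


namespace Crest.Agent.R097C4.N4pp

theorem L00971 : Good (Phi V4.P V4.D 1 1) ⟨8, 216, 6, 31, 3, 7, 2, 3, 4, 0⟩ :=
  leaf_sound (S := T4.ds_pp) T4.ok_pp (w := 216) (c := ⟨⟨.negSucc 2592, .negSucc 502, .ofNat 220, .negSucc 856, .negSucc 558, .negSucc 1045⟩, ⟨.negSucc 1296, .negSucc 258, .ofNat 67, .negSucc 429, .negSucc 294, .negSucc 533⟩, ⟨.ofNat 1623, .ofNat 281, .negSucc 113, .ofNat 544, .negSucc 68, .ofNat 497⟩, ⟨.negSucc 4575, .negSucc 793, .ofNat 357, .negSucc 1767, .negSucc 785, .negSucc 1887⟩, ⟨.ofNat 1139, .ofNat 83, .negSucc 64, .ofNat 866, .negSucc 138, .ofNat 540⟩, .ofNat 2453, .negSucc 4017, .ofNat 0, .negSucc 4017, .ofNat 7815, .ofNat 0, .ofNat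 161, .ofNat 766, .negSucc 1489, .ofNat 0, .ofNat 426, .negSucc 770, .ofNat 0, .ofNat 0, .ofNat 1010, .ofNat 697, .ofNat 0, .ofNat 0, .ofNat 0, .ofNat 0, .ofNat 0, .ofNat 0, .ofNat 0, .ofNat 0, .ofNat 0, .ofNat 0, .ofNat 0, .ofNat 0, .ofNat 0, .ofNat 0, .ofNat 0, .ofNat 0⟩)
    (by decide +kernel)
theorem L00972 : Good (Phi V4.P V4.D 1 1) ⟨8, 216, 6, 31, 3, 7, 3, 6, 4, 1⟩ :=
  leaf_sound (S := T4.ds_pp) T4.ok_pp (w := 224) (c := ⟨⟨.negSucc 3908, .negSucc 196, .ofNat 105, .ofNat 95, .negSucc 575, .negSucc 139⟩, ⟨.negSucc 1972, .negSucc 95, .negSucc 3, .ofNat 75, .negSucc 298, .negSucc 62⟩, ⟨.ofNat 2226, .ofNat 120, .negSucc 40, .ofNat 27, .ofNat 203, .ofNat 36⟩, ⟨.negSucc 6690, .negSucc 309, .ofNat 114, .negSucc 531, .negSucc 939, .negSucc 490⟩, ⟨.ofNat 1322, .ofNat 57, .ofNat 53, .ofNat 1298, .ofNat 107, .ofNat 527⟩, .ofNat 3703, .negSucc 6343, .ofNat 0, .negSucc 6343, .ofNat 12157, .ofNat 0, .ofNat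 279, .ofNat 1335, .negSucc 1919, .ofNat 0, .ofNat 735, .negSucc 990, .ofNat 0, .ofNat 0, .ofNat 1573, .ofNat 5429, .ofNat 0, .ofNat 0, .ofNat 0, .ofNat 0, .ofNat 0, .ofNat 0, .ofNat 159454283249755785039324525468057600, .ofNat 0, .ofNat 0, .ofNat 0, .ofNat 65019282681309072104902744866816000, .ofNat 0, .ofNat 0, .ofNat 0, .ofNat 27739100638008708614692624819814400, .ofNat 0⟩)
    (by decide +kernel)
theorem L00973 : Good (Phi V4.P V4.D 1 1) ⟨8, 216, 6, 31, 3, 7, 3, 7, 4, 1⟩ :=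
  leaf_sound (S := T4.ds_pp) T4.ok_pp (w := 224) (c := ⟨⟨.negSucc 4189, .negSucc 270, .ofNat 200, .negSucc 165, .negSucc 1410, .negSucc 594⟩, ⟨.negSucc 2115, .negSucc 136, .ofNat 38, .negSucc 51, .negSucc 737, .negSucc 296⟩, ⟨.ofNat 2215, .ofNat 159, .negSucc 113, .ofNat 246, .ofNat 601, .ofNat 326⟩, ⟨.negSucc 7048, .negSucc 402, .ofNat 287, .negSucc 1144, .negSucc 2136, .negSucc 1272⟩, ⟨.ofNat 1178, .ofNat 30, .ofNat 0, .ofNat 1703, .negSucc 59, .ofNat 687⟩, .ofNat 2453, .negSucc 4015, .ofNat 0, .negSucc 4015, .ofNat 7807, .ofNat 0, .ofNat 321, .ofNat 1454, .negSucc 2536, .ofNat 0, .ofNat 807, .negSucc 1308, .ofNat 0, .ofNat 0, .ofNat 1822, .ofNat 1935, .ofNat 0, .ofNat 58530148187058340135040700608771013790924800, .ofNat 0, .ofNat 0, .ofNat 0, .ofNat 0, .ofNat 0, .ofNat 0, .ofNat 0, .ofNat 2425281298972146574828477706506594515576422400, .ofNat 0, .ofNat 0, .ofNat 0, .ofNat 3962254801725497772853594766999991210737664000,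 .ofNat 0, .ofNat 0⟩)
    (by decide +kernel)
theorem L00974 : Good (Phi V4.P V4.D 1 1) ⟨8, 217, 6, 31, 3, 7, 2, 3, 3, 0⟩ :=
  out_sound (S := T4.ds_pp) T4.ok_pp (w := 88) (j := 3) (by decide +kernel)
theorem L00975 : Good (Phi V4.P V4.D 1 1) ⟨7, 109, 5, 15, 2, 3, 2, 3, 3, 0⟩ :=
  out_sound (S := T4.ds_pp) T4.ok_pp (w := 80) (j := 3) (by decide +kernel)
theorem L00976 : Good (Phi V4.P V4.D 1 1) ⟨6, 55, 4, 7, 2, 3, 2, 3, 3, 0⟩ :=
  out_sound (S := T4.ds_pp) T4.ok_pp (w := 72) (j := 3) (by decide +kernel)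
theorem L00977 : Good (Phi V4.P V4.D 1 1) ⟨5, 24, 3, 3, 2, 3, 2, 3, 3, 1⟩ :=
  out_sound (S := T4.ds_pp) T4.ok_pp (w := 64) (j := 3) (by decide +kernel)
theorem L00978 : Good (Phi V4.P V4.D 1 1) ⟨5, 25, 3, 3, 3, 6, 3, 6, 3, 1⟩ :=
  leaf_sound (S := T4.ds_pp) T4.ok_pp (w := 192) (c := ⟨⟨.negSucc 2616, .negSucc 132, .ofNat 486, .negSucc 671, .negSucc 677, .negSucc 105⟩, ⟨.negSucc 1093, .negSucc 62, .negSucc 116, .negSucc 259, .negSucc 295, .negSucc 37⟩, ⟨.ofNat 1479, .ofNat 95, .negSucc 348, .ofNat 350, .ofNat 313, .negSucc 44⟩, ⟨.negSucc 4656, .negSucc 95, .ofNat 745, .negSucc 1484, .negSucc 1089, .negSucc 265⟩, ⟨.ofNat 750, .ofNat 98, .negSucc 105, .ofNat 936, .ofNat 5, .ofNat 217⟩, .ofNat 1019, .negSucc 1507, .ofNat 0, .negSucc 1507, .ofNat 3627, .ofNat 0, .ofNat 211, .ofNat 453, .negSucc 572, .ofNat 0, .ofNat 238, .negSucc 234, .ofNat 0, .ofNat 0, .ofNat 636, .ofNat 2413, .ofNat 0, .ofNat 23262939815519254667201737342215782400,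 .ofNat 0, .ofNat 0, .ofNat 0, .ofNat 0, .ofNat 12553623455808099703544443463270400, .ofNat 0, .ofNat 0, .ofNat 0, .ofNat 1502792987606731640691606159360000, .ofNat 0, .ofNat 0, .ofNat 70413827544383655497282220187031961600, .ofNat 989798773657642759577036390400000, .ofNat 0⟩)
    (by decide +kernel)
theorem L00979 : Good (Phi V4.P V4.D 1 1) ⟨5, 25, 3, 3, 3, 7, 3, 6, 3, 1⟩ :=
  leaf_sound (S := T4.ds_pp) T4.ok_pp (w := 192) (c := ⟨⟨.negSucc 3373, .negSucc 115, .ofNat 91, .negSucc 4, .negSucc 758, .ofNat 56⟩, ⟨.negSucc 1444, .negSucc 3, .negSucc 385, .ofNat 57, .negSucc 319, .ofNat 51⟩, ⟨.ofNat 1767, .ofNat 140, .negSucc 117, .ofNat 101, .ofNat 378, .negSucc 45⟩, ⟨.negSucc 6042, .negSucc 163, .ofNat 76, .negSucc 715, .negSucc 1339, .negSucc 251⟩, ⟨.ofNat 1184, .ofNat 283, .negSucc 195, .ofNat 1618, .ofNat 284, .ofNat 775⟩, .ofNat 1408, .negSucc 2334, .ofNat 0, .negSucc 2334, .ofNat 5430, .ofNat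 0, .ofNat 207, .ofNat 534, .negSucc 575, .ofNat 0, .ofNat 270, .negSucc 239, .ofNat 0, .ofNat 0, .ofNat 621, .ofNat 1721, .ofNat 0, .ofNat 22755381334479271235971463639570841600, .ofNat 0, .ofNat 0, .ofNat 0, .ofNat 117596862323575249379010880358213222400, .ofNat 0, .ofNat 0, .ofNat 0, .ofNat 0, .ofNat 5768922232211361780312316890316800, .ofNat 0, .ofNat 0, .ofNat 119363435861069660980130816130337996800, .ofNat 494983786120885303373603222323200, .ofNat 0⟩)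
    (by decide +kernel)
theorem L00980 : Good (Phi V4.P V4.D 1 1) ⟨5, 25, 3, 3, 2, 3, 3, 7, 4, 2⟩ :=
  leaf_sound (S := T4.ds_pp) T4.ok_pp (w := 192) (c := ⟨⟨.negSucc 2487, .negSucc 913, .ofNat 442, .negSucc 1256, .negSucc 968, .negSucc 415⟩, ⟨.negSucc 1031, .negSucc 419, .negSucc 179, .negSucc 458, .negSucc 413, .negSucc 166⟩, ⟨.ofNat 1332, .ofNat 506, .negSucc 312, .ofNat 701, .ofNat 485, .ofNat 228⟩, ⟨.negSucc 4457, .negSucc 1238, .ofNat 676, .negSucc 3102, .negSucc 1549, .negSucc 770⟩, ⟨.ofNat 724, .negSucc 105, .negSucc 136, .ofNat 2497, .ofNat 7, .ofNat 248⟩, .ofNat 1023, .negSucc 1515, .ofNat 0, .negSucc 1515, .ofNat 3639, .ofNat 0, .ofNat 464, .ofNat 1089, .negSucc 1675, .ofNat 0, .ofNat 564, .negSucc 700, .ofNat 0, .ofNat 0, .ofNat 1491, .ofNat 1672, .ofNat 0, .ofNat 2191933524792304253660718892371148800, .ofNat 0, .ofNat 0, .ofNat 0, .ofNat 74067247261153761631514684262501580800, .ofNat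 0, .ofNat 0, .ofNat 0, .ofNat 110549245570334329334542158371645030400, .ofNat 0, .ofNat 0, .ofNat 0, .ofNat 108014187908810369533698342095369011200, .ofNat 615295854891563873204178203443200, .ofNat 0⟩)
    (by decide +kernel)
theorem L00981 : Good (Phi V4.P V4.D 1 1) ⟨5, 25, 3, 3, 2, 3, 3, 7, 4, 3⟩ :=
  out_sound (S := T4.ds_pp) T4.ok_pp (w := 32) (j := 2) (by decide +kernel)
theorem L00982 : Good (Phi V4.P V4.D 1 1) ⟨5, 26, 4, 6, 3, 6, 3, 6, 3, 1⟩ :=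
  leaf_sound (S := T4.ds_pp) T4.ok_pp (w := 192) (c := ⟨⟨.negSucc 2805, .negSucc 523, .ofNat 132, .negSucc 667, .negSucc 730, .negSucc 9⟩, ⟨.negSucc 1154, .negSucc 235, .negSucc 119, .negSucc 274, .negSucc 341, .negSucc 0⟩, ⟨.ofNat 1613, .ofNat 316, .negSucc 92, .ofNat 344, .ofNat 335, .negSucc 110⟩, ⟨.negSucc 4840, .negSucc 719, .ofNat 168, .negSucc 1499, .negSucc 1147, .negSucc 107⟩, ⟨.ofNat 839, .ofNat 114, .negSucc 1, .ofNat 967, .negSucc 10, .ofNat 201⟩, .ofNat 1076, .negSucc 1554, .ofNat 0, .negSucc 1554, .ofNat 3501, .ofNat 0, .ofNat 204, .ofNat 464, .negSucc 612, .ofNat 0, .ofNat 255, .negSucc 268, .ofNat 0, .ofNat 0, .ofNat 657, .ofNat 1902, .ofNat 0, .ofNat 97504954668774877831308301837742899200, .ofNat 22151118184481607569389073203200, .ofNat 0, .ofNat 0, .ofNat 820221712979849080425098954428907520000, .ofNat 6049741030729745594060086286745600, .ofNat 0, .ofNat 0, .ofNat 631311836344989187323930535779316531200,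 .ofNat 1839086925322142905633233646387200, .ofNat 0, .ofNat 0, .ofNat 650382226386010695558681137296441344000, .ofNat 1590207093840123844809688350720000, .ofNat 0⟩)
    (by decide +kernel)
theorem L00983 : Good (Phi V4.P V4.D 1 1) ⟨5, 26, 4, 6, 3, 7, 3, 6, 4, 2⟩ :=
  leaf_sound (S := T4.ds_pp) T4.ok_pp (w := 200) (c := ⟨⟨.negSucc 3533, .negSucc 506, .ofNat 124, .ofNat 55, .negSucc 817, .ofNat 37⟩, ⟨.negSucc 1451, .negSucc 166, .negSucc 185, .ofNat 81, .negSucc 373, .ofNat 31⟩, ⟨.ofNat 1938, .ofNat 296, .negSucc 70, .ofNat 68, .ofNat 386, .negSucc 32⟩, ⟨.negSucc 6266, .negSucc 703, .ofNat 102, .negSucc 639, .negSucc 1394, .negSucc 125⟩, ⟨.ofNat 1498, .ofNat 137, .ofNat 10, .ofNat 1576, .ofNat 227, .ofNat 402⟩, .ofNat 1075, .negSucc 1559, .ofNat 0, .negSucc 1559, .ofNat 3526, .ofNat 0, .ofNat 225, .ofNat 552, .negSucc 633, .ofNat 0, .ofNat 297, .negSucc 274, .ofNat 0, .ofNat 0, .ofNat 647, .ofNat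 2046, .ofNat 0, .ofNat 473655481015461236054930802480670310400, .ofNat 828054039267463475557477593907200, .ofNat 0, .ofNat 0, .ofNat 4803851031373798729999911363409241702400, .ofNat 113570182805448174275064935271628800, .ofNat 0, .ofNat 0, .ofNat 5629295797548899472183024693126837043200, .ofNat 57661317153158898932110079085772800, .ofNat 0, .ofNat 0, .ofNat 0, .ofNat 58743046161190055055933273695846400, .ofNat 0⟩)
    (by decide +kernel)
theorem L00984 : Good (Phi V4.P V4.D 1 1) ⟨5, 26, 4, 6, 3, 7, 3, 6, 4, 3⟩ :=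
  leaf_sound (S := T4.ds_pp) T4.ok_pp (w := 200) (c := ⟨⟨.negSucc 3511, .negSucc 366, .ofNat 114, .ofNat 18, .negSucc 744, .ofNat 223⟩, ⟨.negSucc 1440, .negSucc 105, .negSucc 174, .ofNat 70, .negSucc 334, .ofNat 119⟩, ⟨.ofNat 1904, .ofNat 238, .negSucc 80, .ofNat 100, .ofNat 367, .negSucc 144⟩, ⟨.negSucc 6408, .negSucc 532, .ofNat 124, .negSucc 701, .negSucc 1272, .ofNat 263⟩, ⟨.ofNat 1875, .ofNat 219, .negSucc 57, .ofNat 1598, .ofNat 215, .ofNat 212⟩, .ofNat 612, .negSucc 657, .ofNat 0, .negSucc 657, .ofNat 1650, .ofNat 0, .ofNat 282, .ofNat 462, .negSucc 564, .ofNat 0, .ofNat 274, .negSucc 218, .ofNat 0, .ofNat 0, .ofNat 626, .ofNat 3535, .ofNat 0, .ofNat 972107575565708559317121080177039769600, .ofNat 2210171213177038544514320852582400, .ofNat 0, .ofNat 0, .ofNat 24376717211621912890995176996028914073600, .ofNat 81286121080932949863515460678451200, .ofNat 0, .ofNat 0, .ofNat 20125002219189774912361581912178399641600,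 .ofNat 42674080810244966436471162745651200, .ofNat 0, .ofNat 0, .ofNat 27051824789832250770056299307626345267200, .ofNat 24459378912391003304536413359308800, .ofNat 0⟩)
    (by decide +kernel)
theorem L00985 : Good (Phi V4.P V4.D 1 1) ⟨5, 26, 4, 6, 3, 6, 4, 14, 4, 2⟩ :=
  leaf_sound (S := T4.ds_pp) T4.ok_pp (w := 208) (c := ⟨⟨.negSucc 3187, .negSucc 916, .ofNat 294, .negSucc 986, .negSucc 631, .negSucc 435⟩, ⟨.negSucc 1328, .negSucc 454, .negSucc 46, .negSucc 418, .negSucc 292, .negSucc 191⟩, ⟨.ofNat 1757, .ofNat 558, .negSucc 209, .ofNat 486, .ofNat 319, .ofNat 234⟩, ⟨.negSucc 5431, .negSucc 1315, .ofNat 435, .negSucc 2002, .negSucc 970, .negSucc 773⟩, ⟨.ofNat 787, .ofNat 130, .negSucc 14, .ofNat 965, .negSucc 60, .ofNat 187⟩, .ofNat 605, .negSucc 646, .ofNat 0, .negSucc 646, .ofNat 1635, .ofNat 0, .ofNat 1178, .ofNat 2033, .negSucc 4095, .ofNat 0, .ofNat 1199, .negSucc 1684, .ofNat 0, .ofNat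 0, .ofNat 3419, .ofNat 6798, .ofNat 0, .ofNat 8023286057921892601197209521117514956800, .ofNat 0, .ofNat 0, .ofNat 0, .ofNat 295928722817015760394710203400731806924800, .ofNat 0, .ofNat 0, .ofNat 0, .ofNat 483920258107209186021552197647139340288000, .ofNat 0, .ofNat 0, .ofNat 0, .ofNat 600287924053048794776917060589371942502400, .ofNat 5716903323537328868096903773736140800, .ofNat 0⟩)
    (by decide +kernel)
theorem L00986 : Good (Phi V4.P V4.D 1 1) ⟨5, 26, 4, 6, 3, 6, 4, 15, 4, 2⟩ :=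
  leaf_sound (S := T4.ds_pp) T4.ok_pp (w := 208) (c := ⟨⟨.negSucc 3678, .negSucc 1125, .ofNat 346, .negSucc 1227, .negSucc 651, .negSucc 848⟩, ⟨.negSucc 1557, .negSucc 554, .negSucc 15, .negSucc 538, .negSucc 315, .negSucc 391⟩, ⟨.ofNat 2002, .ofNat 710, .negSucc 258, .ofNat 605, .ofNat 369, .ofNat 525⟩, ⟨.negSucc 6215, .negSucc 1606, .ofNat 527, .negSucc 2281, .negSucc 974, .negSucc 1406⟩, ⟨.ofNat 789, .ofNat 74, .negSucc 14, .ofNat 742, .negSucc 94, .ofNat 145⟩, .ofNat 610, .negSucc 654, .ofNat 0, .negSucc 654, .ofNat 1645, .ofNat 0, .ofNat 4731, .ofNat 8183, .negSucc 20261, .ofNat 0, .ofNat 4872, .negSucc 8550, .ofNat 0, .ofNat 0, .ofNat 16002, .ofNat 53706, .ofNat 0, .ofNat 326191305286136336045729791507446104064000, .ofNat 0, .ofNat 0, .ofNat 0, .ofNat 86430455323658559110763998245382007029760000, .ofNat 0, .ofNat 0, .ofNat 0, .ofNat 62614053161473160754625764033022064276275200, .ofNat 0,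 .ofNat 0, .ofNat 0, .ofNat 63146269143542179212419317083549643623628800, .ofNat 165437201069067362013466142532068966400, .ofNat 0⟩)
    (by decide +kernel)
theorem L00987 : Good (Phi V4.P V4.D 1 1) ⟨5, 26, 4, 6, 3, 7, 3, 7, 4, 2⟩ :=
  leaf_sound (S := T4.ds_pp) T4.ok_pp (w := 200) (c := ⟨⟨.negSucc 4234, .negSucc 897, .ofNat 292, .negSucc 140, .negSucc 1356, .negSucc 332⟩, ⟨.negSucc 1759, .negSucc 376, .negSucc 117, .negSucc 2, .negSucc 612, .negSucc 136⟩, ⟨.ofNat 2253, .ofNat 490, .negSucc 161, .ofNat 189, .ofNat 641, .ofNat 177⟩, ⟨.negSucc 7450, .negSucc 1282, .ofNat 374, .negSucc 1034, .negSucc 2182, .negSucc 734⟩, ⟨.ofNat 1627, .ofNat 120, .ofNat 24, .ofNat 1758, .ofNat 75, .ofNat 463⟩, .ofNat 1069, .negSucc 1550, .ofNat 0, .negSucc 1550, .ofNat 3523, .ofNat 0, .ofNat 944, .ofNat 2461, .negSucc 3545, .ofNat 0, .ofNat 1315, .negSucc 1560, .ofNat 0, .ofNat 0, .ofNat 2988, .ofNat 4942, .ofNat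 0, .ofNat 4467844852057285260279681515092180992000, .ofNat 4229518029405828381293081001984000, .ofNat 0, .ofNat 0, .ofNat 159448959686940294882673315282501081497600, .ofNat 2499080142796316918832030185580134400, .ofNat 0, .ofNat 0, .ofNat 381243916545037290154974066904496760422400, .ofNat 1244452639758956460812178938658816000, .ofNat 0, .ofNat 0, .ofNat 409704543210501733521986863013156408524800, .ofNat 641580179269763609201948214951936000, .ofNat 0⟩)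
    (by decide +kernel)
theorem L00988 : Good (Phi V4.P V4.D 1 1) ⟨5, 26, 4, 6, 2, 3, 3, 7, 4, 3⟩ :=
  out_sound (S := T4.ds_pp) T4.ok_pp (w := 32) (j := 2) (by decide +kernel)
theorem L00989 : Good (Phi V4.P V4.D 1 1) ⟨5, 26, 4, 7, 3, 6, 3, 6, 3, 1⟩ :=
  leaf_sound (S := T4.ds_pp) T4.ok_pp (w := 192) (c := ⟨⟨.negSucc 2701, .negSucc 558, .ofNat 213, .negSucc 641, .negSucc 713, .ofNat 77⟩, ⟨.negSucc 1255, .negSucc 273, .negSucc 65, .negSucc 296, .negSucc 354, .ofNat 42⟩, ⟨.ofNat 1511, .ofNat 381, .negSucc 166, .ofNat 345, .ofNat 316, .negSucc 164⟩, ⟨.negSucc 4673, .negSucc 827, .ofNat 318, .negSucc 1491, .negSucc 1098, .ofNat 21⟩, ⟨.ofNat 765, .ofNat 220, .negSucc 47, .ofNat 988, .negSucc 23, .ofNat 199⟩, .ofNat 1290, .negSucc 1920, .ofNat 0, .negSucc 1920, .ofNat 4055, .ofNat 0, .ofNat 176, .ofNat 475, .negSucc 622, .ofNat 0, .ofNat 264, .negSucc 293, .ofNat 0, .ofNat 0, .ofNat 664, .ofNat 1686,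 .ofNat 0, .ofNat 71942514500666874735419053490307072000, .ofNat 0, .ofNat 0, .ofNat 0, .ofNat 0, .ofNat 0, .ofNat 0, .ofNat 0, .ofNat 0, .ofNat 0, .ofNat 0, .ofNat 0, .ofNat 0, .ofNat 0, .ofNat 0⟩)
    (by decide +kernel)
theorem L00990 : Good (Phi V4.P V4.D 1 1) ⟨5, 26, 4, 7, 3, 7, 3, 6, 3, 1⟩ :=
  leaf_sound (S := T4.ds_pp) T4.ok_pp (w := 200) (c := ⟨⟨.negSucc 3297, .negSucc 795, .ofNat 319, .ofNat 70, .negSucc 870, .ofNat 288⟩, ⟨.negSucc 1551, .negSucc 332, .negSucc 81, .ofNat 74, .negSucc 427, .ofNat 161⟩, ⟨.ofNat 1806, .ofNat 441, .negSucc 153, .ofNat 88, .ofNat 416, .negSucc 210⟩, ⟨.negSucc 5921, .negSucc 1199, .ofNat 396, .negSucc 711, .negSucc 1489, .ofNat 132⟩, ⟨.ofNat 1472, .ofNat 187, .ofNat 37, .ofNat 1649, .ofNat 275, .ofNat 632⟩, .ofNat 664, .negSucc 743, .ofNat 0, .negSucc 743, .ofNat 1733, .ofNat 0, .ofNat 274, .ofNat 534, .negSucc 716, .ofNat 0, .ofNat 317, .negSucc 304, .ofNat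 0, .ofNat 0, .ofNat 694, .ofNat 1487, .ofNat 0, .ofNat 83159525151838919493354335348824473600, .ofNat 36764450329744120800920312217600, .ofNat 0, .ofNat 0, .ofNat 0, .ofNat 0, .ofNat 0, .ofNat 0, .ofNat 1294987587693077084672540168705330380800, .ofNat 0, .ofNat 0, .ofNat 0, .ofNat 966150473465663835816425881379379609600, .ofNat 2226133117875021230977516044288000, .ofNat 0⟩)
    (by decide +kernel)
theorem L00991 : Good (Phi V4.P V4.D 1 1) ⟨5, 26, 4, 7, 3, 6, 3, 7, 4, 2⟩ :=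
  leaf_sound (S := T4.ds_pp) T4.ok_pp (w := 200) (c := ⟨⟨.negSucc 2783, .negSucc 1033, .ofNat 316, .negSucc 1048, .negSucc 1384, .negSucc 431⟩, ⟨.negSucc 1281, .negSucc 523, .negSucc 39, .negSucc 496, .negSucc 691, .negSucc 208⟩, ⟨.ofNat 1488, .ofNat 613, .negSucc 215, .ofNat 522, .ofNat 708, .ofNat 235⟩, ⟨.negSucc 4887, .negSucc 1393, .ofNat 427, .negSucc 2114, .negSucc 2069, .negSucc 749⟩, ⟨.ofNat 870, .negSucc 33, .ofNat 56, .ofNat 974, .negSucc 174, .ofNat 158⟩, .ofNat 2032, .negSucc 3348, .ofNat 0, .negSucc 3348, .ofNat 6839, .ofNat 0, .ofNat 322, .ofNat 1115, .negSucc 1912, .ofNat 0, .ofNat 604, .negSucc 937, .ofNat 0, .ofNat 0, .ofNat 1637, .ofNat 1456, .ofNat 0, .ofNat 1079253875953462254724541018032570368000, .ofNat 871887808797707267770418410291200, .ofNat 0, .ofNat 0, .ofNat 13413395860342025461932698022075118387200, .ofNat 422444152580092762307536521422438400, .ofNat 0, .ofNat 0, .ofNat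 64530108938411987493617580671165163110400, .ofNat 0, .ofNat 0, .ofNat 0, .ofNat 76330561167250339172925829806279150796800, .ofNat 0, .ofNat 0⟩)
    (by decide +kernel)
theorem L00992 : Good (Phi V4.P V4.D 1 1) ⟨5, 26, 4, 7, 3, 7, 3, 7, 4, 2⟩ :=
  leaf_sound (S := T4.ds_pp) T4.ok_pp (w := 200) (c := ⟨⟨.negSucc 4086, .negSucc 710, .ofNat 117, .negSucc 31, .negSucc 1464, .negSucc 198⟩, ⟨.negSucc 1924, .negSucc 303, .negSucc 209, .ofNat 35, .negSucc 724, .negSucc 81⟩, ⟨.ofNat 2106, .ofNat 481, .negSucc 125, .ofNat 175, .ofNat 702, .ofNat 112⟩, ⟨.negSucc 7198, .negSucc 1111, .ofNat 188, .negSucc 969, .negSucc 2323, .negSucc 541⟩, ⟨.ofNat 1475, .ofNat 388, .negSucc 150, .ofNat 1864, .ofNat 103, .ofNat 494⟩, .ofNat 1297, .negSucc 1927, .ofNat 0, .negSucc 1927, .ofNat 4052, .ofNat 0, .ofNat 410, .ofNat 1280, .negSucc 1922, .ofNat 0, .ofNat 705, .negSucc 920, .ofNat 0, .ofNat 0, .ofNat 1568, .ofNat 2233,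 .ofNat 0, .ofNat 1834194906785405834043836329526663577600, .ofNat 0, .ofNat 0, .ofNat 0, .ofNat 63493135791050379069345511094210474803200, .ofNat 0, .ofNat 0, .ofNat 0, .ofNat 66165599866498222700528020880527196160000, .ofNat 346992044143406774218576950303129600, .ofNat 0, .ofNat 0, .ofNat 100539887021439255113835802962326401843200, .ofNat 0, .ofNat 0⟩)
    (by decide +kernel)
theorem L00993 : Good (Phi V4.P V4.D 1 1) ⟨5, 26, 4, 7, 2, 3, 3, 7, 4, 3⟩ :=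
  out_sound (S := T4.ds_pp) T4.ok_pp (w := 32) (j := 2) (by decide +kernel)
theorem L00994 : Good (Phi V4.P V4.D 1 1) ⟨5, 27, 4, 6, 2, 3, 2, 3, 3, 1⟩ :=
  out_sound (S := T4.ds_pp) T4.ok_pp (w := 64) (j := 3) (by decide +kernel)
theorem L00995 : Good (Phi V4.P V4.D 1 1) ⟨6, 54, 5, 14, 2, 3, 3, 6, 3, 1⟩ :=
  out_sound (S := T4.ds_pp) T4.ok_pp (w := 72) (j := 3) (by decide +kernel)
theorem L00996 : Good (Phi V4.P V4.D 1 1) ⟨6, 54, 5, 15, 2, 3, 3, 6, 3, 1⟩ :=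
  leaf_sound (S := T4.ds_pp) T4.ok_pp (w := 192) (c := ⟨⟨.negSucc 3137, .negSucc 137, .negSucc 85, .negSucc 806, .negSucc 852, .ofNat 197⟩, ⟨.negSucc 1532, .negSucc 50, .negSucc 151, .negSucc 369, .negSucc 442, .ofNat 108⟩, ⟨.ofNat 1799, .ofNat 172, .negSucc 11, .ofNat 521, .ofNat 383, .negSucc 218⟩, ⟨.negSucc 5264, .negSucc 301, .negSucc 51, .negSucc 2553, .negSucc 1358, .ofNat 142⟩, ⟨.ofNat 885, .ofNat 326, .negSucc 211, .ofNat 2519, .ofNat 95, .ofNat 307⟩, .ofNat 3289, .negSucc 5576, .ofNat 0, .negSucc 5576, .ofNat 10734, .ofNat 0, .ofNat 128, .ofNat 528, .negSucc 654, .ofNat 0, .ofNat 293, .negSucc 335, .ofNat 0, .ofNat 0, .ofNat 673, .ofNat 771, .ofNat 0, .ofNat 19081963343400111219229615501973913600, .ofNat 49324975381853533596391833600, .ofNat 0, .ofNat 0, .ofNat 347804166180759821220848971068053913600, .ofNat 29276349242945183515151224012800, .ofNat 0, .ofNat 0, .ofNat 201097279149141273545158906418823168000,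 .ofNat 9956229064433780036131513958400, .ofNat 0, .ofNat 0, .ofNat 0, .ofNat 0, .ofNat 0⟩)
    (by decide +kernel)
theorem L00997 : Good (Phi V4.P V4.D 1 1) ⟨6, 54, 4, 7, 2, 3, 4, 14, 3, 1⟩ :=
  leaf_sound (S := T4.ds_pp) T4.ok_pp (w := 200) (c := ⟨⟨.negSucc 4500, .negSucc 803, .ofNat 583, .negSucc 932, .negSucc 427, .negSucc 150⟩, ⟨.negSucc 2145, .negSucc 428, .ofNat 95, .negSucc 423, .negSucc 216, .negSucc 58⟩, ⟨.ofNat 2364, .ofNat 475, .negSucc 338, .ofNat 650, .ofNat 267, .ofNat 188⟩, ⟨.negSucc 7063, .negSucc 1129, .ofNat 798, .negSucc 3021, .negSucc 773, .negSucc 736⟩, ⟨.ofNat 360, .negSucc 22, .ofNat 87, .ofNat 3044, .ofNat 223, .ofNat 966⟩, .ofNat 2464, .negSucc 4037, .ofNat 0, .negSucc 4037, .ofNat 7855, .ofNat 0, .ofNat 146, .ofNat 601, .negSucc 983, .ofNat 0, .ofNat 334, .negSucc 505, .ofNat 0, .ofNat 0, .ofNat 819, .ofNat 900, .ofNat 0, .ofNat 34881012938388687400311915449784729600,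 .ofNat 733819498856659267132745318400, .ofNat 0, .ofNat 0, .ofNat 509460426470624325586744915753382707200, .ofNat 82558950899883174959079908966400, .ofNat 0, .ofNat 0, .ofNat 575159364010089479545144269214423449600, .ofNat 37521979527600122051203537305600, .ofNat 0, .ofNat 0, .ofNat 240607109513644560762703199394280243200, .ofNat 0, .ofNat 0⟩)
    (by decide +kernel)
theorem L00998 : Good (Phi V4.P V4.D 1 1) ⟨6, 54, 4, 7, 2, 3, 4, 15, 3, 1⟩ :=
  leaf_sound (S := T4.ds_pp) T4.ok_pp (w := 208) (c := ⟨⟨.negSucc 4582, .negSucc 769, .ofNat 487, .negSucc 2889, .negSucc 925, .ofNat 0⟩, ⟨.negSucc 2207, .negSucc 427, .ofNat 78, .negSucc 1479, .negSucc 486, .ofNat 0⟩, ⟨.ofNat 2531, .ofNat 485, .negSucc 344, .ofNat 1431, .ofNat 533, .ofNat 0⟩, ⟨.negSucc 7474, .negSucc 1097, .ofNat 733, .negSucc 5209, .negSucc 1333, .ofNat 0⟩, ⟨.ofNat 854, .ofNat 41, .negSucc 14, .ofNat 1478, .negSucc 167, .ofNat 0⟩, .ofNat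 1480, .negSucc 2210, .ofNat 0, .negSucc 2210, .ofNat 4429, .ofNat 0, .ofNat 5666, .ofNat 18406, .negSucc 42757, .ofNat 0, .ofNat 10466, .negSucc 21804, .ofNat 0, .ofNat 0, .ofNat 33125, .ofNat 104505, .ofNat 0, .ofNat 19420541235977158178122993056671072256000, .ofNat 0, .ofNat 0, .ofNat 0, .ofNat 12362020504040234514104459432715193889587200, .ofNat 22895403250520186285748546384691200, .ofNat 0, .ofNat 0, .ofNat 10320835185573681209876644491220255506432000, .ofNat 30082703560240075475341517468467200, .ofNat 0, .ofNat 0, .ofNat 13185413805516955112374038268651557303091200, .ofNat 42985728011833316423817778062950400, .ofNat 0⟩)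
    (by decide +kernel)
theorem L00999 : Good (Phi V4.P V4.D 1 1) ⟨6, 55, 4, 7, 2, 3, 2, 3, 3, 1⟩ :=
  out_sound (S := T4.ds_pp) T4.ok_pp (w := 72) (j := 3) (by decide +kernel)
theorem L01000 : Good (Phi V4.P V4.D 1 1) ⟨3, 7, 2, 1, 2, 3, 1, 1, 2, 0⟩ :=
  out_sound (S := T4.ds_pp) T4.ok_pp (w := 48) (j := 3) (by decide +kernel)
theorem L01001 : Good (Phi V4.P V4.D 1 1) ⟨2, 2, 2, 1, 1, 1, 1, 1, 2, 1⟩ :=
  out_sound (S := T4.ds_pp) T4.ok_pp (w := 40) (j := 3) (by decide +kernel)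
theorem L01002 : Good (Phi V4.P V4.D 1 1) ⟨5, 24, 3, 2, 2, 2, 2, 2, 3, 2⟩ :=
  leaf_sound (S := T4.ds_pp) T4.ok_pp (w := 184) (c := ⟨⟨.negSucc 1408, .negSucc 149, .ofNat 62, .negSucc 644, .negSucc 307, .ofNat 158⟩, ⟨.negSucc 446, .negSucc 74, .negSucc 132, .negSucc 190, .negSucc 104, .ofNat 51⟩, ⟨.ofNat 784, .ofNat 110, .negSucc 66, .ofNat 285, .ofNat 178, .negSucc 229⟩, ⟨.negSucc 2431, .negSucc 168, .ofNat 73, .negSucc 1337, .negSucc 531, .ofNat 290⟩, ⟨.ofNat 31, .ofNat 53, .ofNat 11, .ofNat 739, .ofNat 45, .negSucc 66⟩, .ofNat 758, .negSucc 1060, .ofNat 0, .negSucc 1060, .ofNat 3222, .ofNat 0, .ofNat 388, .ofNat 481, .negSucc 498, .ofNat 0, .ofNat 268, .negSucc 153, .ofNat 0, .ofNat 0, .ofNat 960, .ofNat 1795, .ofNat 0, .ofNat 0, .ofNat 0, .ofNat 0, .ofNat 0, .ofNat 0, .ofNat 0, .ofNat 0, .ofNat 0, .ofNat 0, .ofNat 1126598539605765639412226457600, .ofNat 0, .ofNat 0, .ofNat 0, .ofNat 0, .ofNat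 0⟩)
    (by decide +kernel)
theorem L01003 : Good (Phi V4.P V4.D 1 1) ⟨5, 24, 3, 2, 2, 3, 3, 4, 3, 2⟩ :=
  leaf_sound (S := T4.ds_pp) T4.ok_pp (w := 184) (c := ⟨⟨.negSucc 2092, .negSucc 175, .ofNat 71, .negSucc 318, .negSucc 241, .ofNat 343⟩, ⟨.negSucc 654, .negSucc 51, .negSucc 242, .negSucc 23, .negSucc 82, .ofNat 118⟩, ⟨.ofNat 1105, .ofNat 105, .negSucc 37, .ofNat 111, .ofNat 146, .negSucc 361⟩, ⟨.negSucc 3828, .negSucc 212, .ofNat 47, .negSucc 1173, .negSucc 412, .ofNat 584⟩, ⟨.ofNat 774, .ofNat 67, .negSucc 90, .ofNat 1865, .ofNat 19, .negSucc 18⟩, .ofNat 510, .negSucc 482, .ofNat 0, .negSucc 482, .ofNat 1638, .ofNat 0, .ofNat 535, .ofNat 502, .negSucc 512, .ofNat 0, .ofNat 327, .negSucc 126, .ofNat 0, .ofNat 0, .ofNat 989, .ofNat 4449, .ofNat 0, .ofNat 0, .ofNat 0, .ofNat 0, .ofNat 0, .ofNat 0, .ofNat 0, .ofNat 0, .ofNat 0, .ofNat 4257142450378870492493554408803532800, .ofNat 0, .ofNat 0,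 .ofNat 0, .ofNat 8569627202495350059383890172392243200, .ofNat 0, .ofNat 0⟩)
    (by decide +kernel)
theorem L01004 : Good (Phi V4.P V4.D 1 1) ⟨5, 24, 3, 2, 2, 3, 3, 5, 3, 2⟩ :=
  leaf_sound (S := T4.ds_pp) T4.ok_pp (w := 184) (c := ⟨⟨.negSucc 2222, .negSucc 201, .ofNat 126, .negSucc 675, .negSucc 321, .ofNat 223⟩, ⟨.negSucc 692, .negSucc 68, .negSucc 226, .negSucc 148, .negSucc 106, .ofNat 75⟩, ⟨.ofNat 1175, .ofNat 127, .negSucc 99, .ofNat 340, .ofNat 183, .negSucc 247⟩, ⟨.negSucc 4072, .negSucc 258, .ofNat 155, .negSucc 1715, .negSucc 557, .ofNat 378⟩, ⟨.ofNat 810, .ofNat 126, .negSucc 90, .ofNat 1706, .ofNat 58, .negSucc 5⟩, .ofNat 510, .negSucc 482, .ofNat 0, .negSucc 482, .ofNat 1647, .ofNat 0, .ofNat 276, .ofNat 274, .negSucc 322, .ofNat 0, .ofNat 172, .negSucc 84, .ofNat 0, .ofNat 0, .ofNat 519, .ofNat 1086, .ofNat 0, .ofNat 52349201169390903611084135989248000, .ofNat 0, .ofNat 0, .ofNat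 0, .ofNat 0, .ofNat 0, .ofNat 0, .ofNat 0, .ofNat 4708477551429424919570077717836595200, .ofNat 0, .ofNat 0, .ofNat 0, .ofNat 0, .ofNat 0, .ofNat 0⟩)
    (by decide +kernel)
theorem L01005 : Good (Phi V4.P V4.D 1 1) ⟨5, 25, 3, 2, 2, 2, 2, 2, 3, 2⟩ :=
  leaf_sound (S := T4.ds_pp) T4.ok_pp (w := 184) (c := ⟨⟨.negSucc 1532, .negSucc 179, .ofNat 126, .negSucc 673, .negSucc 386, .ofNat 158⟩, ⟨.negSucc 492, .negSucc 96, .negSucc 109, .negSucc 230, .negSucc 154, .ofNat 56⟩, ⟨.ofNat 879, .ofNat 114, .negSucc 111, .ofNat 289, .ofNat 226, .negSucc 213⟩, ⟨.negSucc 2559, .negSucc 203, .ofNat 185, .negSucc 1395, .negSucc 629, .ofNat 275⟩, ⟨.ofNat 94, .ofNat 43, .negSucc 29, .ofNat 759, .ofNat 12, .negSucc 54⟩, .ofNat 542, .negSucc 536, .ofNat 0, .negSucc 536, .ofNat 1560, .ofNat 0, .ofNat 442, .ofNat 470, .negSucc 579, .ofNat 0, .ofNat 327, .negSucc 187, .ofNat 0, .ofNat 0, .ofNat 1009, .ofNat 3549, .ofNat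 0, .ofNat 0, .ofNat 0, .ofNat 0, .ofNat 0, .ofNat 162957751773928071740113903681536000, .ofNat 830754618878007131366227968000, .ofNat 0, .ofNat 0, .ofNat 3084779444401966344978028566675456000, .ofNat 0, .ofNat 0, .ofNat 0, .ofNat 0, .ofNat 0, .ofNat 0⟩)
    (by decide +kernel)
theorem L01006 : Good (Phi V4.P V4.D 1 1) ⟨5, 25, 3, 2, 2, 3, 3, 4, 3, 2⟩ :=
  leaf_sound (S := T4.ds_pp) T4.ok_pp (w := 184) (c := ⟨⟨.negSucc 2282, .negSucc 193, .ofNat 178, .negSucc 315, .negSucc 256, .ofNat 336⟩, ⟨.negSucc 700, .negSucc 58, .negSucc 207, .negSucc 32, .negSucc 97, .ofNat 123⟩, ⟨.ofNat 1210, .ofNat 108, .negSucc 86, .ofNat 141, .ofNat 147, .negSucc 373⟩, ⟨.negSucc 4021, .negSucc 235, .ofNat 170, .negSucc 1275, .negSucc 432, .ofNat 571⟩, ⟨.ofNat 840, .ofNat 85, .negSucc 0, .ofNat 1890, .ofNat 47, .negSucc 88⟩, .ofNat 540, .negSucc 531, .ofNat 0, .negSucc 531, .ofNat 1553, .ofNat 0, .ofNat 501, .ofNat 539,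 .negSucc 526, .ofNat 0, .ofNat 357, .negSucc 155, .ofNat 0, .ofNat 0, .ofNat 1002, .ofNat 4941, .ofNat 0, .ofNat 56626125527522739855145166910259200, .ofNat 105078267077630345634801254400, .ofNat 0, .ofNat 0, .ofNat 7019424860076106845097446155590041600, .ofNat 0, .ofNat 0, .ofNat 0, .ofNat 14035075154787871397672570320846848000, .ofNat 12438949611135859400530250956800, .ofNat 0, .ofNat 0, .ofNat 10794692877643992080168267893073510400, .ofNat 0, .ofNat 0⟩)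
    (by decide +kernel)
theorem L01007 : Good (Phi V4.P V4.D 1 1) ⟨5, 25, 3, 2, 2, 3, 3, 5, 3, 2⟩ :=
  leaf_sound (S := T4.ds_pp) T4.ok_pp (w := 184) (c := ⟨⟨.negSucc 2443, .negSucc 231, .ofNat 165, .negSucc 618, .negSucc 352, .ofNat 288⟩, ⟨.negSucc 754, .negSucc 85, .negSucc 213, .negSucc 170, .negSucc 140, .ofNat 102⟩, ⟨.ofNat 1309, .ofNat 145, .negSucc 121, .ofNat 333, .ofNat 196, .negSucc 294⟩, ⟨.negSucc 4338, .negSucc 288, .ofNat 194, .negSucc 1723, .negSucc 596, .ofNat 469⟩, ⟨.ofNat 909, .ofNat 86, .negSucc 28, .ofNat 1787, .ofNat 56, .negSucc 12⟩, .ofNat 546, .negSucc 546, .ofNat 0, .negSucc 546, .ofNat 1590, .ofNat 0, .ofNat 259, .ofNat 302, .negSucc 341, .ofNat 0, .ofNat 191, .negSucc 108, .ofNat 0, .ofNat 0, .ofNat 531, .ofNat 1066, .ofNat 0, .ofNat 54416083602045907671135738553958400, .ofNat 13418894313570029806603468800, .ofNat 0, .ofNat 0, .ofNat 3519422204710551195264206134837248000,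 .ofNat 0, .ofNat 0, .ofNat 0, .ofNat 7634314640293056110290963494076416000, .ofNat 0, .ofNat 0, .ofNat 0, .ofNat 0, .ofNat 0, .ofNat 0⟩)
    (by decide +kernel)
theorem L01008 : Good (Phi V4.P V4.D 1 1) ⟨4, 12, 3, 3, 2, 2, 2, 2, 3, 2⟩ :=
  leaf_sound (S := T4.ds_pp) T4.ok_pp (w := 176) (c := ⟨⟨.negSucc 1333, .negSucc 245, .ofNat 23, .negSucc 663, .negSucc 389, .ofNat 142⟩, ⟨.negSucc 534, .negSucc 146, .negSucc 147, .negSucc 262, .negSucc 168, .ofNat 61⟩, ⟨.ofNat 695, .ofNat 186, .negSucc 58, .ofNat 283, .ofNat 232, .negSucc 212⟩, ⟨.negSucc 2256, .negSucc 313, .ofNat 95, .negSucc 1389, .negSucc 640, .ofNat 249⟩, ⟨.negSucc 134, .ofNat 250, .negSucc 174, .ofNat 748, .ofNat 38, .negSucc 46⟩, .ofNat 1647, .negSucc 2855, .ofNat 0, .negSucc 2855, .ofNat 6581, .ofNat 0, .ofNat 280, .ofNat 575, .negSucc 545, .ofNat 0, .ofNat 309, .negSucc 227, .ofNat 0, .ofNat 0, .ofNat 990, .ofNat 2496, .ofNat 0, .ofNat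 0, .ofNat 116377286712033441859869081600, .ofNat 0, .ofNat 0, .ofNat 0, .ofNat 0, .ofNat 0, .ofNat 0, .ofNat 0, .ofNat 5559224873424373853606589235200, .ofNat 0, .ofNat 0, .ofNat 0, .ofNat 0, .ofNat 0⟩)
    (by decide +kernel)
theorem L01009 : Good (Phi V4.P V4.D 1 1) ⟨4, 12, 3, 3, 2, 3, 2, 2, 3, 2⟩ :=
  leaf_sound (S := T4.ds_pp) T4.ok_pp (w := 176) (c := ⟨⟨.negSucc 2141, .negSucc 190, .ofNat 260, .negSucc 259, .negSucc 544, .ofNat 383⟩, ⟨.negSucc 908, .negSucc 64, .negSucc 133, .negSucc 47, .negSucc 233, .ofNat 164⟩, ⟨.ofNat 1101, .ofNat 147, .negSucc 137, .ofNat 133, .ofNat 288, .negSucc 407⟩, ⟨.negSucc 3879, .negSucc 225, .ofNat 282, .negSucc 1261, .negSucc 920, .ofNat 632⟩, ⟨.ofNat 642, .ofNat 236, .ofNat 136, .ofNat 1932, .ofNat 107, .negSucc 45⟩, .ofNat 1020, .negSucc 1510, .ofNat 0, .negSucc 1510, .ofNat 3627, .ofNat 0, .ofNat 353, .ofNat 652, .negSucc 533, .ofNat 0, .ofNat 356, .negSucc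 210, .ofNat 0, .ofNat 0, .ofNat 1005, .ofNat 3411, .ofNat 0, .ofNat 1904501028451912828870108328755200, .ofNat 0, .ofNat 0, .ofNat 0, .ofNat 401903431878966852157815061374566400, .ofNat 36058121547644664176721474355200, .ofNat 0, .ofNat 0, .ofNat 453713021940031400013164092116172800, .ofNat 4871761039920739762794450124800, .ofNat 0, .ofNat 0, .ofNat 326655663276880325442195792750182400, .ofNat 0, .ofNat 0⟩)
    (by decide +kernel)
theorem L01010 : Good (Phi V4.P V4.D 1 1) ⟨4, 13, 3, 2, 2, 2, 2, 2, 3, 2⟩ :=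
  leaf_sound (S := T4.ds_pp) T4.ok_pp (w := 176) (c := ⟨⟨.negSucc 1569, .negSucc 306, .negSucc 45, .negSucc 648, .negSucc 405, .ofNat 168⟩, ⟨.negSucc 536, .negSucc 180, .negSucc 164, .negSucc 241, .negSucc 172, .ofNat 70⟩, ⟨.ofNat 837, .ofNat 36, .ofNat 79, .ofNat 266, .ofNat 257, .negSucc 241⟩, ⟨.negSucc 2496, .negSucc 327, .negSucc 117, .negSucc 1388, .negSucc 678, .ofNat 296⟩, ⟨.negSucc 1, .negSucc 48, .ofNat 88, .ofNat 817, .ofNat 75, .negSucc 61⟩, .ofNat 1382, .negSucc 2239, .ofNat 0, .negSucc 2239, .ofNat 5151, .ofNat 0, .ofNat 317, .ofNat 554, .negSucc 528, .ofNat 0, .ofNat 318, .negSucc 215, .ofNat 0, .ofNat 0, .ofNat 983, .ofNat 1370, .ofNat 0, .ofNat 127350226260104474264491524096000, .ofNat 25668723232145918762208460800, .ofNat 0, .ofNat 0, .ofNat 0, .ofNat 114174741563530693444793637273600, .ofNat 0, .ofNat 0, .ofNat 15579906343938276406404757585920000, .ofNat 53755367531508814556051590348800,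 .ofNat 0, .ofNat 0, .ofNat 0, .ofNat 81155498452366572958565951078400, .ofNat 0⟩)
    (by decide +kernel)
theorem L01011 : Good (Phi V4.P V4.D 1 1) ⟨4, 13, 3, 2, 2, 3, 3, 4, 3, 2⟩ :=
  leaf_sound (S := T4.ds_pp) T4.ok_pp (w := 184) (c := ⟨⟨.negSucc 2584, .negSucc 403, .ofNat 256, .negSucc 276, .negSucc 264, .ofNat 388⟩, ⟨.negSucc 848, .negSucc 159, .negSucc 124, .negSucc 27, .negSucc 113, .ofNat 162⟩, ⟨.ofNat 1387, .ofNat 255, .negSucc 137, .ofNat 134, .ofNat 144, .negSucc 415⟩, ⟨.negSucc 4408, .negSucc 563, .ofNat 293, .negSucc 1267, .negSucc 429, .ofNat 661⟩, ⟨.ofNat 796, .ofNat 96, .ofNat 130, .ofNat 1895, .ofNat 19, .negSucc 103⟩, .ofNat 1164, .negSucc 1782, .ofNat 0, .negSucc 1782, .ofNat 4168, .ofNat 0, .ofNat 363, .ofNat 642, .negSucc 504, .ofNat 0, .ofNat 360, .negSucc 198, .ofNat 0, .ofNat 0, .ofNat 994, .ofNat 3414, .ofNat 0, .ofNat 2070535706100176652864104221900800, .ofNat 1828220192915169990960532684800,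 .ofNat 0, .ofNat 0, .ofNat 496976853902744512523764423773388800, .ofNat 1167514592073090153066049359052800, .ofNat 0, .ofNat 0, .ofNat 702187502288155566370532881543987200, .ofNat 317944887481225142360715401625600, .ofNat 0, .ofNat 0, .ofNat 300167876346345098492355206656819200, .ofNat 0, .ofNat 0⟩)
    (by decide +kernel)
theorem L01012 : Good (Phi V4.P V4.D 1 1) ⟨4, 13, 3, 2, 2, 3, 3, 5, 3, 2⟩ :=
  leaf_sound (S := T4.ds_pp) T4.ok_pp (w := 184) (c := ⟨⟨.negSucc 2596, .negSucc 426, .ofNat 95, .negSucc 630, .negSucc 379, .ofNat 284⟩, ⟨.negSucc 845, .negSucc 207, .negSucc 200, .negSucc 185, .negSucc 162, .ofNat 121⟩, ⟨.ofNat 1404, .ofNat 242, .negSucc 73, .ofNat 350, .ofNat 205, .negSucc 304⟩, ⟨.negSucc 4500, .negSucc 472, .ofNat 85, .negSucc 1796, .negSucc 633, .ofNat 473⟩, ⟨.ofNat 938, .negSucc 115, .ofNat 38, .ofNat 1821, .ofNat 66, .negSucc 41⟩, .ofNat 569, .negSucc 578, .ofNat 0, .negSucc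 578, .ofNat 1544, .ofNat 0, .ofNat 249, .ofNat 316, .negSucc 360, .ofNat 0, .ofNat 204, .negSucc 126, .ofNat 0, .ofNat 0, .ofNat 541, .ofNat 1291, .ofNat 0, .ofNat 3586436974236295337921046223257600, .ofNat 675162843357817995792482304000, .ofNat 0, .ofNat 0, .ofNat 384392578788469068359982431757926400, .ofNat 203366203430807760589420285132800, .ofNat 0, .ofNat 0, .ofNat 425259920898227007671421829644288000, .ofNat 50626418853171961546419260620800, .ofNat 0, .ofNat 0, .ofNat 246869528369039587859238647916134400, .ofNat 0, .ofNat 0⟩)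
    (by decide +kernel)
theorem L01013 : Good (Phi V4.P V4.D 1 1) ⟨5, 26, 4, 6, 2, 2, 2, 2, 3, 2⟩ :=
  leaf_sound (S := T4.ds_pp) T4.ok_pp (w := 184) (c := ⟨⟨.negSucc 1586, .negSucc 212, .ofNat 57, .negSucc 670, .negSucc 415, .ofNat 189⟩, ⟨.negSucc 671, .negSucc 114, .negSucc 59, .negSucc 280, .negSucc 190, .ofNat 83⟩, ⟨.ofNat 898, .ofNat 147, .negSucc 52, .ofNat 291, .ofNat 234, .negSucc 265⟩, ⟨.negSucc 2579, .negSucc 257, .ofNat 83, .negSucc 1423, .negSucc 661, .ofNat 340⟩, ⟨.ofNat 115, .ofNat 46, .negSucc 11, .ofNat 790, .ofNat 12, .negSucc 87⟩, .ofNat 1078, .negSucc 1561, .ofNat 0, .negSucc 1561, .ofNat 3522, .ofNat 0, .ofNat 307, .ofNat 571, .negSucc 569, .ofNat 0, .ofNat 335, .negSucc 245, .ofNat 0, .ofNat 0, .ofNat 1010, .ofNat 3235, .ofNat 0, .ofNat 35243961719828175360801930372710400, .ofNat 0, .ofNat 0, .ofNat 0, .ofNat 602386657230635200165277829641011200, .ofNat 4360535535475519932683884953600,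 .ofNat 0, .ofNat 0, .ofNat 14922940259698043441313679369725542400, .ofNat 1251485973508039801899791155200, .ofNat 0, .ofNat 0, .ofNat 0, .ofNat 0, .ofNat 0⟩)
    (by decide +kernel)
theorem L01014 : Good (Phi V4.P V4.D 1 1) ⟨5, 26, 4, 6, 2, 3, 3, 4, 3, 2⟩ :=
  leaf_sound (S := T4.ds_pp) T4.ok_pp (w := 184) (c := ⟨⟨.negSucc 2282, .negSucc 198, .ofNat 50, .negSucc 269, .negSucc 291, .ofNat 315⟩, ⟨.negSucc 945, .negSucc 71, .negSucc 114, .negSucc 54, .negSucc 135, .ofNat 141⟩, ⟨.ofNat 1223, .ofNat 124, .negSucc 34, .ofNat 152, .ofNat 152, .negSucc 380⟩, ⟨.negSucc 4059, .negSucc 231, .ofNat 48, .negSucc 1306, .negSucc 460, .ofNat 585⟩, ⟨.ofNat 978, .ofNat 44, .negSucc 33, .ofNat 1903, .ofNat 5, .negSucc 191⟩, .ofNat 612, .negSucc 659, .ofNat 0, .negSucc 659, .ofNat 1653, .ofNat 0, .ofNat 222, .ofNat 302, .negSucc 284, .ofNat 0, .ofNat 194, .negSucc 104, .ofNat 0, .ofNat 0, .ofNat 516, .ofNat 2082,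 .ofNat 0, .ofNat 125984833426580441042034687895142400, .ofNat 82407141483146374985809920000, .ofNat 0, .ofNat 0, .ofNat 10372435620369828655978901940889190400, .ofNat 0, .ofNat 0, .ofNat 0, .ofNat 13799978109045490227040428303266611200, .ofNat 1803338741763692655483971174400, .ofNat 0, .ofNat 0, .ofNat 0, .ofNat 0, .ofNat 0⟩)
    (by decide +kernel)
theorem L01015 : Good (Phi V4.P V4.D 1 1) ⟨5, 26, 4, 6, 2, 3, 3, 5, 3, 2⟩ :=
  leaf_sound (S := T4.ds_pp) T4.ok_pp (w := 184) (c := ⟨⟨.negSucc 2508, .negSucc 235, .ofNat 87, .negSucc 617, .negSucc 389, .ofNat 324⟩, ⟨.negSucc 1042, .negSucc 102, .negSucc 95, .negSucc 228, .negSucc 179, .ofNat 143⟩, ⟨.ofNat 1333, .ofNat 150, .negSucc 65, .ofNat 351, .ofNat 203, .negSucc 331⟩, ⟨.negSucc 4420, .negSucc 278, .ofNat 96, .negSucc 1798, .negSucc 639, .ofNat 525⟩, ⟨.ofNat 974, .ofNat 54, .ofNat 9, .ofNat 1770, .ofNat 51, .negSucc 43⟩, .ofNat 611, .negSucc 657,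 .ofNat 0, .negSucc 657, .ofNat 1649, .ofNat 0, .ofNat 462, .ofNat 658, .negSucc 733, .ofNat 0, .ofNat 416, .negSucc 279, .ofNat 0, .ofNat 0, .ofNat 1092, .ofNat 2913, .ofNat 0, .ofNat 552099047032318077239174714150092800, .ofNat 159890317772518401896978841600, .ofNat 0, .ofNat 0, .ofNat 78961746715056487560114069347657318400, .ofNat 0, .ofNat 0, .ofNat 0, .ofNat 155718601401148702126403923765886976000, .ofNat 16263940269077108779470815232000, .ofNat 0, .ofNat 0, .ofNat 0, .ofNat 0, .ofNat 0⟩)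
    (by decide +kernel)
theorem L01016 : Good (Phi V4.P V4.D 1 1) ⟨6, 52, 4, 7, 2, 2, 2, 2, 3, 2⟩ :=
  leaf_sound (S := T4.ds_pp) T4.ok_pp (w := 192) (c := ⟨⟨.negSucc 1645, .negSucc 6, .negSucc 189, .negSucc 625, .negSucc 395, .ofNat 187⟩, ⟨.negSucc 772, .negSucc 14, .negSucc 169, .negSucc 278, .negSucc 189, .ofNat 87⟩, ⟨.ofNat 938, .negSucc 6, .ofNat 122, .ofNat 260, .ofNat 218, .negSucc 267⟩, ⟨.negSucc 2651, .ofNat 2, .negSucc 213, .negSucc 1363, .negSucc 631, .ofNat 329⟩, ⟨.ofNat 55, .ofNat 71, .negSucc 194, .ofNat 796, .ofNat 21, .negSucc 74⟩, .ofNat 2582, .negSucc 4541, .ofNat 0, .negSucc 4541, .ofNat 9460, .ofNat 0, .ofNat 228, .ofNat 603, .negSucc 544, .ofNat 0, .ofNat 330, .negSucc 253, .ofNat 0, .ofNat 0, .ofNat 1000, .ofNat 3369, .ofNat 0, .ofNat 0, .ofNat 0, .ofNat 0, .ofNat 0, .ofNat 0, .ofNat 0, .ofNat 0, .ofNat 0, .ofNat 0, .ofNat 3575133336826609393544567193600, .ofNat 0, .ofNat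 0, .ofNat 100647871068079321325690505157568102400, .ofNat 10489095042451783162535293747200, .ofNat 0⟩)
    (by decide +kernel)
theorem L01017 : Good (Phi V4.P V4.D 1 1) ⟨6, 52, 4, 7, 2, 3, 2, 2, 3, 2⟩ :=
  leaf_sound (S := T4.ds_pp) T4.ok_pp (w := 192) (c := ⟨⟨.negSucc 2079, .negSucc 295, .ofNat 217, .negSucc 278, .negSucc 572, .ofNat 397⟩, ⟨.negSucc 971, .negSucc 139, .negSucc 16, .negSucc 83, .negSucc 271, .ofNat 189⟩, ⟨.ofNat 1116, .ofNat 160, .negSucc 112, .ofNat 166, .ofNat 283, .negSucc 437⟩, ⟨.negSucc 3818, .negSucc 347, .ofNat 265, .negSucc 1348, .negSucc 948, .ofNat 669⟩, ⟨.ofNat 1067, .negSucc 143, .ofNat 76, .ofNat 1898, .ofNat 104, .negSucc 93⟩, .ofNat 1872, .negSucc 3121, .ofNat 0, .negSucc 3121, .ofNat 6604, .ofNat 0, .ofNat 263, .ofNat 693, .negSucc 529, .ofNat 0, .ofNat 376, .negSucc 241, .ofNat 0, .ofNat 0, .ofNat 1011, .ofNat 3637, .ofNat 0, .ofNat 1835722043093009477265689732028825600,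 .ofNat 0, .ofNat 0, .ofNat 0, .ofNat 236354864262324936508853994841649971200, .ofNat 17464328346770294461628940288000, .ofNat 0, .ofNat 0, .ofNat 409988607931757848001791710049232486400, .ofNat 616061785654727993559770726400, .ofNat 0, .ofNat 0, .ofNat 308773250259136410477322303458980659200, .ofNat 0, .ofNat 0⟩)
    (by decide +kernel)
theorem L01018 : Good (Phi V4.P V4.D 1 1) ⟨6, 53, 4, 7, 2, 2, 2, 2, 3, 2⟩ :=
  leaf_sound (S := T4.ds_pp) T4.ok_pp (w := 184) (c := ⟨⟨.negSucc 1665, .ofNat 5, .negSucc 79, .negSucc 630, .negSucc 444, .ofNat 231⟩, ⟨.negSucc 786, .negSucc 1, .negSucc 136, .negSucc 290, .negSucc 222, .ofNat 113⟩, ⟨.ofNat 950, .negSucc 2, .ofNat 36, .ofNat 256, .ofNat 239, .negSucc 305⟩, ⟨.negSucc 2670, .ofNat 28, .negSucc 111, .negSucc 1392, .negSucc 698, .ofNat 419⟩, ⟨.ofNat 126, .ofNat 60, .negSucc 52, .ofNat 829, .ofNat 16, .negSucc 118⟩, .ofNat 666, .negSucc 745, .ofNat 0, .negSucc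 745, .ofNat 1730, .ofNat 0, .ofNat 184, .ofNat 273, .negSucc 294, .ofNat 0, .ofNat 182, .negSucc 123, .ofNat 0, .ofNat 0, .ofNat 516, .ofNat 1993, .ofNat 0, .ofNat 0, .ofNat 0, .ofNat 0, .ofNat 0, .ofNat 0, .ofNat 0, .ofNat 0, .ofNat 0, .ofNat 0, .ofNat 0, .ofNat 0, .ofNat 0, .ofNat 0, .ofNat 0, .ofNat 0⟩)
    (by decide +kernel)
theorem L01019 : Good (Phi V4.P V4.D 1 1) ⟨6, 53, 4, 7, 2, 3, 2, 2, 3, 2⟩ :=
  leaf_sound (S := T4.ds_pp) T4.ok_pp (w := 184) (c := ⟨⟨.negSucc 2385, .negSucc 60, .ofNat 18, .negSucc 236, .negSucc 563, .ofNat 472⟩, ⟨.negSucc 1112, .negSucc 13, .negSucc 141, .negSucc 66, .negSucc 276, .ofNat 239⟩, ⟨.ofNat 1276, .ofNat 42, .negSucc 9, .ofNat 159, .ofNat 275, .negSucc 480⟩, ⟨.negSucc 4176, .negSucc 69, .ofNat 1, .negSucc 1318, .negSucc 937, .ofNat 788⟩, ⟨.ofNat 933, .ofNat 49, .negSucc 42, .ofNat 1914, .ofNat 119, .negSucc 99⟩, .ofNat 670, .negSucc 752, .ofNat 0, .negSucc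 752, .ofNat 1740, .ofNat 0, .ofNat 207, .ofNat 325, .negSucc 304, .ofNat 0, .ofNat 207, .negSucc 124, .ofNat 0, .ofNat 0, .ofNat 527, .ofNat 1860, .ofNat 0, .ofNat 1369868442196649753244383074005811200, .ofNat 946359117900821046598041600, .ofNat 0, .ofNat 0, .ofNat 109656346465869786479857505840765337600, .ofNat 0, .ofNat 0, .ofNat 0, .ofNat 66144600510726291777039539306181427200, .ofNat 0, .ofNat 0, .ofNat 0, .ofNat 103019190599614151528803549777703731200, .ofNat 0, .ofNat 0⟩)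
    (by decide +kernel)
theorem L01020 : Good (Phi V4.P V4.D 1 1) ⟨5, 27, 4, 6, 1, 1, 2, 2, 3, 2⟩ :=
  out_sound (S := T4.ds_pp) T4.ok_pp (w := 64) (j := 3) (by decide +kernel)
theorem L01021 : Good (Phi V4.P V4.D 1 1) ⟨6, 54, 5, 14, 1, 1, 2, 2, 3, 2⟩ :=
  out_sound (S := T4.ds_pp) T4.ok_pp (w := 72) (j := 3) (by decide +kernel)
theorem L01022 : Good (Phi V4.P V4.D 1 1) ⟨6, 54, 5, 15, 2, 2, 2, 2, 3, 2⟩ :=
  leaf_sound (S := T4.ds_pp) T4.ok_pp (w := 192) (c := ⟨⟨.negSucc 1671, .negSucc 121, .negSucc 23, .negSucc 628, .negSucc 459, .ofNat 195⟩, ⟨.negSucc 828, .negSucc 68, .negSucc 58, .negSucc 310, .negSucc 239, .ofNat 100⟩, ⟨.ofNat 957, .ofNat 78, .negSucc 4, .ofNat 253, .ofNat 257, .negSucc 276⟩, ⟨.negSucc 2663, .negSucc 200, .negSucc 8, .negSucc 1396, .negSucc 718, .ofNat 343⟩, ⟨.ofNat 184, .ofNat 121, .negSucc 68, .ofNat 826, .ofNat 25, .negSucc 81⟩, .ofNat 2440, .negSucc 3994, .ofNat 0, .negSucc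 3994, .ofNat 7778, .ofNat 0, .ofNat 202, .ofNat 623, .negSucc 570, .ofNat 0, .ofNat 357, .negSucc 288, .ofNat 0, .ofNat 0, .ofNat 1016, .ofNat 3439, .ofNat 0, .ofNat 0, .ofNat 0, .ofNat 0, .ofNat 0, .ofNat 266958750938015932665233597334238003200, .ofNat 11391086616240588783667170508800, .ofNat 0, .ofNat 0, .ofNat 0, .ofNat 2573494614820616816382758092800, .ofNat 0, .ofNat 0, .ofNat 0, .ofNat 0, .ofNat 0⟩)
    (by decide +kernel)
theorem L01023 : Good (Phi V4.P V4.D 1 1) ⟨6, 54, 5, 15, 2, 3, 2, 2, 3, 2⟩ :=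
  leaf_sound (S := T4.ds_pp) T4.ok_pp (w := 192) (c := ⟨⟨.negSucc 2325, .negSucc 92, .negSucc 57, .negSucc 238, .negSucc 630, .ofNat 380⟩, ⟨.negSucc 1125, .negSucc 25, .negSucc 111, .negSucc 85, .negSucc 328, .ofNat 194⟩, ⟨.ofNat 1266, .ofNat 57, .ofNat 16, .ofNat 175, .ofNat 293, .negSucc 440⟩, ⟨.negSucc 4127, .negSucc 133, .negSucc 34, .negSucc 1381, .negSucc 1014, .ofNat 655⟩, ⟨.ofNat 1098, .ofNat 86, .negSucc 157, .ofNat 1945, .ofNat 86, .negSucc 137⟩, .ofNat 1478, .negSucc 2208, .ofNat 0, .negSucc 2208, .ofNat 4425, .ofNat 0, .ofNat 135, .ofNat 355, .negSucc 283, .ofNat 0, .ofNat 206, .negSucc 137, .ofNat 0, .ofNat 0, .ofNat 517, .ofNat 1957, .ofNat 0, .ofNat 4425938680216109392763739705861734400, .ofNat 5082195872891261150665113600, .ofNat 0, .ofNat 0, .ofNat 344911876854362059227755068975900262400, .ofNat 3738685795396240984126783488000, .ofNat 0, .ofNat 0, .ofNat 496798167044789995327531259417277235200,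 .ofNat 836492229629445012707082240000, .ofNat 0, .ofNat 0, .ofNat 425370980374728549639884047742769561600, .ofNat 0, .ofNat 0⟩)
    (by decide +kernel)
theorem L01024 : Good (Phi V4.P V4.D 1 1) ⟨6, 55, 4, 7, 1, 1, 2, 2, 3, 2⟩ :=
  out_sound (S := T4.ds_pp) T4.ok_pp (w := 72) (j := 3) (by decide +kernel)
theorem L01025 : Good (Phi V4.P V4.D 1 1) ⟨4, 12, 2, 1, 2, 2, 2, 2, 3, 3⟩ :=
  leaf_sound (S := T4.ds_pp) T4.ok_pp (w := 176) (c := ⟨⟨.negSucc 1349, .negSucc 213, .ofNat 89, .negSucc 472, .negSucc 289, .ofNat 130⟩, ⟨.negSucc 425, .negSucc 122, .negSucc 230, .negSucc 150, .negSucc 107, .ofNat 45⟩, ⟨.ofNat 616, .ofNat 137, .negSucc 116, .ofNat 158, .ofNat 244, .negSucc 164⟩, ⟨.negSucc 2328, .negSucc 205, .ofNat 135, .negSucc 989, .negSucc 498, .ofNat 215⟩, ⟨.ofNat 34, .ofNat 75, .negSucc 39, .ofNat 566, .ofNat 62, .ofNat 0⟩, .ofNat 326, .negSucc 172, .ofNat 0, .negSucc 172, .ofNat 680, .ofNat 0,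 .ofNat 482, .ofNat 281, .negSucc 488, .ofNat 0, .ofNat 324, .negSucc 103, .ofNat 0, .ofNat 0, .ofNat 936, .ofNat 3828, .ofNat 0, .ofNat 0, .ofNat 0, .ofNat 0, .ofNat 0, .ofNat 112022046851774439726419069317939200, .ofNat 0, .ofNat 0, .ofNat 0, .ofNat 75361693232549800535749969733222400, .ofNat 0, .ofNat 0, .ofNat 0, .ofNat 84183130043871891725752356726374400, .ofNat 0, .ofNat 0⟩)
    (by decide +kernel)
theorem L01026 : Good (Phi V4.P V4.D 1 1) ⟨4, 12, 2, 1, 2, 3, 2, 2, 3, 3⟩ :=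
  out_sound (S := T4.ds_pp) T4.ok_pp (w := 32) (j := 2) (by decide +kernel)
theorem L01027 : Good (Phi V4.P V4.D 1 1) ⟨4, 13, 2, 1, 2, 2, 2, 2, 3, 3⟩ :=
  leaf_sound (S := T4.ds_pp) T4.ok_pp (w := 176) (c := ⟨⟨.negSucc 1567, .negSucc 250, .ofNat 109, .negSucc 455, .negSucc 355, .ofNat 140⟩, ⟨.negSucc 553, .negSucc 163, .negSucc 197, .negSucc 196, .negSucc 161, .ofNat 71⟩, ⟨.ofNat 761, .ofNat 172, .negSucc 141, .ofNat 132, .ofNat 300, .negSucc 173⟩, ⟨.negSucc 2554, .negSucc 286, .ofNat 196, .negSucc 980, .negSucc 591, .ofNat 228⟩, ⟨.ofNat 143, .ofNat 124, .negSucc 92, .ofNat 563, .ofNat 69, .negSucc 12⟩, .ofNat 346, .negSucc 221, .ofNat 0, .negSucc 221, .ofNat 678, .ofNat 0, .ofNat 446, .ofNat 345, .negSucc 509, .ofNat 0, .ofNat 348, .negSucc 152, .ofNat 0, .ofNat 0, .ofNat 957, .ofNat 3306, .ofNat 0, .ofNat 416254800575375907184750834483200, .ofNat 4320905867203050385440768000, .ofNat 0, .ofNat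 0, .ofNat 121901431111409644283058469208064000, .ofNat 1914747009325566885489121689600, .ofNat 0, .ofNat 0, .ofNat 98994202736328210990649518430617600, .ofNat 0, .ofNat 0, .ofNat 0, .ofNat 88848070113473386604196576362496000, .ofNat 0, .ofNat 0⟩)
    (by decide +kernel)
theorem L01028 : Good (Phi V4.P V4.D 1 1) ⟨4, 13, 2, 1, 2, 3, 2, 2, 3, 3⟩ :=
  out_sound (S := T4.ds_pp) T4.ok_pp (w := 32) (j := 2) (by decide +kernel)
theorem L01029 : Good (Phi V4.P V4.D 1 1) ⟨3, 7, 2, 1, 1, 1, 2, 2, 2, 1⟩ :=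
  out_sound (S := T4.ds_pp) T4.ok_pp (w := 48) (j := 3) (by decide +kernel)
theorem L01030 : Good (Phi V4.P V4.D 1 1) ⟨4, 12, 2, 1, 2, 2, 3, 6, 2, 1⟩ :=
  leaf_sound (S := T4.ds_pp) T4.ok_pp (w := 176) (c := ⟨⟨.negSucc 1519, .negSucc 437, .ofNat 176, .negSucc 968, .negSucc 327, .negSucc 37⟩, ⟨.negSucc 463, .negSucc 229, .negSucc 266, .negSucc 330, .negSucc 123, .negSucc 11⟩, ⟨.ofNat 795, .ofNat 318, .negSucc 203, .ofNat 511, .ofNat 228, .negSucc 35⟩, ⟨.negSucc 2632, .negSucc 525, .ofNat 261, .negSucc 1871, .negSucc 540, .negSucc 92⟩, ⟨.ofNat 27, .ofNat 101, .negSucc 36, .ofNat 727, .ofNat 3, .ofNat 90⟩, .ofNat 326, .negSucc 171, .ofNat 0, .negSucc 171, .ofNat 683, .ofNat 0, .ofNat 625, .ofNat 401, .negSucc 1042, .ofNat 0, .ofNat 409, .negSucc 266, .ofNat 0, .ofNat 0, .ofNat 1258, .ofNat 2947, .ofNat 0, .ofNat 1000720495601834711502084164812800, .ofNat 1393713327842476281770803200, .ofNat 0, .ofNat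 0, .ofNat 94231757261927940238873751401267200, .ofNat 658787375260977499791477964800, .ofNat 0, .ofNat 0, .ofNat 73162994093034856335553467934310400, .ofNat 0, .ofNat 0, .ofNat 0, .ofNat 75143440504680293164065270792192000, .ofNat 313918403710175123498178969600, .ofNat 0⟩)
    (by decide +kernel)
theorem L01031 : Good (Phi V4.P V4.D 1 1) ⟨4, 12, 2, 1, 2, 2, 3, 7, 2, 1⟩ :=
  leaf_sound (S := T4.ds_pp) T4.ok_pp (w := 176) (c := ⟨⟨.negSucc 1723, .negSucc 610, .ofNat 201, .negSucc 1175, .negSucc 462, .negSucc 390⟩, ⟨.negSucc 531, .negSucc 310, .negSucc 249, .negSucc 436, .negSucc 183, .negSucc 146⟩, ⟨.ofNat 912, .ofNat 484, .negSucc 242, .ofNat 686, .ofNat 361, .ofNat 337⟩, ⟨.negSucc 3002, .negSucc 790, .ofNat 333, .negSucc 2099, .negSucc 745, .negSucc 676⟩, ⟨.ofNat 89, .ofNat 53, .negSucc 9, .ofNat 457, .negSucc 18, .ofNat 102⟩, .ofNat 326, .negSucc 173, .ofNat 0, .negSucc 173, .ofNat 683, .ofNat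 0, .ofNat 2595, .ofNat 1689, .negSucc 6196, .ofNat 0, .ofNat 1731, .negSucc 1788, .ofNat 0, .ofNat 0, .ofNat 6423, .ofNat 14198, .ofNat 0, .ofNat 24974876157479930435628470737305600, .ofNat 0, .ofNat 0, .ofNat 0, .ofNat 6287871628381340124030083221212364800, .ofNat 0, .ofNat 0, .ofNat 0, .ofNat 4672847759766532706655556545282048000, .ofNat 0, .ofNat 0, .ofNat 0, .ofNat 5645912678636339649797954992078848000, .ofNat 13099980490824310785353082470400, .ofNat 0⟩)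
    (by decide +kernel)
theorem L01032 : Good (Phi V4.P V4.D 1 1) ⟨4, 12, 2, 1, 2, 3, 2, 3, 2, 1⟩ :=
  leaf_sound (S := T4.ds_pp) T4.ok_pp (w := 176) (c := ⟨⟨.negSucc 2500, .negSucc 566, .ofNat 364, .ofNat 0, .negSucc 694, .ofNat 0⟩, ⟨.negSucc 772, .negSucc 235, .negSucc 397, .ofNat 0, .negSucc 240, .ofNat 0⟩, ⟨.ofNat 1332, .ofNat 361, .negSucc 313, .ofNat 0, .ofNat 404, .ofNat 0⟩, ⟨.negSucc 4578, .negSucc 732, .ofNat 510, .ofNat 0, .negSucc 1173, .ofNat 0⟩, ⟨.ofNat 889, .ofNat 192, .negSucc 88, .ofNat 0, .ofNat 77, .ofNat 0⟩, .ofNat 324, .negSucc 167, .ofNat 0, .negSucc 167, .ofNat 678, .ofNat 0, .ofNat 1481, .ofNat 1029, .negSucc 2373, .ofNat 0, .ofNat 921, .negSucc 539, .ofNat 0, .ofNat 0, .ofNat 2610, .ofNat 14274, .ofNat 0, .ofNat 9423019067855369795324112745267200, .ofNat 0, .ofNat 0, .ofNat 0, .ofNat 2037080873562468690093151618282291200, .ofNat 475485215571784409300965785600, .ofNat 0,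 .ofNat 0, .ofNat 1244995553476364811293006710072934400, .ofNat 0, .ofNat 0, .ofNat 0, .ofNat 2065573634172835818544726733645414400, .ofNat 618487437835703319941401804800, .ofNat 0⟩)
    (by decide +kernel)
theorem L01033 : Good (Phi V4.P V4.D 1 1) ⟨4, 13, 3, 2, 2, 2, 4, 12, 3, 2⟩ :=
  leaf_sound (S := T4.ds_pp) T4.ok_pp (w := 184) (c := ⟨⟨.negSucc 2052, .negSucc 282, .ofNat 202, .negSucc 1004, .negSucc 204, .negSucc 6⟩, ⟨.negSucc 720, .negSucc 171, .negSucc 83, .negSucc 395, .negSucc 88, .negSucc 0⟩, ⟨.ofNat 1165, .ofNat 189, .negSucc 158, .ofNat 506, .ofNat 141, .negSucc 26⟩, ⟨.negSucc 3365, .negSucc 363, .ofNat 373, .negSucc 1938, .negSucc 323, .negSucc 26⟩, ⟨.ofNat 205, .ofNat 144, .negSucc 112, .ofNat 778, .negSucc 4, .ofNat 37⟩, .ofNat 1162, .negSucc 1778, .ofNat 0, .negSucc 1778, .ofNat 4160, .ofNat 0, .ofNat 346, .ofNat 603, .negSucc 774, .ofNat 0, .ofNat 347, .negSucc 325, .ofNat 0, .ofNat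 0, .ofNat 1094, .ofNat 2973, .ofNat 0, .ofNat 17008142786917633238965261487308800, .ofNat 7002441044839433100620464128000, .ofNat 0, .ofNat 0, .ofNat 1972559337991530406894971490664448000, .ofNat 6906428017111238582188455336345600, .ofNat 0, .ofNat 0, .ofNat 1481785620745896299692494880033996800, .ofNat 5693114382683736810846459160166400, .ofNat 0, .ofNat 0, .ofNat 679772887403394675218977334388326400, .ofNat 7069149758966901947506991982182400, .ofNat 0⟩)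
    (by decide +kernel)
theorem L01034 : Good (Phi V4.P V4.D 1 1) ⟨4, 13, 3, 3, 2, 2, 4, 12, 3, 2⟩ :=
  leaf_sound (S := T4.ds_pp) T4.ok_pp (w := 184) (c := ⟨⟨.negSucc 1830, .negSucc 532, .ofNat 123, .negSucc 1013, .negSucc 215, .negSucc 21⟩, ⟨.negSucc 767, .negSucc 335, .negSucc 109, .negSucc 467, .negSucc 106, .negSucc 11⟩, ⟨.ofNat 993, .ofNat 388, .negSucc 128, .ofNat 496, .ofNat 153, .negSucc 8⟩, ⟨.negSucc 2960, .negSucc 653, .ofNat 190, .negSucc 1966, .negSucc 339, .negSucc 58⟩, ⟨.ofNat 88, .ofNat 105, .negSucc 25, .ofNat 789, .ofNat 4, .ofNat 49⟩, .ofNat 643, .negSucc 709, .ofNat 0, .negSucc 709, .ofNat 1698, .ofNat 0, .ofNat 202, .ofNat 292, .negSucc 441, .ofNat 0, .ofNat 194, .negSucc 190, .ofNat 0, .ofNat 0, .ofNat 580, .ofNat 1785, .ofNat 0, .ofNat 12809691018492838757990991396864000, .ofNat 451282396708193365874914099200, .ofNat 0, .ofNat 0, .ofNat 647095777606615074721427120298393600,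 .ofNat 68519994801586865986657163673600, .ofNat 0, .ofNat 0, .ofNat 566785435226175944583456476469657600, .ofNat 68431244863751003957612249088000, .ofNat 0, .ofNat 0, .ofNat 0, .ofNat 0, .ofNat 0⟩)
    (by decide +kernel)
theorem L01035 : Good (Phi V4.P V4.D 1 1) ⟨4, 13, 2, 1, 2, 2, 4, 12, 3, 3⟩ :=
  leaf_sound (S := T4.ds_pp) T4.ok_pp (w := 184) (c := ⟨⟨.negSucc 1921, .negSucc 363, .ofNat 94, .ofNat 0, .negSucc 179, .ofNat 0⟩, ⟨.negSucc 693, .negSucc 253, .negSucc 226, .ofNat 0, .negSucc 86, .ofNat 0⟩, ⟨.ofNat 1060, .ofNat 277, .negSucc 136, .ofNat 0, .ofNat 150, .ofNat 0⟩, ⟨.negSucc 3141, .negSucc 403, .ofNat 152, .ofNat 0, .negSucc 287, .ofNat 0⟩, ⟨.ofNat 172, .ofNat 59, .negSucc 12, .ofNat 0, .ofNat 17, .ofNat 0⟩, .ofNat 346, .negSucc 223, .ofNat 0, .negSucc 223, .ofNat 677, .ofNat 0, .ofNat 3993, .ofNat 3261, .negSucc 7047, .ofNat 0, .ofNat 3152, .negSucc 2523, .ofNat 0, .ofNat 0, .ofNat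 9161, .ofNat 108689, .ofNat 0, .ofNat 608857636035056213136427949909606400, .ofNat 0, .ofNat 0, .ofNat 0, .ofNat 443516785750361902370793107955174604800, .ofNat 15470149537029090951968006445465600, .ofNat 0, .ofNat 0, .ofNat 303082458339988160131223806051929292800, .ofNat 0, .ofNat 0, .ofNat 0, .ofNat 331314238375972179816536402026718822400, .ofNat 0, .ofNat 0⟩)
    (by decide +kernel)

end Crest.Agent.R097C4.N4pp
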