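import Crest.Agent.R097.T4

/-!
# Row 97, box cover in dimension n = 4 (generated)
-/

set_option autoImplicit false
set_option Elab.async false
set_option maxHeartbeats 0
set_option maxRecDepth 100000

open Crest.Agent.R097 Crest.Agent.R097.KA


namespace Crest.Agent.R097C4.N4pp

theorem L01036 : Good (Phi V4.P V4.D 1 1) ⟨4, 13, 3, 2, 2, 2, 4, 13, 3, 2⟩ :=
  leaf_sound (S := T4.ds_pp) T4.ok_pp (w := 184) (c := ⟨⟨.negSucc 2073, .negSucc 397, .ofNat 88, .negSucc 1180, .negSucc 260, .negSucc 118⟩, ⟨.negSucc 732, .negSucc 250, .negSucc 128, .negSucc 477, .negSucc 113, .negSucc 47⟩, ⟨.ofNat 1194, .ofNat 302, .negSucc 98, .ofNat 622, .ofNat 198, .ofNat 84⟩, ⟨.negSucc 3386, .negSucc 441, .ofNat 169, .negSucc 2186, .negSucc 411, .negSucc 221⟩, ⟨.ofNat 155, .negSucc 44, .negSucc 40, .ofNat 705, .negSucc 8, .ofNat 71⟩, .ofNat 909, .negSucc 1252, .ofNat 0, .negSucc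 1252, .ofNat 3020, .ofNat 0, .ofNat 756, .ofNat 1214, .negSucc 1855, .ofNat 0, .ofNat 723, .negSucc 778, .ofNat 0, .ofNat 0, .ofNat 2363, .ofNat 8127, .ofNat 0, .ofNat 113780627842440266732764407634329600, .ofNat 24359553854087446090616301158400, .ofNat 0, .ofNat 0, .ofNat 14814140501100484703136921918898176000, .ofNat 18668221435622121548959780857446400, .ofNat 0, .ofNat 0, .ofNat 11978930507770645212981104607441715200, .ofNat 24102353114953942875641444774707200, .ofNat 0, .ofNat 0, .ofNat 17137659578470668892348032253899571200, .ofNat 13892268043804467959246313278668800, .ofNat 0⟩)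
    (by decide +kernel)
theorem L01037 : Good (Phi V4.P V4.D 1 1) ⟨4, 13, 3, 3, 2, 2, 4, 13, 3, 2⟩ :=
  leaf_sound (S := T4.ds_pp) T4.ok_pp (w := 184) (c := ⟨⟨.negSucc 1973, .negSucc 586, .ofNat 102, .negSucc 1166, .negSucc 286, .negSucc 111⟩, ⟨.negSucc 826, .negSucc 407, .negSucc 109, .negSucc 551, .negSucc 144, .negSucc 58⟩, ⟨.ofNat 1092, .ofNat 427, .negSucc 113, .ofNat 585, .ofNat 214, .ofNat 80⟩, ⟨.negSucc 3210, .negSucc 673, .ofNat 137, .negSucc 2157, .negSucc 442, .negSucc 192⟩, ⟨.ofNat 126, .ofNat 3, .ofNat 27, .ofNat 689, .negSucc 11, .ofNat 36⟩, .ofNat 345, .negSucc 221, .ofNat 0, .negSucc 221, .ofNat 676, .ofNat 0, .ofNat 594, .ofNat 515, .negSucc 1464, .ofNat 0, .ofNat 466, .negSucc 528, .ofNat 0, .ofNat 0, .ofNat 1534, .ofNat 2521, .ofNat 0, .ofNat 38088536841305560428204897651916800, .ofNat 1099615114299407254024303411200, .ofNat 0, .ofNat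 0, .ofNat 5194828109817821277926278280773632000, .ofNat 0, .ofNat 0, .ofNat 0, .ofNat 2981143513180951303432386113018265600, .ofNat 0, .ofNat 0, .ofNat 0, .ofNat 3871342670576031743571825650565120000, .ofNat 242166810594115280907486520934400, .ofNat 0⟩)
    (by decide +kernel)
theorem L01038 : Good (Phi V4.P V4.D 1 1) ⟨4, 13, 2, 1, 2, 2, 4, 13, 3, 3⟩ :=
  out_sound (S := T4.ds_pp) T4.ok_pp (w := 32) (j := 2) (by decide +kernel)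
theorem L01039 : Good (Phi V4.P V4.D 1 1) ⟨4, 13, 2, 1, 2, 2, 3, 7, 2, 1⟩ :=
  leaf_sound (S := T4.ds_pp) T4.ok_pp (w := 176) (c := ⟨⟨.negSucc 2308, .negSucc 734, .ofNat 190, .negSucc 1235, .negSucc 772, .negSucc 471⟩, ⟨.negSucc 831, .negSucc 473, .negSucc 230, .negSucc 581, .negSucc 381, .negSucc 227⟩, ⟨.ofNat 1372, .ofNat 572, .negSucc 220, .ofNat 656, .ofNat 616, .ofNat 422⟩, ⟨.negSucc 3755, .negSucc 932, .ofNat 314, .negSucc 2165, .negSucc 1179, .negSucc 770⟩, ⟨.ofNat 145, .ofNat 56, .negSucc 13, .ofNat 478, .negSucc 45, .ofNat 81⟩, .ofNat 640, .negSucc 704, .ofNat 0, .negSucc 704, .ofNat 1694, .ofNat 0, .ofNat 858, .ofNat 1234, .negSucc 2580, .ofNat 0, .ofNat 824, .negSucc 1142, .ofNat 0, .ofNat 0, .ofNat 2855, .ofNat 7247, .ofNat 0, .ofNat 11990167493408391632854242557952000, .ofNat 37276820532119876659052544000, .ofNat 0, .ofNat 0, .ofNat 1397587565135949214326979232268288000,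 .ofNat 4356941532427408017876162969600, .ofNat 0, .ofNat 0, .ofNat 1140807630423939581890970546444697600, .ofNat 8788359098738558674224650649600, .ofNat 0, .ofNat 0, .ofNat 1669194478261604935920286050759475200, .ofNat 8670477859139986718175579340800, .ofNat 0⟩)
    (by decide +kernel)
theorem L01040 : Good (Phi V4.P V4.D 1 1) ⟨4, 13, 2, 1, 2, 3, 2, 3, 2, 1⟩ :=
  leaf_sound (S := T4.ds_pp) T4.ok_pp (w := 176) (c := ⟨⟨.negSucc 3059, .negSucc 568, .ofNat 343, .ofNat 0, .negSucc 829, .ofNat 0⟩, ⟨.negSucc 1030, .negSucc 324, .negSucc 359, .ofNat 0, .negSucc 401, .ofNat 0⟩, ⟨.ofNat 1692, .ofNat 366, .negSucc 306, .ofNat 0, .ofNat 453, .ofNat 0⟩, ⟨.negSucc 5299, .negSucc 729, .ofNat 477, .ofNat 0, .negSucc 1336, .ofNat 0⟩, ⟨.ofNat 1078, .ofNat 187, .negSucc 81, .ofNat 0, .ofNat 74, .ofNat 0⟩, .ofNat 346, .negSucc 221, .ofNat 0, .negSucc 221, .ofNat 676, .ofNat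 0, .ofNat 2705, .ofNat 2595, .negSucc 5696, .ofNat 0, .ofNat 2080, .negSucc 1854, .ofNat 0, .ofNat 0, .ofNat 5816, .ofNat 21468, .ofNat 0, .ofNat 15737911120500991414096947786547200, .ofNat 15897696087404139025268736000, .ofNat 0, .ofNat 0, .ofNat 7253765135537651519485805684431257600, .ofNat 3614023942191866014005303705600, .ofNat 0, .ofNat 0, .ofNat 3711513162570867562957714717094707200, .ofNat 4809729264384520538636156928000, .ofNat 0, .ofNat 0, .ofNat 7208007771339174088613523839621529600, .ofNat 0, .ofNat 0⟩)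
    (by decide +kernel)
theorem L01041 : Good (Phi V4.P V4.D 1 1) ⟨3, 7, 2, 1, 1, 1, 2, 3, 2, 1⟩ :=
  out_sound (S := T4.ds_pp) T4.ok_pp (w := 48) (j := 3) (by decide +kernel)
theorem L01042 : Good (Phi V4.P V4.D 1 1) ⟨2, 2, 1, 1, 1, 0, 1, 0, 1, 0⟩ :=
  out_sound (S := T4.ds_pp) T4.ok_pp (w := 40) (j := 3) (by decide +kernel)
theorem L01043 : Good (Phi V4.P V4.D 1 1) ⟨4, 12, 2, 2, 1, 0, 1, 0, 2, 0⟩ :=
  out_sound (S := T4.ds_pp) T4.ok_pp (w := 56) (j := 3) (by decide +kernel)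
theorem L01044 : Good (Phi V4.P V4.D 1 1) ⟨5, 26, 2, 2, 1, 0, 1, 0, 2, 0⟩ :=
  out_sound (S := T4.ds_pp) T4.ok_pp (w := 56) (j := 3) (by decide +kernel)
theorem L01045 : Good (Phi V4.P V4.D 1 1) ⟨5, 27, 4, 8, 2, 0, 2, 0, 3, 0⟩ :=
  leaf_sound (S := T4.ds_pp) T4.ok_pp (w := 184) (c := ⟨⟨.negSucc 1592, .ofNat 204, .negSucc 221, .negSucc 8, .ofNat 235, .negSucc 244⟩, ⟨.negSucc 831, .ofNat 78, .negSucc 174, .ofNat 0, .ofNat 126, .negSucc 132⟩, ⟨.ofNat 2044, .negSucc 181, .ofNat 208, .ofNat 97, .negSucc 507, .ofNat 88⟩, ⟨.negSucc 2465, .ofNat 343, .negSucc 316, .negSucc 213, .ofNat 416, .negSucc 364⟩, ⟨.ofNat 37, .ofNat 49, .negSucc 20, .ofNat 364, .negSucc 107, .negSucc 15⟩, .ofNat 1768, .negSucc 2673, .ofNat 0, .negSucc 2673, .ofNat 5125, .ofNat 0, .ofNat 107, .ofNat 281, .negSucc 445, .ofNat 0, .ofNat 172, .negSucc 235, .ofNat 0, .ofNat 0, .ofNat 626,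 .ofNat 3082, .ofNat 308260377469961060439777306948403200, .ofNat 0, .ofNat 8888487618563842563794534400, .ofNat 0, .ofNat 777905766851869192055949693340876800, .ofNat 0, .ofNat 2355536465240011461027377971200, .ofNat 0, .ofNat 0, .ofNat 0, .ofNat 1738301457982418165386602086400, .ofNat 0, .ofNat 0, .ofNat 0, .ofNat 291429284494923099941319475200, .ofNat 0⟩)
    (by decide +kernel)
theorem L01046 : Good (Phi V4.P V4.D 1 1) ⟨5, 27, 4, 8, 2, 0, 2, 1, 3, 0⟩ :=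
  leaf_sound (S := T4.ds_pp) T4.ok_pp (w := 184) (c := ⟨⟨.negSucc 1368, .negSucc 63, .negSucc 50, .negSucc 77, .ofNat 100, .negSucc 182⟩, ⟨.negSucc 714, .negSucc 54, .negSucc 79, .negSucc 39, .ofNat 53, .negSucc 98⟩, ⟨.ofNat 1587, .ofNat 11, .ofNat 87, .ofNat 129, .negSucc 432, .ofNat 0⟩, ⟨.negSucc 2119, .negSucc 127, .negSucc 29, .negSucc 206, .ofNat 210, .negSucc 265⟩, ⟨.ofNat 28, .ofNat 162, .negSucc 69, .ofNat 161, .negSucc 106, .negSucc 20⟩, .ofNat 3251, .negSucc 5365, .ofNat 0, .negSucc 5365, .ofNat 10043, .ofNat 0, .ofNat 90, .ofNat 306, .negSucc 433, .ofNat 0, .ofNat 180, .negSucc 232, .ofNat 0, .ofNat 0, .ofNat 648, .ofNat 3366, .ofNat 0, .ofNat 0, .ofNat 0, .ofNat 0, .ofNat 0, .ofNat 0, .ofNat 2657161476235690110986747904000, .ofNat 0, .ofNat 0, .ofNat 0, .ofNat 1845733260308227891731313459200, .ofNat 0, .ofNat 0, .ofNat 0, .ofNat 0, .ofNat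 0⟩)
    (by decide +kernel)
theorem L01047 : Good (Phi V4.P V4.D 1 1) ⟨5, 27, 4, 8, 2, 0, 1, 0, 3, 1⟩ :=
  leaf_sound (S := T4.ds_pp) T4.ok_pp (w := 176) (c := ⟨⟨.negSucc 1705, .negSucc 95, .negSucc 24, .negSucc 47, .ofNat 266, .ofNat 172⟩, ⟨.negSucc 896, .negSucc 58, .negSucc 76, .negSucc 23, .ofNat 144, .ofNat 94⟩, ⟨.ofNat 2105, .ofNat 134, .ofNat 7, .negSucc 51, .negSucc 863, .negSucc 333⟩, ⟨.negSucc 2692, .negSucc 157, .ofNat 9, .negSucc 136, .ofNat 501, .ofNat 298⟩, ⟨.ofNat 135, .ofNat 120, .negSucc 61, .ofNat 118, .negSucc 176, .negSucc 67⟩, .ofNat 754, .negSucc 878, .ofNat 0, .negSucc 878, .ofNat 1860, .ofNat 0, .ofNat 159, .ofNat 246, .negSucc 343, .ofNat 0, .ofNat 176, .negSucc 168, .ofNat 0, .ofNat 0, .ofNat 575, .ofNat 2134, .ofNat 0, .ofNat 0, .ofNat 480181621936219891590758400, .ofNat 0, .ofNat 0, .ofNat 0, .ofNat 0, .ofNat 0, .ofNat 4502597159830523048708707448782848000,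 .ofNat 0, .ofNat 105747167346851725159956480000, .ofNat 0, .ofNat 0, .ofNat 0, .ofNat 0, .ofNat 0⟩)
    (by decide +kernel)
theorem L01048 : Good (Phi V4.P V4.D 1 1) ⟨6, 54, 4, 9, 2, 0, 1, 0, 2, 0⟩ :=
  out_sound (S := T4.ds_pp) T4.ok_pp (w := 72) (j := 3) (by decide +kernel)
theorem L01049 : Good (Phi V4.P V4.D 1 1) ⟨7, 110, 6, 36, 2, 0, 2, 0, 3, 0⟩ :=
  leaf_sound (S := T4.ds_pp) T4.ok_pp (w := 200) (c := ⟨⟨.negSucc 1743, .ofNat 68, .negSucc 62, .ofNat 25, .ofNat 230, .negSucc 227⟩, ⟨.negSucc 986, .ofNat 31, .negSucc 50, .ofNat 15, .ofNat 131, .negSucc 130⟩, ⟨.ofNat 2179, .negSucc 77, .ofNat 66, .ofNat 76, .negSucc 479, .ofNat 87⟩, ⟨.negSucc 2643, .ofNat 118, .negSucc 89, .negSucc 186, .ofNat 404, .negSucc 353⟩, ⟨.ofNat 27, .negSucc 18, .ofNat 5, .ofNat 391, .negSucc 102, .ofNat 19⟩, .ofNat 5678, .negSucc 9405, .ofNat 0, .negSucc 9405, .ofNat 16697,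 .ofNat 0, .ofNat 57, .ofNat 295, .negSucc 461, .ofNat 0, .ofNat 173, .negSucc 261, .ofNat 0, .ofNat 0, .ofNat 634, .ofNat 3760, .ofNat 0, .ofNat 0, .ofNat 0, .ofNat 0, .ofNat 0, .ofNat 0, .ofNat 0, .ofNat 0, .ofNat 0, .ofNat 0, .ofNat 0, .ofNat 0, .ofNat 0, .ofNat 0, .ofNat 266500097633378168867074867200, .ofNat 0⟩)
    (by decide +kernel)
theorem L01050 : Good (Phi V4.P V4.D 1 1) ⟨7, 110, 6, 36, 2, 0, 2, 1, 3, 0⟩ :=
  leaf_sound (S := T4.ds_pp) T4.ok_pp (w := 200) (c := ⟨⟨.negSucc 1443, .negSucc 68, .ofNat 13, .negSucc 69, .ofNat 110, .negSucc 169⟩, ⟨.negSucc 816, .negSucc 44, .negSucc 5, .negSucc 39, .ofNat 63, .negSucc 96⟩, ⟨.ofNat 1617, .ofNat 157, .negSucc 47, .ofNat 114, .negSucc 436, .negSucc 1⟩, ⟨.negSucc 2190, .negSucc 93, .ofNat 15, .negSucc 200, .ofNat 215, .negSucc 245⟩, ⟨.ofNat 26, .negSucc 7, .ofNat 22, .ofNat 167, .negSucc 85, .negSucc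 14⟩, .ofNat 15461, .negSucc 26418, .ofNat 0, .negSucc 26418, .ofNat 46292, .ofNat 0, .ofNat 38, .ofNat 316, .negSucc 437, .ofNat 0, .ofNat 183, .negSucc 249, .ofNat 0, .ofNat 0, .ofNat 650, .ofNat 4062, .ofNat 0, .ofNat 0, .ofNat 0, .ofNat 0, .ofNat 0, .ofNat 0, .ofNat 2360960848513818875937580646400, .ofNat 0, .ofNat 0, .ofNat 0, .ofNat 0, .ofNat 0, .ofNat 0, .ofNat 0, .ofNat 569278704557279663224573132800, .ofNat 0⟩)
    (by decide +kernel)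
theorem L01051 : Good (Phi V4.P V4.D 1 1) ⟨7, 110, 6, 36, 2, 0, 1, 0, 3, 1⟩ :=
  leaf_sound (S := T4.ds_pp) T4.ok_pp (w := 192) (c := ⟨⟨.negSucc 1783, .negSucc 41, .ofNat 7, .negSucc 15, .ofNat 277, .ofNat 157⟩, ⟨.negSucc 1010, .negSucc 26, .negSucc 10, .negSucc 8, .ofNat 158, .ofNat 90⟩, ⟨.ofNat 2177, .ofNat 42, .negSucc 14, .negSucc 53, .negSucc 876, .negSucc 317⟩, ⟨.negSucc 2773, .negSucc 15, .negSucc 11, .negSucc 127, .ofNat 522, .ofNat 288⟩, ⟨.ofNat 148, .negSucc 70, .ofNat 51, .ofNat 181, .negSucc 183, .negSucc 89⟩, .ofNat 2219, .negSucc 3381, .ofNat 0, .negSucc 3381, .ofNat 6179, .ofNat 0, .ofNat 88, .ofNat 278, .negSucc 338, .ofNat 0, .ofNat 171, .negSucc 187, .ofNat 0, .ofNat 0, .ofNat 571, .ofNat 3927, .ofNat 0, .ofNat 0, .ofNat 0, .ofNat 0, .ofNat 0, .ofNat 0, .ofNat 0, .ofNat 0, .ofNat 0, .ofNat 0, .ofNat 0, .ofNat 0, .ofNat 0, .ofNat 0,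 .ofNat 0, .ofNat 0⟩)
    (by decide +kernel)
theorem L01052 : Good (Phi V4.P V4.D 1 1) ⟨8, 220, 6, 37, 2, 0, 1, 0, 2, 0⟩ :=
  out_sound (S := T4.ds_pp) T4.ok_pp (w := 88) (j := 3) (by decide +kernel)
theorem L01053 : Good (Phi V4.P V4.D 1 1) ⟨9, 442, 7, 74, 2, 0, 1, 0, 2, 0⟩ :=
  out_sound (S := T4.ds_pp) T4.ok_pp (w := 96) (j := 3) (by decide +kernel)
theorem L01054 : Good (Phi V4.P V4.D 1 1) ⟨10, 886, 8, 148, 2, 0, 1, 0, 2, 0⟩ :=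
  out_sound (S := T4.ds_pp) T4.ok_pp (w := 104) (j := 3) (by decide +kernel)
theorem L01055 : Good (Phi V4.P V4.D 1 1) ⟨10, 887, 8, 148, 2, 0, 1, 0, 2, 0⟩ :=
  out_sound (S := T4.ds_pp) T4.ok_pp (w := 32) (j := 4) (by decide +kernel)
theorem L01056 : Good (Phi V4.P V4.D 1 1) ⟨9, 443, 8, 149, 2, 0, 1, 0, 2, 0⟩ :=
  out_sound (S := T4.ds_pp) T4.ok_pp (w := 96) (j := 3) (by decide +kernel)
theorem L01057 : Good (Phi V4.P V4.D 1 1) ⟨8, 221, 7, 75, 2, 0, 1, 0, 2, 0⟩ :=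
  out_sound (S := T4.ds_pp) T4.ok_pp (w := 88) (j := 3) (by decide +kernel)
theorem L01058 : Good (Phi V4.P V4.D 1 1) ⟨7, 111, 5, 18, 2, 0, 1, 0, 2, 0⟩ :=
  out_sound (S := T4.ds_pp) T4.ok_pp (w := 24) (j := 4) (by decide +kernel)
theorem L01059 : Good (Phi V4.P V4.D 1 1) ⟨7, 110, 5, 19, 2, 0, 1, 0, 2, 0⟩ :=
  out_sound (S := T4.ds_pp) T4.ok_pp (w := 80) (j := 3) (by decide +kernel)
theorem L01060 : Good (Phi V4.P V4.D 1 1) ⟨7, 111, 5, 19, 2, 0, 1, 0, 2, 0⟩ :=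
  out_sound (S := T4.ds_pp) T4.ok_pp (w := 24) (j := 4) (by decide +kernel)
theorem L01061 : Good (Phi V4.P V4.D 1 1) ⟨5, 27, 3, 5, 2, 0, 1, 0, 2, 0⟩ :=
  out_sound (S := T4.ds_pp) T4.ok_pp (w := 64) (j := 3) (by decide +kernel)
theorem L01062 : Good (Phi V4.P V4.D 1 1) ⟨6, 54, 4, 8, 2, 1, 1, 0, 3, 0⟩ :=
  leaf_sound (S := T4.ds_pp) T4.ok_pp (w := 184) (c := ⟨⟨.negSucc 1449, .negSucc 31, .negSucc 38, .negSucc 35, .ofNat 72, .negSucc 275⟩, ⟨.negSucc 748, .negSucc 22, .negSucc 90, .negSucc 11, .ofNat 33, .negSucc 149⟩, ⟨.ofNat 2096, .ofNat 7, .ofNat 68, .ofNat 6, .negSucc 751, .negSucc 34⟩, ⟨.negSucc 2481, .negSucc 49, .negSucc 32, .negSucc 300, .ofNat 378, .negSucc 416⟩, ⟨.ofNat 478, .ofNat 54, .negSucc 53, .ofNat 458, .negSucc 496, .negSucc 6⟩, .ofNat 3244, .negSucc 5355, .ofNat 0, .negSucc 5355, .ofNat 10029, .ofNat 0, .ofNat 89, .ofNat 321, .negSucc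 394, .ofNat 0, .ofNat 186, .negSucc 209, .ofNat 0, .ofNat 0, .ofNat 584, .ofNat 2570, .ofNat 0, .ofNat 0, .ofNat 0, .ofNat 0, .ofNat 33410806753655675237664779252269056000, .ofNat 0, .ofNat 92473861277019524100312268800, .ofNat 0, .ofNat 0, .ofNat 0, .ofNat 35510238851762426924865945600, .ofNat 0, .ofNat 0, .ofNat 0, .ofNat 0, .ofNat 0⟩)
    (by decide +kernel)
theorem L01063 : Good (Phi V4.P V4.D 1 1) ⟨6, 55, 5, 16, 2, 1, 1, 0, 3, 0⟩ :=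
  out_sound (S := T4.ds_pp) T4.ok_pp (w := 72) (j := 3) (by decide +kernel)
theorem L01064 : Good (Phi V4.P V4.D 1 1) ⟨6, 55, 5, 17, 2, 1, 1, 0, 3, 0⟩ :=
  leaf_sound (S := T4.ds_pp) T4.ok_pp (w := 192) (c := ⟨⟨.negSucc 1670, .negSucc 496, .ofNat 285, .negSucc 11, .ofNat 55, .negSucc 298⟩, ⟨.negSucc 910, .negSucc 289, .ofNat 128, .negSucc 3, .ofNat 28, .negSucc 168⟩, ⟨.ofNat 2320, .ofNat 418, .negSucc 233, .negSucc 27, .negSucc 740, .negSucc 50⟩, ⟨.negSucc 2815, .negSucc 771, .ofNat 452, .negSucc 284, .ofNat 374, .negSucc 461⟩, ⟨.ofNat 514, .ofNat 67, .negSucc 33, .ofNat 474, .negSucc 515, .ofNat 19⟩, .ofNat 4681, .negSucc 7745, .ofNat 0, .negSucc 7745, .ofNat 13953, .ofNat 0, .ofNat 69, .ofNat 330, .negSucc 394, .ofNat 0, .ofNat 193, .negSucc 218, .ofNat 0, .ofNat 0, .ofNat 586, .ofNat 2862, .ofNat 1961899417934612797198539087780249600, .ofNat 0, .ofNat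 2981846806406668827072921600, .ofNat 0, .ofNat 342110502217712557709471217002899046400, .ofNat 0, .ofNat 202062397043236175765884108800, .ofNat 0, .ofNat 0, .ofNat 0, .ofNat 161213634317365687212834816000, .ofNat 0, .ofNat 0, .ofNat 0, .ofNat 189607521365392415647806259200, .ofNat 0⟩)
    (by decide +kernel)
theorem L01065 : Good (Phi V4.P V4.D 1 1) ⟨5, 27, 4, 8, 2, 1, 1, 0, 3, 1⟩ :=
  leaf_sound (S := T4.ds_pp) T4.ok_pp (w := 176) (c := ⟨⟨.negSucc 1622, .negSucc 94, .ofNat 6, .negSucc 182, .ofNat 34, .ofNat 136⟩, ⟨.negSucc 840, .negSucc 86, .negSucc 54, .negSucc 94, .ofNat 13, .ofNat 73⟩, ⟨.ofNat 2037, .negSucc 52, .ofNat 76, .negSucc 27, .negSucc 692, .negSucc 429⟩, ⟨.negSucc 2748, .negSucc 49, .negSucc 27, .negSucc 510, .ofNat 335, .ofNat 299⟩, ⟨.ofNat 479, .negSucc 96, .ofNat 86, .ofNat 424, .negSucc 522, .negSucc 165⟩, .ofNat 1753, .negSucc 2650,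 .ofNat 0, .negSucc 2650, .ofNat 5092, .ofNat 0, .ofNat 108, .ofNat 298, .negSucc 294, .ofNat 0, .ofNat 180, .negSucc 151, .ofNat 0, .ofNat 0, .ofNat 539, .ofNat 4339, .ofNat 0, .ofNat 0, .ofNat 0, .ofNat 0, .ofNat 3116121964430580935401756725293875200, .ofNat 0, .ofNat 174580113135861558233844940800, .ofNat 0, .ofNat 1082815547456964452382752375203430400, .ofNat 0, .ofNat 62198945168036582804108083200, .ofNat 0, .ofNat 170817002932576805898944263697203200, .ofNat 0, .ofNat 97894752308551767423555993600, .ofNat 0⟩)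
    (by decide +kernel)
theorem L01066 : Good (Phi V4.P V4.D 1 1) ⟨6, 54, 4, 9, 2, 1, 1, 0, 3, 0⟩ :=
  out_sound (S := T4.ds_pp) T4.ok_pp (w := 72) (j := 3) (by decide +kernel)
theorem L01067 : Good (Phi V4.P V4.D 1 1) ⟨6, 55, 4, 9, 2, 1, 2, 0, 3, 0⟩ :=
  leaf_sound (S := T4.ds_pp) T4.ok_pp (w := 192) (c := ⟨⟨.negSucc 1549, .ofNat 35, .ofNat 29, .ofNat 91, .ofNat 26, .negSucc 382⟩, ⟨.negSucc 869, .negSucc 17, .negSucc 21, .ofNat 53, .ofNat 15, .negSucc 218⟩, ⟨.ofNat 2185, .negSucc 33, .ofNat 10, .negSucc 75, .negSucc 322, .ofNat 18⟩, ⟨.negSucc 2596, .ofNat 69, .ofNat 36, .negSucc 156, .ofNat 167, .negSucc 596⟩, ⟨.ofNat 459, .negSucc 12, .ofNat 30, .ofNat 512, .negSucc 221, .ofNat 38⟩, .ofNat 5749, .negSucc 9522, .ofNat 0, .negSucc 9522, .ofNat 16891, .ofNat 0, .ofNat 58, .ofNat 327, .negSucc 402, .ofNat 0, .ofNat 192, .negSucc 226, .ofNat 0, .ofNat 0,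 .ofNat 577, .ofNat 5745, .ofNat 0, .ofNat 0, .ofNat 0, .ofNat 0, .ofNat 111226094838920599212568343177959833600, .ofNat 0, .ofNat 966339362852843622645104640000, .ofNat 0, .ofNat 0, .ofNat 0, .ofNat 357998172577035715039828377600, .ofNat 0, .ofNat 0, .ofNat 0, .ofNat 293308739956922228121010176000, .ofNat 0⟩)
    (by decide +kernel)
theorem L01068 : Good (Phi V4.P V4.D 1 1) ⟨6, 55, 4, 9, 2, 1, 2, 1, 3, 0⟩ :=
  leaf_sound (S := T4.ds_pp) T4.ok_pp (w := 192) (c := ⟨⟨.negSucc 1451, .ofNat 16, .ofNat 58, .negSucc 112, .ofNat 20, .negSucc 271⟩, ⟨.negSucc 815, .negSucc 25, .negSucc 2, .negSucc 63, .ofNat 11, .negSucc 155⟩, ⟨.ofNat 1817, .ofNat 22, .negSucc 20, .ofNat 73, .negSucc 420, .negSucc 107⟩, ⟨.negSucc 2380, .ofNat 64, .ofNat 103, .negSucc 412, .ofNat 185, .negSucc 368⟩, ⟨.ofNat 334, .negSucc 43, .negSucc 1, .ofNat 424, .negSucc 270, .negSucc 68⟩, .ofNat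 5758, .negSucc 9538, .ofNat 0, .negSucc 9538, .ofNat 16917, .ofNat 0, .ofNat 61, .ofNat 341, .negSucc 400, .ofNat 0, .ofNat 200, .negSucc 225, .ofNat 0, .ofNat 0, .ofNat 612, .ofNat 3178, .ofNat 0, .ofNat 0, .ofNat 0, .ofNat 0, .ofNat 0, .ofNat 0, .ofNat 1182549566700899796544546406400, .ofNat 0, .ofNat 0, .ofNat 0, .ofNat 228080338038303306069049344000, .ofNat 0, .ofNat 0, .ofNat 0, .ofNat 0, .ofNat 0⟩)
    (by decide +kernel)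
theorem L01069 : Good (Phi V4.P V4.D 1 1) ⟨5, 27, 4, 9, 2, 1, 1, 0, 3, 1⟩ :=
  leaf_sound (S := T4.ds_pp) T4.ok_pp (w := 184) (c := ⟨⟨.negSucc 1646, .negSucc 47, .negSucc 59, .negSucc 175, .ofNat 56, .ofNat 122⟩, ⟨.negSucc 914, .negSucc 57, .negSucc 94, .negSucc 99, .ofNat 31, .ofNat 70⟩, ⟨.ofNat 2089, .ofNat 18, .ofNat 45, .negSucc 30, .negSucc 731, .negSucc 445⟩, ⟨.negSucc 2784, .negSucc 60, .negSucc 55, .negSucc 496, .ofNat 368, .ofNat 310⟩, ⟨.ofNat 519, .ofNat 3, .negSucc 19, .ofNat 407, .negSucc 495, .negSucc 218⟩, .ofNat 5815, .negSucc 9633, .ofNat 0, .negSucc 9633, .ofNat 17075, .ofNat 0, .ofNat 56, .ofNat 307, .negSucc 282, .ofNat 0, .ofNat 180, .negSucc 159, .ofNat 0, .ofNat 0, .ofNat 533, .ofNat 3687, .ofNat 0, .ofNat 0, .ofNat 0, .ofNat 0, .ofNat 1415771985930534692389853016883200000, .ofNat 0, .ofNat 343855464189607176493753958400, .ofNat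 0, .ofNat 0, .ofNat 0, .ofNat 122582800332670469774141030400, .ofNat 0, .ofNat 0, .ofNat 0, .ofNat 0, .ofNat 0⟩)
    (by decide +kernel)
theorem L01070 : Good (Phi V4.P V4.D 1 1) ⟨5, 27, 3, 5, 2, 1, 1, 0, 2, 0⟩ :=
  out_sound (S := T4.ds_pp) T4.ok_pp (w := 64) (j := 3) (by decide +kernel)
theorem L01071 : Good (Phi V4.P V4.D 1 1) ⟨3, 7, 2, 2, 1, 0, 1, 0, 2, 0⟩ :=
  out_sound (S := T4.ds_pp) T4.ok_pp (w := 16) (j := 4) (by decide +kernel)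
theorem L01072 : Good (Phi V4.P V4.D 1 1) ⟨4, 12, 2, 2, 1, 0, 1, 0, 2, 1⟩ :=
  out_sound (S := T4.ds_pp) T4.ok_pp (w := 56) (j := 3) (by decide +kernel)
theorem L01073 : Good (Phi V4.P V4.D 1 1) ⟨4, 13, 2, 2, 1, 0, 2, 0, 3, 2⟩ :=
  leaf_sound (S := T4.ds_pp) T4.ok_pp (w := 168) (c := ⟨⟨.negSucc 1405, .negSucc 90, .negSucc 48, .negSucc 195, .ofNat 66, .ofNat 198⟩, ⟨.negSucc 681, .negSucc 152, .negSucc 160, .negSucc 103, .ofNat 34, .ofNat 109⟩, ⟨.ofNat 1712, .ofNat 111, .negSucc 5, .negSucc 385, .negSucc 295, .negSucc 448⟩, ⟨.negSucc 2260, .negSucc 78, .ofNat 37, .negSucc 455, .ofNat 181, .ofNat 365⟩, ⟨.ofNat 108, .ofNat 49, .negSucc 97, .ofNat 287, .negSucc 145, .negSucc 116⟩, .ofNat 1859, .negSucc 2817, .ofNat 0, .negSucc 2817, .ofNat 5336, .ofNat 0, .ofNat 176, .ofNat 484, .negSucc 401, .ofNat 0, .ofNat 296, .negSucc 212, .ofNat 0, .ofNat 0, .ofNat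 971, .ofNat 10490, .ofNat 0, .ofNat 0, .ofNat 0, .ofNat 0, .ofNat 211707754505484105296756971929600, .ofNat 0, .ofNat 13015523516426511561680486400, .ofNat 0, .ofNat 928376007718243491043428689510400, .ofNat 0, .ofNat 1617477379147255915531468800, .ofNat 0, .ofNat 0, .ofNat 0, .ofNat 0, .ofNat 0⟩)
    (by decide +kernel)
theorem L01074 : Good (Phi V4.P V4.D 1 1) ⟨5, 26, 3, 4, 1, 0, 2, 1, 3, 2⟩ :=
  out_sound (S := T4.ds_pp) T4.ok_pp (w := 64) (j := 3) (by decide +kernel)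
theorem L01075 : Good (Phi V4.P V4.D 1 1) ⟨5, 27, 3, 4, 1, 0, 2, 1, 3, 2⟩ :=
  leaf_sound (S := T4.ds_pp) T4.ok_pp (w := 168) (c := ⟨⟨.negSucc 1295, .ofNat 18, .negSucc 65, .negSucc 359, .negSucc 8, .ofNat 168⟩, ⟨.negSucc 674, .negSucc 40, .negSucc 102, .negSucc 195, .negSucc 2, .ofNat 93⟩, ⟨.ofNat 1302, .ofNat 27, .ofNat 26, .negSucc 215, .negSucc 161, .negSucc 314⟩, ⟨.negSucc 1986, .ofNat 133, .negSucc 151, .negSucc 647, .ofNat 18, .ofNat 284⟩, ⟨.negSucc 12, .negSucc 91, .ofNat 131, .ofNat 182, .negSucc 57, .negSucc 51⟩, .ofNat 768, .negSucc 900, .ofNat 0, .negSucc 900, .ofNat 1883, .ofNat 0, .ofNat 283, .ofNat 456, .negSucc 489, .ofNat 0, .ofNat 322, .negSucc 237, .ofNat 0, .ofNat 0, .ofNat 1000, .ofNat 6682, .ofNat 0, .ofNat 0, .ofNat 0, .ofNat 0, .ofNat 0, .ofNat 0, .ofNat 4196467926055825856004096000, .ofNat 0, .ofNat 0, .ofNat 0, .ofNat 2285852403134244822869606400,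 .ofNat 0, .ofNat 0, .ofNat 0, .ofNat 0, .ofNat 0⟩)
    (by decide +kernel)
theorem L01076 : Good (Phi V4.P V4.D 1 1) ⟨4, 13, 3, 5, 1, 0, 2, 1, 3, 2⟩ :=
  out_sound (S := T4.ds_pp) T4.ok_pp (w := 56) (j := 3) (by decide +kernel)
theorem L01077 : Good (Phi V4.P V4.D 1 1) ⟨5, 26, 3, 4, 1, 0, 1, 0, 3, 3⟩ :=
  out_sound (S := T4.ds_pp) T4.ok_pp (w := 64) (j := 3) (by decide +kernel)
theorem L01078 : Good (Phi V4.P V4.D 1 1) ⟨5, 27, 3, 4, 1, 0, 2, 0, 3, 3⟩ :=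
  leaf_sound (S := T4.ds_pp) T4.ok_pp (w := 176) (c := ⟨⟨.negSucc 1210, .negSucc 108, .ofNat 56, .negSucc 234, .ofNat 57, .ofNat 139⟩, ⟨.negSucc 629, .negSucc 100, .negSucc 33, .negSucc 127, .ofNat 29, .ofNat 76⟩, ⟨.ofNat 1211, .negSucc 43, .ofNat 87, .negSucc 482, .negSucc 99, .negSucc 377⟩, ⟨.negSucc 1934, .negSucc 183, .ofNat 178, .negSucc 418, .ofNat 201, .ofNat 224⟩, ⟨.ofNat 131, .ofNat 129, .negSucc 135, .ofNat 112, .negSucc 208, .negSucc 21⟩, .ofNat 766, .negSucc 896, .ofNat 0, .negSucc 896, .ofNat 1879, .ofNat 0, .ofNat 251, .ofNat 399, .negSucc 327, .ofNat 0, .ofNat 284, .negSucc 155, .ofNat 0, .ofNat 0, .ofNat 919, .ofNat 26313, .ofNat 0, .ofNat 0, .ofNat 0, .ofNat 0, .ofNat 337896194701697818811832469133721600, .ofNat 0, .ofNat 0, .ofNat 0, .ofNat 261201997212106105355041405874995200, .ofNat 0, .ofNat 2852291755184833272427315200, .ofNat 0,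 .ofNat 784422612968020209736568294237798400, .ofNat 0, .ofNat 285084002938072096073318400, .ofNat 0⟩)
    (by decide +kernel)
theorem L01079 : Good (Phi V4.P V4.D 1 1) ⟨5, 27, 4, 8, 1, 0, 2, 1, 3, 3⟩ :=
  leaf_sound (S := T4.ds_pp) T4.ok_pp (w := 176) (c := ⟨⟨.negSucc 1058, .negSucc 264, .ofNat 100, .negSucc 374, .negSucc 79, .ofNat 159⟩, ⟨.negSucc 551, .negSucc 157, .ofNat 9, .negSucc 202, .negSucc 43, .ofNat 86⟩, ⟨.ofNat 925, .ofNat 115, .negSucc 32, .negSucc 304, .ofNat 36, .negSucc 252⟩, ⟨.negSucc 1578, .negSucc 585, .ofNat 284, .negSucc 636, .negSucc 127, .ofNat 261⟩, ⟨.negSucc 97, .ofNat 425, .negSucc 221, .ofNat 120, .ofNat 11, .negSucc 33⟩, .ofNat 3397, .negSucc 5611, .ofNat 0, .negSucc 5611, .ofNat 10450, .ofNat 0, .ofNat 125, .ofNat 439, .negSucc 339, .ofNat 0, .ofNat 257, .negSucc 181, .ofNat 0, .ofNat 0, .ofNat 874, .ofNat 7061, .ofNat 0,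 .ofNat 0, .ofNat 24344633965831491398860800, .ofNat 0, .ofNat 29424184299291309001987698406195200, .ofNat 0, .ofNat 11244988419127825047905894400, .ofNat 0, .ofNat 15712241823382534668509252891443200, .ofNat 0, .ofNat 9999085159537916395703500800, .ofNat 0, .ofNat 0, .ofNat 0, .ofNat 0, .ofNat 0⟩)
    (by decide +kernel)
theorem L01080 : Good (Phi V4.P V4.D 1 1) ⟨6, 54, 4, 9, 1, 0, 2, 1, 3, 3⟩ :=
  out_sound (S := T4.ds_pp) T4.ok_pp (w := 72) (j := 3) (by decide +kernel)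
theorem L01081 : Good (Phi V4.P V4.D 1 1) ⟨6, 55, 5, 18, 1, 0, 2, 1, 3, 3⟩ :=
  leaf_sound (S := T4.ds_pp) T4.ok_pp (w := 184) (c := ⟨⟨.negSucc 1169, .ofNat 2, .negSucc 41, .negSucc 351, .negSucc 50, .ofNat 217⟩, ⟨.negSucc 660, .negSucc 9, .negSucc 44, .negSucc 200, .negSucc 28, .ofNat 124⟩, ⟨.ofNat 1012, .ofNat 19, .ofNat 16, .negSucc 347, .ofNat 12, .negSucc 311⟩, ⟨.negSucc 1753, .ofNat 26, .negSucc 56, .negSucc 588, .negSucc 66, .ofNat 362⟩, ⟨.negSucc 18, .negSucc 25, .ofNat 13, .ofNat 106, .negSucc 15, .negSucc 62⟩, .ofNat 5759, .negSucc 9539, .ofNat 0, .negSucc 9539, .ofNat 16919, .ofNat 0, .ofNat 87, .ofNat 455, .negSucc 356, .ofNat 0, .ofNat 268, .negSucc 201, .ofNat 0, .ofNat 0, .ofNat 882, .ofNat 6799, .ofNat 0, .ofNat 0, .ofNat 0, .ofNat 0, .ofNat 6514364243838340548828877207633920000, .ofNat 0, .ofNat 17139969274614098632586035200, .ofNat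 0, .ofNat 0, .ofNat 0, .ofNat 0, .ofNat 0, .ofNat 0, .ofNat 0, .ofNat 0, .ofNat 0⟩)
    (by decide +kernel)
theorem L01082 : Good (Phi V4.P V4.D 1 1) ⟨7, 110, 5, 19, 1, 0, 2, 1, 3, 3⟩ :=
  out_sound (S := T4.ds_pp) T4.ok_pp (w := 80) (j := 3) (by decide +kernel)
theorem L01083 : Good (Phi V4.P V4.D 1 1) ⟨7, 111, 5, 19, 1, 0, 2, 1, 3, 3⟩ :=
  out_sound (S := T4.ds_pp) T4.ok_pp (w := 24) (j := 4) (by decide +kernel)
theorem L01084 : Good (Phi V4.P V4.D 1 1) ⟨4, 13, 3, 5, 1, 0, 1, 0, 3, 3⟩ :=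
  out_sound (S := T4.ds_pp) T4.ok_pp (w := 56) (j := 3) (by decide +kernel)
theorem L01085 : Good (Phi V4.P V4.D 1 1) ⟨3, 7, 2, 2, 1, 0, 1, 0, 2, 1⟩ :=
  out_sound (S := T4.ds_pp) T4.ok_pp (w := 16) (j := 4) (by decide +kernel)
theorem L01086 : Good (Phi V4.P V4.D 1 1) ⟨3, 6, 2, 3, 1, 0, 1, 0, 1, 0⟩ :=
  out_sound (S := T4.ds_pp) T4.ok_pp (w := 48) (j := 3) (by decide +kernel)
theorem L01087 : Good (Phi V4.P V4.D 1 1) ⟨3, 7, 2, 3, 1, 0, 1, 0, 1, 0⟩ :=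
  out_sound (S := T4.ds_pp) T4.ok_pp (w := 16) (j := 4) (by decide +kernel)
theorem L01088 : Good (Phi V4.P V4.D 1 1) ⟨2, 2, 1, 1, 2, 0, 2, 2, 2, 0⟩ :=
  out_sound (S := T4.ds_pp) T4.ok_pp (w := 40) (j := 3) (by decide +kernel)
theorem L01089 : Good (Phi V4.P V4.D 1 1) ⟨3, 6, 2, 2, 2, 0, 2, 2, 2, 0⟩ :=
  leaf_sound (S := T4.ds_pp) T4.ok_pp (w := 168) (c := ⟨⟨.negSucc 1190, .negSucc 209, .negSucc 122, .negSucc 146, .ofNat 79, .ofNat 19⟩, ⟨.negSucc 542, .negSucc 215, .negSucc 252, .negSucc 80, .ofNat 43, .ofNat 11⟩, ⟨.ofNat 986, .ofNat 270, .ofNat 158, .ofNat 57, .negSucc 336, .negSucc 149⟩, ⟨.negSucc 1908, .negSucc 225, .negSucc 91, .negSucc 206, .ofNat 154, .ofNat 32⟩, ⟨.ofNat 26, .negSucc 21, .ofNat 50, .negSucc 31, .negSucc 60, .negSucc 5⟩, .ofNat 774, .negSucc 908, .ofNat 0, .negSucc 908, .ofNat 1891, .ofNat 0, .ofNat 172, .ofNat 277, .negSucc 464,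 .ofNat 0, .ofNat 197, .negSucc 234, .ofNat 0, .ofNat 0, .ofNat 678, .ofNat 1192, .ofNat 0, .ofNat 0, .ofNat 218188476012021841487462400, .ofNat 0, .ofNat 0, .ofNat 0, .ofNat 0, .ofNat 0, .ofNat 0, .ofNat 0, .ofNat 0, .ofNat 0, .ofNat 0, .ofNat 0, .ofNat 0, .ofNat 0⟩)
    (by decide +kernel)
theorem L01090 : Good (Phi V4.P V4.D 1 1) ⟨3, 6, 2, 3, 2, 0, 2, 2, 2, 0⟩ :=
  out_sound (S := T4.ds_pp) T4.ok_pp (w := 48) (j := 3) (by decide +kernel)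
theorem L01091 : Good (Phi V4.P V4.D 1 1) ⟨3, 7, 1, 1, 2, 0, 2, 2, 2, 0⟩ :=
  out_sound (S := T4.ds_pp) T4.ok_pp (w := 16) (j := 4) (by decide +kernel)
theorem L01092 : Good (Phi V4.P V4.D 1 1) ⟨2, 2, 1, 1, 3, 0, 3, 6, 3, 0⟩ :=
  out_sound (S := T4.ds_pp) T4.ok_pp (w := 40) (j := 3) (by decide +kernel)
theorem L01093 : Good (Phi V4.P V4.D 1 1) ⟨3, 6, 1, 1, 3, 0, 3, 6, 3, 0⟩ :=
  leaf_sound (S := T4.ds_pp) T4.ok_pp (w := 184) (c := ⟨⟨.negSucc 911, .negSucc 429, .negSucc 382, .negSucc 84, .ofNat 17, .ofNat 0⟩, ⟨.negSucc 303, .negSucc 450, .negSucc 433, .negSucc 47, .ofNat 9, .ofNat 0⟩, ⟨.ofNat 419, .ofNat 417, .ofNat 394, .ofNat 60, .negSucc 140, .ofNat 53⟩, ⟨.negSucc 1520, .negSucc 500, .negSucc 431, .negSucc 79, .ofNat 34, .negSucc 8⟩, ⟨.negSucc 18, .ofNat 19, .ofNat 1, .negSucc 87, .negSucc 14, .ofNat 15⟩, .ofNat 773, .negSucc 906, .ofNat 0, .negSucc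 906, .ofNat 1888, .ofNat 0, .ofNat 394, .ofNat 627, .negSucc 1434, .ofNat 0, .ofNat 449, .negSucc 732, .ofNat 0, .ofNat 0, .ofNat 1804, .ofNat 6142, .ofNat 0, .ofNat 0, .ofNat 0, .ofNat 0, .ofNat 0, .ofNat 0, .ofNat 27466830181052699179439555503718400, .ofNat 0, .ofNat 0, .ofNat 0, .ofNat 16698411662208161714126916157440000, .ofNat 0, .ofNat 0, .ofNat 0, .ofNat 11469536617758292632794642251776000, .ofNat 0⟩)
    (by decide +kernel)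
theorem L01094 : Good (Phi V4.P V4.D 1 1) ⟨3, 7, 1, 1, 3, 0, 3, 6, 3, 0⟩ :=
  out_sound (S := T4.ds_pp) T4.ok_pp (w := 16) (j := 4) (by decide +kernel)
theorem L01095 : Good (Phi V4.P V4.D 1 1) ⟨2, 2, 1, 1, 3, 0, 3, 7, 3, 0⟩ :=
  out_sound (S := T4.ds_pp) T4.ok_pp (w := 40) (j := 3) (by decide +kernel)
theorem L01096 : Good (Phi V4.P V4.D 1 1) ⟨4, 12, 4, 8, 3, 0, 3, 7, 4, 0⟩ :=
  out_sound (S := T4.ds_pp) T4.ok_pp (w := 56) (j := 3) (by decide +kernel)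
theorem L01097 : Good (Phi V4.P V4.D 1 1) ⟨5, 26, 4, 8, 3, 0, 3, 7, 4, 0⟩ :=
  out_sound (S := T4.ds_pp) T4.ok_pp (w := 64) (j := 3) (by decide +kernel)
theorem L01098 : Good (Phi V4.P V4.D 1 1) ⟨6, 54, 4, 8, 3, 0, 3, 7, 4, 0⟩ :=
  leaf_sound (S := T4.ds_pp) T4.ok_pp (w := 208) (c := ⟨⟨.negSucc 1216, .negSucc 118, .negSucc 140, .negSucc 134, .negSucc 44, .ofNat 171⟩, ⟨.negSucc 634, .negSucc 80, .negSucc 115, .negSucc 74, .negSucc 24, .ofNat 93⟩, ⟨.ofNat 562, .ofNat 115, .ofNat 141, .ofNat 104, .negSucc 58, .negSucc 95⟩, ⟨.negSucc 1868, .negSucc 154, .negSucc 200, .negSucc 140, .negSucc 64, .ofNat 251⟩, ⟨.negSucc 9, .ofNat 4, .negSucc 4, .negSucc 117, .negSucc 4, .ofNat 17⟩, .ofNat 1705, .negSucc 2574, .ofNat 0, .negSucc 2574, .ofNat 4982, .ofNat 0, .ofNat 298, .ofNat 748, .negSucc 2126, .ofNat 0, .ofNat 459, .negSucc 1125, .ofNat 0, .ofNat 0, .ofNat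 2419, .ofNat 2294, .ofNat 0, .ofNat 0, .ofNat 0, .ofNat 0, .ofNat 0, .ofNat 0, .ofNat 0, .ofNat 0, .ofNat 0, .ofNat 0, .ofNat 0, .ofNat 0, .ofNat 0, .ofNat 0, .ofNat 46965525121972771930112746586112000, .ofNat 0⟩)
    (by decide +kernel)
theorem L01099 : Good (Phi V4.P V4.D 1 1) ⟨6, 55, 5, 16, 3, 0, 3, 7, 4, 0⟩ :=
  out_sound (S := T4.ds_pp) T4.ok_pp (w := 72) (j := 3) (by decide +kernel)
theorem L01100 : Good (Phi V4.P V4.D 1 1) ⟨6, 55, 5, 17, 3, 0, 3, 7, 4, 0⟩ :=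
  leaf_sound (S := T4.ds_pp) T4.ok_pp (w := 216) (c := ⟨⟨.negSucc 1270, .ofNat 180, .negSucc 108, .negSucc 166, .negSucc 219, .ofNat 157⟩, ⟨.negSucc 696, .ofNat 85, .negSucc 82, .negSucc 94, .negSucc 123, .ofNat 89⟩, ⟨.ofNat 614, .negSucc 166, .ofNat 110, .ofNat 129, .ofNat 118, .negSucc 81⟩, ⟨.negSucc 1922, .ofNat 288, .negSucc 151, .negSucc 187, .negSucc 326, .ofNat 227⟩, ⟨.negSucc 8, .ofNat 5, .negSucc 1, .negSucc 113, .negSucc 9, .ofNat 18⟩, .ofNat 9057, .negSucc 15466, .ofNat 0, .negSucc 15466, .ofNat 27585, .ofNat 0, .ofNat 140, .ofNat 794, .negSucc 2167, .ofNat 0, .ofNat 460, .negSucc 1218, .ofNat 0, .ofNat 0, .ofNat 2457, .ofNat 425, .ofNat 0, .ofNat 0, .ofNat 907970879217045789526375740211200, .ofNat 0, .ofNat 0, .ofNat 0, .ofNat 1010734395196737578274755557982208000, .ofNat 0, .ofNat 0, .ofNat 715682457336261566262473178069916975104000, .ofNat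 869136503742235740512001042520473600, .ofNat 0, .ofNat 0, .ofNat 2579234619356486874601926986088936426700800, .ofNat 109379911715639483653823109739315200, .ofNat 0⟩)
    (by decide +kernel)
theorem L01101 : Good (Phi V4.P V4.D 1 1) ⟨3, 7, 4, 8, 3, 0, 3, 7, 4, 0⟩ :=
  out_sound (S := T4.ds_pp) T4.ok_pp (w := 48) (j := 3) (by decide +kernel)
theorem L01102 : Good (Phi V4.P V4.D 1 1) ⟨4, 12, 4, 9, 3, 0, 3, 7, 4, 0⟩ :=
  out_sound (S := T4.ds_pp) T4.ok_pp (w := 56) (j := 3) (by decide +kernel)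
theorem L01103 : Good (Phi V4.P V4.D 1 1) ⟨5, 26, 4, 9, 3, 0, 3, 7, 4, 0⟩ :=
  out_sound (S := T4.ds_pp) T4.ok_pp (w := 64) (j := 3) (by decide +kernel)
theorem L01104 : Good (Phi V4.P V4.D 1 1) ⟨6, 54, 4, 9, 3, 0, 3, 7, 4, 0⟩ :=
  out_sound (S := T4.ds_pp) T4.ok_pp (w := 72) (j := 3) (by decide +kernel)
theorem L01105 : Good (Phi V4.P V4.D 1 1) ⟨6, 55, 4, 9, 3, 0, 4, 14, 4, 0⟩ :=
  leaf_sound (S := T4.ds_pp) T4.ok_pp (w := 216) (c := ⟨⟨.negSucc 1354, .negSucc 83, .negSucc 91, .negSucc 74, .negSucc 58, .ofNat 44⟩, ⟨.negSucc 762, .negSucc 76, .negSucc 81, .negSucc 42, .negSucc 33, .ofNat 25⟩, ⟨.ofNat 705, .ofNat 83, .ofNat 91, .ofNat 48, .ofNat 1, .ofNat 17⟩, ⟨.negSucc 2038, .negSucc 108, .negSucc 122, .negSucc 47, .negSucc 85, .ofNat 58⟩, ⟨.negSucc 11, .ofNat 6, .ofNat 9, .negSucc 111, .negSucc 4, .ofNat 14⟩, .ofNat 2242, .negSucc 3416, .ofNat 0, .negSucc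 3416, .ofNat 6233, .ofNat 0, .ofNat 960, .ofNat 3040, .negSucc 7640, .ofNat 0, .ofNat 1873, .negSucc 4278, .ofNat 0, .ofNat 0, .ofNat 8928, .ofNat 37362, .ofNat 0, .ofNat 0, .ofNat 0, .ofNat 0, .ofNat 0, .ofNat 0, .ofNat 0, .ofNat 0, .ofNat 0, .ofNat 0, .ofNat 0, .ofNat 0, .ofNat 0, .ofNat 0, .ofNat 0, .ofNat 0⟩)
    (by decide +kernel)
theorem L01106 : Good (Phi V4.P V4.D 1 1) ⟨7, 110, 5, 18, 3, 0, 4, 15, 4, 0⟩ :=
  leaf_sound (S := T4.ds_pp) T4.ok_pp (w := 224) (c := ⟨⟨.negSucc 1444, .negSucc 81, .ofNat 6, .negSucc 105, .negSucc 306, .ofNat 213⟩, ⟨.negSucc 813, .negSucc 59, .negSucc 14, .negSucc 60, .negSucc 174, .ofNat 122⟩, ⟨.ofNat 734, .ofNat 71, .ofNat 6, .ofNat 69, .ofNat 260, .negSucc 127⟩, ⟨.negSucc 2173, .negSucc 114, .ofNat 24, .negSucc 91, .negSucc 457, .ofNat 311⟩, ⟨.negSucc 14, .ofNat 7, .negSucc 3, .negSucc 117, .negSucc 4, .ofNat 17⟩,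 .ofNat 5701, .negSucc 9444, .ofNat 0, .negSucc 9444, .ofNat 16761, .ofNat 0, .ofNat 157, .ofNat 807, .negSucc 2703, .ofNat 0, .ofNat 476, .negSucc 1535, .ofNat 0, .ofNat 0, .ofNat 2944, .ofNat 2909, .ofNat 0, .ofNat 0, .ofNat 0, .ofNat 0, .ofNat 0, .ofNat 0, .ofNat 0, .ofNat 0, .ofNat 0, .ofNat 0, .ofNat 0, .ofNat 0, .ofNat 0, .ofNat 0, .ofNat 0, .ofNat 0⟩)
    (by decide +kernel)
theorem L01107 : Good (Phi V4.P V4.D 1 1) ⟨7, 111, 5, 18, 3, 0, 4, 15, 4, 0⟩ :=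
  out_sound (S := T4.ds_pp) T4.ok_pp (w := 24) (j := 4) (by decide +kernel)
theorem L01108 : Good (Phi V4.P V4.D 1 1) ⟨7, 110, 5, 19, 3, 0, 4, 15, 4, 0⟩ :=
  out_sound (S := T4.ds_pp) T4.ok_pp (w := 80) (j := 3) (by decide +kernel)
theorem L01109 : Good (Phi V4.P V4.D 1 1) ⟨7, 111, 5, 19, 3, 0, 4, 15, 4, 0⟩ :=
  out_sound (S := T4.ds_pp) T4.ok_pp (w := 24) (j := 4) (by decide +kernel)
theorem L01110 : Good (Phi V4.P V4.D 1 1) ⟨3, 7, 4, 9, 3, 0, 3, 7, 4, 0⟩ :=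
  out_sound (S := T4.ds_pp) T4.ok_pp (w := 16) (j := 4) (by decide +kernel)
theorem L01111 : Good (Phi V4.P V4.D 1 1) ⟨3, 6, 3, 5, 3, 0, 3, 7, 4, 0⟩ :=
  out_sound (S := T4.ds_pp) T4.ok_pp (w := 48) (j := 3) (by decide +kernel)
theorem L01112 : Good (Phi V4.P V4.D 1 1) ⟨3, 7, 3, 5, 3, 0, 3, 7, 4, 0⟩ :=
  out_sound (S := T4.ds_pp) T4.ok_pp (w := 16) (j := 4) (by decide +kernel)
theorem L01113 : Good (Phi V4.P V4.D 1 1) ⟨4, 12, 4, 8, 3, 0, 3, 7, 5, 2⟩ :=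
  out_sound (S := T4.ds_pp) T4.ok_pp (w := 56) (j := 3) (by decide +kernel)
theorem L01114 : Good (Phi V4.P V4.D 1 1) ⟨5, 26, 4, 8, 3, 0, 3, 7, 5, 2⟩ :=
  out_sound (S := T4.ds_pp) T4.ok_pp (w := 64) (j := 3) (by decide +kernel)
theorem L01115 : Good (Phi V4.P V4.D 1 1) ⟨5, 27, 4, 8, 3, 0, 4, 14, 5, 2⟩ :=
  leaf_sound (S := T4.ds_pp) T4.ok_pp (w := 216) (c := ⟨⟨.negSucc 1162, .negSucc 261, .negSucc 16, .negSucc 128, .ofNat 43, .ofNat 28⟩, ⟨.negSucc 607, .negSucc 159, .negSucc 53, .negSucc 70, .ofNat 23, .ofNat 15⟩, ⟨.ofNat 575, .ofNat 250, .ofNat 21, .ofNat 90, .negSucc 84, .negSucc 1⟩, ⟨.negSucc 1785, .negSucc 370, .negSucc 1, .negSucc 141, .ofNat 66, .ofNat 39⟩, ⟨.negSucc 8, .ofNat 24, .negSucc 9, .negSucc 98, .negSucc 1, .ofNat 6⟩, .ofNat 1732, .negSucc 2615, .ofNat 0, .negSucc 2615, .ofNat 5035, .ofNat 0, .ofNat 1094, .ofNat 2785, .negSucc 6959,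 .ofNat 0, .ofNat 1712, .negSucc 3702, .ofNat 0, .ofNat 0, .ofNat 8207, .ofNat 60684, .ofNat 0, .ofNat 0, .ofNat 0, .ofNat 0, .ofNat 0, .ofNat 0, .ofNat 1356840129082859082269046868194990489600, .ofNat 0, .ofNat 0, .ofNat 0, .ofNat 1045500317420004157915843610169625804800, .ofNat 0, .ofNat 0, .ofNat 0, .ofNat 925611460852017274148413897159842201600, .ofNat 0⟩)
    (by decide +kernel)
theorem L01116 : Good (Phi V4.P V4.D 1 1) ⟨5, 27, 4, 8, 3, 0, 5, 30, 5, 2⟩ :=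
  leaf_sound (S := T4.ds_pp) T4.ok_pp (w := 216) (c := ⟨⟨.negSucc 1086, .negSucc 243, .negSucc 89, .negSucc 175, .ofNat 39, .ofNat 57⟩, ⟨.negSucc 566, .negSucc 155, .negSucc 89, .negSucc 96, .ofNat 21, .ofNat 31⟩, ⟨.ofNat 453, .ofNat 244, .ofNat 88, .ofNat 133, .negSucc 55, .negSucc 24⟩, ⟨.negSucc 1670, .negSucc 324, .negSucc 121, .negSucc 213, .ofNat 60, .ofNat 83⟩, ⟨.negSucc 6, .ofNat 2, .negSucc 0, .negSucc 99, .negSucc 0, .ofNat 7⟩, .ofNat 750, .negSucc 873, .ofNat 0, .negSucc 873, .ofNat 1855, .ofNat 0, .ofNat 1686, .ofNat 2589, .negSucc 10024, .ofNat 0, .ofNat 1858, .negSucc 5048, .ofNat 0, .ofNat 0, .ofNat 10936, .ofNat 24236, .ofNat 0, .ofNat 0, .ofNat 0, .ofNat 0, .ofNat 0, .ofNat 0, .ofNat 0, .ofNat 0, .ofNat 0, .ofNat 0, .ofNat 0, .ofNat 0, .ofNat 0, .ofNat 0, .ofNat 7028645345657941493329920818060407603200, .ofNat 0⟩)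
    (by decide +kernel)
theorem L01117 : Good (Phi V4.P V4.D 1 1) ⟨6, 54, 4, 8, 3, 0, 5, 31, 5, 2⟩ :=
  leaf_sound (S := T4.ds_pp) T4.ok_pp (w := 216) (c := ⟨⟨.negSucc 1001, .negSucc 167, .negSucc 132, .negSucc 264, .ofNat 115, .ofNat 114⟩, ⟨.negSucc 521, .negSucc 103, .negSucc 106, .negSucc 144, .ofNat 62, .ofNat 62⟩, ⟨.ofNat 351, .ofNat 162, .ofNat 137, .ofNat 221, .negSucc 128, .negSucc 77⟩, ⟨.negSucc 1537, .negSucc 233, .negSucc 187, .negSucc 349, .ofNat 174, .ofNat 169⟩, ⟨.negSucc 10, .ofNat 12, .negSucc 13, .negSucc 98, .ofNat 1, .ofNat 7⟩, .ofNat 1690, .negSucc 2548, .ofNat 0, .negSucc 2548, .ofNat 4935, .ofNat 0, .ofNat 578, .ofNat 1441, .negSucc 5715, .ofNat 0, .ofNat 886, .negSucc 3026, .ofNat 0, .ofNat 0, .ofNat 6121, .ofNat 13846, .ofNat 0, .ofNat 0, .ofNat 0, .ofNat 0, .ofNat 0, .ofNat 0, .ofNat 0, .ofNat 0, .ofNat 0, .ofNat 0, .ofNat 0,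 .ofNat 0, .ofNat 0, .ofNat 133142086450643323093472886925649054898585600, .ofNat 0, .ofNat 0⟩)
    (by decide +kernel)
theorem L01118 : Good (Phi V4.P V4.D 1 1) ⟨6, 55, 4, 8, 3, 0, 5, 31, 5, 2⟩ :=
  leaf_sound (S := T4.ds_pp) T4.ok_pp (w := 224) (c := ⟨⟨.negSucc 1195, .negSucc 253, .negSucc 44, .negSucc 283, .ofNat 1, .ofNat 111⟩, ⟨.negSucc 645, .negSucc 168, .negSucc 53, .negSucc 159, .ofNat 1, .ofNat 62⟩, ⟨.ofNat 551, .ofNat 262, .ofNat 36, .ofNat 237, .negSucc 14, .negSucc 73⟩, ⟨.negSucc 1808, .negSucc 350, .negSucc 61, .negSucc 371, .ofNat 2, .ofNat 164⟩, ⟨.negSucc 20, .negSucc 13, .ofNat 17, .negSucc 98, .negSucc 1, .ofNat 6⟩, .ofNat 4652, .negSucc 7697, .ofNat 0, .negSucc 7697, .ofNat 13875, .ofNat 0, .ofNat 690, .ofNat 3037, .negSucc 11622, .ofNat 0, .ofNat 1787, .negSucc 6504, .ofNat 0, .ofNat 0, .ofNat 12422, .ofNat 18918, .ofNat 0, .ofNat 0,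 .ofNat 0, .ofNat 0, .ofNat 0, .ofNat 0, .ofNat 6771518000053202804331673140527628288000, .ofNat 0, .ofNat 0, .ofNat 0, .ofNat 0, .ofNat 0, .ofNat 0, .ofNat 541085026396993360404022581408223796920320000, .ofNat 2050788347058446559764232994826905190400, .ofNat 0⟩)
    (by decide +kernel)
theorem L01119 : Good (Phi V4.P V4.D 1 1) ⟨3, 7, 4, 8, 3, 0, 3, 7, 5, 2⟩ :=
  out_sound (S := T4.ds_pp) T4.ok_pp (w := 48) (j := 3) (by decide +kernel)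
theorem L01120 : Good (Phi V4.P V4.D 1 1) ⟨4, 12, 4, 9, 3, 0, 3, 7, 5, 2⟩ :=
  out_sound (S := T4.ds_pp) T4.ok_pp (w := 56) (j := 3) (by decide +kernel)
theorem L01121 : Good (Phi V4.P V4.D 1 1) ⟨5, 26, 4, 9, 3, 0, 3, 7, 5, 2⟩ :=
  out_sound (S := T4.ds_pp) T4.ok_pp (w := 64) (j := 3) (by decide +kernel)
theorem L01122 : Good (Phi V4.P V4.D 1 1) ⟨6, 54, 4, 9, 3, 0, 3, 7, 5, 2⟩ :=
  out_sound (S := T4.ds_pp) T4.ok_pp (w := 72) (j := 3) (by decide +kernel)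
theorem L01123 : Good (Phi V4.P V4.D 1 1) ⟨6, 55, 5, 18, 3, 0, 4, 14, 5, 2⟩ :=
  leaf_sound (S := T4.ds_pp) T4.ok_pp (w := 224) (c := ⟨⟨.negSucc 1314, .negSucc 51, .negSucc 64, .negSucc 135, .ofNat 4, .ofNat 38⟩, ⟨.negSucc 743, .negSucc 40, .negSucc 59, .negSucc 77, .ofNat 2, .ofNat 22⟩, ⟨.ofNat 724, .ofNat 48, .ofNat 67, .ofNat 93, .negSucc 44, .negSucc 9⟩, ⟨.negSucc 1979, .negSucc 70, .negSucc 79, .negSucc 149, .ofNat 8, .ofNat 54⟩, ⟨.negSucc 4, .ofNat 3, .negSucc 2, .negSucc 94, .negSucc 2, .ofNat 5⟩, .ofNat 5647, .negSucc 9353, .ofNat 0, .negSucc 9353, .ofNat 16610, .ofNat 0, .ofNat 579, .ofNat 2948, .negSucc 7285, .ofNat 0, .ofNat 1738, .negSucc 4134, .ofNat 0, .ofNat 0, .ofNat 8485, .ofNat 61254, .ofNat 0, .ofNat 0, .ofNat 0, .ofNat 0, .ofNat 0, .ofNat 0, .ofNat 1382290297828262382132449840383760793600, .ofNat 0, .ofNat 0, .ofNat 0, .ofNat 0, .ofNat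 0, .ofNat 0, .ofNat 0, .ofNat 757044151533944504324291228526968832000, .ofNat 0⟩)
    (by decide +kernel)
theorem L01124 : Good (Phi V4.P V4.D 1 1) ⟨7, 110, 5, 18, 3, 0, 4, 15, 5, 2⟩ :=
  leaf_sound (S := T4.ds_pp) T4.ok_pp (w := 224) (c := ⟨⟨.negSucc 1155, .negSucc 312, .ofNat 155, .negSucc 250, .negSucc 53, .ofNat 99⟩, ⟨.negSucc 649, .negSucc 191, .ofNat 73, .negSucc 143, .negSucc 30, .ofNat 57⟩, ⟨.ofNat 527, .ofNat 304, .negSucc 148, .ofNat 202, .ofNat 23, .negSucc 64⟩, ⟨.negSucc 1741, .negSucc 459, .ofNat 243, .negSucc 321, .negSucc 79, .ofNat 145⟩, ⟨.negSucc 7, .negSucc 0, .ofNat 3, .negSucc 95, .negSucc 2, .ofNat 7⟩, .ofNat 5734, .negSucc 9498, .ofNat 0, .negSucc 9498, .ofNat 16850, .ofNat 0, .ofNat 294, .ofNat 1515, .negSucc 5087, .ofNat 0, .ofNat 893, .negSucc 2890, .ofNat 0, .ofNat 0, .ofNat 5537, .ofNat 3339, .ofNat 0, .ofNat 0, .ofNat 0, .ofNat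 0, .ofNat 0, .ofNat 0, .ofNat 0, .ofNat 0, .ofNat 0, .ofNat 0, .ofNat 0, .ofNat 0, .ofNat 0, .ofNat 4578170556763069042083130137016846329996902400, .ofNat 21726738731535417316210508576273203200, .ofNat 0⟩)
    (by decide +kernel)
theorem L01125 : Good (Phi V4.P V4.D 1 1) ⟨7, 111, 5, 18, 3, 0, 4, 15, 5, 2⟩ :=
  out_sound (S := T4.ds_pp) T4.ok_pp (w := 24) (j := 4) (by decide +kernel)
theorem L01126 : Good (Phi V4.P V4.D 1 1) ⟨7, 110, 5, 19, 3, 0, 3, 7, 5, 2⟩ :=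
  out_sound (S := T4.ds_pp) T4.ok_pp (w := 80) (j := 3) (by decide +kernel)
theorem L01127 : Good (Phi V4.P V4.D 1 1) ⟨7, 111, 5, 19, 3, 0, 3, 7, 5, 2⟩ :=
  out_sound (S := T4.ds_pp) T4.ok_pp (w := 24) (j := 4) (by decide +kernel)
theorem L01128 : Good (Phi V4.P V4.D 1 1) ⟨3, 7, 4, 9, 3, 0, 3, 7, 5, 2⟩ :=
  out_sound (S := T4.ds_pp) T4.ok_pp (w := 16) (j := 4) (by decide +kernel)
theorem L01129 : Good (Phi V4.P V4.D 1 1) ⟨3, 6, 3, 5, 3, 0, 3, 7, 5, 2⟩ :=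
  out_sound (S := T4.ds_pp) T4.ok_pp (w := 48) (j := 3) (by decide +kernel)
theorem L01130 : Good (Phi V4.P V4.D 1 1) ⟨3, 7, 3, 5, 3, 0, 3, 7, 5, 2⟩ :=
  out_sound (S := T4.ds_pp) T4.ok_pp (w := 16) (j := 4) (by decide +kernel)
theorem L01131 : Good (Phi V4.P V4.D 1 1) ⟨4, 12, 2, 2, 3, 0, 3, 7, 5, 3⟩ :=
  out_sound (S := T4.ds_pp) T4.ok_pp (w := 56) (j := 3) (by decide +kernel)
theorem L01132 : Good (Phi V4.P V4.D 1 1) ⟨5, 26, 2, 2, 3, 0, 3, 7, 5, 3⟩ :=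
  out_sound (S := T4.ds_pp) T4.ok_pp (w := 56) (j := 3) (by decide +kernel)
theorem L01133 : Good (Phi V4.P V4.D 1 1) ⟨5, 27, 4, 8, 3, 0, 4, 14, 5, 3⟩ :=
  leaf_sound (S := T4.ds_pp) T4.ok_pp (w := 216) (c := ⟨⟨.negSucc 1121, .negSucc 210, .negSucc 43, .negSucc 163, .ofNat 61, .ofNat 20⟩, ⟨.negSucc 584, .negSucc 130, .negSucc 68, .negSucc 90, .ofNat 33, .ofNat 10⟩, ⟨.ofNat 557, .ofNat 219, .ofNat 39, .ofNat 118, .negSucc 95, .ofNat 4⟩, ⟨.negSucc 1724, .negSucc 277, .negSucc 51, .negSucc 198, .ofNat 94, .ofNat 28⟩, ⟨.negSucc 4, .negSucc 11, .ofNat 8, .negSucc 89, .negSucc 0, .ofNat 4⟩, .ofNat 1783, .negSucc 2697, .ofNat 0, .negSucc 2697, .ofNat 5159, .ofNat 0, .ofNat 1035, .ofNat 2700, .negSucc 6723, .ofNat 0, .ofNat 1659, .negSucc 3599, .ofNat 0, .ofNat 0, .ofNat 7932, .ofNat 55080, .ofNat 0, .ofNat 0, .ofNat 0, .ofNat 0, .ofNat 0, .ofNat 0, .ofNat 1371467798366208953965060236642562867200,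 .ofNat 0, .ofNat 0, .ofNat 0, .ofNat 1092527720867529040047669202496834764800, .ofNat 0, .ofNat 0, .ofNat 0, .ofNat 1015217580773781793048289128549554585600, .ofNat 0⟩)
    (by decide +kernel)
theorem L01134 : Good (Phi V4.P V4.D 1 1) ⟨6, 54, 4, 8, 3, 0, 4, 15, 5, 3⟩ :=
  leaf_sound (S := T4.ds_pp) T4.ok_pp (w := 216) (c := ⟨⟨.negSucc 986, .negSucc 354, .ofNat 141, .negSucc 300, .ofNat 216, .ofNat 94⟩, ⟨.negSucc 515, .negSucc 197, .ofNat 35, .negSucc 163, .ofNat 116, .ofNat 51⟩, ⟨.ofNat 385, .ofNat 351, .negSucc 136, .ofNat 253, .negSucc 239, .negSucc 61⟩, ⟨.negSucc 1515, .negSucc 520, .ofNat 230, .negSucc 410, .ofNat 328, .ofNat 140⟩, ⟨.negSucc 4, .ofNat 0, .negSucc 1, .negSucc 88, .ofNat 1, .ofNat 4⟩, .ofNat 1712, .negSucc 2585, .ofNat 0, .negSucc 2585, .ofNat 4997, .ofNat 0, .ofNat 273, .ofNat 688, .negSucc 2387, .ofNat 0, .ofNat 423, .negSucc 1266,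 .ofNat 0, .ofNat 0, .ofNat 2610, .ofNat 2868, .ofNat 0, .ofNat 0, .ofNat 0, .ofNat 0, .ofNat 0, .ofNat 0, .ofNat 0, .ofNat 0, .ofNat 0, .ofNat 0, .ofNat 0, .ofNat 0, .ofNat 0, .ofNat 16762224565863181440286558337173065773875200, .ofNat 4869618450794592862468115674850918400, .ofNat 0⟩)
    (by decide +kernel)
theorem L01135 : Good (Phi V4.P V4.D 1 1) ⟨6, 55, 4, 8, 3, 0, 4, 15, 5, 3⟩ :=
  leaf_sound (S := T4.ds_pp) T4.ok_pp (w := 216) (c := ⟨⟨.negSucc 837, .negSucc 82, .negSucc 362, .negSucc 381, .ofNat 107, .ofNat 101⟩, ⟨.negSucc 443, .negSucc 70, .negSucc 232, .negSucc 215, .ofNat 60, .ofNat 57⟩, ⟨.ofNat 246, .ofNat 86, .ofNat 353, .ofNat 329, .negSucc 132, .negSucc 69⟩, ⟨.negSucc 1277, .negSucc 104, .negSucc 529, .negSucc 525, .ofNat 162, .ofNat 149⟩, ⟨.negSucc 5, .ofNat 1, .negSucc 0, .negSucc 87, .ofNat 0, .ofNat 6⟩, .ofNat 4702, .negSucc 7780, .ofNat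 0, .negSucc 7780, .ofNat 14010, .ofNat 0, .ofNat 164, .ofNat 728, .negSucc 2517, .ofNat 0, .ofNat 428, .negSucc 1409, .ofNat 0, .ofNat 0, .ofNat 2729, .ofNat 3134, .ofNat 0, .ofNat 0, .ofNat 0, .ofNat 0, .ofNat 0, .ofNat 0, .ofNat 47153850381511990545640512430905753600, .ofNat 0, .ofNat 0, .ofNat 0, .ofNat 0, .ofNat 0, .ofNat 0, .ofNat 8539530100889093033897956969264612324147200, .ofNat 19405176552448559301506147495077478400, .ofNat 0⟩)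
    (by decide +kernel)
theorem L01136 : Good (Phi V4.P V4.D 1 1) ⟨6, 54, 4, 9, 3, 0, 3, 7, 5, 3⟩ :=
  out_sound (S := T4.ds_pp) T4.ok_pp (w := 72) (j := 3) (by decide +kernel)
theorem L01137 : Good (Phi V4.P V4.D 1 1) ⟨6, 55, 4, 9, 3, 0, 4, 14, 5, 3⟩ :=
  leaf_sound (S := T4.ds_pp) T4.ok_pp (w := 224) (c := ⟨⟨.negSucc 1265, .negSucc 80, .negSucc 78, .negSucc 180, .ofNat 25, .ofNat 33⟩, ⟨.negSucc 712, .negSucc 73, .negSucc 72, .negSucc 103, .ofNat 14, .ofNat 19⟩, ⟨.ofNat 702, .ofNat 80, .ofNat 74, .ofNat 131, .negSucc 57, .negSucc 9⟩, ⟨.negSucc 1907, .negSucc 100, .negSucc 102, .negSucc 222, .ofNat 39, .ofNat 47⟩, ⟨.negSucc 5, .negSucc 0, .ofNat 6, .negSucc 86, .negSucc 1, .ofNat 5⟩, .ofNat 5788, .negSucc 9588, .ofNat 0, .negSucc 9588, .ofNat 16999, .ofNat 0, .ofNat 549, .ofNat 2854, .negSucc 7083, .ofNat 0, .ofNat 1683, .negSucc 4026, .ofNat 0, .ofNat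 0, .ofNat 8238, .ofNat 14677, .ofNat 0, .ofNat 0, .ofNat 0, .ofNat 0, .ofNat 0, .ofNat 0, .ofNat 680514081028531059397878751178627481600, .ofNat 0, .ofNat 0, .ofNat 0, .ofNat 0, .ofNat 0, .ofNat 0, .ofNat 0, .ofNat 0, .ofNat 0⟩)
    (by decide +kernel)
theorem L01138 : Good (Phi V4.P V4.D 1 1) ⟨7, 110, 4, 9, 3, 0, 4, 15, 5, 3⟩ :=
  leaf_sound (S := T4.ds_pp) T4.ok_pp (w := 224) (c := ⟨⟨.negSucc 1113, .negSucc 132, .negSucc 79, .negSucc 366, .ofNat 59, .ofNat 83⟩, ⟨.negSucc 623, .negSucc 96, .negSucc 57, .negSucc 209, .ofNat 34, .ofNat 47⟩, ⟨.ofNat 512, .ofNat 136, .ofNat 72, .ofNat 316, .negSucc 83, .negSucc 51⟩, ⟨.negSucc 1682, .negSucc 182, .negSucc 116, .negSucc 500, .ofNat 89, .ofNat 122⟩, ⟨.negSucc 2, .negSucc 3, .ofNat 7, .negSucc 90, .negSucc 0, .ofNat 5⟩, .ofNat 2227, .negSucc 3392, .ofNat 0, .negSucc 3392, .ofNat 6196, .ofNat 0, .ofNat 452,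 .ofNat 1425, .negSucc 5181, .ofNat 0, .ofNat 878, .negSucc 2900, .ofNat 0, .ofNat 0, .ofNat 5596, .ofNat 2884, .ofNat 0, .ofNat 0, .ofNat 0, .ofNat 0, .ofNat 0, .ofNat 0, .ofNat 0, .ofNat 0, .ofNat 0, .ofNat 0, .ofNat 0, .ofNat 0, .ofNat 0, .ofNat 720882384559080526794957090729038820723916800, .ofNat 5918909024628182348955891796436582400, .ofNat 0⟩)
    (by decide +kernel)
theorem L01139 : Good (Phi V4.P V4.D 1 1) ⟨7, 111, 4, 9, 3, 0, 4, 15, 5, 3⟩ :=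
  out_sound (S := T4.ds_pp) T4.ok_pp (w := 24) (j := 4) (by decide +kernel)
theorem L01140 : Good (Phi V4.P V4.D 1 1) ⟨5, 27, 3, 5, 3, 0, 3, 7, 5, 3⟩ :=
  out_sound (S := T4.ds_pp) T4.ok_pp (w := 64) (j := 3) (by decide +kernel)
theorem L01141 : Good (Phi V4.P V4.D 1 1) ⟨3, 7, 2, 2, 3, 0, 3, 7, 5, 3⟩ :=
  out_sound (S := T4.ds_pp) T4.ok_pp (w := 16) (j := 4) (by decide +kernel)
theorem L01142 : Good (Phi V4.P V4.D 1 1) ⟨3, 6, 2, 3, 3, 0, 3, 7, 3, 0⟩ :=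
  out_sound (S := T4.ds_pp) T4.ok_pp (w := 48) (j := 3) (by decide +kernel)
theorem L01143 : Good (Phi V4.P V4.D 1 1) ⟨3, 7, 2, 3, 3, 0, 3, 7, 3, 0⟩ :=
  out_sound (S := T4.ds_pp) T4.ok_pp (w := 16) (j := 4) (by decide +kernel)
theorem L01144 : Good (Phi V4.P V4.D 1 1) ⟨2, 2, 1, 1, 3, 1, 3, 6, 3, 0⟩ :=
  out_sound (S := T4.ds_pp) T4.ok_pp (w := 40) (j := 3) (by decide +kernel)
theorem L01145 : Good (Phi V4.P V4.D 1 1) ⟨3, 6, 1, 1, 3, 1, 3, 6, 3, 0⟩ :=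
  leaf_sound (S := T4.ds_pp) T4.ok_pp (w := 184) (c := ⟨⟨.negSucc 925, .negSucc 470, .negSucc 340, .negSucc 66, .ofNat 12, .negSucc 75⟩, ⟨.negSucc 302, .negSucc 485, .negSucc 414, .negSucc 36, .ofNat 6, .negSucc 41⟩, ⟨.ofNat 473, .ofNat 424, .ofNat 313, .ofNat 12, .negSucc 141, .ofNat 72⟩, ⟨.negSucc 1499, .negSucc 552, .negSucc 362, .negSucc 84, .ofNat 37, .negSucc 139⟩, ⟨.negSucc 131, .ofNat 37, .ofNat 21, .negSucc 29, .negSucc 33, .ofNat 44⟩, .ofNat 773, .negSucc 907, .ofNat 0, .negSucc 907, .ofNat 1891, .ofNat 0, .ofNat 394, .ofNat 638, .negSucc 1369, .ofNat 0, .ofNat 453, .negSucc 691, .ofNat 0, .ofNat 0, .ofNat 1728, .ofNat 3020, .ofNat 0, .ofNat 0, .ofNat 0, .ofNat 0, .ofNat 0, .ofNat 0, .ofNat 0, .ofNat 0, .ofNat 0, .ofNat 0, .ofNat 17899285537368028711652698777190400, .ofNat 0, .ofNat 0, .ofNat 0, .ofNat 13011750511358290916601753501696000, .ofNat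 0⟩)
    (by decide +kernel)
theorem L01146 : Good (Phi V4.P V4.D 1 1) ⟨3, 7, 1, 1, 3, 1, 3, 6, 3, 0⟩ :=
  out_sound (S := T4.ds_pp) T4.ok_pp (w := 16) (j := 4) (by decide +kernel)
theorem L01147 : Good (Phi V4.P V4.D 1 1) ⟨2, 2, 2, 2, 3, 1, 4, 14, 3, 0⟩ :=
  out_sound (S := T4.ds_pp) T4.ok_pp (w := 40) (j := 3) (by decide +kernel)
theorem L01148 : Good (Phi V4.P V4.D 1 1) ⟨3, 6, 2, 2, 3, 1, 4, 14, 3, 0⟩ :=
  leaf_sound (S := T4.ds_pp) T4.ok_pp (w := 192) (c := ⟨⟨.negSucc 1057, .negSucc 248, .negSucc 458, .negSucc 82, .negSucc 13, .negSucc 64⟩, ⟨.negSucc 476, .negSucc 230, .negSucc 439, .negSucc 45, .negSucc 7, .negSucc 34⟩, ⟨.ofNat 428, .ofNat 220, .ofNat 438, .ofNat 16, .negSucc 36, .ofNat 130⟩, ⟨.negSucc 1616, .negSucc 297, .negSucc 568, .negSucc 100, .negSucc 15, .negSucc 133⟩, ⟨.negSucc 150, .ofNat 13, .ofNat 23, .negSucc 43, .negSucc 8, .ofNat 67⟩,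 .ofNat 772, .negSucc 906, .ofNat 0, .negSucc 906, .ofNat 1889, .ofNat 0, .ofNat 828, .ofNat 1338, .negSucc 3813, .ofNat 0, .ofNat 950, .negSucc 1942, .ofNat 0, .ofNat 0, .ofNat 4353, .ofNat 4191, .ofNat 0, .ofNat 0, .ofNat 0, .ofNat 0, .ofNat 0, .ofNat 0, .ofNat 0, .ofNat 0, .ofNat 0, .ofNat 0, .ofNat 1549356353374760739168259977039052800, .ofNat 0, .ofNat 0, .ofNat 0, .ofNat 902269319211756682926792561288806400, .ofNat 0⟩)
    (by decide +kernel)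
theorem L01149 : Good (Phi V4.P V4.D 1 1) ⟨3, 7, 2, 2, 3, 1, 4, 14, 3, 0⟩ :=
  out_sound (S := T4.ds_pp) T4.ok_pp (w := 16) (j := 4) (by decide +kernel)
theorem L01150 : Good (Phi V4.P V4.D 1 1) ⟨2, 2, 2, 2, 3, 1, 4, 15, 3, 0⟩ :=
  out_sound (S := T4.ds_pp) T4.ok_pp (w := 40) (j := 3) (by decide +kernel)
theorem L01151 : Good (Phi V4.P V4.D 1 1) ⟨4, 12, 2, 2, 3, 1, 4, 15, 3, 0⟩ :=
  out_sound (S := T4.ds_pp) T4.ok_pp (w := 56) (j := 3) (by decide +kernel)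
theorem L01152 : Good (Phi V4.P V4.D 1 1) ⟨5, 26, 3, 4, 3, 1, 4, 15, 3, 0⟩ :=
  out_sound (S := T4.ds_pp) T4.ok_pp (w := 64) (j := 3) (by decide +kernel)

end Crest.Agent.R097C4.N4pp
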