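import Crest.Agent.R097.T4

/-!
# Row 97, box cover in dimension n = 4 (generated)
-/

set_option autoImplicit false
set_option Elab.async false
set_option maxHeartbeats 0
set_option maxRecDepth 100000

open Crest.Agent.R097 Crest.Agent.R097.KA


namespace Crest.Agent.R097C4.N4pp

theorem L01153 : Good (Phi V4.P V4.D 1 1) ⟨6, 54, 4, 8, 3, 1, 4, 15, 3, 0⟩ :=
  leaf_sound (S := T4.ds_pp) T4.ok_pp (w := 208) (c := ⟨⟨.negSucc 1189, .negSucc 135, .negSucc 131, .negSucc 166, .ofNat 32, .ofNat 1⟩, ⟨.negSucc 621, .negSucc 88, .negSucc 111, .negSucc 89, .ofNat 16, .ofNat 1⟩, ⟨.ofNat 465, .ofNat 157, .ofNat 96, .ofNat 95, .negSucc 71, .ofNat 110⟩, ⟨.negSucc 1755, .negSucc 172, .negSucc 190, .negSucc 227, .ofNat 52, .negSucc 37⟩, ⟨.negSucc 146, .ofNat 2, .negSucc 1, .negSucc 49, .negSucc 3, .ofNat 74⟩, .ofNat 1678, .negSucc 2531, .ofNat 0, .negSucc 2531, .ofNat 4912,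 .ofNat 0, .ofNat 294, .ofNat 739, .negSucc 2485, .ofNat 0, .ofNat 453, .negSucc 1312, .ofNat 0, .ofNat 0, .ofNat 2686, .ofNat 916, .ofNat 0, .ofNat 0, .ofNat 0, .ofNat 0, .ofNat 0, .ofNat 0, .ofNat 0, .ofNat 0, .ofNat 0, .ofNat 0, .ofNat 0, .ofNat 0, .ofNat 0, .ofNat 1029588396070103240126458061354007999283200, .ofNat 0, .ofNat 0⟩)
    (by decide +kernel)
theorem L01154 : Good (Phi V4.P V4.D 1 1) ⟨6, 54, 4, 9, 3, 1, 4, 15, 3, 0⟩ :=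
  out_sound (S := T4.ds_pp) T4.ok_pp (w := 72) (j := 3) (by decide +kernel)
theorem L01155 : Good (Phi V4.P V4.D 1 1) ⟨6, 55, 4, 8, 3, 1, 4, 15, 3, 0⟩ :=
  leaf_sound (S := T4.ds_pp) T4.ok_pp (w := 208) (c := ⟨⟨.negSucc 1278, .negSucc 210, .negSucc 60, .negSucc 111, .negSucc 229, .negSucc 95⟩, ⟨.negSucc 690, .negSucc 148, .negSucc 64, .negSucc 63, .negSucc 129, .negSucc 52⟩, ⟨.ofNat 532, .ofNat 163, .ofNat 89, .ofNat 39, .ofNat 180, .ofNat 197⟩, ⟨.negSucc 1863, .negSucc 292, .negSucc 74, .negSucc 143, .negSucc 344, .negSucc 184⟩, ⟨.negSucc 153, .ofNat 3, .ofNat 6, .negSucc 44, .negSucc 3, .ofNat 73⟩, .ofNat 4685, .negSucc 7752, .ofNat 0, .negSucc 7752, .ofNat 13966, .ofNat 0, .ofNat 174, .ofNat 783, .negSucc 2467, .ofNat 0, .ofNat 460, .negSucc 1381, .ofNat 0, .ofNat 0, .ofNat 2665, .ofNat 881, .ofNat 0, .ofNat 0, .ofNat 0, .ofNat 0, .ofNat 0, .ofNat 0, .ofNat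 176822939350007382502870647570432000, .ofNat 0, .ofNat 0, .ofNat 0, .ofNat 0, .ofNat 0, .ofNat 0, .ofNat 982467113181656706494592495407055293644800, .ofNat 40565994286652613157276716997017600, .ofNat 0⟩)
    (by decide +kernel)
theorem L01156 : Good (Phi V4.P V4.D 1 1) ⟨7, 110, 5, 18, 3, 1, 4, 15, 3, 0⟩ :=
  leaf_sound (S := T4.ds_pp) T4.ok_pp (w := 216) (c := ⟨⟨.negSucc 1277, .negSucc 47, .negSucc 240, .negSucc 80, .negSucc 352, .negSucc 110⟩, ⟨.negSucc 716, .negSucc 43, .negSucc 153, .negSucc 45, .negSucc 202, .negSucc 62⟩, ⟨.ofNat 549, .ofNat 49, .ofNat 236, .ofNat 8, .ofNat 301, .ofNat 218⟩, ⟨.negSucc 1853, .negSucc 54, .negSucc 351, .negSucc 92, .negSucc 523, .negSucc 203⟩, ⟨.negSucc 136, .negSucc 5, .ofNat 4, .negSucc 48, .negSucc 10, .ofNat 66⟩, .ofNat 5811, .negSucc 9625, .ofNat 0, .negSucc 9625, .ofNat 17060, .ofNat 0, .ofNat 150, .ofNat 793, .negSucc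 2603, .ofNat 0, .ofNat 467, .negSucc 1480, .ofNat 0, .ofNat 0, .ofNat 2790, .ofNat 755, .ofNat 0, .ofNat 0, .ofNat 0, .ofNat 0, .ofNat 0, .ofNat 0, .ofNat 0, .ofNat 0, .ofNat 0, .ofNat 0, .ofNat 0, .ofNat 0, .ofNat 0, .ofNat 59776534666852661498998378143784036309401600, .ofNat 0, .ofNat 0⟩)
    (by decide +kernel)
theorem L01157 : Good (Phi V4.P V4.D 1 1) ⟨7, 111, 5, 18, 3, 1, 4, 15, 3, 0⟩ :=
  out_sound (S := T4.ds_pp) T4.ok_pp (w := 24) (j := 4) (by decide +kernel)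
theorem L01158 : Good (Phi V4.P V4.D 1 1) ⟨7, 110, 5, 19, 3, 1, 4, 15, 3, 0⟩ :=
  out_sound (S := T4.ds_pp) T4.ok_pp (w := 80) (j := 3) (by decide +kernel)
theorem L01159 : Good (Phi V4.P V4.D 1 1) ⟨7, 111, 5, 19, 3, 1, 4, 15, 3, 0⟩ :=
  out_sound (S := T4.ds_pp) T4.ok_pp (w := 24) (j := 4) (by decide +kernel)
theorem L01160 : Good (Phi V4.P V4.D 1 1) ⟨4, 13, 3, 5, 3, 1, 4, 15, 3, 0⟩ :=
  out_sound (S := T4.ds_pp) T4.ok_pp (w := 56) (j := 3) (by decide +kernel)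
theorem L01161 : Good (Phi V4.P V4.D 1 1) ⟨3, 7, 2, 2, 3, 1, 4, 15, 3, 0⟩ :=
  out_sound (S := T4.ds_pp) T4.ok_pp (w := 16) (j := 4) (by decide +kernel)
theorem L01162 : Good (Phi V4.P V4.D 1 1) ⟨2, 2, 2, 3, 3, 1, 3, 7, 3, 0⟩ :=
  out_sound (S := T4.ds_pp) T4.ok_pp (w := 40) (j := 3) (by decide +kernel)
theorem L01163 : Good (Phi V4.P V4.D 1 1) ⟨3, 6, 2, 3, 3, 1, 3, 7, 3, 0⟩ :=
  out_sound (S := T4.ds_pp) T4.ok_pp (w := 48) (j := 3) (by decide +kernel)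
theorem L01164 : Good (Phi V4.P V4.D 1 1) ⟨3, 7, 2, 3, 3, 1, 3, 7, 3, 0⟩ :=
  out_sound (S := T4.ds_pp) T4.ok_pp (w := 16) (j := 4) (by decide +kernel)
theorem L01165 : Good (Phi V4.P V4.D 1 1) ⟨2, 2, 1, 1, 2, 0, 3, 6, 3, 1⟩ :=
  out_sound (S := T4.ds_pp) T4.ok_pp (w := 40) (j := 3) (by decide +kernel)
theorem L01166 : Good (Phi V4.P V4.D 1 1) ⟨3, 6, 1, 1, 2, 0, 3, 6, 3, 1⟩ :=
  leaf_sound (S := T4.ds_pp) T4.ok_pp (w := 168) (c := ⟨⟨.negSucc 800, .negSucc 429, .negSucc 436, .negSucc 385, .ofNat 7, .ofNat 56⟩, ⟨.negSucc 240, .negSucc 451, .negSucc 470, .negSucc 213, .ofNat 3, .ofNat 30⟩, ⟨.ofNat 378, .ofNat 409, .ofNat 443, .ofNat 220, .negSucc 71, .negSucc 30⟩, ⟨.negSucc 1340, .negSucc 498, .negSucc 505, .negSucc 542, .ofNat 14, .ofNat 71⟩, ⟨.negSucc 40, .ofNat 13, .ofNat 1, .negSucc 74, .negSucc 2, .ofNat 26⟩, .ofNat 774, .negSucc 908, .ofNat 0, .negSucc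 908, .ofNat 1891, .ofNat 0, .ofNat 174, .ofNat 279, .negSucc 613, .ofNat 0, .ofNat 199, .negSucc 312, .ofNat 0, .ofNat 0, .ofNat 776, .ofNat 1197, .ofNat 0, .ofNat 0, .ofNat 148747308259967184550861209600, .ofNat 0, .ofNat 0, .ofNat 0, .ofNat 0, .ofNat 0, .ofNat 0, .ofNat 0, .ofNat 7780182702633967893160447180800, .ofNat 0, .ofNat 0, .ofNat 0, .ofNat 6860858086292825388697937510400, .ofNat 0⟩)
    (by decide +kernel)
theorem L01167 : Good (Phi V4.P V4.D 1 1) ⟨3, 7, 1, 1, 2, 0, 3, 6, 3, 1⟩ :=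
  out_sound (S := T4.ds_pp) T4.ok_pp (w := 16) (j := 4) (by decide +kernel)
theorem L01168 : Good (Phi V4.P V4.D 1 1) ⟨2, 2, 1, 1, 2, 0, 4, 14, 3, 1⟩ :=
  out_sound (S := T4.ds_pp) T4.ok_pp (w := 40) (j := 3) (by decide +kernel)
theorem L01169 : Good (Phi V4.P V4.D 1 1) ⟨3, 6, 2, 2, 2, 0, 4, 14, 3, 1⟩ :=
  leaf_sound (S := T4.ds_pp) T4.ok_pp (w := 176) (c := ⟨⟨.negSucc 548, .negSucc 519, .negSucc 489, .negSucc 548, .negSucc 21, .negSucc 3⟩, ⟨.negSucc 219, .negSucc 348, .negSucc 459, .negSucc 302, .negSucc 12, .negSucc 3⟩, ⟨.ofNat 30, .ofNat 518, .ofNat 457, .ofNat 389, .negSucc 1, .ofNat 75⟩, ⟨.negSucc 882, .negSucc 733, .negSucc 623, .negSucc 784, .negSucc 29, .negSucc 14⟩, ⟨.negSucc 36, .ofNat 11, .ofNat 14, .negSucc 85, .negSucc 1, .ofNat 19⟩, .ofNat 767, .negSucc 898, .ofNat 0, .negSucc 898, .ofNat 1880, .ofNat 0, .ofNat 183, .ofNat 291, .negSucc 864,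 .ofNat 0, .ofNat 208, .negSucc 440, .ofNat 0, .ofNat 0, .ofNat 986, .ofNat 344, .ofNat 0, .ofNat 0, .ofNat 989145827351966013705525657600, .ofNat 0, .ofNat 0, .ofNat 0, .ofNat 0, .ofNat 0, .ofNat 0, .ofNat 0, .ofNat 0, .ofNat 0, .ofNat 0, .ofNat 0, .ofNat 89067519071841161045519577907200, .ofNat 0⟩)
    (by decide +kernel)
theorem L01170 : Good (Phi V4.P V4.D 1 1) ⟨3, 6, 2, 3, 2, 0, 4, 14, 3, 1⟩ :=
  out_sound (S := T4.ds_pp) T4.ok_pp (w := 48) (j := 3) (by decide +kernel)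
theorem L01171 : Good (Phi V4.P V4.D 1 1) ⟨3, 7, 1, 1, 2, 0, 4, 14, 3, 1⟩ :=
  out_sound (S := T4.ds_pp) T4.ok_pp (w := 16) (j := 4) (by decide +kernel)
theorem L01172 : Good (Phi V4.P V4.D 1 1) ⟨2, 2, 1, 1, 2, 0, 4, 15, 3, 1⟩ :=
  out_sound (S := T4.ds_pp) T4.ok_pp (w := 40) (j := 3) (by decide +kernel)
theorem L01173 : Good (Phi V4.P V4.D 1 1) ⟨4, 12, 2, 2, 2, 0, 4, 15, 3, 1⟩ :=
  out_sound (S := T4.ds_pp) T4.ok_pp (w := 56) (j := 3) (by decide +kernel)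
theorem L01174 : Good (Phi V4.P V4.D 1 1) ⟨5, 26, 2, 2, 3, 0, 4, 15, 3, 1⟩ :=
  out_sound (S := T4.ds_pp) T4.ok_pp (w := 56) (j := 3) (by decide +kernel)
theorem L01175 : Good (Phi V4.P V4.D 1 1) ⟨5, 27, 4, 8, 3, 0, 5, 30, 3, 1⟩ :=
  leaf_sound (S := T4.ds_pp) T4.ok_pp (w := 208) (c := ⟨⟨.negSucc 853, .negSucc 450, .ofNat 27, .negSucc 413, .ofNat 64, .ofNat 117⟩, ⟨.negSucc 441, .negSucc 265, .negSucc 21, .negSucc 225, .ofNat 34, .ofNat 63⟩, ⟨.ofNat 290, .ofNat 425, .negSucc 15, .ofNat 357, .negSucc 72, .negSucc 23⟩, ⟨.negSucc 1310, .negSucc 667, .ofNat 65, .negSucc 590, .ofNat 98, .ofNat 171⟩, ⟨.negSucc 12, .ofNat 38, .negSucc 18, .negSucc 71, .ofNat 1, .ofNat 14⟩, .ofNat 1755, .negSucc 2653, .ofNat 0, .negSucc 2653, .ofNat 5097, .ofNat 0, .ofNat 492, .ofNat 1267, .negSucc 3934, .ofNat 0, .ofNat 778, .negSucc 2099, .ofNat 0, .ofNat 0, .ofNat 4387, .ofNat 5704,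 .ofNat 0, .ofNat 0, .ofNat 0, .ofNat 0, .ofNat 0, .ofNat 0, .ofNat 9380291091980239629556649585698406400, .ofNat 0, .ofNat 0, .ofNat 0, .ofNat 0, .ofNat 0, .ofNat 0, .ofNat 0, .ofNat 6230254567888571940100795572368179200, .ofNat 0⟩)
    (by decide +kernel)
theorem L01176 : Good (Phi V4.P V4.D 1 1) ⟨6, 54, 4, 8, 3, 0, 5, 31, 3, 1⟩ :=
  leaf_sound (S := T4.ds_pp) T4.ok_pp (w := 208) (c := ⟨⟨.negSucc 637, .negSucc 88, .negSucc 155, .negSucc 701, .ofNat 199, .ofNat 122⟩, ⟨.negSucc 328, .negSucc 66, .negSucc 102, .negSucc 380, .ofNat 107, .ofNat 66⟩, ⟨.ofNat 61, .ofNat 96, .ofNat 148, .ofNat 644, .negSucc 205, .negSucc 24⟩, ⟨.negSucc 981, .negSucc 99, .negSucc 246, .negSucc 1031, .ofNat 302, .ofNat 179⟩, ⟨.negSucc 8, .negSucc 16, .ofNat 16, .negSucc 67, .ofNat 4, .ofNat 15⟩, .ofNat 1714, .negSucc 2588, .ofNat 0, .negSucc 2588, .ofNat 4995, .ofNat 0, .ofNat 501,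 .ofNat 1266, .negSucc 4951, .ofNat 0, .ofNat 778, .negSucc 2631, .ofNat 0, .ofNat 0, .ofNat 5313, .ofNat 5081, .ofNat 0, .ofNat 0, .ofNat 0, .ofNat 0, .ofNat 0, .ofNat 0, .ofNat 0, .ofNat 0, .ofNat 0, .ofNat 0, .ofNat 0, .ofNat 0, .ofNat 0, .ofNat 7879591032728468968819741651193725924147200, .ofNat 0, .ofNat 0⟩)
    (by decide +kernel)
theorem L01177 : Good (Phi V4.P V4.D 1 1) ⟨6, 55, 4, 8, 3, 0, 5, 31, 3, 1⟩ :=
  leaf_sound (S := T4.ds_pp) T4.ok_pp (w := 216) (c := ⟨⟨.negSucc 1286, .negSucc 724, .ofNat 537, .negSucc 741, .ofNat 164, .ofNat 167⟩, ⟨.negSucc 701, .negSucc 429, .ofNat 279, .negSucc 418, .ofNat 92, .ofNat 94⟩, ⟨.ofNat 702, .ofNat 713, .negSucc 528, .ofNat 682, .negSucc 168, .negSucc 66⟩, ⟨.negSucc 1954, .negSucc 1074, .ofNat 829, .negSucc 1078, .ofNat 247, .ofNat 244⟩, ⟨.negSucc 0, .negSucc 2, .negSucc 8, .negSucc 71, .ofNat 1, .ofNat 14⟩, .ofNat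 4679, .negSucc 7742, .ofNat 0, .negSucc 7742, .ofNat 13948, .ofNat 0, .ofNat 152, .ofNat 674, .negSucc 2598, .ofNat 0, .ofNat 396, .negSucc 1455, .ofNat 0, .ofNat 0, .ofNat 2775, .ofNat 2690, .ofNat 0, .ofNat 0, .ofNat 0, .ofNat 0, .ofNat 0, .ofNat 0, .ofNat 1650629821262786952699945640211251200, .ofNat 0, .ofNat 0, .ofNat 0, .ofNat 1691507572395857726839602903672422400, .ofNat 0, .ofNat 0, .ofNat 2190757984511582895396003594165353132851200, .ofNat 823666746881102032687464013470105600, .ofNat 0⟩)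
    (by decide +kernel)
theorem L01178 : Good (Phi V4.P V4.D 1 1) ⟨6, 54, 4, 9, 3, 0, 4, 15, 3, 1⟩ :=
  out_sound (S := T4.ds_pp) T4.ok_pp (w := 72) (j := 3) (by decide +kernel)
theorem L01179 : Good (Phi V4.P V4.D 1 1) ⟨7, 110, 4, 9, 3, 0, 4, 15, 3, 1⟩ :=
  leaf_sound (S := T4.ds_pp) T4.ok_pp (w := 208) (c := ⟨⟨.negSucc 827, .negSucc 257, .ofNat 286, .negSucc 794, .ofNat 169, .ofNat 188⟩, ⟨.negSucc 459, .negSucc 167, .ofNat 152, .negSucc 455, .ofNat 97, .ofNat 108⟩, ⟨.ofNat 264, .ofNat 257, .negSucc 286, .ofNat 731, .negSucc 181, .negSucc 95⟩, ⟨.negSucc 1247, .negSucc 373, .ofNat 436, .negSucc 1153, .ofNat 253, .ofNat 275⟩, ⟨.negSucc 10, .ofNat 0, .ofNat 1, .negSucc 70, .ofNat 1, .ofNat 14⟩, .ofNat 2244, .negSucc 3420, .ofNat 0, .negSucc 3420, .ofNat 6238, .ofNat 0, .ofNat 102, .ofNat 325, .negSucc 1178, .ofNat 0, .ofNat 200, .negSucc 660, .ofNat 0, .ofNat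 0, .ofNat 1273, .ofNat 549, .ofNat 0, .ofNat 0, .ofNat 0, .ofNat 0, .ofNat 0, .ofNat 0, .ofNat 0, .ofNat 0, .ofNat 0, .ofNat 0, .ofNat 0, .ofNat 0, .ofNat 0, .ofNat 3361195587635576594860982869944662438707200, .ofNat 2933263555989539450355306410803200, .ofNat 0⟩)
    (by decide +kernel)
theorem L01180 : Good (Phi V4.P V4.D 1 1) ⟨7, 111, 4, 9, 3, 0, 4, 15, 3, 1⟩ :=
  out_sound (S := T4.ds_pp) T4.ok_pp (w := 24) (j := 4) (by decide +kernel)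
theorem L01181 : Good (Phi V4.P V4.D 1 1) ⟨5, 27, 3, 5, 3, 0, 4, 15, 3, 1⟩ :=
  out_sound (S := T4.ds_pp) T4.ok_pp (w := 64) (j := 3) (by decide +kernel)
theorem L01182 : Good (Phi V4.P V4.D 1 1) ⟨5, 26, 2, 2, 3, 1, 4, 15, 3, 1⟩ :=
  out_sound (S := T4.ds_pp) T4.ok_pp (w := 56) (j := 3) (by decide +kernel)
theorem L01183 : Good (Phi V4.P V4.D 1 1) ⟨6, 54, 4, 8, 3, 1, 4, 15, 4, 2⟩ :=
  leaf_sound (S := T4.ds_pp) T4.ok_pp (w := 208) (c := ⟨⟨.negSucc 1030, .negSucc 67, .negSucc 262, .negSucc 438, .negSucc 133, .negSucc 110⟩, ⟨.negSucc 530, .negSucc 56, .negSucc 186, .negSucc 238, .negSucc 73, .negSucc 60⟩, ⟨.ofNat 423, .ofNat 63, .ofNat 253, .ofNat 336, .ofNat 112, .ofNat 151⟩, ⟨.negSucc 1547, .negSucc 68, .negSucc 386, .negSucc 653, .negSucc 200, .negSucc 179⟩, ⟨.negSucc 88, .ofNat 5, .negSucc 7, .negSucc 25, .negSucc 4, .ofNat 20⟩, .ofNat 1721, .negSucc 2600,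 .ofNat 0, .negSucc 2600, .ofNat 5019, .ofNat 0, .ofNat 261, .ofNat 674, .negSucc 2240, .ofNat 0, .ofNat 412, .negSucc 1190, .ofNat 0, .ofNat 0, .ofNat 2416, .ofNat 1062, .ofNat 0, .ofNat 0, .ofNat 0, .ofNat 0, .ofNat 0, .ofNat 0, .ofNat 0, .ofNat 0, .ofNat 0, .ofNat 0, .ofNat 0, .ofNat 0, .ofNat 0, .ofNat 3323835035230707753253028248125817906790400, .ofNat 0, .ofNat 0⟩)
    (by decide +kernel)
theorem L01184 : Good (Phi V4.P V4.D 1 1) ⟨6, 55, 4, 8, 3, 1, 4, 15, 4, 2⟩ :=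
  leaf_sound (S := T4.ds_pp) T4.ok_pp (w := 216) (c := ⟨⟨.negSucc 1067, .negSucc 455, .negSucc 111, .negSucc 539, .negSucc 299, .negSucc 122⟩, ⟨.negSucc 566, .negSucc 287, .negSucc 97, .negSucc 304, .negSucc 168, .negSucc 68⟩, ⟨.ofNat 463, .ofNat 443, .ofNat 100, .ofNat 430, .ofNat 275, .ofNat 163⟩, ⟨.negSucc 1585, .negSucc 656, .negSucc 148, .negSucc 796, .negSucc 445, .negSucc 194⟩, ⟨.negSucc 83, .negSucc 6, .ofNat 1, .negSucc 30, .negSucc 9, .ofNat 16⟩, .ofNat 4701, .negSucc 7779, .ofNat 0, .negSucc 7779, .ofNat 14010, .ofNat 0, .ofNat 156, .ofNat 702, .negSucc 2382, .ofNat 0, .ofNat 413, .negSucc 1334, .ofNat 0, .ofNat 0, .ofNat 2548, .ofNat 525, .ofNat 0, .ofNat 2195003301075705669834010446074688307200, .ofNat 1192405557753846467507038401331200, .ofNat 0, .ofNat 0, .ofNat 0, .ofNat 2995635503653527975894109205928345600, .ofNat 0, .ofNat 0, .ofNat 0, .ofNat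 0, .ofNat 0, .ofNat 0, .ofNat 2953447690353839583435311911366883593420800, .ofNat 658271334316710554041813298262835200, .ofNat 0⟩)
    (by decide +kernel)
theorem L01185 : Good (Phi V4.P V4.D 1 1) ⟨6, 54, 4, 9, 3, 1, 4, 15, 4, 2⟩ :=
  out_sound (S := T4.ds_pp) T4.ok_pp (w := 72) (j := 3) (by decide +kernel)
theorem L01186 : Good (Phi V4.P V4.D 1 1) ⟨7, 110, 5, 18, 3, 1, 4, 15, 4, 2⟩ :=
  leaf_sound (S := T4.ds_pp) T4.ok_pp (w := 224) (c := ⟨⟨.negSucc 1017, .negSucc 124, .negSucc 96, .negSucc 605, .negSucc 494, .negSucc 223⟩, ⟨.negSucc 566, .negSucc 88, .negSucc 72, .negSucc 347, .negSucc 283, .negSucc 127⟩, ⟨.ofNat 410, .ofNat 111, .ofNat 104, .ofNat 489, .ofNat 466, .ofNat 263⟩, ⟨.negSucc 1497, .negSucc 172, .negSucc 130, .negSucc 890, .negSucc 733, .negSucc 342⟩, ⟨.negSucc 75, .negSucc 0, .negSucc 3, .negSucc 33, .negSucc 15, .ofNat 12⟩, .ofNat 15483, .negSucc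 26457, .ofNat 0, .negSucc 26457, .ofNat 46356, .ofNat 0, .ofNat 43, .ofNat 358, .negSucc 1251, .ofNat 0, .ofNat 208, .negSucc 715, .ofNat 0, .ofNat 0, .ofNat 1326, .ofNat 219, .ofNat 0, .ofNat 0, .ofNat 930397876611076241631788138496000, .ofNat 0, .ofNat 0, .ofNat 0, .ofNat 754864451974486506327713629234790400, .ofNat 0, .ofNat 0, .ofNat 0, .ofNat 0, .ofNat 0, .ofNat 0, .ofNat 71220628530126484321665697713371394500198400, .ofNat 81251392255962818139228508205875200, .ofNat 0⟩)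
    (by decide +kernel)
theorem L01187 : Good (Phi V4.P V4.D 1 1) ⟨7, 111, 5, 18, 3, 1, 4, 15, 4, 2⟩ :=
  out_sound (S := T4.ds_pp) T4.ok_pp (w := 24) (j := 4) (by decide +kernel)
theorem L01188 : Good (Phi V4.P V4.D 1 1) ⟨7, 110, 5, 19, 3, 1, 4, 15, 4, 2⟩ :=
  out_sound (S := T4.ds_pp) T4.ok_pp (w := 80) (j := 3) (by decide +kernel)
theorem L01189 : Good (Phi V4.P V4.D 1 1) ⟨7, 111, 5, 19, 3, 1, 4, 15, 4, 2⟩ :=
  out_sound (S := T4.ds_pp) T4.ok_pp (w := 24) (j := 4) (by decide +kernel)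
theorem L01190 : Good (Phi V4.P V4.D 1 1) ⟨6, 54, 4, 8, 3, 1, 4, 15, 4, 3⟩ :=
  leaf_sound (S := T4.ds_pp) T4.ok_pp (w := 208) (c := ⟨⟨.negSucc 956, .negSucc 420, .ofNat 105, .negSucc 612, .negSucc 276, .negSucc 93⟩, ⟨.negSucc 487, .negSucc 253, .ofNat 14, .negSucc 332, .negSucc 151, .negSucc 50⟩, ⟨.ofNat 394, .ofNat 396, .negSucc 93, .ofNat 496, .ofNat 262, .ofNat 131⟩, ⟨.negSucc 1448, .negSucc 593, .ofNat 163, .negSucc 920, .negSucc 415, .negSucc 148⟩, ⟨.negSucc 65, .negSucc 5, .ofNat 2, .negSucc 20, .negSucc 9, .ofNat 11⟩, .ofNat 1686, .negSucc 2542, .ofNat 0, .negSucc 2542, .ofNat 4930, .ofNat 0, .ofNat 247, .ofNat 626, .negSucc 2006, .ofNat 0, .ofNat 383, .negSucc 1061, .ofNat 0, .ofNat 0, .ofNat 2179, .ofNat 1414, .ofNat 0, .ofNat 0, .ofNat 0, .ofNat 0, .ofNat 0, .ofNat 0, .ofNat 0, .ofNat 0, .ofNat 0, .ofNat 0, .ofNat 0, .ofNat 0, .ofNat 0, .ofNat 3917076970477924602206466813698531917824000,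 .ofNat 0, .ofNat 0⟩)
    (by decide +kernel)
theorem L01191 : Good (Phi V4.P V4.D 1 1) ⟨6, 54, 4, 9, 3, 1, 4, 15, 4, 3⟩ :=
  out_sound (S := T4.ds_pp) T4.ok_pp (w := 72) (j := 3) (by decide +kernel)
theorem L01192 : Good (Phi V4.P V4.D 1 1) ⟨6, 55, 4, 8, 3, 1, 4, 15, 4, 3⟩ :=
  leaf_sound (S := T4.ds_pp) T4.ok_pp (w := 216) (c := ⟨⟨.negSucc 1182, .negSucc 77, .negSucc 30, .negSucc 693, .negSucc 479, .negSucc 78⟩, ⟨.negSucc 629, .negSucc 76, .negSucc 55, .negSucc 390, .negSucc 269, .negSucc 44⟩, ⟨.ofNat 611, .ofNat 79, .ofNat 29, .ofNat 570, .ofNat 462, .ofNat 116⟩, ⟨.negSucc 1764, .negSucc 88, .negSucc 31, .negSucc 1032, .negSucc 713, .negSucc 126⟩, ⟨.negSucc 74, .ofNat 3, .ofNat 10, .negSucc 25, .negSucc 19, .ofNat 12⟩, .ofNat 4636, .negSucc 7670, .ofNat 0, .negSucc 7670, .ofNat 13828, .ofNat 0, .ofNat 148, .ofNat 658, .negSucc 2143, .ofNat 0, .ofNat 387,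 .negSucc 1199, .ofNat 0, .ofNat 0, .ofNat 2304, .ofNat 1114, .ofNat 0, .ofNat 8672057676717947160213830458311652147200, .ofNat 0, .ofNat 0, .ofNat 0, .ofNat 0, .ofNat 3131310054473382248197445714234572800, .ofNat 0, .ofNat 0, .ofNat 740799760383448348500612719206337190297600, .ofNat 0, .ofNat 0, .ofNat 0, .ofNat 3880480633767648198086948883767353776537600, .ofNat 862621961361111424597009538167603200, .ofNat 0⟩)
    (by decide +kernel)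
theorem L01193 : Good (Phi V4.P V4.D 1 1) ⟨7, 110, 5, 18, 3, 1, 4, 15, 4, 3⟩ :=
  leaf_sound (S := T4.ds_pp) T4.ok_pp (w := 216) (c := ⟨⟨.negSucc 1130, .negSucc 129, .ofNat 14, .negSucc 736, .negSucc 582, .negSucc 138⟩, ⟨.negSucc 632, .negSucc 91, .negSucc 12, .negSucc 420, .negSucc 332, .negSucc 78⟩, ⟨.ofNat 566, .ofNat 132, .negSucc 20, .ofNat 599, .ofNat 563, .ofNat 168⟩, ⟨.negSucc 1672, .negSucc 180, .ofNat 33, .negSucc 1093, .negSucc 863, .negSucc 215⟩, ⟨.negSucc 67, .negSucc 0, .ofNat 3, .negSucc 23, .negSucc 21, .ofNat 12⟩, .ofNat 2224, .negSucc 3389, .ofNat 0, .negSucc 3389, .ofNat 6191, .ofNat 0, .ofNat 202, .ofNat 646, .negSucc 2313, .ofNat 0, .ofNat 397, .negSucc 1295, .ofNat 0, .ofNat 0, .ofNat 2454, .ofNat 891, .ofNat 0, .ofNat 0, .ofNat 0, .ofNat 0, .ofNat 0, .ofNat 0, .ofNat 0, .ofNat 0, .ofNat 0, .ofNat 0, .ofNat 0, .ofNat 0, .ofNat 0, .ofNat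 231572332385142285807704286760283189909913600, .ofNat 0, .ofNat 0⟩)
    (by decide +kernel)
theorem L01194 : Good (Phi V4.P V4.D 1 1) ⟨7, 111, 5, 18, 3, 1, 4, 15, 4, 3⟩ :=
  out_sound (S := T4.ds_pp) T4.ok_pp (w := 24) (j := 4) (by decide +kernel)
theorem L01195 : Good (Phi V4.P V4.D 1 1) ⟨7, 110, 5, 19, 3, 1, 4, 15, 4, 3⟩ :=
  out_sound (S := T4.ds_pp) T4.ok_pp (w := 80) (j := 3) (by decide +kernel)
theorem L01196 : Good (Phi V4.P V4.D 1 1) ⟨7, 111, 5, 19, 3, 1, 4, 15, 4, 3⟩ :=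
  out_sound (S := T4.ds_pp) T4.ok_pp (w := 24) (j := 4) (by decide +kernel)
theorem L01197 : Good (Phi V4.P V4.D 1 1) ⟨5, 27, 3, 5, 3, 1, 4, 15, 3, 1⟩ :=
  out_sound (S := T4.ds_pp) T4.ok_pp (w := 64) (j := 3) (by decide +kernel)
theorem L01198 : Good (Phi V4.P V4.D 1 1) ⟨3, 6, 2, 3, 2, 0, 4, 15, 3, 1⟩ :=
  out_sound (S := T4.ds_pp) T4.ok_pp (w := 48) (j := 3) (by decide +kernel)
theorem L01199 : Good (Phi V4.P V4.D 1 1) ⟨3, 7, 1, 1, 2, 0, 4, 15, 3, 1⟩ :=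
  out_sound (S := T4.ds_pp) T4.ok_pp (w := 16) (j := 4) (by decide +kernel)
theorem L01200 : Good (Phi V4.P V4.D 1 1) ⟨2, 2, 2, 2, 2, 1, 2, 2, 2, 0⟩ :=
  out_sound (S := T4.ds_pp) T4.ok_pp (w := 40) (j := 3) (by decide +kernel)
theorem L01201 : Good (Phi V4.P V4.D 1 1) ⟨3, 6, 2, 2, 2, 1, 2, 2, 3, 0⟩ :=
  leaf_sound (S := T4.ds_pp) T4.ok_pp (w := 168) (c := ⟨⟨.negSucc 1182, .negSucc 161, .negSucc 150, .negSucc 219, .ofNat 31, .negSucc 246⟩, ⟨.negSucc 517, .negSucc 207, .negSucc 288, .negSucc 118, .ofNat 14, .negSucc 135⟩, ⟨.ofNat 1224, .ofNat 69, .ofNat 179, .ofNat 86, .negSucc 418, .negSucc 12⟩, ⟨.negSucc 1896, .negSucc 193, .negSucc 120, .negSucc 479, .ofNat 185, .negSucc 371⟩, ⟨.ofNat 34, .ofNat 43, .ofNat 30, .ofNat 264, .negSucc 248, .negSucc 0⟩, .ofNat 1899, .negSucc 2878, .ofNat 0, .negSucc 2878, .ofNat 5428, .ofNat 0, .ofNat 120, .ofNat 356, .negSucc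 487, .ofNat 0, .ofNat 215, .negSucc 259, .ofNat 0, .ofNat 0, .ofNat 694, .ofNat 959, .ofNat 0, .ofNat 0, .ofNat 0, .ofNat 0, .ofNat 0, .ofNat 0, .ofNat 4115347903033168440262341427200, .ofNat 0, .ofNat 0, .ofNat 0, .ofNat 0, .ofNat 0, .ofNat 0, .ofNat 0, .ofNat 1598047800185251915889010278400, .ofNat 0⟩)
    (by decide +kernel)
theorem L01202 : Good (Phi V4.P V4.D 1 1) ⟨3, 6, 2, 2, 2, 1, 2, 2, 3, 1⟩ :=
  leaf_sound (S := T4.ds_pp) T4.ok_pp (w := 168) (c := ⟨⟨.negSucc 1284, .negSucc 168, .negSucc 167, .negSucc 369, .negSucc 70, .negSucc 2⟩, ⟨.negSucc 582, .negSucc 199, .negSucc 313, .negSucc 200, .negSucc 40, .negSucc 1⟩, ⟨.ofNat 922, .ofNat 233, .ofNat 73, .ofNat 106, .negSucc 148, .negSucc 123⟩, ⟨.negSucc 2039, .negSucc 180, .negSucc 138, .negSucc 681, .negSucc 45, .ofNat 9⟩, ⟨.negSucc 9, .ofNat 24, .ofNat 29, .ofNat 219, .negSucc 111, .negSucc 21⟩, .ofNat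 1827, .negSucc 2767, .ofNat 0, .negSucc 2767, .ofNat 5265, .ofNat 0, .ofNat 110, .ofNat 311, .negSucc 385, .ofNat 0, .ofNat 188, .negSucc 203, .ofNat 0, .ofNat 0, .ofNat 598, .ofNat 1133, .ofNat 0, .ofNat 0, .ofNat 12039698470282766473966387200, .ofNat 0, .ofNat 0, .ofNat 0, .ofNat 3644965589231305195696580198400, .ofNat 0, .ofNat 0, .ofNat 0, .ofNat 1576630877721127389844262092800, .ofNat 0, .ofNat 0, .ofNat 0, .ofNat 2133732551312986991311926067200, .ofNat 0⟩)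
    (by decide +kernel)
theorem L01203 : Good (Phi V4.P V4.D 1 1) ⟨3, 7, 2, 2, 2, 1, 2, 2, 2, 0⟩ :=
  out_sound (S := T4.ds_pp) T4.ok_pp (w := 16) (j := 4) (by decide +kernel)
theorem L01204 : Good (Phi V4.P V4.D 1 1) ⟨2, 2, 2, 2, 2, 1, 3, 6, 2, 0⟩ :=
  out_sound (S := T4.ds_pp) T4.ok_pp (w := 40) (j := 3) (by decide +kernel)
theorem L01205 : Good (Phi V4.P V4.D 1 1) ⟨4, 12, 2, 2, 2, 1, 3, 6, 2, 0⟩ :=
  out_sound (S := T4.ds_pp) T4.ok_pp (w := 56) (j := 3) (by decide +kernel)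
theorem L01206 : Good (Phi V4.P V4.D 1 1) ⟨4, 13, 3, 4, 2, 1, 3, 6, 2, 0⟩ :=
  leaf_sound (S := T4.ds_pp) T4.ok_pp (w := 176) (c := ⟨⟨.negSucc 950, .negSucc 206, .negSucc 33, .negSucc 442, .negSucc 158, .negSucc 570⟩, ⟨.negSucc 453, .negSucc 169, .negSucc 135, .negSucc 240, .negSucc 85, .negSucc 311⟩, ⟨.ofNat 561, .ofNat 126, .negSucc 0, .ofNat 209, .ofNat 36, .ofNat 371⟩, ⟨.negSucc 1446, .negSucc 174, .negSucc 35, .negSucc 777, .negSucc 221, .negSucc 938⟩, ⟨.negSucc 112, .negSucc 127, .ofNat 90, .ofNat 191, .negSucc 35, .ofNat 131⟩, .ofNat 763, .negSucc 891, .ofNat 0, .negSucc 891, .ofNat 1874, .ofNat 0, .ofNat 192, .ofNat 325, .negSucc 634, .ofNat 0, .ofNat 224, .negSucc 314, .ofNat 0, .ofNat 0, .ofNat 776, .ofNat 667, .ofNat 0, .ofNat 0, .ofNat 0, .ofNat 0, .ofNat 0, .ofNat 0, .ofNat 0, .ofNat 0, .ofNat 0, .ofNat 0, .ofNat 0, .ofNat 0, .ofNat 0, .ofNat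 0, .ofNat 0, .ofNat 0⟩)
    (by decide +kernel)
theorem L01207 : Good (Phi V4.P V4.D 1 1) ⟨4, 13, 3, 5, 2, 1, 3, 6, 2, 0⟩ :=
  out_sound (S := T4.ds_pp) T4.ok_pp (w := 56) (j := 3) (by decide +kernel)
theorem L01208 : Good (Phi V4.P V4.D 1 1) ⟨3, 7, 2, 2, 2, 1, 3, 6, 2, 0⟩ :=
  out_sound (S := T4.ds_pp) T4.ok_pp (w := 16) (j := 4) (by decide +kernel)
theorem L01209 : Good (Phi V4.P V4.D 1 1) ⟨2, 2, 2, 2, 2, 1, 3, 7, 2, 0⟩ :=
  out_sound (S := T4.ds_pp) T4.ok_pp (w := 40) (j := 3) (by decide +kernel)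
theorem L01210 : Good (Phi V4.P V4.D 1 1) ⟨4, 12, 2, 2, 2, 1, 4, 14, 2, 0⟩ :=
  out_sound (S := T4.ds_pp) T4.ok_pp (w := 56) (j := 3) (by decide +kernel)
theorem L01211 : Good (Phi V4.P V4.D 1 1) ⟨5, 26, 2, 2, 2, 1, 4, 14, 2, 0⟩ :=
  out_sound (S := T4.ds_pp) T4.ok_pp (w := 56) (j := 3) (by decide +kernel)
theorem L01212 : Good (Phi V4.P V4.D 1 1) ⟨5, 27, 3, 4, 2, 1, 4, 14, 3, 0⟩ :=
  leaf_sound (S := T4.ds_pp) T4.ok_pp (w := 192) (c := ⟨⟨.negSucc 1090, .negSucc 118, .negSucc 83, .negSucc 262, .negSucc 27, .negSucc 516⟩, ⟨.negSucc 558, .negSucc 115, .negSucc 123, .negSucc 142, .negSucc 17, .negSucc 283⟩, ⟨.ofNat 468, .ofNat 97, .ofNat 59, .ofNat 46, .negSucc 46, .ofNat 459⟩, ⟨.negSucc 1557, .negSucc 117, .negSucc 106, .negSucc 477, .negSucc 34, .negSucc 852⟩, ⟨.negSucc 240, .ofNat 6, .ofNat 16, .ofNat 143, .negSucc 13, .ofNat 125⟩, .ofNat 1870, .negSucc 2832,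 .ofNat 0, .negSucc 2832, .ofNat 5357, .ofNat 0, .ofNat 135, .ofNat 398, .negSucc 907, .ofNat 0, .ofNat 241, .negSucc 489, .ofNat 0, .ofNat 0, .ofNat 998, .ofNat 331, .ofNat 0, .ofNat 0, .ofNat 0, .ofNat 0, .ofNat 0, .ofNat 0, .ofNat 63004226459847536990971389542400, .ofNat 0, .ofNat 0, .ofNat 0, .ofNat 0, .ofNat 0, .ofNat 0, .ofNat 0, .ofNat 37861243866743012687224818892800, .ofNat 0⟩)
    (by decide +kernel)
theorem L01213 : Good (Phi V4.P V4.D 1 1) ⟨5, 27, 4, 8, 2, 1, 4, 14, 3, 1⟩ :=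
  leaf_sound (S := T4.ds_pp) T4.ok_pp (w := 192) (c := ⟨⟨.negSucc 1140, .negSucc 845, .ofNat 222, .negSucc 845, .negSucc 260, .negSucc 361⟩, ⟨.negSucc 580, .negSucc 479, .ofNat 48, .negSucc 458, .negSucc 143, .negSucc 198⟩, ⟨.ofNat 542, .ofNat 707, .negSucc 188, .ofNat 464, .ofNat 208, .ofNat 354⟩, ⟨.negSucc 1693, .negSucc 1236, .ofNat 364, .negSucc 1388, .negSucc 388, .negSucc 576⟩, ⟨.negSucc 135, .ofNat 25, .negSucc 3, .ofNat 190, .negSucc 12, .ofNat 49⟩, .ofNat 1771, .negSucc 2678, .ofNat 0, .negSucc 2678, .ofNat 5133, .ofNat 0, .ofNat 124, .ofNat 347, .negSucc 758, .ofNat 0, .ofNat 209, .negSucc 404, .ofNat 0, .ofNat 0, .ofNat 848, .ofNat 1171, .ofNat 0, .ofNat 778005169914234623790073153742438400, .ofNat 567498802853238029158868582400, .ofNat 0, .ofNat 0, .ofNat 0, .ofNat 144009410481960768868178932531200, .ofNat 0, .ofNat 0, .ofNat 30547407206354413793857295818634035200,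 .ofNat 61089485555776495302513524736000, .ofNat 0, .ofNat 0, .ofNat 27494668990169840597732475012749721600, .ofNat 38461925097275850031579634073600, .ofNat 0⟩)
    (by decide +kernel)
theorem L01214 : Good (Phi V4.P V4.D 1 1) ⟨5, 27, 4, 9, 2, 1, 4, 14, 3, 1⟩ :=
  leaf_sound (S := T4.ds_pp) T4.ok_pp (w := 192) (c := ⟨⟨.negSucc 1151, .negSucc 153, .negSucc 219, .negSucc 916, .negSucc 343, .negSucc 488⟩, ⟨.negSucc 628, .negSucc 121, .negSucc 195, .negSucc 524, .negSucc 196, .negSucc 279⟩, ⟨.ofNat 540, .ofNat 141, .ofNat 214, .ofNat 497, .ofNat 281, .ofNat 468⟩, ⟨.negSucc 1693, .negSucc 191, .negSucc 265, .negSucc 1487, .negSucc 509, .negSucc 767⟩, ⟨.negSucc 102, .negSucc 28, .negSucc 33, .ofNat 191, .negSucc 11, .ofNat 57⟩, .ofNat 2232, .negSucc 3401, .ofNat 0, .negSucc 3401, .ofNat 6209, .ofNat 0, .ofNat 105, .ofNat 356, .negSucc 828, .ofNat 0, .ofNat 217, .negSucc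 462, .ofNat 0, .ofNat 0, .ofNat 904, .ofNat 1033, .ofNat 0, .ofNat 512586207048892298852598043115520000, .ofNat 0, .ofNat 0, .ofNat 0, .ofNat 0, .ofNat 0, .ofNat 0, .ofNat 0, .ofNat 25705800479352305325193814594499379200, .ofNat 0, .ofNat 0, .ofNat 0, .ofNat 0, .ofNat 0, .ofNat 0⟩)
    (by decide +kernel)
theorem L01215 : Good (Phi V4.P V4.D 1 1) ⟨5, 27, 3, 5, 2, 1, 4, 14, 2, 0⟩ :=
  out_sound (S := T4.ds_pp) T4.ok_pp (w := 64) (j := 3) (by decide +kernel)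
theorem L01216 : Good (Phi V4.P V4.D 1 1) ⟨4, 12, 2, 2, 2, 1, 4, 15, 2, 0⟩ :=
  out_sound (S := T4.ds_pp) T4.ok_pp (w := 56) (j := 3) (by decide +kernel)
theorem L01217 : Good (Phi V4.P V4.D 1 1) ⟨5, 26, 3, 4, 2, 1, 4, 15, 2, 0⟩ :=
  out_sound (S := T4.ds_pp) T4.ok_pp (w := 64) (j := 3) (by decide +kernel)
theorem L01218 : Good (Phi V4.P V4.D 1 1) ⟨6, 54, 4, 8, 2, 1, 5, 30, 3, 0⟩ :=
  leaf_sound (S := T4.ds_pp) T4.ok_pp (w := 200) (c := ⟨⟨.negSucc 900, .negSucc 471, .ofNat 414, .negSucc 189, .negSucc 12, .negSucc 828⟩, ⟨.negSucc 463, .negSucc 287, .ofNat 195, .negSucc 100, .negSucc 5, .negSucc 447⟩, ⟨.ofNat 230, .ofNat 342, .negSucc 300, .negSucc 10, .negSucc 14, .ofNat 764⟩, ⟨.negSucc 1248, .negSucc 730, .ofNat 691, .negSucc 360, .negSucc 20, .negSucc 1339⟩, ⟨.negSucc 274, .ofNat 101, .negSucc 103, .ofNat 131, .ofNat 1, .ofNat 145⟩, .ofNat 1708, .negSucc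 2580, .ofNat 0, .negSucc 2580, .ofNat 4990, .ofNat 0, .ofNat 149, .ofNat 408, .negSucc 1160, .ofNat 0, .ofNat 246, .negSucc 613, .ofNat 0, .ofNat 0, .ofNat 1198, .ofNat 1260, .ofNat 0, .ofNat 0, .ofNat 0, .ofNat 0, .ofNat 0, .ofNat 0, .ofNat 0, .ofNat 0, .ofNat 0, .ofNat 0, .ofNat 0, .ofNat 0, .ofNat 0, .ofNat 0, .ofNat 206878309593328781764597068595200, .ofNat 0⟩)
    (by decide +kernel)
theorem L01219 : Good (Phi V4.P V4.D 1 1) ⟨6, 54, 4, 8, 2, 1, 5, 31, 3, 0⟩ :=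
  leaf_sound (S := T4.ds_pp) T4.ok_pp (w := 200) (c := ⟨⟨.negSucc 859, .negSucc 711, .ofNat 645, .negSucc 114, .ofNat 148, .negSucc 1066⟩, ⟨.negSucc 442, .negSucc 414, .ofNat 314, .negSucc 56, .ofNat 81, .negSucc 572⟩, ⟨.ofNat 135, .ofNat 614, .negSucc 557, .negSucc 95, .negSucc 147, .ofNat 1019⟩, ⟨.negSucc 1200, .negSucc 1045, .ofNat 990, .negSucc 249, .ofNat 224, .negSucc 1690⟩, ⟨.negSucc 247, .ofNat 13, .negSucc 8, .ofNat 134, .ofNat 2, .ofNat 118⟩, .ofNat 3117, .negSucc 5141, .ofNat 0, .negSucc 5141, .ofNat 9677, .ofNat 0, .ofNat 119, .ofNat 419, .negSucc 1381, .ofNat 0, .ofNat 243, .negSucc 741, .ofNat 0, .ofNat 0, .ofNat 1381, .ofNat 285, .ofNat 0, .ofNat 0, .ofNat 1014517364256837784618559078400, .ofNat 0, .ofNat 0, .ofNat 75286087860994675919089024818688819200, .ofNat 493262922703277029676871057408000, .ofNat 0, .ofNat 0, .ofNat 0, .ofNat 0, .ofNat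 0, .ofNat 0, .ofNat 3144516307730635093016611970807444275200, .ofNat 233758666213334889074144575488000, .ofNat 0⟩)
    (by decide +kernel)
theorem L01220 : Good (Phi V4.P V4.D 1 1) ⟨6, 55, 4, 8, 2, 1, 4, 15, 3, 0⟩ :=
  leaf_sound (S := T4.ds_pp) T4.ok_pp (w := 200) (c := ⟨⟨.negSucc 1164, .ofNat 144, .negSucc 31, .ofNat 182, .ofNat 101, .negSucc 1054⟩, ⟨.negSucc 625, .ofNat 46, .negSucc 48, .ofNat 103, .ofNat 57, .negSucc 592⟩, ⟨.ofNat 489, .negSucc 90, .negSucc 41, .negSucc 368, .negSucc 120, .ofNat 995⟩, ⟨.negSucc 1672, .ofNat 212, .ofNat 4, .ofNat 207, .ofNat 152, .negSucc 1655⟩, ⟨.negSucc 184, .ofNat 66, .negSucc 59, .ofNat 120, .ofNat 0, .ofNat 112⟩, .ofNat 4683, .negSucc 7750, .ofNat 0, .negSucc 7750, .ofNat 13963, .ofNat 0, .ofNat 44, .ofNat 211, .negSucc 668, .ofNat 0, .ofNat 123, .negSucc 373, .ofNat 0, .ofNat 0, .ofNat 675, .ofNat 239, .ofNat 0, .ofNat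 0, .ofNat 0, .ofNat 0, .ofNat 0, .ofNat 0, .ofNat 21499547671256148869302871654400, .ofNat 0, .ofNat 0, .ofNat 147364362330106177304404627202821324800, .ofNat 10622974667786956882190322892800, .ofNat 0, .ofNat 0, .ofNat 418087676504134714499418151486645862400, .ofNat 7069178417228383557978685440000, .ofNat 0⟩)
    (by decide +kernel)
theorem L01221 : Good (Phi V4.P V4.D 1 1) ⟨6, 54, 4, 8, 2, 1, 5, 30, 3, 1⟩ :=
  leaf_sound (S := T4.ds_pp) T4.ok_pp (w := 200) (c := ⟨⟨.negSucc 1145, .negSucc 97, .negSucc 214, .negSucc 1187, .negSucc 261, .negSucc 635⟩, ⟨.negSucc 581, .negSucc 78, .negSucc 182, .negSucc 640, .negSucc 143, .negSucc 342⟩, ⟨.ofNat 495, .ofNat 171, .ofNat 92, .ofNat 741, .ofNat 232, .ofNat 647⟩, ⟨.negSucc 1719, .negSucc 52, .negSucc 366, .negSucc 1898, .negSucc 386, .negSucc 984⟩, ⟨.negSucc 108, .negSucc 80, .ofNat 89, .ofNat 163, .negSucc 19, .ofNat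 28⟩, .ofNat 743, .negSucc 862, .ofNat 0, .negSucc 862, .ofNat 1844, .ofNat 0, .ofNat 397, .ofNat 648, .negSucc 2255, .ofNat 0, .ofNat 448, .negSucc 1130, .ofNat 0, .ofNat 0, .ofNat 2294, .ofNat 2503, .ofNat 0, .ofNat 94932842570704441631105235890366054400, .ofNat 0, .ofNat 0, .ofNat 0, .ofNat 0, .ofNat 0, .ofNat 0, .ofNat 0, .ofNat 4915309008940393905743494763813378457600, .ofNat 0, .ofNat 0, .ofNat 0, .ofNat 7022532758374853943150392654117732352000, .ofNat 349327432805881138917120619315200, .ofNat 0⟩)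
    (by decide +kernel)
theorem L01222 : Good (Phi V4.P V4.D 1 1) ⟨6, 55, 4, 8, 2, 1, 5, 30, 3, 1⟩ :=
  leaf_sound (S := T4.ds_pp) T4.ok_pp (w := 200) (c := ⟨⟨.negSucc 1177, .negSucc 445, .negSucc 116, .negSucc 1200, .negSucc 335, .negSucc 819⟩, ⟨.negSucc 611, .negSucc 295, .negSucc 118, .negSucc 676, .negSucc 188, .negSucc 461⟩, ⟨.ofNat 619, .ofNat 376, .ofNat 33, .ofNat 714, .ofNat 307, .ofNat 790⟩, ⟨.negSucc 1683, .negSucc 616, .negSucc 207, .negSucc 1909, .negSucc 491, .negSucc 1256⟩, ⟨.negSucc 217, .negSucc 29, .ofNat 103, .ofNat 173, .negSucc 26, .ofNat 36⟩, .ofNat 4696, .negSucc 7770, .ofNat 0, .negSucc 7770, .ofNat 13994, .ofNat 0, .ofNat 78, .ofNat 376, .negSucc 1040, .ofNat 0, .ofNat 220, .negSucc 582, .ofNat 0, .ofNat 0, .ofNat 1066, .ofNat 791, .ofNat 0, .ofNat 40733305099347166678892304285460070400, .ofNat 1108751989650388105178382336000, .ofNat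 0, .ofNat 0, .ofNat 462728847708903580738646541204455424000, .ofNat 814275600581099097866696549990400, .ofNat 0, .ofNat 0, .ofNat 1388591830063953978573497029880079974400, .ofNat 320438241139159682543015637811200, .ofNat 0, .ofNat 0, .ofNat 1998238657293161978123274730847443353600, .ofNat 198877633547104378433562476544000, .ofNat 0⟩)
    (by decide +kernel)
theorem L01223 : Good (Phi V4.P V4.D 1 1) ⟨6, 54, 4, 8, 3, 2, 5, 31, 3, 1⟩ :=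
  leaf_sound (S := T4.ds_pp) T4.ok_pp (w := 208) (c := ⟨⟨.negSucc 1251, .negSucc 376, .negSucc 29, .negSucc 630, .negSucc 355, .negSucc 740⟩, ⟨.negSucc 641, .negSucc 228, .negSucc 79, .negSucc 340, .negSucc 193, .negSucc 401⟩, ⟨.ofNat 565, .ofNat 348, .ofNat 23, .ofNat 443, .ofNat 329, .ofNat 767⟩, ⟨.negSucc 1879, .negSucc 529, .negSucc 19, .negSucc 977, .negSucc 531, .negSucc 1142⟩, ⟨.negSucc 110, .ofNat 10, .negSucc 19, .ofNat 31, .negSucc 18, .ofNat 28⟩, .ofNat 1720, .negSucc 2599, .ofNat 0, .negSucc 2599, .ofNat 5022, .ofNat 0, .ofNat 522, .ofNat 1389, .negSucc 4858, .ofNat 0, .ofNat 842, .negSucc 2581, .ofNat 0, .ofNat 0, .ofNat 4995, .ofNat 3596, .ofNat 0, .ofNat 40580445350301911323261304844049396531200, .ofNat 0, .ofNat 0, .ofNat 0, .ofNat 0, .ofNat 0, .ofNat 0, .ofNat 0, .ofNat 0, .ofNat 0, .ofNat 0, .ofNat 0, .ofNat 11363284331357946488008237861736300937216000,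 .ofNat 0, .ofNat 0⟩)
    (by decide +kernel)
theorem L01224 : Good (Phi V4.P V4.D 1 1) ⟨6, 55, 4, 8, 3, 2, 5, 31, 3, 1⟩ :=
  leaf_sound (S := T4.ds_pp) T4.ok_pp (w := 216) (c := ⟨⟨.negSucc 1385, .negSucc 213, .negSucc 249, .negSucc 668, .negSucc 537, .negSucc 809⟩, ⟨.negSucc 730, .negSucc 165, .negSucc 191, .negSucc 376, .negSucc 302, .negSucc 455⟩, ⟨.ofNat 682, .ofNat 209, .ofNat 231, .ofNat 468, .ofNat 503, .ofNat 839⟩, ⟨.negSucc 2063, .negSucc 279, .negSucc 344, .negSucc 1023, .negSucc 793, .negSucc 1229⟩, ⟨.negSucc 100, .negSucc 4, .negSucc 5, .ofNat 25, .negSucc 29, .ofNat 13⟩, .ofNat 4709, .negSucc 7793, .ofNat 0, .negSucc 7793, .ofNat 14034, .ofNat 0, .ofNat 311, .ofNat 1450, .negSucc 5116, .ofNat 0, .ofNat 850, .negSucc 2867, .ofNat 0, .ofNat 0, .ofNat 5227, .ofNat 3135, .ofNat 0, .ofNat 47151683133759755456056411156359885619200, .ofNat 0, .ofNat 0,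 .ofNat 0, .ofNat 731097262561597785214207590463572226867200, .ofNat 7245362451991960579622626196560281600, .ofNat 0, .ofNat 0, .ofNat 4941491625737418008690160679720876769280000, .ofNat 0, .ofNat 0, .ofNat 0, .ofNat 15422102904693326839138791678645044143718400, .ofNat 1364016103504291420550772943749120000, .ofNat 0⟩)
    (by decide +kernel)
theorem L01225 : Good (Phi V4.P V4.D 1 1) ⟨6, 54, 4, 8, 3, 3, 5, 31, 3, 1⟩ :=
  leaf_sound (S := T4.ds_pp) T4.ok_pp (w := 208) (c := ⟨⟨.negSucc 1739, .negSucc 467, .ofNat 101, .negSucc 668, .negSucc 422, .negSucc 1287⟩, ⟨.negSucc 901, .negSucc 277, .negSucc 26, .negSucc 357, .negSucc 222, .negSucc 690⟩, ⟨.ofNat 918, .ofNat 398, .negSucc 98, .ofNat 398, .ofNat 371, .ofNat 1189⟩, ⟨.negSucc 2639, .negSucc 647, .ofNat 158, .negSucc 1083, .negSucc 632, .negSucc 1988⟩, ⟨.negSucc 83, .negSucc 15, .ofNat 18, .ofNat 116, .negSucc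 27, .ofNat 44⟩, .ofNat 744, .negSucc 864, .ofNat 0, .negSucc 864, .ofNat 1846, .ofNat 0, .ofNat 850, .ofNat 1443, .negSucc 6109, .ofNat 0, .ofNat 980, .negSucc 3070, .ofNat 0, .ofNat 0, .ofNat 5790, .ofNat 5546, .ofNat 0, .ofNat 121664617538789653156216619562260496384000, .ofNat 0, .ofNat 0, .ofNat 0, .ofNat 0, .ofNat 0, .ofNat 0, .ofNat 0, .ofNat 14216271644124708047055114322831850078208000, .ofNat 0, .ofNat 0, .ofNat 0, .ofNat 19050773475450613121049120680585735228620800, .ofNat 0, .ofNat 0⟩)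
    (by decide +kernel)
theorem L01226 : Good (Phi V4.P V4.D 1 1) ⟨6, 55, 4, 8, 3, 3, 5, 31, 3, 1⟩ :=
  leaf_sound (S := T4.ds_pp) T4.ok_pp (w := 216) (c := ⟨⟨.negSucc 1946, .negSucc 351, .negSucc 176, .negSucc 663, .negSucc 527, .negSucc 1380⟩, ⟨.negSucc 1038, .negSucc 248, .negSucc 158, .negSucc 373, .negSucc 297, .negSucc 778⟩, ⟨.ofNat 1090, .ofNat 296, .ofNat 144, .ofNat 377, .ofNat 471, .ofNat 1289⟩, ⟨.negSucc 2923, .negSucc 481, .negSucc 236, .negSucc 1066, .negSucc 771, .negSucc 2098⟩, ⟨.negSucc 80, .negSucc 6, .ofNat 1, .ofNat 114, .negSucc 44, .ofNat 26⟩, .ofNat 4672, .negSucc 7731, .ofNat 0, .negSucc 7731, .ofNat 13931, .ofNat 0, .ofNat 659, .ofNat 3213, .negSucc 10677, .ofNat 0, .ofNat 1876, .negSucc 5979, .ofNat 0, .ofNat 0, .ofNat 10358, .ofNat 10119, .ofNat 0, .ofNat 231735970113932363779351726081362100224000, .ofNat 0, .ofNat 0, .ofNat 0, .ofNat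 26589488201089918023707846811062222664499200, .ofNat 19265791101400412771951421515051827200, .ofNat 0, .ofNat 0, .ofNat 34994875193855720249508620636033653722316800, .ofNat 21132802505844049011535073482113024000, .ofNat 0, .ofNat 0, .ofNat 90476105810461839707892886266905200951296000, .ofNat 6415210118250499599514557224268595200, .ofNat 0⟩)
    (by decide +kernel)
theorem L01227 : Good (Phi V4.P V4.D 1 1) ⟨6, 54, 4, 9, 2, 1, 4, 15, 2, 0⟩ :=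
  out_sound (S := T4.ds_pp) T4.ok_pp (w := 72) (j := 3) (by decide +kernel)
theorem L01228 : Good (Phi V4.P V4.D 1 1) ⟨7, 110, 5, 18, 2, 1, 4, 15, 4, 0⟩ :=
  leaf_sound (S := T4.ds_pp) T4.ok_pp (w := 208) (c := ⟨⟨.negSucc 1527, .ofNat 64, .ofNat 49, .ofNat 581, .ofNat 100, .negSucc 493⟩, ⟨.negSucc 862, .ofNat 22, .ofNat 15, .ofNat 333, .ofNat 58, .negSucc 282⟩, ⟨.ofNat 753, .negSucc 67, .negSucc 33, .negSucc 695, .negSucc 153, .ofNat 477⟩, ⟨.negSucc 2165, .ofNat 101, .ofNat 92, .ofNat 814, .ofNat 140, .negSucc 782⟩, ⟨.negSucc 246, .ofNat 13, .negSucc 13, .ofNat 103, .ofNat 18, .ofNat 71⟩, .ofNat 5799, .negSucc 9606, .ofNat 0, .negSucc 9606, .ofNat 17030, .ofNat 0, .ofNat 159, .ofNat 890, .negSucc 2908, .ofNat 0, .ofNat 523, .negSucc 1652, .ofNat 0, .ofNat 0, .ofNat 2914, .ofNat 1006, .ofNat 0, .ofNat 0, .ofNat 0, .ofNat 0, .ofNat 0, .ofNat 0, .ofNat 0, .ofNat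 0, .ofNat 0, .ofNat 0, .ofNat 0, .ofNat 0, .ofNat 0, .ofNat 0, .ofNat 683003060453987429216171537203200, .ofNat 0⟩)
    (by decide +kernel)
theorem L01229 : Good (Phi V4.P V4.D 1 1) ⟨7, 110, 5, 18, 2, 1, 4, 15, 4, 1⟩ :=
  leaf_sound (S := T4.ds_pp) T4.ok_pp (w := 208) (c := ⟨⟨.negSucc 1158, .ofNat 36, .negSucc 166, .negSucc 520, .negSucc 405, .negSucc 638⟩, ⟨.negSucc 645, .ofNat 1, .negSucc 115, .negSucc 298, .negSucc 231, .negSucc 365⟩, ⟨.ofNat 494, .negSucc 35, .ofNat 131, .ofNat 182, .ofNat 328, .ofNat 589⟩, ⟨.negSucc 1649, .ofNat 55, .negSucc 230, .negSucc 866, .negSucc 598, .negSucc 989⟩, ⟨.negSucc 183, .ofNat 24, .negSucc 11, .ofNat 146, .negSucc 17, .ofNat 51⟩, .ofNat 5780, .negSucc 9575, .ofNat 0, .negSucc 9575, .ofNat 16978, .ofNat 0, .ofNat 74, .ofNat 414, .negSucc 1313, .ofNat 0, .ofNat 243, .negSucc 746, .ofNat 0, .ofNat 0, .ofNat 1313, .ofNat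 337, .ofNat 0, .ofNat 0, .ofNat 0, .ofNat 0, .ofNat 0, .ofNat 0, .ofNat 0, .ofNat 0, .ofNat 0, .ofNat 0, .ofNat 0, .ofNat 0, .ofNat 0, .ofNat 381125558944323670189956090674909125017600, .ofNat 0, .ofNat 0⟩)
    (by decide +kernel)
theorem L01230 : Good (Phi V4.P V4.D 1 1) ⟨7, 111, 5, 18, 2, 1, 4, 15, 3, 0⟩ :=
  out_sound (S := T4.ds_pp) T4.ok_pp (w := 24) (j := 4) (by decide +kernel)
theorem L01231 : Good (Phi V4.P V4.D 1 1) ⟨7, 110, 6, 36, 2, 1, 5, 30, 3, 1⟩ :=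
  leaf_sound (S := T4.ds_pp) T4.ok_pp (w := 216) (c := ⟨⟨.negSucc 1482, .ofNat 88, .negSucc 48, .negSucc 1195, .negSucc 357, .negSucc 687⟩, ⟨.negSucc 833, .ofNat 39, .negSucc 48, .negSucc 682, .negSucc 203, .negSucc 392⟩, ⟨.ofNat 811, .negSucc 95, .ofNat 58, .ofNat 710, .ofNat 329, .ofNat 693⟩, ⟨.negSucc 2162, .ofNat 118, .negSucc 49, .negSucc 1891, .negSucc 525, .negSucc 1050⟩, ⟨.negSucc 135, .ofNat 47, .negSucc 21, .ofNat 163, .negSucc 21, .ofNat 28⟩, .ofNat 14310, .negSucc 24449, .ofNat 0, .negSucc 24449, .ofNat 42926, .ofNat 0, .ofNat 45, .ofNat 374, .negSucc 1035, .ofNat 0, .ofNat 217, .negSucc 591, .ofNat 0, .ofNat 0, .ofNat 1069, .ofNat 847, .ofNat 0, .ofNat 9766814289040599327026104960322371584000, .ofNat 0, .ofNat 0, .ofNat 0, .ofNat 0, .ofNat 1184300594320959008280981327052800, .ofNat 0, .ofNat 0, .ofNat 377592795361162541602883664711325738598400,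 .ofNat 0, .ofNat 0, .ofNat 0, .ofNat 340253537818667194050146716968262670745600, .ofNat 0, .ofNat 0⟩)
    (by decide +kernel)
theorem L01232 : Good (Phi V4.P V4.D 1 1) ⟨7, 110, 6, 36, 2, 1, 5, 31, 3, 1⟩ :=
  leaf_sound (S := T4.ds_pp) T4.ok_pp (w := 216) (c := ⟨⟨.negSucc 1563, .negSucc 167, .negSucc 45, .negSucc 1291, .negSucc 639, .negSucc 872⟩, ⟨.negSucc 878, .negSucc 103, .negSucc 48, .negSucc 739, .negSucc 366, .negSucc 499⟩, ⟨.ofNat 888, .ofNat 139, .ofNat 35, .ofNat 801, .ofNat 596, .ofNat 875⟩, ⟨.negSucc 2286, .negSucc 246, .negSucc 56, .negSucc 2016, .negSucc 939, .negSucc 1327⟩, ⟨.negSucc 133, .ofNat 7, .ofNat 4, .ofNat 131, .negSucc 37, .ofNat 28⟩, .ofNat 5712, .negSucc 9462, .ofNat 0, .negSucc 9462, .ofNat 16792, .ofNat 0, .ofNat 137, .ofNat 748, .negSucc 2623, .ofNat 0, .ofNat 439, .negSucc 1490, .ofNat 0, .ofNat 0, .ofNat 2641, .ofNat 1447, .ofNat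 0, .ofNat 44563225763444631854300025580010078208000, .ofNat 0, .ofNat 0, .ofNat 0, .ofNat 0, .ofNat 0, .ofNat 0, .ofNat 0, .ofNat 4652611732542090223630098128997056721715200, .ofNat 0, .ofNat 0, .ofNat 0, .ofNat 5862771266467930886585910629371057746739200, .ofNat 0, .ofNat 0⟩)
    (by decide +kernel)
theorem L01233 : Good (Phi V4.P V4.D 1 1) ⟨8, 220, 6, 37, 2, 1, 4, 15, 3, 1⟩ :=
  out_sound (S := T4.ds_pp) T4.ok_pp (w := 88) (j := 3) (by decide +kernel)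
theorem L01234 : Good (Phi V4.P V4.D 1 1) ⟨9, 442, 7, 74, 2, 1, 4, 15, 3, 1⟩ :=
  out_sound (S := T4.ds_pp) T4.ok_pp (w := 96) (j := 3) (by decide +kernel)
theorem L01235 : Good (Phi V4.P V4.D 1 1) ⟨10, 886, 8, 148, 2, 1, 4, 15, 3, 1⟩ :=
  out_sound (S := T4.ds_pp) T4.ok_pp (w := 104) (j := 3) (by decide +kernel)
theorem L01236 : Good (Phi V4.P V4.D 1 1) ⟨10, 887, 8, 148, 2, 1, 4, 15, 3, 1⟩ :=
  out_sound (S := T4.ds_pp) T4.ok_pp (w := 32) (j := 4) (by decide +kernel)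
theorem L01237 : Good (Phi V4.P V4.D 1 1) ⟨9, 443, 8, 149, 2, 1, 4, 15, 3, 1⟩ :=
  out_sound (S := T4.ds_pp) T4.ok_pp (w := 96) (j := 3) (by decide +kernel)
theorem L01238 : Good (Phi V4.P V4.D 1 1) ⟨8, 221, 7, 75, 2, 1, 4, 15, 3, 1⟩ :=
  out_sound (S := T4.ds_pp) T4.ok_pp (w := 88) (j := 3) (by decide +kernel)
theorem L01239 : Good (Phi V4.P V4.D 1 1) ⟨7, 111, 5, 18, 2, 1, 4, 15, 3, 1⟩ :=
  out_sound (S := T4.ds_pp) T4.ok_pp (w := 24) (j := 4) (by decide +kernel)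
theorem L01240 : Good (Phi V4.P V4.D 1 1) ⟨7, 110, 5, 19, 2, 1, 4, 15, 2, 0⟩ :=
  out_sound (S := T4.ds_pp) T4.ok_pp (w := 80) (j := 3) (by decide +kernel)
theorem L01241 : Good (Phi V4.P V4.D 1 1) ⟨7, 111, 5, 19, 2, 1, 4, 15, 2, 0⟩ :=
  out_sound (S := T4.ds_pp) T4.ok_pp (w := 24) (j := 4) (by decide +kernel)
theorem L01242 : Good (Phi V4.P V4.D 1 1) ⟨4, 13, 3, 5, 2, 1, 4, 15, 2, 0⟩ :=
  out_sound (S := T4.ds_pp) T4.ok_pp (w := 56) (j := 3) (by decide +kernel)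
theorem L01243 : Good (Phi V4.P V4.D 1 1) ⟨3, 7, 2, 2, 2, 1, 3, 7, 2, 0⟩ :=
  out_sound (S := T4.ds_pp) T4.ok_pp (w := 16) (j := 4) (by decide +kernel)
theorem L01244 : Good (Phi V4.P V4.D 1 1) ⟨2, 2, 2, 3, 2, 1, 1, 1, 2, 0⟩ :=
  out_sound (S := T4.ds_pp) T4.ok_pp (w := 40) (j := 3) (by decide +kernel)
theorem L01245 : Good (Phi V4.P V4.D 1 1) ⟨3, 6, 2, 3, 2, 1, 1, 1, 2, 0⟩ :=
  out_sound (S := T4.ds_pp) T4.ok_pp (w := 48) (j := 3) (by decide +kernel)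
theorem L01246 : Good (Phi V4.P V4.D 1 1) ⟨3, 7, 2, 3, 2, 1, 1, 1, 2, 0⟩ :=
  out_sound (S := T4.ds_pp) T4.ok_pp (w := 16) (j := 4) (by decide +kernel)
theorem L01247 : Good (Phi V4.P V4.D 1 1) ⟨2, 2, 1, 1, 2, 0, 2, 2, 2, 1⟩ :=
  out_sound (S := T4.ds_pp) T4.ok_pp (w := 40) (j := 3) (by decide +kernel)
theorem L01248 : Good (Phi V4.P V4.D 1 1) ⟨4, 12, 2, 2, 2, 0, 2, 2, 2, 1⟩ :=
  out_sound (S := T4.ds_pp) T4.ok_pp (w := 56) (j := 3) (by decide +kernel)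
theorem L01249 : Good (Phi V4.P V4.D 1 1) ⟨4, 13, 3, 4, 2, 0, 3, 4, 2, 1⟩ :=
  leaf_sound (S := T4.ds_pp) T4.ok_pp (w := 176) (c := ⟨⟨.negSucc 1214, .negSucc 3, .negSucc 114, .negSucc 217, .negSucc 0, .ofNat 263⟩, ⟨.negSucc 611, .negSucc 50, .negSucc 141, .negSucc 119, .negSucc 0, .ofNat 145⟩, ⟨.ofNat 969, .negSucc 61, .ofNat 156, .negSucc 6, .negSucc 36, .negSucc 308⟩, ⟨.negSucc 1895, .ofNat 63, .negSucc 137, .negSucc 310, .ofNat 1, .ofNat 408⟩, ⟨.ofNat 0, .negSucc 26, .ofNat 18, .negSucc 36, .negSucc 4, .negSucc 16⟩, .ofNat 1829, .negSucc 2767, .ofNat 0, .negSucc 2767, .ofNat 5258, .ofNat 0, .ofNat 173, .ofNat 463, .negSucc 523, .ofNat 0, .ofNat 285, .negSucc 280, .ofNat 0, .ofNat 0, .ofNat 962, .ofNat 8167, .ofNat 0, .ofNat 0, .ofNat 13273810217848225675188633600, .ofNat 0, .ofNat 0, .ofNat 0, .ofNat 3995169727706900509340624486400, .ofNat 0, .ofNat 0,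 .ofNat 0, .ofNat 2461976303842683796051722240000, .ofNat 0, .ofNat 0, .ofNat 0, .ofNat 2293884498818393406248583168000, .ofNat 0⟩)
    (by decide +kernel)
theorem L01250 : Good (Phi V4.P V4.D 1 1) ⟨4, 13, 3, 5, 2, 0, 3, 4, 2, 1⟩ :=
  out_sound (S := T4.ds_pp) T4.ok_pp (w := 56) (j := 3) (by decide +kernel)
theorem L01251 : Good (Phi V4.P V4.D 1 1) ⟨5, 26, 2, 2, 2, 0, 3, 5, 2, 1⟩ :=
  out_sound (S := T4.ds_pp) T4.ok_pp (w := 56) (j := 3) (by decide +kernel)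
theorem L01252 : Good (Phi V4.P V4.D 1 1) ⟨5, 27, 3, 4, 2, 0, 3, 5, 2, 1⟩ :=
  leaf_sound (S := T4.ds_pp) T4.ok_pp (w := 176) (c := ⟨⟨.negSucc 1123, .negSucc 53, .negSucc 84, .negSucc 333, .negSucc 11, .ofNat 222⟩, ⟨.negSucc 585, .negSucc 57, .negSucc 119, .negSucc 183, .negSucc 7, .ofNat 122⟩, ⟨.ofNat 760, .ofNat 87, .ofNat 48, .ofNat 130, .negSucc 13, .negSucc 204⟩, ⟨.negSucc 1720, .negSucc 32, .negSucc 105, .negSucc 478, .negSucc 16, .ofNat 335⟩, ⟨.negSucc 17, .negSucc 26, .ofNat 28, .negSucc 49, .ofNat 0, .ofNat 3⟩, .ofNat 1866, .negSucc 2826, .ofNat 0, .negSucc 2826, .ofNat 5349, .ofNat 0, .ofNat 88, .ofNat 240, .negSucc 322, .ofNat 0, .ofNat 148, .negSucc 173, .ofNat 0, .ofNat 0, .ofNat 515, .ofNat 3764, .ofNat 0, .ofNat 0, .ofNat 0, .ofNat 0, .ofNat 0, .ofNat 0, .ofNat 391614824096823274647846912000, .ofNat 0, .ofNat 0, .ofNat 0, .ofNat 201021762296654105485403750400,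 .ofNat 0, .ofNat 0, .ofNat 0, .ofNat 0, .ofNat 0⟩)
    (by decide +kernel)
theorem L01253 : Good (Phi V4.P V4.D 1 1) ⟨5, 27, 3, 5, 2, 0, 3, 5, 2, 1⟩ :=
  out_sound (S := T4.ds_pp) T4.ok_pp (w := 64) (j := 3) (by decide +kernel)
theorem L01254 : Good (Phi V4.P V4.D 1 1) ⟨3, 6, 2, 3, 2, 0, 2, 2, 2, 1⟩ :=
  out_sound (S := T4.ds_pp) T4.ok_pp (w := 48) (j := 3) (by decide +kernel)
theorem L01255 : Good (Phi V4.P V4.D 1 1) ⟨3, 7, 1, 1, 2, 0, 2, 2, 2, 1⟩ :=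
  out_sound (S := T4.ds_pp) T4.ok_pp (w := 16) (j := 4) (by decide +kernel)
theorem L01256 : Good (Phi V4.P V4.D 1 1) ⟨2, 2, 1, 1, 2, 0, 3, 6, 2, 1⟩ :=
  out_sound (S := T4.ds_pp) T4.ok_pp (w := 40) (j := 3) (by decide +kernel)
theorem L01257 : Good (Phi V4.P V4.D 1 1) ⟨3, 6, 2, 2, 2, 0, 3, 6, 2, 1⟩ :=
  leaf_sound (S := T4.ds_pp) T4.ok_pp (w := 168) (c := ⟨⟨.negSucc 808, .negSucc 221, .negSucc 184, .negSucc 570, .negSucc 42, .ofNat 148⟩, ⟨.negSucc 343, .negSucc 214, .negSucc 254, .negSucc 315, .negSucc 23, .ofNat 83⟩, ⟨.ofNat 403, .ofNat 194, .ofNat 184, .ofNat 385, .ofNat 32, .negSucc 70⟩, ⟨.negSucc 1293, .negSucc 263, .negSucc 178, .negSucc 833, .negSucc 64, .ofNat 218⟩, ⟨.negSucc 29, .ofNat 14, .negSucc 2, .negSucc 55, .ofNat 0, .ofNat 10⟩, .ofNat 772, .negSucc 905, .ofNat 0, .negSucc 905, .ofNat 1887, .ofNat 0, .ofNat 143, .ofNat 229, .negSucc 448, .ofNat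 0, .ofNat 163, .negSucc 229, .ofNat 0, .ofNat 0, .ofNat 603, .ofNat 1168, .ofNat 0, .ofNat 0, .ofNat 7057644112979884668616704000, .ofNat 0, .ofNat 0, .ofNat 0, .ofNat 0, .ofNat 0, .ofNat 0, .ofNat 0, .ofNat 0, .ofNat 0, .ofNat 0, .ofNat 0, .ofNat 618596629658667837097928294400, .ofNat 0⟩)
    (by decide +kernel)
theorem L01258 : Good (Phi V4.P V4.D 1 1) ⟨3, 6, 2, 3, 2, 0, 3, 6, 2, 1⟩ :=
  out_sound (S := T4.ds_pp) T4.ok_pp (w := 48) (j := 3) (by decide +kernel)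
theorem L01259 : Good (Phi V4.P V4.D 1 1) ⟨3, 7, 1, 1, 2, 0, 3, 6, 2, 1⟩ :=
  out_sound (S := T4.ds_pp) T4.ok_pp (w := 16) (j := 4) (by decide +kernel)
theorem L01260 : Good (Phi V4.P V4.D 1 1) ⟨2, 2, 2, 2, 2, 0, 3, 7, 2, 1⟩ :=
  out_sound (S := T4.ds_pp) T4.ok_pp (w := 40) (j := 3) (by decide +kernel)
theorem L01261 : Good (Phi V4.P V4.D 1 1) ⟨4, 12, 3, 4, 2, 0, 3, 7, 2, 1⟩ :=
  out_sound (S := T4.ds_pp) T4.ok_pp (w := 56) (j := 3) (by decide +kernel)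
theorem L01262 : Good (Phi V4.P V4.D 1 1) ⟨5, 26, 3, 4, 2, 0, 3, 7, 2, 1⟩ :=
  out_sound (S := T4.ds_pp) T4.ok_pp (w := 64) (j := 3) (by decide +kernel)
theorem L01263 : Good (Phi V4.P V4.D 1 1) ⟨5, 27, 4, 8, 2, 0, 4, 14, 2, 1⟩ :=
  leaf_sound (S := T4.ds_pp) T4.ok_pp (w := 184) (c := ⟨⟨.negSucc 655, .negSucc 1169, .ofNat 484, .negSucc 1069, .negSucc 58, .ofNat 69⟩, ⟨.negSucc 332, .negSucc 637, .ofNat 210, .negSucc 583, .negSucc 33, .ofNat 40⟩, ⟨.ofNat 210, .ofNat 1109, .negSucc 455, .ofNat 890, .ofNat 57, .ofNat 27⟩, ⟨.negSucc 1006, .negSucc 1759, .ofNat 766, .negSucc 1595, .negSucc 87, .ofNat 96⟩, ⟨.negSucc 18, .ofNat 17, .negSucc 11, .negSucc 58, .negSucc 0, .ofNat 13⟩, .ofNat 1760, .negSucc 2660, .ofNat 0, .negSucc 2660, .ofNat 5104, .ofNat 0, .ofNat 99, .ofNat 257, .negSucc 571, .ofNat 0, .ofNat 158, .negSucc 305, .ofNat 0, .ofNat 0, .ofNat 696, .ofNat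 1055, .ofNat 0, .ofNat 101890401747866826198656299617484800, .ofNat 39985857749682822293382758400, .ofNat 0, .ofNat 0, .ofNat 0, .ofNat 8395089391105781547417993216000, .ofNat 0, .ofNat 0, .ofNat 0, .ofNat 5727316049502490758843098726400, .ofNat 0, .ofNat 0, .ofNat 0, .ofNat 3698425711747419838429003776000, .ofNat 0⟩)
    (by decide +kernel)
theorem L01264 : Good (Phi V4.P V4.D 1 1) ⟨6, 54, 4, 9, 2, 0, 4, 14, 2, 1⟩ :=
  out_sound (S := T4.ds_pp) T4.ok_pp (w := 72) (j := 3) (by decide +kernel)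
theorem L01265 : Good (Phi V4.P V4.D 1 1) ⟨6, 55, 4, 9, 3, 0, 4, 14, 2, 1⟩ :=
  leaf_sound (S := T4.ds_pp) T4.ok_pp (w := 208) (c := ⟨⟨.negSucc 896, .ofNat 23, .negSucc 135, .negSucc 570, .negSucc 8, .ofNat 127⟩, ⟨.negSucc 503, .negSucc 9, .negSucc 101, .negSucc 326, .negSucc 4, .ofNat 73⟩, ⟨.ofNat 436, .negSucc 29, .ofNat 140, .ofNat 498, .ofNat 5, .negSucc 19⟩, ⟨.negSucc 1349, .ofNat 48, .negSucc 182, .negSucc 829, .negSucc 13, .ofNat 186⟩, ⟨.negSucc 9, .ofNat 3, .negSucc 6, .negSucc 48, .ofNat 1, .ofNat 8⟩, .ofNat 5800, .negSucc 9607, .ofNat 0, .negSucc 9607, .ofNat 17031, .ofNat 0, .ofNat 105, .ofNat 546, .negSucc 1217, .ofNat 0, .ofNat 322, .negSucc 691, .ofNat 0, .ofNat 0, .ofNat 1466, .ofNat 2385, .ofNat 0, .ofNat 0, .ofNat 0, .ofNat 0, .ofNat 0, .ofNat 0, .ofNat 8785751692669589078810721622425600, .ofNat 0, .ofNat 0, .ofNat 0, .ofNat 0, .ofNat 0, .ofNat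 0, .ofNat 0, .ofNat 0, .ofNat 0⟩)
    (by decide +kernel)
theorem L01266 : Good (Phi V4.P V4.D 1 1) ⟨6, 55, 5, 18, 3, 1, 4, 14, 2, 1⟩ :=
  leaf_sound (S := T4.ds_pp) T4.ok_pp (w := 200) (c := ⟨⟨.negSucc 1161, .negSucc 197, .ofNat 8, .negSucc 547, .negSucc 269, .negSucc 128⟩, ⟨.negSucc 654, .negSucc 126, .negSucc 22, .negSucc 312, .negSucc 153, .negSucc 73⟩, ⟨.ofNat 631, .ofNat 206, .negSucc 14, .ofNat 421, .ofNat 264, .ofNat 227⟩, ⟨.negSucc 1722, .negSucc 280, .ofNat 30, .negSucc 821, .negSucc 399, .negSucc 200⟩, ⟨.negSucc 53, .negSucc 11, .ofNat 3, .negSucc 3, .negSucc 9, .ofNat 13⟩, .ofNat 2219, .negSucc 3381, .ofNat 0, .negSucc 3381, .ofNat 6180, .ofNat 0, .ofNat 86, .ofNat 273, .negSucc 609, .ofNat 0, .ofNat 168, .negSucc 340, .ofNat 0, .ofNat 0, .ofNat 726, .ofNat 1360, .ofNat 0, .ofNat 1633950340139771497722248846032188211200, .ofNat 0, .ofNat 0, .ofNat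 0, .ofNat 0, .ofNat 0, .ofNat 0, .ofNat 0, .ofNat 0, .ofNat 0, .ofNat 0, .ofNat 0, .ofNat 0, .ofNat 0, .ofNat 0⟩)
    (by decide +kernel)
theorem L01267 : Good (Phi V4.P V4.D 1 1) ⟨7, 110, 5, 19, 3, 1, 4, 14, 2, 1⟩ :=
  out_sound (S := T4.ds_pp) T4.ok_pp (w := 80) (j := 3) (by decide +kernel)
theorem L01268 : Good (Phi V4.P V4.D 1 1) ⟨7, 111, 5, 19, 3, 1, 4, 14, 2, 1⟩ :=
  out_sound (S := T4.ds_pp) T4.ok_pp (w := 24) (j := 4) (by decide +kernel)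

end Crest.Agent.R097C4.N4pp
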