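import Crest.Agent.R097.T4

/-!
# Row 97, box cover in dimension n = 4 (generated)
-/

set_option autoImplicit false
set_option Elab.async false
set_option maxHeartbeats 0
set_option maxRecDepth 100000

open Crest.Agent.R097 Crest.Agent.R097.KA


namespace Crest.Agent.R097C4.N4pp

theorem L01269 : Good (Phi V4.P V4.D 1 1) ⟨6, 54, 4, 8, 2, 0, 5, 30, 3, 2⟩ :=
  leaf_sound (S := T4.ds_pp) T4.ok_pp (w := 200) (c := ⟨⟨.negSucc 492, .negSucc 39, .negSucc 214, .negSucc 1401, .negSucc 48, .negSucc 85⟩, ⟨.negSucc 243, .negSucc 27, .negSucc 168, .negSucc 755, .negSucc 27, .negSucc 46⟩, ⟨.ofNat 38, .ofNat 39, .ofNat 206, .ofNat 1208, .ofNat 45, .ofNat 148⟩, ⟨.negSucc 762, .negSucc 43, .negSucc 299, .negSucc 2100, .negSucc 71, .negSucc 132⟩, ⟨.negSucc 13, .ofNat 17, .negSucc 21, .negSucc 68, .negSucc 2, .ofNat 6⟩, .ofNat 1678, .negSucc 2530, .ofNat 0, .negSucc 2530, .ofNat 4913, .ofNat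 0, .ofNat 112, .ofNat 281, .negSucc 805, .ofNat 0, .ofNat 172, .negSucc 425, .ofNat 0, .ofNat 0, .ofNat 905, .ofNat 1033, .ofNat 0, .ofNat 0, .ofNat 0, .ofNat 0, .ofNat 0, .ofNat 0, .ofNat 0, .ofNat 0, .ofNat 0, .ofNat 0, .ofNat 0, .ofNat 0, .ofNat 0, .ofNat 0, .ofNat 0, .ofNat 0⟩)
    (by decide +kernel)
theorem L01270 : Good (Phi V4.P V4.D 1 1) ⟨6, 54, 4, 8, 2, 0, 5, 31, 3, 2⟩ :=
  leaf_sound (S := T4.ds_pp) T4.ok_pp (w := 200) (c := ⟨⟨.negSucc 202, .negSucc 194, .negSucc 134, .negSucc 1912, .ofNat 102, .negSucc 178⟩, ⟨.negSucc 88, .negSucc 106, .negSucc 131, .negSucc 1034, .ofNat 56, .negSucc 96⟩, ⟨.negSucc 255, .ofNat 167, .ofNat 156, .ofNat 1730, .negSucc 99, .ofNat 249⟩, ⟨.negSucc 324, .negSucc 277, .negSucc 178, .negSucc 2864, .ofNat 154, .negSucc 274⟩, ⟨.negSucc 3, .ofNat 2, .negSucc 8, .negSucc 92, .ofNat 1, .ofNat 2⟩, .ofNat 1709, .negSucc 2580, .ofNat 0, .negSucc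 2580, .ofNat 4985, .ofNat 0, .ofNat 226, .ofNat 573, .negSucc 2020, .ofNat 0, .ofNat 351, .negSucc 1073, .ofNat 0, .ofNat 0, .ofNat 2182, .ofNat 1257, .ofNat 0, .ofNat 93647709636393570754406730609092198400, .ofNat 0, .ofNat 0, .ofNat 0, .ofNat 0, .ofNat 0, .ofNat 0, .ofNat 0, .ofNat 0, .ofNat 0, .ofNat 0, .ofNat 0, .ofNat 17603946496863871240928140024384743014400, .ofNat 0, .ofNat 0⟩)
    (by decide +kernel)
theorem L01271 : Good (Phi V4.P V4.D 1 1) ⟨6, 54, 4, 9, 2, 0, 4, 15, 3, 2⟩ :=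
  out_sound (S := T4.ds_pp) T4.ok_pp (w := 72) (j := 3) (by decide +kernel)
theorem L01272 : Good (Phi V4.P V4.D 1 1) ⟨7, 110, 5, 16, 2, 0, 4, 15, 3, 2⟩ :=
  out_sound (S := T4.ds_pp) T4.ok_pp (w := 80) (j := 3) (by decide +kernel)
theorem L01273 : Good (Phi V4.P V4.D 1 1) ⟨7, 110, 5, 17, 2, 0, 4, 15, 3, 2⟩ :=
  leaf_sound (S := T4.ds_pp) T4.ok_pp (w := 200) (c := ⟨⟨.negSucc 373, .ofNat 219, .negSucc 230, .negSucc 1802, .ofNat 45, .negSucc 122⟩, ⟨.negSucc 191, .ofNat 117, .negSucc 151, .negSucc 1015, .ofNat 26, .negSucc 68⟩, ⟨.negSucc 139, .negSucc 264, .ofNat 303, .ofNat 1613, .negSucc 46, .ofNat 187⟩, ⟨.negSucc 583, .ofNat 325, .negSucc 319, .negSucc 2671, .ofNat 71, .negSucc 185⟩, ⟨.ofNat 19, .ofNat 29, .negSucc 35, .negSucc 87, .negSucc 5, .ofNat 1⟩, .ofNat 4690, .negSucc 7762, .ofNat 0, .negSucc 7762, .ofNat 13981, .ofNat 0, .ofNat 66, .ofNat 295, .negSucc 894, .ofNat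 0, .ofNat 173, .negSucc 501, .ofNat 0, .ofNat 0, .ofNat 986, .ofNat 504, .ofNat 0, .ofNat 733467005422022547418803389414454067200, .ofNat 147687562799505275383657267200, .ofNat 0, .ofNat 0, .ofNat 0, .ofNat 70983901185917591699672216371200, .ofNat 0, .ofNat 0, .ofNat 0, .ofNat 0, .ofNat 0, .ofNat 0, .ofNat 91812823134850585639011243427606875340800, .ofNat 18926492626410758392622402764800, .ofNat 0⟩)
    (by decide +kernel)
theorem L01274 : Good (Phi V4.P V4.D 1 1) ⟨7, 111, 4, 8, 2, 0, 4, 15, 3, 2⟩ :=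
  out_sound (S := T4.ds_pp) T4.ok_pp (w := 72) (j := 3) (by decide +kernel)
theorem L01275 : Good (Phi V4.P V4.D 1 1) ⟨7, 110, 5, 18, 3, 0, 4, 15, 3, 2⟩ :=
  leaf_sound (S := T4.ds_pp) T4.ok_pp (w := 216) (c := ⟨⟨.negSucc 677, .ofNat 257, .negSucc 497, .negSucc 1049, .ofNat 140, .ofNat 47⟩, ⟨.negSucc 377, .ofNat 134, .negSucc 294, .negSucc 599, .ofNat 80, .ofNat 26⟩, ⟨.ofNat 201, .negSucc 257, .ofNat 499, .ofNat 981, .negSucc 140, .ofNat 21⟩, ⟨.negSucc 1022, .ofNat 388, .negSucc 732, .negSucc 1543, .ofNat 210, .ofNat 68⟩, ⟨.negSucc 5, .ofNat 14, .negSucc 17, .negSucc 58, .ofNat 0, .ofNat 4⟩, .ofNat 5658, .negSucc 9373, .ofNat 0, .negSucc 9373, .ofNat 16644, .ofNat 0, .ofNat 58, .ofNat 297, .negSucc 981, .ofNat 0, .ofNat 175, .negSucc 557, .ofNat 0, .ofNat 0, .ofNat 1072, .ofNat 469, .ofNat 0, .ofNat 0, .ofNat 0, .ofNat 0, .ofNat 0, .ofNat 0, .ofNat 0, .ofNat 0, .ofNat 0,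 .ofNat 0, .ofNat 0, .ofNat 0, .ofNat 0, .ofNat 9386783714095537974326867686830793084108800, .ofNat 0, .ofNat 0⟩)
    (by decide +kernel)
theorem L01276 : Good (Phi V4.P V4.D 1 1) ⟨7, 110, 5, 18, 3, 1, 5, 30, 3, 2⟩ :=
  leaf_sound (S := T4.ds_pp) T4.ok_pp (w := 216) (c := ⟨⟨.negSucc 1143, .negSucc 266, .ofNat 81, .negSucc 830, .negSucc 294, .negSucc 206⟩, ⟨.negSucc 637, .negSucc 170, .ofNat 24, .negSucc 475, .negSucc 168, .negSucc 118⟩, ⟨.ofNat 617, .ofNat 257, .negSucc 82, .ofNat 690, .ofNat 289, .ofNat 262⟩, ⟨.negSucc 1703, .negSucc 378, .ofNat 129, .negSucc 1234, .negSucc 435, .negSucc 313⟩, ⟨.negSucc 48, .negSucc 13, .ofNat 11, .negSucc 22, .negSucc 12, .ofNat 5⟩, .ofNat 2230, .negSucc 3397, .ofNat 0, .negSucc 3397, .ofNat 6204, .ofNat 0, .ofNat 183, .ofNat 586, .negSucc 1753, .ofNat 0, .ofNat 360, .negSucc 982, .ofNat 0, .ofNat 0, .ofNat 1923, .ofNat 4726, .ofNat 0,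 .ofNat 0, .ofNat 0, .ofNat 0, .ofNat 0, .ofNat 0, .ofNat 0, .ofNat 0, .ofNat 0, .ofNat 0, .ofNat 0, .ofNat 0, .ofNat 0, .ofNat 58253150380250715317811909485549177536512000, .ofNat 173221919422624125556516303405056000, .ofNat 0⟩)
    (by decide +kernel)
theorem L01277 : Good (Phi V4.P V4.D 1 1) ⟨7, 110, 5, 18, 3, 1, 5, 31, 3, 2⟩ :=
  leaf_sound (S := T4.ds_pp) T4.ok_pp (w := 216) (c := ⟨⟨.negSucc 1259, .negSucc 233, .negSucc 90, .negSucc 1141, .negSucc 492, .negSucc 316⟩, ⟨.negSucc 701, .negSucc 156, .negSucc 74, .negSucc 653, .negSucc 282, .negSucc 181⟩, ⟨.ofNat 721, .ofNat 237, .ofNat 82, .ofNat 995, .ofNat 484, .ofNat 381⟩, ⟨.negSucc 1880, .negSucc 328, .negSucc 120, .negSucc 1689, .negSucc 727, .negSucc 474⟩, ⟨.negSucc 48, .negSucc 10, .negSucc 0, .negSucc 47, .negSucc 21, .negSucc 3⟩, .ofNat 2226, .negSucc 3391, .ofNat 0, .negSucc 3391, .ofNat 6194, .ofNat 0, .ofNat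 374, .ofNat 1197, .negSucc 4491, .ofNat 0, .ofNat 736, .negSucc 2517, .ofNat 0, .ofNat 0, .ofNat 4744, .ofNat 4599, .ofNat 0, .ofNat 4254618986235435906832330226348418347827200, .ofNat 0, .ofNat 0, .ofNat 0, .ofNat 0, .ofNat 0, .ofNat 0, .ofNat 0, .ofNat 0, .ofNat 0, .ofNat 0, .ofNat 0, .ofNat 915921615571132278516499462395828530420121600, .ofNat 0, .ofNat 0⟩)
    (by decide +kernel)
theorem L01278 : Good (Phi V4.P V4.D 1 1) ⟨7, 111, 5, 18, 2, 0, 4, 15, 3, 2⟩ :=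
  out_sound (S := T4.ds_pp) T4.ok_pp (w := 24) (j := 4) (by decide +kernel)
theorem L01279 : Good (Phi V4.P V4.D 1 1) ⟨7, 110, 5, 19, 2, 0, 4, 15, 3, 2⟩ :=
  out_sound (S := T4.ds_pp) T4.ok_pp (w := 80) (j := 3) (by decide +kernel)
theorem L01280 : Good (Phi V4.P V4.D 1 1) ⟨7, 111, 5, 19, 2, 0, 4, 15, 3, 2⟩ :=
  out_sound (S := T4.ds_pp) T4.ok_pp (w := 24) (j := 4) (by decide +kernel)
theorem L01281 : Good (Phi V4.P V4.D 1 1) ⟨6, 54, 4, 8, 2, 0, 5, 30, 3, 3⟩ :=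
  leaf_sound (S := T4.ds_pp) T4.ok_pp (w := 192) (c := ⟨⟨.negSucc 336, .negSucc 362, .ofNat 170, .negSucc 1801, .negSucc 62, .negSucc 71⟩, ⟨.negSucc 158, .negSucc 216, .ofNat 60, .negSucc 976, .negSucc 33, .negSucc 38⟩, ⟨.negSucc 71, .ofNat 382, .negSucc 199, .ofNat 1631, .ofNat 66, .ofNat 132⟩, ⟨.negSucc 535, .negSucc 508, .ofNat 255, .negSucc 2699, .negSucc 92, .negSucc 107⟩, ⟨.ofNat 5, .negSucc 16, .ofNat 14, .negSucc 84, .negSucc 4, .negSucc 3⟩, .ofNat 743, .negSucc 863, .ofNat 0, .negSucc 863, .ofNat 1846, .ofNat 0, .ofNat 150, .ofNat 228, .negSucc 764, .ofNat 0, .ofNat 164, .negSucc 384, .ofNat 0, .ofNat 0, .ofNat 855, .ofNat 1527, .ofNat 0, .ofNat 57273621167258310753194318090993664000, .ofNat 0, .ofNat 0, .ofNat 0, .ofNat 0, .ofNat 0, .ofNat 0, .ofNat 0, .ofNat 0, .ofNat 0, .ofNat 0, .ofNat 0, .ofNat 1404457995781658595538936358281779609600, .ofNat 244096390199812275175023024537600,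 .ofNat 0⟩)
    (by decide +kernel)
theorem L01282 : Good (Phi V4.P V4.D 1 1) ⟨6, 55, 4, 8, 2, 0, 5, 30, 3, 3⟩ :=
  leaf_sound (S := T4.ds_pp) T4.ok_pp (w := 200) (c := ⟨⟨.negSucc 667, .negSucc 218, .ofNat 166, .negSucc 1904, .negSucc 70, .negSucc 32⟩, ⟨.negSucc 342, .negSucc 143, .ofNat 59, .negSucc 1072, .negSucc 39, .negSucc 18⟩, ⟨.ofNat 279, .ofNat 237, .negSucc 188, .ofNat 1726, .ofNat 79, .ofNat 88⟩, ⟨.negSucc 1020, .negSucc 305, .ofNat 260, .negSucc 2823, .negSucc 102, .negSucc 48⟩, ⟨.negSucc 11, .negSucc 9, .ofNat 15, .negSucc 89, .negSucc 5, .negSucc 1⟩, .ofNat 2042, .negSucc 3104, .ofNat 0, .negSucc 3104, .ofNat 5764, .ofNat 0, .ofNat 87, .ofNat 257, .negSucc 731, .ofNat 0, .ofNat 158, .negSucc 403, .ofNat 0, .ofNat 0, .ofNat 826, .ofNat 1031, .ofNat 0, .ofNat 61549720757098761694795789810375065600, .ofNat 0, .ofNat 0, .ofNat 0, .ofNat 630353792074746911124799345938923520000,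 .ofNat 763065926279540946646754918400000, .ofNat 0, .ofNat 0, .ofNat 1218481128378623066822055926511855206400, .ofNat 0, .ofNat 0, .ofNat 0, .ofNat 1826266738964606843457192415672349491200, .ofNat 458372251511005374104372615577600, .ofNat 0⟩)
    (by decide +kernel)
theorem L01283 : Good (Phi V4.P V4.D 1 1) ⟨5, 27, 4, 9, 3, 0, 5, 30, 3, 3⟩ :=
  leaf_sound (S := T4.ds_pp) T4.ok_pp (w := 208) (c := ⟨⟨.negSucc 434, .negSucc 161, .negSucc 244, .negSucc 1010, .negSucc 39, .negSucc 4⟩, ⟨.negSucc 233, .negSucc 108, .negSucc 175, .negSucc 579, .negSucc 22, .negSucc 2⟩, ⟨.ofNat 25, .ofNat 161, .ofNat 240, .ofNat 942, .ofNat 42, .ofNat 55⟩, ⟨.negSucc 665, .negSucc 230, .negSucc 339, .negSucc 1488, .negSucc 58, .negSucc 6⟩, ⟨.ofNat 1, .negSucc 0, .negSucc 3, .negSucc 53, .negSucc 0, .ofNat 1⟩, .ofNat 5793, .negSucc 9597, .ofNat 0, .negSucc 9597, .ofNat 17016, .ofNat 0, .ofNat 101,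 .ofNat 527, .negSucc 1439, .ofNat 0, .ofNat 311, .negSucc 818, .ofNat 0, .ofNat 0, .ofNat 1636, .ofNat 1022, .ofNat 0, .ofNat 0, .ofNat 0, .ofNat 0, .ofNat 0, .ofNat 0, .ofNat 3416836619431933726770879279818342400, .ofNat 0, .ofNat 0, .ofNat 0, .ofNat 0, .ofNat 0, .ofNat 0, .ofNat 0, .ofNat 1033090716727635006884690253997670400, .ofNat 0⟩)
    (by decide +kernel)
theorem L01284 : Good (Phi V4.P V4.D 1 1) ⟨5, 27, 4, 9, 3, 1, 5, 30, 3, 3⟩ :=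
  leaf_sound (S := T4.ds_pp) T4.ok_pp (w := 208) (c := ⟨⟨.negSucc 1325, .negSucc 95, .negSucc 308, .negSucc 941, .negSucc 363, .negSucc 93⟩, ⟨.negSucc 729, .negSucc 87, .negSucc 243, .negSucc 538, .negSucc 207, .negSucc 53⟩, ⟨.ofNat 851, .ofNat 90, .ofNat 305, .ofNat 804, .ofNat 363, .ofNat 146⟩, ⟨.negSucc 1988, .negSucc 120, .negSucc 409, .negSucc 1398, .negSucc 535, .negSucc 139⟩, ⟨.negSucc 44, .negSucc 0, .negSucc 14, .negSucc 30, .negSucc 18, .negSucc 1⟩, .ofNat 2233, .negSucc 3403, .ofNat 0, .negSucc 3403, .ofNat 6212, .ofNat 0, .ofNat 331, .ofNat 1060, .negSucc 2969, .ofNat 0, .ofNat 652, .negSucc 1665, .ofNat 0, .ofNat 0, .ofNat 3315, .ofNat 3825, .ofNat 0, .ofNat 1883985624611032695058134537225633792000, .ofNat 8464210484976195699358286689075200, .ofNat 0, .ofNat 0, .ofNat 0, .ofNat 0, .ofNat 0, .ofNat 0, .ofNat 0, .ofNat 0, .ofNat 0, .ofNat 0, .ofNat 174228786826983534661061544731003269939200,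 .ofNat 0, .ofNat 0⟩)
    (by decide +kernel)
theorem L01285 : Good (Phi V4.P V4.D 1 1) ⟨6, 54, 4, 8, 2, 0, 5, 31, 3, 3⟩ :=
  leaf_sound (S := T4.ds_pp) T4.ok_pp (w := 200) (c := ⟨⟨.negSucc 205, .negSucc 346, .ofNat 132, .negSucc 2489, .ofNat 191, .negSucc 16⟩, ⟨.negSucc 92, .negSucc 210, .ofNat 52, .negSucc 1352, .ofNat 103, .negSucc 6⟩, ⟨.negSucc 204, .ofNat 354, .negSucc 138, .ofNat 2346, .negSucc 188, .ofNat 70⟩, ⟨.negSucc 330, .negSucc 492, .ofNat 196, .negSucc 3732, .ofNat 292, .negSucc 27⟩, ⟨.ofNat 5, .negSucc 7, .ofNat 3, .negSucc 108, .ofNat 1, .ofNat 0⟩, .ofNat 1736, .negSucc 2623, .ofNat 0, .negSucc 2623, .ofNat 5049, .ofNat 0, .ofNat 99, .ofNat 254, .negSucc 851, .ofNat 0, .ofNat 156, .negSucc 453, .ofNat 0, .ofNat 0, .ofNat 935, .ofNat 741, .ofNat 0, .ofNat 73341899816890921536478499994127564800, .ofNat 0, .ofNat 0, .ofNat 0, .ofNat 0, .ofNat 0, .ofNat 0, .ofNat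 0, .ofNat 3199322286471925588523002883574910156800, .ofNat 0, .ofNat 0, .ofNat 0, .ofNat 4826879181024765445400909917277336371200, .ofNat 0, .ofNat 0⟩)
    (by decide +kernel)
theorem L01286 : Good (Phi V4.P V4.D 1 1) ⟨6, 55, 4, 8, 2, 0, 5, 31, 3, 3⟩ :=
  leaf_sound (S := T4.ds_pp) T4.ok_pp (w := 200) (c := ⟨⟨.negSucc 279, .ofNat 29, .negSucc 53, .negSucc 2837, .ofNat 166, .negSucc 76⟩, ⟨.negSucc 136, .negSucc 11, .negSucc 50, .negSucc 1599, .ofNat 94, .negSucc 42⟩, ⟨.negSucc 126, .negSucc 25, .ofNat 51, .ofNat 2686, .negSucc 164, .ofNat 131⟩, ⟨.negSucc 439, .ofNat 62, .negSucc 65, .negSucc 4211, .ofNat 250, .negSucc 115⟩, ⟨.ofNat 10, .ofNat 9, .negSucc 7, .negSucc 123, .ofNat 1, .negSucc 0⟩, .ofNat 2047, .negSucc 3111, .ofNat 0, .negSucc 3111, .ofNat 5773, .ofNat 0, .ofNat 177, .ofNat 519, .negSucc 1834, .ofNat 0, .ofNat 320, .negSucc 1012, .ofNat 0, .ofNat 0, .ofNat 1992,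 .ofNat 1438, .ofNat 0, .ofNat 186489475264862322972325819020686131200, .ofNat 0, .ofNat 0, .ofNat 0, .ofNat 3156435926450767371316177616092161638400, .ofNat 3171149375219406034611176315289600, .ofNat 0, .ofNat 0, .ofNat 10992893661912097442809081483586489548800, .ofNat 0, .ofNat 0, .ofNat 0, .ofNat 24134583801637117660543418160274577817600, .ofNat 1150768341885362288722268966092800, .ofNat 0⟩)
    (by decide +kernel)
theorem L01287 : Good (Phi V4.P V4.D 1 1) ⟨6, 54, 4, 9, 2, 0, 5, 31, 3, 3⟩ :=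
  out_sound (S := T4.ds_pp) T4.ok_pp (w := 72) (j := 3) (by decide +kernel)
theorem L01288 : Good (Phi V4.P V4.D 1 1) ⟨7, 110, 4, 9, 2, 0, 5, 31, 3, 3⟩ :=
  leaf_sound (S := T4.ds_pp) T4.ok_pp (w := 208) (c := ⟨⟨.negSucc 265, .negSucc 147, .ofNat 59, .negSucc 2942, .ofNat 168, .negSucc 52⟩, ⟨.negSucc 138, .negSucc 101, .ofNat 18, .negSucc 1685, .ofNat 96, .negSucc 29⟩, ⟨.negSucc 149, .ofNat 157, .negSucc 69, .ofNat 2792, .negSucc 162, .ofNat 104⟩, ⟨.negSucc 410, .negSucc 209, .ofNat 99, .negSucc 4351, .ofNat 252, .negSucc 77⟩, ⟨.ofNat 4, .ofNat 0, .ofNat 0, .negSucc 126, .ofNat 1, .negSucc 3⟩, .ofNat 2239, .negSucc 3412, .ofNat 0, .negSucc 3412, .ofNat 6226, .ofNat 0, .ofNat 166, .ofNat 525, .negSucc 1886, .ofNat 0, .ofNat 324, .negSucc 1057, .ofNat 0, .ofNat 0, .ofNat 2039, .ofNat 1341, .ofNat 0, .ofNat 2676839022428908823461192409631896371200, .ofNat 0, .ofNat 0, .ofNat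 0, .ofNat 0, .ofNat 0, .ofNat 0, .ofNat 0, .ofNat 230089763972364163678957223005882889011200, .ofNat 0, .ofNat 0, .ofNat 0, .ofNat 368265158947606225803131666101846199500800, .ofNat 0, .ofNat 0⟩)
    (by decide +kernel)
theorem L01289 : Good (Phi V4.P V4.D 1 1) ⟨7, 111, 4, 9, 2, 0, 5, 31, 3, 3⟩ :=
  out_sound (S := T4.ds_pp) T4.ok_pp (w := 24) (j := 4) (by decide +kernel)
theorem L01290 : Good (Phi V4.P V4.D 1 1) ⟨3, 7, 3, 4, 2, 0, 3, 7, 2, 1⟩ :=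
  out_sound (S := T4.ds_pp) T4.ok_pp (w := 16) (j := 4) (by decide +kernel)
theorem L01291 : Good (Phi V4.P V4.D 1 1) ⟨3, 6, 3, 5, 2, 0, 3, 7, 2, 1⟩ :=
  out_sound (S := T4.ds_pp) T4.ok_pp (w := 48) (j := 3) (by decide +kernel)
theorem L01292 : Good (Phi V4.P V4.D 1 1) ⟨3, 7, 3, 5, 2, 0, 3, 7, 2, 1⟩ :=
  out_sound (S := T4.ds_pp) T4.ok_pp (w := 16) (j := 4) (by decide +kernel)
theorem L01293 : Good (Phi V4.P V4.D 1 1) ⟨2, 2, 2, 3, 2, 0, 3, 7, 2, 1⟩ :=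
  out_sound (S := T4.ds_pp) T4.ok_pp (w := 40) (j := 3) (by decide +kernel)
theorem L01294 : Good (Phi V4.P V4.D 1 1) ⟨3, 6, 2, 3, 2, 0, 3, 7, 2, 1⟩ :=
  out_sound (S := T4.ds_pp) T4.ok_pp (w := 48) (j := 3) (by decide +kernel)
theorem L01295 : Good (Phi V4.P V4.D 1 1) ⟨3, 7, 2, 3, 2, 0, 3, 7, 2, 1⟩ :=
  out_sound (S := T4.ds_pp) T4.ok_pp (w := 16) (j := 4) (by decide +kernel)
theorem L01296 : Good (Phi V4.P V4.D 1 1) ⟨2, 2, 1, 1, 2, 1, 2, 2, 2, 1⟩ :=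
  out_sound (S := T4.ds_pp) T4.ok_pp (w := 40) (j := 3) (by decide +kernel)
theorem L01297 : Good (Phi V4.P V4.D 1 1) ⟨4, 12, 2, 2, 2, 1, 2, 2, 3, 2⟩ :=
  out_sound (S := T4.ds_pp) T4.ok_pp (w := 56) (j := 3) (by decide +kernel)
theorem L01298 : Good (Phi V4.P V4.D 1 1) ⟨5, 26, 3, 4, 2, 1, 2, 2, 3, 2⟩ :=
  out_sound (S := T4.ds_pp) T4.ok_pp (w := 64) (j := 3) (by decide +kernel)
theorem L01299 : Good (Phi V4.P V4.D 1 1) ⟨5, 27, 3, 4, 2, 1, 3, 4, 3, 2⟩ :=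
  leaf_sound (S := T4.ds_pp) T4.ok_pp (w := 184) (c := ⟨⟨.negSucc 1369, .negSucc 148, .ofNat 59, .negSucc 372, .negSucc 67, .ofNat 119⟩, ⟨.negSucc 710, .negSucc 127, .negSucc 53, .negSucc 201, .negSucc 38, .ofNat 67⟩, ⟨.ofNat 912, .ofNat 93, .negSucc 34, .ofNat 48, .ofNat 17, .negSucc 189⟩, ⟨.negSucc 2080, .negSucc 231, .ofNat 181, .negSucc 679, .negSucc 94, .ofNat 200⟩, ⟨.negSucc 50, .ofNat 109, .negSucc 111, .ofNat 208, .negSucc 14, .negSucc 34⟩, .ofNat 1856, .negSucc 2809, .ofNat 0, .negSucc 2809, .ofNat 5321, .ofNat 0, .ofNat 188, .ofNat 531, .negSucc 548, .ofNat 0, .ofNat 323, .negSucc 291, .ofNat 0, .ofNat 0, .ofNat 1005, .ofNat 6461, .ofNat 0, .ofNat 0, .ofNat 0, .ofNat 0, .ofNat 0, .ofNat 0, .ofNat 32824409665848935456166012518400, .ofNat 0, .ofNat 0, .ofNat 0, .ofNat 0, .ofNat 0, .ofNat 0, .ofNat 0, .ofNat 0, .ofNat 0⟩)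
    (by decide +kernel)
theorem L01300 : Good (Phi V4.P V4.D 1 1) ⟨5, 27, 3, 4, 2, 1, 3, 5, 3, 2⟩ :=
  leaf_sound (S := T4.ds_pp) T4.ok_pp (w := 184) (c := ⟨⟨.negSucc 1342, .negSucc 27, .negSucc 130, .negSucc 500, .negSucc 126, .ofNat 59⟩, ⟨.negSucc 690, .negSucc 74, .negSucc 153, .negSucc 272, .negSucc 71, .ofNat 31⟩, ⟨.ofNat 819, .ofNat 59, .ofNat 45, .ofNat 152, .ofNat 87, .negSucc 84⟩, ⟨.negSucc 2026, .ofNat 94, .negSucc 263, .negSucc 883, .negSucc 187, .ofNat 86⟩, ⟨.negSucc 80, .negSucc 127, .ofNat 159, .ofNat 226, .negSucc 7, .ofNat 8⟩, .ofNat 764, .negSucc 893, .ofNat 0, .negSucc 893, .ofNat 1874, .ofNat 0, .ofNat 155, .ofNat 257, .negSucc 366, .ofNat 0, .ofNat 179, .negSucc 181, .ofNat 0, .ofNat 0, .ofNat 552, .ofNat 3637, .ofNat 0, .ofNat 0, .ofNat 0, .ofNat 0, .ofNat 0, .ofNat 0, .ofNat 5678212616065754846033294131200, .ofNat 0, .ofNat 0, .ofNat 0, .ofNat 2434279519924111065797885952000,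 .ofNat 0, .ofNat 0, .ofNat 0, .ofNat 4965676655418177599386209484800, .ofNat 0⟩)
    (by decide +kernel)
theorem L01301 : Good (Phi V4.P V4.D 1 1) ⟨4, 13, 3, 5, 2, 1, 2, 2, 3, 2⟩ :=
  out_sound (S := T4.ds_pp) T4.ok_pp (w := 56) (j := 3) (by decide +kernel)
theorem L01302 : Good (Phi V4.P V4.D 1 1) ⟨3, 6, 2, 3, 2, 1, 2, 2, 3, 2⟩ :=
  out_sound (S := T4.ds_pp) T4.ok_pp (w := 48) (j := 3) (by decide +kernel)
theorem L01303 : Good (Phi V4.P V4.D 1 1) ⟨4, 12, 2, 2, 2, 1, 2, 2, 3, 3⟩ :=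
  out_sound (S := T4.ds_pp) T4.ok_pp (w := 56) (j := 3) (by decide +kernel)
theorem L01304 : Good (Phi V4.P V4.D 1 1) ⟨5, 26, 3, 4, 2, 1, 2, 2, 3, 3⟩ :=
  out_sound (S := T4.ds_pp) T4.ok_pp (w := 64) (j := 3) (by decide +kernel)
theorem L01305 : Good (Phi V4.P V4.D 1 1) ⟨5, 27, 3, 4, 2, 1, 3, 4, 3, 3⟩ :=
  leaf_sound (S := T4.ds_pp) T4.ok_pp (w := 184) (c := ⟨⟨.negSucc 1241, .negSucc 122, .ofNat 46, .negSucc 357, .negSucc 111, .ofNat 129⟩, ⟨.negSucc 644, .negSucc 110, .negSucc 53, .negSucc 194, .negSucc 59, .ofNat 70⟩, ⟨.ofNat 702, .ofNat 99, .negSucc 58, .ofNat 12, .ofNat 103, .negSucc 149⟩, ⟨.negSucc 1860, .negSucc 125, .ofNat 74, .negSucc 654, .negSucc 179, .ofNat 200⟩, ⟨.negSucc 95, .negSucc 6, .ofNat 29, .ofNat 203, .ofNat 19, .negSucc 8⟩, .ofNat 769, .negSucc 901, .ofNat 0, .negSucc 901, .ofNat 1883, .ofNat 0, .ofNat 261, .ofNat 427, .negSucc 461, .ofNat 0, .ofNat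 300, .negSucc 226, .ofNat 0, .ofNat 0, .ofNat 906, .ofNat 10173, .ofNat 0, .ofNat 0, .ofNat 0, .ofNat 0, .ofNat 0, .ofNat 0, .ofNat 0, .ofNat 0, .ofNat 0, .ofNat 0, .ofNat 0, .ofNat 0, .ofNat 0, .ofNat 0, .ofNat 0, .ofNat 0⟩)
    (by decide +kernel)
theorem L01306 : Good (Phi V4.P V4.D 1 1) ⟨5, 27, 3, 4, 2, 1, 3, 5, 3, 3⟩ :=
  leaf_sound (S := T4.ds_pp) T4.ok_pp (w := 184) (c := ⟨⟨.negSucc 1255, .negSucc 236, .ofNat 116, .negSucc 487, .negSucc 186, .ofNat 109⟩, ⟨.negSucc 649, .negSucc 175, .negSucc 20, .negSucc 264, .negSucc 102, .ofNat 60⟩, ⟨.ofNat 692, .ofNat 214, .negSucc 137, .ofNat 131, .ofNat 180, .negSucc 88⟩, ⟨.negSucc 1887, .negSucc 331, .ofNat 217, .negSucc 858, .negSucc 295, .ofNat 168⟩, ⟨.negSucc 90, .ofNat 64, .negSucc 36, .ofNat 217, .ofNat 21, .negSucc 4⟩, .ofNat 758, .negSucc 886, .ofNat 0, .negSucc 886, .ofNat 1869, .ofNat 0, .ofNat 273, .ofNat 442, .negSucc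 581, .ofNat 0, .ofNat 310, .negSucc 288, .ofNat 0, .ofNat 0, .ofNat 955, .ofNat 5349, .ofNat 0, .ofNat 0, .ofNat 0, .ofNat 0, .ofNat 0, .ofNat 0, .ofNat 0, .ofNat 0, .ofNat 0, .ofNat 0, .ofNat 0, .ofNat 0, .ofNat 0, .ofNat 0, .ofNat 0, .ofNat 0⟩)
    (by decide +kernel)
theorem L01307 : Good (Phi V4.P V4.D 1 1) ⟨4, 13, 3, 5, 2, 1, 2, 2, 3, 3⟩ :=
  out_sound (S := T4.ds_pp) T4.ok_pp (w := 56) (j := 3) (by decide +kernel)
theorem L01308 : Good (Phi V4.P V4.D 1 1) ⟨3, 6, 2, 3, 2, 1, 2, 2, 3, 3⟩ :=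
  out_sound (S := T4.ds_pp) T4.ok_pp (w := 48) (j := 3) (by decide +kernel)
theorem L01309 : Good (Phi V4.P V4.D 1 1) ⟨3, 7, 1, 1, 2, 1, 2, 2, 2, 1⟩ :=
  out_sound (S := T4.ds_pp) T4.ok_pp (w := 16) (j := 4) (by decide +kernel)
theorem L01310 : Good (Phi V4.P V4.D 1 1) ⟨2, 2, 1, 1, 2, 1, 3, 6, 2, 1⟩ :=
  out_sound (S := T4.ds_pp) T4.ok_pp (w := 40) (j := 3) (by decide +kernel)
theorem L01311 : Good (Phi V4.P V4.D 1 1) ⟨4, 12, 2, 2, 2, 1, 3, 6, 2, 1⟩ :=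
  out_sound (S := T4.ds_pp) T4.ok_pp (w := 56) (j := 3) (by decide +kernel)
theorem L01312 : Good (Phi V4.P V4.D 1 1) ⟨5, 26, 3, 4, 2, 1, 3, 6, 2, 1⟩ :=
  out_sound (S := T4.ds_pp) T4.ok_pp (w := 64) (j := 3) (by decide +kernel)
theorem L01313 : Good (Phi V4.P V4.D 1 1) ⟨5, 27, 4, 8, 2, 1, 4, 12, 2, 1⟩ :=
  leaf_sound (S := T4.ds_pp) T4.ok_pp (w := 184) (c := ⟨⟨.negSucc 1360, .negSucc 81, .negSucc 41, .negSucc 665, .negSucc 144, .ofNat 32⟩, ⟨.negSucc 705, .negSucc 59, .negSucc 90, .negSucc 359, .negSucc 77, .ofNat 18⟩, ⟨.ofNat 777, .ofNat 76, .ofNat 27, .ofNat 290, .ofNat 128, .ofNat 4⟩, ⟨.negSucc 2046, .negSucc 80, .negSucc 39, .negSucc 1138, .negSucc 223, .ofNat 30⟩, ⟨.negSucc 93, .ofNat 40, .negSucc 16, .ofNat 229, .ofNat 5, .ofNat 35⟩, .ofNat 1790, .negSucc 2709, .ofNat 0, .negSucc 2709, .ofNat 5178, .ofNat 0, .ofNat 100, .ofNat 277, .negSucc 395, .ofNat 0, .ofNat 168,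 .negSucc 210, .ofNat 0, .ofNat 0, .ofNat 557, .ofNat 1326, .ofNat 0, .ofNat 36003083790790005130637013417984000, .ofNat 27563487944450090861592576000, .ofNat 0, .ofNat 0, .ofNat 0, .ofNat 8036519734693772953150449254400, .ofNat 0, .ofNat 0, .ofNat 0, .ofNat 5233031562745973496334830796800, .ofNat 0, .ofNat 0, .ofNat 0, .ofNat 0, .ofNat 0⟩)
    (by decide +kernel)
theorem L01314 : Good (Phi V4.P V4.D 1 1) ⟨6, 54, 4, 8, 2, 1, 4, 13, 2, 1⟩ :=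
  leaf_sound (S := T4.ds_pp) T4.ok_pp (w := 192) (c := ⟨⟨.negSucc 1357, .negSucc 50, .negSucc 66, .negSucc 838, .negSucc 240, .negSucc 92⟩, ⟨.negSucc 702, .negSucc 45, .negSucc 98, .negSucc 450, .negSucc 129, .negSucc 48⟩, ⟨.ofNat 776, .ofNat 33, .ofNat 57, .ofNat 433, .ofNat 210, .ofNat 151⟩, ⟨.negSucc 2042, .negSucc 58, .negSucc 74, .negSucc 1402, .negSucc 366, .negSucc 160⟩, ⟨.negSucc 98, .ofNat 44, .negSucc 33, .ofNat 229, .negSucc 0, .ofNat 35⟩, .ofNat 744, .negSucc 864, .ofNat 0, .negSucc 864, .ofNat 1848, .ofNat 0, .ofNat 163, .ofNat 264, .negSucc 507, .ofNat 0, .ofNat 183, .negSucc 252, .ofNat 0, .ofNat 0, .ofNat 633, .ofNat 2705, .ofNat 0, .ofNat 3487100237864065083049906188740198400, .ofNat 0, .ofNat 0, .ofNat 0, .ofNat 0, .ofNat 0, .ofNat 0, .ofNat 0, .ofNat 68070179564397890294072683547905228800, .ofNat 0, .ofNat 0, .ofNat 0, .ofNat 60719795593512140526037114041453772800,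 .ofNat 1177123341886572894053046681600, .ofNat 0⟩)
    (by decide +kernel)
theorem L01315 : Good (Phi V4.P V4.D 1 1) ⟨6, 55, 5, 16, 2, 1, 4, 13, 2, 1⟩ :=
  out_sound (S := T4.ds_pp) T4.ok_pp (w := 72) (j := 3) (by decide +kernel)
theorem L01316 : Good (Phi V4.P V4.D 1 1) ⟨7, 110, 5, 17, 2, 1, 4, 13, 2, 1⟩ :=
  leaf_sound (S := T4.ds_pp) T4.ok_pp (w := 200) (c := ⟨⟨.negSucc 1421, .negSucc 29, .negSucc 66, .negSucc 840, .negSucc 264, .negSucc 71⟩, ⟨.negSucc 777, .negSucc 32, .negSucc 62, .negSucc 472, .negSucc 149, .negSucc 40⟩, ⟨.ofNat 893, .ofNat 102, .negSucc 39, .ofNat 407, .ofNat 239, .ofNat 125⟩, ⟨.negSucc 2053, .ofNat 23, .negSucc 163, .negSucc 1405, .negSucc 401, .negSucc 133⟩, ⟨.negSucc 177, .negSucc 88, .ofNat 124, .ofNat 245, .ofNat 3, .ofNat 46⟩, .ofNat 4652, .negSucc 7697, .ofNat 0, .negSucc 7697, .ofNat 13874, .ofNat 0, .ofNat 62, .ofNat 290, .negSucc 457, .ofNat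 0, .ofNat 170, .negSucc 255, .ofNat 0, .ofNat 0, .ofNat 594, .ofNat 2082, .ofNat 0, .ofNat 179150376787495012375044682768868966400, .ofNat 0, .ofNat 0, .ofNat 0, .ofNat 3965854535944693854957783676631384064000, .ofNat 3177944983436102133240928665600, .ofNat 0, .ofNat 0, .ofNat 3684964708406587189448668192236896256000, .ofNat 1759942149809098885913640960000, .ofNat 0, .ofNat 0, .ofNat 0, .ofNat 0, .ofNat 0⟩)
    (by decide +kernel)
theorem L01317 : Good (Phi V4.P V4.D 1 1) ⟨7, 111, 5, 17, 2, 1, 4, 13, 2, 1⟩ :=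
  out_sound (S := T4.ds_pp) T4.ok_pp (w := 80) (j := 3) (by decide +kernel)
theorem L01318 : Good (Phi V4.P V4.D 1 1) ⟨6, 54, 4, 9, 2, 1, 3, 6, 2, 1⟩ :=
  out_sound (S := T4.ds_pp) T4.ok_pp (w := 72) (j := 3) (by decide +kernel)
theorem L01319 : Good (Phi V4.P V4.D 1 1) ⟨6, 55, 4, 9, 2, 1, 4, 12, 2, 1⟩ :=
  leaf_sound (S := T4.ds_pp) T4.ok_pp (w := 192) (c := ⟨⟨.negSucc 1454, .negSucc 0, .negSucc 79, .negSucc 664, .negSucc 156, .ofNat 37⟩, ⟨.negSucc 816, .negSucc 37, .negSucc 82, .negSucc 380, .negSucc 89, .ofNat 21⟩, ⟨.ofNat 862, .negSucc 1, .ofNat 40, .ofNat 270, .ofNat 141, .ofNat 0⟩, ⟨.negSucc 2142, .ofNat 15, .negSucc 115, .negSucc 1139, .negSucc 234, .ofNat 36⟩, ⟨.negSucc 96, .ofNat 15, .ofNat 35, .ofNat 245, .negSucc 2, .ofNat 35⟩, .ofNat 5766, .negSucc 9553, .ofNat 0, .negSucc 9553, .ofNat 16942, .ofNat 0, .ofNat 53, .ofNat 288, .negSucc 389, .ofNat 0, .ofNat 169,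 .negSucc 220, .ofNat 0, .ofNat 0, .ofNat 551, .ofNat 1827, .ofNat 0, .ofNat 639327818953921496334128004464640000, .ofNat 0, .ofNat 0, .ofNat 0, .ofNat 5246159043303659206923576766208409600, .ofNat 4487210721343946979567835545600, .ofNat 0, .ofNat 0, .ofNat 0, .ofNat 0, .ofNat 0, .ofNat 0, .ofNat 0, .ofNat 0, .ofNat 0⟩)
    (by decide +kernel)
theorem L01320 : Good (Phi V4.P V4.D 1 1) ⟨6, 55, 5, 18, 2, 1, 4, 13, 3, 2⟩ :=
  leaf_sound (S := T4.ds_pp) T4.ok_pp (w := 192) (c := ⟨⟨.negSucc 1483, .ofNat 21, .negSucc 38, .negSucc 840, .negSucc 262, .negSucc 83⟩, ⟨.negSucc 834, .negSucc 9, .negSucc 54, .negSucc 480, .negSucc 150, .negSucc 47⟩, ⟨.ofNat 881, .negSucc 9, .ofNat 22, .ofNat 405, .ofNat 239, .ofNat 104⟩, ⟨.negSucc 2190, .ofNat 57, .negSucc 46, .negSucc 1406, .negSucc 386, .negSucc 139⟩, ⟨.negSucc 84, .negSucc 19, .ofNat 17, .ofNat 250, .negSucc 14, .ofNat 23⟩, .ofNat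 822, .negSucc 977, .ofNat 0, .negSucc 977, .ofNat 1965, .ofNat 0, .ofNat 155, .ofNat 284, .negSucc 550, .ofNat 0, .ofNat 196, .negSucc 290, .ofNat 0, .ofNat 0, .ofNat 666, .ofNat 2936, .ofNat 0, .ofNat 64416348103927910780405561006909030400, .ofNat 0, .ofNat 0, .ofNat 0, .ofNat 0, .ofNat 0, .ofNat 0, .ofNat 0, .ofNat 1318531349260440808433675241820205875200, .ofNat 33054255355435421134704397516800, .ofNat 0, .ofNat 0, .ofNat 1149446260301191623922965814730922393600, .ofNat 19326428269660078368782863564800, .ofNat 0⟩)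
    (by decide +kernel)
theorem L01321 : Good (Phi V4.P V4.D 1 1) ⟨7, 110, 5, 19, 2, 1, 4, 13, 3, 2⟩ :=
  out_sound (S := T4.ds_pp) T4.ok_pp (w := 80) (j := 3) (by decide +kernel)
theorem L01322 : Good (Phi V4.P V4.D 1 1) ⟨7, 111, 5, 19, 2, 1, 4, 13, 3, 2⟩ :=
  out_sound (S := T4.ds_pp) T4.ok_pp (w := 24) (j := 4) (by decide +kernel)
theorem L01323 : Good (Phi V4.P V4.D 1 1) ⟨6, 55, 4, 9, 3, 2, 4, 13, 3, 3⟩ :=
  leaf_sound (S := T4.ds_pp) T4.ok_pp (w := 208) (c := ⟨⟨.negSucc 1520, .negSucc 86, .negSucc 46, .negSucc 414, .negSucc 277, .negSucc 8⟩, ⟨.negSucc 853, .negSucc 88, .negSucc 64, .negSucc 237, .negSucc 158, .negSucc 4⟩, ⟨.ofNat 921, .ofNat 73, .ofNat 35, .ofNat 228, .ofNat 272, .ofNat 50⟩, ⟨.negSucc 2272, .negSucc 104, .negSucc 48, .negSucc 668, .negSucc 412, .negSucc 17⟩, ⟨.negSucc 42, .ofNat 1, .ofNat 7, .ofNat 78, .negSucc 7, .ofNat 8⟩, .ofNat 2227, .negSucc 3393,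 .ofNat 0, .negSucc 3393, .ofNat 6197, .ofNat 0, .ofNat 160, .ofNat 523, .negSucc 866, .ofNat 0, .ofNat 320, .negSucc 484, .ofNat 0, .ofNat 0, .ofNat 1132, .ofNat 6542, .ofNat 0, .ofNat 3354142076345127332620282200222125260800, .ofNat 0, .ofNat 0, .ofNat 0, .ofNat 0, .ofNat 0, .ofNat 0, .ofNat 0, .ofNat 0, .ofNat 0, .ofNat 0, .ofNat 0, .ofNat 0, .ofNat 0, .ofNat 0⟩)
    (by decide +kernel)
theorem L01324 : Good (Phi V4.P V4.D 1 1) ⟨6, 55, 4, 9, 3, 3, 4, 13, 3, 3⟩ :=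
  leaf_sound (S := T4.ds_pp) T4.ok_pp (w := 208) (c := ⟨⟨.negSucc 1923, .negSucc 56, .negSucc 62, .negSucc 419, .negSucc 320, .negSucc 14⟩, ⟨.negSucc 1082, .negSucc 75, .negSucc 79, .negSucc 239, .negSucc 184, .negSucc 7⟩, ⟨.ofNat 1143, .ofNat 42, .ofNat 48, .ofNat 187, .ofNat 293, .ofNat 46⟩, ⟨.negSucc 2923, .negSucc 61, .negSucc 69, .negSucc 713, .negSucc 480, .negSucc 33⟩, ⟨.ofNat 35, .ofNat 4, .ofNat 2, .ofNat 145, .negSucc 1, .ofNat 21⟩, .ofNat 2248, .negSucc 3425, .ofNat 0, .negSucc 3425, .ofNat 6246, .ofNat 0, .ofNat 331, .ofNat 1123, .negSucc 1709, .ofNat 0, .ofNat 685, .negSucc 957, .ofNat 0, .ofNat 0, .ofNat 2247, .ofNat 20312, .ofNat 0, .ofNat 20909572063253809386476595435755746099200, .ofNat 0, .ofNat 0, .ofNat 0, .ofNat 687777693463537070239363129483979862835200, .ofNat 539872272857688841578549662554521600, .ofNat 0, .ofNat 0, .ofNat 3552463535538884469608016250370940469248000,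 .ofNat 0, .ofNat 0, .ofNat 0, .ofNat 1965980450225257594503019569921026477260800, .ofNat 186157774805889811115566835328614400, .ofNat 0⟩)
    (by decide +kernel)
theorem L01325 : Good (Phi V4.P V4.D 1 1) ⟨4, 13, 3, 5, 2, 1, 3, 6, 2, 1⟩ :=
  out_sound (S := T4.ds_pp) T4.ok_pp (w := 56) (j := 3) (by decide +kernel)
theorem L01326 : Good (Phi V4.P V4.D 1 1) ⟨3, 6, 2, 3, 2, 1, 3, 6, 2, 1⟩ :=
  out_sound (S := T4.ds_pp) T4.ok_pp (w := 48) (j := 3) (by decide +kernel)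
theorem L01327 : Good (Phi V4.P V4.D 1 1) ⟨3, 7, 1, 1, 2, 1, 3, 6, 2, 1⟩ :=
  out_sound (S := T4.ds_pp) T4.ok_pp (w := 16) (j := 4) (by decide +kernel)
theorem L01328 : Good (Phi V4.P V4.D 1 1) ⟨2, 2, 1, 1, 2, 1, 3, 7, 2, 1⟩ :=
  out_sound (S := T4.ds_pp) T4.ok_pp (w := 40) (j := 3) (by decide +kernel)
theorem L01329 : Good (Phi V4.P V4.D 1 1) ⟨4, 12, 2, 2, 2, 1, 3, 7, 2, 1⟩ :=
  out_sound (S := T4.ds_pp) T4.ok_pp (w := 56) (j := 3) (by decide +kernel)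
theorem L01330 : Good (Phi V4.P V4.D 1 1) ⟨5, 26, 3, 4, 2, 1, 3, 7, 2, 1⟩ :=
  out_sound (S := T4.ds_pp) T4.ok_pp (w := 64) (j := 3) (by decide +kernel)
theorem L01331 : Good (Phi V4.P V4.D 1 1) ⟨5, 27, 4, 8, 3, 2, 4, 14, 3, 2⟩ :=
  leaf_sound (S := T4.ds_pp) T4.ok_pp (w := 200) (c := ⟨⟨.negSucc 1425, .negSucc 271, .negSucc 46, .negSucc 516, .negSucc 373, .negSucc 169⟩, ⟨.negSucc 734, .negSucc 184, .negSucc 94, .negSucc 280, .negSucc 202, .negSucc 91⟩, ⟨.ofNat 811, .ofNat 236, .ofNat 38, .ofNat 321, .ofNat 349, .ofNat 205⟩, ⟨.negSucc 2165, .negSucc 338, .negSucc 50, .negSucc 821, .negSucc 560, .negSucc 269⟩, ⟨.negSucc 67, .ofNat 3, .ofNat 1, .ofNat 66, .negSucc 14, .ofNat 20⟩, .ofNat 1719, .negSucc 2596, .ofNat 0, .negSucc 2596, .ofNat 5009, .ofNat 0, .ofNat 221, .ofNat 586, .negSucc 1235, .ofNat 0, .ofNat 356, .negSucc 656, .ofNat 0, .ofNat 0, .ofNat 1446, .ofNat 2917,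 .ofNat 0, .ofNat 325242614405908914066679233677937868800, .ofNat 232013848401391029938750383718400, .ofNat 0, .ofNat 0, .ofNat 0, .ofNat 292584315147597570684239684724326400, .ofNat 0, .ofNat 0, .ofNat 16724210496429523222454384731167601459200, .ofNat 174700379553443177164666785968947200, .ofNat 0, .ofNat 0, .ofNat 23101012839967128143820818340270361804800, .ofNat 78551237683299159953436787605504000, .ofNat 0⟩)
    (by decide +kernel)
theorem L01332 : Good (Phi V4.P V4.D 1 1) ⟨5, 27, 4, 8, 3, 3, 4, 14, 3, 2⟩ :=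
  leaf_sound (S := T4.ds_pp) T4.ok_pp (w := 200) (c := ⟨⟨.negSucc 1884, .negSucc 277, .negSucc 36, .negSucc 585, .negSucc 485, .negSucc 228⟩, ⟨.negSucc 979, .negSucc 174, .negSucc 111, .negSucc 313, .negSucc 260, .negSucc 121⟩, ⟨.ofNat 1098, .ofNat 242, .ofNat 17, .ofNat 316, .ofNat 429, .ofNat 240⟩, ⟨.negSucc 2899, .negSucc 356, .negSucc 29, .negSucc 978, .negSucc 725, .negSucc 363⟩, ⟨.negSucc 6, .ofNat 28, .negSucc 5, .ofNat 157, .negSucc 27, .ofNat 26⟩, .ofNat 750, .negSucc 874, .ofNat 0, .negSucc 874, .ofNat 1857, .ofNat 0, .ofNat 352, .ofNat 595, .negSucc 1350, .ofNat 0, .ofNat 406, .negSucc 678, .ofNat 0, .ofNat 0, .ofNat 1502, .ofNat 4039, .ofNat 0, .ofNat 649595954262302854566084982685564928000, .ofNat 508658016212830857633833838182400, .ofNat 0, .ofNat 0, .ofNat 0, .ofNat 0, .ofNat 0, .ofNat 0, .ofNat 38161191198722604224790275326872649728000, .ofNat 143562981395933671402238826774528000,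 .ofNat 0, .ofNat 0, .ofNat 43990291246424492153278652104115748864000, .ofNat 117818368406296615840201852531507200, .ofNat 0⟩)
    (by decide +kernel)
theorem L01333 : Good (Phi V4.P V4.D 1 1) ⟨6, 54, 4, 8, 2, 1, 4, 15, 3, 2⟩ :=
  leaf_sound (S := T4.ds_pp) T4.ok_pp (w := 200) (c := ⟨⟨.negSucc 1624, .negSucc 303, .ofNat 3, .negSucc 1394, .negSucc 666, .negSucc 327⟩, ⟨.negSucc 840, .negSucc 186, .negSucc 69, .negSucc 753, .negSucc 360, .negSucc 177⟩, ⟨.ofNat 987, .ofNat 303, .negSucc 30, .ofNat 966, .ofNat 622, .ofNat 369⟩, ⟨.negSucc 2473, .negSucc 396, .ofNat 7, .negSucc 2174, .negSucc 998, .negSucc 502⟩, ⟨.negSucc 65, .negSucc 26, .ofNat 22, .ofNat 89, .negSucc 29, .ofNat 6⟩, .ofNat 1702, .negSucc 2568, .ofNat 0, .negSucc 2568, .ofNat 4967, .ofNat 0, .ofNat 464, .ofNat 1217, .negSucc 3311, .ofNat 0, .ofNat 740, .negSucc 1758, .ofNat 0, .ofNat 0, .ofNat 3601, .ofNat 3636,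 .ofNat 0, .ofNat 171619957428272241281217005836094668800, .ofNat 281969007932151511443623116800, .ofNat 0, .ofNat 0, .ofNat 16291139987406165541308459810469969920000, .ofNat 0, .ofNat 0, .ofNat 0, .ofNat 29932358922234895763474284025590736486400, .ofNat 0, .ofNat 0, .ofNat 0, .ofNat 36804016228832758810982573782049017036800, .ofNat 0, .ofNat 0⟩)
    (by decide +kernel)
theorem L01334 : Good (Phi V4.P V4.D 1 1) ⟨6, 55, 4, 8, 2, 1, 5, 30, 3, 2⟩ :=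
  leaf_sound (S := T4.ds_pp) T4.ok_pp (w := 200) (c := ⟨⟨.negSucc 1824, .negSucc 304, .negSucc 73, .negSucc 1454, .negSucc 431, .negSucc 347⟩, ⟨.negSucc 972, .negSucc 213, .negSucc 98, .negSucc 817, .negSucc 242, .negSucc 195⟩, ⟨.ofNat 1179, .ofNat 296, .ofNat 58, .ofNat 1006, .ofNat 405, .ofNat 390⟩, ⟨.negSucc 2741, .negSucc 413, .negSucc 83, .negSucc 2243, .negSucc 639, .negSucc 525⟩, ⟨.negSucc 71, .negSucc 12, .ofNat 2, .ofNat 85, .negSucc 19, .ofNat 1⟩, .ofNat 2032, .negSucc 3087, .ofNat 0, .negSucc 3087, .ofNat 5735, .ofNat 0, .ofNat 406, .ofNat 1238, .negSucc 3402, .ofNat 0, .ofNat 755, .negSucc 1876, .ofNat 0, .ofNat 0, .ofNat 3673, .ofNat 6448, .ofNat 0, .ofNat 539748207628197548311067975757280051200, .ofNat 21027962941257610932876686131200, .ofNat 0, .ofNat 0, .ofNat 32184502970573207517481962337299804979200, .ofNat 10800059853889341398324823352934400, .ofNat 0,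 .ofNat 0, .ofNat 69387720846035685938081952383826395136000, .ofNat 4532868427259229074516410682572800, .ofNat 0, .ofNat 0, .ofNat 65633935098444127765820407173868211404800, .ofNat 5066295520965272419133596631040000, .ofNat 0⟩)
    (by decide +kernel)
theorem L01335 : Good (Phi V4.P V4.D 1 1) ⟨6, 55, 4, 8, 3, 2, 6, 62, 3, 2⟩ :=
  leaf_sound (S := T4.ds_pp) T4.ok_pp (w := 216) (c := ⟨⟨.negSucc 2132, .negSucc 326, .negSucc 190, .negSucc 941, .negSucc 338, .negSucc 561⟩, ⟨.negSucc 1147, .negSucc 229, .negSucc 162, .negSucc 529, .negSucc 190, .negSucc 315⟩, ⟨.ofNat 1459, .ofNat 308, .ofNat 178, .ofNat 736, .ofNat 326, .ofNat 606⟩, ⟨.negSucc 3201, .negSucc 447, .negSucc 253, .negSucc 1414, .negSucc 498, .negSucc 842⟩, ⟨.negSucc 82, .negSucc 8, .negSucc 6, .negSucc 9, .negSucc 20, .negSucc 8⟩, .ofNat 797, .negSucc 942, .ofNat 0, .negSucc 942, .ofNat 1927, .ofNat 0, .ofNat 5468,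 .ofNat 9357, .negSucc 42355, .ofNat 0, .ofNat 6565, .negSucc 22245, .ofNat 0, .ofNat 0, .ofNat 43134, .ofNat 156027, .ofNat 0, .ofNat 9792557792930484410202799318723887680716800, .ofNat 0, .ofNat 0, .ofNat 0, .ofNat 2221403402713882751939676628285639878927974400, .ofNat 3406449957135304880053599403403693260800, .ofNat 0, .ofNat 0, .ofNat 5132948703887497273515504626732672526109900800, .ofNat 0, .ofNat 0, .ofNat 0, .ofNat 6168582102229406950788982948231657651647283200, .ofNat 2056694181990199732436458311363487334400, .ofNat 0⟩)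
    (by decide +kernel)
theorem L01336 : Good (Phi V4.P V4.D 1 1) ⟨6, 55, 4, 8, 3, 2, 6, 63, 3, 2⟩ :=
  out_sound (S := T4.ds_pp) T4.ok_pp (w := 40) (j := 2) (by decide +kernel)
theorem L01337 : Good (Phi V4.P V4.D 1 1) ⟨6, 55, 4, 8, 3, 3, 5, 31, 3, 2⟩ :=
  out_sound (S := T4.ds_pp) T4.ok_pp (w := 40) (j := 2) (by decide +kernel)
theorem L01338 : Good (Phi V4.P V4.D 1 1) ⟨5, 27, 4, 8, 3, 2, 4, 14, 3, 3⟩ :=
  leaf_sound (S := T4.ds_pp) T4.ok_pp (w := 200) (c := ⟨⟨.negSucc 1583, .negSucc 218, .negSucc 56, .negSucc 518, .negSucc 419, .negSucc 66⟩, ⟨.negSucc 824, .negSucc 128, .negSucc 110, .negSucc 281, .negSucc 228, .negSucc 35⟩, ⟨.ofNat 992, .ofNat 225, .ofNat 34, .ofNat 331, .ofNat 409, .ofNat 111⟩, ⟨.negSucc 2417, .negSucc 265, .negSucc 63, .negSucc 822, .negSucc 626, .negSucc 105⟩, ⟨.negSucc 42, .negSucc 20, .ofNat 11, .ofNat 62, .negSucc 20, .ofNat 7⟩, .ofNat 758, .negSucc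 885, .ofNat 0, .negSucc 885, .ofNat 1867, .ofNat 0, .ofNat 297, .ofNat 480, .negSucc 1082, .ofNat 0, .ofNat 337, .negSucc 550, .ofNat 0, .ofNat 0, .ofNat 1297, .ofNat 4521, .ofNat 0, .ofNat 548889137436097726415316940286538547200, .ofNat 715652115527618735609398217932800, .ofNat 0, .ofNat 0, .ofNat 0, .ofNat 0, .ofNat 0, .ofNat 0, .ofNat 28819429798067719011608484691476637286400, .ofNat 188926481708603976462179376719462400, .ofNat 0, .ofNat 0, .ofNat 46745245725761548018163200472233751347200, .ofNat 94689702944053663179236176193126400, .ofNat 0⟩)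
    (by decide +kernel)
theorem L01339 : Good (Phi V4.P V4.D 1 1) ⟨5, 27, 4, 8, 3, 3, 4, 14, 3, 3⟩ :=
  out_sound (S := T4.ds_pp) T4.ok_pp (w := 40) (j := 2) (by decide +kernel)
theorem L01340 : Good (Phi V4.P V4.D 1 1) ⟨5, 27, 4, 8, 2, 1, 4, 15, 3, 3⟩ :=
  leaf_sound (S := T4.ds_pp) T4.ok_pp (w := 192) (c := ⟨⟨.negSucc 1943, .negSucc 333, .negSucc 117, .ofNat 0, .negSucc 711, .negSucc 193⟩, ⟨.negSucc 1015, .negSucc 212, .negSucc 139, .ofNat 0, .negSucc 391, .negSucc 101⟩, ⟨.ofNat 1339, .ofNat 318, .ofNat 107, .ofNat 0, .ofNat 689, .ofNat 239⟩, ⟨.negSucc 2960, .negSucc 435, .negSucc 147, .ofNat 0, .negSucc 1055, .negSucc 294⟩, ⟨.negSucc 56, .negSucc 10, .negSucc 2, .ofNat 0, .negSucc 46, .negSucc 2⟩, .ofNat 759, .negSucc 886, .ofNat 0, .negSucc 886, .ofNat 1867, .ofNat 0, .ofNat 1249, .ofNat 2006, .negSucc 6193, .ofNat 0, .ofNat 1415, .negSucc 3166, .ofNat 0, .ofNat 0,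 .ofNat 6797, .ofNat 28172, .ofNat 0, .ofNat 120884524951065001295485673087277465600, .ofNat 0, .ofNat 0, .ofNat 0, .ofNat 26858916936642048395216103914767751577600, .ofNat 0, .ofNat 0, .ofNat 0, .ofNat 25131501534875308198103233606326209740800, .ofNat 7215650080180869043803577437388800, .ofNat 0, .ofNat 0, .ofNat 35705445561806563248179129193778171084800, .ofNat 8134210389506473263123011941171200, .ofNat 0⟩)
    (by decide +kernel)
theorem L01341 : Good (Phi V4.P V4.D 1 1) ⟨6, 54, 4, 9, 2, 1, 3, 7, 2, 1⟩ :=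
  out_sound (S := T4.ds_pp) T4.ok_pp (w := 72) (j := 3) (by decide +kernel)
theorem L01342 : Good (Phi V4.P V4.D 1 1) ⟨7, 110, 6, 36, 3, 2, 4, 14, 3, 2⟩ :=
  leaf_sound (S := T4.ds_pp) T4.ok_pp (w := 216) (c := ⟨⟨.negSucc 1562, .ofNat 53, .negSucc 71, .negSucc 564, .negSucc 535, .negSucc 195⟩, ⟨.negSucc 880, .ofNat 25, .negSucc 60, .negSucc 323, .negSucc 306, .negSucc 111⟩, ⟨.ofNat 939, .negSucc 73, .ofNat 73, .ofNat 354, .ofNat 502, .ofNat 232⟩, ⟨.negSucc 2320, .ofNat 74, .negSucc 91, .negSucc 884, .negSucc 788, .negSucc 301⟩, ⟨.negSucc 64, .ofNat 20, .negSucc 6, .ofNat 62, .negSucc 27, .ofNat 14⟩, .ofNat 14873, .negSucc 25413, .ofNat 0, .negSucc 25413, .ofNat 44576, .ofNat 0, .ofNat 37, .ofNat 312, .negSucc 640, .ofNat 0, .ofNat 181, .negSucc 366, .ofNat 0, .ofNat 0, .ofNat 740, .ofNat 1716, .ofNat 0, .ofNat 563912076590010983030201255873482850304000, .ofNat 0, .ofNat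 0, .ofNat 0, .ofNat 0, .ofNat 74863327252308304405631077240012800, .ofNat 0, .ofNat 0, .ofNat 0, .ofNat 0, .ofNat 0, .ofNat 0, .ofNat 0, .ofNat 0, .ofNat 0⟩)
    (by decide +kernel)
theorem L01343 : Good (Phi V4.P V4.D 1 1) ⟨7, 110, 6, 36, 3, 3, 4, 14, 3, 2⟩ :=
  leaf_sound (S := T4.ds_pp) T4.ok_pp (w := 216) (c := ⟨⟨.negSucc 2007, .negSucc 110, .ofNat 9, .negSucc 604, .negSucc 593, .negSucc 261⟩, ⟨.negSucc 1132, .negSucc 71, .negSucc 17, .negSucc 345, .negSucc 339, .negSucc 149⟩, ⟨.ofNat 1198, .ofNat 98, .negSucc 13, .ofNat 315, .ofNat 519, .ofNat 263⟩, ⟨.negSucc 3028, .negSucc 161, .ofNat 27, .negSucc 1000, .negSucc 876, .negSucc 409⟩, ⟨.negSucc 1, .ofNat 8, .negSucc 2, .ofNat 160, .negSucc 27, .ofNat 29⟩, .ofNat 2235, .negSucc 3406, .ofNat 0, .negSucc 3406, .ofNat 6216, .ofNat 0, .ofNat 383, .ofNat 1327, .negSucc 2644, .ofNat 0, .ofNat 805, .negSucc 1479, .ofNat 0, .ofNat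 0, .ofNat 2960, .ofNat 14565, .ofNat 0, .ofNat 8798883920109980048383196366741932553011200, .ofNat 0, .ofNat 0, .ofNat 0, .ofNat 0, .ofNat 0, .ofNat 0, .ofNat 0, .ofNat 660294611276467408541793281929646242057420800, .ofNat 0, .ofNat 0, .ofNat 0, .ofNat 788806182101963442402296251079265173372928000, .ofNat 91882898343095867437213632430080000, .ofNat 0⟩)
    (by decide +kernel)
theorem L01344 : Good (Phi V4.P V4.D 1 1) ⟨7, 110, 6, 36, 2, 1, 5, 30, 3, 2⟩ :=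
  leaf_sound (S := T4.ds_pp) T4.ok_pp (w := 216) (c := ⟨⟨.negSucc 1879, .negSucc 124, .negSucc 38, .negSucc 1484, .negSucc 498, .negSucc 344⟩, ⟨.negSucc 1058, .negSucc 83, .negSucc 41, .negSucc 851, .negSucc 285, .negSucc 197⟩, ⟨.ofNat 1226, .ofNat 112, .ofNat 34, .ofNat 1028, .ofNat 473, .ofNat 383⟩, ⟨.negSucc 2797, .negSucc 177, .negSucc 45, .negSucc 2274, .negSucc 733, .negSucc 517⟩, ⟨.negSucc 70, .ofNat 2, .negSucc 0, .ofNat 76, .negSucc 29, .ofNat 1⟩, .ofNat 14884, .negSucc 25432, .ofNat 0, .negSucc 25432, .ofNat 44605, .ofNat 0, .ofNat 153, .ofNat 1286, .negSucc 3406, .ofNat 0, .ofNat 746, .negSucc 1947, .ofNat 0, .ofNat 0, .ofNat 3680, .ofNat 6934, .ofNat 0, .ofNat 135745659571690017006051773986189502054400, .ofNat 0, .ofNat 0, .ofNat 0, .ofNat 4322754483355864131426156316459531449139200, .ofNat 8578718951872128971272724938752000, .ofNat 0, .ofNat 0, .ofNat 17644172445738605973338507470922375705395200,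 .ofNat 0, .ofNat 0, .ofNat 0, .ofNat 14921247604737888221475238636164797693952000, .ofNat 0, .ofNat 0⟩)
    (by decide +kernel)
theorem L01345 : Good (Phi V4.P V4.D 1 1) ⟨7, 110, 6, 36, 2, 1, 5, 31, 3, 2⟩ :=
  leaf_sound (S := T4.ds_pp) T4.ok_pp (w := 216) (c := ⟨⟨.negSucc 2361, .negSucc 74, .negSucc 117, .negSucc 1775, .negSucc 684, .negSucc 499⟩, ⟨.negSucc 1335, .negSucc 52, .negSucc 89, .negSucc 1013, .negSucc 390, .negSucc 284⟩, ⟨.ofNat 1671, .ofNat 73, .ofNat 110, .ofNat 1385, .ofNat 668, .ofNat 556⟩, ⟨.negSucc 3510, .negSucc 102, .negSucc 161, .negSucc 2656, .negSucc 1004, .negSucc 746⟩, ⟨.negSucc 90, .negSucc 1, .negSucc 3, .negSucc 24, .negSucc 45, .negSucc 9⟩, .ofNat 2218, .negSucc 3378, .ofNat 0, .negSucc 3378, .ofNat 6175, .ofNat 0, .ofNat 1577, .ofNat 5125, .negSucc 18450, .ofNat 0, .ofNat 3139, .negSucc 10336, .ofNat 0, .ofNat 0, .ofNat 19146, .ofNat 53306,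 .ofNat 0, .ofNat 3925873642927027138962360270104819662848000, .ofNat 0, .ofNat 0, .ofNat 0, .ofNat 1009395698788291832417743083928405918561075200, .ofNat 0, .ofNat 0, .ofNat 0, .ofNat 1263383153373518487058222729042576929718272000, .ofNat 0, .ofNat 0, .ofNat 0, .ofNat 1192250737693448908555499568588554756318822400, .ofNat 158291824425131621833524321347174400, .ofNat 0⟩)
    (by decide +kernel)
theorem L01346 : Good (Phi V4.P V4.D 1 1) ⟨8, 220, 6, 37, 2, 1, 3, 7, 3, 2⟩ :=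
  out_sound (S := T4.ds_pp) T4.ok_pp (w := 88) (j := 3) (by decide +kernel)
theorem L01347 : Good (Phi V4.P V4.D 1 1) ⟨9, 442, 7, 74, 2, 1, 3, 7, 3, 2⟩ :=
  out_sound (S := T4.ds_pp) T4.ok_pp (w := 96) (j := 3) (by decide +kernel)
theorem L01348 : Good (Phi V4.P V4.D 1 1) ⟨10, 886, 8, 148, 2, 1, 3, 7, 3, 2⟩ :=
  out_sound (S := T4.ds_pp) T4.ok_pp (w := 104) (j := 3) (by decide +kernel)
theorem L01349 : Good (Phi V4.P V4.D 1 1) ⟨10, 887, 8, 148, 2, 1, 3, 7, 3, 2⟩ :=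
  out_sound (S := T4.ds_pp) T4.ok_pp (w := 32) (j := 4) (by decide +kernel)
theorem L01350 : Good (Phi V4.P V4.D 1 1) ⟨9, 443, 8, 149, 2, 1, 3, 7, 3, 2⟩ :=
  out_sound (S := T4.ds_pp) T4.ok_pp (w := 96) (j := 3) (by decide +kernel)
theorem L01351 : Good (Phi V4.P V4.D 1 1) ⟨8, 221, 7, 75, 2, 1, 3, 7, 3, 2⟩ :=
  out_sound (S := T4.ds_pp) T4.ok_pp (w := 88) (j := 3) (by decide +kernel)
theorem L01352 : Good (Phi V4.P V4.D 1 1) ⟨7, 111, 5, 18, 2, 1, 3, 7, 3, 2⟩ :=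
  out_sound (S := T4.ds_pp) T4.ok_pp (w := 24) (j := 4) (by decide +kernel)
theorem L01353 : Good (Phi V4.P V4.D 1 1) ⟨6, 55, 5, 18, 3, 2, 5, 28, 3, 3⟩ :=
  leaf_sound (S := T4.ds_pp) T4.ok_pp (w := 208) (c := ⟨⟨.negSucc 1737, .negSucc 38, .negSucc 67, .negSucc 550, .negSucc 232, .negSucc 76⟩, ⟨.negSucc 980, .negSucc 38, .negSucc 72, .negSucc 314, .negSucc 132, .negSucc 43⟩, ⟨.ofNat 1131, .ofNat 33, .ofNat 62, .ofNat 354, .ofNat 226, .ofNat 120⟩, ⟨.negSucc 2597, .negSucc 46, .negSucc 78, .negSucc 859, .negSucc 342, .negSucc 116⟩, ⟨.negSucc 41, .ofNat 1, .negSucc 0, .ofNat 58, .negSucc 11, .ofNat 4⟩, .ofNat 822, .negSucc 978, .ofNat 0, .negSucc 978, .ofNat 1965, .ofNat 0, .ofNat 557, .ofNat 989, .negSucc 2265, .ofNat 0, .ofNat 693, .negSucc 1206, .ofNat 0, .ofNat 0, .ofNat 2675, .ofNat 14658, .ofNat 0, .ofNat 163418407916983683967260852042963773030400, .ofNat 0, .ofNat 0,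 .ofNat 0, .ofNat 0, .ofNat 0, .ofNat 0, .ofNat 0, .ofNat 11110440371289777868797151465362798359347200, .ofNat 0, .ofNat 0, .ofNat 0, .ofNat 11541081290479918319654080426587042349056000, .ofNat 0, .ofNat 0⟩)
    (by decide +kernel)
theorem L01354 : Good (Phi V4.P V4.D 1 1) ⟨6, 55, 5, 18, 3, 2, 5, 29, 3, 3⟩ :=
  leaf_sound (S := T4.ds_pp) T4.ok_pp (w := 216) (c := ⟨⟨.negSucc 1919, .negSucc 57, .negSucc 88, .negSucc 666, .negSucc 329, .negSucc 128⟩, ⟨.negSucc 1084, .negSucc 50, .negSucc 86, .negSucc 381, .negSucc 188, .negSucc 73⟩, ⟨.ofNat 1306, .ofNat 55, .ofNat 80, .ofNat 467, .ofNat 319, .ofNat 173⟩, ⟨.negSucc 2869, .negSucc 71, .negSucc 107, .negSucc 1022, .negSucc 484, .negSucc 192⟩, ⟨.negSucc 45, .negSucc 1, .negSucc 0, .ofNat 35, .negSucc 19, .negSucc 1⟩, .ofNat 2242, .negSucc 3417, .ofNat 0, .negSucc 3417, .ofNat 6234, .ofNat 0, .ofNat 666, .ofNat 2186, .negSucc 4889,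 .ofNat 0, .ofNat 1339, .negSucc 2743, .ofNat 0, .ofNat 0, .ofNat 5659, .ofNat 28797, .ofNat 0, .ofNat 615097404133492383819643668156853832908800, .ofNat 0, .ofNat 0, .ofNat 0, .ofNat 0, .ofNat 0, .ofNat 0, .ofNat 0, .ofNat 98189397810727000582443365944742199164928000, .ofNat 0, .ofNat 0, .ofNat 0, .ofNat 105320111690545296747212283514363781421465600, .ofNat 19328458597754708548817005507824844800, .ofNat 0⟩)
    (by decide +kernel)
theorem L01355 : Good (Phi V4.P V4.D 1 1) ⟨6, 55, 5, 18, 3, 3, 4, 14, 3, 3⟩ :=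
  out_sound (S := T4.ds_pp) T4.ok_pp (w := 40) (j := 2) (by decide +kernel)
theorem L01356 : Good (Phi V4.P V4.D 1 1) ⟨7, 110, 5, 18, 2, 1, 4, 15, 3, 3⟩ :=
  leaf_sound (S := T4.ds_pp) T4.ok_pp (w := 208) (c := ⟨⟨.negSucc 2224, .negSucc 83, .negSucc 82, .ofNat 0, .negSucc 883, .negSucc 198⟩, ⟨.negSucc 1252, .negSucc 71, .negSucc 71, .ofNat 0, .negSucc 505, .negSucc 113⟩, ⟨.ofNat 1601, .ofNat 79, .ofNat 77, .ofNat 0, .ofNat 854, .ofNat 244⟩, ⟨.negSucc 3320, .negSucc 106, .negSucc 106, .ofNat 0, .negSucc 1294, .negSucc 295⟩, ⟨.negSucc 64, .negSucc 2, .negSucc 2, .ofNat 0, .negSucc 59, .negSucc 6⟩, .ofNat 820, .negSucc 976, .ofNat 0, .negSucc 976, .ofNat 1963, .ofNat 0, .ofNat 2350, .ofNat 4137, .negSucc 13215, .ofNat 0, .ofNat 2905, .negSucc 7051, .ofNat 0, .ofNat 0, .ofNat 14299, .ofNat 63374, .ofNat 0, .ofNat 346584722640475364580625462633675987353600, .ofNat 0, .ofNat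 0, .ofNat 0, .ofNat 130213793111639885202644402424499398927974400, .ofNat 0, .ofNat 0, .ofNat 0, .ofNat 179736777702208802949999764583319145231155200, .ofNat 0, .ofNat 0, .ofNat 0, .ofNat 158262017533240253774993008502297293592985600, .ofNat 0, .ofNat 0⟩)
    (by decide +kernel)
theorem L01357 : Good (Phi V4.P V4.D 1 1) ⟨7, 111, 5, 18, 2, 1, 4, 15, 3, 3⟩ :=
  out_sound (S := T4.ds_pp) T4.ok_pp (w := 24) (j := 4) (by decide +kernel)
theorem L01358 : Good (Phi V4.P V4.D 1 1) ⟨7, 110, 5, 19, 2, 1, 3, 7, 2, 1⟩ :=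
  out_sound (S := T4.ds_pp) T4.ok_pp (w := 80) (j := 3) (by decide +kernel)
theorem L01359 : Good (Phi V4.P V4.D 1 1) ⟨7, 111, 5, 19, 2, 1, 3, 7, 2, 1⟩ :=
  out_sound (S := T4.ds_pp) T4.ok_pp (w := 24) (j := 4) (by decide +kernel)
theorem L01360 : Good (Phi V4.P V4.D 1 1) ⟨4, 13, 3, 5, 2, 1, 3, 7, 2, 1⟩ :=
  out_sound (S := T4.ds_pp) T4.ok_pp (w := 56) (j := 3) (by decide +kernel)
theorem L01361 : Good (Phi V4.P V4.D 1 1) ⟨3, 6, 2, 3, 2, 1, 3, 7, 2, 1⟩ :=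
  out_sound (S := T4.ds_pp) T4.ok_pp (w := 48) (j := 3) (by decide +kernel)
theorem L01362 : Good (Phi V4.P V4.D 1 1) ⟨3, 7, 1, 1, 2, 1, 3, 7, 2, 1⟩ :=
  out_sound (S := T4.ds_pp) T4.ok_pp (w := 16) (j := 4) (by decide +kernel)
theorem L01363 : Good (Phi V4.P V4.D 1 1) ⟨2, 2, 1, 1, 2, 2, 1, 0, 3, 0⟩ :=
  out_sound (S := T4.ds_pp) T4.ok_pp (w := 40) (j := 3) (by decide +kernel)
theorem L01364 : Good (Phi V4.P V4.D 1 1) ⟨4, 12, 1, 1, 2, 2, 1, 0, 3, 0⟩ :=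
  out_sound (S := T4.ds_pp) T4.ok_pp (w := 48) (j := 3) (by decide +kernel)
theorem L01365 : Good (Phi V4.P V4.D 1 1) ⟨5, 26, 3, 4, 2, 2, 1, 0, 3, 0⟩ :=
  out_sound (S := T4.ds_pp) T4.ok_pp (w := 64) (j := 3) (by decide +kernel)
theorem L01366 : Good (Phi V4.P V4.D 1 1) ⟨5, 27, 3, 4, 3, 4, 1, 0, 4, 0⟩ :=
  leaf_sound (S := T4.ds_pp) T4.ok_pp (w := 192) (c := ⟨⟨.negSucc 1085, .negSucc 52, .negSucc 134, .negSucc 63, .negSucc 308, .negSucc 440⟩, ⟨.negSucc 533, .negSucc 94, .negSucc 168, .negSucc 32, .negSucc 174, .negSucc 243⟩, ⟨.ofNat 1847, .ofNat 176, .ofNat 47, .ofNat 35, .negSucc 463, .ofNat 132⟩, ⟨.negSucc 2145, .negSucc 98, .negSucc 242, .negSucc 271, .negSucc 181, .negSucc 715⟩, ⟨.ofNat 884, .ofNat 184, .negSucc 57, .ofNat 310, .negSucc 517, .ofNat 81⟩, .ofNat 1896, .negSucc 2874, .ofNat 0, .negSucc 2874, .ofNat 5421, .ofNat 0, .ofNat 114, .ofNat 376, .negSucc 490,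 .ofNat 0, .ofNat 222, .negSucc 259, .ofNat 0, .ofNat 0, .ofNat 625, .ofNat 2216, .ofNat 0, .ofNat 0, .ofNat 3447692639695663076442164428800, .ofNat 0, .ofNat 185587911177427022165477519705033932800, .ofNat 0, .ofNat 862112125069205094340697574604800, .ofNat 0, .ofNat 0, .ofNat 0, .ofNat 0, .ofNat 0, .ofNat 0, .ofNat 0, .ofNat 0, .ofNat 0⟩)
    (by decide +kernel)
theorem L01367 : Good (Phi V4.P V4.D 1 1) ⟨5, 27, 4, 8, 3, 5, 3, 0, 4, 0⟩ :=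
  leaf_sound (S := T4.ds_pp) T4.ok_pp (w := 200) (c := ⟨⟨.negSucc 732, .ofNat 221, .negSucc 290, .ofNat 49, .negSucc 283, .negSucc 945⟩, ⟨.negSucc 351, .ofNat 114, .negSucc 227, .ofNat 28, .negSucc 154, .negSucc 511⟩, ⟨.ofNat 1574, .negSucc 142, .ofNat 250, .negSucc 60, .ofNat 79, .ofNat 483⟩, ⟨.negSucc 1671, .ofNat 378, .negSucc 523, .negSucc 74, .negSucc 419, .negSucc 1608⟩, ⟨.ofNat 1034, .negSucc 4, .ofNat 78, .ofNat 276, .negSucc 23, .ofNat 309⟩, .ofNat 1759, .negSucc 2659, .ofNat 0, .negSucc 2659, .ofNat 5105, .ofNat 0, .ofNat 119, .ofNat 404, .negSucc 569, .ofNat 0, .ofNat 232, .negSucc 297, .ofNat 0, .ofNat 0, .ofNat 622, .ofNat 8249, .ofNat 0, .ofNat 0, .ofNat 0, .ofNat 0, .ofNat 8354545018832089907713394700646455705600, .ofNat 0, .ofNat 146198911926858167975271719554252800, .ofNat 0, .ofNat 0, .ofNat 0, .ofNat 63024732694457424336996407653171200, .ofNat 0, .ofNat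 0, .ofNat 0, .ofNat 0, .ofNat 0⟩)
    (by decide +kernel)

end Crest.Agent.R097C4.N4pp
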