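import Crest.Agent.R097.T4

/-!
# Row 97, box cover in dimension n = 4 (generated)
-/

set_option autoImplicit false
set_option Elab.async false
set_option maxHeartbeats 0
set_option maxRecDepth 100000

open Crest.Agent.R097 Crest.Agent.R097.KA


namespace Crest.Agent.R097C4.N4pp

theorem L01368 : Good (Phi V4.P V4.D 1 1) ⟨5, 27, 4, 8, 3, 5, 3, 1, 4, 0⟩ :=
  leaf_sound (S := T4.ds_pp) T4.ok_pp (w := 200) (c := ⟨⟨.negSucc 940, .negSucc 14, .negSucc 187, .negSucc 202, .negSucc 189, .negSucc 837⟩, ⟨.negSucc 462, .ofNat 12, .negSucc 197, .negSucc 108, .negSucc 102, .negSucc 452⟩, ⟨.ofNat 1619, .negSucc 24, .ofNat 201, .ofNat 103, .negSucc 12, .ofNat 382⟩, ⟨.negSucc 1965, .negSucc 2, .negSucc 360, .negSucc 507, .negSucc 249, .negSucc 1418⟩, ⟨.ofNat 984, .ofNat 27, .ofNat 85, .ofNat 369, .negSucc 69, .ofNat 261⟩, .ofNat 1745, .negSucc 2637, .ofNat 0,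 .negSucc 2637, .ofNat 5074, .ofNat 0, .ofNat 124, .ofNat 417, .negSucc 581, .ofNat 0, .ofNat 240, .negSucc 302, .ofNat 0, .ofNat 0, .ofNat 652, .ofNat 5296, .ofNat 0, .ofNat 0, .ofNat 0, .ofNat 0, .ofNat 0, .ofNat 0, .ofNat 150903791742637222767134505330278400, .ofNat 0, .ofNat 0, .ofNat 0, .ofNat 57471289154160517180813146587136000, .ofNat 0, .ofNat 0, .ofNat 0, .ofNat 29393812408105538603020156560998400, .ofNat 0⟩)
    (by decide +kernel)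
theorem L01369 : Good (Phi V4.P V4.D 1 1) ⟨6, 54, 4, 9, 3, 5, 2, 0, 4, 0⟩ :=
  out_sound (S := T4.ds_pp) T4.ok_pp (w := 72) (j := 3) (by decide +kernel)
theorem L01370 : Good (Phi V4.P V4.D 1 1) ⟨7, 110, 5, 18, 3, 5, 2, 0, 4, 0⟩ :=
  leaf_sound (S := T4.ds_pp) T4.ok_pp (w := 208) (c := ⟨⟨.negSucc 913, .ofNat 200, .negSucc 218, .negSucc 173, .negSucc 491, .negSucc 917⟩, ⟨.negSucc 503, .ofNat 99, .negSucc 153, .negSucc 98, .negSucc 281, .negSucc 524⟩, ⟨.ofNat 1764, .negSucc 131, .ofNat 177, .ofNat 98, .ofNat 72, .ofNat 452⟩, ⟨.negSucc 2005, .ofNat 335, .negSucc 379, .negSucc 462, .negSucc 698, .negSucc 1553⟩, ⟨.ofNat 1112, .negSucc 67, .ofNat 83, .ofNat 352, .negSucc 71, .ofNat 306⟩, .ofNat 5817, .negSucc 9636, .ofNat 0, .negSucc 9636, .ofNat 17079, .ofNat 0, .ofNat 61, .ofNat 425, .negSucc 586, .ofNat 0, .ofNat 246, .negSucc 331, .ofNat 0, .ofNat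 0, .ofNat 643, .ofNat 3826, .ofNat 0, .ofNat 0, .ofNat 23148782905456477590786146304000, .ofNat 0, .ofNat 0, .ofNat 0, .ofNat 0, .ofNat 0, .ofNat 0, .ofNat 0, .ofNat 0, .ofNat 0, .ofNat 0, .ofNat 0, .ofNat 1373724244285474665325465593446400, .ofNat 0⟩)
    (by decide +kernel)
theorem L01371 : Good (Phi V4.P V4.D 1 1) ⟨7, 111, 5, 18, 3, 5, 2, 0, 4, 0⟩ :=
  out_sound (S := T4.ds_pp) T4.ok_pp (w := 24) (j := 4) (by decide +kernel)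
theorem L01372 : Good (Phi V4.P V4.D 1 1) ⟨7, 110, 5, 19, 3, 5, 2, 0, 4, 0⟩ :=
  out_sound (S := T4.ds_pp) T4.ok_pp (w := 80) (j := 3) (by decide +kernel)
theorem L01373 : Good (Phi V4.P V4.D 1 1) ⟨7, 111, 5, 19, 3, 5, 2, 0, 4, 0⟩ :=
  out_sound (S := T4.ds_pp) T4.ok_pp (w := 24) (j := 4) (by decide +kernel)
theorem L01374 : Good (Phi V4.P V4.D 1 1) ⟨5, 27, 4, 8, 3, 5, 2, 1, 4, 0⟩ :=
  leaf_sound (S := T4.ds_pp) T4.ok_pp (w := 200) (c := ⟨⟨.negSucc 1107, .negSucc 203, .negSucc 62, .negSucc 442, .negSucc 229, .negSucc 684⟩, ⟨.negSucc 547, .negSucc 115, .negSucc 126, .negSucc 235, .negSucc 128, .negSucc 369⟩, ⟨.ofNat 1601, .ofNat 112, .ofNat 101, .ofNat 289, .negSucc 239, .ofNat 259⟩, ⟨.negSucc 2194, .negSucc 324, .negSucc 127, .negSucc 935, .negSucc 191, .negSucc 1127⟩, ⟨.ofNat 918, .ofNat 169, .negSucc 2, .ofNat 479, .negSucc 287, .ofNat 158⟩,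 .ofNat 1738, .negSucc 2627, .ofNat 0, .negSucc 2627, .ofNat 5059, .ofNat 0, .ofNat 261, .ofNat 881, .negSucc 1263, .ofNat 0, .ofNat 509, .negSucc 653, .ofNat 0, .ofNat 0, .ofNat 1426, .ofNat 6561, .ofNat 0, .ofNat 0, .ofNat 0, .ofNat 0, .ofNat 0, .ofNat 0, .ofNat 73378513991662907461843419345715200, .ofNat 0, .ofNat 0, .ofNat 0, .ofNat 33260305455140679847943559394099200, .ofNat 0, .ofNat 0, .ofNat 0, .ofNat 14910720123013521031251005276160000, .ofNat 0⟩)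
    (by decide +kernel)
theorem L01375 : Good (Phi V4.P V4.D 1 1) ⟨5, 27, 4, 9, 3, 5, 2, 1, 4, 0⟩ :=
  leaf_sound (S := T4.ds_pp) T4.ok_pp (w := 200) (c := ⟨⟨.negSucc 1309, .ofNat 24, .negSucc 61, .negSucc 532, .negSucc 219, .negSucc 656⟩, ⟨.negSucc 710, .negSucc 28, .negSucc 113, .negSucc 303, .negSucc 125, .negSucc 374⟩, ⟨.ofNat 1774, .negSucc 0, .ofNat 73, .ofNat 359, .negSucc 251, .ofNat 233⟩, ⟨.negSucc 2558, .ofNat 48, .negSucc 98, .negSucc 1100, .negSucc 164, .negSucc 1073⟩, ⟨.ofNat 1026, .negSucc 15, .ofNat 14, .ofNat 522, .negSucc 288, .ofNat 151⟩, .ofNat 5745, .negSucc 9517, .ofNat 0, .negSucc 9517, .ofNat 16882, .ofNat 0, .ofNat 67, .ofNat 460, .negSucc 652, .ofNat 0, .ofNat 266, .negSucc 368, .ofNat 0, .ofNat 0, .ofNat 729, .ofNat 537, .ofNat 0, .ofNat 0, .ofNat 119806361906028683634641417011200, .ofNat 0, .ofNat 0, .ofNat 0, .ofNat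 27263633258596642206353044851916800, .ofNat 0, .ofNat 0, .ofNat 0, .ofNat 0, .ofNat 0, .ofNat 0, .ofNat 0, .ofNat 12579822550723842313607001931776000, .ofNat 0⟩)
    (by decide +kernel)
theorem L01376 : Good (Phi V4.P V4.D 1 1) ⟨5, 27, 3, 4, 3, 4, 1, 0, 4, 1⟩ :=
  leaf_sound (S := T4.ds_pp) T4.ok_pp (w := 192) (c := ⟨⟨.negSucc 1531, .negSucc 9, .negSucc 135, .negSucc 251, .negSucc 156, .negSucc 145⟩, ⟨.negSucc 774, .negSucc 51, .negSucc 208, .negSucc 135, .negSucc 91, .negSucc 81⟩, ⟨.ofNat 2053, .ofNat 42, .ofNat 121, .ofNat 141, .negSucc 620, .negSucc 102⟩, ⟨.negSucc 2909, .negSucc 14, .negSucc 227, .negSucc 595, .ofNat 128, .negSucc 198⟩, ⟨.ofNat 1043, .ofNat 26, .ofNat 71, .ofNat 384, .negSucc 667, .negSucc 37⟩, .ofNat 1836, .negSucc 2777, .ofNat 0, .negSucc 2777, .ofNat 5273, .ofNat 0, .ofNat 115, .ofNat 362, .negSucc 403, .ofNat 0, .ofNat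 214, .negSucc 210, .ofNat 0, .ofNat 0, .ofNat 590, .ofNat 2087, .ofNat 14038796784356031588281651655239270400, .ofNat 0, .ofNat 1413101776181687020364916326400, .ofNat 0, .ofNat 275443339464111076667677127702111846400, .ofNat 0, .ofNat 716671946896825492083758963097600, .ofNat 0, .ofNat 0, .ofNat 0, .ofNat 0, .ofNat 0, .ofNat 0, .ofNat 0, .ofNat 0, .ofNat 0⟩)
    (by decide +kernel)
theorem L01377 : Good (Phi V4.P V4.D 1 1) ⟨5, 27, 3, 4, 3, 5, 2, 0, 4, 1⟩ :=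
  leaf_sound (S := T4.ds_pp) T4.ok_pp (w := 192) (c := ⟨⟨.negSucc 1555, .negSucc 231, .negSucc 18, .negSucc 394, .negSucc 285, .negSucc 192⟩, ⟨.negSucc 775, .negSucc 156, .negSucc 202, .negSucc 213, .negSucc 158, .negSucc 103⟩, ⟨.ofNat 2015, .ofNat 225, .ofNat 60, .ofNat 185, .negSucc 106, .negSucc 109⟩, ⟨.negSucc 3082, .negSucc 377, .negSucc 95, .negSucc 870, .negSucc 308, .negSucc 311⟩, ⟨.ofNat 1314, .ofNat 100, .ofNat 51, .ofNat 490, .negSucc 224, .ofNat 34⟩, .ofNat 1854, .negSucc 2807, .ofNat 0, .negSucc 2807, .ofNat 5319, .ofNat 0, .ofNat 116, .ofNat 401, .negSucc 438, .ofNat 0, .ofNat 233, .negSucc 230, .ofNat 0, .ofNat 0, .ofNat 579, .ofNat 3981, .ofNat 222500884736362298479065330880610304000, .ofNat 0, .ofNat 47367997893762714465266250547200, .ofNat 0, .ofNat 1082658887331337999346915284603423948800, .ofNat 0, .ofNat 9021804991144643471849613479116800,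 .ofNat 0, .ofNat 0, .ofNat 0, .ofNat 0, .ofNat 0, .ofNat 0, .ofNat 0, .ofNat 4349963180373874524859185443635200, .ofNat 0⟩)
    (by decide +kernel)
theorem L01378 : Good (Phi V4.P V4.D 1 1) ⟨5, 27, 3, 4, 3, 5, 2, 1, 4, 1⟩ :=
  leaf_sound (S := T4.ds_pp) T4.ok_pp (w := 192) (c := ⟨⟨.negSucc 1748, .negSucc 226, .negSucc 63, .negSucc 582, .negSucc 188, .negSucc 148⟩, ⟨.negSucc 878, .negSucc 176, .negSucc 214, .negSucc 317, .negSucc 106, .negSucc 79⟩, ⟨.ofNat 1834, .ofNat 148, .ofNat 120, .ofNat 351, .negSucc 247, .negSucc 120⟩, ⟨.negSucc 3245, .negSucc 390, .negSucc 117, .negSucc 1208, .negSucc 98, .negSucc 210⟩, ⟨.ofNat 1053, .ofNat 170, .ofNat 2, .ofNat 590, .negSucc 340, .negSucc 27⟩, .ofNat 1818, .negSucc 2751, .ofNat 0, .negSucc 2751, .ofNat 5239, .ofNat 0, .ofNat 123, .ofNat 421, .negSucc 501, .ofNat 0, .ofNat 245, .negSucc 260, .ofNat 0, .ofNat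 0, .ofNat 642, .ofNat 1307, .ofNat 0, .ofNat 0, .ofNat 86183701714570252334556354969600, .ofNat 0, .ofNat 0, .ofNat 0, .ofNat 9679386537870340541967959379148800, .ofNat 0, .ofNat 0, .ofNat 0, .ofNat 0, .ofNat 0, .ofNat 0, .ofNat 0, .ofNat 0, .ofNat 0⟩)
    (by decide +kernel)
theorem L01379 : Good (Phi V4.P V4.D 1 1) ⟨4, 13, 3, 5, 2, 2, 1, 0, 3, 0⟩ :=
  out_sound (S := T4.ds_pp) T4.ok_pp (w := 56) (j := 3) (by decide +kernel)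
theorem L01380 : Good (Phi V4.P V4.D 1 1) ⟨4, 13, 2, 3, 2, 2, 1, 0, 3, 0⟩ :=
  out_sound (S := T4.ds_pp) T4.ok_pp (w := 56) (j := 3) (by decide +kernel)
theorem L01381 : Good (Phi V4.P V4.D 1 1) ⟨3, 7, 1, 1, 2, 2, 1, 0, 3, 0⟩ :=
  out_sound (S := T4.ds_pp) T4.ok_pp (w := 16) (j := 4) (by decide +kernel)
theorem L01382 : Good (Phi V4.P V4.D 1 1) ⟨2, 2, 1, 1, 2, 2, 1, 0, 3, 1⟩ :=
  out_sound (S := T4.ds_pp) T4.ok_pp (w := 40) (j := 3) (by decide +kernel)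
theorem L01383 : Good (Phi V4.P V4.D 1 1) ⟨4, 12, 2, 2, 2, 2, 1, 0, 3, 1⟩ :=
  out_sound (S := T4.ds_pp) T4.ok_pp (w := 56) (j := 3) (by decide +kernel)
theorem L01384 : Good (Phi V4.P V4.D 1 1) ⟨5, 26, 3, 4, 2, 2, 1, 0, 4, 2⟩ :=
  out_sound (S := T4.ds_pp) T4.ok_pp (w := 64) (j := 3) (by decide +kernel)
theorem L01385 : Good (Phi V4.P V4.D 1 1) ⟨5, 27, 3, 4, 2, 2, 2, 0, 4, 2⟩ :=
  leaf_sound (S := T4.ds_pp) T4.ok_pp (w := 184) (c := ⟨⟨.negSucc 1639, .negSucc 167, .ofNat 24, .negSucc 525, .negSucc 137, .ofNat 46⟩, ⟨.negSucc 825, .negSucc 151, .negSucc 125, .negSucc 284, .negSucc 80, .ofNat 23⟩, ⟨.ofNat 1946, .ofNat 93, .ofNat 81, .ofNat 185, .negSucc 237, .negSucc 272⟩, ⟨.negSucc 3028, .negSucc 312, .ofNat 46, .negSucc 1297, .negSucc 25, .ofNat 150⟩, ⟨.ofNat 970, .ofNat 163, .negSucc 52, .ofNat 904, .negSucc 334, .negSucc 145⟩, .ofNat 768, .negSucc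 900, .ofNat 0, .negSucc 900, .ofNat 1882, .ofNat 0, .ofNat 177, .ofNat 328, .negSucc 335, .ofNat 0, .ofNat 212, .negSucc 153, .ofNat 0, .ofNat 0, .ofNat 551, .ofNat 2763, .ofNat 588875333809298185219826504643379200, .ofNat 0, .ofNat 89612824178921197427018956800, .ofNat 0, .ofNat 0, .ofNat 0, .ofNat 0, .ofNat 0, .ofNat 0, .ofNat 0, .ofNat 0, .ofNat 0, .ofNat 0, .ofNat 0, .ofNat 0, .ofNat 0⟩)
    (by decide +kernel)
theorem L01386 : Good (Phi V4.P V4.D 1 1) ⟨5, 27, 3, 4, 2, 2, 2, 1, 4, 2⟩ :=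
  leaf_sound (S := T4.ds_pp) T4.ok_pp (w := 184) (c := ⟨⟨.negSucc 1684, .negSucc 265, .ofNat 126, .negSucc 751, .negSucc 139, .ofNat 84⟩, ⟨.negSucc 855, .negSucc 184, .negSucc 99, .negSucc 405, .negSucc 77, .ofNat 46⟩, ⟨.ofNat 1603, .ofNat 204, .negSucc 61, .ofNat 402, .negSucc 241, .negSucc 268⟩, ⟨.negSucc 2914, .negSucc 516, .ofNat 295, .negSucc 1668, .negSucc 33, .ofNat 217⟩, ⟨.ofNat 619, .ofNat 264, .negSucc 170, .ofNat 954, .negSucc 321, .negSucc 160⟩, .ofNat 771, .negSucc 904, .ofNat 0, .negSucc 904, .ofNat 1886, .ofNat 0, .ofNat 183, .ofNat 347, .negSucc 402, .ofNat 0, .ofNat 224, .negSucc 186, .ofNat 0, .ofNat 0, .ofNat 604, .ofNat 1237, .ofNat 0, .ofNat 0, .ofNat 69704479134977235885018316800, .ofNat 0, .ofNat 0, .ofNat 0, .ofNat 0, .ofNat 0, .ofNat 0, .ofNat 0, .ofNat 0, .ofNat 0, .ofNat 0, .ofNat 0, .ofNat 0, .ofNat 0⟩)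
    (by decide +kernel)
theorem L01387 : Good (Phi V4.P V4.D 1 1) ⟨5, 26, 3, 4, 2, 2, 1, 0, 4, 3⟩ :=
  out_sound (S := T4.ds_pp) T4.ok_pp (w := 64) (j := 3) (by decide +kernel)
theorem L01388 : Good (Phi V4.P V4.D 1 1) ⟨5, 27, 4, 8, 2, 2, 1, 0, 4, 3⟩ :=
  leaf_sound (S := T4.ds_pp) T4.ok_pp (w := 184) (c := ⟨⟨.negSucc 1626, .negSucc 112, .ofNat 9, .negSucc 481, .negSucc 287, .ofNat 126⟩, ⟨.negSucc 832, .negSucc 55, .negSucc 94, .negSucc 251, .negSucc 163, .ofNat 69⟩, ⟨.ofNat 1671, .ofNat 51, .ofNat 15, .ofNat 130, .negSucc 353, .negSucc 314⟩, ⟨.negSucc 2935, .negSucc 165, .ofNat 16, .negSucc 1203, .negSucc 118, .ofNat 280⟩, ⟨.ofNat 819, .ofNat 130, .negSucc 38, .ofNat 865, .negSucc 584, .negSucc 164⟩, .ofNat 1749, .negSucc 2644, .ofNat 0, .negSucc 2644, .ofNat 5084, .ofNat 0, .ofNat 110, .ofNat 323, .negSucc 250, .ofNat 0, .ofNat 191, .negSucc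 126, .ofNat 0, .ofNat 0, .ofNat 519, .ofNat 2734, .ofNat 0, .ofNat 0, .ofNat 0, .ofNat 0, .ofNat 12669258094631596917617175408358195200, .ofNat 0, .ofNat 2143360021907878060374569779200, .ofNat 0, .ofNat 0, .ofNat 0, .ofNat 0, .ofNat 0, .ofNat 0, .ofNat 0, .ofNat 0, .ofNat 0⟩)
    (by decide +kernel)
theorem L01389 : Good (Phi V4.P V4.D 1 1) ⟨5, 27, 4, 9, 2, 2, 2, 0, 4, 3⟩ :=
  leaf_sound (S := T4.ds_pp) T4.ok_pp (w := 192) (c := ⟨⟨.negSucc 1706, .negSucc 10, .negSucc 51, .negSucc 447, .negSucc 126, .ofNat 142⟩, ⟨.negSucc 940, .negSucc 43, .negSucc 106, .negSucc 254, .negSucc 72, .ofNat 81⟩, ⟨.ofNat 1784, .ofNat 8, .ofNat 46, .ofNat 116, .negSucc 235, .negSucc 355⟩, ⟨.negSucc 3088, .negSucc 11, .negSucc 110, .negSucc 1175, .ofNat 2, .ofNat 347⟩, ⟨.ofNat 905, .ofNat 1, .ofNat 71, .ofNat 877, .negSucc 335, .negSucc 232⟩, .ofNat 5753, .negSucc 9530,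 .ofNat 0, .negSucc 9530, .ofNat 16906, .ofNat 0, .ofNat 56, .ofNat 332, .negSucc 229, .ofNat 0, .ofNat 194, .negSucc 128, .ofNat 0, .ofNat 0, .ofNat 513, .ofNat 5434, .ofNat 2269801778905034556554398834203033600, .ofNat 0, .ofNat 127683809823678310744326144000, .ofNat 0, .ofNat 18816403876815782877473485360830873600, .ofNat 0, .ofNat 62144274891599942880291559833600, .ofNat 0, .ofNat 0, .ofNat 0, .ofNat 20759961846761500596595222118400, .ofNat 0, .ofNat 0, .ofNat 0, .ofNat 0, .ofNat 0⟩)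
    (by decide +kernel)
theorem L01390 : Good (Phi V4.P V4.D 1 1) ⟨5, 27, 4, 9, 2, 2, 2, 1, 4, 3⟩ :=
  leaf_sound (S := T4.ds_pp) T4.ok_pp (w := 192) (c := ⟨⟨.negSucc 1723, .negSucc 26, .negSucc 16, .negSucc 620, .negSucc 181, .ofNat 130⟩, ⟨.negSucc 951, .negSucc 54, .negSucc 86, .negSucc 352, .negSucc 104, .ofNat 74⟩, ⟨.ofNat 1404, .ofNat 31, .ofNat 16, .ofNat 301, .negSucc 137, .negSucc 292⟩, ⟨.negSucc 2885, .negSucc 37, .ofNat 15, .negSucc 1466, .negSucc 139, .ofNat 290⟩, ⟨.ofNat 495, .ofNat 14, .negSucc 34, .ofNat 932, .negSucc 231, .negSucc 164⟩, .ofNat 5768, .negSucc 9555, .ofNat 0, .negSucc 9555, .ofNat 16947, .ofNat 0, .ofNat 58, .ofNat 347, .negSucc 284, .ofNat 0, .ofNat 202, .negSucc 159, .ofNat 0, .ofNat 0, .ofNat 538, .ofNat 2209, .ofNat 0, .ofNat 0, .ofNat 205383775067409987490598092800, .ofNat 0, .ofNat 0, .ofNat 0, .ofNat 54398474641101199170579569049600,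 .ofNat 0, .ofNat 0, .ofNat 0, .ofNat 0, .ofNat 0, .ofNat 0, .ofNat 0, .ofNat 0, .ofNat 0⟩)
    (by decide +kernel)
theorem L01391 : Good (Phi V4.P V4.D 1 1) ⟨4, 13, 3, 5, 2, 2, 1, 0, 3, 1⟩ :=
  out_sound (S := T4.ds_pp) T4.ok_pp (w := 56) (j := 3) (by decide +kernel)
theorem L01392 : Good (Phi V4.P V4.D 1 1) ⟨3, 6, 2, 3, 2, 2, 1, 0, 3, 1⟩ :=
  out_sound (S := T4.ds_pp) T4.ok_pp (w := 48) (j := 3) (by decide +kernel)
theorem L01393 : Good (Phi V4.P V4.D 1 1) ⟨3, 7, 1, 1, 2, 2, 1, 0, 3, 1⟩ :=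
  out_sound (S := T4.ds_pp) T4.ok_pp (w := 16) (j := 4) (by decide +kernel)
theorem L01394 : Good (Phi V4.P V4.D 1 1) ⟨2, 2, 2, 2, 2, 3, 1, 0, 3, 0⟩ :=
  out_sound (S := T4.ds_pp) T4.ok_pp (w := 40) (j := 3) (by decide +kernel)
theorem L01395 : Good (Phi V4.P V4.D 1 1) ⟨4, 12, 3, 4, 4, 12, 3, 0, 4, 0⟩ :=
  out_sound (S := T4.ds_pp) T4.ok_pp (w := 56) (j := 3) (by decide +kernel)
theorem L01396 : Good (Phi V4.P V4.D 1 1) ⟨5, 26, 3, 4, 4, 12, 3, 0, 4, 0⟩ :=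
  out_sound (S := T4.ds_pp) T4.ok_pp (w := 64) (j := 3) (by decide +kernel)
theorem L01397 : Good (Phi V4.P V4.D 1 1) ⟨6, 54, 4, 8, 4, 12, 3, 0, 4, 0⟩ :=
  leaf_sound (S := T4.ds_pp) T4.ok_pp (w := 216) (c := ⟨⟨.negSucc 188, .negSucc 210, .ofNat 35, .ofNat 35, .negSucc 498, .negSucc 1662⟩, ⟨.negSucc 59, .negSucc 105, .negSucc 62, .ofNat 20, .negSucc 267, .negSucc 894⟩, ⟨.ofNat 1215, .ofNat 153, .ofNat 24, .negSucc 56, .ofNat 209, .ofNat 895⟩, ⟨.negSucc 913, .negSucc 357, .ofNat 19, .negSucc 14, .negSucc 779, .negSucc 2811⟩, ⟨.ofNat 1172, .ofNat 96, .negSucc 20, .ofNat 126, .ofNat 36, .ofNat 513⟩, .ofNat 1704, .negSucc 2573, .ofNat 0, .negSucc 2573, .ofNat 4978, .ofNat 0, .ofNat 127, .ofNat 462, .negSucc 732, .ofNat 0, .ofNat 260, .negSucc 381, .ofNat 0, .ofNat 0, .ofNat 687, .ofNat 3485, .ofNat 0, .ofNat 0, .ofNat 0, .ofNat 0, .ofNat 0, .ofNat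 0, .ofNat 0, .ofNat 0, .ofNat 0, .ofNat 0, .ofNat 0, .ofNat 0, .ofNat 0, .ofNat 0, .ofNat 0, .ofNat 0⟩)
    (by decide +kernel)
theorem L01398 : Good (Phi V4.P V4.D 1 1) ⟨6, 55, 5, 16, 4, 12, 3, 0, 4, 0⟩ :=
  out_sound (S := T4.ds_pp) T4.ok_pp (w := 72) (j := 3) (by decide +kernel)
theorem L01399 : Good (Phi V4.P V4.D 1 1) ⟨6, 55, 5, 17, 4, 12, 3, 0, 4, 0⟩ :=
  leaf_sound (S := T4.ds_pp) T4.ok_pp (w := 216) (c := ⟨⟨.negSucc 267, .negSucc 398, .negSucc 27, .ofNat 36, .negSucc 603, .negSucc 1768⟩, ⟨.negSucc 104, .negSucc 208, .negSucc 67, .ofNat 22, .negSucc 339, .negSucc 991⟩, ⟨.ofNat 1308, .ofNat 301, .ofNat 47, .negSucc 65, .ofNat 280, .ofNat 961⟩, ⟨.negSucc 1074, .negSucc 646, .negSucc 62, .negSucc 17, .negSucc 951, .negSucc 2981⟩, ⟨.ofNat 1209, .ofNat 77, .ofNat 14, .ofNat 130, .ofNat 70, .ofNat 554⟩, .ofNat 4646, .negSucc 7688, .ofNat 0, .negSucc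 7688, .ofNat 13860, .ofNat 0, .ofNat 74, .ofNat 475, .negSucc 746, .ofNat 0, .ofNat 271, .negSucc 415, .ofNat 0, .ofNat 0, .ofNat 695, .ofNat 5974, .ofNat 0, .ofNat 0, .ofNat 0, .ofNat 0, .ofNat 34488690781966154326844004414820488472166400, .ofNat 0, .ofNat 149059818847036406873699883674291404800, .ofNat 0, .ofNat 0, .ofNat 0, .ofNat 0, .ofNat 0, .ofNat 0, .ofNat 0, .ofNat 18149447909255132898821188783964160000, .ofNat 0⟩)
    (by decide +kernel)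
theorem L01400 : Good (Phi V4.P V4.D 1 1) ⟨6, 54, 4, 9, 4, 12, 3, 0, 4, 0⟩ :=
  out_sound (S := T4.ds_pp) T4.ok_pp (w := 72) (j := 3) (by decide +kernel)
theorem L01401 : Good (Phi V4.P V4.D 1 1) ⟨7, 110, 6, 36, 4, 12, 3, 0, 5, 0⟩ :=
  leaf_sound (S := T4.ds_pp) T4.ok_pp (w := 224) (c := ⟨⟨.negSucc 270, .ofNat 4, .negSucc 41, .ofNat 151, .negSucc 665, .negSucc 1203⟩, ⟨.negSucc 140, .negSucc 1, .negSucc 39, .ofNat 87, .negSucc 380, .negSucc 689⟩, ⟨.ofNat 1306, .ofNat 16, .ofNat 37, .negSucc 123, .ofNat 332, .ofNat 716⟩, ⟨.negSucc 1109, .ofNat 5, .negSucc 80, .ofNat 176, .negSucc 1048, .negSucc 1991⟩, ⟨.ofNat 1236, .negSucc 1, .ofNat 19, .ofNat 89, .ofNat 84, .ofNat 319⟩, .ofNat 2239, .negSucc 3412, .ofNat 0, .negSucc 3412, .ofNat 6226, .ofNat 0, .ofNat 102, .ofNat 476, .negSucc 896, .ofNat 0, .ofNat 277, .negSucc 497, .ofNat 0, .ofNat 0, .ofNat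 778, .ofNat 7424, .ofNat 0, .ofNat 0, .ofNat 0, .ofNat 0, .ofNat 0, .ofNat 0, .ofNat 0, .ofNat 0, .ofNat 0, .ofNat 0, .ofNat 0, .ofNat 0, .ofNat 0, .ofNat 0, .ofNat 0, .ofNat 0⟩)
    (by decide +kernel)
theorem L01402 : Good (Phi V4.P V4.D 1 1) ⟨7, 110, 6, 36, 4, 12, 3, 0, 5, 1⟩ :=
  leaf_sound (S := T4.ds_pp) T4.ok_pp (w := 232) (c := ⟨⟨.negSucc 1243, .negSucc 245, .negSucc 6, .negSucc 219, .negSucc 450, .negSucc 543⟩, ⟨.negSucc 695, .negSucc 141, .negSucc 31, .negSucc 125, .negSucc 257, .negSucc 309⟩, ⟨.ofNat 1892, .ofNat 165, .ofNat 22, .ofNat 92, .ofNat 179, .ofNat 245⟩, ⟨.negSucc 2715, .negSucc 417, .negSucc 18, .negSucc 435, .negSucc 709, .negSucc 944⟩, ⟨.ofNat 1483, .ofNat 83, .ofNat 6, .ofNat 185, .ofNat 55, .ofNat 223⟩, .ofNat 5696, .negSucc 9435, .ofNat 0, .negSucc 9435, .ofNat 16746, .ofNat 0, .ofNat 64, .ofNat 475, .negSucc 706, .ofNat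 0, .ofNat 274, .negSucc 399, .ofNat 0, .ofNat 0, .ofNat 678, .ofNat 22930, .ofNat 0, .ofNat 0, .ofNat 0, .ofNat 0, .ofNat 0, .ofNat 0, .ofNat 1330116739094867565481050848813383680000, .ofNat 0, .ofNat 0, .ofNat 0, .ofNat 0, .ofNat 0, .ofNat 0, .ofNat 0, .ofNat 0, .ofNat 0⟩)
    (by decide +kernel)
theorem L01403 : Good (Phi V4.P V4.D 1 1) ⟨8, 220, 6, 37, 4, 12, 3, 0, 4, 0⟩ :=
  out_sound (S := T4.ds_pp) T4.ok_pp (w := 88) (j := 3) (by decide +kernel)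
theorem L01404 : Good (Phi V4.P V4.D 1 1) ⟨9, 442, 7, 74, 4, 12, 3, 0, 4, 0⟩ :=
  out_sound (S := T4.ds_pp) T4.ok_pp (w := 96) (j := 3) (by decide +kernel)
theorem L01405 : Good (Phi V4.P V4.D 1 1) ⟨10, 886, 8, 148, 4, 12, 3, 0, 4, 0⟩ :=
  out_sound (S := T4.ds_pp) T4.ok_pp (w := 104) (j := 3) (by decide +kernel)
theorem L01406 : Good (Phi V4.P V4.D 1 1) ⟨10, 887, 8, 148, 4, 12, 3, 0, 4, 0⟩ :=
  out_sound (S := T4.ds_pp) T4.ok_pp (w := 32) (j := 4) (by decide +kernel)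
theorem L01407 : Good (Phi V4.P V4.D 1 1) ⟨9, 443, 8, 149, 4, 12, 3, 0, 4, 0⟩ :=
  out_sound (S := T4.ds_pp) T4.ok_pp (w := 96) (j := 3) (by decide +kernel)
theorem L01408 : Good (Phi V4.P V4.D 1 1) ⟨8, 221, 7, 75, 4, 12, 3, 0, 4, 0⟩ :=
  out_sound (S := T4.ds_pp) T4.ok_pp (w := 88) (j := 3) (by decide +kernel)
theorem L01409 : Good (Phi V4.P V4.D 1 1) ⟨7, 111, 5, 18, 4, 12, 3, 0, 4, 0⟩ :=
  out_sound (S := T4.ds_pp) T4.ok_pp (w := 24) (j := 4) (by decide +kernel)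
theorem L01410 : Good (Phi V4.P V4.D 1 1) ⟨7, 110, 5, 19, 4, 12, 3, 0, 4, 0⟩ :=
  out_sound (S := T4.ds_pp) T4.ok_pp (w := 80) (j := 3) (by decide +kernel)
theorem L01411 : Good (Phi V4.P V4.D 1 1) ⟨7, 111, 5, 19, 4, 12, 3, 0, 4, 0⟩ :=
  out_sound (S := T4.ds_pp) T4.ok_pp (w := 24) (j := 4) (by decide +kernel)
theorem L01412 : Good (Phi V4.P V4.D 1 1) ⟨3, 7, 3, 4, 4, 12, 3, 0, 4, 0⟩ :=
  out_sound (S := T4.ds_pp) T4.ok_pp (w := 16) (j := 4) (by decide +kernel)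
theorem L01413 : Good (Phi V4.P V4.D 1 1) ⟨4, 12, 3, 4, 4, 13, 3, 0, 4, 0⟩ :=
  out_sound (S := T4.ds_pp) T4.ok_pp (w := 56) (j := 3) (by decide +kernel)
theorem L01414 : Good (Phi V4.P V4.D 1 1) ⟨5, 26, 3, 4, 5, 26, 3, 0, 4, 0⟩ :=
  out_sound (S := T4.ds_pp) T4.ok_pp (w := 64) (j := 3) (by decide +kernel)
theorem L01415 : Good (Phi V4.P V4.D 1 1) ⟨6, 54, 4, 8, 5, 26, 3, 0, 5, 0⟩ :=
  leaf_sound (S := T4.ds_pp) T4.ok_pp (w := 224) (c := ⟨⟨.ofNat 505, .negSucc 292, .ofNat 131, .ofNat 298, .negSucc 805, .negSucc 1714⟩, ⟨.ofNat 298, .negSucc 119, .negSucc 10, .ofNat 164, .negSucc 435, .negSucc 924⟩, ⟨.ofNat 745, .ofNat 202, .negSucc 31, .negSucc 198, .ofNat 399, .ofNat 1007⟩, ⟨.ofNat 123, .negSucc 468, .ofNat 144, .ofNat 442, .negSucc 1268, .negSucc 2803⟩, ⟨.ofNat 1234, .ofNat 20, .ofNat 35, .ofNat 19, .ofNat 75, .ofNat 353⟩, .ofNat 1711, .negSucc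 2583, .ofNat 0, .negSucc 2583, .ofNat 4989, .ofNat 0, .ofNat 129, .ofNat 499, .negSucc 982, .ofNat 0, .ofNat 279, .negSucc 516, .ofNat 0, .ofNat 0, .ofNat 798, .ofNat 4574, .ofNat 0, .ofNat 0, .ofNat 0, .ofNat 0, .ofNat 0, .ofNat 0, .ofNat 0, .ofNat 0, .ofNat 0, .ofNat 0, .ofNat 0, .ofNat 0, .ofNat 0, .ofNat 0, .ofNat 0, .ofNat 0⟩)
    (by decide +kernel)
theorem L01416 : Good (Phi V4.P V4.D 1 1) ⟨6, 55, 4, 8, 5, 26, 3, 0, 5, 0⟩ :=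
  leaf_sound (S := T4.ds_pp) T4.ok_pp (w := 224) (c := ⟨⟨.ofNat 639, .negSucc 226, .negSucc 187, .ofNat 280, .negSucc 937, .negSucc 1934⟩, ⟨.ofNat 395, .negSucc 143, .negSucc 135, .ofNat 158, .negSucc 526, .negSucc 1087⟩, ⟨.ofNat 698, .ofNat 210, .ofNat 133, .negSucc 188, .ofNat 489, .ofNat 1152⟩, ⟨.ofNat 315, .negSucc 360, .negSucc 345, .ofNat 414, .negSucc 1479, .negSucc 3144⟩, ⟨.ofNat 1203, .ofNat 2, .ofNat 62, .ofNat 17, .ofNat 113, .ofNat 399⟩, .ofNat 2049, .negSucc 3113, .ofNat 0, .negSucc 3113, .ofNat 5776, .ofNat 0, .ofNat 56, .ofNat 255, .negSucc 548, .ofNat 0, .ofNat 146, .negSucc 300, .ofNat 0, .ofNat 0, .ofNat 431, .ofNat 2537, .ofNat 0, .ofNat 0, .ofNat 0, .ofNat 0, .ofNat 0, .ofNat 0, .ofNat 106716676975410706181371729473784145510400, .ofNat 0, .ofNat 0, .ofNat 0, .ofNat 0, .ofNat 0, .ofNat 0, .ofNat 0, .ofNat 96521278235824048307145775609686471475200,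 .ofNat 0⟩)
    (by decide +kernel)
theorem L01417 : Good (Phi V4.P V4.D 1 1) ⟨6, 54, 4, 9, 5, 26, 3, 0, 5, 0⟩ :=
  out_sound (S := T4.ds_pp) T4.ok_pp (w := 72) (j := 3) (by decide +kernel)
theorem L01418 : Good (Phi V4.P V4.D 1 1) ⟨7, 110, 5, 18, 5, 26, 3, 0, 6, 0⟩ :=
  leaf_sound (S := T4.ds_pp) T4.ok_pp (w := 240) (c := ⟨⟨.ofNat 535, .ofNat 46, .negSucc 117, .ofNat 532, .negSucc 1187, .negSucc 1220⟩, ⟨.ofNat 318, .ofNat 12, .negSucc 70, .ofNat 306, .negSucc 679, .negSucc 697⟩, ⟨.ofNat 769, .ofNat 1, .ofNat 81, .negSucc 346, .ofNat 655, .ofNat 747⟩, ⟨.ofNat 98, .ofNat 56, .negSucc 206, .ofNat 800, .negSucc 1860, .negSucc 1961⟩, ⟨.ofNat 1249, .ofNat 9, .ofNat 21, .negSucc 0, .ofNat 132, .ofNat 221⟩, .ofNat 2231, .negSucc 3399, .ofNat 0, .negSucc 3399, .ofNat 6206, .ofNat 0, .ofNat 52, .ofNat 257, .negSucc 610, .ofNat 0, .ofNat 148, .negSucc 339,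 .ofNat 0, .ofNat 0, .ofNat 468, .ofNat 4502, .ofNat 0, .ofNat 0, .ofNat 0, .ofNat 0, .ofNat 0, .ofNat 0, .ofNat 0, .ofNat 0, .ofNat 0, .ofNat 0, .ofNat 0, .ofNat 0, .ofNat 0, .ofNat 0, .ofNat 0, .ofNat 0⟩)
    (by decide +kernel)
theorem L01419 : Good (Phi V4.P V4.D 1 1) ⟨7, 110, 5, 18, 5, 26, 3, 0, 6, 1⟩ :=
  leaf_sound (S := T4.ds_pp) T4.ok_pp (w := 240) (c := ⟨⟨.negSucc 531, .negSucc 63, .negSucc 232, .ofNat 17, .negSucc 845, .negSucc 740⟩, ⟨.negSucc 283, .negSucc 55, .negSucc 156, .ofNat 9, .negSucc 482, .negSucc 423⟩, ⟨.ofNat 1433, .ofNat 65, .ofNat 159, .negSucc 35, .ofNat 431, .ofNat 424⟩, ⟨.negSucc 1613, .negSucc 114, .negSucc 385, .negSucc 1, .negSucc 1349, .negSucc 1226⟩, ⟨.ofNat 1433, .ofNat 24, .ofNat 47, .ofNat 48, .ofNat 135, .ofNat 197⟩, .ofNat 5689, .negSucc 9424, .ofNat 0, .negSucc 9424, .ofNat 16729, .ofNat 0, .ofNat 65, .ofNat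 516, .negSucc 996, .ofNat 0, .ofNat 296, .negSucc 563, .ofNat 0, .ofNat 0, .ofNat 811, .ofNat 12885, .ofNat 0, .ofNat 0, .ofNat 0, .ofNat 0, .ofNat 0, .ofNat 0, .ofNat 5537802904929243371194334542167491896934400, .ofNat 0, .ofNat 0, .ofNat 0, .ofNat 0, .ofNat 0, .ofNat 0, .ofNat 0, .ofNat 0, .ofNat 0⟩)
    (by decide +kernel)
theorem L01420 : Good (Phi V4.P V4.D 1 1) ⟨7, 111, 5, 18, 5, 26, 3, 0, 5, 0⟩ :=
  out_sound (S := T4.ds_pp) T4.ok_pp (w := 24) (j := 4) (by decide +kernel)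
theorem L01421 : Good (Phi V4.P V4.D 1 1) ⟨7, 110, 5, 19, 5, 26, 3, 0, 5, 0⟩ :=
  out_sound (S := T4.ds_pp) T4.ok_pp (w := 80) (j := 3) (by decide +kernel)
theorem L01422 : Good (Phi V4.P V4.D 1 1) ⟨7, 111, 5, 19, 5, 26, 3, 0, 5, 0⟩ :=
  out_sound (S := T4.ds_pp) T4.ok_pp (w := 24) (j := 4) (by decide +kernel)
theorem L01423 : Good (Phi V4.P V4.D 1 1) ⟨5, 27, 4, 8, 5, 26, 3, 0, 5, 1⟩ :=
  leaf_sound (S := T4.ds_pp) T4.ok_pp (w := 224) (c := ⟨⟨.negSucc 1010, .negSucc 570, .negSucc 94, .negSucc 65, .negSucc 534, .negSucc 756⟩, ⟨.negSucc 482, .negSucc 299, .negSucc 170, .negSucc 33, .negSucc 290, .negSucc 407⟩, ⟨.ofNat 1637, .ofNat 372, .ofNat 132, .ofNat 2, .ofNat 224, .ofNat 356⟩, ⟨.negSucc 2362, .negSucc 940, .negSucc 195, .negSucc 142, .negSucc 850, .negSucc 1308⟩, ⟨.ofNat 1528, .ofNat 200, .ofNat 21, .ofNat 76, .ofNat 67, .ofNat 288⟩, .ofNat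 1755, .negSucc 2653, .ofNat 0, .negSucc 2653, .ofNat 5093, .ofNat 0, .ofNat 128, .ofNat 497, .negSucc 778, .ofNat 0, .ofNat 278, .negSucc 409, .ofNat 0, .ofNat 0, .ofNat 695, .ofNat 10125, .ofNat 0, .ofNat 0, .ofNat 0, .ofNat 0, .ofNat 0, .ofNat 0, .ofNat 698840754830671967818741391931968009011200, .ofNat 0, .ofNat 0, .ofNat 0, .ofNat 0, .ofNat 0, .ofNat 4563917685645702377031603450070282753435238400, .ofNat 0, .ofNat 190409264536663390871118717731376149299200, .ofNat 0⟩)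
    (by decide +kernel)
theorem L01424 : Good (Phi V4.P V4.D 1 1) ⟨6, 54, 4, 9, 5, 26, 3, 0, 5, 1⟩ :=
  out_sound (S := T4.ds_pp) T4.ok_pp (w := 72) (j := 3) (by decide +kernel)
theorem L01425 : Good (Phi V4.P V4.D 1 1) ⟨6, 55, 5, 18, 5, 26, 3, 0, 5, 1⟩ :=
  leaf_sound (S := T4.ds_pp) T4.ok_pp (w := 232) (c := ⟨⟨.negSucc 1433, .negSucc 70, .negSucc 212, .negSucc 121, .negSucc 570, .negSucc 663⟩, ⟨.negSucc 798, .negSucc 57, .negSucc 174, .negSucc 70, .negSucc 326, .negSucc 379⟩, ⟨.ofNat 1976, .ofNat 60, .ofNat 166, .ofNat 36, .ofNat 252, .ofNat 302⟩, ⟨.negSucc 3096, .negSucc 120, .negSucc 365, .negSucc 231, .negSucc 913, .negSucc 1157⟩, ⟨.ofNat 1649, .ofNat 16, .ofNat 68, .ofNat 84, .ofNat 99, .ofNat 281⟩, .ofNat 2253, .negSucc 3434, .ofNat 0, .negSucc 3434, .ofNat 6259, .ofNat 0, .ofNat 104, .ofNat 505, .negSucc 828, .ofNat 0, .ofNat 292, .negSucc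 459, .ofNat 0, .ofNat 0, .ofNat 725, .ofNat 11051, .ofNat 0, .ofNat 0, .ofNat 0, .ofNat 0, .ofNat 0, .ofNat 0, .ofNat 649224888465707792983378072170723173990400, .ofNat 0, .ofNat 0, .ofNat 0, .ofNat 0, .ofNat 0, .ofNat 0, .ofNat 0, .ofNat 0, .ofNat 0⟩)
    (by decide +kernel)
theorem L01426 : Good (Phi V4.P V4.D 1 1) ⟨7, 110, 5, 19, 5, 26, 3, 0, 5, 1⟩ :=
  out_sound (S := T4.ds_pp) T4.ok_pp (w := 80) (j := 3) (by decide +kernel)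
theorem L01427 : Good (Phi V4.P V4.D 1 1) ⟨7, 111, 5, 19, 5, 26, 3, 0, 5, 1⟩ :=
  out_sound (S := T4.ds_pp) T4.ok_pp (w := 24) (j := 4) (by decide +kernel)
theorem L01428 : Good (Phi V4.P V4.D 1 1) ⟨5, 26, 3, 4, 5, 27, 3, 0, 4, 0⟩ :=
  out_sound (S := T4.ds_pp) T4.ok_pp (w := 64) (j := 3) (by decide +kernel)
theorem L01429 : Good (Phi V4.P V4.D 1 1) ⟨6, 54, 5, 16, 5, 27, 3, 0, 6, 0⟩ :=
  leaf_sound (S := T4.ds_pp) T4.ok_pp (w := 232) (c := ⟨⟨.ofNat 1104, .ofNat 95, .negSucc 52, .ofNat 528, .negSucc 1082, .negSucc 1314⟩, ⟨.ofNat 609, .ofNat 80, .negSucc 49, .ofNat 284, .negSucc 576, .negSucc 702⟩, ⟨.ofNat 379, .negSucc 43, .ofNat 56, .negSucc 330, .ofNat 556, .ofNat 777⟩, ⟨.ofNat 1033, .ofNat 95, .negSucc 93, .ofNat 792, .negSucc 1690, .negSucc 2104⟩, ⟨.ofNat 1252, .ofNat 71, .negSucc 24, .ofNat 25, .ofNat 65, .ofNat 180⟩, .ofNat 1638, .negSucc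 2470, .ofNat 0, .negSucc 2470, .ofNat 4830, .ofNat 0, .ofNat 68, .ofNat 262, .negSucc 566, .ofNat 0, .ofNat 145, .negSucc 294, .ofNat 0, .ofNat 0, .ofNat 431, .ofNat 2583, .ofNat 0, .ofNat 0, .ofNat 0, .ofNat 0, .ofNat 0, .ofNat 0, .ofNat 0, .ofNat 0, .ofNat 0, .ofNat 0, .ofNat 0, .ofNat 0, .ofNat 0, .ofNat 0, .ofNat 0, .ofNat 0⟩)
    (by decide +kernel)
theorem L01430 : Good (Phi V4.P V4.D 1 1) ⟨6, 54, 5, 17, 5, 27, 3, 0, 6, 0⟩ :=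
  leaf_sound (S := T4.ds_pp) T4.ok_pp (w := 232) (c := ⟨⟨.ofNat 1133, .ofNat 242, .negSucc 175, .ofNat 509, .negSucc 1263, .negSucc 1489⟩, ⟨.ofNat 622, .ofNat 160, .negSucc 118, .ofNat 282, .negSucc 697, .negSucc 820⟩, ⟨.ofNat 365, .negSucc 113, .ofNat 124, .negSucc 320, .ofNat 673, .ofNat 892⟩, ⟨.ofNat 1050, .ofNat 348, .negSucc 298, .ofNat 766, .negSucc 1973, .negSucc 2373⟩, ⟨.ofNat 1244, .ofNat 6, .ofNat 17, .ofNat 11, .ofNat 105, .ofNat 207⟩, .ofNat 1867, .negSucc 2830, .ofNat 0, .negSucc 2830, .ofNat 5357, .ofNat 0, .ofNat 61, .ofNat 267, .negSucc 623, .ofNat 0, .ofNat 150, .negSucc 334, .ofNat 0, .ofNat 0, .ofNat 462, .ofNat 3176, .ofNat 0, .ofNat 0, .ofNat 0, .ofNat 0, .ofNat 0, .ofNat 0, .ofNat 0, .ofNat 0, .ofNat 0, .ofNat 0, .ofNat 0, .ofNat 0, .ofNat 0, .ofNat 0, .ofNat 0, .ofNat 0⟩)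
    (by decide +kernel)
theorem L01431 : Good (Phi V4.P V4.D 1 1) ⟨6, 54, 4, 8, 5, 27, 3, 0, 6, 1⟩ :=
  leaf_sound (S := T4.ds_pp) T4.ok_pp (w := 232) (c := ⟨⟨.negSucc 39, .negSucc 47, .negSucc 273, .ofNat 196, .negSucc 893, .negSucc 890⟩, ⟨.ofNat 23, .negSucc 26, .negSucc 209, .ofNat 107, .negSucc 486, .negSucc 481⟩, ⟨.ofNat 1051, .ofNat 59, .ofNat 210, .negSucc 142, .ofNat 440, .ofNat 502⟩, ⟨.negSucc 800, .negSucc 110, .negSucc 464, .ofNat 283, .negSucc 1416, .negSucc 1462⟩, ⟨.ofNat 1390, .ofNat 100, .negSucc 18, .ofNat 28, .ofNat 106, .ofNat 197⟩, .ofNat 1730, .negSucc 2613, .ofNat 0, .negSucc 2613, .ofNat 5033, .ofNat 0, .ofNat 65, .ofNat 262, .negSucc 512, .ofNat 0, .ofNat 146, .negSucc 269, .ofNat 0, .ofNat 0, .ofNat 402, .ofNat 5035, .ofNat 0, .ofNat 0, .ofNat 0, .ofNat 0, .ofNat 0, .ofNat 0, .ofNat 0, .ofNat 0, .ofNat 0, .ofNat 0, .ofNat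 0, .ofNat 0, .ofNat 77443396194673358356124639017878332078083276800, .ofNat 0, .ofNat 417142735404420945442595890726398276403200, .ofNat 0⟩)
    (by decide +kernel)
theorem L01432 : Good (Phi V4.P V4.D 1 1) ⟨6, 55, 5, 16, 5, 27, 3, 0, 5, 0⟩ :=
  out_sound (S := T4.ds_pp) T4.ok_pp (w := 72) (j := 3) (by decide +kernel)
theorem L01433 : Good (Phi V4.P V4.D 1 1) ⟨7, 110, 5, 17, 5, 27, 3, 0, 5, 0⟩ :=
  leaf_sound (S := T4.ds_pp) T4.ok_pp (w := 232) (c := ⟨⟨.ofNat 1235, .negSucc 118, .ofNat 56, .ofNat 529, .negSucc 1334, .negSucc 2667⟩, ⟨.ofNat 720, .negSucc 60, .ofNat 10, .ofNat 298, .negSucc 752, .negSucc 1501⟩, ⟨.ofNat 337, .ofNat 80, .negSucc 10, .negSucc 337, .ofNat 720, .ofNat 1573⟩, ⟨.ofNat 1181, .negSucc 211, .ofNat 70, .ofNat 793, .negSucc 2090, .negSucc 4280⟩, ⟨.ofNat 1239, .ofNat 38, .negSucc 5, .ofNat 10, .ofNat 135, .ofNat 452⟩, .ofNat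 4721, .negSucc 7812, .ofNat 0, .negSucc 7812, .ofNat 14066, .ofNat 0, .ofNat 38, .ofNat 269, .negSucc 606, .ofNat 0, .ofNat 153, .negSucc 338, .ofNat 0, .ofNat 0, .ofNat 454, .ofNat 3053, .ofNat 0, .ofNat 0, .ofNat 0, .ofNat 0, .ofNat 0, .ofNat 0, .ofNat 93293584671860936033396714146587318681600, .ofNat 0, .ofNat 0, .ofNat 0, .ofNat 0, .ofNat 0, .ofNat 0, .ofNat 0, .ofNat 37830936097437148460205871966096824729600, .ofNat 0⟩)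
    (by decide +kernel)
theorem L01434 : Good (Phi V4.P V4.D 1 1) ⟨7, 111, 5, 17, 5, 27, 3, 0, 5, 0⟩ :=
  out_sound (S := T4.ds_pp) T4.ok_pp (w := 80) (j := 3) (by decide +kernel)
theorem L01435 : Good (Phi V4.P V4.D 1 1) ⟨6, 54, 4, 9, 5, 27, 3, 0, 5, 0⟩ :=
  out_sound (S := T4.ds_pp) T4.ok_pp (w := 72) (j := 3) (by decide +kernel)
theorem L01436 : Good (Phi V4.P V4.D 1 1) ⟨7, 110, 6, 36, 5, 27, 4, 0, 6, 0⟩ :=
  leaf_sound (S := T4.ds_pp) T4.ok_pp (w := 248) (c := ⟨⟨.ofNat 1545, .ofNat 119, .negSucc 92, .ofNat 883, .negSucc 862, .negSucc 2082⟩, ⟨.ofNat 893, .ofNat 55, .negSucc 45, .ofNat 504, .negSucc 494, .negSucc 1191⟩, ⟨.ofNat 145, .negSucc 47, .ofNat 58, .negSucc 541, .ofNat 483, .ofNat 1268⟩, ⟨.ofNat 1618, .ofNat 180, .negSucc 159, .ofNat 1332, .negSucc 1332, .negSucc 3268⟩, ⟨.ofNat 1244, .negSucc 1, .ofNat 4, .negSucc 6, .ofNat 65, .ofNat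 240⟩, .ofNat 5762, .negSucc 9545, .ofNat 0, .negSucc 9545, .ofNat 16928, .ofNat 0, .ofNat 32, .ofNat 269, .negSucc 671, .ofNat 0, .ofNat 154, .negSucc 380, .ofNat 0, .ofNat 0, .ofNat 487, .ofNat 8206, .ofNat 0, .ofNat 0, .ofNat 0, .ofNat 0, .ofNat 0, .ofNat 0, .ofNat 0, .ofNat 0, .ofNat 0, .ofNat 0, .ofNat 0, .ofNat 0, .ofNat 0, .ofNat 0, .ofNat 10905226367819109747388361464331522329804800, .ofNat 0⟩)
    (by decide +kernel)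
theorem L01437 : Good (Phi V4.P V4.D 1 1) ⟨7, 110, 6, 36, 5, 27, 4, 1, 6, 0⟩ :=
  leaf_sound (S := T4.ds_pp) T4.ok_pp (w := 248) (c := ⟨⟨.ofNat 642, .ofNat 121, .negSucc 129, .ofNat 646, .negSucc 759, .negSucc 1744⟩, ⟨.ofNat 376, .ofNat 58, .negSucc 76, .ofNat 369, .negSucc 434, .negSucc 996⟩, ⟨.ofNat 666, .negSucc 70, .ofNat 98, .negSucc 409, .ofNat 421, .ofNat 1055⟩, ⟨.ofNat 238, .ofNat 162, .negSucc 208, .ofNat 976, .negSucc 1189, .negSucc 2774⟩, ⟨.ofNat 1283, .ofNat 31, .ofNat 0, .negSucc 8, .ofNat 82, .ofNat 265⟩, .ofNat 5688, .negSucc 9422, .ofNat 0, .negSucc 9422, .ofNat 16725, .ofNat 0, .ofNat 33, .ofNat 274, .negSucc 684, .ofNat 0, .ofNat 157, .negSucc 387, .ofNat 0, .ofNat 0, .ofNat 502, .ofNat 3801, .ofNat 0, .ofNat 0, .ofNat 0, .ofNat 0, .ofNat 0, .ofNat 0, .ofNat 0, .ofNat 0, .ofNat 0, .ofNat 0, .ofNat 0, .ofNat 0, .ofNat 0, .ofNat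 0, .ofNat 0, .ofNat 0⟩)
    (by decide +kernel)
theorem L01438 : Good (Phi V4.P V4.D 1 1) ⟨7, 110, 6, 36, 5, 27, 3, 0, 6, 1⟩ :=
  leaf_sound (S := T4.ds_pp) T4.ok_pp (w := 240) (c := ⟨⟨.negSucc 173, .negSucc 136, .negSucc 88, .ofNat 187, .negSucc 1132, .negSucc 1038⟩, ⟨.negSucc 85, .negSucc 80, .negSucc 68, .ofNat 106, .negSucc 647, .negSucc 593⟩, ⟨.ofNat 1210, .ofNat 85, .ofNat 72, .negSucc 141, .ofNat 596, .ofNat 595⟩, ⟨.negSucc 1080, .negSucc 230, .negSucc 146, .ofNat 270, .negSucc 1798, .negSucc 1691⟩, ⟨.ofNat 1440, .ofNat 39, .ofNat 11, .ofNat 20, .ofNat 168, .ofNat 228⟩, .ofNat 5815, .negSucc 9633, .ofNat 0, .negSucc 9633, .ofNat 17074, .ofNat 0, .ofNat 32, .ofNat 269, .negSucc 559, .ofNat 0, .ofNat 155, .negSucc 317, .ofNat 0, .ofNat 0, .ofNat 428, .ofNat 4593, .ofNat 0, .ofNat 0, .ofNat 0, .ofNat 0, .ofNat 0, .ofNat 0, .ofNat 0, .ofNat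 0, .ofNat 0, .ofNat 0, .ofNat 0, .ofNat 0, .ofNat 0, .ofNat 0, .ofNat 0, .ofNat 0⟩)
    (by decide +kernel)
theorem L01439 : Good (Phi V4.P V4.D 1 1) ⟨8, 220, 6, 37, 5, 27, 3, 0, 5, 0⟩ :=
  out_sound (S := T4.ds_pp) T4.ok_pp (w := 88) (j := 3) (by decide +kernel)
theorem L01440 : Good (Phi V4.P V4.D 1 1) ⟨9, 442, 7, 74, 5, 27, 3, 0, 5, 0⟩ :=
  out_sound (S := T4.ds_pp) T4.ok_pp (w := 96) (j := 3) (by decide +kernel)
theorem L01441 : Good (Phi V4.P V4.D 1 1) ⟨10, 886, 8, 148, 5, 27, 3, 0, 5, 0⟩ :=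
  out_sound (S := T4.ds_pp) T4.ok_pp (w := 104) (j := 3) (by decide +kernel)
theorem L01442 : Good (Phi V4.P V4.D 1 1) ⟨10, 887, 8, 148, 5, 27, 3, 0, 5, 0⟩ :=
  out_sound (S := T4.ds_pp) T4.ok_pp (w := 32) (j := 4) (by decide +kernel)
theorem L01443 : Good (Phi V4.P V4.D 1 1) ⟨9, 443, 8, 149, 5, 27, 3, 0, 5, 0⟩ :=
  out_sound (S := T4.ds_pp) T4.ok_pp (w := 96) (j := 3) (by decide +kernel)
theorem L01444 : Good (Phi V4.P V4.D 1 1) ⟨8, 221, 7, 75, 5, 27, 3, 0, 5, 0⟩ :=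
  out_sound (S := T4.ds_pp) T4.ok_pp (w := 88) (j := 3) (by decide +kernel)
theorem L01445 : Good (Phi V4.P V4.D 1 1) ⟨7, 111, 5, 18, 5, 27, 3, 0, 5, 0⟩ :=
  out_sound (S := T4.ds_pp) T4.ok_pp (w := 24) (j := 4) (by decide +kernel)
theorem L01446 : Good (Phi V4.P V4.D 1 1) ⟨7, 110, 5, 19, 5, 27, 3, 0, 5, 0⟩ :=
  out_sound (S := T4.ds_pp) T4.ok_pp (w := 80) (j := 3) (by decide +kernel)
theorem L01447 : Good (Phi V4.P V4.D 1 1) ⟨7, 111, 5, 19, 5, 27, 3, 0, 5, 0⟩ :=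
  out_sound (S := T4.ds_pp) T4.ok_pp (w := 24) (j := 4) (by decide +kernel)
theorem L01448 : Good (Phi V4.P V4.D 1 1) ⟨5, 27, 4, 8, 5, 27, 3, 0, 5, 1⟩ :=
  leaf_sound (S := T4.ds_pp) T4.ok_pp (w := 224) (c := ⟨⟨.negSucc 1004, .ofNat 58, .negSucc 485, .ofNat 23, .negSucc 617, .negSucc 879⟩, ⟨.negSucc 481, .ofNat 61, .negSucc 389, .ofNat 12, .negSucc 333, .negSucc 473⟩, ⟨.ofNat 1614, .negSucc 33, .ofNat 375, .negSucc 59, .ofNat 267, .ofNat 415⟩, ⟨.negSucc 2383, .ofNat 80, .negSucc 826, .ofNat 7, .negSucc 987, .negSucc 1516⟩, ⟨.ofNat 1587, .ofNat 76, .ofNat 85, .ofNat 53, .ofNat 86, .ofNat 324⟩, .ofNat 1751, .negSucc 2646, .ofNat 0, .negSucc 2646, .ofNat 5083, .ofNat 0, .ofNat 130, .ofNat 518, .negSucc 833, .ofNat 0, .ofNat 289, .negSucc 439, .ofNat 0, .ofNat 0, .ofNat 709, .ofNat 7044, .ofNat 0, .ofNat 0, .ofNat 0, .ofNat 0, .ofNat 269555384737452002779265954267630171219558400,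 .ofNat 0, .ofNat 712894644100916066415000914119130244710400, .ofNat 0, .ofNat 0, .ofNat 0, .ofNat 0, .ofNat 0, .ofNat 0, .ofNat 0, .ofNat 213956834009642733859162455428891777433600, .ofNat 0⟩)
    (by decide +kernel)
theorem L01449 : Good (Phi V4.P V4.D 1 1) ⟨6, 54, 4, 9, 5, 27, 3, 0, 5, 1⟩ :=
  out_sound (S := T4.ds_pp) T4.ok_pp (w := 72) (j := 3) (by decide +kernel)
theorem L01450 : Good (Phi V4.P V4.D 1 1) ⟨6, 55, 5, 18, 5, 27, 3, 0, 5, 1⟩ :=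
  leaf_sound (S := T4.ds_pp) T4.ok_pp (w := 232) (c := ⟨⟨.negSucc 1351, .negSucc 196, .negSucc 237, .ofNat 1, .negSucc 739, .negSucc 841⟩, ⟨.negSucc 751, .negSucc 133, .negSucc 186, .negSucc 0, .negSucc 422, .negSucc 480⟩, ⟨.ofNat 1902, .ofNat 134, .ofNat 173, .negSucc 48, .ofNat 350, .ofNat 391⟩, ⟨.negSucc 2992, .negSucc 322, .negSucc 402, .negSucc 25, .negSucc 1190, .negSucc 1455⟩, ⟨.ofNat 1683, .ofNat 41, .ofNat 65, .ofNat 48, .ofNat 135, .ofNat 331⟩, .ofNat 2220, .negSucc 3383, .ofNat 0, .negSucc 3383, .ofNat 6183, .ofNat 0, .ofNat 107, .ofNat 532, .negSucc 935, .ofNat 0, .ofNat 306, .negSucc 518, .ofNat 0, .ofNat 0, .ofNat 759, .ofNat 7998, .ofNat 0, .ofNat 0, .ofNat 0, .ofNat 0, .ofNat 0, .ofNat 0, .ofNat 0, .ofNat 0, .ofNat 0, .ofNat 0, .ofNat 0, .ofNat 0, .ofNat 165741685917010196317377598726775844416520192000, .ofNat 0, .ofNat 157114046860737953353091976124416865075200,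 .ofNat 0⟩)
    (by decide +kernel)
theorem L01451 : Good (Phi V4.P V4.D 1 1) ⟨7, 110, 5, 19, 5, 27, 3, 0, 5, 1⟩ :=
  out_sound (S := T4.ds_pp) T4.ok_pp (w := 80) (j := 3) (by decide +kernel)
theorem L01452 : Good (Phi V4.P V4.D 1 1) ⟨7, 111, 5, 19, 5, 27, 3, 0, 5, 1⟩ :=
  out_sound (S := T4.ds_pp) T4.ok_pp (w := 24) (j := 4) (by decide +kernel)
theorem L01453 : Good (Phi V4.P V4.D 1 1) ⟨3, 7, 3, 4, 4, 13, 3, 0, 4, 0⟩ :=
  out_sound (S := T4.ds_pp) T4.ok_pp (w := 16) (j := 4) (by decide +kernel)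
theorem L01454 : Good (Phi V4.P V4.D 1 1) ⟨4, 12, 3, 4, 3, 6, 3, 0, 4, 1⟩ :=
  out_sound (S := T4.ds_pp) T4.ok_pp (w := 56) (j := 3) (by decide +kernel)
theorem L01455 : Good (Phi V4.P V4.D 1 1) ⟨5, 26, 3, 4, 3, 6, 3, 0, 4, 1⟩ :=
  out_sound (S := T4.ds_pp) T4.ok_pp (w := 64) (j := 3) (by decide +kernel)
theorem L01456 : Good (Phi V4.P V4.D 1 1) ⟨5, 27, 4, 8, 3, 6, 3, 0, 4, 1⟩ :=
  leaf_sound (S := T4.ds_pp) T4.ok_pp (w := 200) (c := ⟨⟨.negSucc 1772, .negSucc 364, .negSucc 51, .negSucc 410, .negSucc 291, .negSucc 233⟩, ⟨.negSucc 885, .negSucc 187, .negSucc 164, .negSucc 218, .negSucc 160, .negSucc 123⟩, ⟨.ofNat 2088, .ofNat 283, .ofNat 87, .ofNat 66, .ofNat 67, .negSucc 115⟩, ⟨.negSucc 3590, .negSucc 662, .negSucc 87, .negSucc 873, .negSucc 431, .negSucc 468⟩, ⟨.ofNat 1652, .ofNat 261, .negSucc 51, .ofNat 458, .negSucc 23, .ofNat 208⟩, .ofNat 3409,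 .negSucc 5634, .ofNat 0, .negSucc 5634, .ofNat 10493, .ofNat 0, .ofNat 93, .ofNat 464, .negSucc 507, .ofNat 0, .ofNat 259, .negSucc 271, .ofNat 0, .ofNat 0, .ofNat 580, .ofNat 7389, .ofNat 0, .ofNat 0, .ofNat 0, .ofNat 0, .ofNat 9033320455820525219247495068931588096000, .ofNat 0, .ofNat 178930053348917455825591771909324800, .ofNat 0, .ofNat 17762046618798296227289187199223857152000, .ofNat 0, .ofNat 73513119567439457751718601057894400, .ofNat 0, .ofNat 0, .ofNat 0, .ofNat 0, .ofNat 0⟩)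
    (by decide +kernel)
theorem L01457 : Good (Phi V4.P V4.D 1 1) ⟨6, 54, 4, 9, 3, 6, 4, 0, 4, 1⟩ :=
  out_sound (S := T4.ds_pp) T4.ok_pp (w := 72) (j := 3) (by decide +kernel)
theorem L01458 : Good (Phi V4.P V4.D 1 1) ⟨6, 55, 5, 18, 3, 6, 4, 0, 4, 1⟩ :=
  leaf_sound (S := T4.ds_pp) T4.ok_pp (w := 208) (c := ⟨⟨.negSucc 2027, .negSucc 34, .negSucc 49, .negSucc 438, .negSucc 186, .negSucc 189⟩, ⟨.negSucc 1135, .negSucc 45, .negSucc 82, .negSucc 249, .negSucc 106, .negSucc 108⟩, ⟨.ofNat 2331, .ofNat 34, .ofNat 64, .ofNat 78, .ofNat 63, .negSucc 144⟩, ⟨.negSucc 4056, .negSucc 40, .negSucc 98, .negSucc 919, .negSucc 286, .negSucc 401⟩, ⟨.ofNat 1767, .negSucc 25, .ofNat 27, .ofNat 454, .ofNat 9, .ofNat 202⟩, .ofNat 2234, .negSucc 3403, .ofNat 0, .negSucc 3403, .ofNat 6213, .ofNat 0, .ofNat 102, .ofNat 463, .negSucc 535, .ofNat 0, .ofNat 268, .negSucc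 295, .ofNat 0, .ofNat 0, .ofNat 590, .ofNat 39324, .ofNat 0, .ofNat 0, .ofNat 0, .ofNat 0, .ofNat 11973824339908936071192310665059791955558400, .ofNat 0, .ofNat 1199200285964069384429080802230272000, .ofNat 0, .ofNat 0, .ofNat 0, .ofNat 0, .ofNat 0, .ofNat 0, .ofNat 0, .ofNat 273495052478470770074486064336076800, .ofNat 0⟩)
    (by decide +kernel)
theorem L01459 : Good (Phi V4.P V4.D 1 1) ⟨7, 110, 5, 19, 3, 6, 4, 0, 4, 1⟩ :=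
  out_sound (S := T4.ds_pp) T4.ok_pp (w := 80) (j := 3) (by decide +kernel)
theorem L01460 : Good (Phi V4.P V4.D 1 1) ⟨7, 111, 5, 19, 3, 6, 4, 0, 4, 1⟩ :=
  out_sound (S := T4.ds_pp) T4.ok_pp (w := 24) (j := 4) (by decide +kernel)
theorem L01461 : Good (Phi V4.P V4.D 1 1) ⟨5, 27, 4, 9, 3, 6, 4, 1, 4, 1⟩ :=
  leaf_sound (S := T4.ds_pp) T4.ok_pp (w := 200) (c := ⟨⟨.negSucc 2148, .negSucc 125, .negSucc 203, .negSucc 492, .negSucc 138, .negSucc 75⟩, ⟨.negSucc 1176, .negSucc 126, .negSucc 229, .negSucc 280, .negSucc 79, .negSucc 42⟩, ⟨.ofNat 2332, .ofNat 114, .ofNat 192, .ofNat 116, .ofNat 27, .negSucc 220⟩, ⟨.negSucc 4217, .negSucc 219, .negSucc 364, .negSucc 1019, .negSucc 207, .negSucc 197⟩, ⟨.ofNat 1733, .ofNat 46, .ofNat 80, .ofNat 489, .negSucc 1, .ofNat 148⟩, .ofNat 2242, .negSucc 3417, .ofNat 0, .negSucc 3417, .ofNat 6234, .ofNat 0, .ofNat 103,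 .ofNat 465, .negSucc 534, .ofNat 0, .ofNat 270, .negSucc 294, .ofNat 0, .ofNat 0, .ofNat 601, .ofNat 10509, .ofNat 0, .ofNat 0, .ofNat 0, .ofNat 0, .ofNat 0, .ofNat 0, .ofNat 1483813293128412995250804000345292800, .ofNat 0, .ofNat 0, .ofNat 0, .ofNat 648928343289217098882624346128384000, .ofNat 0, .ofNat 0, .ofNat 0, .ofNat 847049066360466454952139048144076800, .ofNat 0⟩)
    (by decide +kernel)
theorem L01462 : Good (Phi V4.P V4.D 1 1) ⟨3, 7, 3, 4, 3, 6, 3, 0, 4, 1⟩ :=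
  out_sound (S := T4.ds_pp) T4.ok_pp (w := 16) (j := 4) (by decide +kernel)
theorem L01463 : Good (Phi V4.P V4.D 1 1) ⟨4, 12, 3, 4, 3, 6, 3, 1, 4, 0⟩ :=
  out_sound (S := T4.ds_pp) T4.ok_pp (w := 56) (j := 3) (by decide +kernel)
theorem L01464 : Good (Phi V4.P V4.D 1 1) ⟨5, 26, 3, 4, 3, 6, 3, 1, 4, 0⟩ :=
  out_sound (S := T4.ds_pp) T4.ok_pp (w := 64) (j := 3) (by decide +kernel)
theorem L01465 : Good (Phi V4.P V4.D 1 1) ⟨6, 54, 5, 16, 3, 6, 3, 1, 4, 0⟩ :=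
  leaf_sound (S := T4.ds_pp) T4.ok_pp (w := 208) (c := ⟨⟨.negSucc 617, .negSucc 1, .negSucc 157, .ofNat 38, .negSucc 468, .negSucc 1767⟩, ⟨.negSucc 298, .ofNat 39, .negSucc 150, .ofNat 26, .negSucc 249, .negSucc 933⟩, ⟨.ofNat 1395, .ofNat 108, .ofNat 83, .negSucc 126, .ofNat 170, .ofNat 907⟩, ⟨.negSucc 1576, .ofNat 20, .negSucc 294, .negSucc 87, .negSucc 731, .negSucc 2998⟩, ⟨.ofNat 1186, .negSucc 10, .ofNat 64, .ofNat 274, .ofNat 28, .ofNat 557⟩, .ofNat 2889, .negSucc 4758, .ofNat 0, .negSucc 4758, .ofNat 9045, .ofNat 0, .ofNat 108, .ofNat 498, .negSucc 790, .ofNat 0, .ofNat 276, .negSucc 414, .ofNat 0, .ofNat 0, .ofNat 727, .ofNat 999, .ofNat 0, .ofNat 0, .ofNat 338187153143947064085143617536000, .ofNat 0, .ofNat 0, .ofNat 0, .ofNat 0, .ofNat 0, .ofNat 0, .ofNat 0, .ofNat 0, .ofNat 0, .ofNat 0, .ofNat 0, .ofNat 0, .ofNat 0⟩)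
    (by decide +kernel)
theorem L01466 : Good (Phi V4.P V4.D 1 1) ⟨6, 54, 5, 17, 3, 6, 3, 1, 4, 0⟩ :=
  leaf_sound (S := T4.ds_pp) T4.ok_pp (w := 208) (c := ⟨⟨.negSucc 322, .negSucc 408, .negSucc 121, .negSucc 280, .negSucc 504, .negSucc 1644⟩, ⟨.negSucc 175, .negSucc 189, .negSucc 137, .negSucc 153, .negSucc 278, .negSucc 904⟩, ⟨.ofNat 1219, .ofNat 327, .ofNat 79, .ofNat 65, .ofNat 194, .ofNat 836⟩, ⟨.negSucc 1108, .negSucc 686, .negSucc 208, .negSucc 615, .negSucc 785, .negSucc 2787⟩, ⟨.ofNat 1107, .ofNat 147, .ofNat 15, .ofNat 344, .ofNat 37, .ofNat 532⟩, .ofNat 3876, .negSucc 6406, .ofNat 0, .negSucc 6406, .ofNat 11751, .ofNat 0, .ofNat 88, .ofNat 504, .negSucc 826, .ofNat 0, .ofNat 285, .negSucc 451, .ofNat 0, .ofNat 0, .ofNat 751, .ofNat 1204, .ofNat 0, .ofNat 0, .ofNat 0, .ofNat 0, .ofNat 0, .ofNat 0, .ofNat 0, .ofNat 0, .ofNat 0, .ofNat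 0, .ofNat 0, .ofNat 0, .ofNat 0, .ofNat 0, .ofNat 37603660282157880226017907310592000, .ofNat 0⟩)
    (by decide +kernel)
theorem L01467 : Good (Phi V4.P V4.D 1 1) ⟨6, 55, 5, 16, 3, 6, 3, 1, 4, 0⟩ :=
  out_sound (S := T4.ds_pp) T4.ok_pp (w := 72) (j := 3) (by decide +kernel)
theorem L01468 : Good (Phi V4.P V4.D 1 1) ⟨7, 110, 5, 17, 3, 6, 3, 1, 4, 0⟩ :=
  leaf_sound (S := T4.ds_pp) T4.ok_pp (w := 216) (c := ⟨⟨.negSucc 1084, .negSucc 741, .ofNat 428, .negSucc 514, .negSucc 548, .negSucc 1415⟩, ⟨.negSucc 570, .negSucc 439, .ofNat 206, .negSucc 287, .negSucc 309, .negSucc 794⟩, ⟨.ofNat 1737, .ofNat 460, .negSucc 209, .ofNat 212, .ofNat 219, .ofNat 685⟩, ⟨.negSucc 2375, .negSucc 1233, .ofNat 704, .negSucc 987, .negSucc 863, .negSucc 2426⟩, ⟨.ofNat 1331, .ofNat 221, .negSucc 131, .ofNat 375, .ofNat 64, .ofNat 516⟩, .ofNat 4739, .negSucc 7843, .ofNat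 0, .negSucc 7843, .ofNat 14116, .ofNat 0, .ofNat 76, .ofNat 510, .negSucc 853, .ofNat 0, .ofNat 291, .negSucc 475, .ofNat 0, .ofNat 0, .ofNat 764, .ofNat 835, .ofNat 0, .ofNat 0, .ofNat 593532145772725873442944765132800, .ofNat 0, .ofNat 0, .ofNat 0, .ofNat 84633033230519143560936362606592000, .ofNat 0, .ofNat 0, .ofNat 0, .ofNat 0, .ofNat 0, .ofNat 0, .ofNat 0, .ofNat 16253100516132030212026554698956800, .ofNat 0⟩)
    (by decide +kernel)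
theorem L01469 : Good (Phi V4.P V4.D 1 1) ⟨7, 111, 5, 17, 3, 6, 3, 1, 4, 0⟩ :=
  out_sound (S := T4.ds_pp) T4.ok_pp (w := 80) (j := 3) (by decide +kernel)
theorem L01470 : Good (Phi V4.P V4.D 1 1) ⟨6, 54, 4, 9, 3, 6, 3, 1, 4, 0⟩ :=
  out_sound (S := T4.ds_pp) T4.ok_pp (w := 72) (j := 3) (by decide +kernel)

end Crest.Agent.R097C4.N4pp
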