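import Crest.Agent.R097.T4

/-!
# Row 97, box cover in dimension n = 4 (generated)
-/

set_option autoImplicit false
set_option Elab.async false
set_option maxHeartbeats 0
set_option maxRecDepth 100000

open Crest.Agent.R097 Crest.Agent.R097.KA


namespace Crest.Agent.R097C4.N4pp

theorem L01471 : Good (Phi V4.P V4.D 1 1) ⟨7, 110, 5, 18, 4, 12, 3, 1, 4, 0⟩ :=
  leaf_sound (S := T4.ds_pp) T4.ok_pp (w := 224) (c := ⟨⟨.negSucc 728, .negSucc 296, .negSucc 27, .negSucc 303, .negSucc 526, .negSucc 1453⟩, ⟨.negSucc 391, .negSucc 197, .negSucc 40, .negSucc 173, .negSucc 300, .negSucc 830⟩, ⟨.ofNat 1523, .ofNat 207, .ofNat 45, .ofNat 160, .ofNat 216, .ofNat 751⟩, ⟨.negSucc 1802, .negSucc 499, .negSucc 57, .negSucc 583, .negSucc 819, .negSucc 2465⟩, ⟨.ofNat 1238, .ofNat 93, .ofNat 16, .ofNat 224, .ofNat 48, .ofNat 490⟩, .ofNat 5747, .negSucc 9519,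 .ofNat 0, .negSucc 9519, .ofNat 16884, .ofNat 0, .ofNat 65, .ofNat 492, .negSucc 809, .ofNat 0, .ofNat 284, .negSucc 457, .ofNat 0, .ofNat 0, .ofNat 755, .ofNat 2953, .ofNat 0, .ofNat 0, .ofNat 0, .ofNat 0, .ofNat 0, .ofNat 0, .ofNat 0, .ofNat 0, .ofNat 0, .ofNat 0, .ofNat 0, .ofNat 0, .ofNat 0, .ofNat 0, .ofNat 0, .ofNat 0⟩)
    (by decide +kernel)
theorem L01472 : Good (Phi V4.P V4.D 1 1) ⟨7, 110, 5, 18, 4, 13, 3, 1, 5, 0⟩ :=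
  leaf_sound (S := T4.ds_pp) T4.ok_pp (w := 232) (c := ⟨⟨.negSucc 515, .ofNat 57, .negSucc 360, .negSucc 18, .negSucc 873, .negSucc 1567⟩, ⟨.negSucc 265, .negSucc 0, .negSucc 228, .negSucc 10, .negSucc 499, .negSucc 897⟩, ⟨.ofNat 1379, .negSucc 24, .ofNat 258, .negSucc 53, .ofNat 428, .ofNat 893⟩, ⟨.negSucc 1531, .ofNat 72, .negSucc 595, .negSucc 92, .negSucc 1395, .negSucc 2599⟩, ⟨.ofNat 1325, .ofNat 23, .ofNat 78, .ofNat 114, .ofNat 145, .ofNat 426⟩, .ofNat 5782, .negSucc 9578, .ofNat 0, .negSucc 9578, .ofNat 16983, .ofNat 0, .ofNat 66, .ofNat 544, .negSucc 1149, .ofNat 0, .ofNat 313, .negSucc 651, .ofNat 0, .ofNat 0, .ofNat 913, .ofNat 676, .ofNat 0, .ofNat 0, .ofNat 3240294873734245318653984962405990400, .ofNat 0, .ofNat 0, .ofNat 0, .ofNat 0, .ofNat 0, .ofNat 0, .ofNat 0, .ofNat 0, .ofNat 0, .ofNat 0, .ofNat 0, .ofNat 117475467751225559454796462704662937600,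 .ofNat 0⟩)
    (by decide +kernel)
theorem L01473 : Good (Phi V4.P V4.D 1 1) ⟨7, 110, 5, 18, 4, 13, 3, 1, 5, 1⟩ :=
  leaf_sound (S := T4.ds_pp) T4.ok_pp (w := 224) (c := ⟨⟨.negSucc 1883, .negSucc 398, .negSucc 23, .negSucc 355, .negSucc 549, .negSucc 443⟩, ⟨.negSucc 1042, .negSucc 265, .negSucc 49, .negSucc 203, .negSucc 314, .negSucc 252⟩, ⟨.ofNat 2151, .ofNat 284, .ofNat 28, .ofNat 126, .ofNat 222, .ofNat 151⟩, ⟨.negSucc 3797, .negSucc 680, .negSucc 42, .negSucc 643, .negSucc 876, .negSucc 799⟩, ⟨.ofNat 1688, .ofNat 144, .ofNat 4, .ofNat 192, .ofNat 89, .ofNat 232⟩, .ofNat 5804, .negSucc 9614, .ofNat 0, .negSucc 9614, .ofNat 17043, .ofNat 0, .ofNat 66, .ofNat 533, .negSucc 884, .ofNat 0, .ofNat 307, .negSucc 500, .ofNat 0, .ofNat 0, .ofNat 769, .ofNat 5781, .ofNat 0, .ofNat 0, .ofNat 0, .ofNat 0, .ofNat 0, .ofNat 0, .ofNat 732644553443386160675691578537489203200,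 .ofNat 0, .ofNat 0, .ofNat 0, .ofNat 0, .ofNat 0, .ofNat 0, .ofNat 0, .ofNat 0, .ofNat 0⟩)
    (by decide +kernel)
theorem L01474 : Good (Phi V4.P V4.D 1 1) ⟨7, 111, 5, 18, 3, 6, 3, 1, 4, 0⟩ :=
  out_sound (S := T4.ds_pp) T4.ok_pp (w := 24) (j := 4) (by decide +kernel)
theorem L01475 : Good (Phi V4.P V4.D 1 1) ⟨7, 110, 5, 19, 3, 6, 3, 1, 4, 0⟩ :=
  out_sound (S := T4.ds_pp) T4.ok_pp (w := 80) (j := 3) (by decide +kernel)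
theorem L01476 : Good (Phi V4.P V4.D 1 1) ⟨7, 111, 5, 19, 3, 6, 3, 1, 4, 0⟩ :=
  out_sound (S := T4.ds_pp) T4.ok_pp (w := 24) (j := 4) (by decide +kernel)
theorem L01477 : Good (Phi V4.P V4.D 1 1) ⟨4, 12, 3, 4, 3, 6, 3, 1, 4, 1⟩ :=
  out_sound (S := T4.ds_pp) T4.ok_pp (w := 56) (j := 3) (by decide +kernel)
theorem L01478 : Good (Phi V4.P V4.D 1 1) ⟨5, 26, 3, 4, 3, 6, 3, 1, 4, 1⟩ :=
  out_sound (S := T4.ds_pp) T4.ok_pp (w := 64) (j := 3) (by decide +kernel)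
theorem L01479 : Good (Phi V4.P V4.D 1 1) ⟨5, 27, 4, 8, 3, 6, 3, 1, 4, 1⟩ :=
  leaf_sound (S := T4.ds_pp) T4.ok_pp (w := 200) (c := ⟨⟨.negSucc 2124, .ofNat 316, .negSucc 436, .negSucc 514, .negSucc 245, .negSucc 93⟩, ⟨.negSucc 1074, .ofNat 185, .negSucc 385, .negSucc 273, .negSucc 134, .negSucc 49⟩, ⟨.ofNat 2188, .negSucc 224, .ofNat 367, .ofNat 148, .ofNat 31, .negSucc 204⟩, ⟨.negSucc 4117, .ofNat 468, .negSucc 741, .negSucc 1079, .negSucc 341, .negSucc 199⟩, ⟨.ofNat 1626, .ofNat 96, .ofNat 85, .ofNat 547, .negSucc 57, .ofNat 104⟩, .ofNat 1743, .negSucc 2635, .ofNat 0, .negSucc 2635, .ofNat 5071, .ofNat 0, .ofNat 128, .ofNat 461, .negSucc 529, .ofNat 0, .ofNat 261, .negSucc 274, .ofNat 0, .ofNat 0, .ofNat 609, .ofNat 4339, .ofNat 0, .ofNat 0, .ofNat 0, .ofNat 0, .ofNat 0, .ofNat 0, .ofNat 157213359701393229880180378435584000, .ofNat 0,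 .ofNat 0, .ofNat 0, .ofNat 66321060287196603053061718828646400, .ofNat 0, .ofNat 0, .ofNat 0, .ofNat 73183441375630447509529135625011200, .ofNat 0⟩)
    (by decide +kernel)
theorem L01480 : Good (Phi V4.P V4.D 1 1) ⟨5, 27, 4, 9, 3, 6, 3, 1, 4, 1⟩ :=
  leaf_sound (S := T4.ds_pp) T4.ok_pp (w := 200) (c := ⟨⟨.negSucc 2166, .negSucc 266, .negSucc 194, .negSucc 688, .negSucc 273, .ofNat 41⟩, ⟨.negSucc 1184, .negSucc 210, .negSucc 231, .negSucc 392, .negSucc 156, .ofNat 24⟩, ⟨.ofNat 2281, .ofNat 193, .ofNat 182, .ofNat 255, .ofNat 46, .negSucc 288⟩, ⟨.negSucc 4225, .negSucc 467, .negSucc 340, .negSucc 1355, .negSucc 392, .ofNat 21⟩, ⟨.ofNat 1696, .ofNat 113, .ofNat 70, .ofNat 559, .negSucc 32, .ofNat 72⟩, .ofNat 2210, .negSucc 3366, .ofNat 0, .negSucc 3366, .ofNat 6158, .ofNat 0, .ofNat 106, .ofNat 479, .negSucc 590, .ofNat 0, .ofNat 278, .negSucc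 324, .ofNat 0, .ofNat 0, .ofNat 640, .ofNat 2030, .ofNat 0, .ofNat 0, .ofNat 942115064386462976402275486924800, .ofNat 0, .ofNat 0, .ofNat 0, .ofNat 0, .ofNat 0, .ofNat 0, .ofNat 0, .ofNat 0, .ofNat 0, .ofNat 0, .ofNat 0, .ofNat 0, .ofNat 0⟩)
    (by decide +kernel)
theorem L01481 : Good (Phi V4.P V4.D 1 1) ⟨3, 7, 3, 4, 3, 6, 3, 1, 3, 0⟩ :=
  out_sound (S := T4.ds_pp) T4.ok_pp (w := 16) (j := 4) (by decide +kernel)
theorem L01482 : Good (Phi V4.P V4.D 1 1) ⟨4, 12, 3, 4, 3, 6, 2, 1, 4, 0⟩ :=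
  out_sound (S := T4.ds_pp) T4.ok_pp (w := 56) (j := 3) (by decide +kernel)
theorem L01483 : Good (Phi V4.P V4.D 1 1) ⟨5, 26, 3, 4, 3, 6, 2, 1, 4, 0⟩ :=
  out_sound (S := T4.ds_pp) T4.ok_pp (w := 64) (j := 3) (by decide +kernel)
theorem L01484 : Good (Phi V4.P V4.D 1 1) ⟨6, 54, 4, 8, 4, 12, 2, 1, 4, 0⟩ :=
  leaf_sound (S := T4.ds_pp) T4.ok_pp (w := 208) (c := ⟨⟨.negSucc 1127, .negSucc 211, .negSucc 146, .negSucc 434, .negSucc 499, .negSucc 1037⟩, ⟨.negSucc 553, .negSucc 99, .negSucc 208, .negSucc 231, .negSucc 271, .negSucc 555⟩, ⟨.ofNat 1593, .ofNat 159, .ofNat 140, .ofNat 252, .negSucc 32, .ofNat 464⟩, ⟨.negSucc 2376, .negSucc 366, .negSucc 263, .negSucc 824, .negSucc 671, .negSucc 1759⟩, ⟨.ofNat 1209, .ofNat 128, .ofNat 29, .ofNat 299, .negSucc 166, .ofNat 327⟩, .ofNat 1703, .negSucc 2570, .ofNat 0, .negSucc 2570, .ofNat 4968, .ofNat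 0, .ofNat 138, .ofNat 500, .negSucc 826, .ofNat 0, .ofNat 284, .negSucc 427, .ofNat 0, .ofNat 0, .ofNat 794, .ofNat 1419, .ofNat 0, .ofNat 0, .ofNat 0, .ofNat 0, .ofNat 0, .ofNat 0, .ofNat 0, .ofNat 0, .ofNat 0, .ofNat 0, .ofNat 0, .ofNat 0, .ofNat 0, .ofNat 0, .ofNat 0, .ofNat 0⟩)
    (by decide +kernel)
theorem L01485 : Good (Phi V4.P V4.D 1 1) ⟨6, 54, 4, 8, 4, 13, 2, 1, 5, 0⟩ :=
  leaf_sound (S := T4.ds_pp) T4.ok_pp (w := 216) (c := ⟨⟨.negSucc 865, .negSucc 177, .negSucc 507, .negSucc 214, .negSucc 965, .negSucc 1116⟩, ⟨.negSucc 412, .negSucc 69, .negSucc 416, .negSucc 113, .negSucc 521, .negSucc 596⟩, ⟨.ofNat 1410, .ofNat 84, .ofNat 428, .ofNat 77, .ofNat 281, .ofNat 598⟩, ⟨.negSucc 2024, .negSucc 274, .negSucc 895, .negSucc 425, .negSucc 1482, .negSucc 1874⟩, ⟨.ofNat 1300, .ofNat 69, .ofNat 150, .ofNat 183, .ofNat 19, .ofNat 317⟩, .ofNat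 1699, .negSucc 2564, .ofNat 0, .negSucc 2564, .ofNat 4963, .ofNat 0, .ofNat 281, .ofNat 1097, .negSucc 2206, .ofNat 0, .ofNat 617, .negSucc 1148, .ofNat 0, .ofNat 0, .ofNat 1816, .ofNat 512, .ofNat 0, .ofNat 0, .ofNat 0, .ofNat 0, .ofNat 0, .ofNat 0, .ofNat 0, .ofNat 0, .ofNat 0, .ofNat 0, .ofNat 0, .ofNat 0, .ofNat 0, .ofNat 0, .ofNat 114922961245588022721882495994193510400, .ofNat 0⟩)
    (by decide +kernel)
theorem L01486 : Good (Phi V4.P V4.D 1 1) ⟨6, 54, 4, 8, 4, 13, 2, 1, 5, 1⟩ :=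
  leaf_sound (S := T4.ds_pp) T4.ok_pp (w := 216) (c := ⟨⟨.negSucc 1895, .negSucc 644, .ofNat 76, .negSucc 443, .negSucc 741, .negSucc 397⟩, ⟨.negSucc 942, .negSucc 356, .negSucc 103, .negSucc 238, .negSucc 405, .negSucc 212⟩, ⟨.ofNat 1961, .ofNat 413, .ofNat 17, .ofNat 195, .ofNat 145, .ofNat 131⟩, ⟨.negSucc 3751, .negSucc 1062, .ofNat 79, .negSucc 818, .negSucc 1107, .negSucc 708⟩, ⟨.ofNat 1573, .ofNat 261, .negSucc 41, .ofNat 263, .negSucc 40, .ofNat 190⟩, .ofNat 1720, .negSucc 2598, .ofNat 0, .negSucc 2598, .ofNat 5015, .ofNat 0, .ofNat 280, .ofNat 1088, .negSucc 1864, .ofNat 0, .ofNat 613, .negSucc 969, .ofNat 0, .ofNat 0, .ofNat 1633, .ofNat 6237, .ofNat 0, .ofNat 0, .ofNat 0, .ofNat 0, .ofNat 0, .ofNat 0, .ofNat 276776631837755301996154340070182092800, .ofNat 0, .ofNat 0, .ofNat 0, .ofNat 0, .ofNat 0, .ofNat 0, .ofNat 0, .ofNat 190319522664241354666903319539718553600,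 .ofNat 0⟩)
    (by decide +kernel)
theorem L01487 : Good (Phi V4.P V4.D 1 1) ⟨6, 55, 4, 8, 3, 6, 2, 1, 4, 0⟩ :=
  leaf_sound (S := T4.ds_pp) T4.ok_pp (w := 208) (c := ⟨⟨.negSucc 645, .ofNat 656, .negSucc 731, .negSucc 852, .negSucc 833, .negSucc 1227⟩, ⟨.negSucc 268, .ofNat 325, .negSucc 503, .negSucc 477, .negSucc 470, .negSucc 690⟩, ⟨.ofNat 1382, .negSucc 345, .ofNat 456, .ofNat 437, .ofNat 186, .ofNat 557⟩, ⟨.negSucc 1592, .ofNat 1011, .negSucc 1220, .negSucc 1590, .negSucc 1232, .negSucc 2099⟩, ⟨.ofNat 1103, .negSucc 25, .ofNat 195, .ofNat 538, .negSucc 45, .ofNat 439⟩, .ofNat 4711, .negSucc 7797, .ofNat 0, .negSucc 7797, .ofNat 14044, .ofNat 0, .ofNat 80, .ofNat 531, .negSucc 893, .ofNat 0, .ofNat 303, .negSucc 496, .ofNat 0, .ofNat 0, .ofNat 812, .ofNat 1014, .ofNat 0, .ofNat 0, .ofNat 272575989919804612323231085363200, .ofNat 0, .ofNat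 0, .ofNat 0, .ofNat 12032967057544560612148492684492800, .ofNat 0, .ofNat 0, .ofNat 0, .ofNat 7513536141075583834509319077888000, .ofNat 0, .ofNat 0, .ofNat 0, .ofNat 1773049056348515819488671065702400, .ofNat 0⟩)
    (by decide +kernel)
theorem L01488 : Good (Phi V4.P V4.D 1 1) ⟨6, 54, 4, 9, 3, 6, 2, 1, 4, 0⟩ :=
  out_sound (S := T4.ds_pp) T4.ok_pp (w := 72) (j := 3) (by decide +kernel)
theorem L01489 : Good (Phi V4.P V4.D 1 1) ⟨7, 110, 5, 18, 4, 12, 2, 1, 4, 0⟩ :=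
  leaf_sound (S := T4.ds_pp) T4.ok_pp (w := 224) (c := ⟨⟨.negSucc 1453, .negSucc 102, .negSucc 62, .negSucc 586, .negSucc 592, .negSucc 928⟩, ⟨.negSucc 802, .negSucc 84, .negSucc 76, .negSucc 335, .negSucc 339, .negSucc 531⟩, ⟨.ofNat 1866, .ofNat 113, .ofNat 30, .ofNat 353, .ofNat 21, .ofNat 385⟩, ⟨.negSucc 2945, .negSucc 201, .negSucc 95, .negSucc 1067, .negSucc 827, .negSucc 1584⟩, ⟨.ofNat 1329, .ofNat 80, .ofNat 6, .ofNat 325, .negSucc 109, .ofNat 331⟩, .ofNat 5837, .negSucc 9670, .ofNat 0, .negSucc 9670, .ofNat 17136, .ofNat 0, .ofNat 68, .ofNat 520, .negSucc 880, .ofNat 0, .ofNat 300, .negSucc 497, .ofNat 0, .ofNat 0, .ofNat 821, .ofNat 1562, .ofNat 0, .ofNat 0, .ofNat 0, .ofNat 0, .ofNat 0, .ofNat 0, .ofNat 0, .ofNat 0, .ofNat 0, .ofNat 0, .ofNat 0, .ofNat 0, .ofNat 0, .ofNat 0, .ofNat 0, .ofNat 0⟩)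
    (by decide +kernel)
theorem L01490 : Good (Phi V4.P V4.D 1 1) ⟨7, 110, 6, 36, 4, 13, 2, 1, 4, 0⟩ :=
  leaf_sound (S := T4.ds_pp) T4.ok_pp (w := 224) (c := ⟨⟨.negSucc 2085, .ofNat 968, .negSucc 716, .negSucc 750, .negSucc 1088, .negSucc 984⟩, ⟨.negSucc 1170, .ofNat 556, .negSucc 453, .negSucc 429, .negSucc 623, .negSucc 563⟩, ⟨.ofNat 2268, .negSucc 593, .ofNat 467, .ofNat 396, .ofNat 351, .ofNat 389⟩, ⟨.negSucc 4065, .ofNat 1599, .negSucc 1200, .negSucc 1299, .negSucc 1674, .negSucc 1731⟩, ⟨.ofNat 1624, .negSucc 257, .ofNat 221, .ofNat 300, .ofNat 67, .ofNat 441⟩, .ofNat 5774, .negSucc 9565, .ofNat 0, .negSucc 9565, .ofNat 16961, .ofNat 0, .ofNat 70, .ofNat 571, .negSucc 1103, .ofNat 0, .ofNat 329, .negSucc 624, .ofNat 0, .ofNat 0, .ofNat 914, .ofNat 636, .ofNat 0, .ofNat 0, .ofNat 60059377640480320004491867638988800, .ofNat 0, .ofNat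 0, .ofNat 0, .ofNat 0, .ofNat 0, .ofNat 0, .ofNat 0, .ofNat 0, .ofNat 0, .ofNat 0, .ofNat 0, .ofNat 0, .ofNat 0⟩)
    (by decide +kernel)
theorem L01491 : Good (Phi V4.P V4.D 1 1) ⟨8, 220, 6, 37, 4, 13, 2, 1, 4, 0⟩ :=
  out_sound (S := T4.ds_pp) T4.ok_pp (w := 88) (j := 3) (by decide +kernel)
theorem L01492 : Good (Phi V4.P V4.D 1 1) ⟨9, 442, 7, 74, 4, 13, 2, 1, 4, 0⟩ :=
  out_sound (S := T4.ds_pp) T4.ok_pp (w := 96) (j := 3) (by decide +kernel)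
theorem L01493 : Good (Phi V4.P V4.D 1 1) ⟨10, 886, 8, 148, 4, 13, 2, 1, 4, 0⟩ :=
  out_sound (S := T4.ds_pp) T4.ok_pp (w := 104) (j := 3) (by decide +kernel)
theorem L01494 : Good (Phi V4.P V4.D 1 1) ⟨10, 887, 8, 148, 4, 13, 2, 1, 4, 0⟩ :=
  out_sound (S := T4.ds_pp) T4.ok_pp (w := 32) (j := 4) (by decide +kernel)
theorem L01495 : Good (Phi V4.P V4.D 1 1) ⟨9, 443, 8, 149, 4, 13, 2, 1, 4, 0⟩ :=
  out_sound (S := T4.ds_pp) T4.ok_pp (w := 96) (j := 3) (by decide +kernel)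
theorem L01496 : Good (Phi V4.P V4.D 1 1) ⟨8, 221, 7, 75, 4, 13, 2, 1, 4, 0⟩ :=
  out_sound (S := T4.ds_pp) T4.ok_pp (w := 88) (j := 3) (by decide +kernel)
theorem L01497 : Good (Phi V4.P V4.D 1 1) ⟨7, 111, 5, 18, 3, 6, 2, 1, 4, 0⟩ :=
  out_sound (S := T4.ds_pp) T4.ok_pp (w := 24) (j := 4) (by decide +kernel)
theorem L01498 : Good (Phi V4.P V4.D 1 1) ⟨7, 110, 5, 19, 3, 6, 2, 1, 4, 0⟩ :=
  out_sound (S := T4.ds_pp) T4.ok_pp (w := 80) (j := 3) (by decide +kernel)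
theorem L01499 : Good (Phi V4.P V4.D 1 1) ⟨7, 111, 5, 19, 3, 6, 2, 1, 4, 0⟩ :=
  out_sound (S := T4.ds_pp) T4.ok_pp (w := 24) (j := 4) (by decide +kernel)
theorem L01500 : Good (Phi V4.P V4.D 1 1) ⟨3, 7, 3, 4, 3, 6, 2, 1, 4, 0⟩ :=
  out_sound (S := T4.ds_pp) T4.ok_pp (w := 16) (j := 4) (by decide +kernel)
theorem L01501 : Good (Phi V4.P V4.D 1 1) ⟨4, 12, 3, 4, 3, 6, 2, 1, 4, 1⟩ :=
  out_sound (S := T4.ds_pp) T4.ok_pp (w := 56) (j := 3) (by decide +kernel)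
theorem L01502 : Good (Phi V4.P V4.D 1 1) ⟨5, 26, 3, 4, 3, 6, 2, 1, 4, 1⟩ :=
  out_sound (S := T4.ds_pp) T4.ok_pp (w := 64) (j := 3) (by decide +kernel)
theorem L01503 : Good (Phi V4.P V4.D 1 1) ⟨5, 27, 4, 8, 3, 6, 2, 1, 5, 2⟩ :=
  leaf_sound (S := T4.ds_pp) T4.ok_pp (w := 200) (c := ⟨⟨.negSucc 2150, .negSucc 383, .negSucc 135, .negSucc 798, .negSucc 427, .negSucc 76⟩, ⟨.negSucc 1084, .negSucc 191, .negSucc 232, .negSucc 425, .negSucc 236, .negSucc 43⟩, ⟨.ofNat 2046, .ofNat 264, .ofNat 151, .ofNat 371, .negSucc 47, .negSucc 70⟩, ⟨.negSucc 4103, .negSucc 596, .negSucc 292, .negSucc 1565, .negSucc 546, .negSucc 144⟩, ⟨.ofNat 1510, .ofNat 173, .ofNat 89, .ofNat 648, .negSucc 193, .ofNat 50⟩, .ofNat 1737, .negSucc 2624, .ofNat 0, .negSucc 2624, .ofNat 5047, .ofNat 0, .ofNat 134, .ofNat 493, .negSucc 671, .ofNat 0, .ofNat 280, .negSucc 347, .ofNat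 0, .ofNat 0, .ofNat 700, .ofNat 2352, .ofNat 0, .ofNat 0, .ofNat 0, .ofNat 0, .ofNat 0, .ofNat 0, .ofNat 309144057492808254494028313342771200, .ofNat 0, .ofNat 0, .ofNat 0, .ofNat 101901637733983291304536848098918400, .ofNat 0, .ofNat 0, .ofNat 0, .ofNat 100503428320235948550094514552832000, .ofNat 0⟩)
    (by decide +kernel)
theorem L01504 : Good (Phi V4.P V4.D 1 1) ⟨5, 27, 4, 9, 3, 6, 2, 1, 5, 2⟩ :=
  leaf_sound (S := T4.ds_pp) T4.ok_pp (w := 200) (c := ⟨⟨.negSucc 2416, .negSucc 112, .negSucc 509, .negSucc 963, .negSucc 435, .ofNat 67⟩, ⟨.negSucc 1321, .negSucc 129, .negSucc 422, .negSucc 549, .negSucc 249, .ofNat 39⟩, ⟨.ofNat 2299, .ofNat 72, .ofNat 431, .ofNat 473, .negSucc 61, .negSucc 173⟩, ⟨.negSucc 4589, .negSucc 184, .negSucc 887, .negSucc 1847, .negSucc 543, .ofNat 101⟩, ⟨.ofNat 1670, .ofNat 29, .ofNat 218, .ofNat 699, .negSucc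 193, .negSucc 0⟩, .ofNat 2228, .negSucc 3394, .ofNat 0, .negSucc 3394, .ofNat 6200, .ofNat 0, .ofNat 110, .ofNat 505, .negSucc 714, .ofNat 0, .ofNat 295, .negSucc 392, .ofNat 0, .ofNat 0, .ofNat 722, .ofNat 971, .ofNat 0, .ofNat 0, .ofNat 2395558607726860997629356225331200, .ofNat 0, .ofNat 0, .ofNat 0, .ofNat 0, .ofNat 0, .ofNat 0, .ofNat 0, .ofNat 0, .ofNat 0, .ofNat 0, .ofNat 0, .ofNat 0, .ofNat 0⟩)
    (by decide +kernel)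
theorem L01505 : Good (Phi V4.P V4.D 1 1) ⟨5, 27, 3, 4, 3, 6, 2, 1, 5, 3⟩ :=
  leaf_sound (S := T4.ds_pp) T4.ok_pp (w := 200) (c := ⟨⟨.negSucc 2399, .negSucc 172, .negSucc 269, .negSucc 642, .negSucc 372, .ofNat 107⟩, ⟨.negSucc 1206, .negSucc 146, .negSucc 403, .negSucc 350, .negSucc 208, .ofNat 58⟩, ⟨.ofNat 2082, .ofNat 178, .ofNat 228, .ofNat 271, .negSucc 63, .negSucc 187⟩, ⟨.negSucc 4518, .negSucc 270, .negSucc 539, .negSucc 1355, .negSucc 441, .ofNat 180⟩, ⟨.ofNat 1588, .ofNat 59, .ofNat 193, .ofNat 690, .negSucc 221, .negSucc 33⟩, .ofNat 774, .negSucc 908, .ofNat 0, .negSucc 908, .ofNat 1891, .ofNat 0, .ofNat 206, .ofNat 460, .negSucc 652, .ofNat 0, .ofNat 277, .negSucc 309, .ofNat 0, .ofNat 0, .ofNat 698, .ofNat 1003, .ofNat 0, .ofNat 0, .ofNat 761642302143513117106836917452800, .ofNat 0, .ofNat 0, .ofNat 0, .ofNat 0, .ofNat 0, .ofNat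 0, .ofNat 0, .ofNat 0, .ofNat 0, .ofNat 0, .ofNat 0, .ofNat 0, .ofNat 0⟩)
    (by decide +kernel)
theorem L01506 : Good (Phi V4.P V4.D 1 1) ⟨3, 7, 3, 4, 3, 6, 2, 1, 4, 1⟩ :=
  out_sound (S := T4.ds_pp) T4.ok_pp (w := 16) (j := 4) (by decide +kernel)
theorem L01507 : Good (Phi V4.P V4.D 1 1) ⟨4, 12, 4, 8, 3, 7, 1, 0, 4, 0⟩ :=
  out_sound (S := T4.ds_pp) T4.ok_pp (w := 56) (j := 3) (by decide +kernel)
theorem L01508 : Good (Phi V4.P V4.D 1 1) ⟨5, 26, 4, 8, 3, 7, 1, 0, 4, 0⟩ :=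
  out_sound (S := T4.ds_pp) T4.ok_pp (w := 64) (j := 3) (by decide +kernel)
theorem L01509 : Good (Phi V4.P V4.D 1 1) ⟨7, 108, 5, 16, 3, 7, 3, 0, 5, 0⟩ :=
  leaf_sound (S := T4.ds_pp) T4.ok_pp (w := 216) (c := ⟨⟨.ofNat 2266, .negSucc 184, .ofNat 278, .ofNat 1318, .negSucc 1304, .negSucc 3091⟩, ⟨.ofNat 1216, .negSucc 77, .ofNat 131, .ofNat 710, .negSucc 690, .negSucc 1637⟩, ⟨.negSucc 274, .ofNat 144, .negSucc 130, .negSucc 725, .ofNat 653, .ofNat 1665⟩, ⟨.ofNat 2770, .negSucc 301, .ofNat 373, .ofNat 1738, .negSucc 2019, .negSucc 4790⟩, ⟨.ofNat 1350, .ofNat 12, .ofNat 33, .ofNat 523, .ofNat 40, .ofNat 106⟩, .ofNat 2794, .negSucc 4610, .ofNat 0, .negSucc 4610, .ofNat 8827, .ofNat 0, .ofNat 57, .ofNat 286, .negSucc 523, .ofNat 0, .ofNat 155, .negSucc 276, .ofNat 0, .ofNat 0, .ofNat 384, .ofNat 1809, .ofNat 0, .ofNat 0, .ofNat 0, .ofNat 0, .ofNat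 0, .ofNat 0, .ofNat 0, .ofNat 0, .ofNat 0, .ofNat 0, .ofNat 0, .ofNat 0, .ofNat 0, .ofNat 0, .ofNat 28020227192652543495802080303513600, .ofNat 0⟩)
    (by decide +kernel)
theorem L01510 : Good (Phi V4.P V4.D 1 1) ⟨7, 108, 5, 16, 3, 7, 3, 1, 5, 0⟩ :=
  leaf_sound (S := T4.ds_pp) T4.ok_pp (w := 216) (c := ⟨⟨.ofNat 879, .negSucc 13, .negSucc 242, .ofNat 1250, .negSucc 1184, .negSucc 2539⟩, ⟨.ofNat 493, .ofNat 5, .negSucc 165, .ofNat 668, .negSucc 627, .negSucc 1343⟩, ⟨.ofNat 482, .negSucc 3, .ofNat 203, .negSucc 768, .ofNat 573, .ofNat 1328⟩, ⟨.ofNat 603, .negSucc 24, .negSucc 420, .ofNat 1745, .negSucc 1840, .negSucc 3998⟩, ⟨.ofNat 1410, .ofNat 15, .ofNat 30, .ofNat 321, .ofNat 49, .ofNat 206⟩, .ofNat 1582, .negSucc 2381, .ofNat 0, .negSucc 2381, .ofNat 4700, .ofNat 0, .ofNat 151, .ofNat 593, .negSucc 1080, .ofNat 0, .ofNat 324, .negSucc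 559, .ofNat 0, .ofNat 0, .ofNat 792, .ofNat 1719, .ofNat 0, .ofNat 0, .ofNat 0, .ofNat 0, .ofNat 0, .ofNat 0, .ofNat 0, .ofNat 0, .ofNat 0, .ofNat 0, .ofNat 0, .ofNat 0, .ofNat 0, .ofNat 0, .ofNat 0, .ofNat 0⟩)
    (by decide +kernel)
theorem L01511 : Good (Phi V4.P V4.D 1 1) ⟨7, 108, 5, 16, 3, 7, 2, 0, 5, 1⟩ :=
  leaf_sound (S := T4.ds_pp) T4.ok_pp (w := 208) (c := ⟨⟨.negSucc 908, .negSucc 186, .ofNat 29, .ofNat 989, .negSucc 1299, .negSucc 1134⟩, ⟨.negSucc 446, .negSucc 77, .negSucc 56, .ofNat 524, .negSucc 686, .negSucc 595⟩, ⟨.ofNat 1570, .ofNat 112, .negSucc 2, .negSucc 757, .ofNat 509, .ofNat 501⟩, ⟨.negSucc 2284, .negSucc 304, .ofNat 42, .ofNat 1449, .negSucc 2038, .negSucc 1910⟩, ⟨.ofNat 1687, .ofNat 55, .negSucc 49, .ofNat 126, .ofNat 87, .ofNat 325⟩, .ofNat 1584, .negSucc 2384, .ofNat 0, .negSucc 2384, .ofNat 4705, .ofNat 0, .ofNat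 149, .ofNat 567, .negSucc 826, .ofNat 0, .ofNat 309, .negSucc 426, .ofNat 0, .ofNat 0, .ofNat 674, .ofNat 4288, .ofNat 0, .ofNat 0, .ofNat 0, .ofNat 0, .ofNat 0, .ofNat 0, .ofNat 0, .ofNat 0, .ofNat 0, .ofNat 0, .ofNat 0, .ofNat 0, .ofNat 0, .ofNat 0, .ofNat 0, .ofNat 0⟩)
    (by decide +kernel)
theorem L01512 : Good (Phi V4.P V4.D 1 1) ⟨7, 109, 6, 32, 3, 7, 2, 0, 4, 0⟩ :=
  out_sound (S := T4.ds_pp) T4.ok_pp (w := 80) (j := 3) (by decide +kernel)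
theorem L01513 : Good (Phi V4.P V4.D 1 1) ⟨8, 218, 6, 33, 3, 7, 2, 0, 5, 0⟩ :=
  leaf_sound (S := T4.ds_pp) T4.ok_pp (w := 216) (c := ⟨⟨.ofNat 2440, .ofNat 164, .negSucc 257, .ofNat 1223, .negSucc 2576, .negSucc 3120⟩, ⟨.ofNat 1351, .ofNat 106, .negSucc 160, .ofNat 669, .negSucc 1398, .negSucc 1692⟩, ⟨.negSucc 289, .negSucc 56, .ofNat 120, .negSucc 682, .ofNat 1242, .ofNat 1671⟩, ⟨.ofNat 2928, .ofNat 208, .negSucc 362, .ofNat 1616, .negSucc 3930, .negSucc 4814⟩, ⟨.ofNat 1470, .ofNat 64, .negSucc 75, .ofNat 454, .ofNat 14, .ofNat 116⟩, .ofNat 4939, .negSucc 8419, .ofNat 0, .negSucc 8419, .ofNat 15578, .ofNat 0, .ofNat 46, .ofNat 295, .negSucc 538, .ofNat 0, .ofNat 163, .negSucc 291, .ofNat 0, .ofNat 0, .ofNat 391, .ofNat 782, .ofNat 59745122766567240157640995245481754256998400, .ofNat 0, .ofNat 30763259740421457787169538048000, .ofNat 0,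 .ofNat 0, .ofNat 0, .ofNat 0, .ofNat 0, .ofNat 0, .ofNat 0, .ofNat 0, .ofNat 0, .ofNat 0, .ofNat 0, .ofNat 0, .ofNat 0⟩)
    (by decide +kernel)
theorem L01514 : Good (Phi V4.P V4.D 1 1) ⟨8, 218, 6, 33, 3, 7, 2, 0, 5, 1⟩ :=
  leaf_sound (S := T4.ds_pp) T4.ok_pp (w := 216) (c := ⟨⟨.negSucc 1054, .negSucc 229, .ofNat 134, .ofNat 928, .negSucc 1338, .negSucc 1103⟩, ⟨.negSucc 530, .negSucc 113, .ofNat 38, .ofNat 506, .negSucc 726, .negSucc 595⟩, ⟨.ofNat 1663, .ofNat 125, .negSucc 55, .negSucc 721, .ofNat 541, .ofNat 487⟩, ⟨.negSucc 2521, .negSucc 362, .ofNat 204, .ofNat 1341, .negSucc 2104, .negSucc 1867⟩, ⟨.ofNat 1702, .ofNat 34, .negSucc 27, .ofNat 132, .ofNat 122, .ofNat 345⟩, .ofNat 3263, .negSucc 5380, .ofNat 0, .negSucc 5380, .ofNat 10058, .ofNat 0, .ofNat 104, .ofNat 572, .negSucc 810, .ofNat 0, .ofNat 316, .negSucc 436, .ofNat 0, .ofNat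 0, .ofNat 661, .ofNat 5183, .ofNat 0, .ofNat 0, .ofNat 0, .ofNat 0, .ofNat 0, .ofNat 0, .ofNat 0, .ofNat 0, .ofNat 0, .ofNat 0, .ofNat 0, .ofNat 0, .ofNat 0, .ofNat 0, .ofNat 25504631345452207529779718101401600, .ofNat 0⟩)
    (by decide +kernel)
theorem L01515 : Good (Phi V4.P V4.D 1 1) ⟨8, 219, 6, 33, 3, 7, 2, 0, 4, 0⟩ :=
  out_sound (S := T4.ds_pp) T4.ok_pp (w := 88) (j := 3) (by decide +kernel)
theorem L01516 : Good (Phi V4.P V4.D 1 1) ⟨7, 108, 5, 17, 3, 7, 2, 0, 4, 0⟩ :=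
  out_sound (S := T4.ds_pp) T4.ok_pp (w := 80) (j := 3) (by decide +kernel)
theorem L01517 : Good (Phi V4.P V4.D 1 1) ⟨7, 109, 6, 34, 4, 14, 3, 0, 5, 0⟩ :=
  leaf_sound (S := T4.ds_pp) T4.ok_pp (w := 224) (c := ⟨⟨.ofNat 2419, .negSucc 352, .ofNat 272, .ofNat 1323, .negSucc 1435, .negSucc 3825⟩, ⟨.ofNat 1333, .negSucc 156, .ofNat 131, .ofNat 731, .negSucc 789, .negSucc 2106⟩, ⟨.negSucc 331, .ofNat 182, .negSucc 126, .negSucc 759, .ofNat 736, .ofNat 2160⟩, ⟨.ofNat 2940, .negSucc 488, .ofNat 366, .ofNat 1920, .negSucc 2220, .negSucc 5967⟩, ⟨.ofNat 1361, .negSucc 134, .ofNat 72, .ofNat 157, .ofNat 76, .ofNat 297⟩, .ofNat 3746, .negSucc 6193, .ofNat 0, .negSucc 6193, .ofNat 11403, .ofNat 0, .ofNat 46, .ofNat 285, .negSucc 621, .ofNat 0, .ofNat 159, .negSucc 339, .ofNat 0, .ofNat 0, .ofNat 441, .ofNat 2481, .ofNat 0, .ofNat 0, .ofNat 0, .ofNat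 0, .ofNat 0, .ofNat 0, .ofNat 0, .ofNat 0, .ofNat 0, .ofNat 0, .ofNat 0, .ofNat 0, .ofNat 0, .ofNat 0, .ofNat 128160179576984354807958915520659456000, .ofNat 0⟩)
    (by decide +kernel)
theorem L01518 : Good (Phi V4.P V4.D 1 1) ⟨7, 109, 6, 34, 4, 14, 3, 1, 5, 0⟩ :=
  leaf_sound (S := T4.ds_pp) T4.ok_pp (w := 224) (c := ⟨⟨.ofNat 834, .negSucc 650, .ofNat 266, .ofNat 788, .negSucc 1147, .negSucc 2680⟩, ⟨.ofNat 470, .negSucc 322, .ofNat 110, .ofNat 435, .negSucc 630, .negSucc 1475⟩, ⟨.ofNat 496, .ofNat 463, .negSucc 180, .negSucc 518, .ofNat 562, .ofNat 1477⟩, ⟨.ofNat 531, .negSucc 1039, .ofNat 405, .ofNat 1165, .negSucc 1806, .negSucc 4291⟩, ⟨.ofNat 1346, .ofNat 82, .negSucc 13, .ofNat 56, .ofNat 116, .ofNat 407⟩, .ofNat 3748, .negSucc 6195, .ofNat 0, .negSucc 6195, .ofNat 11406, .ofNat 0, .ofNat 47, .ofNat 294, .negSucc 626, .ofNat 0, .ofNat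 165, .negSucc 342, .ofNat 0, .ofNat 0, .ofNat 454, .ofNat 1698, .ofNat 0, .ofNat 0, .ofNat 0, .ofNat 0, .ofNat 0, .ofNat 0, .ofNat 0, .ofNat 0, .ofNat 0, .ofNat 0, .ofNat 0, .ofNat 0, .ofNat 0, .ofNat 0, .ofNat 125634235808405758113020643370441113600, .ofNat 0⟩)
    (by decide +kernel)
theorem L01519 : Good (Phi V4.P V4.D 1 1) ⟨7, 109, 6, 35, 4, 14, 3, 0, 5, 0⟩ :=
  leaf_sound (S := T4.ds_pp) T4.ok_pp (w := 232) (c := ⟨⟨.ofNat 2200, .ofNat 338, .negSucc 121, .ofNat 1517, .negSucc 1620, .negSucc 4017⟩, ⟨.ofNat 1214, .ofNat 215, .negSucc 77, .ofNat 849, .negSucc 904, .negSucc 2239⟩, ⟨.negSucc 293, .negSucc 120, .ofNat 108, .negSucc 846, .ofNat 851, .ofNat 2307⟩, ⟨.ofNat 2676, .ofNat 443, .negSucc 223, .ofNat 2199, .negSucc 2495, .negSucc 6275⟩, ⟨.ofNat 1200, .ofNat 90, .ofNat 48, .ofNat 170, .ofNat 80, .ofNat 355⟩, .ofNat 7561, .negSucc 12911,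 .ofNat 0, .negSucc 12911, .ofNat 23232, .ofNat 0, .ofNat 34, .ofNat 284, .negSucc 640, .ofNat 0, .ofNat 160, .negSucc 356, .ofNat 0, .ofNat 0, .ofNat 453, .ofNat 3070, .ofNat 0, .ofNat 0, .ofNat 0, .ofNat 0, .ofNat 0, .ofNat 0, .ofNat 0, .ofNat 0, .ofNat 0, .ofNat 0, .ofNat 296019199797821798200630648876774195200, .ofNat 0, .ofNat 0, .ofNat 0, .ofNat 124258702754630370804115918682691993600, .ofNat 0⟩)
    (by decide +kernel)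
theorem L01520 : Good (Phi V4.P V4.D 1 1) ⟨7, 109, 6, 35, 4, 14, 3, 1, 5, 0⟩ :=
  leaf_sound (S := T4.ds_pp) T4.ok_pp (w := 232) (c := ⟨⟨.ofNat 921, .negSucc 378, .negSucc 242, .ofNat 976, .negSucc 1344, .negSucc 2821⟩, ⟨.ofNat 517, .negSucc 201, .negSucc 158, .ofNat 545, .negSucc 749, .negSucc 1571⟩, ⟨.ofNat 490, .ofNat 215, .ofNat 168, .negSucc 631, .ofNat 680, .ofNat 1571⟩, ⟨.ofNat 619, .negSucc 569, .negSucc 399, .ofNat 1454, .negSucc 2108, .negSucc 4514⟩, ⟨.ofNat 1383, .ofNat 1, .ofNat 36, .ofNat 39, .ofNat 133, .ofNat 440⟩, .ofNat 7597, .negSucc 12977, .ofNat 0, .negSucc 12977, .ofNat 23355, .ofNat 0, .ofNat 70, .ofNat 589, .negSucc 1285, .ofNat 0, .ofNat 332, .negSucc 714, .ofNat 0, .ofNat 0, .ofNat 930, .ofNat 2993, .ofNat 0, .ofNat 0, .ofNat 0, .ofNat 0, .ofNat 0, .ofNat 0, .ofNat 0, .ofNat 0, .ofNat 0, .ofNat 0, .ofNat 0, .ofNat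 0, .ofNat 0, .ofNat 0, .ofNat 808541937645779563557263006894338867200, .ofNat 0⟩)
    (by decide +kernel)
theorem L01521 : Good (Phi V4.P V4.D 1 1) ⟨7, 109, 6, 34, 4, 15, 3, 0, 5, 0⟩ :=
  leaf_sound (S := T4.ds_pp) T4.ok_pp (w := 224) (c := ⟨⟨.ofNat 3198, .ofNat 1499, .negSucc 656, .ofNat 99, .negSucc 1614, .negSucc 3790⟩, ⟨.ofNat 1771, .ofNat 849, .negSucc 365, .ofNat 56, .negSucc 893, .negSucc 2092⟩, ⟨.negSucc 672, .negSucc 864, .ofNat 394, .ofNat 6, .ofNat 784, .ofNat 1971⟩, ⟨.ofNat 3990, .ofNat 2013, .negSucc 869, .negSucc 47, .negSucc 2424, .negSucc 5686⟩, ⟨.ofNat 1594, .ofNat 445, .negSucc 268, .ofNat 360, .negSucc 42, .negSucc 115⟩, .ofNat 1859, .negSucc 2817, .ofNat 0, .negSucc 2817, .ofNat 5337, .ofNat 0, .ofNat 65, .ofNat 303, .negSucc 563, .ofNat 0, .ofNat 168, .negSucc 305, .ofNat 0, .ofNat 0, .ofNat 386, .ofNat 2420, .ofNat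 0, .ofNat 0, .ofNat 0, .ofNat 0, .ofNat 0, .ofNat 0, .ofNat 0, .ofNat 0, .ofNat 0, .ofNat 0, .ofNat 0, .ofNat 0, .ofNat 0, .ofNat 0, .ofNat 60210664758577628394527449615328870400, .ofNat 0⟩)
    (by decide +kernel)
theorem L01522 : Good (Phi V4.P V4.D 1 1) ⟨7, 109, 6, 34, 4, 15, 3, 1, 5, 0⟩ :=
  leaf_sound (S := T4.ds_pp) T4.ok_pp (w := 232) (c := ⟨⟨.ofNat 1805, .negSucc 294, .ofNat 205, .ofNat 519, .negSucc 1278, .negSucc 2955⟩, ⟨.ofNat 1009, .negSucc 146, .ofNat 98, .ofNat 290, .negSucc 705, .negSucc 1630⟩, ⟨.negSucc 21, .ofNat 186, .negSucc 105, .negSucc 268, .ofNat 590, .ofNat 1495⟩, ⟨.ofNat 1872, .negSucc 477, .ofNat 294, .ofNat 642, .negSucc 1946, .negSucc 4529⟩, ⟨.ofNat 1591, .ofNat 42, .ofNat 5, .ofNat 262, .ofNat 11, .ofNat 85⟩, .ofNat 6108, .negSucc 10422, .ofNat 0, .negSucc 10422, .ofNat 18989, .ofNat 0, .ofNat 83, .ofNat 624,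 .negSucc 1081, .ofNat 0, .ofNat 348, .negSucc 595, .ofNat 0, .ofNat 0, .ofNat 769, .ofNat 3571, .ofNat 0, .ofNat 0, .ofNat 0, .ofNat 0, .ofNat 0, .ofNat 0, .ofNat 1195155891750569694463743550259252428800, .ofNat 0, .ofNat 0, .ofNat 0, .ofNat 0, .ofNat 0, .ofNat 0, .ofNat 0, .ofNat 424941802740702315318981547844960256000, .ofNat 0⟩)
    (by decide +kernel)
theorem L01523 : Good (Phi V4.P V4.D 1 1) ⟨7, 109, 6, 35, 4, 15, 3, 0, 5, 0⟩ :=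
  leaf_sound (S := T4.ds_pp) T4.ok_pp (w := 232) (c := ⟨⟨.ofNat 2810, .ofNat 1254, .negSucc 210, .ofNat 160, .negSucc 1682, .negSucc 4141⟩, ⟨.ofNat 1565, .ofNat 718, .negSucc 118, .ofNat 92, .negSucc 940, .negSucc 2313⟩, ⟨.negSucc 368, .negSucc 788, .ofNat 189, .negSucc 10, .ofNat 807, .ofNat 2155⟩, ⟨.ofNat 3323, .ofNat 1853, .negSucc 365, .ofNat 2, .negSucc 2488, .negSucc 6156⟩, ⟨.ofNat 1694, .ofNat 48, .ofNat 50, .ofNat 431, .negSucc 99, .negSucc 189⟩, .ofNat 9863, .negSucc 16997, .ofNat 0, .negSucc 16997, .ofNat 30491, .ofNat 0, .ofNat 33, .ofNat 303, .negSucc 565, .ofNat 0, .ofNat 171, .negSucc 315, .ofNat 0, .ofNat 0, .ofNat 389, .ofNat 2491, .ofNat 0, .ofNat 0, .ofNat 0, .ofNat 0, .ofNat 0, .ofNat 0, .ofNat 0, .ofNat 0, .ofNat 0, .ofNat 0, .ofNat 457739423783484269506565690969240371200, .ofNat 0, .ofNat 0, .ofNat 0, .ofNat 158471293506770681011249966720902758400,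 .ofNat 0⟩)
    (by decide +kernel)
theorem L01524 : Good (Phi V4.P V4.D 1 1) ⟨7, 109, 6, 35, 4, 15, 3, 1, 5, 0⟩ :=
  leaf_sound (S := T4.ds_pp) T4.ok_pp (w := 232) (c := ⟨⟨.ofNat 1774, .negSucc 253, .negSucc 140, .ofNat 797, .negSucc 1297, .negSucc 2869⟩, ⟨.ofNat 986, .negSucc 122, .negSucc 96, .ofNat 447, .negSucc 724, .negSucc 1600⟩, ⟨.negSucc 21, .ofNat 214, .ofNat 81, .negSucc 442, .ofNat 595, .ofNat 1438⟩, ⟨.ofNat 1883, .negSucc 512, .negSucc 180, .ofNat 1071, .negSucc 1970, .negSucc 4393⟩, ⟨.ofNat 1446, .ofNat 220, .negSucc 85, .ofNat 239, .ofNat 15, .ofNat 94⟩, .ofNat 4222, .negSucc 6984, .ofNat 0, .negSucc 6984, .ofNat 12703, .ofNat 0, .ofNat 90, .ofNat 630, .negSucc 1118, .ofNat 0, .ofNat 355, .negSucc 620, .ofNat 0, .ofNat 0, .ofNat 786, .ofNat 2599, .ofNat 0, .ofNat 0, .ofNat 0, .ofNat 0, .ofNat 0, .ofNat 0, .ofNat 0, .ofNat 0,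 .ofNat 0, .ofNat 0, .ofNat 0, .ofNat 0, .ofNat 0, .ofNat 0, .ofNat 0, .ofNat 0⟩)
    (by decide +kernel)
theorem L01525 : Good (Phi V4.P V4.D 1 1) ⟨7, 109, 5, 17, 3, 7, 2, 0, 5, 1⟩ :=
  leaf_sound (S := T4.ds_pp) T4.ok_pp (w := 216) (c := ⟨⟨.negSucc 1157, .negSucc 225, .ofNat 52, .ofNat 1182, .negSucc 1402, .negSucc 973⟩, ⟨.negSucc 606, .negSucc 126, .negSucc 22, .ofNat 653, .negSucc 772, .negSucc 533⟩, ⟨.ofNat 1759, .ofNat 125, .ofNat 18, .negSucc 892, .ofNat 572, .ofNat 403⟩, ⟨.negSucc 2707, .negSucc 351, .ofNat 51, .ofNat 1767, .negSucc 2214, .negSucc 1652⟩, ⟨.ofNat 1718, .ofNat 50, .negSucc 12, .ofNat 49, .ofNat 158, .ofNat 318⟩, .ofNat 3762, .negSucc 6220, .ofNat 0, .negSucc 6220, .ofNat 11452, .ofNat 0, .ofNat 94, .ofNat 577, .negSucc 859, .ofNat 0, .ofNat 322, .negSucc 469, .ofNat 0, .ofNat 0, .ofNat 692, .ofNat 5607, .ofNat 0, .ofNat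 0, .ofNat 0, .ofNat 0, .ofNat 0, .ofNat 0, .ofNat 0, .ofNat 0, .ofNat 0, .ofNat 0, .ofNat 0, .ofNat 0, .ofNat 0, .ofNat 0, .ofNat 0, .ofNat 0⟩)
    (by decide +kernel)
theorem L01526 : Good (Phi V4.P V4.D 1 1) ⟨6, 55, 5, 16, 3, 7, 2, 0, 4, 0⟩ :=
  out_sound (S := T4.ds_pp) T4.ok_pp (w := 72) (j := 3) (by decide +kernel)
theorem L01527 : Good (Phi V4.P V4.D 1 1) ⟨7, 110, 6, 34, 3, 7, 3, 0, 4, 0⟩ :=
  out_sound (S := T4.ds_pp) T4.ok_pp (w := 80) (j := 3) (by decide +kernel)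
theorem L01528 : Good (Phi V4.P V4.D 1 1) ⟨8, 220, 7, 70, 3, 7, 3, 0, 5, 0⟩ :=
  leaf_sound (S := T4.ds_pp) T4.ok_pp (w := 224) (c := ⟨⟨.ofNat 2909, .negSucc 1052, .ofNat 92, .ofNat 1540, .negSucc 1674, .negSucc 3986⟩, ⟨.ofNat 1642, .negSucc 572, .ofNat 46, .ofNat 868, .negSucc 939, .negSucc 2234⟩, ⟨.negSucc 607, .ofNat 614, .ofNat 20, .negSucc 791, .ofNat 827, .ofNat 2145⟩, ⟨.ofNat 3647, .negSucc 1509, .ofNat 64, .ofNat 2027, .negSucc 2516, .negSucc 6063⟩, ⟨.ofNat 1345, .negSucc 167, .ofNat 123, .ofNat 532, .negSucc 24, .ofNat 71⟩, .ofNat 4437, .negSucc 7339, .ofNat 0, .negSucc 7339, .ofNat 13282, .ofNat 0, .ofNat 41, .ofNat 298, .negSucc 584, .ofNat 0, .ofNat 168, .negSucc 325, .ofNat 0, .ofNat 0, .ofNat 406, .ofNat 1189, .ofNat 1630454191772084307677102957124593524722892800, .ofNat 0, .ofNat 2516495590845774601656101712691200, .ofNat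 0, .ofNat 0, .ofNat 0, .ofNat 0, .ofNat 0, .ofNat 0, .ofNat 0, .ofNat 0, .ofNat 0, .ofNat 0, .ofNat 0, .ofNat 101491592597893766702131615000166400, .ofNat 0⟩)
    (by decide +kernel)
theorem L01529 : Good (Phi V4.P V4.D 1 1) ⟨8, 220, 7, 71, 4, 14, 4, 0, 5, 0⟩ :=
  leaf_sound (S := T4.ds_pp) T4.ok_pp (w := 240) (c := ⟨⟨.ofNat 2742, .ofNat 243, .negSucc 63, .ofNat 1709, .negSucc 989, .negSucc 4610⟩, ⟨.ofNat 1555, .ofNat 125, .negSucc 25, .ofNat 968, .negSucc 557, .negSucc 2601⟩, ⟨.negSucc 498, .negSucc 239, .ofNat 118, .negSucc 970, .ofNat 519, .ofNat 2634⟩, ⟨.ofNat 3401, .ofNat 408, .negSucc 147, .ofNat 2491, .negSucc 1503, .negSucc 7146⟩, ⟨.ofNat 1310, .negSucc 61, .ofNat 63, .ofNat 151, .ofNat 19, .ofNat 340⟩, .ofNat 4796, .negSucc 7938, .ofNat 0, .negSucc 7938, .ofNat 14274, .ofNat 0, .ofNat 38, .ofNat 286, .negSucc 675, .ofNat 0, .ofNat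 162, .negSucc 378, .ofNat 0, .ofNat 0, .ofNat 468, .ofNat 4973, .ofNat 0, .ofNat 0, .ofNat 0, .ofNat 0, .ofNat 0, .ofNat 0, .ofNat 0, .ofNat 0, .ofNat 0, .ofNat 0, .ofNat 0, .ofNat 0, .ofNat 0, .ofNat 0, .ofNat 0, .ofNat 0⟩)
    (by decide +kernel)
theorem L01530 : Good (Phi V4.P V4.D 1 1) ⟨8, 220, 7, 71, 4, 14, 4, 1, 5, 0⟩ :=
  leaf_sound (S := T4.ds_pp) T4.ok_pp (w := 240) (c := ⟨⟨.ofNat 1556, .negSucc 309, .ofNat 201, .ofNat 1184, .negSucc 801, .negSucc 3593⟩, ⟨.ofNat 884, .negSucc 161, .ofNat 102, .ofNat 668, .negSucc 451, .negSucc 2027⟩, ⟨.ofNat 186, .ofNat 133, .negSucc 83, .negSucc 718, .ofNat 404, .ofNat 2011⟩, ⟨.ofNat 1584, .negSucc 420, .ofNat 266, .ofNat 1742, .negSucc 1235, .negSucc 5650⟩, ⟨.ofNat 1359, .negSucc 89, .ofNat 56, .ofNat 77, .ofNat 47, .ofNat 408⟩, .ofNat 9600, .negSucc 16397, .ofNat 0, .negSucc 16397, .ofNat 29178,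 .ofNat 0, .ofNat 29, .ofNat 291, .negSucc 642, .ofNat 0, .ofNat 165, .negSucc 361, .ofNat 0, .ofNat 0, .ofNat 456, .ofNat 1902, .ofNat 0, .ofNat 0, .ofNat 0, .ofNat 0, .ofNat 0, .ofNat 0, .ofNat 0, .ofNat 0, .ofNat 0, .ofNat 0, .ofNat 0, .ofNat 0, .ofNat 0, .ofNat 0, .ofNat 0, .ofNat 0⟩)
    (by decide +kernel)
theorem L01531 : Good (Phi V4.P V4.D 1 1) ⟨9, 440, 7, 71, 4, 15, 3, 0, 5, 0⟩ :=
  leaf_sound (S := T4.ds_pp) T4.ok_pp (w := 240) (c := ⟨⟨.ofNat 3674, .ofNat 469, .negSucc 562, .ofNat 243, .negSucc 1537, .negSucc 4046⟩, ⟨.ofNat 2073, .ofNat 275, .negSucc 323, .ofNat 140, .negSucc 866, .negSucc 2279⟩, ⟨.negSucc 929, .negSucc 228, .ofNat 336, .negSucc 71, .ofNat 720, .ofNat 2110⟩, ⟨.ofNat 4675, .ofNat 556, .negSucc 783, .ofNat 168, .negSucc 2291, .negSucc 6083⟩, ⟨.ofNat 1554, .ofNat 256, .negSucc 129, .ofNat 353, .negSucc 50, .negSucc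 39⟩, .ofNat 4679, .negSucc 7743, .ofNat 0, .negSucc 7743, .ofNat 13953, .ofNat 0, .ofNat 40, .ofNat 306, .negSucc 580, .ofNat 0, .ofNat 173, .negSucc 324, .ofNat 0, .ofNat 0, .ofNat 395, .ofNat 1444, .ofNat 0, .ofNat 0, .ofNat 0, .ofNat 0, .ofNat 0, .ofNat 0, .ofNat 0, .ofNat 0, .ofNat 0, .ofNat 0, .ofNat 0, .ofNat 0, .ofNat 0, .ofNat 0, .ofNat 0, .ofNat 0⟩)
    (by decide +kernel)
theorem L01532 : Good (Phi V4.P V4.D 1 1) ⟨9, 441, 7, 71, 4, 15, 3, 0, 5, 0⟩ :=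
  leaf_sound (S := T4.ds_pp) T4.ok_pp (w := 240) (c := ⟨⟨.ofNat 4041, .ofNat 1072, .negSucc 267, .ofNat 134, .negSucc 1591, .negSucc 4131⟩, ⟨.ofNat 2299, .ofNat 617, .negSucc 158, .ofNat 77, .negSucc 901, .negSucc 2340⟩, ⟨.negSucc 1121, .negSucc 663, .ofNat 198, .negSucc 10, .ofNat 752, .ofNat 2148⟩, ⟨.ofNat 5189, .ofNat 1661, .negSucc 504, .ofNat 14, .negSucc 2387, .negSucc 6195⟩, ⟨.ofNat 1603, .negSucc 93, .ofNat 167, .ofNat 331, .negSucc 20, .negSucc 55⟩, .ofNat 4953, .negSucc 8198, .ofNat 0, .negSucc 8198, .ofNat 14701, .ofNat 0, .ofNat 39, .ofNat 307, .negSucc 576, .ofNat 0, .ofNat 174, .negSucc 324, .ofNat 0, .ofNat 0, .ofNat 392, .ofNat 2128, .ofNat 0, .ofNat 0, .ofNat 0, .ofNat 0, .ofNat 0, .ofNat 0, .ofNat 0, .ofNat 0, .ofNat 0, .ofNat 0, .ofNat 0, .ofNat 0, .ofNat 0, .ofNat 0, .ofNat 6410844820404133120719169891231334400, .ofNat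 0⟩)
    (by decide +kernel)
theorem L01533 : Good (Phi V4.P V4.D 1 1) ⟨8, 221, 6, 35, 3, 7, 3, 0, 5, 0⟩ :=
  out_sound (S := T4.ds_pp) T4.ok_pp (w := 88) (j := 3) (by decide +kernel)
theorem L01534 : Good (Phi V4.P V4.D 1 1) ⟨7, 110, 6, 35, 3, 7, 3, 0, 5, 1⟩ :=
  leaf_sound (S := T4.ds_pp) T4.ok_pp (w := 216) (c := ⟨⟨.negSucc 1280, .negSucc 691, .ofNat 220, .ofNat 1299, .negSucc 836, .negSucc 1228⟩, ⟨.negSucc 696, .negSucc 387, .ofNat 98, .ofNat 732, .negSucc 470, .negSucc 690⟩, ⟨.ofNat 1852, .ofNat 435, .negSucc 129, .negSucc 919, .ofNat 360, .ofNat 533⟩, ⟨.negSucc 2909, .negSucc 1093, .ofNat 341, .ofNat 1915, .negSucc 1318, .negSucc 2046⟩, ⟨.ofNat 1746, .ofNat 99, .negSucc 38, .ofNat 80, .ofNat 99, .ofNat 342⟩, .ofNat 4694, .negSucc 7768, .ofNat 0, .negSucc 7768, .ofNat 13992, .ofNat 0, .ofNat 79, .ofNat 578, .negSucc 848, .ofNat 0, .ofNat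 327, .negSucc 474, .ofNat 0, .ofNat 0, .ofNat 670, .ofNat 9263, .ofNat 0, .ofNat 0, .ofNat 0, .ofNat 0, .ofNat 0, .ofNat 0, .ofNat 3043151914088244401383483066495795200, .ofNat 0, .ofNat 0, .ofNat 0, .ofNat 1183530960017491421549014397485056000, .ofNat 0, .ofNat 0, .ofNat 0, .ofNat 942536955842432020184913684725760000, .ofNat 0⟩)
    (by decide +kernel)
theorem L01535 : Good (Phi V4.P V4.D 1 1) ⟨7, 110, 6, 34, 3, 7, 3, 1, 4, 0⟩ :=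
  out_sound (S := T4.ds_pp) T4.ok_pp (w := 80) (j := 3) (by decide +kernel)
theorem L01536 : Good (Phi V4.P V4.D 1 1) ⟨8, 220, 6, 35, 3, 7, 3, 1, 5, 0⟩ :=
  leaf_sound (S := T4.ds_pp) T4.ok_pp (w := 224) (c := ⟨⟨.ofNat 662, .negSucc 521, .ofNat 229, .ofNat 1711, .negSucc 1310, .negSucc 2948⟩, ⟨.ofNat 394, .negSucc 272, .ofNat 94, .ofNat 967, .negSucc 737, .negSucc 1659⟩, ⟨.ofNat 676, .ofNat 285, .negSucc 85, .negSucc 1025, .ofNat 611, .ofNat 1549⟩, ⟨.ofNat 178, .negSucc 796, .ofNat 314, .ofNat 2436, .negSucc 2004, .negSucc 4587⟩, ⟨.ofNat 1467, .negSucc 5, .ofNat 55, .ofNat 259, .ofNat 46, .ofNat 246⟩, .ofNat 4694, .negSucc 7767, .ofNat 0, .negSucc 7767, .ofNat 13991, .ofNat 0, .ofNat 41, .ofNat 308, .negSucc 596, .ofNat 0, .ofNat 175, .negSucc 333, .ofNat 0, .ofNat 0, .ofNat 421, .ofNat 532, .ofNat 0, .ofNat 0, .ofNat 0, .ofNat 0, .ofNat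 0, .ofNat 0, .ofNat 0, .ofNat 0, .ofNat 0, .ofNat 0, .ofNat 0, .ofNat 0, .ofNat 0, .ofNat 0, .ofNat 0, .ofNat 0⟩)
    (by decide +kernel)
theorem L01537 : Good (Phi V4.P V4.D 1 1) ⟨8, 220, 6, 35, 3, 7, 3, 1, 5, 1⟩ :=
  leaf_sound (S := T4.ds_pp) T4.ok_pp (w := 224) (c := ⟨⟨.negSucc 2142, .ofNat 244, .negSucc 440, .ofNat 1343, .negSucc 649, .negSucc 858⟩, ⟨.negSucc 1177, .ofNat 133, .negSucc 276, .ofNat 756, .negSucc 365, .negSucc 481⟩, ⟨.ofNat 2269, .negSucc 88, .ofNat 216, .negSucc 1016, .ofNat 253, .ofNat 331⟩, ⟨.negSucc 4300, .ofNat 351, .negSucc 673, .ofNat 2046, .negSucc 1026, .negSucc 1470⟩, ⟨.ofNat 1906, .ofNat 53, .negSucc 18, .negSucc 33, .ofNat 84, .ofNat 309⟩, .ofNat 4691, .negSucc 7764, .ofNat 0, .negSucc 7764, .ofNat 13986, .ofNat 0, .ofNat 81, .ofNat 594, .negSucc 848, .ofNat 0, .ofNat 337, .negSucc 473, .ofNat 0, .ofNat 0,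 .ofNat 686, .ofNat 5331, .ofNat 0, .ofNat 0, .ofNat 0, .ofNat 0, .ofNat 0, .ofNat 0, .ofNat 0, .ofNat 0, .ofNat 0, .ofNat 0, .ofNat 0, .ofNat 0, .ofNat 0, .ofNat 0, .ofNat 195840928621629828547223956645478400, .ofNat 0⟩)
    (by decide +kernel)
theorem L01538 : Good (Phi V4.P V4.D 1 1) ⟨8, 221, 6, 35, 3, 7, 3, 1, 4, 0⟩ :=
  out_sound (S := T4.ds_pp) T4.ok_pp (w := 88) (j := 3) (by decide +kernel)
theorem L01539 : Good (Phi V4.P V4.D 1 1) ⟨7, 111, 5, 17, 3, 7, 2, 0, 4, 0⟩ :=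
  out_sound (S := T4.ds_pp) T4.ok_pp (w := 80) (j := 3) (by decide +kernel)
theorem L01540 : Good (Phi V4.P V4.D 1 1) ⟨6, 54, 5, 16, 3, 7, 2, 1, 4, 0⟩ :=
  leaf_sound (S := T4.ds_pp) T4.ok_pp (w := 208) (c := ⟨⟨.negSucc 920, .negSucc 781, .ofNat 205, .ofNat 1048, .negSucc 1255, .negSucc 2186⟩, ⟨.negSucc 447, .negSucc 380, .ofNat 35, .ofNat 562, .negSucc 671, .negSucc 1161⟩, ⟨.ofNat 1422, .ofNat 555, .negSucc 132, .negSucc 756, .ofNat 461, .ofNat 1005⟩, ⟨.negSucc 2178, .negSucc 1345, .ofNat 333, .ofNat 1524, .negSucc 1958, .negSucc 3637⟩, ⟨.ofNat 1442, .ofNat 351, .negSucc 93, .ofNat 145, .ofNat 76, .ofNat 553⟩, .ofNat 1628, .negSucc 2452, .ofNat 0, .negSucc 2452, .ofNat 4801, .ofNat 0, .ofNat 153, .ofNat 611, .negSucc 1015, .ofNat 0, .ofNat 339, .negSucc 525, .ofNat 0, .ofNat 0, .ofNat 789, .ofNat 486, .ofNat 0, .ofNat 0, .ofNat 54339356149885345619519314329600,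 .ofNat 0, .ofNat 0, .ofNat 0, .ofNat 0, .ofNat 0, .ofNat 0, .ofNat 0, .ofNat 0, .ofNat 0, .ofNat 0, .ofNat 0, .ofNat 4369879553694301456146808543641600, .ofNat 0⟩)
    (by decide +kernel)
theorem L01541 : Good (Phi V4.P V4.D 1 1) ⟨7, 108, 5, 17, 3, 7, 2, 1, 4, 0⟩ :=
  out_sound (S := T4.ds_pp) T4.ok_pp (w := 80) (j := 3) (by decide +kernel)
theorem L01542 : Good (Phi V4.P V4.D 1 1) ⟨8, 218, 6, 34, 3, 7, 2, 1, 4, 0⟩ :=
  leaf_sound (S := T4.ds_pp) T4.ok_pp (w := 216) (c := ⟨⟨.negSucc 956, .negSucc 689, .ofNat 948, .ofNat 1103, .negSucc 1343, .negSucc 1948⟩, ⟨.negSucc 508, .negSucc 369, .ofNat 480, .ofNat 604, .negSucc 733, .negSucc 1060⟩, ⟨.ofNat 1449, .ofNat 473, .negSucc 569, .negSucc 817, .ofNat 509, .ofNat 877⟩, ⟨.negSucc 2269, .negSucc 1123, .ofNat 1492, .ofNat 1631, .negSucc 2095, .negSucc 3274⟩, ⟨.ofNat 1475, .ofNat 157, .negSucc 121,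 .ofNat 83, .ofNat 98, .ofNat 572⟩, .ofNat 6731, .negSucc 11603, .ofNat 0, .negSucc 11603, .ofNat 21231, .ofNat 0, .ofNat 89, .ofNat 625, .negSucc 983, .ofNat 0, .ofNat 349, .negSucc 536, .ofNat 0, .ofNat 0, .ofNat 772, .ofNat 1035, .ofNat 0, .ofNat 0, .ofNat 0, .ofNat 0, .ofNat 0, .ofNat 0, .ofNat 0, .ofNat 0, .ofNat 0, .ofNat 0, .ofNat 0, .ofNat 0, .ofNat 0, .ofNat 0, .ofNat 1544778309525002735281980309504000, .ofNat 0⟩)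
    (by decide +kernel)

end Crest.Agent.R097C4.N4pp
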