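import Crest.Agent.R097.T4

/-!
# Row 97, box cover in dimension n = 4 (generated)
-/

set_option autoImplicit false
set_option Elab.async false
set_option maxHeartbeats 0
set_option maxRecDepth 100000

open Crest.Agent.R097 Crest.Agent.R097.KA


namespace Crest.Agent.R097C4.N4pp

theorem L01543 : Good (Phi V4.P V4.D 1 1) ⟨8, 219, 6, 34, 3, 7, 2, 1, 4, 0⟩ :=
  leaf_sound (S := T4.ds_pp) T4.ok_pp (w := 216) (c := ⟨⟨.negSucc 1289, .negSucc 1065, .ofNat 642, .ofNat 1392, .negSucc 1662, .negSucc 2187⟩, ⟨.negSucc 670, .negSucc 569, .ofNat 302, .ofNat 771, .negSucc 919, .negSucc 1204⟩, ⟨.ofNat 1690, .ofNat 512, .negSucc 254, .negSucc 986, .ofNat 678, .ofNat 1006⟩, ⟨.negSucc 2814, .negSucc 1558, .ofNat 886, .ofNat 2063, .negSucc 2577, .negSucc 3631⟩, ⟨.ofNat 1562, .negSucc 93, .ofNat 139, .ofNat 85, .ofNat 105, .ofNat 571⟩, .ofNat 6430, .negSucc 10972,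 .ofNat 0, .negSucc 10972, .ofNat 19923, .ofNat 0, .ofNat 83, .ofNat 623, .negSucc 1019, .ofNat 0, .ofNat 350, .negSucc 561, .ofNat 0, .ofNat 0, .ofNat 793, .ofNat 953, .ofNat 0, .ofNat 0, .ofNat 0, .ofNat 0, .ofNat 0, .ofNat 0, .ofNat 8264183115956629770376666782105600, .ofNat 0, .ofNat 0, .ofNat 0, .ofNat 4898781303349007744544641384448000, .ofNat 0, .ofNat 0, .ofNat 0, .ofNat 1822209879083023345673107301990400, .ofNat 0⟩)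
    (by decide +kernel)
theorem L01544 : Good (Phi V4.P V4.D 1 1) ⟨8, 218, 6, 35, 3, 7, 2, 1, 4, 0⟩ :=
  out_sound (S := T4.ds_pp) T4.ok_pp (w := 88) (j := 3) (by decide +kernel)
theorem L01545 : Good (Phi V4.P V4.D 1 1) ⟨8, 219, 6, 35, 3, 7, 2, 1, 4, 0⟩ :=
  leaf_sound (S := T4.ds_pp) T4.ok_pp (w := 216) (c := ⟨⟨.negSucc 1585, .ofNat 197, .negSucc 234, .ofNat 1371, .negSucc 1546, .negSucc 2210⟩, ⟨.negSucc 873, .ofNat 115, .negSucc 168, .ofNat 766, .negSucc 862, .negSucc 1229⟩, ⟨.ofNat 1913, .negSucc 121, .ofNat 240, .negSucc 993, .ofNat 616, .ofNat 1014⟩, ⟨.negSucc 3340, .ofNat 332, .negSucc 516, .ofNat 2057, .negSucc 2403, .negSucc 3656⟩, ⟨.ofNat 1673, .negSucc 42, .ofNat 262, .ofNat 30, .ofNat 115, .ofNat 560⟩, .ofNat 7526, .negSucc 12853, .ofNat 0, .negSucc 12853, .ofNat 23141, .ofNat 0, .ofNat 75, .ofNat 622, .negSucc 1008, .ofNat 0, .ofNat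 351, .negSucc 560, .ofNat 0, .ofNat 0, .ofNat 785, .ofNat 690, .ofNat 0, .ofNat 0, .ofNat 0, .ofNat 0, .ofNat 0, .ofNat 0, .ofNat 0, .ofNat 0, .ofNat 0, .ofNat 0, .ofNat 0, .ofNat 0, .ofNat 0, .ofNat 0, .ofNat 1889442339620001998445335701094400, .ofNat 0⟩)
    (by decide +kernel)
theorem L01546 : Good (Phi V4.P V4.D 1 1) ⟨6, 55, 5, 16, 3, 7, 2, 1, 4, 0⟩ :=
  out_sound (S := T4.ds_pp) T4.ok_pp (w := 72) (j := 3) (by decide +kernel)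
theorem L01547 : Good (Phi V4.P V4.D 1 1) ⟨7, 110, 6, 34, 3, 7, 2, 1, 4, 0⟩ :=
  out_sound (S := T4.ds_pp) T4.ok_pp (w := 80) (j := 3) (by decide +kernel)
theorem L01548 : Good (Phi V4.P V4.D 1 1) ⟨8, 220, 6, 35, 3, 7, 2, 1, 5, 0⟩ :=
  leaf_sound (S := T4.ds_pp) T4.ok_pp (w := 224) (c := ⟨⟨.negSucc 1317, .ofNat 454, .negSucc 579, .ofNat 1846, .negSucc 1941, .negSucc 1649⟩, ⟨.negSucc 708, .ofNat 265, .negSucc 369, .ofNat 1042, .negSucc 1094, .negSucc 929⟩, ⟨.ofNat 1739, .negSucc 308, .ofNat 422, .negSucc 1224, .ofNat 821, .ofNat 801⟩, ⟨.negSucc 2888, .ofNat 772, .negSucc 1008, .ofNat 2780, .negSucc 3021, .negSucc 2646⟩, ⟨.ofNat 1602, .negSucc 148, .ofNat 226, .ofNat 8, .ofNat 163, .ofNat 280⟩, .ofNat 4711, .negSucc 7797, .ofNat 0, .negSucc 7797, .ofNat 14040, .ofNat 0, .ofNat 86, .ofNat 648, .negSucc 1257, .ofNat 0, .ofNat 369, .negSucc 702, .ofNat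 0, .ofNat 0, .ofNat 902, .ofNat 918, .ofNat 0, .ofNat 0, .ofNat 0, .ofNat 0, .ofNat 0, .ofNat 0, .ofNat 0, .ofNat 0, .ofNat 0, .ofNat 0, .ofNat 0, .ofNat 0, .ofNat 0, .ofNat 0, .ofNat 0, .ofNat 0⟩)
    (by decide +kernel)
theorem L01549 : Good (Phi V4.P V4.D 1 1) ⟨8, 220, 6, 35, 3, 7, 2, 1, 5, 1⟩ :=
  leaf_sound (S := T4.ds_pp) T4.ok_pp (w := 224) (c := ⟨⟨.negSucc 2891, .ofNat 213, .negSucc 592, .ofNat 1301, .negSucc 1015, .negSucc 444⟩, ⟨.negSucc 1591, .ofNat 124, .negSucc 379, .ofNat 734, .negSucc 571, .negSucc 248⟩, ⟨.ofNat 2557, .negSucc 116, .ofNat 356, .negSucc 1010, .ofNat 321, .ofNat 122⟩, ⟨.negSucc 5476, .ofNat 325, .negSucc 950, .ofNat 1995, .negSucc 1584, .negSucc 818⟩, ⟨.ofNat 1980, .ofNat 13, .ofNat 82, .negSucc 55, .ofNat 92, .ofNat 261⟩, .ofNat 4690, .negSucc 7761, .ofNat 0, .negSucc 7761, .ofNat 13980, .ofNat 0, .ofNat 85, .ofNat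 618, .negSucc 960, .ofNat 0, .ofNat 352, .negSucc 535, .ofNat 0, .ofNat 0, .ofNat 770, .ofNat 2491, .ofNat 0, .ofNat 0, .ofNat 0, .ofNat 0, .ofNat 0, .ofNat 0, .ofNat 0, .ofNat 0, .ofNat 0, .ofNat 0, .ofNat 0, .ofNat 0, .ofNat 0, .ofNat 0, .ofNat 24012698857757148285671316022886400, .ofNat 0⟩)
    (by decide +kernel)
theorem L01550 : Good (Phi V4.P V4.D 1 1) ⟨8, 221, 6, 35, 3, 7, 2, 1, 4, 0⟩ :=
  out_sound (S := T4.ds_pp) T4.ok_pp (w := 88) (j := 3) (by decide +kernel)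
theorem L01551 : Good (Phi V4.P V4.D 1 1) ⟨7, 111, 5, 17, 3, 7, 2, 1, 4, 0⟩ :=
  out_sound (S := T4.ds_pp) T4.ok_pp (w := 80) (j := 3) (by decide +kernel)
theorem L01552 : Good (Phi V4.P V4.D 1 1) ⟨3, 7, 4, 8, 3, 7, 1, 0, 4, 0⟩ :=
  out_sound (S := T4.ds_pp) T4.ok_pp (w := 48) (j := 3) (by decide +kernel)
theorem L01553 : Good (Phi V4.P V4.D 1 1) ⟨4, 12, 4, 9, 3, 7, 1, 0, 4, 0⟩ :=
  out_sound (S := T4.ds_pp) T4.ok_pp (w := 56) (j := 3) (by decide +kernel)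
theorem L01554 : Good (Phi V4.P V4.D 1 1) ⟨5, 26, 4, 9, 3, 7, 3, 0, 5, 0⟩ :=
  out_sound (S := T4.ds_pp) T4.ok_pp (w := 64) (j := 3) (by decide +kernel)
theorem L01555 : Good (Phi V4.P V4.D 1 1) ⟨6, 54, 4, 9, 3, 7, 3, 0, 5, 0⟩ :=
  out_sound (S := T4.ds_pp) T4.ok_pp (w := 72) (j := 3) (by decide +kernel)
theorem L01556 : Good (Phi V4.P V4.D 1 1) ⟨8, 220, 6, 36, 4, 14, 4, 0, 5, 0⟩ :=
  leaf_sound (S := T4.ds_pp) T4.ok_pp (w := 240) (c := ⟨⟨.ofNat 2390, .ofNat 683, .ofNat 441, .ofNat 1596, .negSucc 1113, .negSucc 4888⟩, ⟨.ofNat 1357, .ofNat 397, .ofNat 248, .ofNat 908, .negSucc 632, .negSucc 2779⟩, ⟨.negSucc 366, .negSucc 306, .negSucc 320, .negSucc 910, .ofNat 597, .ofNat 2785⟩, ⟨.ofNat 2934, .ofNat 946, .ofNat 670, .ofNat 2326, .negSucc 1698, .negSucc 7555⟩, ⟨.ofNat 1188, .ofNat 127, .negSucc 31, .ofNat 133, .ofNat 40, .ofNat 344⟩, .ofNat 11698,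 .negSucc 19985, .ofNat 0, .negSucc 19985, .ofNat 35303, .ofNat 0, .ofNat 25, .ofNat 287, .negSucc 668, .ofNat 0, .ofNat 164, .negSucc 379, .ofNat 0, .ofNat 0, .ofNat 463, .ofNat 4896, .ofNat 0, .ofNat 0, .ofNat 0, .ofNat 0, .ofNat 0, .ofNat 0, .ofNat 0, .ofNat 0, .ofNat 0, .ofNat 0, .ofNat 1047598338876187338441126945428078592000, .ofNat 0, .ofNat 0, .ofNat 0, .ofNat 386164535393637298600118602932053606400, .ofNat 0⟩)
    (by decide +kernel)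
theorem L01557 : Good (Phi V4.P V4.D 1 1) ⟨8, 220, 6, 36, 4, 14, 4, 1, 5, 0⟩ :=
  leaf_sound (S := T4.ds_pp) T4.ok_pp (w := 240) (c := ⟨⟨.ofNat 2640, .negSucc 1149, .ofNat 619, .ofNat 1325, .negSucc 869, .negSucc 3899⟩, ⟨.ofNat 1505, .negSucc 652, .ofNat 343, .ofNat 754, .negSucc 493, .negSucc 2214⟩, ⟨.negSucc 434, .ofNat 623, .negSucc 290, .negSucc 794, .ofNat 444, .ofNat 2219⟩, ⟨.ofNat 3170, .negSucc 1664, .ofNat 852, .ofNat 1947, .negSucc 1338, .negSucc 6118⟩, ⟨.ofNat 1426, .negSucc 126, .ofNat 121, .ofNat 83, .ofNat 49, .ofNat 434⟩, .ofNat 11636, .negSucc 19881, .ofNat 0, .negSucc 19881, .ofNat 35129, .ofNat 0, .ofNat 26, .ofNat 290, .negSucc 668, .ofNat 0, .ofNat 165, .negSucc 378, .ofNat 0, .ofNat 0, .ofNat 471, .ofNat 2709, .ofNat 0, .ofNat 0, .ofNat 0, .ofNat 0, .ofNat 0, .ofNat 0, .ofNat 0, .ofNat 0, .ofNat 0, .ofNat 0, .ofNat 0, .ofNat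 0, .ofNat 0, .ofNat 0, .ofNat 150152978613297704562653037023408947200, .ofNat 0⟩)
    (by decide +kernel)
theorem L01558 : Good (Phi V4.P V4.D 1 1) ⟨10, 884, 8, 144, 4, 14, 5, 0, 5, 0⟩ :=
  leaf_sound (S := T4.ds_pp) T4.ok_pp (w := 256) (c := ⟨⟨.ofNat 3090, .negSucc 238, .negSucc 43, .ofNat 1764, .negSucc 421, .negSucc 5176⟩, ⟨.ofNat 1767, .negSucc 133, .negSucc 26, .ofNat 1006, .negSucc 240, .negSucc 2949⟩, ⟨.negSucc 629, .ofNat 137, .negSucc 63, .negSucc 986, .ofNat 228, .ofNat 2963⟩, ⟨.ofNat 3819, .negSucc 358, .ofNat 29, .ofNat 2564, .negSucc 648, .negSucc 7976⟩, ⟨.ofNat 1460, .negSucc 6, .negSucc 170, .ofNat 158, .ofNat 24, .ofNat 329⟩, .ofNat 25849, .negSucc 44691, .ofNat 0, .negSucc 44691, .ofNat 78438, .ofNat 0, .ofNat 20, .ofNat 286, .negSucc 672, .ofNat 0, .ofNat 163, .negSucc 382, .ofNat 0, .ofNat 0, .ofNat 465, .ofNat 10586, .ofNat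 0, .ofNat 0, .ofNat 0, .ofNat 0, .ofNat 0, .ofNat 0, .ofNat 590413389010525272913789065820145241292800, .ofNat 0, .ofNat 0, .ofNat 0, .ofNat 0, .ofNat 0, .ofNat 0, .ofNat 0, .ofNat 85226413654407941367075240771282429542400, .ofNat 0⟩)
    (by decide +kernel)
theorem L01559 : Good (Phi V4.P V4.D 1 1) ⟨10, 884, 8, 144, 4, 14, 5, 1, 5, 0⟩ :=
  leaf_sound (S := T4.ds_pp) T4.ok_pp (w := 256) (c := ⟨⟨.ofNat 5991, .ofNat 564, .negSucc 3478, .ofNat 1270, .negSucc 463, .negSucc 4600⟩, ⟨.ofNat 3419, .ofNat 324, .negSucc 1983, .ofNat 724, .negSucc 263, .negSucc 2621⟩, ⟨.negSucc 2553, .negSucc 333, .ofNat 2154, .negSucc 709, .ofNat 242, .ofNat 2636⟩, ⟨.ofNat 8261, .ofNat 819, .negSucc 5222, .ofNat 1844, .negSucc 707, .negSucc 7153⟩, ⟨.ofNat 1325, .ofNat 50, .negSucc 25, .ofNat 116, .ofNat 17, .ofNat 403⟩, .ofNat 12433, .negSucc 21233, .ofNat 0, .negSucc 21233,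 .ofNat 37419, .ofNat 0, .ofNat 24, .ofNat 289, .negSucc 667, .ofNat 0, .ofNat 165, .negSucc 379, .ofNat 0, .ofNat 0, .ofNat 464, .ofNat 3330, .ofNat 0, .ofNat 0, .ofNat 0, .ofNat 0, .ofNat 0, .ofNat 0, .ofNat 0, .ofNat 0, .ofNat 0, .ofNat 0, .ofNat 0, .ofNat 0, .ofNat 0, .ofNat 0, .ofNat 183974365699622507818702871972375062118400, .ofNat 0⟩)
    (by decide +kernel)
theorem L01560 : Good (Phi V4.P V4.D 1 1) ⟨10, 884, 8, 144, 4, 14, 4, 1, 5, 0⟩ :=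
  leaf_sound (S := T4.ds_pp) T4.ok_pp (w := 248) (c := ⟨⟨.ofNat 1046, .ofNat 1268, .ofNat 929, .ofNat 1160, .negSucc 927, .negSucc 4173⟩, ⟨.ofNat 603, .ofNat 725, .ofNat 527, .ofNat 661, .negSucc 528, .negSucc 2377⟩, ⟨.ofNat 406, .negSucc 655, .negSucc 483, .negSucc 697, .ofNat 498, .ofNat 2362⟩, ⟨.ofNat 894, .ofNat 1844, .ofNat 1318, .ofNat 1706, .negSucc 1438, .negSucc 6521⟩, ⟨.ofNat 1197, .ofNat 111, .ofNat 138, .ofNat 68, .ofNat 74, .ofNat 424⟩, .ofNat 20149, .negSucc 34725, .ofNat 0, .negSucc 34725, .ofNat 61012, .ofNat 0, .ofNat 21, .ofNat 293, .negSucc 674, .ofNat 0, .ofNat 168, .negSucc 383, .ofNat 0, .ofNat 0, .ofNat 471, .ofNat 3618, .ofNat 0, .ofNat 0, .ofNat 0, .ofNat 0, .ofNat 0, .ofNat 0, .ofNat 71676796312785659266040945216635640217600, .ofNat 0, .ofNat 0, .ofNat 0, .ofNat 30016748074092415494204952492600039833600, .ofNat 0, .ofNat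 0, .ofNat 0, .ofNat 6012182749481764063984447306538051174400, .ofNat 0⟩)
    (by decide +kernel)
theorem L01561 : Good (Phi V4.P V4.D 1 1) ⟨10, 884, 8, 145, 4, 14, 4, 0, 5, 0⟩ :=
  leaf_sound (S := T4.ds_pp) T4.ok_pp (w := 248) (c := ⟨⟨.ofNat 3314, .ofNat 22, .ofNat 46, .ofNat 1660, .negSucc 1186, .negSucc 5214⟩, ⟨.ofNat 1897, .ofNat 14, .ofNat 25, .ofNat 949, .negSucc 677, .negSucc 2978⟩, ⟨.negSucc 820, .ofNat 63, .negSucc 103, .negSucc 953, .ofNat 642, .ofNat 2975⟩, ⟨.ofNat 4234, .negSucc 30, .ofNat 130, .ofNat 2422, .negSucc 1806, .negSucc 8031⟩, ⟨.ofNat 1318, .ofNat 110, .negSucc 111, .ofNat 131, .ofNat 39, .ofNat 332⟩, .ofNat 13603, .negSucc 23242, .ofNat 0, .negSucc 23242, .ofNat 40866, .ofNat 0, .ofNat 23, .ofNat 288, .negSucc 675, .ofNat 0, .ofNat 165, .negSucc 385, .ofNat 0, .ofNat 0, .ofNat 467, .ofNat 6219, .ofNat 0, .ofNat 0, .ofNat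 0, .ofNat 0, .ofNat 0, .ofNat 0, .ofNat 0, .ofNat 0, .ofNat 0, .ofNat 0, .ofNat 0, .ofNat 0, .ofNat 0, .ofNat 0, .ofNat 113305290195582489178889536965024153600, .ofNat 0⟩)
    (by decide +kernel)
theorem L01562 : Good (Phi V4.P V4.D 1 1) ⟨10, 884, 8, 145, 4, 14, 4, 1, 5, 0⟩ :=
  leaf_sound (S := T4.ds_pp) T4.ok_pp (w := 248) (c := ⟨⟨.ofNat 1867, .negSucc 1065, .ofNat 903, .ofNat 1348, .negSucc 771, .negSucc 4073⟩, ⟨.ofNat 1071, .negSucc 604, .ofNat 508, .ofNat 770, .negSucc 439, .negSucc 2326⟩, ⟨.negSucc 14, .ofNat 519, .negSucc 408, .negSucc 799, .ofNat 393, .ofNat 2307⟩, ⟨.ofNat 2046, .negSucc 1513, .ofNat 1265, .ofNat 1976, .negSucc 1199, .negSucc 6371⟩, ⟨.ofNat 1336, .negSucc 162, .ofNat 161, .ofNat 89, .ofNat 67, .ofNat 428⟩, .ofNat 5622, .negSucc 9311, .ofNat 0, .negSucc 9311, .ofNat 16543, .ofNat 0, .ofNat 34, .ofNat 292, .negSucc 678,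 .ofNat 0, .ofNat 167, .negSucc 383, .ofNat 0, .ofNat 0, .ofNat 475, .ofNat 1943, .ofNat 0, .ofNat 0, .ofNat 0, .ofNat 0, .ofNat 0, .ofNat 0, .ofNat 0, .ofNat 0, .ofNat 0, .ofNat 0, .ofNat 0, .ofNat 0, .ofNat 0, .ofNat 0, .ofNat 0, .ofNat 0⟩)
    (by decide +kernel)
theorem L01563 : Good (Phi V4.P V4.D 1 1) ⟨10, 885, 7, 72, 4, 14, 5, 0, 5, 0⟩ :=
  leaf_sound (S := T4.ds_pp) T4.ok_pp (w := 256) (c := ⟨⟨.ofNat 4319, .ofNat 1306, .negSucc 1293, .ofNat 1672, .negSucc 264, .negSucc 5215⟩, ⟨.ofNat 2476, .ofNat 749, .negSucc 741, .ofNat 958, .negSucc 151, .negSucc 2985⟩, ⟨.negSucc 1388, .negSucc 816, .ofNat 725, .negSucc 945, .ofNat 122, .ofNat 2987⟩, ⟨.ofNat 5643, .ofNat 1977, .negSucc 1825, .ofNat 2437, .negSucc 413, .negSucc 8051⟩, ⟨.ofNat 1484, .negSucc 25, .negSucc 209, .ofNat 132, .ofNat 28, .ofNat 371⟩, .ofNat 26829, .negSucc 46249, .ofNat 0, .negSucc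 46249, .ofNat 80889, .ofNat 0, .ofNat 17, .ofNat 288, .negSucc 679, .ofNat 0, .ofNat 165, .negSucc 388, .ofNat 0, .ofNat 0, .ofNat 468, .ofNat 10390, .ofNat 0, .ofNat 0, .ofNat 0, .ofNat 0, .ofNat 0, .ofNat 0, .ofNat 111257969626138647148774740711080932147200, .ofNat 0, .ofNat 0, .ofNat 0, .ofNat 0, .ofNat 0, .ofNat 0, .ofNat 0, .ofNat 49322293158326761481729354117547452006400, .ofNat 0⟩)
    (by decide +kernel)
theorem L01564 : Good (Phi V4.P V4.D 1 1) ⟨10, 885, 7, 72, 4, 14, 5, 1, 5, 0⟩ :=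
  leaf_sound (S := T4.ds_pp) T4.ok_pp (w := 256) (c := ⟨⟨.ofNat 7509, .negSucc 2448, .negSucc 4723, .ofNat 1529, .negSucc 635, .negSucc 5021⟩, ⟨.ofNat 4304, .negSucc 1401, .negSucc 2706, .ofNat 876, .negSucc 363, .negSucc 2874⟩, ⟨.negSucc 3051, .ofNat 1266, .ofNat 2524, .negSucc 888, .ofNat 344, .ofNat 2861⟩, ⟨.ofNat 10154, .negSucc 3507, .negSucc 6729, .ofNat 2235, .negSucc 962, .negSucc 7759⟩, ⟨.ofNat 1980, .negSucc 303, .negSucc 647, .ofNat 111, .ofNat 12, .ofNat 372⟩, .ofNat 37895, .negSucc 65535, .ofNat 0, .negSucc 65535, .ofNat 114498, .ofNat 0, .ofNat 16, .ofNat 289, .negSucc 673, .ofNat 0, .ofNat 166, .negSucc 385, .ofNat 0, .ofNat 0, .ofNat 468, .ofNat 4155, .ofNat 0, .ofNat 0, .ofNat 0, .ofNat 0, .ofNat 0, .ofNat 0, .ofNat 6394741658802608931979855410728691302400, .ofNat 0, .ofNat 0, .ofNat 0, .ofNat 155462850646797845949658588417998245068800,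 .ofNat 0, .ofNat 0, .ofNat 0, .ofNat 22598379051777770184157826769140632780800, .ofNat 0⟩)
    (by decide +kernel)
theorem L01565 : Good (Phi V4.P V4.D 1 1) ⟨10, 885, 7, 72, 4, 14, 4, 1, 5, 0⟩ :=
  leaf_sound (S := T4.ds_pp) T4.ok_pp (w := 248) (c := ⟨⟨.ofNat 4025, .negSucc 255, .negSucc 2112, .ofNat 1238, .negSucc 932, .negSucc 4193⟩, ⟨.ofNat 2309, .negSucc 145, .negSucc 1211, .ofNat 709, .negSucc 533, .negSucc 2400⟩, ⟨.negSucc 1169, .ofNat 161, .ofNat 1118, .negSucc 739, .ofNat 495, .ofNat 2405⟩, ⟨.ofNat 5182, .negSucc 450, .negSucc 3061, .ofNat 1826, .negSucc 1441, .negSucc 6572⟩, ⟨.ofNat 1518, .ofNat 113, .negSucc 200, .ofNat 60, .ofNat 70, .ofNat 470⟩, .ofNat 37861, .negSucc 65474, .ofNat 0, .negSucc 65474, .ofNat 114393, .ofNat 0, .ofNat 16, .ofNat 291, .negSucc 687, .ofNat 0, .ofNat 167, .negSucc 393, .ofNat 0, .ofNat 0, .ofNat 481, .ofNat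 1699, .ofNat 0, .ofNat 0, .ofNat 0, .ofNat 0, .ofNat 0, .ofNat 0, .ofNat 1134128262393237627409876880578943385600, .ofNat 0, .ofNat 0, .ofNat 0, .ofNat 0, .ofNat 0, .ofNat 0, .ofNat 0, .ofNat 0, .ofNat 0⟩)
    (by decide +kernel)
theorem L01566 : Good (Phi V4.P V4.D 1 1) ⟨9, 443, 7, 72, 4, 14, 3, 0, 5, 0⟩ :=
  out_sound (S := T4.ds_pp) T4.ok_pp (w := 96) (j := 3) (by decide +kernel)
theorem L01567 : Good (Phi V4.P V4.D 1 1) ⟨8, 221, 7, 73, 4, 14, 3, 0, 6, 0⟩ :=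
  leaf_sound (S := T4.ds_pp) T4.ok_pp (w := 240) (c := ⟨⟨.ofNat 3737, .negSucc 1348, .ofNat 773, .ofNat 2246, .negSucc 2498, .negSucc 3342⟩, ⟨.ofNat 2147, .negSucc 772, .ofNat 449, .ofNat 1291, .negSucc 1436, .negSucc 1921⟩, ⟨.negSucc 1096, .ofNat 751, .negSucc 434, .negSucc 1255, .ofNat 1364, .ofNat 1953⟩, ⟨.ofNat 4854, .negSucc 1929, .ofNat 1119, .ofNat 3274, .negSucc 3797, .negSucc 5121⟩, ⟨.ofNat 1330, .negSucc 175, .ofNat 56, .ofNat 173, .ofNat 79, .ofNat 177⟩, .ofNat 6179, .negSucc 10237, .ofNat 0, .negSucc 10237, .ofNat 18074, .ofNat 0, .ofNat 31, .ofNat 290, .negSucc 804, .ofNat 0, .ofNat 167, .negSucc 458, .ofNat 0, .ofNat 0, .ofNat 542, .ofNat 2377, .ofNat 1565086836884513137454810195026035194814529536000, .ofNat 0, .ofNat 19574662549124317606323947599350988800, .ofNat 0, .ofNat 0, .ofNat 0, .ofNat 0, .ofNat 0, .ofNat 0, .ofNat 0, .ofNat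 0, .ofNat 0, .ofNat 0, .ofNat 0, .ofNat 1752249069600606756553769057762515353600, .ofNat 0⟩)
    (by decide +kernel)
theorem L01568 : Good (Phi V4.P V4.D 1 1) ⟨8, 221, 7, 73, 4, 14, 3, 0, 6, 1⟩ :=
  leaf_sound (S := T4.ds_pp) T4.ok_pp (w := 240) (c := ⟨⟨.ofNat 493, .negSucc 574, .ofNat 217, .ofNat 986, .negSucc 1582, .negSucc 1571⟩, ⟨.ofNat 290, .negSucc 337, .ofNat 122, .ofNat 567, .negSucc 909, .negSucc 903⟩, ⟨.ofNat 832, .ofNat 313, .negSucc 97, .negSucc 623, .ofNat 822, .ofNat 873⟩, ⟨.negSucc 107, .negSucc 863, .ofNat 309, .ofNat 1471, .negSucc 2470, .negSucc 2492⟩, ⟨.ofNat 1481, .ofNat 2, .ofNat 18, .ofNat 16, .ofNat 165, .ofNat 230⟩, .ofNat 6190, .negSucc 10256, .ofNat 0, .negSucc 10256, .ofNat 18105, .ofNat 0, .ofNat 31, .ofNat 289, .negSucc 644, .ofNat 0, .ofNat 166, .negSucc 367, .ofNat 0, .ofNat 0, .ofNat 454, .ofNat 5486, .ofNat 0,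 .ofNat 0, .ofNat 0, .ofNat 0, .ofNat 0, .ofNat 0, .ofNat 0, .ofNat 0, .ofNat 0, .ofNat 0, .ofNat 0, .ofNat 0, .ofNat 0, .ofNat 0, .ofNat 1863726587081470025702336630399120179200, .ofNat 0⟩)
    (by decide +kernel)
theorem L01569 : Good (Phi V4.P V4.D 1 1) ⟨8, 220, 6, 37, 4, 14, 3, 0, 5, 0⟩ :=
  out_sound (S := T4.ds_pp) T4.ok_pp (w := 88) (j := 3) (by decide +kernel)
theorem L01570 : Good (Phi V4.P V4.D 1 1) ⟨9, 442, 7, 74, 4, 14, 3, 0, 5, 0⟩ :=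
  out_sound (S := T4.ds_pp) T4.ok_pp (w := 96) (j := 3) (by decide +kernel)
theorem L01571 : Good (Phi V4.P V4.D 1 1) ⟨10, 886, 8, 148, 4, 14, 3, 0, 5, 0⟩ :=
  out_sound (S := T4.ds_pp) T4.ok_pp (w := 104) (j := 3) (by decide +kernel)
theorem L01572 : Good (Phi V4.P V4.D 1 1) ⟨10, 887, 8, 148, 4, 14, 3, 0, 5, 0⟩ :=
  out_sound (S := T4.ds_pp) T4.ok_pp (w := 32) (j := 4) (by decide +kernel)
theorem L01573 : Good (Phi V4.P V4.D 1 1) ⟨9, 443, 8, 149, 4, 14, 3, 0, 5, 0⟩ :=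
  out_sound (S := T4.ds_pp) T4.ok_pp (w := 96) (j := 3) (by decide +kernel)
theorem L01574 : Good (Phi V4.P V4.D 1 1) ⟨8, 221, 7, 75, 4, 14, 3, 0, 5, 0⟩ :=
  out_sound (S := T4.ds_pp) T4.ok_pp (w := 88) (j := 3) (by decide +kernel)
theorem L01575 : Good (Phi V4.P V4.D 1 1) ⟨8, 220, 6, 36, 4, 15, 3, 0, 5, 0⟩ :=
  leaf_sound (S := T4.ds_pp) T4.ok_pp (w := 232) (c := ⟨⟨.ofNat 2959, .ofNat 2259, .negSucc 1898, .negSucc 195, .negSucc 1974, .negSucc 4600⟩, ⟨.ofNat 1686, .ofNat 1286, .negSucc 1072, .negSucc 109, .negSucc 1123, .negSucc 2616⟩, ⟨.negSucc 409, .negSucc 1393, .ofNat 1206, .ofNat 190, .ofNat 975, .ofNat 2417⟩, ⟨.ofNat 3501, .ofNat 3345, .negSucc 2874, .negSucc 472, .negSucc 2936, .negSucc 6861⟩, ⟨.ofNat 1693, .ofNat 85, .negSucc 10, .ofNat 314, .negSucc 64, .negSucc 114⟩, .ofNat 5258, .negSucc 8707, .ofNat 0, .negSucc 8707, .ofNat 15545,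 .ofNat 0, .ofNat 37, .ofNat 307, .negSucc 574, .ofNat 0, .ofNat 175, .negSucc 324, .ofNat 0, .ofNat 0, .ofNat 389, .ofNat 1444, .ofNat 0, .ofNat 0, .ofNat 2702684745799469927233540239812198400, .ofNat 0, .ofNat 0, .ofNat 0, .ofNat 0, .ofNat 0, .ofNat 0, .ofNat 0, .ofNat 0, .ofNat 0, .ofNat 0, .ofNat 0, .ofNat 45739322572795875221436956077247692800, .ofNat 0⟩)
    (by decide +kernel)
theorem L01576 : Good (Phi V4.P V4.D 1 1) ⟨8, 221, 6, 36, 4, 15, 3, 0, 6, 0⟩ :=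
  leaf_sound (S := T4.ds_pp) T4.ok_pp (w := 240) (c := ⟨⟨.ofNat 4944, .negSucc 428, .ofNat 838, .negSucc 707, .negSucc 2251, .negSucc 3088⟩, ⟨.ofNat 2831, .negSucc 244, .ofNat 498, .negSucc 405, .negSucc 1292, .negSucc 1775⟩, ⟨.negSucc 1631, .ofNat 252, .negSucc 454, .ofNat 534, .ofNat 1120, .ofNat 1656⟩, ⟨.ofNat 6450, .negSucc 634, .ofNat 1194, .negSucc 1330, .negSucc 3310, .negSucc 4540⟩, ⟨.ofNat 1733, .negSucc 37, .ofNat 74, .ofNat 467, .negSucc 124, .negSucc 169⟩, .ofNat 6013, .negSucc 9962, .ofNat 0, .negSucc 9962, .ofNat 17617, .ofNat 0, .ofNat 33, .ofNat 310, .negSucc 665, .ofNat 0, .ofNat 178, .negSucc 379, .ofNat 0, .ofNat 0, .ofNat 433, .ofNat 1515, .ofNat 0, .ofNat 0, .ofNat 0, .ofNat 0, .ofNat 0, .ofNat 0, .ofNat 0, .ofNat 0, .ofNat 0, .ofNat 0, .ofNat 0, .ofNat 0, .ofNat 0, .ofNat 0, .ofNat 0, .ofNat 0⟩)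
    (by decide +kernel)
theorem L01577 : Good (Phi V4.P V4.D 1 1) ⟨8, 221, 6, 36, 4, 15, 3, 0, 6, 1⟩ :=
  leaf_sound (S := T4.ds_pp) T4.ok_pp (w := 232) (c := ⟨⟨.ofNat 1366, .negSucc 180, .ofNat 197, .ofNat 590, .negSucc 1447, .negSucc 1621⟩, ⟨.ofNat 792, .negSucc 93, .ofNat 98, .ofNat 339, .negSucc 830, .negSucc 929⟩, ⟨.ofNat 351, .ofNat 127, .negSucc 112, .negSucc 307, .ofNat 669, .ofNat 810⟩, ⟨.ofNat 1121, .negSucc 285, .ofNat 291, .ofNat 755, .negSucc 2196, .negSucc 2473⟩, ⟨.ofNat 1637, .negSucc 2, .ofNat 2, .ofNat 229, .ofNat 41, .ofNat 65⟩, .ofNat 2257, .negSucc 3439, .ofNat 0, .negSucc 3439, .ofNat 6267, .ofNat 0, .ofNat 56, .ofNat 310, .negSucc 565, .ofNat 0, .ofNat 177, .negSucc 317, .ofNat 0, .ofNat 0, .ofNat 383, .ofNat 4975, .ofNat 0, .ofNat 0, .ofNat 0, .ofNat 0, .ofNat 0, .ofNat 0, .ofNat 0, .ofNat 0, .ofNat 0, .ofNat 0, .ofNat 0,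 .ofNat 0, .ofNat 3421642460220045126197931165596906226663083212800, .ofNat 0, .ofNat 241379104362590379031923463860466483200, .ofNat 0⟩)
    (by decide +kernel)
theorem L01578 : Good (Phi V4.P V4.D 1 1) ⟨8, 220, 6, 37, 4, 15, 3, 0, 5, 0⟩ :=
  out_sound (S := T4.ds_pp) T4.ok_pp (w := 88) (j := 3) (by decide +kernel)
theorem L01579 : Good (Phi V4.P V4.D 1 1) ⟨9, 442, 7, 74, 4, 15, 3, 0, 5, 0⟩ :=
  out_sound (S := T4.ds_pp) T4.ok_pp (w := 96) (j := 3) (by decide +kernel)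
theorem L01580 : Good (Phi V4.P V4.D 1 1) ⟨10, 886, 8, 148, 4, 15, 3, 0, 5, 0⟩ :=
  out_sound (S := T4.ds_pp) T4.ok_pp (w := 104) (j := 3) (by decide +kernel)
theorem L01581 : Good (Phi V4.P V4.D 1 1) ⟨10, 887, 8, 148, 4, 15, 3, 0, 5, 0⟩ :=
  out_sound (S := T4.ds_pp) T4.ok_pp (w := 32) (j := 4) (by decide +kernel)
theorem L01582 : Good (Phi V4.P V4.D 1 1) ⟨9, 443, 8, 149, 4, 15, 3, 0, 5, 0⟩ :=
  out_sound (S := T4.ds_pp) T4.ok_pp (w := 96) (j := 3) (by decide +kernel)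
theorem L01583 : Good (Phi V4.P V4.D 1 1) ⟨8, 221, 7, 75, 4, 15, 3, 0, 5, 0⟩ :=
  out_sound (S := T4.ds_pp) T4.ok_pp (w := 88) (j := 3) (by decide +kernel)
theorem L01584 : Good (Phi V4.P V4.D 1 1) ⟨7, 111, 5, 18, 3, 7, 3, 0, 5, 0⟩ :=
  out_sound (S := T4.ds_pp) T4.ok_pp (w := 24) (j := 4) (by decide +kernel)
theorem L01585 : Good (Phi V4.P V4.D 1 1) ⟨7, 110, 5, 19, 3, 7, 3, 0, 5, 0⟩ :=
  out_sound (S := T4.ds_pp) T4.ok_pp (w := 80) (j := 3) (by decide +kernel)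
theorem L01586 : Good (Phi V4.P V4.D 1 1) ⟨7, 111, 5, 19, 3, 7, 3, 0, 5, 0⟩ :=
  out_sound (S := T4.ds_pp) T4.ok_pp (w := 24) (j := 4) (by decide +kernel)
theorem L01587 : Good (Phi V4.P V4.D 1 1) ⟨5, 26, 4, 9, 3, 7, 3, 1, 5, 0⟩ :=
  out_sound (S := T4.ds_pp) T4.ok_pp (w := 64) (j := 3) (by decide +kernel)
theorem L01588 : Good (Phi V4.P V4.D 1 1) ⟨6, 54, 4, 9, 3, 7, 3, 1, 5, 0⟩ :=
  out_sound (S := T4.ds_pp) T4.ok_pp (w := 72) (j := 3) (by decide +kernel)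
theorem L01589 : Good (Phi V4.P V4.D 1 1) ⟨8, 220, 6, 36, 3, 7, 3, 1, 5, 0⟩ :=
  leaf_sound (S := T4.ds_pp) T4.ok_pp (w := 224) (c := ⟨⟨.ofNat 258, .ofNat 387, .negSucc 619, .ofNat 1824, .negSucc 1375, .negSucc 3053⟩, ⟨.ofNat 152, .ofNat 222, .negSucc 364, .ofNat 1038, .negSucc 781, .negSucc 1735⟩, ⟨.ofNat 891, .negSucc 162, .ofNat 292, .negSucc 1078, .ofNat 646, .ofNat 1609⟩, ⟨.negSucc 348, .ofNat 439, .negSucc 796, .ofNat 2594, .negSucc 2095, .negSucc 4745⟩, ⟨.ofNat 1308, .ofNat 242, .negSucc 257, .ofNat 268, .ofNat 43, .ofNat 260⟩, .ofNat 5261, .negSucc 8712, .ofNat 0, .negSucc 8712, .ofNat 15553, .ofNat 0, .ofNat 37, .ofNat 309, .negSucc 633, .ofNat 0, .ofNat 177, .negSucc 357, .ofNat 0, .ofNat 0, .ofNat 439, .ofNat 765, .ofNat 0, .ofNat 0, .ofNat 0, .ofNat 0, .ofNat 0, .ofNat 0, .ofNat 0, .ofNat 0, .ofNat 0, .ofNat 0, .ofNat 0, .ofNat 0,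 .ofNat 0, .ofNat 0, .ofNat 55076081387612870987587099872460800, .ofNat 0⟩)
    (by decide +kernel)
theorem L01590 : Good (Phi V4.P V4.D 1 1) ⟨8, 221, 6, 36, 3, 7, 3, 1, 5, 0⟩ :=
  leaf_sound (S := T4.ds_pp) T4.ok_pp (w := 224) (c := ⟨⟨.ofNat 605, .negSucc 220, .ofNat 134, .ofNat 1899, .negSucc 1422, .negSucc 3126⟩, ⟨.ofNat 357, .negSucc 130, .ofNat 66, .ofNat 1090, .negSucc 815, .negSucc 1792⟩, ⟨.ofNat 695, .ofNat 105, .ofNat 8, .negSucc 1151, .ofNat 699, .ofNat 1692⟩, ⟨.ofNat 113, .negSucc 283, .ofNat 79, .ofNat 2741, .negSucc 2194, .negSucc 4899⟩, ⟨.ofNat 1399, .negSucc 97, .ofNat 203, .ofNat 195, .ofNat 98, .ofNat 352⟩, .ofNat 5909, .negSucc 9789, .ofNat 0, .negSucc 9789, .ofNat 17332, .ofNat 0, .ofNat 34, .ofNat 308, .negSucc 655, .ofNat 0, .ofNat 177, .negSucc 372, .ofNat 0, .ofNat 0, .ofNat 454, .ofNat 325, .ofNat 0, .ofNat 0, .ofNat 0,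 .ofNat 0, .ofNat 0, .ofNat 0, .ofNat 0, .ofNat 0, .ofNat 0, .ofNat 0, .ofNat 0, .ofNat 0, .ofNat 0, .ofNat 0, .ofNat 0, .ofNat 0⟩)
    (by decide +kernel)
theorem L01591 : Good (Phi V4.P V4.D 1 1) ⟨8, 220, 6, 37, 3, 7, 3, 1, 5, 0⟩ :=
  out_sound (S := T4.ds_pp) T4.ok_pp (w := 88) (j := 3) (by decide +kernel)
theorem L01592 : Good (Phi V4.P V4.D 1 1) ⟨9, 442, 7, 74, 3, 7, 3, 1, 5, 0⟩ :=
  out_sound (S := T4.ds_pp) T4.ok_pp (w := 96) (j := 3) (by decide +kernel)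
theorem L01593 : Good (Phi V4.P V4.D 1 1) ⟨10, 886, 8, 148, 3, 7, 3, 1, 5, 0⟩ :=
  out_sound (S := T4.ds_pp) T4.ok_pp (w := 104) (j := 3) (by decide +kernel)
theorem L01594 : Good (Phi V4.P V4.D 1 1) ⟨10, 887, 8, 148, 3, 7, 3, 1, 5, 0⟩ :=
  out_sound (S := T4.ds_pp) T4.ok_pp (w := 32) (j := 4) (by decide +kernel)
theorem L01595 : Good (Phi V4.P V4.D 1 1) ⟨9, 443, 8, 149, 3, 7, 3, 1, 5, 0⟩ :=
  out_sound (S := T4.ds_pp) T4.ok_pp (w := 96) (j := 3) (by decide +kernel)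
theorem L01596 : Good (Phi V4.P V4.D 1 1) ⟨8, 221, 7, 75, 3, 7, 3, 1, 5, 0⟩ :=
  out_sound (S := T4.ds_pp) T4.ok_pp (w := 88) (j := 3) (by decide +kernel)
theorem L01597 : Good (Phi V4.P V4.D 1 1) ⟨7, 111, 5, 18, 3, 7, 3, 1, 5, 0⟩ :=
  out_sound (S := T4.ds_pp) T4.ok_pp (w := 24) (j := 4) (by decide +kernel)
theorem L01598 : Good (Phi V4.P V4.D 1 1) ⟨7, 110, 5, 19, 3, 7, 3, 1, 5, 0⟩ :=
  out_sound (S := T4.ds_pp) T4.ok_pp (w := 80) (j := 3) (by decide +kernel)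
theorem L01599 : Good (Phi V4.P V4.D 1 1) ⟨7, 111, 5, 19, 3, 7, 3, 1, 5, 0⟩ :=
  out_sound (S := T4.ds_pp) T4.ok_pp (w := 24) (j := 4) (by decide +kernel)
theorem L01600 : Good (Phi V4.P V4.D 1 1) ⟨5, 26, 4, 9, 3, 7, 2, 1, 5, 0⟩ :=
  out_sound (S := T4.ds_pp) T4.ok_pp (w := 64) (j := 3) (by decide +kernel)
theorem L01601 : Good (Phi V4.P V4.D 1 1) ⟨6, 54, 4, 9, 3, 7, 2, 1, 5, 0⟩ :=
  out_sound (S := T4.ds_pp) T4.ok_pp (w := 72) (j := 3) (by decide +kernel)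
theorem L01602 : Good (Phi V4.P V4.D 1 1) ⟨7, 110, 5, 18, 4, 14, 2, 1, 6, 0⟩ :=
  leaf_sound (S := T4.ds_pp) T4.ok_pp (w := 232) (c := ⟨⟨.negSucc 1124, .negSucc 85, .negSucc 902, .ofNat 576, .negSucc 2626, .negSucc 886⟩, ⟨.negSucc 609, .negSucc 85, .negSucc 560, .ofNat 333, .negSucc 1503, .negSucc 504⟩, ⟨.ofNat 1609, .ofNat 117, .ofNat 536, .negSucc 457, .ofNat 1263, .ofNat 476⟩, ⟨.negSucc 2577, .negSucc 192, .negSucc 1410, .ofNat 894, .negSucc 4134, .negSucc 1458⟩, ⟨.ofNat 1547, .ofNat 117, .ofNat 94, .negSucc 51, .ofNat 326, .ofNat 218⟩, .ofNat 5747, .negSucc 9520, .ofNat 0, .negSucc 9520, .ofNat 16887, .ofNat 0, .ofNat 74, .ofNat 647, .negSucc 1731, .ofNat 0, .ofNat 372, .negSucc 980, .ofNat 0, .ofNat 0, .ofNat 1192, .ofNat 525, .ofNat 0, .ofNat 0, .ofNat 0, .ofNat 0, .ofNat 0, .ofNat 0, .ofNat 0, .ofNat 0, .ofNat 0, .ofNat 0, .ofNat 0, .ofNat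 0, .ofNat 0, .ofNat 0, .ofNat 380241738414734236259161941068061081600, .ofNat 0⟩)
    (by decide +kernel)
theorem L01603 : Good (Phi V4.P V4.D 1 1) ⟨7, 110, 5, 18, 4, 14, 2, 1, 6, 1⟩ :=
  leaf_sound (S := T4.ds_pp) T4.ok_pp (w := 232) (c := ⟨⟨.negSucc 2434, .negSucc 305, .negSucc 337, .ofNat 335, .negSucc 1648, .negSucc 428⟩, ⟨.negSucc 1352, .negSucc 216, .negSucc 239, .ofNat 192, .negSucc 942, .negSucc 245⟩, ⟨.ofNat 2360, .ofNat 231, .ofNat 203, .negSucc 346, .ofNat 684, .ofNat 188⟩, ⟨.negSucc 4708, .negSucc 521, .negSucc 537, .ofNat 529, .negSucc 2607, .negSucc 738⟩, ⟨.ofNat 1828, .ofNat 119, .ofNat 50, .negSucc 43, .ofNat 227, .ofNat 164⟩, .ofNat 5735, .negSucc 9500, .ofNat 0, .negSucc 9500, .ofNat 16853, .ofNat 0, .ofNat 145, .ofNat 1256, .negSucc 2790, .ofNat 0, .ofNat 722, .negSucc 1580, .ofNat 0, .ofNat 0, .ofNat 2026, .ofNat 3031, .ofNat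 0, .ofNat 0, .ofNat 0, .ofNat 0, .ofNat 0, .ofNat 0, .ofNat 0, .ofNat 0, .ofNat 0, .ofNat 0, .ofNat 0, .ofNat 0, .ofNat 0, .ofNat 0, .ofNat 1865590484626016286399725444204278579200, .ofNat 0⟩)
    (by decide +kernel)
theorem L01604 : Good (Phi V4.P V4.D 1 1) ⟨7, 111, 5, 18, 4, 14, 2, 1, 5, 0⟩ :=
  out_sound (S := T4.ds_pp) T4.ok_pp (w := 24) (j := 4) (by decide +kernel)
theorem L01605 : Good (Phi V4.P V4.D 1 1) ⟨7, 110, 5, 18, 4, 15, 2, 1, 5, 0⟩ :=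
  leaf_sound (S := T4.ds_pp) T4.ok_pp (w := 224) (c := ⟨⟨.negSucc 724, .negSucc 405, .ofNat 50, .ofNat 1527, .negSucc 1930, .negSucc 1756⟩, ⟨.negSucc 389, .negSucc 251, .negSucc 10, .ofNat 874, .negSucc 1106, .negSucc 1004⟩, ⟨.ofNat 1338, .ofNat 296, .negSucc 74, .negSucc 905, .ofNat 797, .ofNat 816⟩, ⟨.negSucc 2026, .negSucc 730, .ofNat 161, .ofNat 2275, .negSucc 2983, .negSucc 2762⟩, ⟨.ofNat 1646, .ofNat 198, .negSucc 155, .ofNat 37, .ofNat 144, .ofNat 214⟩, .ofNat 2229, .negSucc 3396, .ofNat 0, .negSucc 3396, .ofNat 6201, .ofNat 0, .ofNat 245, .ofNat 1338, .negSucc 2480, .ofNat 0, .ofNat 774, .negSucc 1384, .ofNat 0, .ofNat 0, .ofNat 1716, .ofNat 747, .ofNat 0, .ofNat 0, .ofNat 0, .ofNat 0, .ofNat 0, .ofNat 0, .ofNat 0, .ofNat 0, .ofNat 0, .ofNat 0, .ofNat 0, .ofNat 0, .ofNat 0, .ofNat 0, .ofNat 31452138772622475737796772919613849600, .ofNat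 0⟩)
    (by decide +kernel)
theorem L01606 : Good (Phi V4.P V4.D 1 1) ⟨7, 111, 5, 18, 4, 15, 2, 1, 5, 0⟩ :=
  out_sound (S := T4.ds_pp) T4.ok_pp (w := 24) (j := 4) (by decide +kernel)
theorem L01607 : Good (Phi V4.P V4.D 1 1) ⟨7, 110, 5, 19, 3, 7, 2, 1, 5, 0⟩ :=
  out_sound (S := T4.ds_pp) T4.ok_pp (w := 80) (j := 3) (by decide +kernel)
theorem L01608 : Good (Phi V4.P V4.D 1 1) ⟨7, 111, 5, 19, 3, 7, 2, 1, 5, 0⟩ :=
  out_sound (S := T4.ds_pp) T4.ok_pp (w := 24) (j := 4) (by decide +kernel)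
theorem L01609 : Good (Phi V4.P V4.D 1 1) ⟨5, 26, 4, 9, 3, 7, 1, 0, 5, 1⟩ :=
  out_sound (S := T4.ds_pp) T4.ok_pp (w := 64) (j := 3) (by decide +kernel)
theorem L01610 : Good (Phi V4.P V4.D 1 1) ⟨6, 54, 4, 9, 3, 7, 1, 0, 5, 1⟩ :=
  out_sound (S := T4.ds_pp) T4.ok_pp (w := 72) (j := 3) (by decide +kernel)
theorem L01611 : Good (Phi V4.P V4.D 1 1) ⟨7, 110, 5, 18, 4, 14, 3, 0, 5, 1⟩ :=
  leaf_sound (S := T4.ds_pp) T4.ok_pp (w := 224) (c := ⟨⟨.negSucc 1326, .ofNat 245, .negSucc 526, .ofNat 452, .negSucc 885, .negSucc 1156⟩, ⟨.negSucc 730, .ofNat 109, .negSucc 327, .ofNat 258, .negSucc 507, .negSucc 662⟩, ⟨.ofNat 1863, .negSucc 123, .ofNat 322, .negSucc 372, .ofNat 415, .ofNat 541⟩, ⟨.negSucc 2980, .ofNat 372, .negSucc 839, .ofNat 673, .negSucc 1413, .negSucc 1959⟩, ⟨.ofNat 1729, .negSucc 11, .ofNat 64, .ofNat 11, .ofNat 143, .ofNat 385⟩, .ofNat 2242,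 .negSucc 3417, .ofNat 0, .negSucc 3417, .ofNat 6234, .ofNat 0, .ofNat 108, .ofNat 568, .negSucc 1008, .ofNat 0, .ofNat 325, .negSucc 561, .ofNat 0, .ofNat 0, .ofNat 764, .ofNat 10577, .ofNat 6196778273801595959004225063586334593410662400, .ofNat 0, .ofNat 2557584913740847651513034431738675200, .ofNat 0, .ofNat 0, .ofNat 0, .ofNat 0, .ofNat 0, .ofNat 0, .ofNat 0, .ofNat 0, .ofNat 0, .ofNat 0, .ofNat 0, .ofNat 166761863775467743460823455316207206400, .ofNat 0⟩)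
    (by decide +kernel)
theorem L01612 : Good (Phi V4.P V4.D 1 1) ⟨7, 110, 5, 18, 4, 14, 3, 1, 5, 1⟩ :=
  leaf_sound (S := T4.ds_pp) T4.ok_pp (w := 224) (c := ⟨⟨.negSucc 2169, .negSucc 244, .negSucc 236, .ofNat 368, .negSucc 744, .negSucc 707⟩, ⟨.negSucc 1205, .negSucc 178, .negSucc 172, .ofNat 211, .negSucc 426, .negSucc 403⟩, ⟨.ofNat 2262, .ofNat 167, .ofNat 162, .negSucc 360, .ofNat 326, .ofNat 279⟩, ⟨.negSucc 4332, .negSucc 403, .negSucc 389, .ofNat 563, .negSucc 1196, .negSucc 1251⟩, ⟨.ofNat 1872, .ofNat 65, .ofNat 47, .negSucc 16, .ofNat 133, .ofNat 326⟩, .ofNat 5801, .negSucc 9610, .ofNat 0, .negSucc 9610, .ofNat 17036, .ofNat 0, .ofNat 68, .ofNat 582, .negSucc 993, .ofNat 0, .ofNat 334, .negSucc 563, .ofNat 0, .ofNat 0, .ofNat 780, .ofNat 6618, .ofNat 0, .ofNat 0, .ofNat 0, .ofNat 0, .ofNat 0, .ofNat 0, .ofNat 723394263038868083056723407801837158400,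 .ofNat 0, .ofNat 0, .ofNat 0, .ofNat 0, .ofNat 0, .ofNat 0, .ofNat 0, .ofNat 0, .ofNat 0⟩)
    (by decide +kernel)
theorem L01613 : Good (Phi V4.P V4.D 1 1) ⟨7, 111, 5, 18, 4, 14, 2, 0, 5, 1⟩ :=
  out_sound (S := T4.ds_pp) T4.ok_pp (w := 24) (j := 4) (by decide +kernel)
theorem L01614 : Good (Phi V4.P V4.D 1 1) ⟨7, 110, 5, 18, 4, 15, 2, 0, 5, 1⟩ :=
  leaf_sound (S := T4.ds_pp) T4.ok_pp (w := 224) (c := ⟨⟨.negSucc 800, .negSucc 178, .ofNat 169, .ofNat 894, .negSucc 1530, .negSucc 1169⟩, ⟨.negSucc 432, .negSucc 126, .ofNat 70, .ofNat 511, .negSucc 875, .negSucc 668⟩, ⟨.ofNat 1499, .ofNat 100, .negSucc 55, .negSucc 593, .ofNat 615, .ofNat 487⟩, ⟨.negSucc 2219, .negSucc 272, .ofNat 226, .ofNat 1342, .negSucc 2398, .negSucc 1954⟩, ⟨.ofNat 1787, .negSucc 4, .ofNat 27, .ofNat 5, .ofNat 172, .ofNat 343⟩, .ofNat 2222, .negSucc 3385, .ofNat 0, .negSucc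 3385, .ofNat 6185, .ofNat 0, .ofNat 115, .ofNat 610, .negSucc 894, .ofNat 0, .ofNat 348, .negSucc 499, .ofNat 0, .ofNat 0, .ofNat 679, .ofNat 4221, .ofNat 611753614672203052836605720642176193396736000, .ofNat 0, .ofNat 169415480899403897217972673550745600, .ofNat 0, .ofNat 0, .ofNat 0, .ofNat 0, .ofNat 0, .ofNat 0, .ofNat 0, .ofNat 0, .ofNat 0, .ofNat 0, .ofNat 0, .ofNat 17402621801067170197277387636971929600, .ofNat 0⟩)
    (by decide +kernel)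
theorem L01615 : Good (Phi V4.P V4.D 1 1) ⟨7, 111, 5, 18, 4, 15, 2, 0, 5, 1⟩ :=
  out_sound (S := T4.ds_pp) T4.ok_pp (w := 24) (j := 4) (by decide +kernel)
theorem L01616 : Good (Phi V4.P V4.D 1 1) ⟨6, 55, 5, 18, 3, 7, 2, 1, 5, 1⟩ :=
  leaf_sound (S := T4.ds_pp) T4.ok_pp (w := 208) (c := ⟨⟨.negSucc 3444, .negSucc 256, .ofNat 27, .ofNat 1559, .negSucc 1158, .negSucc 280⟩, ⟨.negSucc 1940, .negSucc 181, .negSucc 54, .ofNat 894, .negSucc 663, .negSucc 160⟩, ⟨.ofNat 2898, .ofNat 149, .ofNat 40, .negSucc 1175, .ofNat 402, .ofNat 34⟩, ⟨.negSucc 6370, .negSucc 408, .ofNat 1, .ofNat 2413, .negSucc 1818, .negSucc 565⟩, ⟨.ofNat 2084, .ofNat 40, .ofNat 65, .negSucc 124, .ofNat 134, .ofNat 250⟩, .ofNat 2240, .negSucc 3414, .ofNat 0, .negSucc 3414, .ofNat 6229, .ofNat 0, .ofNat 119, .ofNat 625, .negSucc 998, .ofNat 0, .ofNat 362, .negSucc 554, .ofNat 0, .ofNat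 0, .ofNat 782, .ofNat 514, .ofNat 0, .ofNat 0, .ofNat 1153752108428047873191454546329600, .ofNat 0, .ofNat 0, .ofNat 0, .ofNat 0, .ofNat 0, .ofNat 0, .ofNat 0, .ofNat 0, .ofNat 0, .ofNat 0, .ofNat 0, .ofNat 62524119932164386443460553054617600, .ofNat 0⟩)
    (by decide +kernel)
theorem L01617 : Good (Phi V4.P V4.D 1 1) ⟨7, 110, 5, 19, 3, 7, 1, 0, 5, 1⟩ :=
  out_sound (S := T4.ds_pp) T4.ok_pp (w := 80) (j := 3) (by decide +kernel)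
theorem L01618 : Good (Phi V4.P V4.D 1 1) ⟨7, 111, 5, 19, 3, 7, 1, 0, 5, 1⟩ :=
  out_sound (S := T4.ds_pp) T4.ok_pp (w := 24) (j := 4) (by decide +kernel)
theorem L01619 : Good (Phi V4.P V4.D 1 1) ⟨3, 7, 4, 9, 3, 7, 1, 0, 4, 0⟩ :=
  out_sound (S := T4.ds_pp) T4.ok_pp (w := 16) (j := 4) (by decide +kernel)
theorem L01620 : Good (Phi V4.P V4.D 1 1) ⟨4, 12, 3, 4, 3, 7, 1, 0, 4, 1⟩ :=
  out_sound (S := T4.ds_pp) T4.ok_pp (w := 56) (j := 3) (by decide +kernel)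
theorem L01621 : Good (Phi V4.P V4.D 1 1) ⟨5, 26, 3, 4, 3, 7, 1, 0, 4, 1⟩ :=
  out_sound (S := T4.ds_pp) T4.ok_pp (w := 64) (j := 3) (by decide +kernel)
theorem L01622 : Good (Phi V4.P V4.D 1 1) ⟨5, 27, 4, 8, 4, 14, 2, 0, 5, 2⟩ :=
  leaf_sound (S := T4.ds_pp) T4.ok_pp (w := 208) (c := ⟨⟨.negSucc 2046, .negSucc 233, .negSucc 245, .ofNat 152, .negSucc 827, .negSucc 234⟩, ⟨.negSucc 1028, .negSucc 67, .negSucc 310, .ofNat 84, .negSucc 451, .negSucc 123⟩, ⟨.ofNat 2089, .ofNat 147, .ofNat 212, .negSucc 232, .ofNat 277, .negSucc 2⟩, ⟨.negSucc 4203, .negSucc 376, .negSucc 447, .ofNat 178, .negSucc 1290, .negSucc 477⟩, ⟨.ofNat 2014, .ofNat 114, .ofNat 58, .ofNat 95, .ofNat 60, .ofNat 218⟩, .ofNat 1775, .negSucc 2685, .ofNat 0, .negSucc 2685, .ofNat 5142, .ofNat 0, .ofNat 132, .ofNat 534, .negSucc 668, .ofNat 0, .ofNat 297, .negSucc 353, .ofNat 0, .ofNat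 0, .ofNat 623, .ofNat 5186, .ofNat 0, .ofNat 0, .ofNat 0, .ofNat 0, .ofNat 2035053880265293237556000935153196492390400, .ofNat 0, .ofNat 146682878480138342883057289533377740800, .ofNat 0, .ofNat 0, .ofNat 0, .ofNat 0, .ofNat 0, .ofNat 0, .ofNat 0, .ofNat 90698597183404779178445613654500966400, .ofNat 0⟩)
    (by decide +kernel)
theorem L01623 : Good (Phi V4.P V4.D 1 1) ⟨6, 54, 4, 9, 4, 14, 2, 0, 5, 2⟩ :=
  out_sound (S := T4.ds_pp) T4.ok_pp (w := 72) (j := 3) (by decide +kernel)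
theorem L01624 : Good (Phi V4.P V4.D 1 1) ⟨6, 55, 5, 18, 4, 14, 2, 0, 5, 2⟩ :=
  leaf_sound (S := T4.ds_pp) T4.ok_pp (w := 216) (c := ⟨⟨.negSucc 2444, .ofNat 24, .negSucc 222, .ofNat 168, .negSucc 926, .negSucc 134⟩, ⟨.negSucc 1370, .negSucc 16, .negSucc 189, .ofNat 97, .negSucc 530, .negSucc 76⟩, ⟨.ofNat 2397, .ofNat 2, .ofNat 168, .negSucc 254, .ofNat 338, .negSucc 60⟩, ⟨.negSucc 4889, .ofNat 35, .negSucc 377, .ofNat 213, .negSucc 1465, .negSucc 317⟩, ⟨.ofNat 2128, .negSucc 0, .ofNat 62, .ofNat 69, .ofNat 125, .ofNat 202⟩, .ofNat 2245, .negSucc 3422, .ofNat 0, .negSucc 3422, .ofNat 6241, .ofNat 0, .ofNat 109, .ofNat 547, .negSucc 720, .ofNat 0, .ofNat 314, .negSucc 399, .ofNat 0, .ofNat 0, .ofNat 647, .ofNat 8107, .ofNat 73801481333288774938290789755720968647475200, .ofNat 0, .ofNat 506378041282484795288389613204275200, .ofNat 0, .ofNat 178724622729689070310959286566464909003980800,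 .ofNat 0, .ofNat 126659451966681435693731643835337932800, .ofNat 0, .ofNat 0, .ofNat 0, .ofNat 0, .ofNat 0, .ofNat 0, .ofNat 0, .ofNat 51965682027861240048204742518846259200, .ofNat 0⟩)
    (by decide +kernel)
theorem L01625 : Good (Phi V4.P V4.D 1 1) ⟨7, 110, 5, 19, 4, 14, 2, 0, 5, 2⟩ :=
  out_sound (S := T4.ds_pp) T4.ok_pp (w := 80) (j := 3) (by decide +kernel)
theorem L01626 : Good (Phi V4.P V4.D 1 1) ⟨7, 111, 5, 19, 4, 14, 2, 0, 5, 2⟩ :=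
  out_sound (S := T4.ds_pp) T4.ok_pp (w := 24) (j := 4) (by decide +kernel)
theorem L01627 : Good (Phi V4.P V4.D 1 1) ⟨5, 27, 4, 8, 4, 15, 2, 0, 5, 2⟩ :=
  leaf_sound (S := T4.ds_pp) T4.ok_pp (w := 208) (c := ⟨⟨.negSucc 1905, .ofNat 97, .negSucc 262, .ofNat 547, .negSucc 782, .negSucc 419⟩, ⟨.negSucc 956, .ofNat 125, .negSucc 309, .ofNat 296, .negSucc 424, .negSucc 225⟩, ⟨.ofNat 1886, .negSucc 57, .ofNat 213, .negSucc 437, .ofNat 232, .ofNat 77⟩, ⟨.negSucc 4044, .ofNat 191, .negSucc 478, .ofNat 791, .negSucc 1194, .negSucc 799⟩, ⟨.ofNat 2133, .negSucc 76, .ofNat 76, .ofNat 80, .ofNat 6, .ofNat 296⟩, .ofNat 1756, .negSucc 2655, .ofNat 0, .negSucc 2655, .ofNat 5099, .ofNat 0, .ofNat 138, .ofNat 558, .negSucc 577, .ofNat 0, .ofNat 309, .negSucc 307, .ofNat 0, .ofNat 0, .ofNat 559, .ofNat 4216, .ofNat 0, .ofNat 0, .ofNat 0, .ofNat 0, .ofNat 0, .ofNat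 0, .ofNat 165896174240424254111253571106242560000, .ofNat 0, .ofNat 0, .ofNat 0, .ofNat 0, .ofNat 0, .ofNat 0, .ofNat 0, .ofNat 71434137281447355057720008682504192000, .ofNat 0⟩)
    (by decide +kernel)
theorem L01628 : Good (Phi V4.P V4.D 1 1) ⟨6, 54, 4, 9, 4, 15, 3, 0, 5, 2⟩ :=
  out_sound (S := T4.ds_pp) T4.ok_pp (w := 72) (j := 3) (by decide +kernel)
theorem L01629 : Good (Phi V4.P V4.D 1 1) ⟨6, 55, 5, 18, 4, 15, 3, 0, 5, 2⟩ :=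
  leaf_sound (S := T4.ds_pp) T4.ok_pp (w := 224) (c := ⟨⟨.negSucc 2154, .negSucc 105, .negSucc 94, .ofNat 652, .negSucc 441, .negSucc 391⟩, ⟨.negSucc 1208, .negSucc 85, .negSucc 109, .ofNat 374, .negSucc 252, .negSucc 223⟩, ⟨.ofNat 2098, .ofNat 63, .ofNat 84, .negSucc 510, .ofNat 143, .ofNat 56⟩, ⟨.negSucc 4471, .negSucc 179, .negSucc 166, .ofNat 963, .negSucc 684, .negSucc 764⟩, ⟨.ofNat 2163, .ofNat 26, .ofNat 19, .ofNat 29, .ofNat 35, .ofNat 307⟩, .ofNat 5796, .negSucc 9602, .ofNat 0, .negSucc 9602, .ofNat 17023, .ofNat 0, .ofNat 68, .ofNat 565, .negSucc 587, .ofNat 0, .ofNat 323, .negSucc 333, .ofNat 0, .ofNat 0, .ofNat 557, .ofNat 11753, .ofNat 720450807948203373172360185589847632851763200, .ofNat 0, .ofNat 3358394426312024598733927453242163200, .ofNat 0, .ofNat 0, .ofNat 0, .ofNat 1326626673465891641618803523116754534400, .ofNat 0, .ofNat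 0, .ofNat 0, .ofNat 0, .ofNat 0, .ofNat 0, .ofNat 0, .ofNat 0, .ofNat 0⟩)
    (by decide +kernel)
theorem L01630 : Good (Phi V4.P V4.D 1 1) ⟨7, 110, 5, 19, 4, 15, 3, 0, 5, 2⟩ :=
  out_sound (S := T4.ds_pp) T4.ok_pp (w := 80) (j := 3) (by decide +kernel)
theorem L01631 : Good (Phi V4.P V4.D 1 1) ⟨7, 111, 5, 19, 4, 15, 3, 0, 5, 2⟩ :=
  out_sound (S := T4.ds_pp) T4.ok_pp (w := 24) (j := 4) (by decide +kernel)
theorem L01632 : Good (Phi V4.P V4.D 1 1) ⟨5, 27, 4, 9, 4, 15, 3, 1, 5, 2⟩ :=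
  leaf_sound (S := T4.ds_pp) T4.ok_pp (w := 216) (c := ⟨⟨.negSucc 2646, .negSucc 115, .negSucc 185, .ofNat 709, .negSucc 392, .negSucc 248⟩, ⟨.negSucc 1456, .negSucc 126, .negSucc 224, .ofNat 405, .negSucc 224, .negSucc 141⟩, ⟨.ofNat 2250, .ofNat 92, .ofNat 154, .negSucc 549, .ofNat 123, .negSucc 8⟩, ⟨.negSucc 5244, .negSucc 197, .negSucc 328, .ofNat 1066, .negSucc 608, .negSucc 520⟩, ⟨.ofNat 2226, .ofNat 25, .ofNat 47, .negSucc 0, .ofNat 32, .ofNat 258⟩, .ofNat 5719, .negSucc 9472, .ofNat 0, .negSucc 9472, .ofNat 16808, .ofNat 0, .ofNat 70, .ofNat 571, .negSucc 599, .ofNat 0, .ofNat 328, .negSucc 339, .ofNat 0, .ofNat 0, .ofNat 577, .ofNat 1525, .ofNat 0, .ofNat 0, .ofNat 14098726008634941124280902380788121600, .ofNat 0, .ofNat 0, .ofNat 0, .ofNat 1873919950991421344033828673485065420800, .ofNat 0, .ofNat 0, .ofNat 0, .ofNat 0, .ofNat 0, .ofNat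 0, .ofNat 0, .ofNat 0, .ofNat 0⟩)
    (by decide +kernel)
theorem L01633 : Good (Phi V4.P V4.D 1 1) ⟨5, 27, 4, 8, 3, 7, 2, 0, 5, 3⟩ :=
  leaf_sound (S := T4.ds_pp) T4.ok_pp (w := 200) (c := ⟨⟨.negSucc 2523, .negSucc 344, .ofNat 21, .ofNat 433, .negSucc 506, .ofNat 6⟩, ⟨.negSucc 1284, .negSucc 130, .negSucc 165, .ofNat 241, .negSucc 278, .ofNat 6⟩, ⟨.ofNat 2226, .ofNat 161, .ofNat 83, .negSucc 561, .ofNat 114, .negSucc 144⟩, ⟨.negSucc 5067, .negSucc 539, .negSucc 23, .ofNat 473, .negSucc 717, .negSucc 64⟩, ⟨.ofNat 2279, .ofNat 61, .ofNat 29, .ofNat 341, .negSucc 96, .ofNat 133⟩, .ofNat 3513, .negSucc 5807, .ofNat 0, .negSucc 5807, .ofNat 10776, .ofNat 0, .ofNat 96, .ofNat 506, .negSucc 455, .ofNat 0, .ofNat 282, .negSucc 245, .ofNat 0, .ofNat 0, .ofNat 539, .ofNat 3286, .ofNat 0, .ofNat 0, .ofNat 0, .ofNat 0, .ofNat 0, .ofNat 0, .ofNat 347976893561269727436200519034470400,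 .ofNat 0, .ofNat 0, .ofNat 0, .ofNat 0, .ofNat 0, .ofNat 0, .ofNat 0, .ofNat 0, .ofNat 0⟩)
    (by decide +kernel)
theorem L01634 : Good (Phi V4.P V4.D 1 1) ⟨6, 54, 4, 9, 3, 7, 2, 0, 5, 3⟩ :=
  out_sound (S := T4.ds_pp) T4.ok_pp (w := 72) (j := 3) (by decide +kernel)

end Crest.Agent.R097C4.N4pp
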