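import Crest.Agent.R097.T4

/-!
# Row 97, box cover in dimension n = 4 (generated)
-/

set_option autoImplicit false
set_option Elab.async false
set_option maxHeartbeats 0
set_option maxRecDepth 100000

open Crest.Agent.R097 Crest.Agent.R097.KA


namespace Crest.Agent.R097C4.N4pp

theorem L01635 : Good (Phi V4.P V4.D 1 1) ⟨6, 55, 5, 18, 3, 7, 5, 0, 5, 3⟩ :=
  leaf_sound (S := T4.ds_pp) T4.ok_pp (w := 216) (c := ⟨⟨.negSucc 2699, .ofNat 42, .negSucc 150, .ofNat 437, .negSucc 71, .ofNat 11⟩, ⟨.negSucc 1518, .negSucc 2, .negSucc 146, .ofNat 251, .negSucc 40, .ofNat 7⟩, ⟨.ofNat 2412, .negSucc 0, .ofNat 116, .negSucc 593, .ofNat 17, .negSucc 156⟩, ⟨.negSucc 5373, .ofNat 70, .negSucc 254, .ofNat 468, .negSucc 108, .negSucc 83⟩, ⟨.ofNat 2308, .negSucc 26, .ofNat 23, .ofNat 330, .ofNat 0, .ofNat 177⟩, .ofNat 5778, .negSucc 9571, .ofNat 0, .negSucc 9571, .ofNat 16972,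 .ofNat 0, .ofNat 65, .ofNat 509, .negSucc 440, .ofNat 0, .ofNat 292, .negSucc 249, .ofNat 0, .ofNat 0, .ofNat 517, .ofNat 41927, .ofNat 254104893978530107366814921761672744088371200, .ofNat 0, .ofNat 651821278240776150099447910288588800, .ofNat 0, .ofNat 0, .ofNat 0, .ofNat 161814022050000442137460547308329369600, .ofNat 0, .ofNat 0, .ofNat 0, .ofNat 0, .ofNat 0, .ofNat 0, .ofNat 0, .ofNat 0, .ofNat 0⟩)
    (by decide +kernel)
theorem L01636 : Good (Phi V4.P V4.D 1 1) ⟨6, 55, 5, 18, 3, 7, 5, 1, 5, 3⟩ :=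
  leaf_sound (S := T4.ds_pp) T4.ok_pp (w := 216) (c := ⟨⟨.negSucc 2726, .negSucc 221, .ofNat 28, .ofNat 501, .negSucc 78, .negSucc 39⟩, ⟨.negSucc 1533, .negSucc 153, .negSucc 43, .ofNat 287, .negSucc 45, .negSucc 21⟩, ⟨.ofNat 2405, .ofNat 137, .ofNat 21, .negSucc 623, .ofNat 23, .negSucc 126⟩, ⟨.negSucc 5410, .negSucc 384, .ofNat 33, .ofNat 585, .negSucc 112, .negSucc 151⟩, ⟨.ofNat 2300, .ofNat 82, .negSucc 12, .ofNat 293, .negSucc 10, .ofNat 162⟩, .ofNat 5695, .negSucc 9433, .ofNat 0, .negSucc 9433, .ofNat 16742, .ofNat 0, .ofNat 66, .ofNat 510, .negSucc 443, .ofNat 0, .ofNat 292, .negSucc 250, .ofNat 0, .ofNat 0, .ofNat 522, .ofNat 25494, .ofNat 0, .ofNat 0, .ofNat 0, .ofNat 0, .ofNat 0, .ofNat 0, .ofNat 174823328813400324579894182634376396800, .ofNat 0, .ofNat 0, .ofNat 0, .ofNat 0, .ofNat 0, .ofNat 0, .ofNat 0, .ofNat 0, .ofNat 0⟩)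
    (by decide +kernel)
theorem L01637 : Good (Phi V4.P V4.D 1 1) ⟨6, 55, 5, 18, 3, 7, 4, 1, 5, 3⟩ :=
  leaf_sound (S := T4.ds_pp) T4.ok_pp (w := 216) (c := ⟨⟨.negSucc 2896, .negSucc 62, .negSucc 34, .ofNat 510, .negSucc 134, .ofNat 19⟩, ⟨.negSucc 1629, .negSucc 63, .negSucc 81, .ofNat 292, .negSucc 77, .ofNat 11⟩, ⟨.ofNat 2476, .ofNat 51, .ofNat 49, .negSucc 630, .ofNat 34, .negSucc 152⟩, ⟨.negSucc 5685, .negSucc 121, .negSucc 58, .ofNat 606, .negSucc 191, .negSucc 51⟩, ⟨.ofNat 2334, .ofNat 37, .negSucc 10, .ofNat 279, .negSucc 19, .ofNat 142⟩, .ofNat 5743, .negSucc 9513, .ofNat 0, .negSucc 9513, .ofNat 16875, .ofNat 0, .ofNat 66, .ofNat 514, .negSucc 461, .ofNat 0, .ofNat 295, .negSucc 261, .ofNat 0, .ofNat 0, .ofNat 535, .ofNat 10492, .ofNat 0, .ofNat 0, .ofNat 0, .ofNat 0, .ofNat 0, .ofNat 0, .ofNat 20442779205138107328128786802671616000, .ofNat 0, .ofNat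 0, .ofNat 0, .ofNat 0, .ofNat 0, .ofNat 0, .ofNat 0, .ofNat 0, .ofNat 0⟩)
    (by decide +kernel)
theorem L01638 : Good (Phi V4.P V4.D 1 1) ⟨7, 110, 5, 19, 3, 7, 3, 0, 5, 3⟩ :=
  out_sound (S := T4.ds_pp) T4.ok_pp (w := 80) (j := 3) (by decide +kernel)
theorem L01639 : Good (Phi V4.P V4.D 1 1) ⟨7, 111, 5, 19, 3, 7, 3, 0, 5, 3⟩ :=
  out_sound (S := T4.ds_pp) T4.ok_pp (w := 24) (j := 4) (by decide +kernel)
theorem L01640 : Good (Phi V4.P V4.D 1 1) ⟨6, 55, 4, 9, 3, 7, 3, 1, 5, 3⟩ :=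
  leaf_sound (S := T4.ds_pp) T4.ok_pp (w := 208) (c := ⟨⟨.negSucc 3031, .negSucc 234, .ofNat 153, .ofNat 556, .negSucc 286, .ofNat 54⟩, ⟨.negSucc 1697, .negSucc 209, .ofNat 4, .ofNat 319, .negSucc 163, .ofNat 31⟩, ⟨.ofNat 2497, .ofNat 166, .negSucc 50, .negSucc 643, .ofNat 77, .negSucc 164⟩, ⟨.negSucc 5890, .negSucc 414, .ofNat 243, .ofNat 693, .negSucc 416, .ofNat 18⟩, ⟨.ofNat 2339, .ofNat 88, .negSucc 45, .ofNat 250, .negSucc 24, .ofNat 110⟩, .ofNat 5739, .negSucc 9507, .ofNat 0, .negSucc 9507, .ofNat 16866, .ofNat 0, .ofNat 68, .ofNat 521, .negSucc 487, .ofNat 0, .ofNat 299, .negSucc 275, .ofNat 0, .ofNat 0, .ofNat 557, .ofNat 1762, .ofNat 0, .ofNat 0, .ofNat 7481592540763432778999137724006400, .ofNat 0, .ofNat 0, .ofNat 0, .ofNat 1330980834884247058628471730418483200, .ofNat 0, .ofNat 0, .ofNat 0, .ofNat 0, .ofNat 0, .ofNat 0, .ofNat 0, .ofNat 0, .ofNat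 0⟩)
    (by decide +kernel)
theorem L01641 : Good (Phi V4.P V4.D 1 1) ⟨5, 27, 4, 8, 3, 7, 2, 1, 5, 2⟩ :=
  leaf_sound (S := T4.ds_pp) T4.ok_pp (w := 200) (c := ⟨⟨.negSucc 3106, .negSucc 542, .negSucc 84, .ofNat 727, .negSucc 605, .ofNat 40⟩, ⟨.negSucc 1596, .negSucc 246, .negSucc 239, .ofNat 402, .negSucc 328, .ofNat 22⟩, ⟨.ofNat 2465, .ofNat 253, .ofNat 150, .negSucc 660, .ofNat 136, .negSucc 141⟩, ⟨.negSucc 5841, .negSucc 782, .negSucc 244, .ofNat 981, .negSucc 921, .negSucc 15⟩, ⟨.ofNat 2051, .ofNat 33, .ofNat 136, .ofNat 229, .negSucc 1, .ofNat 142⟩, .ofNat 1795, .negSucc 2716, .ofNat 0, .negSucc 2716, .ofNat 5189, .ofNat 0, .ofNat 140, .ofNat 573, .negSucc 700, .ofNat 0, .ofNat 323, .negSucc 369, .ofNat 0, .ofNat 0, .ofNat 657, .ofNat 2081, .ofNat 0, .ofNat 0, .ofNat 0, .ofNat 0, .ofNat 0, .ofNat 0, .ofNat 300582141666624593480162794379673600, .ofNat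 0, .ofNat 0, .ofNat 0, .ofNat 0, .ofNat 0, .ofNat 0, .ofNat 0, .ofNat 131397790093590994715900534744678400, .ofNat 0⟩)
    (by decide +kernel)
theorem L01642 : Good (Phi V4.P V4.D 1 1) ⟨5, 27, 4, 9, 3, 7, 2, 1, 5, 2⟩ :=
  leaf_sound (S := T4.ds_pp) T4.ok_pp (w := 200) (c := ⟨⟨.negSucc 3526, .negSucc 76, .negSucc 214, .ofNat 927, .negSucc 679, .ofNat 40⟩, ⟨.negSucc 1953, .negSucc 110, .negSucc 263, .ofNat 531, .negSucc 389, .ofNat 23⟩, ⟨.ofNat 2777, .ofNat 85, .ofNat 164, .negSucc 811, .ofNat 171, .negSucc 143⟩, ⟨.negSucc 6564, .negSucc 151, .negSucc 372, .ofNat 1334, .negSucc 1049, .negSucc 28⟩, ⟨.ofNat 2215, .ofNat 56, .ofNat 73, .ofNat 103, .ofNat 47, .ofNat 156⟩, .ofNat 2233, .negSucc 3402, .ofNat 0, .negSucc 3402, .ofNat 6212, .ofNat 0, .ofNat 117, .ofNat 581, .negSucc 734, .ofNat 0, .ofNat 336, .negSucc 405, .ofNat 0, .ofNat 0, .ofNat 670, .ofNat 593,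 .ofNat 0, .ofNat 0, .ofNat 857705325190800464762607815884800, .ofNat 0, .ofNat 0, .ofNat 0, .ofNat 0, .ofNat 0, .ofNat 0, .ofNat 0, .ofNat 0, .ofNat 0, .ofNat 0, .ofNat 0, .ofNat 205990853262556256193907189717401600, .ofNat 0⟩)
    (by decide +kernel)
theorem L01643 : Good (Phi V4.P V4.D 1 1) ⟨5, 27, 3, 4, 3, 7, 2, 1, 5, 3⟩ :=
  leaf_sound (S := T4.ds_pp) T4.ok_pp (w := 200) (c := ⟨⟨.negSucc 3093, .negSucc 211, .negSucc 217, .ofNat 533, .negSucc 520, .ofNat 120⟩, ⟨.negSucc 1574, .negSucc 170, .negSucc 408, .ofNat 301, .negSucc 288, .ofNat 65⟩, ⟨.ofNat 2333, .ofNat 55, .ofNat 304, .negSucc 544, .ofNat 128, .negSucc 158⟩, ⟨.negSucc 5881, .negSucc 295, .negSucc 489, .ofNat 603, .negSucc 785, .ofNat 126⟩, ⟨.ofNat 2165, .negSucc 6, .ofNat 200, .ofNat 368, .negSucc 7, .ofNat 107⟩, .ofNat 1830, .negSucc 2769, .ofNat 0, .negSucc 2769, .ofNat 5263, .ofNat 0, .ofNat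 134, .ofNat 530, .negSucc 548, .ofNat 0, .ofNat 301, .negSucc 288, .ofNat 0, .ofNat 0, .ofNat 600, .ofNat 812, .ofNat 0, .ofNat 0, .ofNat 489569250716258233599644191948800, .ofNat 0, .ofNat 0, .ofNat 0, .ofNat 146104206145302296873674554841497600, .ofNat 0, .ofNat 0, .ofNat 0, .ofNat 0, .ofNat 0, .ofNat 0, .ofNat 0, .ofNat 0, .ofNat 0⟩)
    (by decide +kernel)
theorem L01644 : Good (Phi V4.P V4.D 1 1) ⟨3, 7, 3, 4, 3, 7, 1, 0, 4, 1⟩ :=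
  out_sound (S := T4.ds_pp) T4.ok_pp (w := 16) (j := 4) (by decide +kernel)
theorem L01645 : Good (Phi V4.P V4.D 1 1) ⟨3, 6, 3, 5, 2, 3, 1, 0, 3, 0⟩ :=
  out_sound (S := T4.ds_pp) T4.ok_pp (w := 48) (j := 3) (by decide +kernel)
theorem L01646 : Good (Phi V4.P V4.D 1 1) ⟨3, 7, 3, 5, 2, 3, 1, 0, 3, 0⟩ :=
  out_sound (S := T4.ds_pp) T4.ok_pp (w := 16) (j := 4) (by decide +kernel)
theorem L01647 : Good (Phi V4.P V4.D 1 1) ⟨2, 2, 2, 2, 2, 3, 1, 0, 3, 1⟩ :=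
  out_sound (S := T4.ds_pp) T4.ok_pp (w := 40) (j := 3) (by decide +kernel)
theorem L01648 : Good (Phi V4.P V4.D 1 1) ⟨4, 12, 2, 2, 2, 3, 1, 0, 3, 1⟩ :=
  out_sound (S := T4.ds_pp) T4.ok_pp (w := 56) (j := 3) (by decide +kernel)
theorem L01649 : Good (Phi V4.P V4.D 1 1) ⟨5, 26, 3, 4, 3, 6, 1, 0, 4, 2⟩ :=
  out_sound (S := T4.ds_pp) T4.ok_pp (w := 64) (j := 3) (by decide +kernel)
theorem L01650 : Good (Phi V4.P V4.D 1 1) ⟨5, 27, 4, 8, 3, 6, 2, 0, 4, 2⟩ :=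
  leaf_sound (S := T4.ds_pp) T4.ok_pp (w := 200) (c := ⟨⟨.negSucc 2196, .negSucc 168, .negSucc 14, .negSucc 329, .negSucc 316, .ofNat 201⟩, ⟨.negSucc 1113, .negSucc 66, .negSucc 155, .negSucc 173, .negSucc 174, .ofNat 109⟩, ⟨.ofNat 2094, .ofNat 103, .ofNat 75, .ofNat 20, .negSucc 26, .negSucc 398⟩, ⟨.negSucc 4348, .negSucc 281, .negSucc 55, .negSucc 835, .negSucc 352, .ofNat 365⟩, ⟨.ofNat 1850, .ofNat 181, .negSucc 32, .ofNat 613, .negSucc 240, .negSucc 106⟩, .ofNat 1740, .negSucc 2629, .ofNat 0, .negSucc 2629, .ofNat 5062, .ofNat 0, .ofNat 123, .ofNat 410, .negSucc 345, .ofNat 0, .ofNat 233, .negSucc 177, .ofNat 0, .ofNat 0, .ofNat 536, .ofNat 9476, .ofNat 0, .ofNat 0, .ofNat 0, .ofNat 0, .ofNat 6347440925082395199972103636244024524800, .ofNat 0, .ofNat 15424890071101149661025465165414400, .ofNat 0, .ofNat 0, .ofNat 0, .ofNat 6354303172783330614570164787609600,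 .ofNat 0, .ofNat 0, .ofNat 0, .ofNat 0, .ofNat 0⟩)
    (by decide +kernel)
theorem L01651 : Good (Phi V4.P V4.D 1 1) ⟨5, 27, 4, 8, 3, 6, 2, 1, 4, 2⟩ :=
  leaf_sound (S := T4.ds_pp) T4.ok_pp (w := 200) (c := ⟨⟨.negSucc 2485, .negSucc 69, .negSucc 75, .negSucc 441, .negSucc 320, .ofNat 275⟩, ⟨.negSucc 1268, .negSucc 42, .negSucc 179, .negSucc 234, .negSucc 177, .ofNat 150⟩, ⟨.ofNat 1990, .ofNat 35, .ofNat 96, .ofNat 174, .negSucc 44, .negSucc 393⟩, ⟨.negSucc 4639, .negSucc 126, .negSucc 143, .negSucc 1065, .negSucc 363, .ofNat 502⟩, ⟨.ofNat 1566, .ofNat 116, .ofNat 20, .ofNat 721, .negSucc 228, .negSucc 152⟩, .ofNat 1749, .negSucc 2642, .ofNat 0, .negSucc 2642, .ofNat 5077, .ofNat 0, .ofNat 126, .ofNat 426, .negSucc 414, .ofNat 0, .ofNat 245, .negSucc 212, .ofNat 0, .ofNat 0, .ofNat 584, .ofNat 3926, .ofNat 0, .ofNat 0, .ofNat 0, .ofNat 0, .ofNat 0, .ofNat 0,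 .ofNat 17082158991847202348732542825267200, .ofNat 0, .ofNat 0, .ofNat 0, .ofNat 5421901479975291582192247898112000, .ofNat 0, .ofNat 0, .ofNat 0, .ofNat 0, .ofNat 0⟩)
    (by decide +kernel)
theorem L01652 : Good (Phi V4.P V4.D 1 1) ⟨6, 54, 4, 9, 3, 6, 1, 0, 4, 2⟩ :=
  out_sound (S := T4.ds_pp) T4.ok_pp (w := 72) (j := 3) (by decide +kernel)
theorem L01653 : Good (Phi V4.P V4.D 1 1) ⟨6, 55, 5, 18, 3, 6, 2, 0, 4, 2⟩ :=
  leaf_sound (S := T4.ds_pp) T4.ok_pp (w := 200) (c := ⟨⟨.negSucc 2310, .negSucc 7, .negSucc 40, .negSucc 356, .negSucc 343, .ofNat 254⟩, ⟨.negSucc 1297, .negSucc 29, .negSucc 79, .negSucc 202, .negSucc 196, .ofNat 145⟩, ⟨.ofNat 2235, .ofNat 18, .ofNat 46, .ofNat 51, .negSucc 25, .negSucc 430⟩, ⟨.negSucc 4569, .negSucc 20, .negSucc 82, .negSucc 881, .negSucc 397, .ofNat 458⟩, ⟨.ofNat 1920, .ofNat 11, .ofNat 25, .ofNat 602, .negSucc 208, .negSucc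 134⟩, .ofNat 2228, .negSucc 3395, .ofNat 0, .negSucc 3395, .ofNat 6201, .ofNat 0, .ofNat 101, .ofNat 418, .negSucc 353, .ofNat 0, .ofNat 244, .negSucc 193, .ofNat 0, .ofNat 0, .ofNat 540, .ofNat 10591, .ofNat 48131328382038150006447062355336914534400, .ofNat 0, .ofNat 18566170509208824639690847027200, .ofNat 0, .ofNat 803332280663771697764519237701208742297600, .ofNat 0, .ofNat 13821353769161606134527150155366400, .ofNat 0, .ofNat 0, .ofNat 0, .ofNat 0, .ofNat 0, .ofNat 0, .ofNat 0, .ofNat 0, .ofNat 0⟩)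
    (by decide +kernel)
theorem L01654 : Good (Phi V4.P V4.D 1 1) ⟨7, 110, 5, 19, 3, 6, 2, 0, 4, 2⟩ :=
  out_sound (S := T4.ds_pp) T4.ok_pp (w := 80) (j := 3) (by decide +kernel)
theorem L01655 : Good (Phi V4.P V4.D 1 1) ⟨7, 111, 5, 19, 3, 6, 2, 0, 4, 2⟩ :=
  out_sound (S := T4.ds_pp) T4.ok_pp (w := 24) (j := 4) (by decide +kernel)
theorem L01656 : Good (Phi V4.P V4.D 1 1) ⟨6, 55, 4, 9, 3, 6, 2, 1, 4, 2⟩ :=
  leaf_sound (S := T4.ds_pp) T4.ok_pp (w := 200) (c := ⟨⟨.negSucc 2605, .negSucc 82, .negSucc 108, .negSucc 442, .negSucc 303, .ofNat 315⟩, ⟨.negSucc 1458, .negSucc 116, .negSucc 134, .negSucc 251, .negSucc 173, .ofNat 180⟩, ⟨.ofNat 2116, .ofNat 73, .ofNat 80, .ofNat 193, .negSucc 80, .negSucc 426⟩, ⟨.negSucc 4864, .negSucc 144, .negSucc 180, .negSucc 1084, .negSucc 322, .ofNat 573⟩, ⟨.ofNat 1654, .ofNat 41, .ofNat 32, .ofNat 732, .negSucc 232, .negSucc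 173⟩, .ofNat 2230, .negSucc 3398, .ofNat 0, .negSucc 3398, .ofNat 6205, .ofNat 0, .ofNat 104, .ofNat 429, .negSucc 418, .ofNat 0, .ofNat 253, .negSucc 228, .ofNat 0, .ofNat 0, .ofNat 592, .ofNat 2224, .ofNat 0, .ofNat 0, .ofNat 37697824182756286401047691264000, .ofNat 0, .ofNat 0, .ofNat 0, .ofNat 9176658852276556706802007277568000, .ofNat 0, .ofNat 0, .ofNat 0, .ofNat 2574381703828292491106313673113600, .ofNat 0, .ofNat 0, .ofNat 0, .ofNat 0, .ofNat 0⟩)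
    (by decide +kernel)
theorem L01657 : Good (Phi V4.P V4.D 1 1) ⟨5, 26, 3, 4, 3, 7, 1, 0, 4, 2⟩ :=
  out_sound (S := T4.ds_pp) T4.ok_pp (w := 64) (j := 3) (by decide +kernel)
theorem L01658 : Good (Phi V4.P V4.D 1 1) ⟨5, 27, 4, 8, 3, 7, 2, 0, 4, 2⟩ :=
  leaf_sound (S := T4.ds_pp) T4.ok_pp (w := 200) (c := ⟨⟨.negSucc 2542, .negSucc 299, .ofNat 56, .ofNat 240, .negSucc 333, .ofNat 202⟩, ⟨.negSucc 1294, .negSucc 116, .negSucc 139, .ofNat 138, .negSucc 183, .ofNat 112⟩, ⟨.ofNat 2065, .ofNat 160, .ofNat 45, .negSucc 443, .ofNat 69, .negSucc 374⟩, ⟨.negSucc 5154, .negSucc 622, .ofNat 128, .ofNat 69, .negSucc 394, .ofNat 286⟩, ⟨.ofNat 2386, .ofNat 365, .negSucc 177, .ofNat 545, .negSucc 208, .ofNat 40⟩, .ofNat 3366, .negSucc 5560, .ofNat 0, .negSucc 5560, .ofNat 10368, .ofNat 0, .ofNat 192, .ofNat 893, .negSucc 606, .ofNat 0, .ofNat 498, .negSucc 325, .ofNat 0,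 .ofNat 0, .ofNat 992, .ofNat 6058, .ofNat 0, .ofNat 0, .ofNat 86677256654958091651238382796800, .ofNat 0, .ofNat 0, .ofNat 0, .ofNat 80910561359196661017071144927232000, .ofNat 0, .ofNat 0, .ofNat 0, .ofNat 0, .ofNat 0, .ofNat 0, .ofNat 0, .ofNat 0, .ofNat 0⟩)
    (by decide +kernel)
theorem L01659 : Good (Phi V4.P V4.D 1 1) ⟨5, 27, 4, 8, 3, 7, 2, 1, 4, 2⟩ :=
  leaf_sound (S := T4.ds_pp) T4.ok_pp (w := 200) (c := ⟨⟨.negSucc 2943, .negSucc 576, .ofNat 200, .ofNat 254, .negSucc 404, .ofNat 374⟩, ⟨.negSucc 1502, .negSucc 306, .negSucc 57, .ofNat 147, .negSucc 222, .ofNat 204⟩, ⟨.ofNat 2088, .ofNat 327, .negSucc 73, .negSucc 325, .ofNat 111, .negSucc 387⟩, ⟨.negSucc 5644, .negSucc 864, .ofNat 249, .ofNat 23, .negSucc 586, .ofNat 574⟩, ⟨.ofNat 2141, .ofNat 112, .negSucc 2, .ofNat 665, .negSucc 49, .negSucc 4⟩, .ofNat 753, .negSucc 877, .ofNat 0, .negSucc 877, .ofNat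 1859, .ofNat 0, .ofNat 218, .ofNat 458, .negSucc 452, .ofNat 0, .ofNat 273, .negSucc 210, .ofNat 0, .ofNat 0, .ofNat 573, .ofNat 3336, .ofNat 0, .ofNat 0, .ofNat 175196992742038635568567418880000, .ofNat 0, .ofNat 0, .ofNat 0, .ofNat 14837158053755185156866652608921600, .ofNat 0, .ofNat 0, .ofNat 0, .ofNat 10605353687078497366836944830464000, .ofNat 0, .ofNat 0, .ofNat 0, .ofNat 7481486426449356850754445587251200, .ofNat 0⟩)
    (by decide +kernel)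
theorem L01660 : Good (Phi V4.P V4.D 1 1) ⟨6, 54, 4, 9, 3, 7, 1, 0, 4, 2⟩ :=
  out_sound (S := T4.ds_pp) T4.ok_pp (w := 72) (j := 3) (by decide +kernel)
theorem L01661 : Good (Phi V4.P V4.D 1 1) ⟨8, 220, 6, 36, 3, 7, 2, 0, 4, 2⟩ :=
  leaf_sound (S := T4.ds_pp) T4.ok_pp (w := 224) (c := ⟨⟨.negSucc 2863, .ofNat 191, .negSucc 53, .ofNat 244, .negSucc 360, .ofNat 309⟩, ⟨.negSucc 1612, .ofNat 105, .negSucc 64, .ofNat 140, .negSucc 205, .ofNat 176⟩, ⟨.ofNat 2305, .negSucc 90, .ofNat 7, .negSucc 439, .ofNat 78, .negSucc 425⟩, ⟨.negSucc 5711, .ofNat 307, .negSucc 49, .ofNat 55, .negSucc 442, .ofNat 453⟩, ⟨.ofNat 2461, .negSucc 30, .negSucc 74, .ofNat 548, .negSucc 175, .ofNat 21⟩, .ofNat 18155, .negSucc 31303, .ofNat 0, .negSucc 31303, .ofNat 55148, .ofNat 0, .ofNat 86, .ofNat 911, .negSucc 614, .ofNat 0, .ofNat 521, .negSucc 348, .ofNat 0, .ofNat 0, .ofNat 996, .ofNat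 19373, .ofNat 63518870844574093816669239355284139907481600, .ofNat 0, .ofNat 21322885774273339551639404544000, .ofNat 0, .ofNat 0, .ofNat 0, .ofNat 0, .ofNat 0, .ofNat 0, .ofNat 0, .ofNat 16538942784503732931365237371699200, .ofNat 0, .ofNat 0, .ofNat 0, .ofNat 25052400088276079510029163770675200, .ofNat 0⟩)
    (by decide +kernel)
theorem L01662 : Good (Phi V4.P V4.D 1 1) ⟨8, 220, 6, 36, 3, 7, 2, 1, 4, 2⟩ :=
  leaf_sound (S := T4.ds_pp) T4.ok_pp (w := 216) (c := ⟨⟨.negSucc 2891, .negSucc 314, .ofNat 124, .ofNat 297, .negSucc 394, .ofNat 411⟩, ⟨.negSucc 1627, .negSucc 183, .ofNat 36, .ofNat 171, .negSucc 223, .ofNat 234⟩, ⟨.ofNat 2112, .ofNat 185, .negSucc 61, .negSucc 359, .ofNat 111, .negSucc 422⟩, ⟨.negSucc 5573, .negSucc 531, .ofNat 241, .ofNat 78, .negSucc 588, .ofNat 636⟩, ⟨.ofNat 2143, .ofNat 108, .negSucc 111, .ofNat 649, .negSucc 9, .negSucc 28⟩,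 .ofNat 5260, .negSucc 8710, .ofNat 0, .negSucc 8710, .ofNat 15549, .ofNat 0, .ofNat 72, .ofNat 476, .negSucc 378, .ofNat 0, .ofNat 274, .negSucc 211, .ofNat 0, .ofNat 0, .ofNat 544, .ofNat 4624, .ofNat 0, .ofNat 0, .ofNat 0, .ofNat 0, .ofNat 0, .ofNat 0, .ofNat 0, .ofNat 0, .ofNat 0, .ofNat 0, .ofNat 4727531970065017597821752180736000, .ofNat 0, .ofNat 0, .ofNat 0, .ofNat 5188338810700151794440550848921600, .ofNat 0⟩)
    (by decide +kernel)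
theorem L01663 : Good (Phi V4.P V4.D 1 1) ⟨8, 221, 7, 72, 3, 7, 2, 0, 4, 2⟩ :=
  leaf_sound (S := T4.ds_pp) T4.ok_pp (w := 224) (c := ⟨⟨.negSucc 2649, .ofNat 288, .negSucc 136, .ofNat 276, .negSucc 368, .ofNat 275⟩, ⟨.negSucc 1493, .ofNat 164, .negSucc 96, .ofNat 159, .negSucc 210, .ofNat 157⟩, ⟨.ofNat 2203, .negSucc 189, .ofNat 86, .negSucc 478, .ofNat 91, .negSucc 410⟩, ⟨.negSucc 5353, .ofNat 503, .negSucc 243, .ofNat 103, .negSucc 449, .ofNat 400⟩, ⟨.ofNat 2404, .negSucc 119, .ofNat 56, .ofNat 547, .negSucc 182, .ofNat 24⟩, .ofNat 23081, .negSucc 39793, .ofNat 0, .negSucc 39793, .ofNat 69768, .ofNat 0, .ofNat 74, .ofNat 906, .negSucc 587, .ofNat 0, .ofNat 519, .negSucc 334, .ofNat 0, .ofNat 0, .ofNat 983, .ofNat 17063, .ofNat 416363084386386455391810574155727003818393600, .ofNat 0, .ofNat 85405291227747957364367346892800, .ofNat 0, .ofNat 0, .ofNat 0, .ofNat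 120569327719298401404673836711936000, .ofNat 0, .ofNat 0, .ofNat 0, .ofNat 41692666803800367996822158416281600, .ofNat 0, .ofNat 14604407438290729446070928672126958164351385600, .ofNat 0, .ofNat 17000895162681821889284463289958400, .ofNat 0⟩)
    (by decide +kernel)
theorem L01664 : Good (Phi V4.P V4.D 1 1) ⟨8, 221, 7, 72, 3, 7, 2, 1, 4, 2⟩ :=
  leaf_sound (S := T4.ds_pp) T4.ok_pp (w := 224) (c := ⟨⟨.negSucc 3211, .negSucc 302, .ofNat 161, .ofNat 310, .negSucc 436, .ofNat 405⟩, ⟨.negSucc 1814, .negSucc 172, .ofNat 71, .ofNat 179, .negSucc 249, .ofNat 232⟩, ⟨.ofNat 2275, .ofNat 127, .negSucc 56, .negSucc 368, .ofNat 133, .negSucc 405⟩, ⟨.negSucc 6068, .negSucc 399, .ofNat 200, .ofNat 106, .negSucc 657, .ofNat 615⟩, ⟨.ofNat 2171, .negSucc 93, .ofNat 66, .ofNat 632, .ofNat 1, .negSucc 9⟩, .ofNat 23254, .negSucc 40090, .ofNat 0, .negSucc 40090, .ofNat 70282, .ofNat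 0, .ofNat 39, .ofNat 481, .negSucc 377, .ofNat 0, .ofNat 276, .negSucc 215, .ofNat 0, .ofNat 0, .ofNat 544, .ofNat 4264, .ofNat 0, .ofNat 0, .ofNat 0, .ofNat 0, .ofNat 0, .ofNat 0, .ofNat 25551587927992117939437965200588800, .ofNat 0, .ofNat 0, .ofNat 0, .ofNat 11368028247711199653848443099545600, .ofNat 0, .ofNat 0, .ofNat 0, .ofNat 10563063008242878687924647991705600, .ofNat 0⟩)
    (by decide +kernel)
theorem L01665 : Good (Phi V4.P V4.D 1 1) ⟨8, 221, 7, 73, 3, 7, 2, 0, 4, 2⟩ :=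
  leaf_sound (S := T4.ds_pp) T4.ok_pp (w := 224) (c := ⟨⟨.negSucc 2694, .ofNat 17, .negSucc 34, .ofNat 246, .negSucc 368, .ofNat 266⟩, ⟨.negSucc 1537, .ofNat 4, .negSucc 35, .ofNat 142, .negSucc 211, .ofNat 153⟩, ⟨.ofNat 2238, .ofNat 36, .ofNat 8, .negSucc 470, .ofNat 74, .negSucc 413⟩, ⟨.negSucc 5443, .ofNat 3, .negSucc 51, .ofNat 68, .negSucc 449, .ofNat 388⟩, ⟨.ofNat 2434, .ofNat 36, .negSucc 5, .ofNat 524, .negSucc 179, .ofNat 20⟩, .ofNat 17526, .negSucc 29950, .ofNat 0, .negSucc 29950, .ofNat 52326, .ofNat 0, .ofNat 73, .ofNat 905, .negSucc 605, .ofNat 0, .ofNat 521, .negSucc 346, .ofNat 0, .ofNat 0, .ofNat 991, .ofNat 21622, .ofNat 0, .ofNat 0, .ofNat 0, .ofNat 0, .ofNat 0, .ofNat 0, .ofNat 78583233075566115524224331494195200, .ofNat 0, .ofNat 0, .ofNat 0, .ofNat 11081533570586501952461869154304000, .ofNat 0, .ofNat 0, .ofNat 0, .ofNat 0, .ofNat 0⟩)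
    (by decide +kernel)
theorem L01666 : Good (Phi V4.P V4.D 1 1) ⟨8, 221, 7, 73, 3, 7, 2, 1, 4, 2⟩ :=
  leaf_sound (S := T4.ds_pp) T4.ok_pp (w := 216) (c := ⟨⟨.negSucc 3238, .ofNat 211, .negSucc 106, .ofNat 291, .negSucc 395, .ofNat 458⟩, ⟨.negSucc 1849, .ofNat 115, .negSucc 78, .ofNat 168, .negSucc 226, .ofNat 263⟩, ⟨.ofNat 2283, .negSucc 59, .ofNat 42, .negSucc 325, .ofNat 108, .negSucc 432⟩, ⟨.negSucc 6122, .ofNat 312, .negSucc 162, .ofNat 39, .negSucc 599, .ofNat 699⟩, ⟨.ofNat 2193, .ofNat 6, .negSucc 0, .ofNat 691, .ofNat 11, .negSucc 20⟩, .ofNat 6182, .negSucc 10243, .ofNat 0, .negSucc 10243, .ofNat 18083, .ofNat 0, .ofNat 64, .ofNat 477, .negSucc 384, .ofNat 0, .ofNat 276, .negSucc 217, .ofNat 0, .ofNat 0, .ofNat 550, .ofNat 4321, .ofNat 0, .ofNat 0, .ofNat 0, .ofNat 0, .ofNat 0, .ofNat 0, .ofNat 0, .ofNat 0, .ofNat 0, .ofNat 0, .ofNat 6682744474290735679448447503564800,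 .ofNat 0, .ofNat 0, .ofNat 0, .ofNat 0, .ofNat 0⟩)
    (by decide +kernel)
theorem L01667 : Good (Phi V4.P V4.D 1 1) ⟨8, 220, 6, 37, 3, 7, 1, 0, 4, 2⟩ :=
  out_sound (S := T4.ds_pp) T4.ok_pp (w := 88) (j := 3) (by decide +kernel)
theorem L01668 : Good (Phi V4.P V4.D 1 1) ⟨9, 442, 7, 74, 3, 7, 1, 0, 4, 2⟩ :=
  out_sound (S := T4.ds_pp) T4.ok_pp (w := 96) (j := 3) (by decide +kernel)
theorem L01669 : Good (Phi V4.P V4.D 1 1) ⟨10, 886, 8, 148, 3, 7, 1, 0, 4, 2⟩ :=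
  out_sound (S := T4.ds_pp) T4.ok_pp (w := 104) (j := 3) (by decide +kernel)
theorem L01670 : Good (Phi V4.P V4.D 1 1) ⟨10, 887, 8, 148, 3, 7, 1, 0, 4, 2⟩ :=
  out_sound (S := T4.ds_pp) T4.ok_pp (w := 32) (j := 4) (by decide +kernel)
theorem L01671 : Good (Phi V4.P V4.D 1 1) ⟨9, 443, 8, 149, 3, 7, 1, 0, 4, 2⟩ :=
  out_sound (S := T4.ds_pp) T4.ok_pp (w := 96) (j := 3) (by decide +kernel)
theorem L01672 : Good (Phi V4.P V4.D 1 1) ⟨8, 221, 7, 75, 3, 7, 1, 0, 4, 2⟩ :=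
  out_sound (S := T4.ds_pp) T4.ok_pp (w := 88) (j := 3) (by decide +kernel)
theorem L01673 : Good (Phi V4.P V4.D 1 1) ⟨7, 111, 5, 18, 3, 7, 1, 0, 4, 2⟩ :=
  out_sound (S := T4.ds_pp) T4.ok_pp (w := 24) (j := 4) (by decide +kernel)
theorem L01674 : Good (Phi V4.P V4.D 1 1) ⟨7, 110, 5, 19, 3, 7, 1, 0, 4, 2⟩ :=
  out_sound (S := T4.ds_pp) T4.ok_pp (w := 80) (j := 3) (by decide +kernel)
theorem L01675 : Good (Phi V4.P V4.D 1 1) ⟨7, 111, 5, 19, 3, 7, 1, 0, 4, 2⟩ :=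
  out_sound (S := T4.ds_pp) T4.ok_pp (w := 24) (j := 4) (by decide +kernel)
theorem L01676 : Good (Phi V4.P V4.D 1 1) ⟨5, 26, 3, 4, 2, 3, 1, 0, 4, 3⟩ :=
  out_sound (S := T4.ds_pp) T4.ok_pp (w := 64) (j := 3) (by decide +kernel)
theorem L01677 : Good (Phi V4.P V4.D 1 1) ⟨5, 27, 4, 8, 2, 3, 2, 0, 4, 3⟩ :=
  leaf_sound (S := T4.ds_pp) T4.ok_pp (w := 192) (c := ⟨⟨.negSucc 2228, .ofNat 43, .negSucc 64, .negSucc 100, .negSucc 216, .ofNat 275⟩, ⟨.negSucc 1137, .ofNat 70, .negSucc 187, .negSucc 36, .negSucc 121, .ofNat 147⟩, ⟨.ofNat 1801, .negSucc 211, .ofNat 192, .negSucc 350, .ofNat 11, .negSucc 422⟩, ⟨.negSucc 4300, .ofNat 54, .negSucc 132, .negSucc 934, .negSucc 179, .ofNat 511⟩, ⟨.ofNat 1686, .ofNat 113, .negSucc 31, .ofNat 1436, .negSucc 276, .negSucc 174⟩, .ofNat 1746, .negSucc 2638, .ofNat 0, .negSucc 2638, .ofNat 5071, .ofNat 0, .ofNat 235, .ofNat 721, .negSucc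 425, .ofNat 0, .ofNat 415, .negSucc 219, .ofNat 0, .ofNat 0, .ofNat 980, .ofNat 10073, .ofNat 0, .ofNat 0, .ofNat 356901141948633057860989747200, .ofNat 0, .ofNat 0, .ofNat 0, .ofNat 149708947403785458718771406438400, .ofNat 0, .ofNat 0, .ofNat 0, .ofNat 0, .ofNat 0, .ofNat 0, .ofNat 0, .ofNat 64787098784573199371435664998400, .ofNat 0⟩)
    (by decide +kernel)
theorem L01678 : Good (Phi V4.P V4.D 1 1) ⟨6, 54, 4, 9, 2, 3, 2, 0, 4, 3⟩ :=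
  out_sound (S := T4.ds_pp) T4.ok_pp (w := 72) (j := 3) (by decide +kernel)
theorem L01679 : Good (Phi V4.P V4.D 1 1) ⟨8, 220, 7, 72, 2, 3, 2, 0, 4, 3⟩ :=
  leaf_sound (S := T4.ds_pp) T4.ok_pp (w := 216) (c := ⟨⟨.negSucc 2367, .ofNat 97, .negSucc 134, .negSucc 50, .negSucc 193, .ofNat 293⟩, ⟨.negSucc 1338, .ofNat 58, .negSucc 94, .negSucc 23, .negSucc 110, .ofNat 166⟩, ⟨.ofNat 1794, .ofNat 124, .ofNat 51, .negSucc 369, .negSucc 21, .negSucc 430⟩, ⟨.negSucc 4544, .ofNat 159, .negSucc 214, .negSucc 877, .negSucc 153, .ofNat 538⟩, ⟨.ofNat 1721, .negSucc 18, .ofNat 11, .ofNat 1411, .negSucc 241, .negSucc 171⟩, .ofNat 11730, .negSucc 20042, .ofNat 0, .negSucc 20042, .ofNat 35403, .ofNat 0, .ofNat 91, .ofNat 748, .negSucc 408, .ofNat 0, .ofNat 429, .negSucc 230, .ofNat 0, .ofNat 0, .ofNat 973, .ofNat 10437, .ofNat 0, .ofNat 0, .ofNat 439296279608982797330625331200,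 .ofNat 0, .ofNat 0, .ofNat 0, .ofNat 0, .ofNat 0, .ofNat 92414111688761859287216171869081603512729600, .ofNat 0, .ofNat 48508058404681408372729813401600, .ofNat 0, .ofNat 0, .ofNat 0, .ofNat 0, .ofNat 0⟩)
    (by decide +kernel)
theorem L01680 : Good (Phi V4.P V4.D 1 1) ⟨8, 220, 7, 73, 2, 3, 2, 0, 4, 3⟩ :=
  out_sound (S := T4.ds_pp) T4.ok_pp (w := 88) (j := 3) (by decide +kernel)
theorem L01681 : Good (Phi V4.P V4.D 1 1) ⟨8, 221, 6, 36, 2, 3, 3, 0, 4, 3⟩ :=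
  leaf_sound (S := T4.ds_pp) T4.ok_pp (w := 216) (c := ⟨⟨.negSucc 2207, .ofNat 195, .negSucc 172, .negSucc 128, .negSucc 140, .ofNat 278⟩, ⟨.negSucc 1246, .ofNat 100, .negSucc 119, .negSucc 71, .negSucc 80, .ofNat 159⟩, ⟨.ofNat 1859, .negSucc 195, .ofNat 193, .negSucc 375, .ofNat 32, .negSucc 447⟩, ⟨.negSucc 4362, .ofNat 159, .negSucc 139, .negSucc 965, .negSucc 116, .ofNat 524⟩, ⟨.ofNat 1832, .ofNat 234, .negSucc 224, .ofNat 1346, .negSucc 164, .negSucc 184⟩, .ofNat 15847, .negSucc 27077, .ofNat 0, .negSucc 27077, .ofNat 47414, .ofNat 0, .ofNat 73, .ofNat 742, .negSucc 400, .ofNat 0, .ofNat 428, .negSucc 228, .ofNat 0, .ofNat 0, .ofNat 972, .ofNat 22860, .ofNat 0, .ofNat 0, .ofNat 1712381860366116035214547353600, .ofNat 0, .ofNat 0, .ofNat 0, .ofNat 599983904692177663901408899891200, .ofNat 0, .ofNat 0, .ofNat 0, .ofNat 0, .ofNat 0, .ofNat 115295674745689395927429206612405114634240000,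 .ofNat 0, .ofNat 238929677294536133702691323904000, .ofNat 0⟩)
    (by decide +kernel)
theorem L01682 : Good (Phi V4.P V4.D 1 1) ⟨8, 221, 6, 36, 2, 3, 3, 1, 4, 3⟩ :=
  leaf_sound (S := T4.ds_pp) T4.ok_pp (w := 208) (c := ⟨⟨.negSucc 2337, .ofNat 187, .negSucc 239, .negSucc 78, .negSucc 115, .ofNat 308⟩, ⟨.negSucc 1321, .ofNat 94, .negSucc 157, .negSucc 42, .negSucc 65, .ofNat 177⟩, ⟨.ofNat 1811, .negSucc 125, .ofNat 173, .negSucc 300, .ofNat 12, .negSucc 408⟩, ⟨.negSucc 4424, .ofNat 258, .negSucc 340, .negSucc 925, .negSucc 114, .ofNat 567⟩, ⟨.ofNat 1598, .ofNat 43, .negSucc 46, .ofNat 1408, .negSucc 102, .negSucc 180⟩, .ofNat 5959, .negSucc 9872, .ofNat 0, .negSucc 9872, .ofNat 17468, .ofNat 0, .ofNat 116, .ofNat 751, .negSucc 442, .ofNat 0, .ofNat 436, .negSucc 249, .ofNat 0, .ofNat 0, .ofNat 992, .ofNat 16610, .ofNat 0, .ofNat 0, .ofNat 0, .ofNat 0, .ofNat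 0, .ofNat 0, .ofNat 549783644275958248760896231833600, .ofNat 0, .ofNat 0, .ofNat 0, .ofNat 214379895492890469814589875814400, .ofNat 0, .ofNat 0, .ofNat 0, .ofNat 248726018665658526408643077734400, .ofNat 0⟩)
    (by decide +kernel)
theorem L01683 : Good (Phi V4.P V4.D 1 1) ⟨8, 220, 6, 37, 2, 3, 2, 0, 4, 3⟩ :=
  out_sound (S := T4.ds_pp) T4.ok_pp (w := 88) (j := 3) (by decide +kernel)
theorem L01684 : Good (Phi V4.P V4.D 1 1) ⟨9, 442, 7, 74, 2, 3, 2, 0, 4, 3⟩ :=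
  out_sound (S := T4.ds_pp) T4.ok_pp (w := 96) (j := 3) (by decide +kernel)
theorem L01685 : Good (Phi V4.P V4.D 1 1) ⟨10, 886, 8, 148, 2, 3, 2, 0, 4, 3⟩ :=
  out_sound (S := T4.ds_pp) T4.ok_pp (w := 104) (j := 3) (by decide +kernel)
theorem L01686 : Good (Phi V4.P V4.D 1 1) ⟨10, 887, 8, 148, 2, 3, 2, 0, 4, 3⟩ :=
  out_sound (S := T4.ds_pp) T4.ok_pp (w := 32) (j := 4) (by decide +kernel)
theorem L01687 : Good (Phi V4.P V4.D 1 1) ⟨9, 443, 8, 149, 2, 3, 2, 0, 4, 3⟩ :=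
  out_sound (S := T4.ds_pp) T4.ok_pp (w := 96) (j := 3) (by decide +kernel)
theorem L01688 : Good (Phi V4.P V4.D 1 1) ⟨8, 221, 7, 75, 2, 3, 2, 0, 4, 3⟩ :=
  out_sound (S := T4.ds_pp) T4.ok_pp (w := 88) (j := 3) (by decide +kernel)
theorem L01689 : Good (Phi V4.P V4.D 1 1) ⟨7, 111, 5, 18, 2, 3, 2, 0, 4, 3⟩ :=
  out_sound (S := T4.ds_pp) T4.ok_pp (w := 24) (j := 4) (by decide +kernel)
theorem L01690 : Good (Phi V4.P V4.D 1 1) ⟨7, 110, 5, 19, 2, 3, 2, 0, 4, 3⟩ :=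
  out_sound (S := T4.ds_pp) T4.ok_pp (w := 80) (j := 3) (by decide +kernel)
theorem L01691 : Good (Phi V4.P V4.D 1 1) ⟨7, 111, 5, 19, 2, 3, 2, 0, 4, 3⟩ :=
  out_sound (S := T4.ds_pp) T4.ok_pp (w := 24) (j := 4) (by decide +kernel)
theorem L01692 : Good (Phi V4.P V4.D 1 1) ⟨5, 27, 4, 8, 2, 3, 2, 1, 4, 3⟩ :=
  leaf_sound (S := T4.ds_pp) T4.ok_pp (w := 184) (c := ⟨⟨.negSucc 2407, .negSucc 146, .ofNat 50, .negSucc 192, .negSucc 317, .ofNat 291⟩, ⟨.negSucc 1233, .negSucc 73, .negSucc 109, .negSucc 86, .negSucc 173, .ofNat 158⟩, ⟨.ofNat 1628, .ofNat 131, .negSucc 13, .negSucc 32, .ofNat 86, .negSucc 346⟩, ⟨.negSucc 4365, .negSucc 179, .ofNat 12, .negSucc 1176, .negSucc 442, .ofNat 516⟩, ⟨.ofNat 1296, .negSucc 38, .ofNat 81, .ofNat 1621, .negSucc 77, .negSucc 133⟩, .ofNat 753, .negSucc 877, .ofNat 0, .negSucc 877, .ofNat 1859, .ofNat 0, .ofNat 194, .ofNat 364, .negSucc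 317, .ofNat 0, .ofNat 228, .negSucc 143, .ofNat 0, .ofNat 0, .ofNat 541, .ofNat 3241, .ofNat 0, .ofNat 0, .ofNat 209437777010240310762012672000, .ofNat 0, .ofNat 0, .ofNat 0, .ofNat 25901007666784002802509152256000, .ofNat 0, .ofNat 0, .ofNat 0, .ofNat 9895201000126731930617826508800, .ofNat 0, .ofNat 0, .ofNat 0, .ofNat 8541263352627215720170861363200, .ofNat 0⟩)
    (by decide +kernel)
theorem L01693 : Good (Phi V4.P V4.D 1 1) ⟨6, 54, 4, 9, 2, 3, 2, 1, 4, 3⟩ :=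
  out_sound (S := T4.ds_pp) T4.ok_pp (w := 72) (j := 3) (by decide +kernel)
theorem L01694 : Good (Phi V4.P V4.D 1 1) ⟨7, 110, 5, 18, 2, 3, 2, 1, 4, 3⟩ :=
  leaf_sound (S := T4.ds_pp) T4.ok_pp (w := 200) (c := ⟨⟨.negSucc 2470, .negSucc 173, .ofNat 46, .negSucc 69, .negSucc 314, .ofNat 353⟩, ⟨.negSucc 1382, .negSucc 129, .negSucc 13, .negSucc 36, .negSucc 179, .ofNat 202⟩, ⟨.ofNat 1689, .ofNat 95, .ofNat 52, .negSucc 85, .ofNat 78, .negSucc 383⟩, ⟨.negSucc 4465, .negSucc 205, .negSucc 9, .negSucc 1075, .negSucc 446, .ofNat 604⟩, ⟨.ofNat 1319, .negSucc 105, .ofNat 135, .ofNat 1696, .negSucc 45, .negSucc 126⟩, .ofNat 5834, .negSucc 9664, .ofNat 0, .negSucc 9664, .ofNat 17124, .ofNat 0, .ofNat 62, .ofNat 403, .negSucc 284, .ofNat 0, .ofNat 234, .negSucc 159, .ofNat 0, .ofNat 0, .ofNat 524, .ofNat 2766, .ofNat 0, .ofNat 0, .ofNat 64580664266386624873916006400,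 .ofNat 0, .ofNat 0, .ofNat 0, .ofNat 18811918259957386689633268531200, .ofNat 0, .ofNat 0, .ofNat 0, .ofNat 6847407515276942799217360896000, .ofNat 0, .ofNat 0, .ofNat 0, .ofNat 0, .ofNat 0⟩)
    (by decide +kernel)
theorem L01695 : Good (Phi V4.P V4.D 1 1) ⟨7, 111, 5, 18, 2, 3, 2, 1, 4, 3⟩ :=
  out_sound (S := T4.ds_pp) T4.ok_pp (w := 24) (j := 4) (by decide +kernel)
theorem L01696 : Good (Phi V4.P V4.D 1 1) ⟨7, 110, 5, 19, 2, 3, 2, 1, 4, 3⟩ :=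
  out_sound (S := T4.ds_pp) T4.ok_pp (w := 80) (j := 3) (by decide +kernel)
theorem L01697 : Good (Phi V4.P V4.D 1 1) ⟨7, 111, 5, 19, 2, 3, 2, 1, 4, 3⟩ :=
  out_sound (S := T4.ds_pp) T4.ok_pp (w := 24) (j := 4) (by decide +kernel)
theorem L01698 : Good (Phi V4.P V4.D 1 1) ⟨4, 13, 3, 5, 2, 3, 1, 0, 3, 1⟩ :=
  out_sound (S := T4.ds_pp) T4.ok_pp (w := 56) (j := 3) (by decide +kernel)
theorem L01699 : Good (Phi V4.P V4.D 1 1) ⟨3, 7, 2, 2, 2, 3, 1, 0, 3, 1⟩ :=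
  out_sound (S := T4.ds_pp) T4.ok_pp (w := 16) (j := 4) (by decide +kernel)
theorem L01700 : Good (Phi V4.P V4.D 1 1) ⟨2, 2, 2, 3, 2, 3, 1, 0, 2, 0⟩ :=
  out_sound (S := T4.ds_pp) T4.ok_pp (w := 40) (j := 3) (by decide +kernel)
theorem L01701 : Good (Phi V4.P V4.D 1 1) ⟨3, 6, 2, 3, 2, 3, 1, 0, 2, 0⟩ :=
  out_sound (S := T4.ds_pp) T4.ok_pp (w := 48) (j := 3) (by decide +kernel)
theorem L01702 : Good (Phi V4.P V4.D 1 1) ⟨3, 7, 2, 3, 2, 3, 1, 0, 2, 0⟩ :=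
  out_sound (S := T4.ds_pp) T4.ok_pp (w := 16) (j := 4) (by decide +kernel)
theorem L01703 : Good (Phi V4.P V4.D 1 1) ⟨2, 2, 1, 1, 2, 2, 1, 0, 2, 1⟩ :=
  out_sound (S := T4.ds_pp) T4.ok_pp (w := 40) (j := 3) (by decide +kernel)
theorem L01704 : Good (Phi V4.P V4.D 1 1) ⟨4, 12, 2, 2, 2, 2, 1, 0, 2, 1⟩ :=
  out_sound (S := T4.ds_pp) T4.ok_pp (w := 56) (j := 3) (by decide +kernel)
theorem L01705 : Good (Phi V4.P V4.D 1 1) ⟨5, 26, 3, 4, 2, 2, 1, 0, 3, 2⟩ :=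
  out_sound (S := T4.ds_pp) T4.ok_pp (w := 64) (j := 3) (by decide +kernel)
theorem L01706 : Good (Phi V4.P V4.D 1 1) ⟨5, 27, 4, 8, 2, 2, 1, 0, 4, 4⟩ :=
  leaf_sound (S := T4.ds_pp) T4.ok_pp (w := 184) (c := ⟨⟨.negSucc 1544, .negSucc 101, .ofNat 41, .negSucc 404, .negSucc 307, .ofNat 138⟩, ⟨.negSucc 793, .negSucc 63, .negSucc 62, .negSucc 208, .negSucc 170, .ofNat 73⟩, ⟨.ofNat 1278, .ofNat 196, .negSucc 89, .ofNat 93, .negSucc 168, .negSucc 292⟩, ⟨.negSucc 2679, .negSucc 156, .ofNat 84, .negSucc 1068, .negSucc 244, .ofNat 297⟩, ⟨.ofNat 574, .ofNat 95, .negSucc 44, .ofNat 830, .negSucc 403, .negSucc 158⟩, .ofNat 3417, .negSucc 5645, .ofNat 0, .negSucc 5645, .ofNat 10507, .ofNat 0, .ofNat 156, .ofNat 600, .negSucc 397, .ofNat 0, .ofNat 346, .negSucc 209, .ofNat 0, .ofNat 0, .ofNat 994, .ofNat 4493, .ofNat 235819469702920728345466788170956800, .ofNat 0, .ofNat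 30574522083717965313736704000, .ofNat 0, .ofNat 5022497944997450076229543784978841600, .ofNat 0, .ofNat 21500126089171845260229004492800, .ofNat 0, .ofNat 0, .ofNat 0, .ofNat 7486593106691114231281798348800, .ofNat 0, .ofNat 0, .ofNat 0, .ofNat 0, .ofNat 0⟩)
    (by decide +kernel)
theorem L01707 : Good (Phi V4.P V4.D 1 1) ⟨5, 27, 4, 8, 2, 2, 1, 0, 4, 5⟩ :=
  leaf_sound (S := T4.ds_pp) T4.ok_pp (w := 184) (c := ⟨⟨.negSucc 1438, .ofNat 6, .negSucc 26, .negSucc 314, .negSucc 342, .ofNat 150⟩, ⟨.negSucc 740, .negSucc 19, .negSucc 83, .negSucc 161, .negSucc 189, .ofNat 81⟩, ⟨.ofNat 906, .ofNat 67, .negSucc 33, .ofNat 1, .ofNat 75, .negSucc 283⟩, ⟨.negSucc 2401, .negSucc 1, .negSucc 0, .negSucc 880, .negSucc 409, .ofNat 310⟩, ⟨.ofNat 362, .ofNat 92, .negSucc 64, .ofNat 739, .negSucc 203, .negSucc 149⟩, .ofNat 1791, .negSucc 2708, .ofNat 0, .negSucc 2708, .ofNat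 5171, .ofNat 0, .ofNat 190, .ofNat 531, .negSucc 332, .ofNat 0, .ofNat 319, .negSucc 168, .ofNat 0, .ofNat 0, .ofNat 961, .ofNat 4890, .ofNat 0, .ofNat 0, .ofNat 0, .ofNat 0, .ofNat 28699899399854629963682519317059993600, .ofNat 0, .ofNat 11982480146639564693983513804800, .ofNat 0, .ofNat 20600660392540146134239662738033868800, .ofNat 0, .ofNat 6616118887419832877338066944000, .ofNat 0, .ofNat 0, .ofNat 0, .ofNat 0, .ofNat 0⟩)
    (by decide +kernel)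
theorem L01708 : Good (Phi V4.P V4.D 1 1) ⟨6, 54, 4, 9, 2, 2, 1, 0, 3, 2⟩ :=
  out_sound (S := T4.ds_pp) T4.ok_pp (w := 72) (j := 3) (by decide +kernel)
theorem L01709 : Good (Phi V4.P V4.D 1 1) ⟨7, 110, 5, 18, 2, 2, 2, 0, 3, 2⟩ :=
  leaf_sound (S := T4.ds_pp) T4.ok_pp (w := 200) (c := ⟨⟨.negSucc 1615, .negSucc 31, .ofNat 3, .negSucc 318, .negSucc 138, .ofNat 299⟩, ⟨.negSucc 907, .negSucc 33, .negSucc 24, .negSucc 179, .negSucc 79, .ofNat 170⟩, ⟨.ofNat 1377, .ofNat 38, .ofNat 13, .negSucc 0, .negSucc 93, .negSucc 706⟩, ⟨.negSucc 2772, .negSucc 143, .ofNat 96, .negSucc 937, .negSucc 71, .ofNat 685⟩, ⟨.ofNat 591, .ofNat 182, .negSucc 159, .ofNat 803, .negSucc 239, .negSucc 409⟩, .ofNat 5655, .negSucc 9367, .ofNat 0, .negSucc 9367, .ofNat 16634, .ofNat 0, .ofNat 104, .ofNat 574, .negSucc 318, .ofNat 0, .ofNat 336, .negSucc 177, .ofNat 0, .ofNat 0, .ofNat 985,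 .ofNat 11831, .ofNat 0, .ofNat 0, .ofNat 0, .ofNat 0, .ofNat 0, .ofNat 0, .ofNat 0, .ofNat 0, .ofNat 0, .ofNat 0, .ofNat 0, .ofNat 0, .ofNat 0, .ofNat 0, .ofNat 0, .ofNat 0⟩)
    (by decide +kernel)
theorem L01710 : Good (Phi V4.P V4.D 1 1) ⟨7, 110, 5, 18, 2, 2, 2, 1, 3, 2⟩ :=
  leaf_sound (S := T4.ds_pp) T4.ok_pp (w := 200) (c := ⟨⟨.negSucc 1740, .ofNat 133, .negSucc 162, .negSucc 412, .negSucc 199, .ofNat 267⟩, ⟨.negSucc 976, .ofNat 53, .negSucc 112, .negSucc 235, .negSucc 114, .ofNat 152⟩, ⟨.ofNat 1197, .negSucc 211, .ofNat 238, .ofNat 119, .ofNat 19, .negSucc 479⟩, ⟨.negSucc 2824, .ofNat 274, .negSucc 347, .negSucc 1073, .negSucc 247, .ofNat 519⟩, ⟨.ofNat 352, .negSucc 118, .ofNat 192, .ofNat 790, .negSucc 91, .negSucc 205⟩, .ofNat 5750, .negSucc 9524, .ofNat 0, .negSucc 9524, .ofNat 16894, .ofNat 0, .ofNat 105, .ofNat 598, .negSucc 424, .ofNat 0, .ofNat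 350, .negSucc 238, .ofNat 0, .ofNat 0, .ofNat 991, .ofNat 5673, .ofNat 0, .ofNat 0, .ofNat 0, .ofNat 0, .ofNat 0, .ofNat 0, .ofNat 4015499934663688319790376550400, .ofNat 0, .ofNat 0, .ofNat 0, .ofNat 0, .ofNat 0, .ofNat 0, .ofNat 5435115605321456689789154884165671321600, .ofNat 907478088987351788842018406400, .ofNat 0⟩)
    (by decide +kernel)
theorem L01711 : Good (Phi V4.P V4.D 1 1) ⟨7, 111, 5, 18, 2, 2, 1, 0, 3, 2⟩ :=
  out_sound (S := T4.ds_pp) T4.ok_pp (w := 24) (j := 4) (by decide +kernel)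
theorem L01712 : Good (Phi V4.P V4.D 1 1) ⟨7, 110, 5, 19, 2, 2, 1, 0, 3, 2⟩ :=
  out_sound (S := T4.ds_pp) T4.ok_pp (w := 80) (j := 3) (by decide +kernel)
theorem L01713 : Good (Phi V4.P V4.D 1 1) ⟨7, 111, 5, 19, 2, 2, 1, 0, 3, 2⟩ :=
  out_sound (S := T4.ds_pp) T4.ok_pp (w := 24) (j := 4) (by decide +kernel)
theorem L01714 : Good (Phi V4.P V4.D 1 1) ⟨4, 13, 3, 5, 2, 2, 1, 0, 3, 2⟩ :=
  out_sound (S := T4.ds_pp) T4.ok_pp (w := 56) (j := 3) (by decide +kernel)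
theorem L01715 : Good (Phi V4.P V4.D 1 1) ⟨5, 26, 3, 4, 2, 2, 1, 0, 3, 3⟩ :=
  out_sound (S := T4.ds_pp) T4.ok_pp (w := 64) (j := 3) (by decide +kernel)
theorem L01716 : Good (Phi V4.P V4.D 1 1) ⟨5, 27, 3, 4, 2, 2, 2, 0, 3, 3⟩ :=
  leaf_sound (S := T4.ds_pp) T4.ok_pp (w := 184) (c := ⟨⟨.negSucc 1354, .negSucc 79, .ofNat 41, .negSucc 224, .negSucc 127, .ofNat 222⟩, ⟨.negSucc 698, .negSucc 76, .negSucc 75, .negSucc 118, .negSucc 74, .ofNat 122⟩, ⟨.ofNat 572, .ofNat 179, .negSucc 187, .negSucc 118, .ofNat 118, .negSucc 475⟩, ⟨.negSucc 2182, .negSucc 208, .ofNat 196, .negSucc 667, .negSucc 156, .ofNat 440⟩, ⟨.ofNat 192, .ofNat 260, .negSucc 238, .ofNat 592, .negSucc 70, .negSucc 185⟩, .ofNat 1838, .negSucc 2784, .ofNat 0, .negSucc 2784, .ofNat 5286, .ofNat 0, .ofNat 165, .ofNat 451, .negSucc 236, .ofNat 0, .ofNat 275, .negSucc 119, .ofNat 0, .ofNat 0, .ofNat 928,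 .ofNat 15845, .ofNat 1003747009576185803396548725099724800, .ofNat 0, .ofNat 0, .ofNat 0, .ofNat 228370077093392260148729217024000000, .ofNat 0, .ofNat 4661897224075612804086969139200, .ofNat 0, .ofNat 11667591741715773357690366284582092800, .ofNat 1439704314525070741438281225653452800, .ofNat 0, .ofNat 0, .ofNat 51875996689456689158512251061351219200, .ofNat 2780660407906815138973384322737766400, .ofNat 1085169003458954826052376985600, .ofNat 0⟩)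
    (by decide +kernel)
theorem L01717 : Good (Phi V4.P V4.D 1 1) ⟨5, 27, 3, 4, 2, 2, 2, 1, 3, 3⟩ :=
  leaf_sound (S := T4.ds_pp) T4.ok_pp (w := 184) (c := ⟨⟨.negSucc 1446, .negSucc 82, .ofNat 28, .negSucc 283, .negSucc 191, .ofNat 207⟩, ⟨.negSucc 748, .negSucc 92, .negSucc 77, .negSucc 148, .negSucc 106, .ofNat 114⟩, ⟨.ofNat 614, .ofNat 187, .negSucc 198, .negSucc 43, .ofNat 178, .negSucc 355⟩, ⟨.negSucc 2288, .negSucc 107, .ofNat 93, .negSucc 741, .negSucc 304, .ofNat 380⟩, ⟨.ofNat 125, .ofNat 59, .negSucc 66, .ofNat 570, .ofNat 23, .negSucc 115⟩, .ofNat 1855, .negSucc 2810, .ofNat 0, .negSucc 2810, .ofNat 5326, .ofNat 0, .ofNat 167, .ofNat 471, .negSucc 299, .ofNat 0, .ofNat 286, .negSucc 154, .ofNat 0, .ofNat 0, .ofNat 903, .ofNat 5383, .ofNat 0, .ofNat 0, .ofNat 0, .ofNat 0, .ofNat 0, .ofNat 3103551948672067598458622613179596800, .ofNat 3141757494062285226751977062400,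 .ofNat 0, .ofNat 0, .ofNat 1646626117229995920672149920441958400, .ofNat 0, .ofNat 0, .ofNat 0, .ofNat 0, .ofNat 0, .ofNat 0⟩)
    (by decide +kernel)
theorem L01718 : Good (Phi V4.P V4.D 1 1) ⟨4, 13, 3, 5, 2, 2, 1, 0, 3, 3⟩ :=
  out_sound (S := T4.ds_pp) T4.ok_pp (w := 56) (j := 3) (by decide +kernel)
theorem L01719 : Good (Phi V4.P V4.D 1 1) ⟨3, 6, 2, 3, 2, 2, 1, 0, 2, 1⟩ :=
  out_sound (S := T4.ds_pp) T4.ok_pp (w := 48) (j := 3) (by decide +kernel)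
theorem L01720 : Good (Phi V4.P V4.D 1 1) ⟨3, 7, 1, 1, 2, 2, 1, 0, 2, 1⟩ :=
  out_sound (S := T4.ds_pp) T4.ok_pp (w := 16) (j := 4) (by decide +kernel)
theorem L01721 : Good (Phi V4.P V4.D 1 1) ⟨2, 2, 1, 1, 2, 3, 1, 0, 2, 1⟩ :=
  out_sound (S := T4.ds_pp) T4.ok_pp (w := 40) (j := 3) (by decide +kernel)
theorem L01722 : Good (Phi V4.P V4.D 1 1) ⟨4, 12, 2, 2, 2, 3, 1, 0, 3, 2⟩ :=
  out_sound (S := T4.ds_pp) T4.ok_pp (w := 56) (j := 3) (by decide +kernel)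
theorem L01723 : Good (Phi V4.P V4.D 1 1) ⟨5, 26, 3, 4, 2, 3, 1, 0, 4, 4⟩ :=
  out_sound (S := T4.ds_pp) T4.ok_pp (w := 64) (j := 3) (by decide +kernel)
theorem L01724 : Good (Phi V4.P V4.D 1 1) ⟨5, 27, 4, 8, 2, 3, 2, 0, 4, 4⟩ :=
  leaf_sound (S := T4.ds_pp) T4.ok_pp (w := 192) (c := ⟨⟨.negSucc 2025, .ofNat 145, .negSucc 72, .negSucc 65, .negSucc 181, .ofNat 235⟩, ⟨.negSucc 1034, .ofNat 128, .negSucc 182, .negSucc 19, .negSucc 101, .ofNat 126⟩, ⟨.ofNat 1336, .negSucc 229, .ofNat 170, .negSucc 296, .ofNat 106, .negSucc 405⟩, ⟨.negSucc 3843, .ofNat 192, .negSucc 145, .negSucc 957, .negSucc 142, .ofNat 486⟩, ⟨.ofNat 1421, .ofNat 194, .negSucc 68, .ofNat 1563, .negSucc 244, .negSucc 237⟩, .ofNat 1787, .negSucc 2704, .ofNat 0, .negSucc 2704, .ofNat 5172, .ofNat 0, .ofNat 215, .ofNat 622, .negSucc 289, .ofNat 0, .ofNat 364, .negSucc 149, .ofNat 0, .ofNat 0, .ofNat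 954, .ofNat 12233, .ofNat 0, .ofNat 0, .ofNat 517347110618528425757481369600, .ofNat 0, .ofNat 0, .ofNat 16813073905944694969749410022005145600, .ofNat 97340334740932186465406602444800, .ofNat 0, .ofNat 45458232333187361840201680872800256000, .ofNat 0, .ofNat 61689796596145683389175614668800, .ofNat 0, .ofNat 0, .ofNat 0, .ofNat 53036869510657462101829956403200, .ofNat 0⟩)
    (by decide +kernel)
theorem L01725 : Good (Phi V4.P V4.D 1 1) ⟨6, 54, 4, 9, 2, 3, 2, 0, 4, 4⟩ :=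
  out_sound (S := T4.ds_pp) T4.ok_pp (w := 72) (j := 3) (by decide +kernel)
theorem L01726 : Good (Phi V4.P V4.D 1 1) ⟨7, 110, 5, 18, 3, 6, 3, 0, 4, 4⟩ :=
  leaf_sound (S := T4.ds_pp) T4.ok_pp (w := 208) (c := ⟨⟨.negSucc 1981, .negSucc 7, .negSucc 2, .negSucc 100, .negSucc 89, .ofNat 229⟩, ⟨.negSucc 1109, .negSucc 26, .negSucc 32, .negSucc 55, .negSucc 51, .ofNat 131⟩, ⟨.ofNat 1403, .ofNat 7, .ofNat 37, .negSucc 75, .ofNat 6, .negSucc 439⟩, ⟨.negSucc 3860, .negSucc 12, .negSucc 19, .negSucc 524, .negSucc 55, .ofNat 497⟩, ⟨.ofNat 1545, .negSucc 0, .ofNat 17, .ofNat 653, .negSucc 139, .negSucc 266⟩, .ofNat 2227, .negSucc 3393, .ofNat 0, .negSucc 3393, .ofNat 6197, .ofNat 0, .ofNat 174, .ofNat 606, .negSucc 294, .ofNat 0, .ofNat 362, .negSucc 158, .ofNat 0, .ofNat 0, .ofNat 987, .ofNat 70391, .ofNat 16539016936613258925290092343375616697958400, .ofNat 0, .ofNat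 0, .ofNat 0, .ofNat 279819408518380259707038822536991515187609600, .ofNat 0, .ofNat 255846280826919103083958676697907200, .ofNat 0, .ofNat 0, .ofNat 0, .ofNat 157905900290947767749259143675904000, .ofNat 0, .ofNat 0, .ofNat 0, .ofNat 0, .ofNat 0⟩)
    (by decide +kernel)
theorem L01727 : Good (Phi V4.P V4.D 1 1) ⟨7, 110, 6, 36, 3, 7, 3, 0, 4, 4⟩ :=
  leaf_sound (S := T4.ds_pp) T4.ok_pp (w := 216) (c := ⟨⟨.negSucc 2098, .negSucc 28, .ofNat 10, .ofNat 55, .negSucc 87, .ofNat 253⟩, ⟨.negSucc 1178, .negSucc 25, .negSucc 20, .ofNat 33, .negSucc 50, .ofNat 144⟩, ⟨.ofNat 1284, .ofNat 5, .ofNat 17, .negSucc 276, .ofNat 66, .negSucc 405⟩, ⟨.negSucc 4410, .negSucc 20, .negSucc 2, .negSucc 409, .negSucc 46, .ofNat 513⟩, ⟨.ofNat 2205, .negSucc 43, .ofNat 13, .ofNat 861, .negSucc 149, .negSucc 231⟩, .ofNat 14546, .negSucc 24853, .ofNat 0, .negSucc 24853, .ofNat 43616,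 .ofNat 0, .ofNat 73, .ofNat 648, .negSucc 251, .ofNat 0, .ofNat 374, .negSucc 143, .ofNat 0, .ofNat 0, .ofNat 940, .ofNat 14396, .ofNat 8991934877490420375553480273850088082636800, .ofNat 0, .ofNat 1333680186127776255283599035596800, .ofNat 0, .ofNat 0, .ofNat 26682668697175160734167571444802709041971200, .ofNat 615352721285896296968384453541888000, .ofNat 0, .ofNat 0, .ofNat 0, .ofNat 0, .ofNat 0, .ofNat 0, .ofNat 0, .ofNat 0, .ofNat 0⟩)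
    (by decide +kernel)
theorem L01728 : Good (Phi V4.P V4.D 1 1) ⟨8, 220, 6, 37, 3, 7, 3, 0, 4, 4⟩ :=
  out_sound (S := T4.ds_pp) T4.ok_pp (w := 88) (j := 3) (by decide +kernel)
theorem L01729 : Good (Phi V4.P V4.D 1 1) ⟨9, 442, 7, 74, 3, 7, 3, 0, 4, 4⟩ :=
  out_sound (S := T4.ds_pp) T4.ok_pp (w := 96) (j := 3) (by decide +kernel)
theorem L01730 : Good (Phi V4.P V4.D 1 1) ⟨10, 886, 8, 148, 3, 7, 3, 0, 4, 4⟩ :=
  out_sound (S := T4.ds_pp) T4.ok_pp (w := 104) (j := 3) (by decide +kernel)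
theorem L01731 : Good (Phi V4.P V4.D 1 1) ⟨10, 887, 8, 148, 3, 7, 3, 0, 4, 4⟩ :=
  out_sound (S := T4.ds_pp) T4.ok_pp (w := 32) (j := 4) (by decide +kernel)
theorem L01732 : Good (Phi V4.P V4.D 1 1) ⟨9, 443, 8, 149, 3, 7, 3, 0, 4, 4⟩ :=
  out_sound (S := T4.ds_pp) T4.ok_pp (w := 96) (j := 3) (by decide +kernel)
theorem L01733 : Good (Phi V4.P V4.D 1 1) ⟨8, 221, 7, 75, 3, 7, 3, 0, 4, 4⟩ :=
  out_sound (S := T4.ds_pp) T4.ok_pp (w := 88) (j := 3) (by decide +kernel)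
theorem L01734 : Good (Phi V4.P V4.D 1 1) ⟨7, 110, 5, 18, 2, 3, 3, 1, 4, 4⟩ :=
  leaf_sound (S := T4.ds_pp) T4.ok_pp (w := 208) (c := ⟨⟨.negSucc 2102, .ofNat 8, .ofNat 12, .negSucc 79, .negSucc 121, .ofNat 226⟩, ⟨.negSucc 1176, .negSucc 21, .negSucc 25, .negSucc 42, .negSucc 69, .ofNat 129⟩, ⟨.ofNat 1351, .ofNat 37, .negSucc 8, .negSucc 211, .ofNat 64, .negSucc 363⟩, ⟨.negSucc 3919, .negSucc 8, .negSucc 1, .negSucc 980, .negSucc 124, .ofNat 488⟩, ⟨.ofNat 1337, .ofNat 24, .ofNat 24, .ofNat 1504, .negSucc 103, .negSucc 257⟩, .ofNat 5777, .negSucc 9568, .ofNat 0, .negSucc 9568, .ofNat 16966, .ofNat 0, .ofNat 111, .ofNat 652, .negSucc 319, .ofNat 0, .ofNat 379, .negSucc 179, .ofNat 0, .ofNat 0, .ofNat 967, .ofNat 17075, .ofNat 0, .ofNat 0, .ofNat 0, .ofNat 0, .ofNat 0, .ofNat 0, .ofNat 714000148343852660412047268249600, .ofNat 0, .ofNat 0, .ofNat 6905424680881718794165472065501947494400,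 .ofNat 0, .ofNat 0, .ofNat 0, .ofNat 0, .ofNat 0, .ofNat 0⟩)
    (by decide +kernel)
theorem L01735 : Good (Phi V4.P V4.D 1 1) ⟨7, 111, 5, 18, 2, 3, 2, 0, 4, 4⟩ :=
  out_sound (S := T4.ds_pp) T4.ok_pp (w := 24) (j := 4) (by decide +kernel)
theorem L01736 : Good (Phi V4.P V4.D 1 1) ⟨7, 110, 5, 19, 2, 3, 2, 0, 4, 4⟩ :=
  out_sound (S := T4.ds_pp) T4.ok_pp (w := 80) (j := 3) (by decide +kernel)
theorem L01737 : Good (Phi V4.P V4.D 1 1) ⟨7, 111, 5, 19, 2, 3, 2, 0, 4, 4⟩ :=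
  out_sound (S := T4.ds_pp) T4.ok_pp (w := 24) (j := 4) (by decide +kernel)
theorem L01738 : Good (Phi V4.P V4.D 1 1) ⟨5, 27, 4, 8, 2, 3, 2, 1, 4, 4⟩ :=
  leaf_sound (S := T4.ds_pp) T4.ok_pp (w := 192) (c := ⟨⟨.negSucc 2125, .negSucc 247, .ofNat 101, .negSucc 133, .negSucc 307, .ofNat 231⟩, ⟨.negSucc 1091, .negSucc 83, .negSucc 91, .negSucc 54, .negSucc 169, .ofNat 123⟩, ⟨.ofNat 1229, .ofNat 75, .ofNat 18, .negSucc 18, .ofNat 153, .negSucc 301⟩, ⟨.negSucc 3861, .negSucc 85, .negSucc 32, .negSucc 1096, .negSucc 461, .ofNat 448⟩, ⟨.ofNat 1155, .negSucc 396, .ofNat 253, .ofNat 1640, .negSucc 21, .negSucc 183⟩, .ofNat 1737, .negSucc 2624, .ofNat 0, .negSucc 2624, .ofNat 5053, .ofNat 0, .ofNat 224, .ofNat 648, .negSucc 404, .ofNat 0, .ofNat 380, .negSucc 205, .ofNat 0, .ofNat 0, .ofNat 988, .ofNat 4617, .ofNat 0, .ofNat 0, .ofNat 263148411348047890957624934400,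 .ofNat 0, .ofNat 0, .ofNat 0, .ofNat 121453169030768735853910740172800, .ofNat 0, .ofNat 0, .ofNat 58889155941471067808770459596069273600, .ofNat 39720063364405867252547164569600, .ofNat 0, .ofNat 0, .ofNat 0, .ofNat 0, .ofNat 0⟩)
    (by decide +kernel)
theorem L01739 : Good (Phi V4.P V4.D 1 1) ⟨5, 27, 4, 9, 3, 6, 2, 1, 4, 4⟩ :=
  leaf_sound (S := T4.ds_pp) T4.ok_pp (w := 200) (c := ⟨⟨.negSucc 2177, .ofNat 22, .negSucc 11, .negSucc 144, .negSucc 295, .ofNat 260⟩, ⟨.negSucc 1202, .negSucc 32, .negSucc 97, .negSucc 81, .negSucc 168, .ofNat 149⟩, ⟨.ofNat 1303, .ofNat 1, .ofNat 29, .ofNat 61, .ofNat 83, .negSucc 339⟩, ⟨.negSucc 3957, .ofNat 20, .negSucc 30, .negSucc 640, .negSucc 404, .ofNat 497⟩, ⟨.ofNat 1194, .ofNat 24, .ofNat 25, .ofNat 738, .negSucc 69, .negSucc 183⟩, .ofNat 5819, .negSucc 9641, .ofNat 0, .negSucc 9641, .ofNat 17088, .ofNat 0, .ofNat 112,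 .ofNat 677, .negSucc 443, .ofNat 0, .ofNat 394, .negSucc 248, .ofNat 0, .ofNat 0, .ofNat 1011, .ofNat 3213, .ofNat 0, .ofNat 0, .ofNat 133832491122425813395105539686400, .ofNat 0, .ofNat 0, .ofNat 0, .ofNat 119692284250020825797648512450560000, .ofNat 0, .ofNat 0, .ofNat 0, .ofNat 0, .ofNat 0, .ofNat 0, .ofNat 0, .ofNat 0, .ofNat 0⟩)
    (by decide +kernel)
theorem L01740 : Good (Phi V4.P V4.D 1 1) ⟨5, 27, 4, 9, 3, 7, 2, 1, 4, 4⟩ :=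
  leaf_sound (S := T4.ds_pp) T4.ok_pp (w := 200) (c := ⟨⟨.negSucc 2306, .negSucc 15, .negSucc 37, .ofNat 85, .negSucc 314, .ofNat 286⟩, ⟨.negSucc 1270, .negSucc 60, .negSucc 124, .ofNat 50, .negSucc 179, .ofNat 164⟩, ⟨.ofNat 1285, .ofNat 47, .ofNat 71, .negSucc 115, .ofNat 190, .negSucc 322⟩, ⟨.negSucc 4512, .negSucc 57, .negSucc 111, .negSucc 412, .negSucc 515, .ofNat 520⟩, ⟨.ofNat 1848, .ofNat 35, .ofNat 53, .ofNat 943, .ofNat 73, .negSucc 158⟩, .ofNat 2238, .negSucc 3411, .ofNat 0, .negSucc 3411, .ofNat 6225, .ofNat 0, .ofNat 190, .ofNat 690, .negSucc 395, .ofNat 0, .ofNat 410, .negSucc 215, .ofNat 0, .ofNat 0, .ofNat 982, .ofNat 6403, .ofNat 0, .ofNat 0, .ofNat 221766902733353857638289794662400, .ofNat 0, .ofNat 0, .ofNat 0, .ofNat 100367742281795625981795516599500800, .ofNat 0, .ofNat 0, .ofNat 0, .ofNat 0, .ofNat 0, .ofNat 0, .ofNat 0, .ofNat 0, .ofNat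 0⟩)
    (by decide +kernel)
theorem L01741 : Good (Phi V4.P V4.D 1 1) ⟨4, 13, 3, 5, 2, 3, 1, 0, 4, 4⟩ :=
  out_sound (S := T4.ds_pp) T4.ok_pp (w := 56) (j := 3) (by decide +kernel)
theorem L01742 : Good (Phi V4.P V4.D 1 1) ⟨5, 26, 3, 4, 2, 3, 1, 0, 4, 5⟩ :=
  out_sound (S := T4.ds_pp) T4.ok_pp (w := 64) (j := 3) (by decide +kernel)
theorem L01743 : Good (Phi V4.P V4.D 1 1) ⟨5, 27, 4, 8, 2, 3, 2, 0, 4, 5⟩ :=
  leaf_sound (S := T4.ds_pp) T4.ok_pp (w := 184) (c := ⟨⟨.negSucc 1750, .negSucc 60, .ofNat 18, .negSucc 154, .negSucc 168, .ofNat 189⟩, ⟨.negSucc 895, .negSucc 18, .negSucc 93, .negSucc 67, .negSucc 92, .ofNat 101⟩, ⟨.ofNat 866, .ofNat 152, .negSucc 45, .negSucc 128, .ofNat 99, .negSucc 367⟩, ⟨.negSucc 3320, .negSucc 92, .ofNat 7, .negSucc 970, .negSucc 157, .ofNat 404⟩, ⟨.ofNat 1204, .ofNat 54, .negSucc 0, .ofNat 1351, .negSucc 176, .negSucc 212⟩, .ofNat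 753, .negSucc 877, .ofNat 0, .negSucc 877, .ofNat 1859, .ofNat 0, .ofNat 311, .ofNat 495, .negSucc 272, .ofNat 0, .ofNat 332, .negSucc 115, .ofNat 0, .ofNat 0, .ofNat 985, .ofNat 9531, .ofNat 0, .ofNat 0, .ofNat 0, .ofNat 0, .ofNat 0, .ofNat 120324757111575880844652210001281024000, .ofNat 67963482493994609261442131558400, .ofNat 0, .ofNat 0, .ofNat 72061923129043974242397969629734502400, .ofNat 0, .ofNat 0, .ofNat 0, .ofNat 83296181337652832467698384975691776000, .ofNat 0, .ofNat 0⟩)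
    (by decide +kernel)

end Crest.Agent.R097C4.N4pp
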