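import Crest.Agent.R097.T4

/-!
# Row 97, box cover in dimension n = 4 (generated)
-/

set_option autoImplicit false
set_option Elab.async false
set_option maxHeartbeats 0
set_option maxRecDepth 100000

open Crest.Agent.R097 Crest.Agent.R097.KA


namespace Crest.Agent.R097C4.N4pp

theorem L01853 : Good (Phi V4.P V4.D 1 1) ⟨4, 13, 3, 4, 3, 5, 2, 2, 2, 1⟩ :=
  leaf_sound (S := T4.ds_pp) T4.ok_pp (w := 184) (c := ⟨⟨.negSucc 1875, .negSucc 331, .ofNat 96, .negSucc 266, .negSucc 527, .ofNat 580⟩, ⟨.negSucc 949, .negSucc 207, .negSucc 146, .negSucc 140, .negSucc 292, .ofNat 315⟩, ⟨.ofNat 1021, .ofNat 199, .negSucc 71, .ofNat 110, .ofNat 259, .negSucc 750⟩, ⟨.negSucc 3157, .negSucc 481, .ofNat 177, .negSucc 687, .negSucc 802, .ofNat 1001⟩, ⟨.ofNat 461, .ofNat 82, .ofNat 3, .ofNat 509, .ofNat 12, .negSucc 222⟩, .ofNat 1913, .negSucc 2900, .ofNat 0, .negSucc 2900, .ofNat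 5459, .ofNat 0, .ofNat 101, .ofNat 323, .negSucc 283, .ofNat 0, .ofNat 193, .negSucc 149, .ofNat 0, .ofNat 0, .ofNat 513, .ofNat 980, .ofNat 0, .ofNat 11234753738281273835438055043891200, .ofNat 167217801228964435273659187200, .ofNat 0, .ofNat 0, .ofNat 55648677281086692984291499966464000, .ofNat 62365982979697181075481978470400, .ofNat 0, .ofNat 0, .ofNat 0, .ofNat 0, .ofNat 0, .ofNat 0, .ofNat 1493255050727718204069550153216819200, .ofNat 0, .ofNat 0⟩)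
    (by decide +kernel)
theorem L01854 : Good (Phi V4.P V4.D 1 1) ⟨3, 7, 3, 4, 3, 5, 2, 2, 2, 1⟩ :=
  out_sound (S := T4.ds_pp) T4.ok_pp (w := 16) (j := 4) (by decide +kernel)
theorem L01855 : Good (Phi V4.P V4.D 1 1) ⟨4, 12, 3, 4, 3, 5, 3, 6, 2, 0⟩ :=
  out_sound (S := T4.ds_pp) T4.ok_pp (w := 56) (j := 3) (by decide +kernel)
theorem L01856 : Good (Phi V4.P V4.D 1 1) ⟨5, 26, 3, 4, 3, 5, 3, 6, 2, 0⟩ :=
  out_sound (S := T4.ds_pp) T4.ok_pp (w := 64) (j := 3) (by decide +kernel)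
theorem L01857 : Good (Phi V4.P V4.D 1 1) ⟨5, 27, 4, 8, 4, 10, 3, 6, 4, 0⟩ :=
  leaf_sound (S := T4.ds_pp) T4.ok_pp (w := 216) (c := ⟨⟨.negSucc 1318, .negSucc 533, .ofNat 232, .negSucc 207, .ofNat 156, .negSucc 828⟩, ⟨.negSucc 675, .negSucc 289, .ofNat 42, .negSucc 113, .ofNat 85, .negSucc 449⟩, ⟨.ofNat 803, .ofNat 357, .negSucc 181, .ofNat 144, .negSucc 354, .ofNat 500⟩, ⟨.negSucc 2159, .negSucc 803, .ofNat 376, .negSucc 424, .ofNat 336, .negSucc 1349⟩, ⟨.ofNat 241, .ofNat 90, .negSucc 27, .ofNat 201, .negSucc 179, .ofNat 162⟩, .ofNat 1762, .negSucc 2664, .ofNat 0, .negSucc 2664, .ofNat 5110, .ofNat 0, .ofNat 600, .ofNat 2025, .negSucc 3942, .ofNat 0, .ofNat 1185, .negSucc 2072, .ofNat 0, .ofNat 0, .ofNat 3820, .ofNat 8629, .ofNat 0, .ofNat 0, .ofNat 0, .ofNat 0, .ofNat 0, .ofNat 0, .ofNat 1250155243942149999901879349366331801600, .ofNat 0, .ofNat 0, .ofNat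 0, .ofNat 0, .ofNat 0, .ofNat 0, .ofNat 0, .ofNat 310915079920326811380801936050198937600, .ofNat 0⟩)
    (by decide +kernel)
theorem L01858 : Good (Phi V4.P V4.D 1 1) ⟨5, 27, 4, 9, 4, 10, 3, 6, 4, 0⟩ :=
  leaf_sound (S := T4.ds_pp) T4.ok_pp (w := 216) (c := ⟨⟨.negSucc 1464, .ofNat 44, .negSucc 54, .negSucc 191, .ofNat 234, .negSucc 863⟩, ⟨.negSucc 807, .negSucc 7, .negSucc 97, .negSucc 109, .ofNat 134, .negSucc 494⟩, ⟨.ofNat 894, .negSucc 44, .ofNat 19, .ofNat 124, .negSucc 421, .ofNat 528⟩, ⟨.negSucc 2370, .ofNat 78, .negSucc 67, .negSucc 402, .ofNat 467, .negSucc 1392⟩, ⟨.ofNat 272, .ofNat 4, .ofNat 25, .ofNat 199, .negSucc 201, .ofNat 164⟩, .ofNat 2240, .negSucc 3413, .ofNat 0, .negSucc 3413, .ofNat 6227, .ofNat 0, .ofNat 501, .ofNat 2070, .negSucc 4155, .ofNat 0, .ofNat 1233, .negSucc 2302, .ofNat 0, .ofNat 0, .ofNat 3967, .ofNat 3137, .ofNat 0, .ofNat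 0, .ofNat 0, .ofNat 0, .ofNat 0, .ofNat 0, .ofNat 0, .ofNat 0, .ofNat 0, .ofNat 0, .ofNat 0, .ofNat 0, .ofNat 0, .ofNat 0, .ofNat 561153658126301403159961913702901350400, .ofNat 0⟩)
    (by decide +kernel)
theorem L01859 : Good (Phi V4.P V4.D 1 1) ⟨5, 27, 4, 8, 4, 11, 3, 6, 4, 0⟩ :=
  leaf_sound (S := T4.ds_pp) T4.ok_pp (w := 216) (c := ⟨⟨.negSucc 1484, .ofNat 444, .negSucc 295, .negSucc 349, .ofNat 159, .negSucc 1025⟩, ⟨.negSucc 758, .ofNat 209, .negSucc 239, .negSucc 183, .ofNat 86, .negSucc 555⟩, ⟨.ofNat 929, .negSucc 351, .ofNat 205, .ofNat 235, .negSucc 353, .ofNat 604⟩, ⟨.negSucc 2518, .ofNat 767, .negSucc 474, .negSucc 680, .ofNat 354, .negSucc 1671⟩, ⟨.ofNat 437, .negSucc 25, .ofNat 38, .ofNat 271, .negSucc 206, .ofNat 203⟩, .ofNat 1760, .negSucc 2662, .ofNat 0, .negSucc 2662, .ofNat 5113, .ofNat 0, .ofNat 611, .ofNat 2186, .negSucc 4474, .ofNat 0, .ofNat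 1269, .negSucc 2351, .ofNat 0, .ofNat 0, .ofNat 4006, .ofNat 3417, .ofNat 0, .ofNat 0, .ofNat 0, .ofNat 0, .ofNat 0, .ofNat 0, .ofNat 1195870670435042488094482047467048140800, .ofNat 0, .ofNat 0, .ofNat 0, .ofNat 0, .ofNat 0, .ofNat 0, .ofNat 0, .ofNat 510295979072821365602254930543902720000, .ofNat 0⟩)
    (by decide +kernel)
theorem L01860 : Good (Phi V4.P V4.D 1 1) ⟨6, 54, 4, 9, 4, 11, 3, 6, 4, 0⟩ :=
  out_sound (S := T4.ds_pp) T4.ok_pp (w := 72) (j := 3) (by decide +kernel)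
theorem L01861 : Good (Phi V4.P V4.D 1 1) ⟨6, 55, 5, 18, 4, 11, 3, 6, 4, 0⟩ :=
  leaf_sound (S := T4.ds_pp) T4.ok_pp (w := 224) (c := ⟨⟨.negSucc 1517, .negSucc 42, .negSucc 61, .negSucc 459, .ofNat 210, .negSucc 993⟩, ⟨.negSucc 850, .negSucc 45, .negSucc 75, .negSucc 262, .ofNat 120, .negSucc 569⟩, ⟨.ofNat 941, .ofNat 27, .ofNat 42, .ofNat 307, .negSucc 406, .ofNat 573⟩, ⟨.negSucc 2551, .negSucc 66, .negSucc 90, .negSucc 858, .ofNat 448, .negSucc 1608⟩, ⟨.ofNat 461, .ofNat 21, .ofNat 18, .ofNat 293, .negSucc 228, .ofNat 200⟩, .ofNat 5822, .negSucc 9645, .ofNat 0, .negSucc 9645, .ofNat 17093, .ofNat 0, .ofNat 313, .ofNat 2247, .negSucc 4513, .ofNat 0, .ofNat 1305, .negSucc 2556, .ofNat 0, .ofNat 0, .ofNat 4035, .ofNat 2675, .ofNat 0, .ofNat 0, .ofNat 0, .ofNat 0, .ofNat 0, .ofNat 0, .ofNat 1328594207254158850971651774969230131200, .ofNat 0, .ofNat 0, .ofNat 0,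 .ofNat 0, .ofNat 0, .ofNat 0, .ofNat 0, .ofNat 247254514220363310388230638092576358400, .ofNat 0⟩)
    (by decide +kernel)
theorem L01862 : Good (Phi V4.P V4.D 1 1) ⟨7, 110, 5, 19, 4, 11, 3, 6, 4, 0⟩ :=
  out_sound (S := T4.ds_pp) T4.ok_pp (w := 80) (j := 3) (by decide +kernel)
theorem L01863 : Good (Phi V4.P V4.D 1 1) ⟨7, 111, 5, 19, 4, 11, 3, 6, 4, 0⟩ :=
  out_sound (S := T4.ds_pp) T4.ok_pp (w := 24) (j := 4) (by decide +kernel)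
theorem L01864 : Good (Phi V4.P V4.D 1 1) ⟨5, 27, 4, 8, 3, 5, 3, 6, 4, 1⟩ :=
  leaf_sound (S := T4.ds_pp) T4.ok_pp (w := 200) (c := ⟨⟨.negSucc 1732, .negSucc 942, .ofNat 383, .negSucc 862, .negSucc 246, .negSucc 505⟩, ⟨.negSucc 883, .negSucc 501, .ofNat 77, .negSucc 461, .negSucc 135, .negSucc 272⟩, ⟨.ofNat 1004, .ofNat 714, .negSucc 322, .ofNat 521, .negSucc 10, .ofNat 266⟩, ⟨.negSucc 2828, .negSucc 1508, .ofNat 658, .negSucc 1618, .negSucc 307, .negSucc 835⟩, ⟨.ofNat 299, .ofNat 283, .negSucc 121, .ofNat 564, .negSucc 125, .ofNat 122⟩, .ofNat 1758, .negSucc 2656, .ofNat 0, .negSucc 2656, .ofNat 5097, .ofNat 0, .ofNat 288, .ofNat 983, .negSucc 1733, .ofNat 0, .ofNat 573, .negSucc 911, .ofNat 0, .ofNat 0, .ofNat 1697, .ofNat 2542, .ofNat 0, .ofNat 0, .ofNat 0, .ofNat 0, .ofNat 0, .ofNat 0, .ofNat 622967748032027536766159687988019200, .ofNat 0, .ofNat 0, .ofNat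 0, .ofNat 323648770568372720261532252477849600, .ofNat 0, .ofNat 0, .ofNat 0, .ofNat 212229678973017267153172063007539200, .ofNat 0⟩)
    (by decide +kernel)
theorem L01865 : Good (Phi V4.P V4.D 1 1) ⟨5, 27, 4, 9, 3, 5, 3, 6, 4, 1⟩ :=
  leaf_sound (S := T4.ds_pp) T4.ok_pp (w := 208) (c := ⟨⟨.negSucc 1874, .negSucc 86, .negSucc 193, .negSucc 848, .negSucc 194, .negSucc 482⟩, ⟨.negSucc 1028, .negSucc 97, .negSucc 207, .negSucc 484, .negSucc 111, .negSucc 275⟩, ⟨.ofNat 1091, .ofNat 40, .ofNat 129, .ofNat 510, .negSucc 55, .ofNat 259⟩, ⟨.negSucc 3034, .negSucc 124, .negSucc 294, .negSucc 1592, .negSucc 210, .negSucc 789⟩, ⟨.ofNat 348, .ofNat 26, .ofNat 71, .ofNat 552, .negSucc 143, .ofNat 111⟩, .ofNat 2215, .negSucc 3374, .ofNat 0, .negSucc 3374, .ofNat 6170, .ofNat 0, .ofNat 483, .ofNat 2005, .negSucc 3661, .ofNat 0, .ofNat 1190, .negSucc 2024, .ofNat 0, .ofNat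 0, .ofNat 3527, .ofNat 2677, .ofNat 0, .ofNat 0, .ofNat 0, .ofNat 0, .ofNat 0, .ofNat 0, .ofNat 0, .ofNat 0, .ofNat 0, .ofNat 0, .ofNat 0, .ofNat 0, .ofNat 0, .ofNat 0, .ofNat 0, .ofNat 0⟩)
    (by decide +kernel)
theorem L01866 : Good (Phi V4.P V4.D 1 1) ⟨5, 27, 3, 4, 3, 5, 3, 6, 4, 2⟩ :=
  leaf_sound (S := T4.ds_pp) T4.ok_pp (w := 200) (c := ⟨⟨.negSucc 2109, .negSucc 260, .ofNat 21, .negSucc 854, .negSucc 596, .negSucc 224⟩, ⟨.negSucc 1063, .negSucc 246, .negSucc 164, .negSucc 465, .negSucc 331, .negSucc 122⟩, ⟨.ofNat 1194, .ofNat 143, .negSucc 31, .ofNat 468, .ofNat 278, .ofNat 95⟩, ⟨.negSucc 3456, .negSucc 358, .ofNat 74, .negSucc 1628, .negSucc 873, .negSucc 375⟩, ⟨.ofNat 385, .ofNat 125, .negSucc 72, .ofNat 601, .negSucc 54, .ofNat 64⟩, .ofNat 772, .negSucc 906, .ofNat 0, .negSucc 906, .ofNat 1888, .ofNat 0, .ofNat 422, .ofNat 883, .negSucc 1676, .ofNat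 0, .ofNat 561, .negSucc 829, .ofNat 0, .ofNat 0, .ofNat 1644, .ofNat 2513, .ofNat 0, .ofNat 0, .ofNat 0, .ofNat 0, .ofNat 0, .ofNat 0, .ofNat 0, .ofNat 0, .ofNat 0, .ofNat 0, .ofNat 0, .ofNat 0, .ofNat 0, .ofNat 0, .ofNat 0, .ofNat 0⟩)
    (by decide +kernel)
theorem L01867 : Good (Phi V4.P V4.D 1 1) ⟨5, 27, 4, 8, 3, 5, 3, 6, 4, 3⟩ :=
  leaf_sound (S := T4.ds_pp) T4.ok_pp (w := 200) (c := ⟨⟨.negSucc 2350, .negSucc 615, .ofNat 210, .negSucc 651, .negSucc 750, .ofNat 16⟩, ⟨.negSucc 1202, .negSucc 383, .negSucc 5, .negSucc 347, .negSucc 409, .ofNat 8⟩, ⟨.ofNat 1288, .ofNat 327, .negSucc 118, .ofNat 317, .ofNat 430, .negSucc 44⟩, ⟨.negSucc 3849, .negSucc 836, .ofNat 308, .negSucc 1326, .negSucc 1133, .ofNat 10⟩, ⟨.ofNat 436, .ofNat 27, .ofNat 11, .ofNat 614, .negSucc 15, .ofNat 31⟩, .ofNat 1748, .negSucc 2641, .ofNat 0, .negSucc 2641, .ofNat 5075, .ofNat 0, .ofNat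 130, .ofNat 425, .negSucc 591, .ofNat 0, .ofNat 248, .negSucc 310, .ofNat 0, .ofNat 0, .ofNat 663, .ofNat 1833, .ofNat 0, .ofNat 336062479232605972211179333792196198400, .ofNat 417119423479849928405006313062400, .ofNat 0, .ofNat 0, .ofNat 2613207251574802576931200016953481625600, .ofNat 133320521007082415636944804380672000, .ofNat 0, .ofNat 0, .ofNat 4524066314217904789166436956102669107200, .ofNat 33616845266944290972793945089638400, .ofNat 0, .ofNat 0, .ofNat 6530733810626631450447215903288957337600, .ofNat 0, .ofNat 0⟩)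
    (by decide +kernel)
theorem L01868 : Good (Phi V4.P V4.D 1 1) ⟨5, 27, 4, 9, 3, 5, 3, 6, 4, 3⟩ :=
  leaf_sound (S := T4.ds_pp) T4.ok_pp (w := 200) (c := ⟨⟨.negSucc 2472, .negSucc 12, .negSucc 98, .negSucc 673, .negSucc 780, .ofNat 31⟩, ⟨.negSucc 1361, .negSucc 64, .negSucc 170, .negSucc 385, .negSucc 447, .ofNat 17⟩, ⟨.ofNat 1347, .ofNat 18, .ofNat 35, .ofNat 319, .ofNat 443, .negSucc 60⟩, ⟨.negSucc 3986, .negSucc 12, .negSucc 134, .negSucc 1363, .negSucc 1174, .ofNat 26⟩, ⟨.ofNat 436, .ofNat 26, .ofNat 44, .ofNat 613, .ofNat 2, .ofNat 36⟩, .ofNat 2244, .negSucc 3420, .ofNat 0, .negSucc 3420, .ofNat 6237, .ofNat 0, .ofNat 107, .ofNat 432, .negSucc 610, .ofNat 0, .ofNat 257, .negSucc 338, .ofNat 0, .ofNat 0, .ofNat 676, .ofNat 1110, .ofNat 0, .ofNat 121927239188153466928757667254815948800, .ofNat 0, .ofNat 0, .ofNat 0, .ofNat 0, .ofNat 0, .ofNat 0, .ofNat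 0, .ofNat 0, .ofNat 0, .ofNat 0, .ofNat 0, .ofNat 0, .ofNat 0, .ofNat 0⟩)
    (by decide +kernel)
theorem L01869 : Good (Phi V4.P V4.D 1 1) ⟨3, 6, 3, 4, 3, 5, 3, 6, 2, 1⟩ :=
  leaf_sound (S := T4.ds_pp) T4.ok_pp (w := 184) (c := ⟨⟨.negSucc 2371, .negSucc 137, .negSucc 127, .negSucc 526, .negSucc 642, .ofNat 188⟩, ⟨.negSucc 1173, .negSucc 141, .negSucc 318, .negSucc 280, .negSucc 350, .ofNat 128⟩, ⟨.ofNat 1241, .ofNat 92, .ofNat 41, .ofNat 248, .ofNat 404, .negSucc 238⟩, ⟨.negSucc 3928, .negSucc 151, .negSucc 133, .negSucc 1133, .negSucc 988, .ofNat 207⟩, ⟨.ofNat 448, .ofNat 18, .ofNat 42, .ofNat 607, .ofNat 27, .ofNat 138⟩, .ofNat 768, .negSucc 899, .ofNat 0, .negSucc 899, .ofNat 1882, .ofNat 0, .ofNat 755, .ofNat 1478, .negSucc 2150, .ofNat 0, .ofNat 954, .negSucc 1058, .ofNat 0, .ofNat 0, .ofNat 2534, .ofNat 5797, .ofNat 0, .ofNat 68072179267543962413587048169472000,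 .ofNat 30348932437719579066091595366400, .ofNat 0, .ofNat 0, .ofNat 11293110992364841572041753817513984000, .ofNat 0, .ofNat 0, .ofNat 0, .ofNat 13711993451539068573238617646615756800, .ofNat 12916550015176729607826466406400000, .ofNat 0, .ofNat 0, .ofNat 6167520262964433804079087016843673600, .ofNat 12419165184443578788495023407104000, .ofNat 0⟩)
    (by decide +kernel)
theorem L01870 : Good (Phi V4.P V4.D 1 1) ⟨4, 12, 4, 8, 3, 5, 3, 7, 3, 0⟩ :=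
  out_sound (S := T4.ds_pp) T4.ok_pp (w := 56) (j := 3) (by decide +kernel)
theorem L01871 : Good (Phi V4.P V4.D 1 1) ⟨5, 26, 4, 8, 3, 5, 3, 7, 3, 0⟩ :=
  out_sound (S := T4.ds_pp) T4.ok_pp (w := 64) (j := 3) (by decide +kernel)
theorem L01872 : Good (Phi V4.P V4.D 1 1) ⟨7, 108, 5, 16, 3, 5, 3, 7, 3, 0⟩ :=
  leaf_sound (S := T4.ds_pp) T4.ok_pp (w := 208) (c := ⟨⟨.negSucc 597, .negSucc 444, .ofNat 460, .negSucc 846, .ofNat 297, .negSucc 2456⟩, ⟨.negSucc 299, .negSucc 246, .ofNat 209, .negSucc 441, .ofNat 157, .negSucc 1299⟩, ⟨.ofNat 54, .ofNat 340, .negSucc 357, .ofNat 520, .negSucc 433, .ofNat 1635⟩, ⟨.negSucc 963, .negSucc 646, .ofNat 689, .negSucc 1535, .ofNat 467, .negSucc 3924⟩, ⟨.ofNat 66, .negSucc 11, .ofNat 13, .ofNat 450, .negSucc 22, .ofNat 310⟩, .ofNat 1594, .negSucc 2401, .ofNat 0, .negSucc 2401, .ofNat 4731, .ofNat 0, .ofNat 167, .ofNat 531, .negSucc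 1270, .ofNat 0, .ofNat 307, .negSucc 656, .ofNat 0, .ofNat 0, .ofNat 1090, .ofNat 265, .ofNat 0, .ofNat 0, .ofNat 8626883130852138698135725670400, .ofNat 0, .ofNat 0, .ofNat 0, .ofNat 0, .ofNat 0, .ofNat 0, .ofNat 0, .ofNat 0, .ofNat 0, .ofNat 0, .ofNat 1942068658792839203662072748719135417958400, .ofNat 0, .ofNat 0⟩)
    (by decide +kernel)
theorem L01873 : Good (Phi V4.P V4.D 1 1) ⟨7, 109, 5, 16, 3, 5, 3, 7, 3, 0⟩ :=
  leaf_sound (S := T4.ds_pp) T4.ok_pp (w := 208) (c := ⟨⟨.negSucc 1342, .negSucc 667, .ofNat 1185, .negSucc 1031, .ofNat 247, .negSucc 2668⟩, ⟨.negSucc 687, .negSucc 363, .ofNat 596, .negSucc 554, .ofNat 135, .negSucc 1444⟩, ⟨.ofNat 599, .ofNat 478, .negSucc 857, .ofNat 654, .negSucc 394, .ofNat 1765⟩, ⟨.negSucc 2041, .negSucc 977, .ofNat 1753, .negSucc 1809, .ofNat 394, .negSucc 4233⟩, ⟨.negSucc 5, .negSucc 26, .ofNat 88, .ofNat 441, .negSucc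 31, .ofNat 313⟩, .ofNat 4934, .negSucc 8408, .ofNat 0, .negSucc 8408, .ofNat 15555, .ofNat 0, .ofNat 107, .ofNat 549, .negSucc 1257, .ofNat 0, .ofNat 311, .negSucc 680, .ofNat 0, .ofNat 0, .ofNat 1075, .ofNat 413, .ofNat 0, .ofNat 0, .ofNat 46242799530470010699688968192000, .ofNat 0, .ofNat 0, .ofNat 0, .ofNat 4603819307771278222725028302028800, .ofNat 0, .ofNat 0, .ofNat 588473250458132567393342515105915679539200, .ofNat 2080735497380405539319894035660800, .ofNat 0, .ofNat 0, .ofNat 2403666379375420624479797748751189986508800, .ofNat 959358597093652398222998922854400, .ofNat 0⟩)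
    (by decide +kernel)
theorem L01874 : Good (Phi V4.P V4.D 1 1) ⟨6, 54, 5, 17, 3, 5, 3, 7, 3, 0⟩ :=
  leaf_sound (S := T4.ds_pp) T4.ok_pp (w := 208) (c := ⟨⟨.negSucc 561, .negSucc 200, .ofNat 203, .negSucc 657, .ofNat 93, .negSucc 2678⟩, ⟨.negSucc 266, .negSucc 145, .ofNat 75, .negSucc 358, .ofNat 52, .negSucc 1478⟩, ⟨.negSucc 6, .ofNat 153, .negSucc 169, .ofNat 379, .negSucc 245, .ofNat 1811⟩, ⟨.negSucc 965, .negSucc 218, .ofNat 294, .negSucc 1241, .ofNat 174, .negSucc 4223⟩, ⟨.ofNat 128, .negSucc 61, .ofNat 25, .ofNat 442, .negSucc 60, .ofNat 294⟩, .ofNat 3821, .negSucc 6315, .ofNat 0, .negSucc 6315, .ofNat 11600, .ofNat 0, .ofNat 54, .ofNat 271, .negSucc 639, .ofNat 0, .ofNat 155, .negSucc 350, .ofNat 0, .ofNat 0, .ofNat 548, .ofNat 146, .ofNat 0, .ofNat 0, .ofNat 0, .ofNat 0, .ofNat 0, .ofNat 0, .ofNat 0, .ofNat 0, .ofNat 0, .ofNat 0, .ofNat 0, .ofNat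 0, .ofNat 0, .ofNat 38911389038102782794104294758459165900800, .ofNat 460229219876153468890976668876800, .ofNat 0⟩)
    (by decide +kernel)
theorem L01875 : Good (Phi V4.P V4.D 1 1) ⟨7, 110, 5, 16, 3, 5, 3, 7, 3, 0⟩ :=
  out_sound (S := T4.ds_pp) T4.ok_pp (w := 80) (j := 3) (by decide +kernel)
theorem L01876 : Good (Phi V4.P V4.D 1 1) ⟨7, 110, 6, 34, 3, 5, 3, 7, 3, 0⟩ :=
  out_sound (S := T4.ds_pp) T4.ok_pp (w := 80) (j := 3) (by decide +kernel)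
theorem L01877 : Good (Phi V4.P V4.D 1 1) ⟨8, 220, 7, 70, 3, 5, 3, 7, 4, 0⟩ :=
  leaf_sound (S := T4.ds_pp) T4.ok_pp (w := 224) (c := ⟨⟨.negSucc 862, .negSucc 248, .ofNat 21, .negSucc 436, .ofNat 1030, .negSucc 1721⟩, ⟨.negSucc 476, .negSucc 137, .ofNat 3, .negSucc 242, .ofNat 578, .negSucc 964⟩, ⟨.ofNat 218, .ofNat 254, .negSucc 79, .ofNat 310, .negSucc 937, .ofNat 1165⟩, ⟨.negSucc 1332, .negSucc 334, .ofNat 20, .negSucc 903, .ofNat 1577, .negSucc 2697⟩, ⟨.ofNat 49, .negSucc 62, .ofNat 23, .ofNat 435, .negSucc 35, .ofNat 171⟩, .ofNat 8288, .negSucc 14149, .ofNat 0, .negSucc 14149, .ofNat 25335, .ofNat 0, .ofNat 80, .ofNat 581, .negSucc 1459, .ofNat 0, .ofNat 332, .negSucc 816, .ofNat 0, .ofNat 0, .ofNat 1206, .ofNat 856, .ofNat 0, .ofNat 0, .ofNat 0, .ofNat 0, .ofNat 0, .ofNat 0, .ofNat 207814723939507103505638225451417600, .ofNat 0, .ofNat 0, .ofNat 1624138905998382829658876163475918574478950400,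 .ofNat 0, .ofNat 0, .ofNat 0, .ofNat 0, .ofNat 33539705980388694441431021282918400, .ofNat 0⟩)
    (by decide +kernel)
theorem L01878 : Good (Phi V4.P V4.D 1 1) ⟨8, 220, 7, 70, 3, 5, 3, 7, 4, 1⟩ :=
  leaf_sound (S := T4.ds_pp) T4.ok_pp (w := 224) (c := ⟨⟨.negSucc 1726, .negSucc 225, .ofNat 109, .negSucc 1073, .negSucc 704, .negSucc 1133⟩, ⟨.negSucc 953, .negSucc 126, .ofNat 45, .negSucc 599, .negSucc 395, .negSucc 634⟩, ⟨.ofNat 804, .ofNat 74, .negSucc 56, .ofNat 592, .ofNat 318, .ofNat 751⟩, ⟨.negSucc 2740, .negSucc 372, .ofNat 171, .negSucc 1897, .negSucc 999, .negSucc 1802⟩, ⟨.ofNat 232, .ofNat 87, .negSucc 11, .ofNat 490, .negSucc 115, .ofNat 160⟩, .ofNat 12721, .negSucc 21994, .ofNat 0, .negSucc 21994, .ofNat 39222, .ofNat 0, .ofNat 139, .ofNat 1080, .negSucc 2450, .ofNat 0, .ofNat 617, .negSucc 1372, .ofNat 0, .ofNat 0, .ofNat 2096, .ofNat 1068, .ofNat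 0, .ofNat 0, .ofNat 0, .ofNat 0, .ofNat 0, .ofNat 0, .ofNat 798497634251603537495465558173286400, .ofNat 0, .ofNat 0, .ofNat 6266576203658906126158111503560323394174976000, .ofNat 0, .ofNat 0, .ofNat 0, .ofNat 15295919597823402806007390793006226521404211200, .ofNat 15400192698321520015688686003814400, .ofNat 0⟩)
    (by decide +kernel)
theorem L01879 : Good (Phi V4.P V4.D 1 1) ⟨8, 220, 7, 71, 3, 5, 4, 14, 3, 0⟩ :=
  leaf_sound (S := T4.ds_pp) T4.ok_pp (w := 224) (c := ⟨⟨.negSucc 377, .negSucc 1227, .ofNat 556, .negSucc 851, .negSucc 7, .negSucc 2422⟩, ⟨.negSucc 207, .negSucc 688, .ofNat 299, .negSucc 478, .negSucc 4, .negSucc 1365⟩, ⟨.negSucc 110, .ofNat 840, .negSucc 389, .ofNat 526, .negSucc 108, .ofNat 1602⟩, ⟨.negSucc 594, .negSucc 1869, .ofNat 853, .negSucc 1549, .ofNat 21, .negSucc 3862⟩, ⟨.ofNat 36, .ofNat 48, .negSucc 23, .ofNat 467, .negSucc 57, .ofNat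 370⟩, .ofNat 9561, .negSucc 16329, .ofNat 0, .negSucc 16329, .ofNat 29059, .ofNat 0, .ofNat 70, .ofNat 557, .negSucc 1261, .ofNat 0, .ofNat 320, .negSucc 709, .ofNat 0, .ofNat 0, .ofNat 1084, .ofNat 1384, .ofNat 0, .ofNat 0, .ofNat 0, .ofNat 0, .ofNat 0, .ofNat 0, .ofNat 0, .ofNat 0, .ofNat 0, .ofNat 0, .ofNat 26984676774206579277041470380441600, .ofNat 0, .ofNat 0, .ofNat 0, .ofNat 26066243664621908470514263995187200, .ofNat 0⟩)
    (by decide +kernel)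
theorem L01880 : Good (Phi V4.P V4.D 1 1) ⟨8, 220, 7, 71, 3, 5, 4, 15, 3, 0⟩ :=
  leaf_sound (S := T4.ds_pp) T4.ok_pp (w := 224) (c := ⟨⟨.negSucc 309, .ofNat 1188, .negSucc 661, .negSucc 854, .ofNat 551, .negSucc 3852⟩, ⟨.negSucc 164, .ofNat 657, .negSucc 376, .negSucc 481, .ofNat 311, .negSucc 2175⟩, ⟨.negSucc 380, .negSucc 517, .ofNat 300, .ofNat 530, .negSucc 491, .ofNat 2669⟩, ⟨.negSucc 501, .ofNat 1840, .negSucc 1011, .negSucc 1535, .ofNat 817, .negSucc 5979⟩, ⟨.ofNat 50, .negSucc 59, .ofNat 20, .ofNat 436, .ofNat 25, .ofNat 302⟩, .ofNat 16875, .negSucc 29188, .ofNat 0, .negSucc 29188, .ofNat 51671, .ofNat 0, .ofNat 63, .ofNat 580, .negSucc 1671, .ofNat 0, .ofNat 332, .negSucc 943, .ofNat 0, .ofNat 0, .ofNat 1328, .ofNat 395, .ofNat 0, .ofNat 0, .ofNat 519881813496119812791926469427200, .ofNat 0, .ofNat 0, .ofNat 0, .ofNat 66563119055682662716428779520000000,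 .ofNat 0, .ofNat 0, .ofNat 623806577274291885301715249906373194730700800, .ofNat 29711187388472652619296900592435200, .ofNat 0, .ofNat 0, .ofNat 1705065312169466110391653533553587734446080000, .ofNat 0, .ofNat 0⟩)
    (by decide +kernel)
theorem L01881 : Good (Phi V4.P V4.D 1 1) ⟨8, 221, 6, 35, 3, 5, 3, 7, 3, 0⟩ :=
  out_sound (S := T4.ds_pp) T4.ok_pp (w := 88) (j := 3) (by decide +kernel)
theorem L01882 : Good (Phi V4.P V4.D 1 1) ⟨7, 111, 4, 8, 3, 5, 3, 7, 3, 0⟩ :=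
  out_sound (S := T4.ds_pp) T4.ok_pp (w := 72) (j := 3) (by decide +kernel)
theorem L01883 : Good (Phi V4.P V4.D 1 1) ⟨4, 12, 4, 8, 3, 5, 3, 7, 3, 1⟩ :=
  out_sound (S := T4.ds_pp) T4.ok_pp (w := 56) (j := 3) (by decide +kernel)
theorem L01884 : Good (Phi V4.P V4.D 1 1) ⟨5, 26, 4, 8, 3, 5, 3, 7, 3, 1⟩ :=
  out_sound (S := T4.ds_pp) T4.ok_pp (w := 64) (j := 3) (by decide +kernel)
theorem L01885 : Good (Phi V4.P V4.D 1 1) ⟨6, 54, 4, 8, 3, 5, 4, 14, 3, 1⟩ :=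
  leaf_sound (S := T4.ds_pp) T4.ok_pp (w := 208) (c := ⟨⟨.negSucc 2362, .negSucc 303, .ofNat 78, .negSucc 1075, .negSucc 728, .negSucc 967⟩, ⟨.negSucc 1205, .negSucc 181, .negSucc 104, .negSucc 575, .negSucc 396, .negSucc 528⟩, ⟨.ofNat 1269, .ofNat 218, .negSucc 103, .ofNat 539, .ofNat 443, .ofNat 606⟩, ⟨.negSucc 3809, .negSucc 401, .ofNat 112, .negSucc 1954, .negSucc 1084, .negSucc 1585⟩, ⟨.ofNat 311, .ofNat 40, .negSucc 8, .ofNat 584, .negSucc 45, .ofNat 205⟩, .ofNat 1687, .negSucc 2547, .ofNat 0, .negSucc 2547, .ofNat 4941, .ofNat 0, .ofNat 292, .ofNat 960, .negSucc 1882, .ofNat 0, .ofNat 557, .negSucc 988, .ofNat 0, .ofNat 0, .ofNat 1722, .ofNat 2772, .ofNat 0, .ofNat 10674010913011055945467330026373801574400, .ofNat 0, .ofNat 0, .ofNat 0, .ofNat 0, .ofNat 0, .ofNat 0, .ofNat 0, .ofNat 239320243656397815957405111861966274560000, .ofNat 0, .ofNat 0, .ofNat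 0, .ofNat 214446207206579850645350398409826946252800, .ofNat 0, .ofNat 0⟩)
    (by decide +kernel)
theorem L01886 : Good (Phi V4.P V4.D 1 1) ⟨6, 54, 4, 8, 3, 5, 4, 15, 3, 1⟩ :=
  leaf_sound (S := T4.ds_pp) T4.ok_pp (w := 208) (c := ⟨⟨.negSucc 2809, .negSucc 489, .ofNat 197, .negSucc 1296, .negSucc 981, .negSucc 2010⟩, ⟨.negSucc 1443, .negSucc 305, .negSucc 18, .negSucc 699, .negSucc 544, .negSucc 1098⟩, ⟨.ofNat 1509, .ofNat 349, .negSucc 187, .ofNat 673, .ofNat 646, .ofNat 1414⟩, ⟨.negSucc 4501, .negSucc 638, .ofNat 263, .negSucc 2244, .negSucc 1428, .negSucc 3153⟩, ⟨.ofNat 319, .negSucc 44, .ofNat 65, .ofNat 500, .negSucc 116, .ofNat 172⟩, .ofNat 749, .negSucc 872, .ofNat 0, .negSucc 872, .ofNat 1857, .ofNat 0, .ofNat 1864, .ofNat 3851, .negSucc 12021, .ofNat 0, .ofNat 2434, .negSucc 6004, .ofNat 0, .ofNat 0, .ofNat 9782, .ofNat 6447, .ofNat 0, .ofNat 88326567676415844634962371096829807820800,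 .ofNat 0, .ofNat 0, .ofNat 0, .ofNat 18403908647711930905450863572261849058508800, .ofNat 0, .ofNat 0, .ofNat 0, .ofNat 22872402370241357762368739928983527961395200, .ofNat 0, .ofNat 0, .ofNat 0, .ofNat 26221114797710031555824392764813723303936000, .ofNat 0, .ofNat 0⟩)
    (by decide +kernel)
theorem L01887 : Good (Phi V4.P V4.D 1 1) ⟨6, 55, 5, 16, 3, 5, 3, 7, 3, 1⟩ :=
  out_sound (S := T4.ds_pp) T4.ok_pp (w := 72) (j := 3) (by decide +kernel)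
theorem L01888 : Good (Phi V4.P V4.D 1 1) ⟨6, 55, 5, 17, 3, 5, 4, 14, 3, 1⟩ :=
  leaf_sound (S := T4.ds_pp) T4.ok_pp (w := 216) (c := ⟨⟨.negSucc 2508, .negSucc 272, .negSucc 55, .negSucc 1107, .negSucc 758, .negSucc 939⟩, ⟨.negSucc 1355, .negSucc 188, .negSucc 94, .negSucc 622, .negSucc 428, .negSucc 529⟩, ⟨.ofNat 1363, .ofNat 195, .ofNat 5, .ofNat 553, .ofNat 457, .ofNat 601⟩, ⟨.negSucc 3953, .negSucc 305, .negSucc 127, .negSucc 2007, .negSucc 1117, .negSucc 1530⟩, ⟨.ofNat 263, .negSucc 127, .ofNat 112, .ofNat 596, .negSucc 47, .ofNat 199⟩, .ofNat 4735, .negSucc 7834, .ofNat 0, .negSucc 7834, .ofNat 14100, .ofNat 0, .ofNat 337, .ofNat 1983, .negSucc 3769, .ofNat 0, .ofNat 1146, .negSucc 2107, .ofNat 0, .ofNat 0, .ofNat 3441, .ofNat 5298, .ofNat 0, .ofNat 91705867100621552721027058071481457049600, .ofNat 0, .ofNat 0, .ofNat 0, .ofNat 4069351696955719528199068945908543730483200,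 .ofNat 1442435912908158855682795261604659200, .ofNat 0, .ofNat 0, .ofNat 6257835705387736549858247113372221623500800, .ofNat 940375414529811468675778903592140800, .ofNat 0, .ofNat 0, .ofNat 8403347448577205108549212031367086761574400, .ofNat 544454012796809485463060345782272000, .ofNat 0⟩)
    (by decide +kernel)
theorem L01889 : Good (Phi V4.P V4.D 1 1) ⟨6, 55, 5, 17, 3, 5, 4, 15, 3, 1⟩ :=
  leaf_sound (S := T4.ds_pp) T4.ok_pp (w := 216) (c := ⟨⟨.negSucc 3135, .negSucc 445, .ofNat 84, .negSucc 1380, .negSucc 1145, .negSucc 2256⟩, ⟨.negSucc 1704, .negSucc 280, .negSucc 23, .negSucc 774, .negSucc 645, .negSucc 1267⟩, ⟨.ofNat 1711, .ofNat 291, .negSucc 58, .ofNat 711, .ofNat 756, .ofNat 1586⟩, ⟨.negSucc 4949, .negSucc 663, .ofNat 168, .negSucc 2368, .negSucc 1675, .negSucc 3520⟩, ⟨.ofNat 347, .ofNat 57, .negSucc 35, .ofNat 507, .negSucc 93, .ofNat 207⟩, .ofNat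 2045, .negSucc 3109, .ofNat 0, .negSucc 3109, .ofNat 5771, .ofNat 0, .ofNat 2114, .ofNat 8281, .negSucc 21687, .ofNat 0, .ofNat 4889, .negSucc 11929, .ofNat 0, .ofNat 0, .ofNat 17926, .ofNat 16306, .ofNat 0, .ofNat 942779065376580943737740203878526432051200, .ofNat 0, .ofNat 0, .ofNat 0, .ofNat 76137604081996294163630269143245733337497600, .ofNat 0, .ofNat 0, .ofNat 0, .ofNat 358497814283167104617169154982342825292595200, .ofNat 0, .ofNat 0, .ofNat 0, .ofNat 520019595221618735627494471302095164145664000, .ofNat 6611886901502072605174722813178675200, .ofNat 0⟩)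
    (by decide +kernel)
theorem L01890 : Good (Phi V4.P V4.D 1 1) ⟨4, 12, 5, 18, 3, 5, 3, 7, 3, 0⟩ :=
  out_sound (S := T4.ds_pp) T4.ok_pp (w := 56) (j := 3) (by decide +kernel)
theorem L01891 : Good (Phi V4.P V4.D 1 1) ⟨5, 26, 5, 18, 3, 5, 3, 7, 3, 0⟩ :=
  out_sound (S := T4.ds_pp) T4.ok_pp (w := 64) (j := 3) (by decide +kernel)
theorem L01892 : Good (Phi V4.P V4.D 1 1) ⟨6, 54, 5, 18, 3, 5, 3, 7, 3, 0⟩ :=
  out_sound (S := T4.ds_pp) T4.ok_pp (w := 72) (j := 3) (by decide +kernel)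
theorem L01893 : Good (Phi V4.P V4.D 1 1) ⟨7, 110, 5, 18, 3, 5, 4, 14, 3, 0⟩ :=
  leaf_sound (S := T4.ds_pp) T4.ok_pp (w := 216) (c := ⟨⟨.negSucc 1021, .ofNat 455, .negSucc 233, .negSucc 674, .ofNat 190, .negSucc 2728⟩, ⟨.negSucc 564, .ofNat 239, .negSucc 163, .negSucc 384, .ofNat 109, .negSucc 1561⟩, ⟨.ofNat 285, .negSucc 235, .ofNat 85, .ofNat 407, .negSucc 226, .ofNat 1805⟩, ⟨.negSucc 1584, .ofNat 719, .negSucc 363, .negSucc 1286, .ofNat 329, .negSucc 4317⟩, ⟨.ofNat 69, .negSucc 42, .ofNat 43, .ofNat 473, .negSucc 74, .ofNat 378⟩, .ofNat 5832, .negSucc 9662, .ofNat 0, .negSucc 9662, .ofNat 17122, .ofNat 0, .ofNat 80, .ofNat 566, .negSucc 1356, .ofNat 0, .ofNat 329, .negSucc 769, .ofNat 0, .ofNat 0, .ofNat 1133, .ofNat 918, .ofNat 0, .ofNat 0, .ofNat 0, .ofNat 0, .ofNat 0, .ofNat 0, .ofNat 0, .ofNat 0, .ofNat 0, .ofNat 0, .ofNat 19001970840035011032899667571507200,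 .ofNat 0, .ofNat 0, .ofNat 0, .ofNat 10616559890886525348999915267686400, .ofNat 0⟩)
    (by decide +kernel)
theorem L01894 : Good (Phi V4.P V4.D 1 1) ⟨7, 110, 5, 18, 3, 5, 4, 15, 4, 0⟩ :=
  leaf_sound (S := T4.ds_pp) T4.ok_pp (w := 224) (c := ⟨⟨.negSucc 387, .ofNat 202, .negSucc 231, .negSucc 332, .ofNat 1248, .negSucc 2354⟩, ⟨.negSucc 208, .ofNat 99, .negSucc 138, .negSucc 188, .ofNat 714, .negSucc 1348⟩, ⟨.negSucc 306, .negSucc 102, .ofNat 95, .ofNat 275, .negSucc 978, .ofNat 1610⟩, ⟨.negSucc 603, .ofNat 312, .negSucc 341, .negSucc 743, .ofNat 1839, .negSucc 3618⟩, ⟨.ofNat 29, .negSucc 4, .negSucc 10, .ofNat 426, .ofNat 64, .ofNat 137⟩, .ofNat 5756, .negSucc 9534, .ofNat 0, .negSucc 9534, .ofNat 16910, .ofNat 0, .ofNat 170, .ofNat 1187, .negSucc 3658, .ofNat 0, .ofNat 690, .negSucc 2077, .ofNat 0, .ofNat 0, .ofNat 2880, .ofNat 647, .ofNat 0, .ofNat 0, .ofNat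 0, .ofNat 0, .ofNat 0, .ofNat 0, .ofNat 0, .ofNat 0, .ofNat 0, .ofNat 0, .ofNat 0, .ofNat 0, .ofNat 0, .ofNat 0, .ofNat 277897570823792846469257246225203200, .ofNat 0⟩)
    (by decide +kernel)
theorem L01895 : Good (Phi V4.P V4.D 1 1) ⟨7, 110, 5, 18, 3, 5, 4, 15, 4, 1⟩ :=
  leaf_sound (S := T4.ds_pp) T4.ok_pp (w := 224) (c := ⟨⟨.negSucc 1646, .ofNat 75, .negSucc 129, .negSucc 1243, .negSucc 412, .negSucc 1874⟩, ⟨.negSucc 913, .ofNat 12, .negSucc 113, .negSucc 709, .negSucc 235, .negSucc 1072⟩, ⟨.ofNat 670, .negSucc 38, .ofNat 68, .ofNat 672, .ofNat 195, .ofNat 1270⟩, ⟨.negSucc 2595, .ofNat 122, .negSucc 169, .negSucc 2141, .negSucc 581, .negSucc 2904⟩, ⟨.ofNat 186, .ofNat 14, .negSucc 13, .ofNat 476, .negSucc 66, .ofNat 151⟩, .ofNat 5690, .negSucc 9425, .ofNat 0, .negSucc 9425, .ofNat 16729, .ofNat 0, .ofNat 163, .ofNat 1135, .negSucc 3228, .ofNat 0, .ofNat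 660, .negSucc 1831, .ofNat 0, .ofNat 0, .ofNat 2551, .ofNat 534, .ofNat 0, .ofNat 388158511673371976927605968102438941491200, .ofNat 0, .ofNat 0, .ofNat 0, .ofNat 0, .ofNat 0, .ofNat 0, .ofNat 0, .ofNat 0, .ofNat 0, .ofNat 0, .ofNat 0, .ofNat 185571330016683130776255279320120771267788800, .ofNat 0, .ofNat 0⟩)
    (by decide +kernel)
theorem L01896 : Good (Phi V4.P V4.D 1 1) ⟨7, 111, 5, 18, 3, 5, 3, 7, 3, 0⟩ :=
  out_sound (S := T4.ds_pp) T4.ok_pp (w := 24) (j := 4) (by decide +kernel)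
theorem L01897 : Good (Phi V4.P V4.D 1 1) ⟨4, 12, 5, 18, 3, 5, 3, 7, 3, 1⟩ :=
  out_sound (S := T4.ds_pp) T4.ok_pp (w := 56) (j := 3) (by decide +kernel)
theorem L01898 : Good (Phi V4.P V4.D 1 1) ⟨5, 26, 5, 18, 3, 5, 3, 7, 3, 1⟩ :=
  out_sound (S := T4.ds_pp) T4.ok_pp (w := 64) (j := 3) (by decide +kernel)
theorem L01899 : Good (Phi V4.P V4.D 1 1) ⟨6, 54, 5, 18, 3, 5, 3, 7, 3, 1⟩ :=
  out_sound (S := T4.ds_pp) T4.ok_pp (w := 72) (j := 3) (by decide +kernel)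
theorem L01900 : Good (Phi V4.P V4.D 1 1) ⟨7, 110, 6, 36, 3, 5, 4, 14, 3, 1⟩ :=
  leaf_sound (S := T4.ds_pp) T4.ok_pp (w := 216) (c := ⟨⟨.negSucc 2678, .ofNat 232, .negSucc 93, .negSucc 1135, .negSucc 799, .negSucc 1024⟩, ⟨.negSucc 1506, .ofNat 114, .negSucc 84, .negSucc 648, .negSucc 456, .negSucc 586⟩, ⟨.ofNat 1435, .negSucc 162, .ofNat 62, .ofNat 587, .ofNat 493, .ofNat 676⟩, ⟨.negSucc 4240, .ofNat 348, .negSucc 128, .negSucc 2039, .negSucc 1168, .negSucc 1640⟩, ⟨.ofNat 352, .ofNat 20, .ofNat 1, .ofNat 579, .negSucc 59, .ofNat 174⟩, .ofNat 5771, .negSucc 9559, .ofNat 0, .negSucc 9559, .ofNat 16950, .ofNat 0, .ofNat 147, .ofNat 1008, .negSucc 1998, .ofNat 0, .ofNat 586, .negSucc 1133, .ofNat 0, .ofNat 0, .ofNat 1798, .ofNat 2511, .ofNat 0, .ofNat 2328472869978637480146380276278705835212800, .ofNat 0, .ofNat 0, .ofNat 0, .ofNat 0, .ofNat 0, .ofNat 0, .ofNat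 0, .ofNat 68497449098480886526532183592496824267571200, .ofNat 0, .ofNat 0, .ofNat 0, .ofNat 62169458082646333710900119777874938953728000, .ofNat 0, .ofNat 0⟩)
    (by decide +kernel)
theorem L01901 : Good (Phi V4.P V4.D 1 1) ⟨7, 110, 6, 36, 3, 5, 4, 15, 3, 1⟩ :=
  leaf_sound (S := T4.ds_pp) T4.ok_pp (w := 216) (c := ⟨⟨.negSucc 3135, .ofNat 99, .negSucc 134, .negSucc 1431, .negSucc 1259, .negSucc 2379⟩, ⟨.negSucc 1765, .ofNat 38, .negSucc 111, .negSucc 818, .negSucc 721, .negSucc 1364⟩, ⟨.ofNat 1695, .negSucc 32, .ofNat 68, .ofNat 737, .ofNat 830, .ofNat 1663⟩, ⟨.negSucc 4924, .ofNat 191, .negSucc 203, .negSucc 2445, .negSucc 1825, .negSucc 3693⟩, ⟨.ofNat 342, .negSucc 50, .ofNat 30, .ofNat 513, .negSucc 116, .ofNat 207⟩, .ofNat 2239, .negSucc 3411, .ofNat 0, .negSucc 3411, .ofNat 6224, .ofNat 0, .ofNat 988, .ofNat 4180, .negSucc 11248, .ofNat 0, .ofNat 2485,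 .negSucc 6290, .ofNat 0, .ofNat 0, .ofNat 9219, .ofNat 6995, .ofNat 0, .ofNat 24519133880956021956972695456443148324044800, .ofNat 0, .ofNat 0, .ofNat 0, .ofNat 0, .ofNat 0, .ofNat 0, .ofNat 0, .ofNat 5640571751345340980269658997493484859949056000, .ofNat 0, .ofNat 0, .ofNat 0, .ofNat 6655038980098329978093864544794449149742284800, .ofNat 0, .ofNat 0⟩)
    (by decide +kernel)
theorem L01902 : Good (Phi V4.P V4.D 1 1) ⟨8, 220, 6, 37, 3, 5, 3, 7, 3, 1⟩ :=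
  out_sound (S := T4.ds_pp) T4.ok_pp (w := 88) (j := 3) (by decide +kernel)
theorem L01903 : Good (Phi V4.P V4.D 1 1) ⟨9, 442, 7, 74, 3, 5, 3, 7, 3, 1⟩ :=
  out_sound (S := T4.ds_pp) T4.ok_pp (w := 96) (j := 3) (by decide +kernel)
theorem L01904 : Good (Phi V4.P V4.D 1 1) ⟨10, 886, 8, 148, 3, 5, 3, 7, 3, 1⟩ :=
  out_sound (S := T4.ds_pp) T4.ok_pp (w := 104) (j := 3) (by decide +kernel)
theorem L01905 : Good (Phi V4.P V4.D 1 1) ⟨10, 887, 8, 148, 3, 5, 3, 7, 3, 1⟩ :=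
  out_sound (S := T4.ds_pp) T4.ok_pp (w := 32) (j := 4) (by decide +kernel)
theorem L01906 : Good (Phi V4.P V4.D 1 1) ⟨9, 443, 8, 149, 3, 5, 3, 7, 3, 1⟩ :=
  out_sound (S := T4.ds_pp) T4.ok_pp (w := 96) (j := 3) (by decide +kernel)
theorem L01907 : Good (Phi V4.P V4.D 1 1) ⟨8, 221, 7, 75, 3, 5, 3, 7, 3, 1⟩ :=
  out_sound (S := T4.ds_pp) T4.ok_pp (w := 88) (j := 3) (by decide +kernel)
theorem L01908 : Good (Phi V4.P V4.D 1 1) ⟨7, 111, 5, 18, 3, 5, 3, 7, 3, 1⟩ :=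
  out_sound (S := T4.ds_pp) T4.ok_pp (w := 24) (j := 4) (by decide +kernel)
theorem L01909 : Good (Phi V4.P V4.D 1 1) ⟨4, 12, 5, 19, 3, 5, 3, 7, 2, 0⟩ :=
  out_sound (S := T4.ds_pp) T4.ok_pp (w := 56) (j := 3) (by decide +kernel)
theorem L01910 : Good (Phi V4.P V4.D 1 1) ⟨5, 26, 5, 19, 3, 5, 3, 7, 2, 0⟩ :=
  out_sound (S := T4.ds_pp) T4.ok_pp (w := 64) (j := 3) (by decide +kernel)
theorem L01911 : Good (Phi V4.P V4.D 1 1) ⟨6, 54, 5, 19, 3, 5, 3, 7, 2, 0⟩ :=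
  out_sound (S := T4.ds_pp) T4.ok_pp (w := 72) (j := 3) (by decide +kernel)
theorem L01912 : Good (Phi V4.P V4.D 1 1) ⟨7, 110, 5, 19, 3, 5, 3, 7, 2, 0⟩ :=
  out_sound (S := T4.ds_pp) T4.ok_pp (w := 80) (j := 3) (by decide +kernel)
theorem L01913 : Good (Phi V4.P V4.D 1 1) ⟨7, 111, 5, 19, 3, 5, 3, 7, 2, 0⟩ :=
  out_sound (S := T4.ds_pp) T4.ok_pp (w := 24) (j := 4) (by decide +kernel)
theorem L01914 : Good (Phi V4.P V4.D 1 1) ⟨3, 6, 3, 4, 3, 5, 3, 7, 2, 1⟩ :=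
  out_sound (S := T4.ds_pp) T4.ok_pp (w := 32) (j := 2) (by decide +kernel)
theorem L01915 : Good (Phi V4.P V4.D 1 1) ⟨3, 7, 3, 4, 3, 5, 2, 3, 1, 0⟩ :=
  out_sound (S := T4.ds_pp) T4.ok_pp (w := 16) (j := 4) (by decide +kernel)
theorem L01916 : Good (Phi V4.P V4.D 1 1) ⟨3, 6, 3, 5, 3, 5, 1, 1, 1, 0⟩ :=
  out_sound (S := T4.ds_pp) T4.ok_pp (w := 48) (j := 3) (by decide +kernel)
theorem L01917 : Good (Phi V4.P V4.D 1 1) ⟨3, 7, 3, 5, 3, 5, 1, 1, 1, 0⟩ :=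
  out_sound (S := T4.ds_pp) T4.ok_pp (w := 16) (j := 4) (by decide +kernel)
theorem L01918 : Good (Phi V4.P V4.D 1 1) ⟨3, 6, 2, 3, 3, 5, 1, 1, 1, 0⟩ :=
  out_sound (S := T4.ds_pp) T4.ok_pp (w := 48) (j := 3) (by decide +kernel)
theorem L01919 : Good (Phi V4.P V4.D 1 1) ⟨3, 7, 2, 3, 3, 5, 1, 1, 1, 0⟩ :=
  out_sound (S := T4.ds_pp) T4.ok_pp (w := 16) (j := 4) (by decide +kernel)
theorem L01920 : Good (Phi V4.P V4.D 1 1) ⟨2, 2, 1, 1, 2, 3, 1, 1, 1, 0⟩ :=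
  out_sound (S := T4.ds_pp) T4.ok_pp (w := 40) (j := 3) (by decide +kernel)
theorem L01921 : Good (Phi V4.P V4.D 1 1) ⟨4, 12, 1, 1, 2, 3, 2, 2, 1, 0⟩ :=
  out_sound (S := T4.ds_pp) T4.ok_pp (w := 48) (j := 3) (by decide +kernel)
theorem L01922 : Good (Phi V4.P V4.D 1 1) ⟨5, 26, 3, 4, 2, 3, 3, 4, 3, 0⟩ :=
  out_sound (S := T4.ds_pp) T4.ok_pp (w := 64) (j := 3) (by decide +kernel)
theorem L01923 : Good (Phi V4.P V4.D 1 1) ⟨6, 54, 4, 8, 3, 6, 3, 4, 4, 0⟩ :=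
  leaf_sound (S := T4.ds_pp) T4.ok_pp (w := 208) (c := ⟨⟨.negSucc 1506, .negSucc 424, .ofNat 7, .negSucc 1174, .negSucc 141, .negSucc 938⟩, ⟨.negSucc 748, .negSucc 243, .negSucc 116, .negSucc 626, .negSucc 74, .negSucc 505⟩, ⟨.ofNat 1483, .ofNat 328, .negSucc 14, .ofNat 690, .negSucc 134, .ofNat 401⟩, ⟨.negSucc 2855, .negSucc 677, .negSucc 38, .negSucc 2168, .negSucc 125, .negSucc 1592⟩, ⟨.ofNat 1010, .ofNat 136, .ofNat 38, .ofNat 697, .negSucc 167, .ofNat 299⟩, .ofNat 1727, .negSucc 2608, .ofNat 0, .negSucc 2608, .ofNat 5027, .ofNat 0, .ofNat 145, .ofNat 553, .negSucc 1032, .ofNat 0, .ofNat 315, .negSucc 536, .ofNat 0, .ofNat 0, .ofNat 912, .ofNat 614, .ofNat 0, .ofNat 0, .ofNat 0, .ofNat 0, .ofNat 0, .ofNat 0, .ofNat 0, .ofNat 0, .ofNat 0, .ofNat 0, .ofNat 0, .ofNat 0, .ofNat 0, .ofNat 0, .ofNat 31320185045569890831892495938355200, .ofNat 0⟩)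
    (by decide +kernel)
theorem L01924 : Good (Phi V4.P V4.D 1 1) ⟨6, 54, 5, 16, 3, 7, 3, 4, 4, 0⟩ :=
  leaf_sound (S := T4.ds_pp) T4.ok_pp (w := 208) (c := ⟨⟨.negSucc 2528, .negSucc 545, .negSucc 287, .ofNat 1096, .negSucc 440, .negSucc 1274⟩, ⟨.negSucc 1297, .negSucc 260, .negSucc 250, .ofNat 587, .negSucc 235, .negSucc 667⟩, ⟨.ofNat 2064, .ofNat 353, .ofNat 160, .negSucc 753, .ofNat 104, .ofNat 516⟩, ⟨.negSucc 4693, .negSucc 855, .negSucc 477, .ofNat 1556, .negSucc 665, .negSucc 2210⟩, ⟨.ofNat 1536, .ofNat 132, .ofNat 34, .ofNat 227, .negSucc 12, .ofNat 483⟩, .ofNat 2910, .negSucc 4801, .ofNat 0, .negSucc 4801, .ofNat 9134, .ofNat 0, .ofNat 256, .ofNat 1325, .negSucc 2130, .ofNat 0, .ofNat 734, .negSucc 1120, .ofNat 0, .ofNat 0, .ofNat 1648, .ofNat 2480, .ofNat 0, .ofNat 0, .ofNat 0, .ofNat 0, .ofNat 0, .ofNat 0, .ofNat 0, .ofNat 0, .ofNat 0, .ofNat 0, .ofNat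 0, .ofNat 0, .ofNat 0, .ofNat 0, .ofNat 0, .ofNat 0⟩)
    (by decide +kernel)
theorem L01925 : Good (Phi V4.P V4.D 1 1) ⟨6, 54, 5, 17, 3, 7, 3, 4, 4, 0⟩ :=
  leaf_sound (S := T4.ds_pp) T4.ok_pp (w := 208) (c := ⟨⟨.negSucc 2408, .negSucc 1021, .ofNat 59, .ofNat 1226, .negSucc 614, .negSucc 1110⟩, ⟨.negSucc 1280, .negSucc 580, .negSucc 41, .ofNat 682, .negSucc 341, .negSucc 609⟩, ⟨.ofNat 2096, .ofNat 516, .ofNat 43, .negSucc 870, .ofNat 187, .ofNat 427⟩, ⟨.negSucc 4620, .negSucc 1502, .ofNat 7, .ofNat 1789, .negSucc 930, .negSucc 1957⟩, ⟨.ofNat 1674, .ofNat 28, .ofNat 99, .ofNat 124, .negSucc 0, .ofNat 494⟩, .ofNat 6549, .negSucc 11184, .ofNat 0, .negSucc 11184, .ofNat 20301, .ofNat 0, .ofNat 87, .ofNat 669, .negSucc 1134, .ofNat 0, .ofNat 377, .negSucc 624, .ofNat 0, .ofNat 0, .ofNat 863, .ofNat 1180, .ofNat 0, .ofNat 0, .ofNat 0, .ofNat 0, .ofNat 0, .ofNat 0,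 .ofNat 191987591847097241198408488294809600, .ofNat 0, .ofNat 0, .ofNat 0, .ofNat 131941193543378398884931386841497600, .ofNat 0, .ofNat 0, .ofNat 0, .ofNat 75788505535842211954093942269542400, .ofNat 0⟩)
    (by decide +kernel)
theorem L01926 : Good (Phi V4.P V4.D 1 1) ⟨6, 55, 5, 16, 2, 3, 3, 4, 4, 0⟩ :=
  out_sound (S := T4.ds_pp) T4.ok_pp (w := 72) (j := 3) (by decide +kernel)
theorem L01927 : Good (Phi V4.P V4.D 1 1) ⟨7, 110, 6, 34, 2, 3, 3, 4, 4, 0⟩ :=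
  out_sound (S := T4.ds_pp) T4.ok_pp (w := 80) (j := 3) (by decide +kernel)
theorem L01928 : Good (Phi V4.P V4.D 1 1) ⟨8, 220, 6, 35, 3, 6, 3, 4, 4, 0⟩ :=
  leaf_sound (S := T4.ds_pp) T4.ok_pp (w := 224) (c := ⟨⟨.negSucc 1525, .ofNat 780, .negSucc 999, .negSucc 1641, .negSucc 248, .negSucc 794⟩, ⟨.negSucc 826, .ofNat 444, .negSucc 606, .negSucc 921, .negSucc 141, .negSucc 446⟩, ⟨.ofNat 1575, .negSucc 394, .ofNat 551, .ofNat 971, .negSucc 67, .ofNat 303⟩, ⟨.negSucc 2902, .ofNat 1295, .negSucc 1670, .negSucc 2923, .negSucc 290, .negSucc 1358⟩, ⟨.ofNat 1067, .negSucc 184, .ofNat 273, .ofNat 791, .negSucc 150, .ofNat 283⟩, .ofNat 4686, .negSucc 7754, .ofNat 0, .negSucc 7754, .ofNat 13967, .ofNat 0, .ofNat 172, .ofNat 1152, .negSucc 2144, .ofNat 0, .ofNat 660, .negSucc 1191, .ofNat 0, .ofNat 0, .ofNat 1860, .ofNat 3128, .ofNat 0, .ofNat 0, .ofNat 0, .ofNat 0, .ofNat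 0, .ofNat 0, .ofNat 0, .ofNat 0, .ofNat 0, .ofNat 0, .ofNat 145861013273124054388857951485952000, .ofNat 0, .ofNat 0, .ofNat 0, .ofNat 101436809798334784477265608782643200, .ofNat 0⟩)
    (by decide +kernel)
theorem L01929 : Good (Phi V4.P V4.D 1 1) ⟨8, 220, 6, 35, 3, 7, 3, 4, 4, 0⟩ :=
  leaf_sound (S := T4.ds_pp) T4.ok_pp (w := 224) (c := ⟨⟨.negSucc 3809, .negSucc 460, .ofNat 455, .ofNat 1222, .negSucc 569, .negSucc 784⟩, ⟨.negSucc 2107, .negSucc 261, .ofNat 210, .ofNat 690, .negSucc 321, .negSucc 439⟩, ⟨.ofNat 2870, .ofNat 197, .negSucc 151, .negSucc 911, .ofNat 147, .ofNat 231⟩, ⟨.negSucc 6753, .negSucc 632, .ofNat 589, .ofNat 1809, .negSucc 840, .negSucc 1444⟩, ⟨.ofNat 1788, .negSucc 78, .ofNat 147, .ofNat 63, .negSucc 31, .ofNat 462⟩, .ofNat 4711, .negSucc 7797, .ofNat 0, .negSucc 7797, .ofNat 14041, .ofNat 0, .ofNat 90, .ofNat 666, .negSucc 1166, .ofNat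 0, .ofNat 381, .negSucc 649, .ofNat 0, .ofNat 0, .ofNat 885, .ofNat 1665, .ofNat 0, .ofNat 0, .ofNat 0, .ofNat 0, .ofNat 0, .ofNat 0, .ofNat 0, .ofNat 0, .ofNat 0, .ofNat 0, .ofNat 28560563520597259724511815034470400, .ofNat 0, .ofNat 0, .ofNat 0, .ofNat 7945278547260739082768548783718400, .ofNat 0⟩)
    (by decide +kernel)
theorem L01930 : Good (Phi V4.P V4.D 1 1) ⟨8, 221, 6, 35, 2, 3, 3, 4, 4, 0⟩ :=
  out_sound (S := T4.ds_pp) T4.ok_pp (w := 88) (j := 3) (by decide +kernel)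
theorem L01931 : Good (Phi V4.P V4.D 1 1) ⟨7, 111, 5, 17, 2, 3, 3, 4, 4, 0⟩ :=
  out_sound (S := T4.ds_pp) T4.ok_pp (w := 80) (j := 3) (by decide +kernel)
theorem L01932 : Good (Phi V4.P V4.D 1 1) ⟨6, 54, 4, 9, 2, 3, 3, 4, 4, 0⟩ :=
  out_sound (S := T4.ds_pp) T4.ok_pp (w := 72) (j := 3) (by decide +kernel)
theorem L01933 : Good (Phi V4.P V4.D 1 1) ⟨7, 110, 5, 18, 3, 6, 3, 4, 4, 0⟩ :=
  leaf_sound (S := T4.ds_pp) T4.ok_pp (w := 216) (c := ⟨⟨.negSucc 2037, .ofNat 18, .negSucc 272, .negSucc 1762, .negSucc 160, .negSucc 606⟩, ⟨.negSucc 1128, .negSucc 30, .negSucc 198, .negSucc 1006, .negSucc 90, .negSucc 347⟩, ⟨.ofNat 1902, .negSucc 27, .ofNat 203, .ofNat 1055, .negSucc 127, .ofNat 174⟩, ⟨.negSucc 3757, .ofNat 39, .negSucc 482, .negSucc 3144, .negSucc 143, .negSucc 1044⟩, ⟨.ofNat 1206, .negSucc 9, .ofNat 133, .ofNat 865, .negSucc 170, .ofNat 231⟩, .ofNat 2223, .negSucc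 3387, .ofNat 0, .negSucc 3387, .ofNat 6188, .ofNat 0, .ofNat 240, .ofNat 1147, .negSucc 2291, .ofNat 0, .ofNat 671, .negSucc 1263, .ofNat 0, .ofNat 0, .ofNat 1957, .ofNat 475, .ofNat 0, .ofNat 0, .ofNat 504103859825843560823166232166400, .ofNat 0, .ofNat 0, .ofNat 0, .ofNat 0, .ofNat 0, .ofNat 0, .ofNat 0, .ofNat 0, .ofNat 0, .ofNat 0, .ofNat 0, .ofNat 47813125830798962329732715957452800, .ofNat 0⟩)
    (by decide +kernel)
theorem L01934 : Good (Phi V4.P V4.D 1 1) ⟨7, 111, 5, 18, 3, 6, 3, 4, 4, 0⟩ :=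
  out_sound (S := T4.ds_pp) T4.ok_pp (w := 24) (j := 4) (by decide +kernel)
theorem L01935 : Good (Phi V4.P V4.D 1 1) ⟨7, 110, 5, 19, 3, 6, 3, 4, 4, 0⟩ :=
  out_sound (S := T4.ds_pp) T4.ok_pp (w := 80) (j := 3) (by decide +kernel)
theorem L01936 : Good (Phi V4.P V4.D 1 1) ⟨7, 111, 5, 19, 3, 6, 3, 4, 4, 0⟩ :=
  out_sound (S := T4.ds_pp) T4.ok_pp (w := 24) (j := 4) (by decide +kernel)
theorem L01937 : Good (Phi V4.P V4.D 1 1) ⟨7, 110, 5, 18, 4, 14, 3, 4, 5, 0⟩ :=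
  leaf_sound (S := T4.ds_pp) T4.ok_pp (w := 232) (c := ⟨⟨.negSucc 3535, .negSucc 536, .negSucc 879, .ofNat 154, .negSucc 749, .negSucc 329⟩, ⟨.negSucc 1977, .negSucc 353, .negSucc 565, .ofNat 88, .negSucc 428, .negSucc 186⟩, ⟨.ofNat 2784, .ofNat 328, .ofNat 550, .negSucc 239, .ofNat 235, .ofNat 84⟩, ⟨.negSucc 6402, .negSucc 835, .negSucc 1432, .ofNat 239, .negSucc 1115, .negSucc 645⟩, ⟨.ofNat 1887, .ofNat 68, .ofNat 208, .negSucc 11, .negSucc 19, .ofNat 259⟩, .ofNat 5751, .negSucc 9526, .ofNat 0, .negSucc 9526, .ofNat 16897, .ofNat 0, .ofNat 155, .ofNat 1355, .negSucc 3330, .ofNat 0, .ofNat 782, .negSucc 1886, .ofNat 0, .ofNat 0, .ofNat 2338, .ofNat 1174, .ofNat 0, .ofNat 0, .ofNat 0, .ofNat 0, .ofNat 0, .ofNat 0, .ofNat 0, .ofNat 0, .ofNat 0, .ofNat 0, .ofNat 0, .ofNat 0, .ofNat 0, .ofNat 0, .ofNat 771432783805328750979757457679581184000, .ofNat 0⟩)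
    (by decide +kernel)
theorem L01938 : Good (Phi V4.P V4.D 1 1) ⟨7, 110, 5, 18, 4, 14, 3, 4, 5, 1⟩ :=
  leaf_sound (S := T4.ds_pp) T4.ok_pp (w := 232) (c := ⟨⟨.negSucc 4241, .negSucc 169, .negSucc 455, .negSucc 28, .negSucc 343, .ofNat 274⟩, ⟨.negSucc 2378, .negSucc 147, .negSucc 320, .negSucc 15, .negSucc 196, .ofNat 157⟩, ⟨.ofNat 3080, .ofNat 99, .ofNat 307, .negSucc 114, .ofNat 14, .negSucc 268⟩, ⟨.negSucc 7612, .negSucc 254, .negSucc 770, .negSucc 117, .negSucc 469, .ofNat 352⟩, ⟨.ofNat 2149, .ofNat 16, .ofNat 161, .ofNat 131, .negSucc 81, .ofNat 104⟩, .ofNat 5829, .negSucc 9656, .ofNat 0, .negSucc 9656, .ofNat 17113, .ofNat 0, .ofNat 303, .ofNat 2583, .negSucc 4809, .ofNat 0, .ofNat 1491, .negSucc 2722, .ofNat 0, .ofNat 0, .ofNat 3729, .ofNat 10603, .ofNat 0, .ofNat 0, .ofNat 0, .ofNat 0, .ofNat 0, .ofNat 0, .ofNat 11135625586479042568564032340666771046400,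 .ofNat 0, .ofNat 0, .ofNat 0, .ofNat 0, .ofNat 0, .ofNat 0, .ofNat 0, .ofNat 0, .ofNat 0⟩)
    (by decide +kernel)
theorem L01939 : Good (Phi V4.P V4.D 1 1) ⟨7, 110, 5, 18, 4, 15, 3, 4, 5, 0⟩ :=
  leaf_sound (S := T4.ds_pp) T4.ok_pp (w := 232) (c := ⟨⟨.negSucc 3233, .negSucc 301, .negSucc 385, .ofNat 1730, .negSucc 780, .negSucc 797⟩, ⟨.negSucc 1812, .negSucc 211, .negSucc 270, .ofNat 991, .negSucc 445, .negSucc 455⟩, ⟨.ofNat 2453, .ofNat 189, .ofNat 262, .negSucc 1042, .ofNat 264, .ofNat 334⟩, ⟨.negSucc 5903, .negSucc 487, .negSucc 635, .ofNat 2620, .negSucc 1182, .negSucc 1366⟩, ⟨.ofNat 1817, .ofNat 68, .ofNat 103, .negSucc 34, .ofNat 16, .ofNat 292⟩, .ofNat 5748, .negSucc 9522, .ofNat 0, .negSucc 9522, .ofNat 16891, .ofNat 0, .ofNat 322, .ofNat 2878, .negSucc 5489, .ofNat 0, .ofNat 1661, .negSucc 3112, .ofNat 0, .ofNat 0, .ofNat 3793, .ofNat 2760, .ofNat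 0, .ofNat 0, .ofNat 0, .ofNat 0, .ofNat 0, .ofNat 0, .ofNat 0, .ofNat 0, .ofNat 0, .ofNat 0, .ofNat 0, .ofNat 0, .ofNat 0, .ofNat 0, .ofNat 2256894727780602338458029208317512908800, .ofNat 0⟩)
    (by decide +kernel)
theorem L01940 : Good (Phi V4.P V4.D 1 1) ⟨7, 110, 5, 18, 4, 15, 3, 4, 5, 1⟩ :=
  leaf_sound (S := T4.ds_pp) T4.ok_pp (w := 232) (c := ⟨⟨.negSucc 3997, .negSucc 132, .negSucc 232, .ofNat 1212, .negSucc 476, .negSucc 99⟩, ⟨.negSucc 2245, .negSucc 117, .negSucc 187, .ofNat 693, .negSucc 272, .negSucc 55⟩, ⟨.ofNat 2770, .ofNat 69, .ofNat 157, .negSucc 760, .ofNat 134, .negSucc 32⟩, ⟨.negSucc 7222, .negSucc 198, .negSucc 397, .ofNat 1820, .negSucc 743, .negSucc 301⟩, ⟨.ofNat 2115, .ofNat 6, .ofNat 82, .ofNat 3, .ofNat 48, .ofNat 266⟩, .ofNat 5732, .negSucc 9494, .ofNat 0, .negSucc 9494, .ofNat 16844, .ofNat 0, .ofNat 317, .ofNat 2703, .negSucc 3919,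 .ofNat 0, .ofNat 1560, .negSucc 2217, .ofNat 0, .ofNat 0, .ofNat 3092, .ofNat 9369, .ofNat 0, .ofNat 0, .ofNat 0, .ofNat 0, .ofNat 0, .ofNat 0, .ofNat 10059678881312457869187582831694656307200, .ofNat 0, .ofNat 0, .ofNat 0, .ofNat 0, .ofNat 0, .ofNat 0, .ofNat 0, .ofNat 2516870262873207789564873059005680844800, .ofNat 0⟩)
    (by decide +kernel)
theorem L01941 : Good (Phi V4.P V4.D 1 1) ⟨7, 111, 5, 18, 3, 7, 3, 4, 4, 0⟩ :=
  out_sound (S := T4.ds_pp) T4.ok_pp (w := 24) (j := 4) (by decide +kernel)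
theorem L01942 : Good (Phi V4.P V4.D 1 1) ⟨7, 110, 5, 19, 3, 7, 3, 4, 4, 0⟩ :=
  out_sound (S := T4.ds_pp) T4.ok_pp (w := 80) (j := 3) (by decide +kernel)
theorem L01943 : Good (Phi V4.P V4.D 1 1) ⟨7, 111, 5, 19, 3, 7, 3, 4, 4, 0⟩ :=
  out_sound (S := T4.ds_pp) T4.ok_pp (w := 24) (j := 4) (by decide +kernel)
theorem L01944 : Good (Phi V4.P V4.D 1 1) ⟨5, 27, 4, 8, 3, 6, 3, 4, 4, 1⟩ :=
  leaf_sound (S := T4.ds_pp) T4.ok_pp (w := 200) (c := ⟨⟨.negSucc 2538, .negSucc 345, .negSucc 153, .negSucc 967, .negSucc 175, .ofNat 58⟩, ⟨.negSucc 1295, .negSucc 146, .negSucc 266, .negSucc 517, .negSucc 99, .ofNat 34⟩, ⟨.ofNat 1947, .ofNat 268, .ofNat 110, .ofNat 523, .negSucc 76, .negSucc 225⟩, ⟨.negSucc 4560, .negSucc 580, .negSucc 266, .negSucc 1908, .negSucc 182, .ofNat 81⟩, ⟨.ofNat 1251, .ofNat 257, .ofNat 20, .ofNat 806, .negSucc 155, .ofNat 14⟩, .ofNat 1732, .negSucc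 2615, .ofNat 0, .negSucc 2615, .ofNat 5037, .ofNat 0, .ofNat 141, .ofNat 517, .negSucc 746, .ofNat 0, .ofNat 296, .negSucc 385, .ofNat 0, .ofNat 0, .ofNat 751, .ofNat 2047, .ofNat 0, .ofNat 0, .ofNat 0, .ofNat 0, .ofNat 0, .ofNat 0, .ofNat 156932368499847671391742564132454400, .ofNat 0, .ofNat 0, .ofNat 0, .ofNat 61324574568970993302264258075033600, .ofNat 0, .ofNat 0, .ofNat 0, .ofNat 49382833474043392988230102233907200, .ofNat 0⟩)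
    (by decide +kernel)
theorem L01945 : Good (Phi V4.P V4.D 1 1) ⟨6, 54, 4, 9, 3, 6, 3, 4, 4, 1⟩ :=
  out_sound (S := T4.ds_pp) T4.ok_pp (w := 72) (j := 3) (by decide +kernel)

end Crest.Agent.R097C4.N4pp
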