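import Crest.Agent.R097.T4

/-!
# Row 97, box cover in dimension n = 4 (generated)
-/

set_option autoImplicit false
set_option Elab.async false
set_option maxHeartbeats 0
set_option maxRecDepth 100000

open Crest.Agent.R097 Crest.Agent.R097.KA


namespace Crest.Agent.R097C4.N4pp

theorem L01946 : Good (Phi V4.P V4.D 1 1) ⟨6, 55, 5, 18, 3, 6, 3, 4, 4, 1⟩ :=
  leaf_sound (S := T4.ds_pp) T4.ok_pp (w := 208) (c := ⟨⟨.negSucc 2938, .ofNat 88, .negSucc 255, .negSucc 1079, .negSucc 178, .ofNat 272⟩, ⟨.negSucc 1653, .ofNat 21, .negSucc 217, .negSucc 617, .negSucc 101, .ofNat 157⟩, ⟨.ofNat 2245, .negSucc 35, .ofNat 160, .ofNat 607, .negSucc 83, .negSucc 374⟩, ⟨.negSucc 5236, .ofNat 118, .negSucc 406, .negSucc 2118, .negSucc 172, .ofNat 441⟩, ⟨.ofNat 1426, .ofNat 34, .ofNat 51, .ofNat 866, .negSucc 166, .negSucc 54⟩, .ofNat 5802, .negSucc 9612, .ofNat 0, .negSucc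 9612, .ofNat 17038, .ofNat 0, .ofNat 71, .ofNat 529, .negSucc 739, .ofNat 0, .ofNat 306, .negSucc 417, .ofNat 0, .ofNat 0, .ofNat 751, .ofNat 2081, .ofNat 0, .ofNat 0, .ofNat 0, .ofNat 0, .ofNat 0, .ofNat 0, .ofNat 168314054082071519058589735767244800, .ofNat 0, .ofNat 0, .ofNat 0, .ofNat 48187032990101512296999058774425600, .ofNat 0, .ofNat 0, .ofNat 0, .ofNat 41752850058209623992715488264192000, .ofNat 0⟩)
    (by decide +kernel)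
theorem L01947 : Good (Phi V4.P V4.D 1 1) ⟨7, 110, 5, 19, 3, 6, 3, 4, 4, 1⟩ :=
  out_sound (S := T4.ds_pp) T4.ok_pp (w := 80) (j := 3) (by decide +kernel)
theorem L01948 : Good (Phi V4.P V4.D 1 1) ⟨7, 111, 5, 19, 3, 6, 3, 4, 4, 1⟩ :=
  out_sound (S := T4.ds_pp) T4.ok_pp (w := 24) (j := 4) (by decide +kernel)
theorem L01949 : Good (Phi V4.P V4.D 1 1) ⟨5, 27, 4, 8, 4, 14, 3, 4, 5, 2⟩ :=
  leaf_sound (S := T4.ds_pp) T4.ok_pp (w := 224) (c := ⟨⟨.negSucc 3496, .negSucc 365, .negSucc 339, .negSucc 21, .negSucc 265, .ofNat 174⟩, ⟨.negSucc 1790, .negSucc 211, .negSucc 373, .negSucc 8, .negSucc 145, .ofNat 98⟩, ⟨.ofNat 2439, .ofNat 209, .ofNat 263, .negSucc 80, .ofNat 6, .negSucc 191⟩, ⟨.negSucc 6401, .negSucc 512, .negSucc 643, .negSucc 169, .negSucc 371, .ofNat 219⟩, ⟨.ofNat 1958, .ofNat 105, .ofNat 167, .ofNat 250, .negSucc 61, .ofNat 83⟩, .ofNat 3488, .negSucc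 5764, .ofNat 0, .negSucc 5764, .ofNat 10706, .ofNat 0, .ofNat 432, .ofNat 2397, .negSucc 3416, .ofNat 0, .ofNat 1346, .negSucc 1835, .ofNat 0, .ofNat 0, .ofNat 3034, .ofNat 5521, .ofNat 0, .ofNat 0, .ofNat 0, .ofNat 0, .ofNat 0, .ofNat 0, .ofNat 22468246059841431617770734597720086937600, .ofNat 0, .ofNat 0, .ofNat 0, .ofNat 0, .ofNat 0, .ofNat 0, .ofNat 0, .ofNat 11917264612452524422183311009328712908800, .ofNat 0⟩)
    (by decide +kernel)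
theorem L01950 : Good (Phi V4.P V4.D 1 1) ⟨5, 27, 4, 9, 4, 14, 3, 4, 5, 2⟩ :=
  leaf_sound (S := T4.ds_pp) T4.ok_pp (w := 216) (c := ⟨⟨.negSucc 3982, .negSucc 286, .negSucc 476, .ofNat 1, .negSucc 302, .ofNat 396⟩, ⟨.negSucc 2201, .negSucc 247, .negSucc 440, .ofNat 1, .negSucc 173, .ofNat 227⟩, ⟨.ofNat 2775, .ofNat 202, .ofNat 342, .negSucc 103, .ofNat 16, .negSucc 328⟩, ⟨.negSucc 7215, .negSucc 496, .negSucc 830, .negSucc 137, .negSucc 415, .ofNat 581⟩, ⟨.ofNat 2135, .ofNat 128, .ofNat 220, .ofNat 244, .negSucc 67, .ofNat 25⟩, .ofNat 2230, .negSucc 3398, .ofNat 0, .negSucc 3398, .ofNat 6204, .ofNat 0, .ofNat 487, .ofNat 2421, .negSucc 3799, .ofNat 0, .ofNat 1411, .negSucc 2094, .ofNat 0, .ofNat 0, .ofNat 3248, .ofNat 3531, .ofNat 0, .ofNat 0, .ofNat 0, .ofNat 0, .ofNat 0, .ofNat 0, .ofNat 0, .ofNat 0, .ofNat 0, .ofNat 0, .ofNat 0, .ofNat 0, .ofNat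 0, .ofNat 0, .ofNat 0, .ofNat 0⟩)
    (by decide +kernel)
theorem L01951 : Good (Phi V4.P V4.D 1 1) ⟨5, 27, 4, 8, 4, 15, 3, 4, 5, 2⟩ :=
  leaf_sound (S := T4.ds_pp) T4.ok_pp (w := 216) (c := ⟨⟨.negSucc 3506, .ofNat 51, .negSucc 368, .ofNat 630, .negSucc 338, .ofNat 1⟩, ⟨.negSucc 1804, .ofNat 71, .negSucc 405, .ofNat 345, .negSucc 183, .ofNat 4⟩, ⟨.ofNat 2325, .negSucc 65, .ofNat 276, .negSucc 421, .ofNat 94, .negSucc 73⟩, ⟨.negSucc 6495, .ofNat 221, .negSucc 723, .ofNat 866, .negSucc 547, .negSucc 111⟩, ⟨.ofNat 2124, .negSucc 155, .ofNat 235, .ofNat 171, .ofNat 61, .ofNat 209⟩, .ofNat 1749, .negSucc 2643, .ofNat 0, .negSucc 2643, .ofNat 5078, .ofNat 0, .ofNat 609, .ofNat 2465, .negSucc 3013, .ofNat 0, .ofNat 1398, .negSucc 1574, .ofNat 0, .ofNat 0, .ofNat 2732, .ofNat 7997, .ofNat 0, .ofNat 0, .ofNat 0, .ofNat 0, .ofNat 0, .ofNat 0, .ofNat 19978598306815740176166303795818319052800,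 .ofNat 0, .ofNat 0, .ofNat 0, .ofNat 0, .ofNat 0, .ofNat 0, .ofNat 0, .ofNat 9968796018490622783318830318335138201600, .ofNat 0⟩)
    (by decide +kernel)
theorem L01952 : Good (Phi V4.P V4.D 1 1) ⟨5, 27, 4, 9, 4, 15, 3, 4, 5, 2⟩ :=
  leaf_sound (S := T4.ds_pp) T4.ok_pp (w := 216) (c := ⟨⟨.negSucc 3964, .negSucc 65, .negSucc 365, .ofNat 796, .negSucc 355, .ofNat 128⟩, ⟨.negSucc 2196, .negSucc 114, .negSucc 363, .ofNat 456, .negSucc 202, .ofNat 74⟩, ⟨.ofNat 2617, .ofNat 64, .ofNat 256, .negSucc 519, .ofNat 99, .negSucc 142⟩, ⟨.negSucc 7253, .negSucc 123, .negSucc 649, .ofNat 1120, .negSucc 576, .ofNat 78⟩, ⟨.ofNat 2263, .ofNat 42, .ofNat 169, .ofNat 134, .ofNat 73, .ofNat 197⟩, .ofNat 2216, .negSucc 3375, .ofNat 0, .negSucc 3375, .ofNat 6171, .ofNat 0, .ofNat 253, .ofNat 1257, .negSucc 1611, .ofNat 0, .ofNat 733, .negSucc 888, .ofNat 0, .ofNat 0, .ofNat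 1421, .ofNat 1476, .ofNat 0, .ofNat 0, .ofNat 0, .ofNat 0, .ofNat 0, .ofNat 0, .ofNat 0, .ofNat 0, .ofNat 0, .ofNat 0, .ofNat 0, .ofNat 0, .ofNat 0, .ofNat 0, .ofNat 0, .ofNat 0⟩)
    (by decide +kernel)
theorem L01953 : Good (Phi V4.P V4.D 1 1) ⟨5, 27, 3, 4, 3, 7, 3, 4, 5, 3⟩ :=
  leaf_sound (S := T4.ds_pp) T4.ok_pp (w := 200) (c := ⟨⟨.negSucc 3617, .ofNat 12, .negSucc 540, .ofNat 445, .negSucc 256, .ofNat 191⟩, ⟨.negSucc 1858, .negSucc 36, .negSucc 625, .ofNat 251, .negSucc 141, .ofNat 106⟩, ⟨.ofNat 2372, .ofNat 73, .ofNat 330, .negSucc 379, .ofNat 42, .negSucc 176⟩, ⟨.negSucc 6571, .negSucc 126, .negSucc 830, .ofNat 329, .negSucc 393, .ofNat 241⟩, ⟨.ofNat 1967, .ofNat 276, .negSucc 3, .ofNat 624, .ofNat 8, .ofNat 92⟩, .ofNat 1859, .negSucc 2817, .ofNat 0, .negSucc 2817, .ofNat 5336, .ofNat 0, .ofNat 139, .ofNat 565, .negSucc 658, .ofNat 0, .ofNat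 323, .negSucc 347, .ofNat 0, .ofNat 0, .ofNat 664, .ofNat 587, .ofNat 0, .ofNat 0, .ofNat 5337589030637771011526219110809600, .ofNat 0, .ofNat 0, .ofNat 0, .ofNat 1166336232422519054575114996049510400, .ofNat 0, .ofNat 0, .ofNat 0, .ofNat 0, .ofNat 0, .ofNat 0, .ofNat 0, .ofNat 0, .ofNat 0⟩)
    (by decide +kernel)
theorem L01954 : Good (Phi V4.P V4.D 1 1) ⟨4, 13, 3, 5, 2, 3, 3, 4, 3, 0⟩ :=
  out_sound (S := T4.ds_pp) T4.ok_pp (w := 56) (j := 3) (by decide +kernel)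
theorem L01955 : Good (Phi V4.P V4.D 1 1) ⟨5, 26, 3, 4, 2, 3, 3, 4, 4, 2⟩ :=
  out_sound (S := T4.ds_pp) T4.ok_pp (w := 64) (j := 3) (by decide +kernel)
theorem L01956 : Good (Phi V4.P V4.D 1 1) ⟨5, 27, 4, 8, 2, 3, 3, 4, 4, 2⟩ :=
  leaf_sound (S := T4.ds_pp) T4.ok_pp (w := 192) (c := ⟨⟨.negSucc 2734, .negSucc 719, .ofNat 155, .negSucc 349, .negSucc 334, .ofNat 167⟩, ⟨.negSucc 1402, .negSucc 355, .negSucc 98, .negSucc 170, .negSucc 182, .ofNat 94⟩, ⟨.ofNat 1823, .ofNat 466, .negSucc 69, .ofNat 78, .ofNat 108, .negSucc 222⟩, ⟨.negSucc 4805, .negSucc 1054, .ofNat 161, .negSucc 1427, .negSucc 518, .ofNat 243⟩, ⟨.ofNat 1170, .ofNat 72, .ofNat 62, .ofNat 1648, .ofNat 15, .ofNat 22⟩, .ofNat 1745, .negSucc 2638, .ofNat 0, .negSucc 2638, .ofNat 5073, .ofNat 0, .ofNat 137, .ofNat 481, .negSucc 492, .ofNat 0, .ofNat 275, .negSucc 253, .ofNat 0, .ofNat 0, .ofNat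 609, .ofNat 1429, .ofNat 0, .ofNat 0, .ofNat 1507173036855741087712542720000, .ofNat 0, .ofNat 0, .ofNat 0, .ofNat 294193974986824348587615112396800, .ofNat 0, .ofNat 0, .ofNat 0, .ofNat 105828609369201444928774943539200, .ofNat 0, .ofNat 0, .ofNat 0, .ofNat 0, .ofNat 0⟩)
    (by decide +kernel)
theorem L01957 : Good (Phi V4.P V4.D 1 1) ⟨5, 27, 4, 9, 2, 3, 3, 4, 4, 2⟩ :=
  leaf_sound (S := T4.ds_pp) T4.ok_pp (w := 192) (c := ⟨⟨.negSucc 2946, .negSucc 357, .ofNat 164, .negSucc 234, .negSucc 277, .ofNat 438⟩, ⟨.negSucc 1625, .negSucc 270, .negSucc 38, .negSucc 131, .negSucc 158, .ofNat 251⟩, ⟨.ofNat 1945, .ofNat 250, .negSucc 89, .ofNat 68, .ofNat 68, .negSucc 399⟩, ⟨.negSucc 5099, .negSucc 565, .ofNat 242, .negSucc 1393, .negSucc 429, .ofNat 669⟩, ⟨.ofNat 1176, .ofNat 41, .ofNat 1, .ofNat 1815, .ofNat 19, .negSucc 17⟩, .ofNat 2241, .negSucc 3415, .ofNat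 0, .negSucc 3415, .ofNat 6230, .ofNat 0, .ofNat 113, .ofNat 488, .negSucc 502, .ofNat 0, .ofNat 287, .negSucc 274, .ofNat 0, .ofNat 0, .ofNat 617, .ofNat 1155, .ofNat 0, .ofNat 0, .ofNat 1555898197118704264515944448000, .ofNat 0, .ofNat 0, .ofNat 0, .ofNat 0, .ofNat 0, .ofNat 0, .ofNat 0, .ofNat 0, .ofNat 0, .ofNat 0, .ofNat 0, .ofNat 0, .ofNat 0⟩)
    (by decide +kernel)
theorem L01958 : Good (Phi V4.P V4.D 1 1) ⟨5, 26, 3, 4, 2, 3, 3, 4, 4, 3⟩ :=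
  out_sound (S := T4.ds_pp) T4.ok_pp (w := 64) (j := 3) (by decide +kernel)
theorem L01959 : Good (Phi V4.P V4.D 1 1) ⟨5, 27, 4, 8, 2, 3, 3, 4, 4, 3⟩ :=
  leaf_sound (S := T4.ds_pp) T4.ok_pp (w := 192) (c := ⟨⟨.negSucc 2755, .negSucc 32, .negSucc 41, .negSucc 147, .negSucc 250, .ofNat 329⟩, ⟨.negSucc 1420, .ofNat 6, .negSucc 184, .negSucc 55, .negSucc 134, .ofNat 177⟩, ⟨.ofNat 1651, .negSucc 110, .ofNat 113, .ofNat 109, .ofNat 83, .negSucc 319⟩, ⟨.negSucc 4758, .ofNat 190, .negSucc 220, .negSucc 1336, .negSucc 408, .ofNat 544⟩, ⟨.ofNat 1034, .negSucc 258, .ofNat 184, .ofNat 2037, .ofNat 54, .negSucc 83⟩, .ofNat 1770, .negSucc 2675, .ofNat 0, .negSucc 2675, .ofNat 5123, .ofNat 0, .ofNat 127, .ofNat 415, .negSucc 356, .ofNat 0, .ofNat 241, .negSucc 183, .ofNat 0, .ofNat 0, .ofNat 553, .ofNat 3061, .ofNat 0, .ofNat 329842829554370937009812773483315200,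 .ofNat 3025096077926916883617310310400, .ofNat 0, .ofNat 0, .ofNat 0, .ofNat 265904663561034503284454326272000, .ofNat 0, .ofNat 0, .ofNat 1663046457347532449062090331652096000, .ofNat 37198141554337358201872397107200, .ofNat 0, .ofNat 0, .ofNat 0, .ofNat 121344475499302059227005688217600, .ofNat 0⟩)
    (by decide +kernel)
theorem L01960 : Good (Phi V4.P V4.D 1 1) ⟨5, 27, 4, 9, 2, 3, 3, 4, 4, 3⟩ :=
  leaf_sound (S := T4.ds_pp) T4.ok_pp (w := 192) (c := ⟨⟨.negSucc 2865, .ofNat 138, .ofNat 103, .negSucc 160, .negSucc 264, .ofNat 271⟩, ⟨.negSucc 1585, .ofNat 19, .negSucc 56, .negSucc 88, .negSucc 150, .ofNat 155⟩, ⟨.ofNat 1733, .negSucc 100, .negSucc 95, .ofNat 123, .ofNat 97, .negSucc 281⟩, ⟨.negSucc 4910, .ofNat 185, .ofNat 166, .negSucc 1387, .negSucc 433, .ofNat 457⟩, ⟨.ofNat 1057, .ofNat 33, .negSucc 25, .ofNat 2002, .ofNat 64, .negSucc 83⟩, .ofNat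 2231, .negSucc 3399, .ofNat 0, .negSucc 3399, .ofNat 6206, .ofNat 0, .ofNat 106, .ofNat 422, .negSucc 369, .ofNat 0, .ofNat 250, .negSucc 201, .ofNat 0, .ofNat 0, .ofNat 562, .ofNat 1688, .ofNat 0, .ofNat 0, .ofNat 1769107663379846378728665907200, .ofNat 0, .ofNat 0, .ofNat 0, .ofNat 332673676625300958653181434265600, .ofNat 0, .ofNat 0, .ofNat 0, .ofNat 0, .ofNat 0, .ofNat 0, .ofNat 0, .ofNat 0, .ofNat 0⟩)
    (by decide +kernel)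
theorem L01961 : Good (Phi V4.P V4.D 1 1) ⟨4, 13, 3, 5, 2, 3, 3, 4, 3, 1⟩ :=
  out_sound (S := T4.ds_pp) T4.ok_pp (w := 56) (j := 3) (by decide +kernel)
theorem L01962 : Good (Phi V4.P V4.D 1 1) ⟨5, 26, 3, 4, 2, 3, 3, 5, 4, 0⟩ :=
  out_sound (S := T4.ds_pp) T4.ok_pp (w := 64) (j := 3) (by decide +kernel)
theorem L01963 : Good (Phi V4.P V4.D 1 1) ⟨6, 54, 4, 8, 3, 6, 3, 5, 4, 0⟩ :=
  leaf_sound (S := T4.ds_pp) T4.ok_pp (w := 208) (c := ⟨⟨.negSucc 1588, .negSucc 225, .negSucc 279, .negSucc 1325, .negSucc 87, .negSucc 961⟩, ⟨.negSucc 794, .negSucc 136, .negSucc 276, .negSucc 706, .negSucc 49, .negSucc 515⟩, ⟨.ofNat 1310, .ofNat 133, .ofNat 214, .ofNat 799, .negSucc 190, .ofNat 449⟩, ⟨.negSucc 2891, .negSucc 316, .negSucc 525, .negSucc 2422, .negSucc 14, .negSucc 1625⟩, ⟨.ofNat 835, .ofNat 56, .ofNat 122, .ofNat 745, .negSucc 222, .ofNat 294⟩, .ofNat 1683,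 .negSucc 2540, .ofNat 0, .negSucc 2540, .ofNat 4930, .ofNat 0, .ofNat 309, .ofNat 1165, .negSucc 2291, .ofNat 0, .ofNat 664, .negSucc 1185, .ofNat 0, .ofNat 0, .ofNat 1942, .ofNat 807, .ofNat 0, .ofNat 0, .ofNat 0, .ofNat 0, .ofNat 0, .ofNat 0, .ofNat 0, .ofNat 0, .ofNat 0, .ofNat 0, .ofNat 0, .ofNat 0, .ofNat 0, .ofNat 0, .ofNat 146541747389051800679803427959603200, .ofNat 0⟩)
    (by decide +kernel)
theorem L01964 : Good (Phi V4.P V4.D 1 1) ⟨6, 55, 4, 8, 3, 6, 3, 5, 4, 0⟩ :=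
  leaf_sound (S := T4.ds_pp) T4.ok_pp (w := 208) (c := ⟨⟨.negSucc 1469, .negSucc 595, .negSucc 527, .negSucc 1752, .negSucc 15, .negSucc 782⟩, ⟨.negSucc 725, .negSucc 392, .negSucc 398, .negSucc 984, .negSucc 9, .negSucc 438⟩, ⟨.ofNat 1230, .ofNat 326, .ofNat 385, .ofNat 1063, .negSucc 250, .ofNat 322⟩, ⟨.negSucc 2749, .negSucc 996, .negSucc 810, .negSucc 3129, .ofNat 122, .negSucc 1329⟩, ⟨.ofNat 932, .ofNat 221, .ofNat 34, .ofNat 862, .negSucc 257, .ofNat 265⟩, .ofNat 4716, .negSucc 7804, .ofNat 0, .negSucc 7804, .ofNat 14052, .ofNat 0, .ofNat 179, .ofNat 1212, .negSucc 2395, .ofNat 0, .ofNat 696, .negSucc 1332, .ofNat 0, .ofNat 0, .ofNat 1996, .ofNat 1228, .ofNat 0, .ofNat 0, .ofNat 4713761845805602965212145018470400, .ofNat 0, .ofNat 0, .ofNat 0, .ofNat 440405884833858080835978886800998400, .ofNat 0, .ofNat 0, .ofNat 0, .ofNat 281686081752180688558948889709772800,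 .ofNat 0, .ofNat 0, .ofNat 0, .ofNat 205955316524528864106336094047436800, .ofNat 0⟩)
    (by decide +kernel)
theorem L01965 : Good (Phi V4.P V4.D 1 1) ⟨6, 54, 4, 9, 3, 6, 3, 5, 4, 0⟩ :=
  out_sound (S := T4.ds_pp) T4.ok_pp (w := 72) (j := 3) (by decide +kernel)
theorem L01966 : Good (Phi V4.P V4.D 1 1) ⟨7, 110, 5, 18, 3, 6, 3, 5, 4, 0⟩ :=
  leaf_sound (S := T4.ds_pp) T4.ok_pp (w := 216) (c := ⟨⟨.negSucc 1835, .negSucc 360, .negSucc 42, .negSucc 2110, .negSucc 20, .negSucc 693⟩, ⟨.negSucc 1012, .negSucc 249, .negSucc 60, .negSucc 1205, .negSucc 11, .negSucc 396⟩, ⟨.ofNat 1493, .ofNat 258, .ofNat 21, .ofNat 1295, .negSucc 263, .ofNat 278⟩, ⟨.negSucc 3301, .negSucc 618, .negSucc 54, .negSucc 3699, .ofNat 126, .negSucc 1182⟩, ⟨.ofNat 932, .ofNat 155, .negSucc 8, .ofNat 920, .negSucc 276, .ofNat 245⟩, .ofNat 2219, .negSucc 3380, .ofNat 0, .negSucc 3380,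 .ofNat 6177, .ofNat 0, .ofNat 252, .ofNat 1204, .negSucc 2627, .ofNat 0, .ofNat 707, .negSucc 1450, .ofNat 0, .ofNat 0, .ofNat 2151, .ofNat 640, .ofNat 0, .ofNat 0, .ofNat 0, .ofNat 0, .ofNat 0, .ofNat 0, .ofNat 0, .ofNat 0, .ofNat 0, .ofNat 0, .ofNat 0, .ofNat 0, .ofNat 0, .ofNat 0, .ofNat 58884229873567765858197301729689600, .ofNat 0⟩)
    (by decide +kernel)
theorem L01967 : Good (Phi V4.P V4.D 1 1) ⟨7, 111, 5, 18, 3, 6, 3, 5, 4, 0⟩ :=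
  out_sound (S := T4.ds_pp) T4.ok_pp (w := 24) (j := 4) (by decide +kernel)
theorem L01968 : Good (Phi V4.P V4.D 1 1) ⟨7, 110, 5, 19, 3, 6, 3, 5, 4, 0⟩ :=
  out_sound (S := T4.ds_pp) T4.ok_pp (w := 80) (j := 3) (by decide +kernel)
theorem L01969 : Good (Phi V4.P V4.D 1 1) ⟨7, 111, 5, 19, 3, 6, 3, 5, 4, 0⟩ :=
  out_sound (S := T4.ds_pp) T4.ok_pp (w := 24) (j := 4) (by decide +kernel)
theorem L01970 : Good (Phi V4.P V4.D 1 1) ⟨6, 54, 5, 16, 3, 7, 3, 5, 4, 0⟩ :=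
  leaf_sound (S := T4.ds_pp) T4.ok_pp (w := 208) (c := ⟨⟨.negSucc 2924, .negSucc 773, .ofNat 150, .ofNat 629, .negSucc 514, .negSucc 964⟩, ⟨.negSucc 1504, .negSucc 390, .negSucc 19, .ofNat 345, .negSucc 275, .negSucc 508⟩, ⟨.ofNat 2086, .ofNat 459, .negSucc 66, .negSucc 441, .ofNat 109, .ofNat 395⟩, ⟨.negSucc 5243, .negSucc 1181, .ofNat 203, .ofNat 739, .negSucc 752, .negSucc 1748⟩, ⟨.ofNat 1422, .ofNat 108, .ofNat 11, .ofNat 411, .negSucc 62, .ofNat 516⟩, .ofNat 2911, .negSucc 4800, .ofNat 0, .negSucc 4800, .ofNat 9125, .ofNat 0, .ofNat 267, .ofNat 1392, .negSucc 2351, .ofNat 0, .ofNat 775, .negSucc 1238, .ofNat 0, .ofNat 0, .ofNat 1760, .ofNat 2032, .ofNat 0, .ofNat 0, .ofNat 0, .ofNat 0, .ofNat 0, .ofNat 0, .ofNat 0, .ofNat 0, .ofNat 0, .ofNat 0, .ofNat 0, .ofNat 0, .ofNat 0, .ofNat 0, .ofNat 142316678792276824528266123961958400, .ofNat 0⟩)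
    (by decide +kernel)
theorem L01971 : Good (Phi V4.P V4.D 1 1) ⟨6, 54, 5, 17, 3, 7, 3, 5, 4, 0⟩ :=
  leaf_sound (S := T4.ds_pp) T4.ok_pp (w := 208) (c := ⟨⟨.negSucc 2497, .negSucc 1926, .ofNat 336, .ofNat 923, .negSucc 351, .negSucc 551⟩, ⟨.negSucc 1345, .negSucc 1054, .ofNat 83, .ofNat 514, .negSucc 194, .negSucc 297⟩, ⟨.ofNat 1896, .ofNat 1043, .negSucc 150, .negSucc 593, .ofNat 21, .ofNat 170⟩, ⟨.negSucc 4549, .negSucc 3029, .ofNat 521, .ofNat 1142, .negSucc 498, .negSucc 1117⟩, ⟨.ofNat 1299, .ofNat 309, .negSucc 56, .ofNat 466, .negSucc 61, .ofNat 505⟩, .ofNat 3806, .negSucc 6292, .ofNat 0, .negSucc 6292, .ofNat 11567, .ofNat 0, .ofNat 112, .ofNat 711, .negSucc 1257, .ofNat 0, .ofNat 403, .negSucc 686, .ofNat 0, .ofNat 0, .ofNat 919, .ofNat 935, .ofNat 0, .ofNat 0, .ofNat 0, .ofNat 0, .ofNat 0, .ofNat 0, .ofNat 0, .ofNat 0, .ofNat 0, .ofNat 0,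 .ofNat 138224950311283238701141169327308800, .ofNat 0, .ofNat 0, .ofNat 0, .ofNat 61432306966883427107983793219174400, .ofNat 0⟩)
    (by decide +kernel)
theorem L01972 : Good (Phi V4.P V4.D 1 1) ⟨6, 55, 4, 8, 3, 7, 3, 5, 4, 0⟩ :=
  leaf_sound (S := T4.ds_pp) T4.ok_pp (w := 208) (c := ⟨⟨.negSucc 3254, .negSucc 455, .negSucc 1260, .ofNat 1271, .negSucc 530, .negSucc 440⟩, ⟨.negSucc 1706, .negSucc 338, .negSucc 832, .ofNat 716, .negSucc 298, .negSucc 243⟩, ⟨.ofNat 2369, .ofNat 303, .ofNat 701, .negSucc 845, .ofNat 98, .ofNat 91⟩, ⟨.negSucc 5810, .negSucc 693, .negSucc 1975, .ofNat 1768, .negSucc 750, .negSucc 961⟩, ⟨.ofNat 1586, .ofNat 59, .ofNat 136, .ofNat 267, .negSucc 87, .ofNat 526⟩, .ofNat 4660, .negSucc 7711, .ofNat 0, .negSucc 7711, .ofNat 13897, .ofNat 0, .ofNat 96, .ofNat 715, .negSucc 1349, .ofNat 0, .ofNat 410, .negSucc 751, .ofNat 0, .ofNat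 0, .ofNat 968, .ofNat 657, .ofNat 0, .ofNat 0, .ofNat 0, .ofNat 0, .ofNat 0, .ofNat 0, .ofNat 110780044758861987376420839279820800, .ofNat 0, .ofNat 0, .ofNat 0, .ofNat 89316841453475737296492596035584000, .ofNat 0, .ofNat 0, .ofNat 0, .ofNat 46079580901956723808539378293145600, .ofNat 0⟩)
    (by decide +kernel)
theorem L01973 : Good (Phi V4.P V4.D 1 1) ⟨6, 54, 4, 9, 3, 7, 3, 5, 4, 0⟩ :=
  out_sound (S := T4.ds_pp) T4.ok_pp (w := 72) (j := 3) (by decide +kernel)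
theorem L01974 : Good (Phi V4.P V4.D 1 1) ⟨7, 110, 5, 18, 4, 14, 3, 5, 4, 0⟩ :=
  leaf_sound (S := T4.ds_pp) T4.ok_pp (w := 224) (c := ⟨⟨.negSucc 4167, .negSucc 862, .negSucc 19, .negSucc 207, .negSucc 266, .ofNat 210⟩, ⟨.negSucc 2334, .negSucc 546, .negSucc 73, .negSucc 117, .negSucc 153, .ofNat 121⟩, ⟨.ofNat 2891, .ofNat 560, .ofNat 5, .ofNat 15, .negSucc 77, .negSucc 287⟩, ⟨.negSucc 7274, .negSucc 1381, .negSucc 61, .negSucc 404, .negSucc 294, .ofNat 95⟩, ⟨.ofNat 1743, .ofNat 173, .ofNat 70, .ofNat 161, .negSucc 185, .ofNat 386⟩, .ofNat 5737, .negSucc 9503, .ofNat 0, .negSucc 9503, .ofNat 16858, .ofNat 0, .ofNat 162, .ofNat 1400, .negSucc 3094, .ofNat 0, .ofNat 809, .negSucc 1751, .ofNat 0, .ofNat 0, .ofNat 2204, .ofNat 368, .ofNat 0, .ofNat 0, .ofNat 250145983962176912491314204691660800, .ofNat 0, .ofNat 0, .ofNat 0, .ofNat 0, .ofNat 0, .ofNat 0,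 .ofNat 0, .ofNat 0, .ofNat 0, .ofNat 0, .ofNat 0, .ofNat 37754990041126159886016652067104358400, .ofNat 0⟩)
    (by decide +kernel)
theorem L01975 : Good (Phi V4.P V4.D 1 1) ⟨7, 110, 5, 18, 4, 15, 3, 5, 4, 0⟩ :=
  leaf_sound (S := T4.ds_pp) T4.ok_pp (w := 224) (c := ⟨⟨.negSucc 4284, .negSucc 160, .negSucc 364, .ofNat 1453, .negSucc 560, .negSucc 376⟩, ⟨.negSucc 2410, .negSucc 133, .negSucc 269, .ofNat 834, .negSucc 320, .negSucc 214⟩, ⟨.ofNat 2843, .ofNat 95, .ofNat 226, .negSucc 845, .ofNat 145, .ofNat 63⟩, ⟨.negSucc 7461, .negSucc 261, .negSucc 573, .ofNat 2109, .negSucc 838, .negSucc 914⟩, ⟨.ofNat 1777, .ofNat 41, .ofNat 57, .ofNat 129, .negSucc 6, .ofNat 607⟩, .ofNat 5875, .negSucc 9732, .ofNat 0, .negSucc 9732, .ofNat 17238, .ofNat 0, .ofNat 83, .ofNat 740, .negSucc 1303, .ofNat 0, .ofNat 429, .negSucc 739, .ofNat 0, .ofNat 0, .ofNat 923, .ofNat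 591, .ofNat 0, .ofNat 0, .ofNat 0, .ofNat 0, .ofNat 0, .ofNat 0, .ofNat 0, .ofNat 0, .ofNat 0, .ofNat 0, .ofNat 0, .ofNat 0, .ofNat 0, .ofNat 0, .ofNat 7598785803316747808482032625070899200, .ofNat 0⟩)
    (by decide +kernel)
theorem L01976 : Good (Phi V4.P V4.D 1 1) ⟨7, 111, 5, 18, 3, 7, 3, 5, 4, 0⟩ :=
  out_sound (S := T4.ds_pp) T4.ok_pp (w := 24) (j := 4) (by decide +kernel)
theorem L01977 : Good (Phi V4.P V4.D 1 1) ⟨7, 110, 5, 19, 3, 7, 3, 5, 4, 0⟩ :=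
  out_sound (S := T4.ds_pp) T4.ok_pp (w := 80) (j := 3) (by decide +kernel)
theorem L01978 : Good (Phi V4.P V4.D 1 1) ⟨7, 111, 5, 19, 3, 7, 3, 5, 4, 0⟩ :=
  out_sound (S := T4.ds_pp) T4.ok_pp (w := 24) (j := 4) (by decide +kernel)
theorem L01979 : Good (Phi V4.P V4.D 1 1) ⟨4, 13, 3, 5, 2, 3, 3, 5, 4, 0⟩ :=
  out_sound (S := T4.ds_pp) T4.ok_pp (w := 56) (j := 3) (by decide +kernel)
theorem L01980 : Good (Phi V4.P V4.D 1 1) ⟨5, 26, 3, 4, 2, 3, 3, 5, 4, 1⟩ :=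
  out_sound (S := T4.ds_pp) T4.ok_pp (w := 64) (j := 3) (by decide +kernel)
theorem L01981 : Good (Phi V4.P V4.D 1 1) ⟨5, 27, 4, 8, 3, 6, 3, 5, 4, 1⟩ :=
  leaf_sound (S := T4.ds_pp) T4.ok_pp (w := 200) (c := ⟨⟨.negSucc 2625, .negSucc 888, .ofNat 195, .negSucc 1023, .negSucc 199, .negSucc 24⟩, ⟨.negSucc 1332, .negSucc 534, .negSucc 34, .negSucc 551, .negSucc 112, .negSucc 14⟩, ⟨.ofNat 1781, .ofNat 631, .negSucc 145, .ofNat 581, .negSucc 64, .negSucc 115⟩, ⟨.negSucc 4566, .negSucc 1431, .ofNat 302, .negSucc 2037, .negSucc 224, .negSucc 94⟩, ⟨.ofNat 1008, .ofNat 277, .negSucc 11, .ofNat 880, .negSucc 145, .ofNat 105⟩, .ofNat 1781, .negSucc 2694, .ofNat 0, .negSucc 2694, .ofNat 5155, .ofNat 0, .ofNat 286, .ofNat 1079, .negSucc 1681, .ofNat 0, .ofNat 620, .negSucc 880, .ofNat 0, .ofNat 0, .ofNat 1599, .ofNat 2619, .ofNat 0, .ofNat 0, .ofNat 0, .ofNat 0,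 .ofNat 0, .ofNat 0, .ofNat 590786320999090279683844480381747200, .ofNat 0, .ofNat 0, .ofNat 0, .ofNat 260089579423450533692519861767372800, .ofNat 0, .ofNat 0, .ofNat 0, .ofNat 0, .ofNat 0⟩)
    (by decide +kernel)
theorem L01982 : Good (Phi V4.P V4.D 1 1) ⟨6, 54, 4, 9, 3, 6, 3, 5, 4, 1⟩ :=
  out_sound (S := T4.ds_pp) T4.ok_pp (w := 72) (j := 3) (by decide +kernel)
theorem L01983 : Good (Phi V4.P V4.D 1 1) ⟨6, 55, 4, 9, 3, 6, 3, 5, 4, 1⟩ :=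
  leaf_sound (S := T4.ds_pp) T4.ok_pp (w := 208) (c := ⟨⟨.negSucc 2886, .negSucc 360, .negSucc 162, .negSucc 1203, .negSucc 212, .ofNat 142⟩, ⟨.negSucc 1611, .negSucc 294, .negSucc 183, .negSucc 687, .negSucc 121, .ofNat 83⟩, ⟨.ofNat 1984, .ofNat 231, .ofNat 109, .ofNat 701, .negSucc 78, .negSucc 241⟩, ⟨.negSucc 5009, .negSucc 578, .negSucc 267, .negSucc 2350, .negSucc 216, .ofNat 198⟩, ⟨.ofNat 1160, .ofNat 94, .ofNat 68, .ofNat 945, .negSucc 179, .ofNat 27⟩, .ofNat 2234, .negSucc 3404, .ofNat 0, .negSucc 3404, .ofNat 6214, .ofNat 0, .ofNat 120, .ofNat 555, .negSucc 900, .ofNat 0, .ofNat 326, .negSucc 496, .ofNat 0, .ofNat 0, .ofNat 834, .ofNat 405, .ofNat 0, .ofNat 0, .ofNat 202094553153709752772573790208000, .ofNat 0, .ofNat 0, .ofNat 0, .ofNat 0, .ofNat 0, .ofNat 0, .ofNat 0, .ofNat 0, .ofNat 0, .ofNat 0, .ofNat 0, .ofNat 21597812533643635901460275999539200,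 .ofNat 0⟩)
    (by decide +kernel)
theorem L01984 : Good (Phi V4.P V4.D 1 1) ⟨5, 27, 4, 8, 4, 14, 3, 5, 5, 2⟩ :=
  leaf_sound (S := T4.ds_pp) T4.ok_pp (w := 216) (c := ⟨⟨.negSucc 3727, .negSucc 475, .negSucc 237, .negSucc 106, .negSucc 329, .ofNat 156⟩, ⟨.negSucc 1913, .negSucc 275, .negSucc 325, .negSucc 53, .negSucc 181, .ofNat 88⟩, ⟨.ofNat 2409, .ofNat 248, .ofNat 185, .ofNat 6, .ofNat 17, .negSucc 151⟩, ⟨.negSucc 6698, .negSucc 660, .negSucc 461, .negSucc 360, .negSucc 442, .ofNat 170⟩, ⟨.ofNat 1851, .ofNat 73, .ofNat 135, .ofNat 360, .negSucc 104, .ofNat 119⟩, .ofNat 1755, .negSucc 2650, .ofNat 0, .negSucc 2650, .ofNat 5086, .ofNat 0, .ofNat 611, .ofNat 2488, .negSucc 4009, .ofNat 0, .ofNat 1419, .negSucc 2097, .ofNat 0, .ofNat 0, .ofNat 3342, .ofNat 8372, .ofNat 0, .ofNat 0, .ofNat 0, .ofNat 0, .ofNat 0, .ofNat 0, .ofNat 21163726458060237448492134768298898227200,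 .ofNat 0, .ofNat 0, .ofNat 0, .ofNat 0, .ofNat 0, .ofNat 0, .ofNat 0, .ofNat 11005932254935112858124175851223252992000, .ofNat 0⟩)
    (by decide +kernel)
theorem L01985 : Good (Phi V4.P V4.D 1 1) ⟨5, 27, 4, 9, 4, 14, 3, 5, 5, 2⟩ :=
  leaf_sound (S := T4.ds_pp) T4.ok_pp (w := 216) (c := ⟨⟨.negSucc 4240, .negSucc 208, .negSucc 508, .negSucc 105, .negSucc 294, .ofNat 318⟩, ⟨.negSucc 2346, .negSucc 205, .negSucc 466, .negSucc 58, .negSucc 168, .ofNat 183⟩, ⟨.ofNat 2745, .ofNat 138, .ofNat 324, .ofNat 0, .negSucc 18, .negSucc 253⟩, ⟨.negSucc 7542, .negSucc 342, .negSucc 833, .negSucc 362, .negSucc 372, .ofNat 428⟩, ⟨.ofNat 2022, .ofNat 72, .ofNat 155, .ofNat 357, .negSucc 121, .ofNat 88⟩, .ofNat 2228, .negSucc 3395, .ofNat 0, .negSucc 3395, .ofNat 6200, .ofNat 0, .ofNat 511, .ofNat 2572, .negSucc 4470, .ofNat 0, .ofNat 1504, .negSucc 2468, .ofNat 0, .ofNat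 0, .ofNat 3582, .ofNat 2281, .ofNat 0, .ofNat 0, .ofNat 0, .ofNat 0, .ofNat 0, .ofNat 0, .ofNat 0, .ofNat 0, .ofNat 0, .ofNat 0, .ofNat 0, .ofNat 0, .ofNat 0, .ofNat 0, .ofNat 14834976230036177571799099554586951680000, .ofNat 0⟩)
    (by decide +kernel)
theorem L01986 : Good (Phi V4.P V4.D 1 1) ⟨5, 27, 4, 8, 4, 15, 3, 5, 5, 2⟩ :=
  leaf_sound (S := T4.ds_pp) T4.ok_pp (w := 216) (c := ⟨⟨.negSucc 3807, .negSucc 360, .negSucc 211, .ofNat 600, .negSucc 391, .ofNat 80⟩, ⟨.negSucc 1959, .negSucc 181, .negSucc 321, .ofNat 332, .negSucc 213, .ofNat 48⟩, ⟨.ofNat 2359, .ofNat 192, .ofNat 171, .negSucc 354, .ofNat 109, .negSucc 91⟩, ⟨.negSucc 6928, .negSucc 458, .negSucc 464, .ofNat 736, .negSucc 637, .negSucc 9⟩, ⟨.ofNat 2068, .ofNat 13, .ofNat 179, .ofNat 321, .ofNat 74, .ofNat 238⟩, .ofNat 759, .negSucc 886, .ofNat 0, .negSucc 886, .ofNat 1869, .ofNat 0, .ofNat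 996, .ofNat 2549, .negSucc 4155, .ofNat 0, .ofNat 1528, .negSucc 2005, .ofNat 0, .ofNat 0, .ofNat 3313, .ofNat 8685, .ofNat 0, .ofNat 0, .ofNat 0, .ofNat 0, .ofNat 0, .ofNat 0, .ofNat 0, .ofNat 0, .ofNat 0, .ofNat 0, .ofNat 0, .ofNat 0, .ofNat 0, .ofNat 0, .ofNat 11304563394883606331002319328026768179200, .ofNat 0⟩)
    (by decide +kernel)
theorem L01987 : Good (Phi V4.P V4.D 1 1) ⟨5, 27, 4, 9, 4, 15, 3, 5, 5, 2⟩ :=
  leaf_sound (S := T4.ds_pp) T4.ok_pp (w := 216) (c := ⟨⟨.negSucc 4257, .negSucc 177, .negSucc 344, .ofNat 723, .negSucc 400, .ofNat 223⟩, ⟨.negSucc 2357, .negSucc 185, .negSucc 365, .ofNat 415, .negSucc 229, .ofNat 128⟩, ⟨.ofNat 2653, .ofNat 111, .ofNat 207, .negSucc 408, .ofNat 98, .negSucc 167⟩, ⟨.negSucc 7681, .negSucc 295, .negSucc 566, .ofNat 886, .negSucc 633, .ofNat 209⟩, ⟨.ofNat 2234, .ofNat 53, .ofNat 90, .ofNat 349, .ofNat 55,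 .ofNat 222⟩, .ofNat 2239, .negSucc 3412, .ofNat 0, .negSucc 3412, .ofNat 6225, .ofNat 0, .ofNat 528, .ofNat 2689, .negSucc 3893, .ofNat 0, .ofNat 1577, .negSucc 2152, .ofNat 0, .ofNat 0, .ofNat 3175, .ofNat 2729, .ofNat 0, .ofNat 0, .ofNat 0, .ofNat 0, .ofNat 0, .ofNat 0, .ofNat 0, .ofNat 0, .ofNat 0, .ofNat 0, .ofNat 0, .ofNat 0, .ofNat 0, .ofNat 0, .ofNat 0, .ofNat 0⟩)
    (by decide +kernel)
theorem L01988 : Good (Phi V4.P V4.D 1 1) ⟨5, 27, 4, 8, 4, 14, 3, 5, 5, 3⟩ :=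
  leaf_sound (S := T4.ds_pp) T4.ok_pp (w := 216) (c := ⟨⟨.negSucc 3656, .negSucc 568, .negSucc 8, .negSucc 76, .negSucc 361, .ofNat 220⟩, ⟨.negSucc 1878, .negSucc 298, .negSucc 209, .negSucc 36, .negSucc 197, .ofNat 124⟩, ⟨.ofNat 2276, .ofNat 330, .ofNat 36, .ofNat 15, .ofNat 65, .negSucc 181⟩, ⟨.negSucc 6614, .negSucc 821, .negSucc 93, .negSucc 369, .negSucc 531, .ofNat 294⟩, ⟨.ofNat 1895, .ofNat 135, .ofNat 73, .ofNat 467, .negSucc 36, .ofNat 75⟩, .ofNat 753, .negSucc 877, .ofNat 0, .negSucc 877, .ofNat 1860, .ofNat 0, .ofNat 957, .ofNat 2286, .negSucc 3890, .ofNat 0, .ofNat 1371, .negSucc 1847, .ofNat 0, .ofNat 0, .ofNat 3343, .ofNat 15191, .ofNat 0, .ofNat 0, .ofNat 0, .ofNat 0, .ofNat 0, .ofNat 0, .ofNat 21181927280392969004811943505013453619200, .ofNat 0, .ofNat 0, .ofNat 0, .ofNat 0, .ofNat 0, .ofNat 0, .ofNat 0, .ofNat 9553653681980301552492127102228129382400,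 .ofNat 0⟩)
    (by decide +kernel)
theorem L01989 : Good (Phi V4.P V4.D 1 1) ⟨5, 27, 4, 9, 4, 14, 3, 5, 5, 3⟩ :=
  leaf_sound (S := T4.ds_pp) T4.ok_pp (w := 224) (c := ⟨⟨.negSucc 3962, .negSucc 158, .negSucc 310, .negSucc 36, .negSucc 376, .ofNat 304⟩, ⟨.negSucc 2190, .negSucc 173, .negSucc 342, .negSucc 19, .negSucc 215, .ofNat 175⟩, ⟨.ofNat 2476, .ofNat 106, .ofNat 215, .negSucc 2, .ofNat 68, .negSucc 229⟩, ⟨.negSucc 7099, .negSucc 273, .negSucc 543, .negSucc 328, .negSucc 557, .ofNat 416⟩, ⟨.ofNat 1987, .ofNat 74, .ofNat 153, .ofNat 478, .negSucc 15, .ofNat 71⟩, .ofNat 5879, .negSucc 9739, .ofNat 0, .negSucc 9739, .ofNat 17250, .ofNat 0, .ofNat 304, .ofNat 2430, .negSucc 3306, .ofNat 0, .ofNat 1406, .negSucc 1870, .ofNat 0, .ofNat 0, .ofNat 3013, .ofNat 3753, .ofNat 0, .ofNat 0, .ofNat 0, .ofNat 0, .ofNat 0, .ofNat 0, .ofNat 32239574109933562369874478445554460262400,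 .ofNat 0, .ofNat 0, .ofNat 0, .ofNat 0, .ofNat 0, .ofNat 0, .ofNat 0, .ofNat 0, .ofNat 0⟩)
    (by decide +kernel)
theorem L01990 : Good (Phi V4.P V4.D 1 1) ⟨5, 27, 3, 4, 4, 15, 3, 5, 5, 3⟩ :=
  leaf_sound (S := T4.ds_pp) T4.ok_pp (w := 216) (c := ⟨⟨.negSucc 3714, .negSucc 312, .negSucc 201, .ofNat 408, .negSucc 403, .ofNat 160⟩, ⟨.negSucc 1892, .negSucc 270, .negSucc 414, .ofNat 228, .negSucc 222, .ofNat 90⟩, ⟨.ofNat 2232, .ofNat 195, .ofNat 166, .negSucc 204, .ofNat 142, .negSucc 122⟩, ⟨.negSucc 6840, .negSucc 534, .negSucc 417, .ofNat 330, .negSucc 693, .ofNat 139⟩, ⟨.ofNat 2187, .ofNat 162, .ofNat 124, .ofNat 525, .ofNat 147, .ofNat 188⟩, .ofNat 762, .negSucc 890, .ofNat 0, .negSucc 890, .ofNat 1872, .ofNat 0, .ofNat 980, .ofNat 2392, .negSucc 3433, .ofNat 0, .ofNat 1445, .negSucc 1641, .ofNat 0, .ofNat 0, .ofNat 3024, .ofNat 2497, .ofNat 0, .ofNat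 0, .ofNat 0, .ofNat 0, .ofNat 0, .ofNat 0, .ofNat 0, .ofNat 0, .ofNat 0, .ofNat 0, .ofNat 0, .ofNat 0, .ofNat 0, .ofNat 0, .ofNat 0, .ofNat 0⟩)
    (by decide +kernel)
theorem L01991 : Good (Phi V4.P V4.D 1 1) ⟨4, 13, 3, 5, 2, 3, 3, 5, 4, 1⟩ :=
  out_sound (S := T4.ds_pp) T4.ok_pp (w := 56) (j := 3) (by decide +kernel)
theorem L01992 : Good (Phi V4.P V4.D 1 1) ⟨5, 26, 3, 4, 2, 3, 3, 5, 3, 1⟩ :=
  out_sound (S := T4.ds_pp) T4.ok_pp (w := 64) (j := 3) (by decide +kernel)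
theorem L01993 : Good (Phi V4.P V4.D 1 1) ⟨6, 54, 5, 16, 2, 3, 3, 5, 3, 1⟩ :=
  leaf_sound (S := T4.ds_pp) T4.ok_pp (w := 192) (c := ⟨⟨.negSucc 3143, .negSucc 172, .ofNat 63, .negSucc 321, .negSucc 423, .ofNat 520⟩, ⟨.negSucc 1628, .negSucc 67, .negSucc 62, .negSucc 139, .negSucc 227, .ofNat 278⟩, ⟨.ofNat 1864, .ofNat 106, .negSucc 29, .ofNat 252, .ofNat 159, .negSucc 469⟩, ⟨.negSucc 5238, .negSucc 299, .ofNat 74, .negSucc 1720, .negSucc 694, .ofNat 744⟩, ⟨.ofNat 804, .ofNat 176, .negSucc 13, .ofNat 2299, .ofNat 76, .ofNat 91⟩, .ofNat 2935, .negSucc 4840, .ofNat 0, .negSucc 4840, .ofNat 9192, .ofNat 0, .ofNat 114, .ofNat 479, .negSucc 488, .ofNat 0, .ofNat 269, .negSucc 254, .ofNat 0, .ofNat 0, .ofNat 605, .ofNat 1150, .ofNat 0, .ofNat 7343256387768397926576393967946956800, .ofNat 60797533842321263093927116800, .ofNat 0, .ofNat 0, .ofNat 87888363058973183433598306319597568000,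 .ofNat 14786569472361810553047770726400, .ofNat 0, .ofNat 0, .ofNat 76048300196633766975431277241014681600, .ofNat 3343736383960271162888001945600, .ofNat 0, .ofNat 0, .ofNat 0, .ofNat 0, .ofNat 0⟩)
    (by decide +kernel)
theorem L01994 : Good (Phi V4.P V4.D 1 1) ⟨7, 108, 5, 17, 2, 3, 3, 5, 3, 1⟩ :=
  out_sound (S := T4.ds_pp) T4.ok_pp (w := 80) (j := 3) (by decide +kernel)
theorem L01995 : Good (Phi V4.P V4.D 1 1) ⟨7, 109, 5, 17, 2, 3, 3, 5, 3, 1⟩ :=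
  leaf_sound (S := T4.ds_pp) T4.ok_pp (w := 200) (c := ⟨⟨.negSucc 3184, .negSucc 302, .ofNat 340, .negSucc 325, .negSucc 465, .ofNat 650⟩, ⟨.negSucc 1723, .negSucc 169, .ofNat 104, .negSucc 158, .negSucc 255, .ofNat 359⟩, ⟨.ofNat 1938, .ofNat 80, .negSucc 84, .ofNat 250, .ofNat 166, .negSucc 552⟩, ⟨.negSucc 5401, .negSucc 272, .ofNat 299, .negSucc 1728, .negSucc 731, .ofNat 937⟩, ⟨.ofNat 1024, .negSucc 303, .ofNat 362, .ofNat 2235, .ofNat 49, .ofNat 88⟩, .ofNat 6263, .negSucc 10685, .ofNat 0, .negSucc 10685, .ofNat 19432, .ofNat 0, .ofNat 82, .ofNat 493, .negSucc 498, .ofNat 0, .ofNat 279, .negSucc 272, .ofNat 0, .ofNat 0, .ofNat 611, .ofNat 1077, .ofNat 0, .ofNat 79725715705513628860522624979042304000, .ofNat 30498862206304177957424332800, .ofNat 0, .ofNat 0, .ofNat 296411397696656529459458390431786598400, .ofNat 8137879933832643912258709094400, .ofNat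 0, .ofNat 0, .ofNat 0, .ofNat 2768200562209899283101410918400, .ofNat 0, .ofNat 0, .ofNat 0, .ofNat 0, .ofNat 0⟩)
    (by decide +kernel)
theorem L01996 : Good (Phi V4.P V4.D 1 1) ⟨6, 55, 5, 16, 2, 3, 3, 5, 3, 1⟩ :=
  out_sound (S := T4.ds_pp) T4.ok_pp (w := 72) (j := 3) (by decide +kernel)
theorem L01997 : Good (Phi V4.P V4.D 1 1) ⟨7, 110, 6, 34, 2, 3, 3, 5, 3, 1⟩ :=
  out_sound (S := T4.ds_pp) T4.ok_pp (w := 80) (j := 3) (by decide +kernel)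
theorem L01998 : Good (Phi V4.P V4.D 1 1) ⟨7, 110, 6, 35, 2, 3, 3, 5, 3, 1⟩ :=
  leaf_sound (S := T4.ds_pp) T4.ok_pp (w := 200) (c := ⟨⟨.negSucc 3187, .ofNat 360, .negSucc 171, .negSucc 434, .negSucc 390, .ofNat 589⟩, ⟨.negSucc 1762, .ofNat 211, .negSucc 143, .negSucc 232, .negSucc 219, .ofNat 332⟩, ⟨.ofNat 1903, .negSucc 134, .ofNat 76, .ofNat 322, .ofNat 140, .negSucc 521⟩, ⟨.negSucc 5336, .ofNat 281, .negSucc 161, .negSucc 1916, .negSucc 673, .ofNat 845⟩, ⟨.ofNat 939, .ofNat 504, .negSucc 190, .ofNat 2237, .ofNat 147, .ofNat 78⟩, .ofNat 4681, .negSucc 7746, .ofNat 0, .negSucc 7746, .ofNat 13956, .ofNat 0, .ofNat 83, .ofNat 498, .negSucc 519, .ofNat 0, .ofNat 287, .negSucc 287, .ofNat 0, .ofNat 0, .ofNat 622, .ofNat 1207, .ofNat 0, .ofNat 388516028443158723596553346632961228800, .ofNat 46566402419814307396897996800, .ofNat 0, .ofNat 0, .ofNat 10874265746057471884232432292307402752000,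 .ofNat 18414360430913704351589675827200, .ofNat 0, .ofNat 0, .ofNat 0, .ofNat 4333085329403771904901880217600, .ofNat 0, .ofNat 0, .ofNat 0, .ofNat 0, .ofNat 0⟩)
    (by decide +kernel)
theorem L01999 : Good (Phi V4.P V4.D 1 1) ⟨7, 111, 5, 17, 2, 3, 3, 5, 3, 1⟩ :=
  out_sound (S := T4.ds_pp) T4.ok_pp (w := 80) (j := 3) (by decide +kernel)
theorem L02000 : Good (Phi V4.P V4.D 1 1) ⟨6, 54, 4, 9, 2, 3, 3, 5, 3, 1⟩ :=
  out_sound (S := T4.ds_pp) T4.ok_pp (w := 72) (j := 3) (by decide +kernel)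
theorem L02001 : Good (Phi V4.P V4.D 1 1) ⟨7, 110, 6, 36, 3, 6, 3, 5, 3, 1⟩ :=
  leaf_sound (S := T4.ds_pp) T4.ok_pp (w := 216) (c := ⟨⟨.negSucc 3020, .negSucc 153, .ofNat 42, .negSucc 519, .negSucc 400, .ofNat 540⟩, ⟨.negSucc 1703, .negSucc 99, .negSucc 10, .negSucc 295, .negSucc 228, .ofNat 309⟩, ⟨.ofNat 1870, .ofNat 60, .negSucc 3, .ofNat 306, .ofNat 112, .negSucc 539⟩, ⟨.negSucc 5201, .negSucc 214, .ofNat 54, .negSucc 1329, .negSucc 582, .ofNat 838⟩, ⟨.ofNat 1146, .negSucc 20, .ofNat 23, .ofNat 958, .negSucc 35, .negSucc 45⟩, .ofNat 14916, .negSucc 25487, .ofNat 0, .negSucc 25487, .ofNat 44700, .ofNat 0, .ofNat 45, .ofNat 483, .negSucc 547, .ofNat 0, .ofNat 278, .negSucc 311, .ofNat 0, .ofNat 0, .ofNat 643, .ofNat 1916, .ofNat 0, .ofNat 0, .ofNat 0, .ofNat 0, .ofNat 0, .ofNat 0, .ofNat 8204203705573879091742776072601600, .ofNat 0, .ofNat 0, .ofNat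 0, .ofNat 0, .ofNat 0, .ofNat 0, .ofNat 0, .ofNat 0, .ofNat 0⟩)
    (by decide +kernel)
theorem L02002 : Good (Phi V4.P V4.D 1 1) ⟨7, 110, 6, 36, 3, 7, 3, 5, 3, 1⟩ :=
  leaf_sound (S := T4.ds_pp) T4.ok_pp (w := 216) (c := ⟨⟨.negSucc 3704, .negSucc 143, .ofNat 57, .ofNat 185, .negSucc 427, .ofNat 825⟩, ⟨.negSucc 2087, .negSucc 99, .negSucc 4, .ofNat 108, .negSucc 244, .ofNat 473⟩, ⟨.ofNat 2196, .ofNat 93, .negSucc 28, .negSucc 28, .ofNat 166, .negSucc 621⟩, ⟨.negSucc 6661, .negSucc 181, .ofNat 44, .negSucc 454, .negSucc 751, .ofNat 1133⟩, ⟨.ofNat 1909, .negSucc 52, .ofNat 63, .ofNat 1282, .ofNat 189, .ofNat 188⟩, .ofNat 14561, .negSucc 24880, .ofNat 0, .negSucc 24880, .ofNat 43663, .ofNat 0, .ofNat 48, .ofNat 523, .negSucc 502, .ofNat 0, .ofNat 301, .negSucc 285, .ofNat 0, .ofNat 0, .ofNat 610, .ofNat 1412, .ofNat 0, .ofNat 39434763304993774767489700776693360230400,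 .ofNat 53893898957284445802477492633600, .ofNat 0, .ofNat 0, .ofNat 561146938403145171396655367842721641267200, .ofNat 8873882142214043552467896395366400, .ofNat 0, .ofNat 0, .ofNat 0, .ofNat 0, .ofNat 0, .ofNat 0, .ofNat 0, .ofNat 0, .ofNat 0⟩)
    (by decide +kernel)
theorem L02003 : Good (Phi V4.P V4.D 1 1) ⟨8, 220, 6, 37, 2, 3, 3, 5, 3, 1⟩ :=
  out_sound (S := T4.ds_pp) T4.ok_pp (w := 88) (j := 3) (by decide +kernel)
theorem L02004 : Good (Phi V4.P V4.D 1 1) ⟨9, 442, 7, 74, 2, 3, 3, 5, 3, 1⟩ :=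
  out_sound (S := T4.ds_pp) T4.ok_pp (w := 96) (j := 3) (by decide +kernel)
theorem L02005 : Good (Phi V4.P V4.D 1 1) ⟨10, 886, 8, 148, 2, 3, 3, 5, 3, 1⟩ :=
  out_sound (S := T4.ds_pp) T4.ok_pp (w := 104) (j := 3) (by decide +kernel)
theorem L02006 : Good (Phi V4.P V4.D 1 1) ⟨10, 887, 8, 148, 2, 3, 3, 5, 3, 1⟩ :=
  out_sound (S := T4.ds_pp) T4.ok_pp (w := 32) (j := 4) (by decide +kernel)
theorem L02007 : Good (Phi V4.P V4.D 1 1) ⟨9, 443, 8, 149, 2, 3, 3, 5, 3, 1⟩ :=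
  out_sound (S := T4.ds_pp) T4.ok_pp (w := 96) (j := 3) (by decide +kernel)
theorem L02008 : Good (Phi V4.P V4.D 1 1) ⟨8, 221, 7, 75, 2, 3, 3, 5, 3, 1⟩ :=
  out_sound (S := T4.ds_pp) T4.ok_pp (w := 88) (j := 3) (by decide +kernel)
theorem L02009 : Good (Phi V4.P V4.D 1 1) ⟨7, 111, 5, 18, 2, 3, 3, 5, 3, 1⟩ :=
  out_sound (S := T4.ds_pp) T4.ok_pp (w := 24) (j := 4) (by decide +kernel)
theorem L02010 : Good (Phi V4.P V4.D 1 1) ⟨7, 110, 5, 19, 2, 3, 3, 5, 3, 1⟩ :=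
  out_sound (S := T4.ds_pp) T4.ok_pp (w := 80) (j := 3) (by decide +kernel)
theorem L02011 : Good (Phi V4.P V4.D 1 1) ⟨7, 111, 5, 19, 2, 3, 3, 5, 3, 1⟩ :=
  out_sound (S := T4.ds_pp) T4.ok_pp (w := 24) (j := 4) (by decide +kernel)
theorem L02012 : Good (Phi V4.P V4.D 1 1) ⟨4, 13, 3, 5, 2, 3, 3, 5, 3, 1⟩ :=
  out_sound (S := T4.ds_pp) T4.ok_pp (w := 56) (j := 3) (by decide +kernel)
theorem L02013 : Good (Phi V4.P V4.D 1 1) ⟨5, 26, 3, 4, 2, 3, 2, 2, 3, 2⟩ :=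
  out_sound (S := T4.ds_pp) T4.ok_pp (w := 64) (j := 3) (by decide +kernel)
theorem L02014 : Good (Phi V4.P V4.D 1 1) ⟨5, 27, 3, 4, 3, 6, 2, 2, 3, 2⟩ :=
  leaf_sound (S := T4.ds_pp) T4.ok_pp (w := 192) (c := ⟨⟨.negSucc 2351, .negSucc 272, .ofNat 222, .negSucc 207, .negSucc 584, .ofNat 420⟩, ⟨.negSucc 1206, .negSucc 181, .negSucc 95, .negSucc 106, .negSucc 318, .ofNat 233⟩, ⟨.ofNat 1274, .ofNat 114, .negSucc 88, .ofNat 134, .ofNat 263, .negSucc 471⟩, ⟨.negSucc 4150, .negSucc 366, .ofNat 277, .negSucc 765, .negSucc 931, .ofNat 730⟩, ⟨.ofNat 1028, .ofNat 56, .ofNat 14, .ofNat 822, .ofNat 76, .negSucc 161⟩, .ofNat 762, .negSucc 890, .ofNat 0, .negSucc 890, .ofNat 1872, .ofNat 0, .ofNat 179, .ofNat 333, .negSucc 317, .ofNat 0, .ofNat 215, .negSucc 146, .ofNat 0, .ofNat 0, .ofNat 538, .ofNat 1145, .ofNat 0, .ofNat 236032143975318831530661125082316800, .ofNat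 3549323724357807932248896307200, .ofNat 0, .ofNat 0, .ofNat 119405237752321669915483006431343411200, .ofNat 0, .ofNat 0, .ofNat 0, .ofNat 186307326570244821276351045162133094400, .ofNat 123233969759495131286112043008000, .ofNat 0, .ofNat 0, .ofNat 0, .ofNat 0, .ofNat 0⟩)
    (by decide +kernel)
theorem L02015 : Good (Phi V4.P V4.D 1 1) ⟨5, 27, 3, 4, 3, 7, 2, 2, 3, 2⟩ :=
  leaf_sound (S := T4.ds_pp) T4.ok_pp (w := 192) (c := ⟨⟨.negSucc 2610, .negSucc 138, .ofNat 98, .ofNat 80, .negSucc 545, .ofNat 607⟩, ⟨.negSucc 1330, .negSucc 106, .negSucc 203, .ofNat 56, .negSucc 298, .ofNat 334⟩, ⟨.ofNat 1420, .ofNat 70, .negSucc 8, .ofNat 3, .ofNat 267, .negSucc 542⟩, ⟨.negSucc 4970, .negSucc 180, .ofNat 32, .negSucc 515, .negSucc 961, .ofNat 998⟩, ⟨.ofNat 1848, .ofNat 59, .ofNat 10, .ofNat 1153, .ofNat 255, .negSucc 142⟩, .ofNat 772, .negSucc 905, .ofNat 0, .negSucc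 905, .ofNat 1889, .ofNat 0, .ofNat 191, .ofNat 361, .negSucc 303, .ofNat 0, .ofNat 230, .negSucc 139, .ofNat 0, .ofNat 0, .ofNat 532, .ofNat 1751, .ofNat 0, .ofNat 3016670845240063984921365517959168000, .ofNat 3446991479546724194399866060800, .ofNat 0, .ofNat 0, .ofNat 237866910783721168165210227153567744000, .ofNat 481137447789133465644464445849600, .ofNat 0, .ofNat 0, .ofNat 272464660399002103041649915584105676800, .ofNat 0, .ofNat 0, .ofNat 0, .ofNat 358151330844308067000827073844897382400, .ofNat 0, .ofNat 0⟩)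
    (by decide +kernel)
theorem L02016 : Good (Phi V4.P V4.D 1 1) ⟨4, 13, 3, 5, 2, 3, 2, 2, 3, 2⟩ :=
  out_sound (S := T4.ds_pp) T4.ok_pp (w := 56) (j := 3) (by decide +kernel)
theorem L02017 : Good (Phi V4.P V4.D 1 1) ⟨4, 13, 2, 2, 2, 3, 2, 2, 3, 3⟩ :=
  out_sound (S := T4.ds_pp) T4.ok_pp (w := 32) (j := 2) (by decide +kernel)
theorem L02018 : Good (Phi V4.P V4.D 1 1) ⟨4, 13, 2, 3, 2, 3, 2, 2, 1, 0⟩ :=
  out_sound (S := T4.ds_pp) T4.ok_pp (w := 56) (j := 3) (by decide +kernel)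
theorem L02019 : Good (Phi V4.P V4.D 1 1) ⟨3, 7, 1, 1, 2, 3, 2, 2, 1, 0⟩ :=
  out_sound (S := T4.ds_pp) T4.ok_pp (w := 16) (j := 4) (by decide +kernel)
theorem L02020 : Good (Phi V4.P V4.D 1 1) ⟨4, 12, 3, 4, 2, 3, 2, 3, 3, 0⟩ :=
  out_sound (S := T4.ds_pp) T4.ok_pp (w := 56) (j := 3) (by decide +kernel)
theorem L02021 : Good (Phi V4.P V4.D 1 1) ⟨5, 26, 3, 4, 2, 3, 3, 6, 3, 0⟩ :=
  out_sound (S := T4.ds_pp) T4.ok_pp (w := 64) (j := 3) (by decide +kernel)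
theorem L02022 : Good (Phi V4.P V4.D 1 1) ⟨6, 54, 5, 16, 3, 6, 3, 6, 3, 0⟩ :=
  leaf_sound (S := T4.ds_pp) T4.ok_pp (w := 200) (c := ⟨⟨.negSucc 1745, .negSucc 585, .ofNat 356, .negSucc 1204, .negSucc 329, .negSucc 1362⟩, ⟨.negSucc 883, .negSucc 310, .ofNat 108, .negSucc 631, .negSucc 178, .negSucc 726⟩, ⟨.ofNat 1155, .ofNat 319, .negSucc 199, .ofNat 704, .negSucc 15, .ofNat 644⟩, ⟨.negSucc 2989, .negSucc 949, .ofNat 588, .negSucc 2284, .negSucc 414, .negSucc 2352⟩, ⟨.ofNat 560, .ofNat 231, .negSucc 106, .ofNat 829, .negSucc 166, .ofNat 508⟩, .ofNat 1631, .negSucc 2459, .ofNat 0, .negSucc 2459, .ofNat 4813, .ofNat 0, .ofNat 163, .ofNat 592, .negSucc 1118, .ofNat 0, .ofNat 337, .negSucc 575, .ofNat 0, .ofNat 0, .ofNat 931, .ofNat 732, .ofNat 0, .ofNat 0, .ofNat 0, .ofNat 0, .ofNat 0, .ofNat 0, .ofNat 0, .ofNat 0, .ofNat 0, .ofNat 0, .ofNat 0, .ofNat 0,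 .ofNat 0, .ofNat 0, .ofNat 0, .ofNat 0⟩)
    (by decide +kernel)
theorem L02023 : Good (Phi V4.P V4.D 1 1) ⟨6, 54, 5, 16, 3, 7, 3, 6, 4, 0⟩ :=
  leaf_sound (S := T4.ds_pp) T4.ok_pp (w := 208) (c := ⟨⟨.negSucc 3073, .negSucc 627, .negSucc 134, .ofNat 50, .negSucc 276, .negSucc 898⟩, ⟨.negSucc 1586, .negSucc 315, .negSucc 176, .ofNat 40, .negSucc 149, .negSucc 469⟩, ⟨.ofNat 1919, .ofNat 296, .ofNat 127, .ofNat 0, .negSucc 40, .ofNat 426⟩, ⟨.negSucc 5340, .negSucc 798, .negSucc 302, .negSucc 345, .negSucc 374, .negSucc 1696⟩, ⟨.ofNat 1171, .negSucc 181, .ofNat 155, .ofNat 791, .negSucc 90, .ofNat 606⟩, .ofNat 2901, .negSucc 4782, .ofNat 0, .negSucc 4782, .ofNat 9094, .ofNat 0, .ofNat 282, .ofNat 1494, .negSucc 2797, .ofNat 0, .ofNat 836, .negSucc 1477, .ofNat 0, .ofNat 0, .ofNat 1957, .ofNat 1392, .ofNat 0, .ofNat 0, .ofNat 0, .ofNat 0, .ofNat 0, .ofNat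 0, .ofNat 586541138189270568956383258371686400, .ofNat 0, .ofNat 0, .ofNat 0, .ofNat 0, .ofNat 0, .ofNat 0, .ofNat 0, .ofNat 120153879099230425751293284424089600, .ofNat 0⟩)
    (by decide +kernel)
theorem L02024 : Good (Phi V4.P V4.D 1 1) ⟨6, 54, 5, 16, 3, 7, 3, 6, 4, 1⟩ :=
  leaf_sound (S := T4.ds_pp) T4.ok_pp (w := 208) (c := ⟨⟨.negSucc 3957, .ofNat 50, .negSucc 198, .ofNat 134, .negSucc 688, .negSucc 28⟩, ⟨.negSucc 2046, .ofNat 54, .negSucc 229, .ofNat 92, .negSucc 368, .negSucc 7⟩, ⟨.ofNat 2257, .ofNat 104, .ofNat 49, .ofNat 7, .ofNat 248, .negSucc 23⟩, ⟨.negSucc 6784, .negSucc 66, .negSucc 251, .negSucc 499, .negSucc 1094, .negSucc 311⟩, ⟨.ofNat 1342, .ofNat 449, .negSucc 166, .ofNat 1312, .ofNat 80, .ofNat 498⟩, .ofNat 2940, .negSucc 4843, .ofNat 0, .negSucc 4843, .ofNat 9185, .ofNat 0, .ofNat 269, .ofNat 1340, .negSucc 2010, .ofNat 0, .ofNat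 750, .negSucc 1058, .ofNat 0, .ofNat 0, .ofNat 1622, .ofNat 3779, .ofNat 0, .ofNat 0, .ofNat 0, .ofNat 0, .ofNat 0, .ofNat 0, .ofNat 599242613935992253028037683262259200, .ofNat 0, .ofNat 0, .ofNat 0, .ofNat 333886107644823391431035509643673600, .ofNat 0, .ofNat 0, .ofNat 0, .ofNat 98187412518773791247440292924620800, .ofNat 0⟩)
    (by decide +kernel)
theorem L02025 : Good (Phi V4.P V4.D 1 1) ⟨7, 108, 5, 17, 2, 3, 3, 6, 3, 0⟩ :=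
  out_sound (S := T4.ds_pp) T4.ok_pp (w := 80) (j := 3) (by decide +kernel)
theorem L02026 : Good (Phi V4.P V4.D 1 1) ⟨7, 109, 5, 17, 3, 6, 3, 6, 3, 0⟩ :=
  leaf_sound (S := T4.ds_pp) T4.ok_pp (w := 208) (c := ⟨⟨.negSucc 2255, .ofNat 1119, .negSucc 1340, .negSucc 1523, .negSucc 107, .negSucc 1431⟩, ⟨.negSucc 1211, .ofNat 599, .negSucc 797, .negSucc 832, .negSucc 60, .negSucc 784⟩, ⟨.ofNat 1485, .negSucc 763, .ofNat 899, .ofNat 900, .negSucc 175, .ofNat 706⟩, ⟨.negSucc 3812, .ofNat 1735, .negSucc 2076, .negSucc 2781, .negSucc 32, .negSucc 2441⟩, ⟨.ofNat 674, .ofNat 5, .ofNat 41, .ofNat 852, .negSucc 237, .ofNat 490⟩, .ofNat 3783, .negSucc 6250, .ofNat 0, .negSucc 6250, .ofNat 11493, .ofNat 0, .ofNat 54, .ofNat 307, .negSucc 594, .ofNat 0, .ofNat 175, .negSucc 323, .ofNat 0, .ofNat 0, .ofNat 486, .ofNat 352, .ofNat 0, .ofNat 0, .ofNat 0, .ofNat 0, .ofNat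 0, .ofNat 0, .ofNat 0, .ofNat 0, .ofNat 0, .ofNat 0, .ofNat 451624092280818974670867922944000, .ofNat 0, .ofNat 0, .ofNat 0, .ofNat 284665113320434322426417066803200, .ofNat 0⟩)
    (by decide +kernel)
theorem L02027 : Good (Phi V4.P V4.D 1 1) ⟨7, 109, 5, 17, 3, 7, 3, 6, 4, 0⟩ :=
  leaf_sound (S := T4.ds_pp) T4.ok_pp (w := 216) (c := ⟨⟨.negSucc 3511, .negSucc 713, .ofNat 415, .ofNat 70, .negSucc 289, .negSucc 651⟩, ⟨.negSucc 1896, .negSucc 398, .ofNat 129, .ofNat 46, .negSucc 161, .negSucc 353⟩, ⟨.ofNat 2156, .ofNat 421, .negSucc 233, .negSucc 6, .negSucc 37, .ofNat 301⟩, ⟨.negSucc 6028, .negSucc 900, .ofNat 421, .negSucc 354, .negSucc 384, .negSucc 1364⟩, ⟨.ofNat 1237, .negSucc 253, .ofNat 337, .ofNat 833, .negSucc 98, .ofNat 680⟩, .ofNat 3839, .negSucc 6347, .ofNat 0, .negSucc 6347, .ofNat 11658, .ofNat 0, .ofNat 234, .ofNat 1516, .negSucc 2920, .ofNat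 0, .ofNat 863, .negSucc 1598, .ofNat 0, .ofNat 0, .ofNat 2017, .ofNat 1696, .ofNat 0, .ofNat 0, .ofNat 0, .ofNat 0, .ofNat 0, .ofNat 0, .ofNat 0, .ofNat 0, .ofNat 0, .ofNat 0, .ofNat 0, .ofNat 0, .ofNat 0, .ofNat 0, .ofNat 49353869970215150820140558529331200, .ofNat 0⟩)
    (by decide +kernel)
theorem L02028 : Good (Phi V4.P V4.D 1 1) ⟨7, 109, 5, 17, 3, 7, 3, 6, 4, 1⟩ :=
  leaf_sound (S := T4.ds_pp) T4.ok_pp (w := 216) (c := ⟨⟨.negSucc 4113, .negSucc 298, .ofNat 109, .ofNat 206, .negSucc 691, .ofNat 131⟩, ⟨.negSucc 2227, .negSucc 157, .negSucc 58, .ofNat 126, .negSucc 381, .ofNat 77⟩, ⟨.ofNat 2379, .ofNat 188, .negSucc 89, .negSucc 28, .ofNat 232, .negSucc 110⟩, ⟨.negSucc 7095, .negSucc 412, .ofNat 132, .negSucc 407, .negSucc 1065, .negSucc 81⟩, ⟨.ofNat 1515, .ofNat 18, .negSucc 6, .ofNat 1306, .ofNat 29, .ofNat 509⟩, .ofNat 3774, .negSucc 6234, .ofNat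 0, .negSucc 6234, .ofNat 11462, .ofNat 0, .ofNat 228, .ofNat 1361, .negSucc 2088, .ofNat 0, .ofNat 774, .negSucc 1137, .ofNat 0, .ofNat 0, .ofNat 1664, .ofNat 3536, .ofNat 0, .ofNat 0, .ofNat 0, .ofNat 0, .ofNat 0, .ofNat 0, .ofNat 0, .ofNat 0, .ofNat 0, .ofNat 0, .ofNat 0, .ofNat 0, .ofNat 0, .ofNat 0, .ofNat 0, .ofNat 0⟩)
    (by decide +kernel)
theorem L02029 : Good (Phi V4.P V4.D 1 1) ⟨6, 55, 5, 16, 2, 3, 3, 6, 3, 0⟩ :=
  out_sound (S := T4.ds_pp) T4.ok_pp (w := 72) (j := 3) (by decide +kernel)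
theorem L02030 : Good (Phi V4.P V4.D 1 1) ⟨7, 110, 6, 34, 2, 3, 3, 6, 3, 0⟩ :=
  out_sound (S := T4.ds_pp) T4.ok_pp (w := 80) (j := 3) (by decide +kernel)

end Crest.Agent.R097C4.N4pp
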