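import Crest.Agent.R097.T4

/-!
# Row 97, box cover in dimension n = 4 (generated)
-/

set_option autoImplicit false
set_option Elab.async false
set_option maxHeartbeats 0
set_option maxRecDepth 100000

open Crest.Agent.R097 Crest.Agent.R097.KA


namespace Crest.Agent.R097C4.N4pp

theorem L02031 : Good (Phi V4.P V4.D 1 1) ⟨8, 220, 6, 35, 3, 6, 3, 6, 3, 0⟩ :=
  leaf_sound (S := T4.ds_pp) T4.ok_pp (w := 216) (c := ⟨⟨.negSucc 1936, .ofNat 24, .negSucc 221, .negSucc 1671, .ofNat 62, .negSucc 1265⟩, ⟨.negSucc 1066, .negSucc 0, .negSucc 150, .negSucc 937, .ofNat 33, .negSucc 710⟩, ⟨.ofNat 1258, .ofNat 15, .ofNat 110, .ofNat 1013, .negSucc 296, .ofNat 601⟩, ⟨.negSucc 3284, .ofNat 135, .negSucc 436, .negSucc 3019, .ofNat 221, .negSucc 2184⟩, ⟨.ofNat 641, .negSucc 140, .ofNat 165, .ofNat 882, .negSucc 224, .ofNat 486⟩, .ofNat 4705, .negSucc 7787, .ofNat 0, .negSucc 7787, .ofNat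 14025, .ofNat 0, .ofNat 46, .ofNat 308, .negSucc 596, .ofNat 0, .ofNat 177, .negSucc 332, .ofNat 0, .ofNat 0, .ofNat 489, .ofNat 648, .ofNat 0, .ofNat 0, .ofNat 0, .ofNat 0, .ofNat 0, .ofNat 0, .ofNat 0, .ofNat 0, .ofNat 0, .ofNat 0, .ofNat 0, .ofNat 0, .ofNat 0, .ofNat 0, .ofNat 0, .ofNat 0⟩)
    (by decide +kernel)
theorem L02032 : Good (Phi V4.P V4.D 1 1) ⟨8, 220, 6, 35, 3, 7, 3, 6, 3, 0⟩ :=
  leaf_sound (S := T4.ds_pp) T4.ok_pp (w := 216) (c := ⟨⟨.negSucc 4108, .negSucc 546, .ofNat 305, .negSucc 17, .negSucc 401, .negSucc 352⟩, ⟨.negSucc 2274, .negSucc 308, .ofNat 117, .negSucc 4, .negSucc 226, .negSucc 192⟩, ⟨.ofNat 2536, .ofNat 559, .negSucc 410, .ofNat 83, .ofNat 42, .ofNat 85⟩, ⟨.negSucc 6910, .negSucc 1300, .ofNat 897, .negSucc 650, .negSucc 603, .negSucc 1166⟩, ⟨.ofNat 1261, .ofNat 877, .negSucc 790, .ofNat 1107, .negSucc 4, .ofNat 1125⟩, .ofNat 4716, .negSucc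 7804, .ofNat 0, .negSucc 7804, .ofNat 14050, .ofNat 0, .ofNat 50, .ofNat 361, .negSucc 638, .ofNat 0, .ofNat 207, .negSucc 355, .ofNat 0, .ofNat 0, .ofNat 469, .ofNat 284, .ofNat 0, .ofNat 0, .ofNat 7151714369587062336183179673600, .ofNat 0, .ofNat 0, .ofNat 0, .ofNat 0, .ofNat 0, .ofNat 0, .ofNat 0, .ofNat 0, .ofNat 0, .ofNat 0, .ofNat 0, .ofNat 161678860141259087141074580275200, .ofNat 0⟩)
    (by decide +kernel)
theorem L02033 : Good (Phi V4.P V4.D 1 1) ⟨8, 221, 6, 35, 2, 3, 3, 6, 3, 0⟩ :=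
  out_sound (S := T4.ds_pp) T4.ok_pp (w := 88) (j := 3) (by decide +kernel)
theorem L02034 : Good (Phi V4.P V4.D 1 1) ⟨7, 111, 5, 17, 2, 3, 3, 6, 3, 0⟩ :=
  out_sound (S := T4.ds_pp) T4.ok_pp (w := 80) (j := 3) (by decide +kernel)
theorem L02035 : Good (Phi V4.P V4.D 1 1) ⟨6, 54, 4, 9, 2, 3, 3, 6, 3, 0⟩ :=
  out_sound (S := T4.ds_pp) T4.ok_pp (w := 72) (j := 3) (by decide +kernel)
theorem L02036 : Good (Phi V4.P V4.D 1 1) ⟨7, 110, 5, 18, 3, 6, 3, 6, 4, 0⟩ :=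
  leaf_sound (S := T4.ds_pp) T4.ok_pp (w := 216) (c := ⟨⟨.negSucc 1484, .negSucc 666, .ofNat 207, .negSucc 2216, .ofNat 188, .negSucc 999⟩, ⟨.negSucc 811, .negSucc 423, .ofNat 76, .negSucc 1269, .ofNat 107, .negSucc 571⟩, ⟨.ofNat 1016, .ofNat 412, .negSucc 140, .ofNat 1349, .negSucc 407, .ofNat 502⟩, ⟨.negSucc 2638, .negSucc 1029, .ofNat 314, .negSucc 3832, .ofNat 465, .negSucc 1673⟩, ⟨.ofNat 690, .ofNat 73, .ofNat 10, .ofNat 874, .negSucc 316, .ofNat 299⟩, .ofNat 5823, .negSucc 9645, .ofNat 0, .negSucc 9645, .ofNat 17093, .ofNat 0, .ofNat 326, .ofNat 2627, .negSucc 6074, .ofNat 0, .ofNat 1522, .negSucc 3443, .ofNat 0, .ofNat 0, .ofNat 4611, .ofNat 1746, .ofNat 0, .ofNat 0, .ofNat 0, .ofNat 0, .ofNat 0, .ofNat 0, .ofNat 0, .ofNat 0, .ofNat 0, .ofNat 0, .ofNat 0, .ofNat 0, .ofNat 0, .ofNat 0, .ofNat 313053915453510055177896914740838400, .ofNat 0⟩)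
    (by decide +kernel)
theorem L02037 : Good (Phi V4.P V4.D 1 1) ⟨7, 111, 5, 18, 3, 6, 3, 6, 4, 0⟩ :=
  out_sound (S := T4.ds_pp) T4.ok_pp (w := 24) (j := 4) (by decide +kernel)
theorem L02038 : Good (Phi V4.P V4.D 1 1) ⟨6, 55, 5, 18, 3, 6, 3, 6, 4, 1⟩ :=
  leaf_sound (S := T4.ds_pp) T4.ok_pp (w := 208) (c := ⟨⟨.negSucc 2686, .negSucc 366, .negSucc 88, .negSucc 1441, .negSucc 426, .negSucc 333⟩, ⟨.negSucc 1506, .negSucc 249, .negSucc 122, .negSucc 823, .negSucc 244, .negSucc 190⟩, ⟨.ofNat 1630, .ofNat 224, .ofNat 51, .ofNat 828, .ofNat 40, .ofNat 117⟩, ⟨.negSucc 4572, .negSucc 529, .negSucc 133, .negSucc 2711, .negSucc 546, .negSucc 598⟩, ⟨.ofNat 918, .negSucc 17, .ofNat 35, .ofNat 951, .negSucc 166, .ofNat 169⟩, .ofNat 2228, .negSucc 3395, .ofNat 0, .negSucc 3395, .ofNat 6201, .ofNat 0, .ofNat 253, .ofNat 1179, .negSucc 2268, .ofNat 0, .ofNat 694, .negSucc 1255,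 .ofNat 0, .ofNat 0, .ofNat 1893, .ofNat 2079, .ofNat 0, .ofNat 0, .ofNat 0, .ofNat 0, .ofNat 0, .ofNat 0, .ofNat 0, .ofNat 0, .ofNat 0, .ofNat 0, .ofNat 0, .ofNat 0, .ofNat 0, .ofNat 0, .ofNat 0, .ofNat 0⟩)
    (by decide +kernel)
theorem L02039 : Good (Phi V4.P V4.D 1 1) ⟨7, 110, 5, 18, 4, 14, 3, 6, 4, 0⟩ :=
  leaf_sound (S := T4.ds_pp) T4.ok_pp (w := 224) (c := ⟨⟨.negSucc 4346, .negSucc 334, .negSucc 527, .negSucc 541, .ofNat 62, .negSucc 70⟩, ⟨.negSucc 2437, .negSucc 244, .negSucc 366, .negSucc 308, .ofNat 34, .negSucc 39⟩, ⟨.ofNat 2728, .ofNat 210, .ofNat 314, .ofNat 258, .negSucc 299, .negSucc 70⟩, ⟨.negSucc 7395, .negSucc 516, .negSucc 850, .negSucc 990, .ofNat 269, .negSucc 370⟩, ⟨.ofNat 1482, .ofNat 55, .ofNat 120, .ofNat 309, .negSucc 306, .ofNat 461⟩, .ofNat 5799, .negSucc 9607, .ofNat 0, .negSucc 9607, .ofNat 17030, .ofNat 0, .ofNat 169, .ofNat 1475, .negSucc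 3459, .ofNat 0, .ofNat 854, .negSucc 1961, .ofNat 0, .ofNat 0, .ofNat 2365, .ofNat 477, .ofNat 0, .ofNat 0, .ofNat 314445128812503175200780462116044800, .ofNat 0, .ofNat 0, .ofNat 0, .ofNat 0, .ofNat 0, .ofNat 0, .ofNat 0, .ofNat 0, .ofNat 0, .ofNat 0, .ofNat 0, .ofNat 27289436880738916905697495602325094400, .ofNat 0⟩)
    (by decide +kernel)
theorem L02040 : Good (Phi V4.P V4.D 1 1) ⟨7, 110, 5, 18, 4, 15, 3, 6, 4, 0⟩ :=
  leaf_sound (S := T4.ds_pp) T4.ok_pp (w := 232) (c := ⟨⟨.negSucc 4574, .negSucc 416, .negSucc 244, .ofNat 923, .negSucc 557, .negSucc 85⟩, ⟨.negSucc 2567, .negSucc 293, .negSucc 197, .ofNat 530, .negSucc 318, .negSucc 46⟩, ⟨.ofNat 2767, .ofNat 204, .ofNat 187, .negSucc 460, .ofNat 125, .negSucc 18⟩, ⟨.negSucc 7773, .negSucc 594, .negSucc 452, .ofNat 1128, .negSucc 802, .negSucc 566⟩, ⟨.ofNat 1550, .negSucc 29, .ofNat 158, .ofNat 455, .negSucc 63,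 .ofNat 765⟩, .ofNat 5773, .negSucc 9562, .ofNat 0, .negSucc 9562, .ofNat 16956, .ofNat 0, .ofNat 355, .ofNat 3139, .negSucc 5915, .ofNat 0, .ofNat 1820, .negSucc 3355, .ofNat 0, .ofNat 0, .ofNat 4014, .ofNat 2059, .ofNat 0, .ofNat 0, .ofNat 0, .ofNat 0, .ofNat 0, .ofNat 0, .ofNat 0, .ofNat 0, .ofNat 0, .ofNat 0, .ofNat 0, .ofNat 0, .ofNat 0, .ofNat 0, .ofNat 124166254653097602627010413071853158400, .ofNat 0⟩)
    (by decide +kernel)
theorem L02041 : Good (Phi V4.P V4.D 1 1) ⟨7, 111, 5, 18, 3, 7, 3, 6, 4, 0⟩ :=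
  out_sound (S := T4.ds_pp) T4.ok_pp (w := 24) (j := 4) (by decide +kernel)
theorem L02042 : Good (Phi V4.P V4.D 1 1) ⟨6, 55, 5, 18, 3, 7, 3, 6, 4, 1⟩ :=
  leaf_sound (S := T4.ds_pp) T4.ok_pp (w := 216) (c := ⟨⟨.negSucc 4611, .negSucc 258, .ofNat 91, .ofNat 362, .negSucc 676, .ofNat 263⟩, ⟨.negSucc 2600, .negSucc 192, .negSucc 42, .ofNat 210, .negSucc 387, .ofNat 152⟩, ⟨.ofNat 2696, .ofNat 116, .negSucc 21, .negSucc 115, .ofNat 199, .negSucc 206⟩, ⟨.negSucc 7893, .negSucc 365, .ofNat 110, .negSucc 182, .negSucc 994, .ofNat 139⟩, ⟨.ofNat 1671, .negSucc 30, .ofNat 65, .ofNat 1268, .negSucc 36, .ofNat 449⟩, .ofNat 5850, .negSucc 9691, .ofNat 0, .negSucc 9691, .ofNat 17170, .ofNat 0, .ofNat 166, .ofNat 1385, .negSucc 2261, .ofNat 0, .ofNat 802, .negSucc 1281, .ofNat 0, .ofNat 0, .ofNat 1754, .ofNat 1407, .ofNat 0, .ofNat 0, .ofNat 0, .ofNat 0, .ofNat 0, .ofNat 0, .ofNat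 603162919562203647962425555786137600, .ofNat 0, .ofNat 0, .ofNat 0, .ofNat 0, .ofNat 0, .ofNat 0, .ofNat 0, .ofNat 123809269008726476112515568972595200, .ofNat 0⟩)
    (by decide +kernel)
theorem L02043 : Good (Phi V4.P V4.D 1 1) ⟨7, 110, 5, 19, 2, 3, 3, 6, 3, 0⟩ :=
  out_sound (S := T4.ds_pp) T4.ok_pp (w := 80) (j := 3) (by decide +kernel)
theorem L02044 : Good (Phi V4.P V4.D 1 1) ⟨7, 111, 5, 19, 2, 3, 3, 6, 3, 0⟩ :=
  out_sound (S := T4.ds_pp) T4.ok_pp (w := 24) (j := 4) (by decide +kernel)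
theorem L02045 : Good (Phi V4.P V4.D 1 1) ⟨5, 26, 4, 8, 3, 6, 3, 7, 4, 0⟩ :=
  out_sound (S := T4.ds_pp) T4.ok_pp (w := 64) (j := 3) (by decide +kernel)
theorem L02046 : Good (Phi V4.P V4.D 1 1) ⟨6, 54, 4, 8, 3, 6, 3, 7, 4, 0⟩ :=
  leaf_sound (S := T4.ds_pp) T4.ok_pp (w := 208) (c := ⟨⟨.negSucc 1268, .ofNat 453, .negSucc 233, .negSucc 1621, .ofNat 881, .negSucc 2130⟩, ⟨.negSucc 643, .ofNat 297, .negSucc 298, .negSucc 869, .ofNat 483, .negSucc 1153⟩, ⟨.ofNat 610, .negSucc 449, .ofNat 281, .ofNat 1028, .negSucc 775, .ofNat 1231⟩, ⟨.negSucc 2165, .ofNat 609, .negSucc 293, .negSucc 2853, .ofNat 1364, .negSucc 3365⟩, ⟨.ofNat 399, .ofNat 221, .negSucc 132, .ofNat 707, .negSucc 47, .ofNat 224⟩, .ofNat 1710, .negSucc 2579, .ofNat 0, .negSucc 2579, .ofNat 4978, .ofNat 0, .ofNat 344, .ofNat 1346, .negSucc 3725, .ofNat 0, .ofNat 777, .negSucc 1971, .ofNat 0, .ofNat 0, .ofNat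 2635, .ofNat 374, .ofNat 0, .ofNat 0, .ofNat 794813703589882439802742741401600, .ofNat 0, .ofNat 0, .ofNat 0, .ofNat 0, .ofNat 0, .ofNat 0, .ofNat 0, .ofNat 0, .ofNat 0, .ofNat 0, .ofNat 106175693051940172412298716270751331123200, .ofNat 70889987457213535013302646813491200, .ofNat 0⟩)
    (by decide +kernel)
theorem L02047 : Good (Phi V4.P V4.D 1 1) ⟨6, 55, 4, 8, 3, 6, 3, 7, 4, 0⟩ :=
  leaf_sound (S := T4.ds_pp) T4.ok_pp (w := 208) (c := ⟨⟨.negSucc 473, .ofNat 365, .negSucc 684, .negSucc 2018, .ofNat 1220, .negSucc 2261⟩, ⟨.negSucc 200, .ofNat 151, .negSucc 449, .negSucc 1132, .ofNat 686, .negSucc 1273⟩, ⟨.ofNat 14, .negSucc 247, .ofNat 482, .ofNat 1268, .negSucc 992, .ofNat 1311⟩, ⟨.negSucc 1040, .ofNat 559, .negSucc 983, .negSucc 3449, .ofNat 1898, .negSucc 3535⟩, ⟨.ofNat 560, .ofNat 29, .negSucc 72, .ofNat 715, .negSucc 99, .ofNat 219⟩, .ofNat 4707, .negSucc 7788,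 .ofNat 0, .negSucc 7788, .ofNat 14024, .ofNat 0, .ofNat 202, .ofNat 1388, .negSucc 3829, .ofNat 0, .ofNat 800, .negSucc 2141, .ofNat 0, .ofNat 0, .ofNat 2688, .ofNat 477, .ofNat 0, .ofNat 0, .ofNat 2147059157311467106766462700748800, .ofNat 0, .ofNat 0, .ofNat 0, .ofNat 429054081558100224469853327799091200, .ofNat 0, .ofNat 0, .ofNat 0, .ofNat 244185828199563214601606732238028800, .ofNat 0, .ofNat 0, .ofNat 342466301303278678201288356990430897766400, .ofNat 253700038321049332109009675825971200, .ofNat 0⟩)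
    (by decide +kernel)
theorem L02048 : Good (Phi V4.P V4.D 1 1) ⟨5, 26, 4, 9, 3, 6, 3, 7, 4, 0⟩ :=
  out_sound (S := T4.ds_pp) T4.ok_pp (w := 64) (j := 3) (by decide +kernel)
theorem L02049 : Good (Phi V4.P V4.D 1 1) ⟨6, 54, 4, 9, 3, 6, 3, 7, 4, 0⟩ :=
  out_sound (S := T4.ds_pp) T4.ok_pp (w := 72) (j := 3) (by decide +kernel)
theorem L02050 : Good (Phi V4.P V4.D 1 1) ⟨7, 110, 5, 18, 3, 6, 3, 7, 4, 0⟩ :=
  leaf_sound (S := T4.ds_pp) T4.ok_pp (w := 216) (c := ⟨⟨.negSucc 764, .negSucc 369, .ofNat 137, .negSucc 2163, .ofNat 1373, .negSucc 2469⟩, ⟨.negSucc 408, .negSucc 236, .ofNat 36, .negSucc 1238, .ofNat 785, .negSucc 1414⟩, ⟨.ofNat 288, .ofNat 172, .negSucc 80, .ofNat 1327, .negSucc 1087, .ofNat 1431⟩, ⟨.negSucc 1445, .negSucc 529, .ofNat 201, .negSucc 3678, .ofNat 2133, .negSucc 3847⟩, ⟨.ofNat 502, .negSucc 30, .ofNat 30, .ofNat 746, .negSucc 118, .ofNat 238⟩, .ofNat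 2231, .negSucc 3399, .ofNat 0, .negSucc 3399, .ofNat 6206, .ofNat 0, .ofNat 280, .ofNat 1371, .negSucc 4202, .ofNat 0, .ofNat 810, .negSucc 2345, .ofNat 0, .ofNat 0, .ofNat 2922, .ofNat 234, .ofNat 0, .ofNat 0, .ofNat 153919832886053751675135039897600, .ofNat 0, .ofNat 0, .ofNat 0, .ofNat 0, .ofNat 0, .ofNat 0, .ofNat 0, .ofNat 0, .ofNat 0, .ofNat 0, .ofNat 14801260596712261238189440279816452440064000, .ofNat 29272821793765580325842730772070400, .ofNat 0⟩)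
    (by decide +kernel)
theorem L02051 : Good (Phi V4.P V4.D 1 1) ⟨7, 111, 5, 18, 3, 6, 3, 7, 4, 0⟩ :=
  out_sound (S := T4.ds_pp) T4.ok_pp (w := 24) (j := 4) (by decide +kernel)
theorem L02052 : Good (Phi V4.P V4.D 1 1) ⟨7, 110, 5, 19, 3, 6, 3, 7, 4, 0⟩ :=
  out_sound (S := T4.ds_pp) T4.ok_pp (w := 80) (j := 3) (by decide +kernel)
theorem L02053 : Good (Phi V4.P V4.D 1 1) ⟨7, 111, 5, 19, 3, 6, 3, 7, 4, 0⟩ :=
  out_sound (S := T4.ds_pp) T4.ok_pp (w := 24) (j := 4) (by decide +kernel)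
theorem L02054 : Good (Phi V4.P V4.D 1 1) ⟨5, 26, 3, 4, 4, 14, 3, 7, 4, 0⟩ :=
  out_sound (S := T4.ds_pp) T4.ok_pp (w := 64) (j := 3) (by decide +kernel)
theorem L02055 : Good (Phi V4.P V4.D 1 1) ⟨6, 54, 4, 8, 4, 14, 3, 7, 5, 0⟩ :=
  leaf_sound (S := T4.ds_pp) T4.ok_pp (w := 224) (c := ⟨⟨.negSucc 2501, .negSucc 876, .ofNat 285, .negSucc 1196, .ofNat 653, .negSucc 884⟩, ⟨.negSucc 1276, .negSucc 476, .negSucc 14, .negSucc 644, .ofNat 355, .negSucc 473⟩, ⟨.ofNat 1392, .ofNat 488, .negSucc 176, .ofNat 702, .negSucc 596, .ofNat 459⟩, ⟨.negSucc 4451, .negSucc 1264, .ofNat 385, .negSucc 2011, .ofNat 1039, .negSucc 1446⟩, ⟨.ofNat 1133, .negSucc 11, .ofNat 48, .ofNat 349, .negSucc 83, .ofNat 181⟩, .ofNat 1695, .negSucc 2558, .ofNat 0, .negSucc 2558, .ofNat 4953, .ofNat 0, .ofNat 719, .ofNat 3122, .negSucc 8278, .ofNat 0, .ofNat 1797, .negSucc 4381, .ofNat 0, .ofNat 0, .ofNat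 5269, .ofNat 1482, .ofNat 0, .ofNat 0, .ofNat 0, .ofNat 0, .ofNat 0, .ofNat 0, .ofNat 0, .ofNat 0, .ofNat 0, .ofNat 0, .ofNat 0, .ofNat 0, .ofNat 0, .ofNat 0, .ofNat 0, .ofNat 0⟩)
    (by decide +kernel)
theorem L02056 : Good (Phi V4.P V4.D 1 1) ⟨6, 54, 4, 9, 4, 14, 3, 7, 5, 0⟩ :=
  out_sound (S := T4.ds_pp) T4.ok_pp (w := 72) (j := 3) (by decide +kernel)
theorem L02057 : Good (Phi V4.P V4.D 1 1) ⟨6, 55, 4, 8, 4, 14, 3, 7, 5, 0⟩ :=
  leaf_sound (S := T4.ds_pp) T4.ok_pp (w := 224) (c := ⟨⟨.negSucc 2647, .negSucc 679, .negSucc 603, .negSucc 1457, .ofNat 1014, .negSucc 991⟩, ⟨.negSucc 1379, .negSucc 460, .negSucc 450, .negSucc 817, .ofNat 570, .negSucc 555⟩, ⟨.ofNat 1486, .ofNat 374, .ofNat 315, .ofNat 847, .negSucc 819, .ofNat 519⟩, ⟨.negSucc 4770, .negSucc 981, .negSucc 806, .negSucc 2399, .ofNat 1608, .negSucc 1578⟩, ⟨.ofNat 1352, .negSucc 9, .negSucc 162, .ofNat 355,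 .negSucc 137, .ofNat 143⟩, .ofNat 2034, .negSucc 3090, .ofNat 0, .negSucc 3090, .ofNat 5739, .ofNat 0, .ofNat 633, .ofNat 3192, .negSucc 9714, .ofNat 0, .ofNat 1874, .negSucc 5353, .ofNat 0, .ofNat 0, .ofNat 6010, .ofNat 2239, .ofNat 0, .ofNat 0, .ofNat 0, .ofNat 0, .ofNat 0, .ofNat 0, .ofNat 14442396593541350667153563111337964339200, .ofNat 0, .ofNat 0, .ofNat 0, .ofNat 11876238864236370317916691042421597798400, .ofNat 0, .ofNat 0, .ofNat 0, .ofNat 14132149598445896209565861102453627289600, .ofNat 0⟩)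
    (by decide +kernel)
theorem L02058 : Good (Phi V4.P V4.D 1 1) ⟨7, 110, 4, 9, 4, 14, 3, 7, 5, 0⟩ :=
  leaf_sound (S := T4.ds_pp) T4.ok_pp (w := 232) (c := ⟨⟨.negSucc 3450, .negSucc 346, .negSucc 308, .negSucc 1716, .ofNat 1385, .negSucc 736⟩, ⟨.negSucc 1921, .negSucc 277, .negSucc 211, .negSucc 982, .ofNat 793, .negSucc 420⟩, ⟨.ofNat 1926, .ofNat 181, .ofNat 166, .ofNat 990, .negSucc 1038, .ofNat 379⟩, ⟨.negSucc 5881, .negSucc 497, .negSucc 433, .negSucc 2759, .ofNat 2165, .negSucc 1233⟩, ⟨.ofNat 1185, .ofNat 2, .negSucc 42, .ofNat 312, .negSucc 144, .ofNat 218⟩, .ofNat 5768, .negSucc 9556, .ofNat 0, .negSucc 9556, .ofNat 16947, .ofNat 0, .ofNat 370, .ofNat 3270, .negSucc 10025, .ofNat 0, .ofNat 1898, .negSucc 5699, .ofNat 0, .ofNat 0, .ofNat 6128, .ofNat 791, .ofNat 0, .ofNat 0, .ofNat 6904454270764671503133580599282892800, .ofNat 0, .ofNat 0, .ofNat 0, .ofNat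 0, .ofNat 0, .ofNat 0, .ofNat 0, .ofNat 0, .ofNat 0, .ofNat 0, .ofNat 0, .ofNat 1006978719136663602552259374297278054400, .ofNat 0⟩)
    (by decide +kernel)
theorem L02059 : Good (Phi V4.P V4.D 1 1) ⟨7, 111, 4, 9, 4, 14, 3, 7, 5, 0⟩ :=
  out_sound (S := T4.ds_pp) T4.ok_pp (w := 24) (j := 4) (by decide +kernel)
theorem L02060 : Good (Phi V4.P V4.D 1 1) ⟨6, 54, 4, 8, 4, 14, 3, 7, 5, 1⟩ :=
  leaf_sound (S := T4.ds_pp) T4.ok_pp (w := 224) (c := ⟨⟨.negSucc 3191, .negSucc 1405, .ofNat 729, .negSucc 744, .negSucc 77, .negSucc 755⟩, ⟨.negSucc 1631, .negSucc 741, .ofNat 161, .negSucc 399, .negSucc 45, .negSucc 406⟩, ⟨.ofNat 1748, .ofNat 769, .negSucc 405, .ofNat 437, .negSucc 185, .ofNat 393⟩, ⟨.negSucc 5593, .negSucc 2019, .ofNat 1016, .negSucc 1414, .negSucc 5, .negSucc 1276⟩, ⟨.ofNat 1287, .negSucc 108, .ofNat 165, .ofNat 517, .negSucc 206, .ofNat 233⟩, .ofNat 1723, .negSucc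 2603, .ofNat 0, .negSucc 2603, .ofNat 5023, .ofNat 0, .ofNat 703, .ofNat 3054, .negSucc 7544, .ofNat 0, .ofNat 1755, .negSucc 3996, .ofNat 0, .ofNat 0, .ofNat 4890, .ofNat 1158, .ofNat 0, .ofNat 0, .ofNat 0, .ofNat 0, .ofNat 0, .ofNat 0, .ofNat 0, .ofNat 0, .ofNat 0, .ofNat 0, .ofNat 0, .ofNat 0, .ofNat 0, .ofNat 1170809838541700186058899219016284673304166400, .ofNat 2884103104001503327206590714939965440000, .ofNat 0⟩)
    (by decide +kernel)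
theorem L02061 : Good (Phi V4.P V4.D 1 1) ⟨6, 55, 4, 8, 4, 14, 3, 7, 5, 1⟩ :=
  leaf_sound (S := T4.ds_pp) T4.ok_pp (w := 224) (c := ⟨⟨.negSucc 3864, .negSucc 1135, .ofNat 16, .negSucc 888, .ofNat 42, .negSucc 906⟩, ⟨.negSucc 2034, .negSucc 724, .negSucc 131, .negSucc 498, .ofNat 22, .negSucc 509⟩, ⟨.ofNat 2131, .ofNat 638, .negSucc 25, .ofNat 520, .negSucc 278, .ofNat 481⟩, ⟨.negSucc 6645, .negSucc 1735, .ofNat 84, .negSucc 1633, .ofNat 218, .negSucc 1499⟩, ⟨.ofNat 1408, .ofNat 120, .negSucc 75, .ofNat 520, .negSucc 273, .ofNat 233⟩, .ofNat 4666, .negSucc 7721, .ofNat 0, .negSucc 7721, .ofNat 13914, .ofNat 0, .ofNat 423, .ofNat 3144, .negSucc 8147, .ofNat 0, .ofNat 1809, .negSucc 4557, .ofNat 0, .ofNat 0, .ofNat 5176, .ofNat 1551, .ofNat 0, .ofNat 0, .ofNat 69338148338875540020405831961097011200, .ofNat 0, .ofNat 0, .ofNat 0, .ofNat 14320594166375971692485415437425075814400,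 .ofNat 0, .ofNat 0, .ofNat 1094401420039212375784922871223884644037427200, .ofNat 8862187187196770145477933932337954816000, .ofNat 0, .ofNat 0, .ofNat 1424249310531664164245990372687727043176038400, .ofNat 5735959798436187441589755240664950374400, .ofNat 0⟩)
    (by decide +kernel)
theorem L02062 : Good (Phi V4.P V4.D 1 1) ⟨6, 54, 4, 9, 4, 14, 3, 7, 5, 1⟩ :=
  out_sound (S := T4.ds_pp) T4.ok_pp (w := 72) (j := 3) (by decide +kernel)
theorem L02063 : Good (Phi V4.P V4.D 1 1) ⟨7, 110, 5, 18, 4, 14, 3, 7, 5, 1⟩ :=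
  leaf_sound (S := T4.ds_pp) T4.ok_pp (w := 232) (c := ⟨⟨.negSucc 3932, .negSucc 587, .ofNat 208, .negSucc 859, .ofNat 24, .negSucc 689⟩, ⟨.negSucc 2198, .negSucc 392, .ofNat 60, .negSucc 490, .ofNat 13, .negSucc 393⟩, ⟨.ofNat 2165, .ofNat 307, .negSucc 97, .ofNat 500, .negSucc 278, .ofNat 358⟩, ⟨.negSucc 6726, .negSucc 820, .ofNat 264, .negSucc 1580, .ofNat 217, .negSucc 1175⟩, ⟨.ofNat 1398, .negSucc 74, .ofNat 111, .ofNat 505, .negSucc 314, .ofNat 243⟩, .ofNat 5752, .negSucc 9528, .ofNat 0, .negSucc 9528, .ofNat 16901, .ofNat 0, .ofNat 362, .ofNat 3144, .negSucc 8332, .ofNat 0, .ofNat 1823, .negSucc 4731, .ofNat 0, .ofNat 0, .ofNat 5297, .ofNat 1195, .ofNat 0, .ofNat 0, .ofNat 0, .ofNat 0, .ofNat 0, .ofNat 0, .ofNat 0, .ofNat 0, .ofNat 0, .ofNat 0, .ofNat 0, .ofNat 0, .ofNat 0, .ofNat 75111607322178140280156308803001236191392563200, .ofNat 1263959618269866687210079003077299404800,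 .ofNat 0⟩)
    (by decide +kernel)
theorem L02064 : Good (Phi V4.P V4.D 1 1) ⟨7, 111, 5, 18, 4, 14, 3, 7, 5, 1⟩ :=
  out_sound (S := T4.ds_pp) T4.ok_pp (w := 24) (j := 4) (by decide +kernel)
theorem L02065 : Good (Phi V4.P V4.D 1 1) ⟨7, 110, 5, 19, 4, 14, 3, 7, 5, 1⟩ :=
  out_sound (S := T4.ds_pp) T4.ok_pp (w := 80) (j := 3) (by decide +kernel)
theorem L02066 : Good (Phi V4.P V4.D 1 1) ⟨7, 111, 5, 19, 4, 14, 3, 7, 5, 1⟩ :=
  out_sound (S := T4.ds_pp) T4.ok_pp (w := 24) (j := 4) (by decide +kernel)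
theorem L02067 : Good (Phi V4.P V4.D 1 1) ⟨5, 26, 3, 4, 5, 30, 3, 7, 4, 0⟩ :=
  out_sound (S := T4.ds_pp) T4.ok_pp (w := 64) (j := 3) (by decide +kernel)
theorem L02068 : Good (Phi V4.P V4.D 1 1) ⟨6, 54, 4, 8, 5, 30, 3, 7, 4, 0⟩ :=
  leaf_sound (S := T4.ds_pp) T4.ok_pp (w := 232) (c := ⟨⟨.negSucc 3342, .negSucc 501, .negSucc 304, .negSucc 244, .negSucc 359, .negSucc 1207⟩, ⟨.negSucc 1706, .negSucc 277, .negSucc 380, .negSucc 129, .negSucc 194, .negSucc 641⟩, ⟨.ofNat 1880, .ofNat 215, .ofNat 222, .ofNat 170, .negSucc 2, .ofNat 621⟩, ⟨.negSucc 5891, .negSucc 624, .negSucc 574, .negSucc 527, .negSucc 486, .negSucc 2209⟩, ⟨.ofNat 1417, .negSucc 110, .ofNat 147, .ofNat 285, .negSucc 111, .ofNat 678⟩, .ofNat 1724, .negSucc 2604, .ofNat 0, .negSucc 2604, .ofNat 5021, .ofNat 0, .ofNat 720, .ofNat 3255, .negSucc 7340, .ofNat 0, .ofNat 1879, .negSucc 3897, .ofNat 0, .ofNat 0,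 .ofNat 4639, .ofNat 2845, .ofNat 0, .ofNat 0, .ofNat 0, .ofNat 0, .ofNat 0, .ofNat 0, .ofNat 0, .ofNat 0, .ofNat 0, .ofNat 0, .ofNat 0, .ofNat 0, .ofNat 0, .ofNat 10602840919920924430739321003191361908978483200, .ofNat 0, .ofNat 0⟩)
    (by decide +kernel)
theorem L02069 : Good (Phi V4.P V4.D 1 1) ⟨6, 54, 4, 9, 5, 30, 3, 7, 4, 0⟩ :=
  out_sound (S := T4.ds_pp) T4.ok_pp (w := 72) (j := 3) (by decide +kernel)
theorem L02070 : Good (Phi V4.P V4.D 1 1) ⟨6, 55, 4, 8, 5, 30, 3, 7, 4, 0⟩ :=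
  leaf_sound (S := T4.ds_pp) T4.ok_pp (w := 232) (c := ⟨⟨.negSucc 2393, .ofNat 444, .negSucc 2188, .negSucc 269, .negSucc 365, .negSucc 937⟩, ⟨.negSucc 1205, .ofNat 157, .negSucc 1373, .negSucc 150, .negSucc 207, .negSucc 524⟩, ⟨.ofNat 1356, .negSucc 224, .ofNat 1188, .ofNat 189, .negSucc 16, .ofNat 479⟩, ⟨.negSucc 4537, .ofNat 620, .negSucc 3162, .negSucc 573, .negSucc 447, .negSucc 1827⟩, ⟨.ofNat 1613, .ofNat 175, .negSucc 224, .ofNat 296, .negSucc 184, .ofNat 733⟩, .ofNat 4704, .negSucc 7783, .ofNat 0, .negSucc 7783, .ofNat 14014, .ofNat 0, .ofNat 217, .ofNat 1674, .negSucc 3986, .ofNat 0, .ofNat 966, .negSucc 2233, .ofNat 0, .ofNat 0, .ofNat 2465, .ofNat 620, .ofNat 0, .ofNat 0, .ofNat 812428668738262378199977965769457664000, .ofNat 0, .ofNat 0, .ofNat 0, .ofNat 104961319806974970651912115710010903756800, .ofNat 0, .ofNat 0, .ofNat 0, .ofNat 101528498337103806450608921644201358131200,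 .ofNat 0, .ofNat 0, .ofNat 2591733522106145460748966002172143101332684800, .ofNat 83383327384908397051552770005671713177600, .ofNat 0⟩)
    (by decide +kernel)
theorem L02071 : Good (Phi V4.P V4.D 1 1) ⟨7, 110, 5, 18, 5, 30, 3, 7, 4, 0⟩ :=
  leaf_sound (S := T4.ds_pp) T4.ok_pp (w := 240) (c := ⟨⟨.negSucc 4190, .negSucc 848, .ofNat 192, .negSucc 220, .negSucc 433, .negSucc 669⟩, ⟨.negSucc 2347, .negSucc 536, .ofNat 34, .negSucc 125, .negSucc 248, .negSucc 379⟩, ⟨.ofNat 2320, .ofNat 480, .negSucc 110, .ofNat 168, .ofNat 16, .ofNat 339⟩, ⟨.negSucc 7109, .negSucc 1263, .ofNat 285, .negSucc 510, .negSucc 535, .negSucc 1460⟩, ⟨.ofNat 1388, .ofNat 12, .ofNat 27, .ofNat 312, .negSucc 203, .ofNat 793⟩, .ofNat 5627, .negSucc 9320, .ofNat 0, .negSucc 9320, .ofNat 16557, .ofNat 0, .ofNat 190, .ofNat 1658, .negSucc 3897, .ofNat 0, .ofNat 962, .negSucc 2210, .ofNat 0, .ofNat 0,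 .ofNat 2438, .ofNat 866, .ofNat 0, .ofNat 0, .ofNat 0, .ofNat 0, .ofNat 0, .ofNat 0, .ofNat 0, .ofNat 0, .ofNat 0, .ofNat 0, .ofNat 0, .ofNat 0, .ofNat 0, .ofNat 0, .ofNat 0, .ofNat 0⟩)
    (by decide +kernel)
theorem L02072 : Good (Phi V4.P V4.D 1 1) ⟨7, 111, 5, 18, 5, 30, 3, 7, 4, 0⟩ :=
  out_sound (S := T4.ds_pp) T4.ok_pp (w := 24) (j := 4) (by decide +kernel)
theorem L02073 : Good (Phi V4.P V4.D 1 1) ⟨7, 110, 5, 19, 5, 30, 3, 7, 4, 0⟩ :=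
  out_sound (S := T4.ds_pp) T4.ok_pp (w := 80) (j := 3) (by decide +kernel)
theorem L02074 : Good (Phi V4.P V4.D 1 1) ⟨7, 111, 5, 19, 5, 30, 3, 7, 4, 0⟩ :=
  out_sound (S := T4.ds_pp) T4.ok_pp (w := 24) (j := 4) (by decide +kernel)
theorem L02075 : Good (Phi V4.P V4.D 1 1) ⟨5, 26, 3, 4, 5, 31, 3, 7, 4, 0⟩ :=
  out_sound (S := T4.ds_pp) T4.ok_pp (w := 64) (j := 3) (by decide +kernel)
theorem L02076 : Good (Phi V4.P V4.D 1 1) ⟨6, 54, 4, 8, 5, 31, 3, 7, 4, 0⟩ :=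
  leaf_sound (S := T4.ds_pp) T4.ok_pp (w := 224) (c := ⟨⟨.negSucc 3262, .negSucc 921, .ofNat 42, .negSucc 105, .negSucc 1039, .negSucc 972⟩, ⟨.negSucc 1653, .negSucc 477, .negSucc 236, .negSucc 55, .negSucc 569, .negSucc 518⟩, ⟨.ofNat 1832, .ofNat 497, .negSucc 9, .ofNat 133, .ofNat 397, .ofNat 517⟩, ⟨.negSucc 5836, .negSucc 1335, .ofNat 11, .negSucc 377, .negSucc 1553, .negSucc 1960⟩, ⟨.ofNat 1549, .negSucc 12, .ofNat 63, .ofNat 400, .negSucc 49, .ofNat 888⟩, .ofNat 1719, .negSucc 2595, .ofNat 0, .negSucc 2595, .ofNat 5006, .ofNat 0, .ofNat 368, .ofNat 1675, .negSucc 3402, .ofNat 0, .ofNat 971, .negSucc 1806, .ofNat 0, .ofNat 0, .ofNat 2161, .ofNat 2280, .ofNat 0, .ofNat 0, .ofNat 0, .ofNat 0, .ofNat 0, .ofNat 0, .ofNat 0, .ofNat 0, .ofNat 0, .ofNat 0, .ofNat 0, .ofNat 0, .ofNat 0, .ofNat 3153097786914191469058102435085319210113433600, .ofNat 0, .ofNat 0⟩)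
    (by decide +kernel)
theorem L02077 : Good (Phi V4.P V4.D 1 1) ⟨6, 55, 4, 8, 5, 31, 3, 7, 4, 0⟩ :=
  leaf_sound (S := T4.ds_pp) T4.ok_pp (w := 232) (c := ⟨⟨.negSucc 3653, .negSucc 700, .negSucc 638, .negSucc 62, .negSucc 1264, .negSucc 659⟩, ⟨.negSucc 1907, .negSucc 498, .negSucc 506, .negSucc 32, .negSucc 714, .negSucc 366⟩, ⟨.ofNat 1997, .ofNat 378, .ofNat 389, .ofNat 132, .ofNat 514, .ofNat 373⟩, ⟨.negSucc 6295, .negSucc 1000, .negSucc 1029, .negSucc 369, .negSucc 1858, .negSucc 1590⟩, ⟨.ofNat 1371, .negSucc 19, .ofNat 125, .ofNat 489, .negSucc 88, .ofNat 1055⟩, .ofNat 4744, .negSucc 7851, .ofNat 0, .negSucc 7851, .ofNat 14131, .ofNat 0, .ofNat 440, .ofNat 3412, .negSucc 7046, .ofNat 0, .ofNat 1972, .negSucc 3947, .ofNat 0, .ofNat 0, .ofNat 4439, .ofNat 1617, .ofNat 0, .ofNat 53184574286617049330088098780099768431411200, .ofNat 1740535612822541452215221170458329088000,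 .ofNat 0, .ofNat 0, .ofNat 0, .ofNat 452312930826903809829880986100576970342400, .ofNat 0, .ofNat 0, .ofNat 0, .ofNat 395914382719985278898817309899227555430400, .ofNat 0, .ofNat 0, .ofNat 14425397993527653107692419837622343694286848000, .ofNat 279930517091849932595327623140992876544000, .ofNat 0⟩)
    (by decide +kernel)
theorem L02078 : Good (Phi V4.P V4.D 1 1) ⟨6, 54, 4, 9, 5, 31, 3, 7, 4, 0⟩ :=
  out_sound (S := T4.ds_pp) T4.ok_pp (w := 72) (j := 3) (by decide +kernel)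
theorem L02079 : Good (Phi V4.P V4.D 1 1) ⟨7, 110, 4, 9, 5, 31, 3, 7, 4, 0⟩ :=
  leaf_sound (S := T4.ds_pp) T4.ok_pp (w := 240) (c := ⟨⟨.negSucc 4246, .negSucc 378, .negSucc 122, .negSucc 183, .negSucc 1281, .negSucc 621⟩, ⟨.negSucc 2356, .negSucc 320, .negSucc 128, .negSucc 105, .negSucc 733, .negSucc 354⟩, ⟨.ofNat 2352, .ofNat 222, .ofNat 71, .ofNat 194, .ofNat 509, .ofNat 362⟩, ⟨.negSucc 7238, .negSucc 591, .negSucc 170, .negSucc 523, .negSucc 1825, .negSucc 1579⟩, ⟨.ofNat 1466, .ofNat 80, .negSucc 0, .ofNat 432, .negSucc 175, .ofNat 1127⟩, .ofNat 5837, .negSucc 9670, .ofNat 0, .negSucc 9670, .ofNat 17134, .ofNat 0, .ofNat 381, .ofNat 3436, .negSucc 7491, .ofNat 0, .ofNat 2000, .negSucc 4261, .ofNat 0, .ofNat 0, .ofNat 4660, .ofNat 3702, .ofNat 0, .ofNat 0, .ofNat 0, .ofNat 0, .ofNat 0, .ofNat 53834804574962118156067256222788699044603494400, .ofNat 140052452841074820307626624430450409472000,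 .ofNat 0, .ofNat 0, .ofNat 0, .ofNat 0, .ofNat 0, .ofNat 0, .ofNat 0, .ofNat 30856819220760563653394296801690701004800, .ofNat 0⟩)
    (by decide +kernel)
theorem L02080 : Good (Phi V4.P V4.D 1 1) ⟨7, 111, 4, 9, 5, 31, 3, 7, 4, 0⟩ :=
  out_sound (S := T4.ds_pp) T4.ok_pp (w := 24) (j := 4) (by decide +kernel)
theorem L02081 : Good (Phi V4.P V4.D 1 1) ⟨5, 26, 3, 4, 2, 3, 4, 14, 4, 1⟩ :=
  out_sound (S := T4.ds_pp) T4.ok_pp (w := 64) (j := 3) (by decide +kernel)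
theorem L02082 : Good (Phi V4.P V4.D 1 1) ⟨5, 27, 4, 8, 3, 6, 4, 14, 4, 1⟩ :=
  leaf_sound (S := T4.ds_pp) T4.ok_pp (w := 208) (c := ⟨⟨.negSucc 2395, .negSucc 998, .ofNat 194, .negSucc 1494, .negSucc 499, .negSucc 1088⟩, ⟨.negSucc 1207, .negSucc 545, .negSucc 86, .negSucc 806, .negSucc 274, .negSucc 585⟩, ⟨.ofNat 1265, .ofNat 591, .negSucc 144, .ofNat 810, .ofNat 193, .ofNat 624⟩, ⟨.negSucc 4042, .negSucc 1454, .ofNat 304, .negSucc 2757, .negSucc 706, .negSucc 1802⟩, ⟨.ofNat 656, .ofNat 85, .ofNat 4, .ofNat 891, .negSucc 99, .ofNat 265⟩, .ofNat 1747, .negSucc 2640, .ofNat 0, .negSucc 2640, .ofNat 5075, .ofNat 0, .ofNat 160, .ofNat 621, .negSucc 1406, .ofNat 0, .ofNat 358, .negSucc 744, .ofNat 0, .ofNat 0, .ofNat 1065, .ofNat 237, .ofNat 0, .ofNat 85304397833809248055456172124772761600, .ofNat 4382033778720129688066945607270400, .ofNat 0, .ofNat 0, .ofNat 0, .ofNat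 1264625291964378645121958775934156800, .ofNat 0, .ofNat 0, .ofNat 0, .ofNat 624784067915466165181657989827788800, .ofNat 0, .ofNat 0, .ofNat 0, .ofNat 482616584605474180489498502312755200, .ofNat 0⟩)
    (by decide +kernel)
theorem L02083 : Good (Phi V4.P V4.D 1 1) ⟨6, 54, 4, 9, 3, 6, 4, 14, 4, 1⟩ :=
  out_sound (S := T4.ds_pp) T4.ok_pp (w := 72) (j := 3) (by decide +kernel)
theorem L02084 : Good (Phi V4.P V4.D 1 1) ⟨7, 110, 4, 9, 3, 6, 4, 14, 4, 1⟩ :=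
  leaf_sound (S := T4.ds_pp) T4.ok_pp (w := 216) (c := ⟨⟨.negSucc 2806, .negSucc 9, .negSucc 192, .negSucc 1664, .negSucc 483, .negSucc 951⟩, ⟨.negSucc 1552, .negSucc 83, .negSucc 153, .negSucc 950, .negSucc 275, .negSucc 543⟩, ⟨.ofNat 1491, .negSucc 3, .ofNat 133, .ofNat 913, .ofNat 171, .ofNat 532⟩, ⟨.negSucc 4634, .ofNat 19, .negSucc 278, .negSucc 3028, .negSucc 659, .negSucc 1610⟩, ⟨.ofNat 695, .negSucc 10, .ofNat 1, .ofNat 919, .negSucc 116, .ofNat 316⟩, .ofNat 2236, .negSucc 3407, .ofNat 0, .negSucc 3407, .ofNat 6218, .ofNat 0, .ofNat 268, .ofNat 1295, .negSucc 3172, .ofNat 0, .ofNat 764, .negSucc 1768, .ofNat 0, .ofNat 0, .ofNat 2318, .ofNat 2443, .ofNat 0, .ofNat 0, .ofNat 0, .ofNat 0, .ofNat 0, .ofNat 0, .ofNat 842869201953244244331472718974156800, .ofNat 0, .ofNat 0, .ofNat 0, .ofNat 0, .ofNat 0, .ofNat 0, .ofNat 0, .ofNat 251688082792207073833632947974963200,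 .ofNat 0⟩)
    (by decide +kernel)
theorem L02085 : Good (Phi V4.P V4.D 1 1) ⟨7, 111, 4, 9, 3, 6, 4, 14, 4, 1⟩ :=
  out_sound (S := T4.ds_pp) T4.ok_pp (w := 24) (j := 4) (by decide +kernel)
theorem L02086 : Good (Phi V4.P V4.D 1 1) ⟨6, 54, 4, 8, 4, 14, 4, 14, 4, 1⟩ :=
  leaf_sound (S := T4.ds_pp) T4.ok_pp (w := 224) (c := ⟨⟨.negSucc 4116, .negSucc 583, .ofNat 165, .negSucc 243, .negSucc 645, .negSucc 463⟩, ⟨.negSucc 2110, .negSucc 334, .negSucc 139, .negSucc 123, .negSucc 349, .negSucc 245⟩, ⟨.ofNat 2223, .ofNat 312, .negSucc 86, .ofNat 164, .ofNat 255, .ofNat 235⟩, ⟨.negSucc 7052, .negSucc 840, .ofNat 209, .negSucc 754, .negSucc 937, .negSucc 1007⟩, ⟨.ofNat 1381, .ofNat 47, .ofNat 37, .ofNat 709, .negSucc 82, .ofNat 554⟩, .ofNat 1727, .negSucc 2609, .ofNat 0, .negSucc 2609, .ofNat 5032, .ofNat 0, .ofNat 341, .ofNat 1430, .negSucc 2884, .ofNat 0, .ofNat 819, .negSucc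 1521, .ofNat 0, .ofNat 0, .ofNat 2023, .ofNat 2131, .ofNat 0, .ofNat 0, .ofNat 0, .ofNat 0, .ofNat 0, .ofNat 0, .ofNat 0, .ofNat 0, .ofNat 0, .ofNat 0, .ofNat 0, .ofNat 0, .ofNat 0, .ofNat 0, .ofNat 0, .ofNat 0⟩)
    (by decide +kernel)
theorem L02087 : Good (Phi V4.P V4.D 1 1) ⟨6, 55, 4, 8, 4, 14, 4, 14, 4, 1⟩ :=
  leaf_sound (S := T4.ds_pp) T4.ok_pp (w := 224) (c := ⟨⟨.negSucc 4477, .negSucc 168, .negSucc 161, .negSucc 263, .negSucc 716, .negSucc 333⟩, ⟨.negSucc 2373, .negSucc 201, .negSucc 235, .negSucc 145, .negSucc 404, .negSucc 185⟩, ⟨.ofNat 2411, .ofNat 78, .ofNat 99, .ofNat 180, .ofNat 285, .ofNat 160⟩, ⟨.negSucc 7566, .negSucc 207, .negSucc 274, .negSucc 803, .negSucc 1021, .negSucc 802⟩, ⟨.ofNat 1413, .negSucc 5, .ofNat 76, .ofNat 718, .negSucc 104, .ofNat 529⟩, .ofNat 4712, .negSucc 7797, .ofNat 0, .negSucc 7797, .ofNat 14040, .ofNat 0, .ofNat 402, .ofNat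 2903, .negSucc 5871, .ofNat 0, .ofNat 1669, .negSucc 3279, .ofNat 0, .ofNat 0, .ofNat 4105, .ofNat 1414, .ofNat 0, .ofNat 1032581764856090483138348732486881640448000, .ofNat 17963774585100572766925942065777868800, .ofNat 0, .ofNat 0, .ofNat 0, .ofNat 7050376179567160783090202284979650560000, .ofNat 0, .ofNat 0, .ofNat 0, .ofNat 6526413807524733631302187794207395020800, .ofNat 0, .ofNat 0, .ofNat 0, .ofNat 4587655565965551597810997859367832780800, .ofNat 0⟩)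
    (by decide +kernel)
theorem L02088 : Good (Phi V4.P V4.D 1 1) ⟨6, 54, 4, 9, 4, 14, 4, 14, 4, 1⟩ :=
  out_sound (S := T4.ds_pp) T4.ok_pp (w := 72) (j := 3) (by decide +kernel)
theorem L02089 : Good (Phi V4.P V4.D 1 1) ⟨7, 110, 5, 18, 4, 14, 4, 14, 4, 1⟩ :=
  leaf_sound (S := T4.ds_pp) T4.ok_pp (w := 232) (c := ⟨⟨.negSucc 4833, .ofNat 410, .negSucc 628, .negSucc 288, .negSucc 736, .negSucc 308⟩, ⟨.negSucc 2711, .ofNat 174, .negSucc 427, .negSucc 163, .negSucc 421, .negSucc 174⟩, ⟨.ofNat 2614, .negSucc 209, .ofNat 324, .ofNat 193, .ofNat 295, .ofNat 143⟩, ⟨.negSucc 8123, .ofNat 570, .negSucc 870, .negSucc 842, .negSucc 1042, .negSucc 756⟩, ⟨.ofNat 1473, .ofNat 114, .negSucc 113, .ofNat 715, .negSucc 111, .ofNat 511⟩, .ofNat 5737, .negSucc 9504, .ofNat 0, .negSucc 9504, .ofNat 16861, .ofNat 0, .ofNat 175, .ofNat 1468, .negSucc 3094, .ofNat 0, .ofNat 850, .negSucc 1754,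 .ofNat 0, .ofNat 0, .ofNat 2134, .ofNat 2287, .ofNat 0, .ofNat 0, .ofNat 0, .ofNat 0, .ofNat 0, .ofNat 537415087899332369897492827694153670328320000, .ofNat 1319239586504630154078720540256134758400, .ofNat 0, .ofNat 0, .ofNat 0, .ofNat 0, .ofNat 0, .ofNat 0, .ofNat 0, .ofNat 298153373790091986049239235227864268800, .ofNat 0⟩)
    (by decide +kernel)
theorem L02090 : Good (Phi V4.P V4.D 1 1) ⟨7, 111, 5, 18, 4, 14, 4, 14, 4, 1⟩ :=
  out_sound (S := T4.ds_pp) T4.ok_pp (w := 24) (j := 4) (by decide +kernel)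
theorem L02091 : Good (Phi V4.P V4.D 1 1) ⟨7, 110, 5, 19, 4, 14, 4, 14, 4, 1⟩ :=
  out_sound (S := T4.ds_pp) T4.ok_pp (w := 80) (j := 3) (by decide +kernel)
theorem L02092 : Good (Phi V4.P V4.D 1 1) ⟨7, 111, 5, 19, 4, 14, 4, 14, 4, 1⟩ :=
  out_sound (S := T4.ds_pp) T4.ok_pp (w := 24) (j := 4) (by decide +kernel)
theorem L02093 : Good (Phi V4.P V4.D 1 1) ⟨5, 27, 4, 8, 4, 15, 4, 14, 4, 1⟩ :=
  leaf_sound (S := T4.ds_pp) T4.ok_pp (w := 216) (c := ⟨⟨.negSucc 4339, .negSucc 945, .ofNat 32, .ofNat 140, .negSucc 771, .negSucc 348⟩, ⟨.negSucc 2224, .negSucc 479, .negSucc 260, .ofNat 89, .negSucc 422, .negSucc 179⟩, ⟨.ofNat 2325, .ofNat 474, .ofNat 20, .ofNat 81, .ofNat 353, .ofNat 211⟩, ⟨.negSucc 7609, .negSucc 1324, .negSucc 59, .negSucc 371, .negSucc 1217, .negSucc 980⟩, ⟨.ofNat 1804, .ofNat 28, .ofNat 121, .ofNat 1081, .ofNat 81, .ofNat 834⟩, .ofNat 1742, .negSucc 2631,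 .ofNat 0, .negSucc 2631, .ofNat 5060, .ofNat 0, .ofNat 697, .ofNat 2958, .negSucc 5057, .ofNat 0, .ofNat 1704, .negSucc 2667, .ofNat 0, .ofNat 0, .ofNat 3649, .ofNat 1175, .ofNat 0, .ofNat 130188820530349303759110076843891359744000, .ofNat 4726682349402876523542403420992307200, .ofNat 0, .ofNat 0, .ofNat 0, .ofNat 10120154111848637767586699626726136217600, .ofNat 0, .ofNat 0, .ofNat 0, .ofNat 7009580738979538267510680218801012736000, .ofNat 0, .ofNat 0, .ofNat 0, .ofNat 3735328714363386405345826730051371008000, .ofNat 0⟩)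
    (by decide +kernel)
theorem L02094 : Good (Phi V4.P V4.D 1 1) ⟨6, 54, 4, 9, 4, 15, 4, 14, 4, 1⟩ :=
  out_sound (S := T4.ds_pp) T4.ok_pp (w := 72) (j := 3) (by decide +kernel)
theorem L02095 : Good (Phi V4.P V4.D 1 1) ⟨7, 110, 4, 9, 4, 15, 4, 14, 4, 1⟩ :=
  leaf_sound (S := T4.ds_pp) T4.ok_pp (w := 232) (c := ⟨⟨.negSucc 4986, .negSucc 202, .negSucc 102, .ofNat 316, .negSucc 795, .negSucc 81⟩, ⟨.negSucc 2779, .negSucc 220, .negSucc 114, .ofNat 182, .negSucc 455, .negSucc 44⟩, ⟨.ofNat 2687, .ofNat 131, .ofNat 64, .ofNat 0, .ofNat 356, .ofNat 56⟩, ⟨.negSucc 8611, .negSucc 362, .negSucc 162, .negSucc 142, .negSucc 1216, .negSucc 584⟩, ⟨.ofNat 1937, .ofNat 121, .ofNat 17, .ofNat 1079, .ofNat 34, .ofNat 807⟩, .ofNat 5768, .negSucc 9555, .ofNat 0, .negSucc 9555, .ofNat 16946, .ofNat 0, .ofNat 361, .ofNat 3043, .negSucc 5296, .ofNat 0, .ofNat 1765, .negSucc 3001, .ofNat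 0, .ofNat 0, .ofNat 3771, .ofNat 4953, .ofNat 0, .ofNat 0, .ofNat 0, .ofNat 0, .ofNat 0, .ofNat 1243963966640052161673776445619724834203238400, .ofNat 2723027105993803711331733195271962624000, .ofNat 0, .ofNat 0, .ofNat 0, .ofNat 0, .ofNat 0, .ofNat 0, .ofNat 0, .ofNat 446365896702940874162682961873757798400, .ofNat 0⟩)
    (by decide +kernel)
theorem L02096 : Good (Phi V4.P V4.D 1 1) ⟨7, 111, 4, 9, 4, 15, 4, 14, 4, 1⟩ :=
  out_sound (S := T4.ds_pp) T4.ok_pp (w := 24) (j := 4) (by decide +kernel)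
theorem L02097 : Good (Phi V4.P V4.D 1 1) ⟨5, 26, 3, 4, 2, 3, 4, 15, 4, 1⟩ :=
  out_sound (S := T4.ds_pp) T4.ok_pp (w := 64) (j := 3) (by decide +kernel)
theorem L02098 : Good (Phi V4.P V4.D 1 1) ⟨6, 54, 4, 8, 3, 6, 4, 15, 4, 1⟩ :=
  leaf_sound (S := T4.ds_pp) T4.ok_pp (w := 216) (c := ⟨⟨.negSucc 2496, .negSucc 1072, .ofNat 650, .negSucc 1568, .negSucc 554, .negSucc 1615⟩, ⟨.negSucc 1266, .negSucc 610, .ofNat 176, .negSucc 834, .negSucc 295, .negSucc 865⟩, ⟨.ofNat 1246, .ofNat 607, .negSucc 385, .ofNat 819, .ofNat 225, .ofNat 943⟩, ⟨.negSucc 4171, .negSucc 1567, .ofNat 999, .negSucc 2836, .negSucc 763, .negSucc 2603⟩, ⟨.ofNat 598, .ofNat 37, .negSucc 28, .ofNat 820, .negSucc 150, .ofNat 260⟩, .ofNat 1724, .negSucc 2606, .ofNat 0, .negSucc 2606, .ofNat 5029, .ofNat 0, .ofNat 665, .ofNat 2605, .negSucc 6792, .ofNat 0, .ofNat 1498, .negSucc 3597, .ofNat 0, .ofNat 0, .ofNat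 4811, .ofNat 954, .ofNat 0, .ofNat 28587818864980690773279476499594451353600, .ofNat 0, .ofNat 0, .ofNat 0, .ofNat 0, .ofNat 0, .ofNat 0, .ofNat 0, .ofNat 0, .ofNat 0, .ofNat 0, .ofNat 0, .ofNat 8080319241159482175364370227849638130483200, .ofNat 0, .ofNat 0⟩)
    (by decide +kernel)
theorem L02099 : Good (Phi V4.P V4.D 1 1) ⟨6, 55, 4, 8, 3, 6, 4, 15, 4, 1⟩ :=
  leaf_sound (S := T4.ds_pp) T4.ok_pp (w := 216) (c := ⟨⟨.negSucc 2712, .ofNat 267, .negSucc 130, .negSucc 1892, .negSucc 461, .negSucc 1836⟩, ⟨.negSucc 1403, .ofNat 72, .negSucc 201, .negSucc 1060, .negSucc 259, .negSucc 1031⟩, ⟨.ofNat 1343, .negSucc 193, .ofNat 62, .ofNat 1013, .ofNat 158, .ofNat 1094⟩, ⟨.negSucc 4469, .ofNat 428, .negSucc 175, .negSucc 3318, .negSucc 615, .negSucc 2910⟩, ⟨.ofNat 613, .ofNat 44, .ofNat 15, .ofNat 819, .negSucc 147, .ofNat 246⟩, .ofNat 4655, .negSucc 7702, .ofNat 0, .negSucc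 7702, .ofNat 13884, .ofNat 0, .ofNat 396, .ofNat 2658, .negSucc 7191, .ofNat 0, .ofNat 1529, .negSucc 4020, .ofNat 0, .ofNat 0, .ofNat 5053, .ofNat 1713, .ofNat 0, .ofNat 62767719752589149024118344832210331238400, .ofNat 39252543466022624238163266738585600, .ofNat 0, .ofNat 0, .ofNat 2833246046525664537231441696260751989145600, .ofNat 11626884942201072651894454653183590400, .ofNat 0, .ofNat 0, .ofNat 5105215261543255624002044112312571055308800, .ofNat 9156197846033399510132526193154457600, .ofNat 0, .ofNat 0, .ofNat 12461668069033580164489012298916808359936000, .ofNat 8816011712410653684601607519679283200, .ofNat 0⟩)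
    (by decide +kernel)
theorem L02100 : Good (Phi V4.P V4.D 1 1) ⟨6, 54, 4, 8, 3, 7, 4, 15, 4, 1⟩ :=
  leaf_sound (S := T4.ds_pp) T4.ok_pp (w := 208) (c := ⟨⟨.negSucc 4203, .negSucc 976, .ofNat 462, .negSucc 541, .negSucc 1081, .negSucc 1270⟩, ⟨.negSucc 2163, .negSucc 524, .negSucc 18, .negSucc 266, .negSucc 585, .negSucc 674⟩, ⟨.ofNat 2134, .ofNat 684, .negSucc 414, .ofNat 477, .ofNat 453, .ofNat 672⟩, ⟨.negSucc 7105, .negSucc 1540, .ofNat 773, .negSucc 1781, .negSucc 1487, .negSucc 2243⟩, ⟨.ofNat 1216, .ofNat 310, .negSucc 236, .ofNat 1769, .negSucc 291, .ofNat 566⟩, .ofNat 1678, .negSucc 2531, .ofNat 0, .negSucc 2531, .ofNat 4915, .ofNat 0, .ofNat 362, .ofNat 1522, .negSucc 3313, .ofNat 0, .ofNat 873, .negSucc 1742, .ofNat 0, .ofNat 0, .ofNat 2187, .ofNat 458, .ofNat 0, .ofNat 16112987406230614756754785787766531686400, .ofNat 3249580280864833669820014028390400,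 .ofNat 0, .ofNat 0, .ofNat 0, .ofNat 0, .ofNat 0, .ofNat 0, .ofNat 0, .ofNat 0, .ofNat 0, .ofNat 0, .ofNat 1513852437493934602576782572226599505100800, .ofNat 634626409466126878133618159596339200, .ofNat 0⟩)
    (by decide +kernel)
theorem L02101 : Good (Phi V4.P V4.D 1 1) ⟨6, 55, 4, 8, 3, 7, 4, 15, 4, 1⟩ :=
  leaf_sound (S := T4.ds_pp) T4.ok_pp (w := 216) (c := ⟨⟨.negSucc 4742, .negSucc 683, .negSucc 148, .negSucc 486, .negSucc 1198, .negSucc 1192⟩, ⟨.negSucc 2511, .negSucc 499, .negSucc 242, .negSucc 263, .negSucc 676, .negSucc 667⟩, ⟨.ofNat 2440, .ofNat 356, .ofNat 64, .ofNat 493, .ofNat 513, .ofNat 624⟩, ⟨.negSucc 7870, .negSucc 933, .negSucc 234, .negSucc 1800, .negSucc 1641, .negSucc 2115⟩, ⟨.ofNat 1240, .negSucc 86, .ofNat 38, .ofNat 1895, .negSucc 298, .ofNat 560⟩, .ofNat 2042, .negSucc 3104, .ofNat 0, .negSucc 3104, .ofNat 5763, .ofNat 0, .ofNat 316, .ofNat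 1562, .negSucc 3658, .ofNat 0, .ofNat 915, .negSucc 2010, .ofNat 0, .ofNat 0, .ofNat 2358, .ofNat 979, .ofNat 0, .ofNat 33028588273281698229539403917641855795200, .ofNat 15210126157318982846012199429734400, .ofNat 0, .ofNat 0, .ofNat 875080136895572097121154774697755069644800, .ofNat 3129716253093755266697024241244569600, .ofNat 0, .ofNat 0, .ofNat 1844081585334226543822806571697321489203200, .ofNat 2748817414297468248390029886986649600, .ofNat 0, .ofNat 0, .ofNat 2954497976597484049902709450980264719155200, .ofNat 1847114257106326469059285549999718400, .ofNat 0⟩)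
    (by decide +kernel)
theorem L02102 : Good (Phi V4.P V4.D 1 1) ⟨6, 54, 4, 9, 2, 3, 4, 15, 4, 1⟩ :=
  out_sound (S := T4.ds_pp) T4.ok_pp (w := 72) (j := 3) (by decide +kernel)
theorem L02103 : Good (Phi V4.P V4.D 1 1) ⟨7, 110, 5, 18, 3, 6, 4, 15, 4, 1⟩ :=
  leaf_sound (S := T4.ds_pp) T4.ok_pp (w := 224) (c := ⟨⟨.negSucc 2681, .negSucc 205, .negSucc 36, .negSucc 1866, .negSucc 719, .negSucc 1967⟩, ⟨.negSucc 1490, .negSucc 167, .negSucc 76, .negSucc 1067, .negSucc 410, .negSucc 1124⟩, ⟨.ofNat 1317, .ofNat 89, .ofNat 30, .ofNat 981, .ofNat 328, .ofNat 1185⟩, ⟨.negSucc 4399, .negSucc 292, .negSucc 58, .negSucc 3276, .negSucc 987, .negSucc 3111⟩, ⟨.ofNat 613, .ofNat 12, .ofNat 38, .ofNat 822, .negSucc 165, .ofNat 267⟩, .ofNat 5703, .negSucc 9445, .ofNat 0, .negSucc 9445, .ofNat 16763, .ofNat 0, .ofNat 341, .ofNat 2661, .negSucc 7464, .ofNat 0, .ofNat 1542, .negSucc 4236,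 .ofNat 0, .ofNat 0, .ofNat 5223, .ofNat 909, .ofNat 0, .ofNat 1852075772915453435092147277316696834048000, .ofNat 0, .ofNat 0, .ofNat 0, .ofNat 0, .ofNat 0, .ofNat 0, .ofNat 0, .ofNat 0, .ofNat 0, .ofNat 0, .ofNat 0, .ofNat 628275922843375993213244229159767330783232000, .ofNat 0, .ofNat 0⟩)
    (by decide +kernel)
theorem L02104 : Good (Phi V4.P V4.D 1 1) ⟨7, 111, 5, 18, 3, 6, 4, 15, 4, 1⟩ :=
  out_sound (S := T4.ds_pp) T4.ok_pp (w := 24) (j := 4) (by decide +kernel)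
theorem L02105 : Good (Phi V4.P V4.D 1 1) ⟨7, 110, 5, 19, 3, 6, 4, 15, 4, 1⟩ :=
  out_sound (S := T4.ds_pp) T4.ok_pp (w := 80) (j := 3) (by decide +kernel)
theorem L02106 : Good (Phi V4.P V4.D 1 1) ⟨7, 111, 5, 19, 3, 6, 4, 15, 4, 1⟩ :=
  out_sound (S := T4.ds_pp) T4.ok_pp (w := 24) (j := 4) (by decide +kernel)
theorem L02107 : Good (Phi V4.P V4.D 1 1) ⟨7, 110, 5, 18, 3, 7, 4, 15, 4, 1⟩ :=
  leaf_sound (S := T4.ds_pp) T4.ok_pp (w := 224) (c := ⟨⟨.negSucc 4999, .negSucc 220, .negSucc 129, .negSucc 488, .negSucc 1147, .negSucc 990⟩, ⟨.negSucc 2801, .negSucc 190, .negSucc 151, .negSucc 275, .negSucc 656, .negSucc 564⟩, ⟨.ofNat 2548, .ofNat 68, .ofNat 162, .ofNat 512, .ofNat 527, .ofNat 552⟩, ⟨.negSucc 8184, .negSucc 316, .negSucc 276, .negSucc 1843, .negSucc 1635, .negSucc 1897⟩, ⟨.ofNat 1148, .negSucc 2, .ofNat 176, .ofNat 1939, .negSucc 158, .ofNat 712⟩, .ofNat 5689,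 .negSucc 9423, .ofNat 0, .negSucc 9423, .ofNat 16725, .ofNat 0, .ofNat 185, .ofNat 1578, .negSucc 3658, .ofNat 0, .ofNat 915, .negSucc 2075, .ofNat 0, .ofNat 0, .ofNat 2355, .ofNat 781, .ofNat 0, .ofNat 1223015688039280114384657261057811467468800, .ofNat 0, .ofNat 0, .ofNat 0, .ofNat 0, .ofNat 0, .ofNat 0, .ofNat 0, .ofNat 0, .ofNat 0, .ofNat 0, .ofNat 0, .ofNat 122759825710123445682151763756207327674368000, .ofNat 391153433708205562772047014553190400, .ofNat 0⟩)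
    (by decide +kernel)
theorem L02108 : Good (Phi V4.P V4.D 1 1) ⟨7, 111, 5, 18, 3, 7, 4, 15, 4, 1⟩ :=
  out_sound (S := T4.ds_pp) T4.ok_pp (w := 24) (j := 4) (by decide +kernel)
theorem L02109 : Good (Phi V4.P V4.D 1 1) ⟨7, 110, 5, 19, 3, 7, 4, 15, 4, 1⟩ :=
  out_sound (S := T4.ds_pp) T4.ok_pp (w := 80) (j := 3) (by decide +kernel)
theorem L02110 : Good (Phi V4.P V4.D 1 1) ⟨7, 111, 5, 19, 3, 7, 4, 15, 4, 1⟩ :=
  out_sound (S := T4.ds_pp) T4.ok_pp (w := 24) (j := 4) (by decide +kernel)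
theorem L02111 : Good (Phi V4.P V4.D 1 1) ⟨3, 7, 3, 4, 2, 3, 2, 3, 3, 0⟩ :=
  out_sound (S := T4.ds_pp) T4.ok_pp (w := 16) (j := 4) (by decide +kernel)
theorem L02112 : Good (Phi V4.P V4.D 1 1) ⟨4, 12, 3, 4, 2, 3, 2, 3, 3, 1⟩ :=
  out_sound (S := T4.ds_pp) T4.ok_pp (w := 56) (j := 3) (by decide +kernel)
theorem L02113 : Good (Phi V4.P V4.D 1 1) ⟨5, 26, 3, 4, 2, 3, 2, 3, 3, 1⟩ :=
  out_sound (S := T4.ds_pp) T4.ok_pp (w := 64) (j := 3) (by decide +kernel)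
theorem L02114 : Good (Phi V4.P V4.D 1 1) ⟨6, 54, 4, 8, 3, 6, 3, 6, 3, 1⟩ :=
  leaf_sound (S := T4.ds_pp) T4.ok_pp (w := 200) (c := ⟨⟨.negSucc 2990, .negSucc 450, .ofNat 357, .negSucc 708, .negSucc 797, .ofNat 129⟩, ⟨.negSucc 1540, .negSucc 232, .ofNat 3, .negSucc 370, .negSucc 430, .ofNat 73⟩, ⟨.ofNat 1708, .ofNat 266, .negSucc 221, .ofNat 378, .ofNat 344, .negSucc 201⟩, ⟨.negSucc 5088, .negSucc 726, .ofNat 598, .negSucc 1618, .negSucc 1188, .ofNat 106⟩, ⟨.ofNat 932, .ofNat 206, .negSucc 158, .ofNat 996, .negSucc 50, .ofNat 167⟩, .ofNat 3161, .negSucc 5219, .ofNat 0, .negSucc 5219, .ofNat 9815, .ofNat 0, .ofNat 112, .ofNat 515, .negSucc 701, .ofNat 0, .ofNat 291, .negSucc 372, .ofNat 0, .ofNat 0, .ofNat 705, .ofNat 891, .ofNat 0, .ofNat 519994437396158494942080065435860992000, .ofNat 0, .ofNat 0, .ofNat 0, .ofNat 3973962247715324165718408649802514432000, .ofNat 3918730605391217669899576305254400,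 .ofNat 0, .ofNat 0, .ofNat 0, .ofNat 0, .ofNat 0, .ofNat 0, .ofNat 0, .ofNat 0, .ofNat 0⟩)
    (by decide +kernel)
theorem L02115 : Good (Phi V4.P V4.D 1 1) ⟨6, 54, 4, 8, 3, 7, 3, 6, 3, 1⟩ :=
  leaf_sound (S := T4.ds_pp) T4.ok_pp (w := 200) (c := ⟨⟨.negSucc 3899, .negSucc 316, .ofNat 195, .ofNat 72, .negSucc 808, .ofNat 617⟩, ⟨.negSucc 2010, .negSucc 156, .negSucc 116, .ofNat 60, .negSucc 436, .ofNat 342⟩, ⟨.ofNat 2166, .ofNat 140, .negSucc 57, .ofNat 111, .ofNat 363, .negSucc 411⟩, ⟨.negSucc 6900, .negSucc 332, .ofNat 92, .negSucc 800, .negSucc 1355, .ofNat 647⟩, ⟨.ofNat 1756, .negSucc 157, .ofNat 257, .ofNat 1680, .ofNat 226, .ofNat 534⟩, .ofNat 3242, .negSucc 5350, .ofNat 0, .negSucc 5350, .ofNat 10022, .ofNat 0, .ofNat 119, .ofNat 581, .negSucc 688, .ofNat 0, .ofNat 327, .negSucc 366, .ofNat 0, .ofNat 0, .ofNat 682, .ofNat 1090, .ofNat 0, .ofNat 853415059159412897052720895258263552000,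 .ofNat 15457073336457610921573456281600, .ofNat 0, .ofNat 0, .ofNat 13210949898892095807051728742731533516800, .ofNat 3716889886562390894958168401510400, .ofNat 0, .ofNat 0, .ofNat 0, .ofNat 0, .ofNat 0, .ofNat 0, .ofNat 13005576277140114981826778121286503628800, .ofNat 0, .ofNat 0⟩)
    (by decide +kernel)
theorem L02116 : Good (Phi V4.P V4.D 1 1) ⟨6, 55, 5, 16, 2, 3, 3, 6, 3, 1⟩ :=
  out_sound (S := T4.ds_pp) T4.ok_pp (w := 72) (j := 3) (by decide +kernel)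

end Crest.Agent.R097C4.N4pp
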