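import Crest.Agent.R097.T4

/-!
# Row 97, box cover in dimension n = 4 (generated)
-/

set_option autoImplicit false
set_option Elab.async false
set_option maxHeartbeats 0
set_option maxRecDepth 100000

open Crest.Agent.R097 Crest.Agent.R097.KA


namespace Crest.Agent.R097C4.N4pp

theorem L02117 : Good (Phi V4.P V4.D 1 1) ⟨6, 55, 5, 17, 3, 6, 3, 6, 3, 1⟩ :=
  leaf_sound (S := T4.ds_pp) T4.ok_pp (w := 200) (c := ⟨⟨.negSucc 3237, .negSucc 162, .negSucc 5, .negSucc 664, .negSucc 903, .ofNat 289⟩, ⟨.negSucc 1753, .negSucc 116, .negSucc 81, .negSucc 368, .negSucc 508, .ofNat 164⟩, ⟨.ofNat 1827, .ofNat 110, .ofNat 30, .ofNat 354, .ofNat 399, .negSucc 310⟩, ⟨.negSucc 5455, .negSucc 284, .negSucc 6, .negSucc 1568, .negSucc 1342, .ofNat 359⟩, ⟨.ofNat 996, .ofNat 121, .ofNat 8, .ofNat 1002, .negSucc 38, .ofNat 136⟩, .ofNat 2043, .negSucc 3104, .ofNat 0, .negSucc 3104, .ofNat 5764,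 .ofNat 0, .ofNat 127, .ofNat 521, .negSucc 752, .ofNat 0, .ofNat 305, .negSucc 408, .ofNat 0, .ofNat 0, .ofNat 734, .ofNat 1994, .ofNat 0, .ofNat 4713619744308279123622023654496901529600, .ofNat 0, .ofNat 0, .ofNat 0, .ofNat 31403325922231461788821654742519041228800, .ofNat 14166743171861856157398221193216000, .ofNat 0, .ofNat 0, .ofNat 30771840553290348470918933123036086272000, .ofNat 5045186720304027298255862130278400, .ofNat 0, .ofNat 0, .ofNat 28974949143998076738263981941103945318400, .ofNat 641369388108499716093068810649600, .ofNat 0⟩)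
    (by decide +kernel)
theorem L02118 : Good (Phi V4.P V4.D 1 1) ⟨6, 55, 5, 17, 3, 7, 3, 6, 3, 1⟩ :=
  leaf_sound (S := T4.ds_pp) T4.ok_pp (w := 208) (c := ⟨⟨.negSucc 3925, .ofNat 301, .negSucc 261, .ofNat 188, .negSucc 868, .ofNat 668⟩, ⟨.negSucc 2124, .ofNat 148, .negSucc 240, .ofNat 115, .negSucc 487, .ofNat 379⟩, ⟨.ofNat 2219, .negSucc 28, .ofNat 86, .ofNat 61, .ofNat 382, .negSucc 453⟩, ⟨.negSucc 6965, .ofNat 256, .negSucc 339, .negSucc 663, .negSucc 1433, .ofNat 722⟩, ⟨.ofNat 1865, .ofNat 384, .negSucc 123, .ofNat 1683, .ofNat 215, .ofNat 508⟩, .ofNat 4687, .negSucc 7757, .ofNat 0, .negSucc 7757, .ofNat 13974, .ofNat 0, .ofNat 184, .ofNat 1189, .negSucc 1428, .ofNat 0, .ofNat 683, .negSucc 793, .ofNat 0, .ofNat 0, .ofNat 1389, .ofNat 2602, .ofNat 0, .ofNat 7121598636093035345768891382187740364800, .ofNat 182646158835822813470770436505600, .ofNat 0, .ofNat 0, .ofNat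 209761345955871630339302664294828186009600, .ofNat 42675887591607032945603600449536000, .ofNat 0, .ofNat 0, .ofNat 30308448394782714813125209881157671321600, .ofNat 26657617120348773880492399263744000, .ofNat 0, .ofNat 0, .ofNat 300460364127901763631967598914849210368000, .ofNat 27153705925495840815177377041612800, .ofNat 0⟩)
    (by decide +kernel)
theorem L02119 : Good (Phi V4.P V4.D 1 1) ⟨6, 54, 4, 8, 3, 6, 4, 14, 4, 2⟩ :=
  leaf_sound (S := T4.ds_pp) T4.ok_pp (w := 216) (c := ⟨⟨.negSucc 3459, .negSucc 401, .ofNat 169, .negSucc 1094, .negSucc 898, .negSucc 380⟩, ⟨.negSucc 1772, .negSucc 255, .negSucc 85, .negSucc 581, .negSucc 485, .negSucc 200⟩, ⟨.ofNat 1870, .ofNat 264, .negSucc 147, .ofNat 547, .ofNat 446, .ofNat 192⟩, ⟨.negSucc 5747, .negSucc 661, .ofNat 341, .negSucc 2232, .negSucc 1323, .negSucc 679⟩, ⟨.ofNat 809, .ofNat 252, .negSucc 194, .ofNat 1039, .negSucc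 82, .ofNat 184⟩, .ofNat 1732, .negSucc 2615, .ofNat 0, .negSucc 2615, .ofNat 5035, .ofNat 0, .ofNat 620, .ofNat 2346, .negSucc 4382, .ofNat 0, .ofNat 1349, .negSucc 2311, .ofNat 0, .ofNat 0, .ofNat 3551, .ofNat 7556, .ofNat 0, .ofNat 117517353242507832622145251107041338982400, .ofNat 0, .ofNat 0, .ofNat 0, .ofNat 2341317227502603066489199113694042757529600, .ofNat 8466645188764850195358027770285260800, .ofNat 0, .ofNat 0, .ofNat 0, .ofNat 0, .ofNat 0, .ofNat 0, .ofNat 6050756115227320696272711214952500690944000, .ofNat 0, .ofNat 0⟩)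
    (by decide +kernel)
theorem L02120 : Good (Phi V4.P V4.D 1 1) ⟨6, 54, 4, 8, 3, 6, 4, 15, 4, 2⟩ :=
  leaf_sound (S := T4.ds_pp) T4.ok_pp (w := 216) (c := ⟨⟨.negSucc 4101, .negSucc 707, .ofNat 340, .negSucc 1483, .negSucc 874, .negSucc 884⟩, ⟨.negSucc 2123, .negSucc 407, .negSucc 2, .negSucc 798, .negSucc 487, .negSucc 482⟩, ⟨.ofNat 2192, .ofNat 448, .negSucc 257, .ofNat 725, .ofNat 488, .ofNat 555⟩, ⟨.negSucc 6750, .negSucc 1003, .ofNat 517, .negSucc 2679, .negSucc 1252, .negSucc 1421⟩, ⟨.ofNat 833, .ofNat 41, .negSucc 14, .ofNat 774, .negSucc 145, .ofNat 136⟩, .ofNat 1714, .negSucc 2587, .ofNat 0, .negSucc 2587, .ofNat 4994, .ofNat 0, .ofNat 2533, .ofNat 9350, .negSucc 22639, .ofNat 0, .ofNat 5388, .negSucc 11978, .ofNat 0, .ofNat 0, .ofNat 17292, .ofNat 34543, .ofNat 0, .ofNat 4054412727564996587856811084397595643084800, .ofNat 0, .ofNat 0, .ofNat 0, .ofNat 855144927220992846143853187611360566968320000,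 .ofNat 0, .ofNat 0, .ofNat 0, .ofNat 1122661433311804975873599714171452597364326400, .ofNat 0, .ofNat 0, .ofNat 0, .ofNat 895540632706394763749023033721578344520089600, .ofNat 0, .ofNat 0⟩)
    (by decide +kernel)
theorem L02121 : Good (Phi V4.P V4.D 1 1) ⟨6, 54, 4, 8, 3, 7, 3, 7, 4, 2⟩ :=
  leaf_sound (S := T4.ds_pp) T4.ok_pp (w := 208) (c := ⟨⟨.negSucc 4758, .negSucc 422, .ofNat 196, .ofNat 126, .negSucc 1664, .ofNat 98⟩, ⟨.negSucc 2458, .negSucc 215, .negSucc 157, .ofNat 94, .negSucc 909, .ofNat 60⟩, ⟨.ofNat 2482, .ofNat 246, .negSucc 115, .ofNat 155, .ofNat 806, .negSucc 14⟩, ⟨.negSucc 8171, .negSucc 594, .ofNat 214, .negSucc 919, .negSucc 2627, .negSucc 169⟩, ⟨.ofNat 1659, .ofNat 69, .ofNat 40, .ofNat 2045, .ofNat 168, .ofNat 588⟩, .ofNat 1718, .negSucc 2592, .ofNat 0, .negSucc 2592, .ofNat 4998, .ofNat 0, .ofNat 335, .ofNat 1338, .negSucc 2128, .ofNat 0, .ofNat 768,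 .negSucc 1116, .ofNat 0, .ofNat 0, .ofNat 1673, .ofNat 1259, .ofNat 0, .ofNat 16990339202143373624480014587915770265600, .ofNat 595856816458110818839578437222400, .ofNat 0, .ofNat 0, .ofNat 958322042527031158091101504026857334374400, .ofNat 0, .ofNat 0, .ofNat 0, .ofNat 1563506936660789914552741586542825517875200, .ofNat 0, .ofNat 0, .ofNat 0, .ofNat 1324703325421152514366677349534599531724800, .ofNat 0, .ofNat 0⟩)
    (by decide +kernel)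
theorem L02122 : Good (Phi V4.P V4.D 1 1) ⟨6, 54, 4, 8, 2, 3, 3, 7, 4, 3⟩ :=
  out_sound (S := T4.ds_pp) T4.ok_pp (w := 32) (j := 2) (by decide +kernel)
theorem L02123 : Good (Phi V4.P V4.D 1 1) ⟨6, 55, 5, 16, 2, 3, 3, 7, 3, 1⟩ :=
  out_sound (S := T4.ds_pp) T4.ok_pp (w := 72) (j := 3) (by decide +kernel)
theorem L02124 : Good (Phi V4.P V4.D 1 1) ⟨7, 110, 5, 17, 2, 3, 4, 14, 3, 1⟩ :=
  leaf_sound (S := T4.ds_pp) T4.ok_pp (w := 200) (c := ⟨⟨.negSucc 3946, .negSucc 605, .ofNat 137, .negSucc 1403, .negSucc 850, .negSucc 624⟩, ⟨.negSucc 2144, .negSucc 369, .negSucc 8, .negSucc 775, .negSucc 479, .negSucc 349⟩, ⟨.ofNat 2116, .ofNat 264, .negSucc 78, .ofNat 836, .ofNat 427, .ofNat 277⟩, ⟨.negSucc 6358, .negSucc 709, .ofNat 131, .negSucc 3658, .negSucc 1268, .negSucc 1135⟩, ⟨.ofNat 709, .negSucc 304, .ofNat 127, .ofNat 2737, .negSucc 27, .ofNat 343⟩, .ofNat 4669, .negSucc 7726,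 .ofNat 0, .negSucc 7726, .ofNat 13921, .ofNat 0, .ofNat 47, .ofNat 310, .negSucc 557, .ofNat 0, .ofNat 178, .negSucc 310, .ofNat 0, .ofNat 0, .ofNat 446, .ofNat 384, .ofNat 0, .ofNat 701842044673432454476019784575090688000, .ofNat 355591162652376575746297036800, .ofNat 0, .ofNat 0, .ofNat 2935966589910314270243688079521585561600, .ofNat 16561846500597173575010274508800, .ofNat 0, .ofNat 0, .ofNat 10891194019297800982449485589399365222400, .ofNat 6984215370450759262912118784000, .ofNat 0, .ofNat 0, .ofNat 8794266448664943782579135523589403443200, .ofNat 0, .ofNat 0⟩)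
    (by decide +kernel)
theorem L02125 : Good (Phi V4.P V4.D 1 1) ⟨7, 110, 5, 17, 2, 3, 4, 15, 3, 1⟩ :=
  leaf_sound (S := T4.ds_pp) T4.ok_pp (w := 216) (c := ⟨⟨.negSucc 4578, .negSucc 352, .ofNat 136, .negSucc 3270, .negSucc 1306, .ofNat 0⟩, ⟨.negSucc 2503, .negSucc 227, .negSucc 3, .negSucc 1836, .negSucc 738, .ofNat 0⟩, ⟨.ofNat 2467, .ofNat 214, .negSucc 96, .ofNat 1624, .ofNat 764, .ofNat 0⟩, ⟨.negSucc 7408, .negSucc 495, .ofNat 209, .negSucc 5786, .negSucc 1864, .ofNat 0⟩, ⟨.ofNat 864, .ofNat 5, .ofNat 3, .ofNat 1511, .negSucc 186, .ofNat 0⟩, .ofNat 2055, .negSucc 3123, .ofNat 0, .negSucc 3123, .ofNat 5791, .ofNat 0, .ofNat 4443, .ofNat 19280, .negSucc 50124, .ofNat 0, .ofNat 11301, .negSucc 27586, .ofNat 0, .ofNat 0, .ofNat 37251, .ofNat 98795, .ofNat 0, .ofNat 1494989642935746903712600421754491790950400, .ofNat 0, .ofNat 0, .ofNat 0, .ofNat 504499814248510356046750206648605877888614400,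 .ofNat 64313442050337359115390566793216000, .ofNat 0, .ofNat 0, .ofNat 806492507003128631538630019879584316312780800, .ofNat 0, .ofNat 0, .ofNat 0, .ofNat 669634154196224907759781218381887639755161600, .ofNat 44866850130229473684029294877081600, .ofNat 0⟩)
    (by decide +kernel)
theorem L02126 : Good (Phi V4.P V4.D 1 1) ⟨7, 111, 5, 17, 2, 3, 3, 7, 3, 1⟩ :=
  out_sound (S := T4.ds_pp) T4.ok_pp (w := 80) (j := 3) (by decide +kernel)
theorem L02127 : Good (Phi V4.P V4.D 1 1) ⟨6, 54, 4, 9, 2, 3, 2, 3, 3, 1⟩ :=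
  out_sound (S := T4.ds_pp) T4.ok_pp (w := 72) (j := 3) (by decide +kernel)
theorem L02128 : Good (Phi V4.P V4.D 1 1) ⟨7, 110, 5, 18, 2, 3, 3, 6, 3, 1⟩ :=
  leaf_sound (S := T4.ds_pp) T4.ok_pp (w := 200) (c := ⟨⟨.negSucc 3402, .ofNat 137, .negSucc 64, .negSucc 758, .negSucc 913, .ofNat 225⟩, ⟨.negSucc 1906, .ofNat 35, .negSucc 92, .negSucc 428, .negSucc 522, .ofNat 129⟩, ⟨.ofNat 1864, .ofNat 9, .negSucc 28, .ofNat 553, .ofNat 404, .negSucc 271⟩, ⟨.negSucc 5485, .ofNat 37, .ofNat 18, .negSucc 2675, .negSucc 1432, .ofNat 204⟩, ⟨.ofNat 633, .ofNat 320, .negSucc 210, .ofNat 2683, .ofNat 102, .ofNat 234⟩, .ofNat 2228, .negSucc 3394, .ofNat 0, .negSucc 3394, .ofNat 6200, .ofNat 0, .ofNat 122, .ofNat 544, .negSucc 733, .ofNat 0, .ofNat 321, .negSucc 404, .ofNat 0, .ofNat 0, .ofNat 718, .ofNat 904, .ofNat 0, .ofNat 262974260237810563612727370664692940800, .ofNat 25173244045402887393430732800,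 .ofNat 0, .ofNat 0, .ofNat 0, .ofNat 0, .ofNat 0, .ofNat 0, .ofNat 5698644423663659927605686182264124211200, .ofNat 138912158187987249237118156800, .ofNat 0, .ofNat 0, .ofNat 0, .ofNat 0, .ofNat 0⟩)
    (by decide +kernel)
theorem L02129 : Good (Phi V4.P V4.D 1 1) ⟨7, 110, 5, 18, 2, 3, 4, 14, 3, 1⟩ :=
  leaf_sound (S := T4.ds_pp) T4.ok_pp (w := 200) (c := ⟨⟨.negSucc 3874, .negSucc 301, .ofNat 152, .negSucc 1366, .negSucc 944, .negSucc 387⟩, ⟨.negSucc 2169, .negSucc 219, .ofNat 19, .negSucc 777, .negSucc 540, .negSucc 226⟩, ⟨.ofNat 2082, .ofNat 99, .negSucc 61, .ofNat 828, .ofNat 483, .ofNat 212⟩, ⟨.negSucc 6301, .negSucc 319, .ofNat 152, .negSucc 3660, .negSucc 1396, .negSucc 911⟩, ⟨.ofNat 811, .negSucc 198, .ofNat 148, .ofNat 2804, .negSucc 41, .ofNat 569⟩, .ofNat 5785, .negSucc 9582, .ofNat 0, .negSucc 9582, .ofNat 16990, .ofNat 0, .ofNat 40, .ofNat 313, .negSucc 571,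 .ofNat 0, .ofNat 182, .negSucc 323, .ofNat 0, .ofNat 0, .ofNat 453, .ofNat 512, .ofNat 0, .ofNat 1157803121147074469336542984623724953600, .ofNat 0, .ofNat 0, .ofNat 0, .ofNat 3004438693219786566926593836335706931200, .ofNat 16268305218643267840617165619200, .ofNat 0, .ofNat 0, .ofNat 11383788786669933238491451949660818636800, .ofNat 3488262442468561028350004428800, .ofNat 0, .ofNat 0, .ofNat 8809098980521899806566782591967218892800, .ofNat 0, .ofNat 0⟩)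
    (by decide +kernel)
theorem L02130 : Good (Phi V4.P V4.D 1 1) ⟨7, 110, 5, 18, 2, 3, 4, 15, 3, 1⟩ :=
  leaf_sound (S := T4.ds_pp) T4.ok_pp (w := 216) (c := ⟨⟨.negSucc 4506, .negSucc 150, .negSucc 80, .negSucc 3394, .negSucc 1390, .ofNat 0⟩, ⟨.negSucc 2532, .negSucc 135, .negSucc 106, .negSucc 1940, .negSucc 796, .ofNat 0⟩, ⟨.ofNat 2412, .ofNat 85, .ofNat 42, .ofNat 1687, .ofNat 817, .ofNat 0⟩, ⟨.negSucc 7290, .negSucc 210, .negSucc 98, .negSucc 5977, .negSucc 1987, .ofNat 0⟩, ⟨.ofNat 864, .ofNat 15, .negSucc 0, .ofNat 1527, .negSucc 180, .ofNat 0⟩, .ofNat 2229, .negSucc 3396, .ofNat 0, .negSucc 3396, .ofNat 6203, .ofNat 0, .ofNat 4175, .ofNat 19403, .negSucc 52005, .ofNat 0, .ofNat 11451, .negSucc 29046, .ofNat 0, .ofNat 0, .ofNat 38378, .ofNat 90750, .ofNat 0, .ofNat 1513999893413206611614385565149355101388800, .ofNat 0, .ofNat 0, .ofNat 0, .ofNat 324399002074363539515852973842088123275673600,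 .ofNat 62877320890217940662312195063808000, .ofNat 0, .ofNat 0, .ofNat 879045790447856078985471424260281799907737600, .ofNat 0, .ofNat 0, .ofNat 0, .ofNat 654891507909107069337350186433779446736486400, .ofNat 14984919252793960082059698162892800, .ofNat 0⟩)
    (by decide +kernel)
theorem L02131 : Good (Phi V4.P V4.D 1 1) ⟨7, 111, 5, 18, 2, 3, 2, 3, 3, 1⟩ :=
  out_sound (S := T4.ds_pp) T4.ok_pp (w := 24) (j := 4) (by decide +kernel)
theorem L02132 : Good (Phi V4.P V4.D 1 1) ⟨7, 110, 5, 19, 2, 3, 2, 3, 3, 1⟩ :=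
  out_sound (S := T4.ds_pp) T4.ok_pp (w := 80) (j := 3) (by decide +kernel)
theorem L02133 : Good (Phi V4.P V4.D 1 1) ⟨7, 111, 5, 19, 2, 3, 2, 3, 3, 1⟩ :=
  out_sound (S := T4.ds_pp) T4.ok_pp (w := 24) (j := 4) (by decide +kernel)
theorem L02134 : Good (Phi V4.P V4.D 1 1) ⟨3, 7, 3, 4, 2, 3, 2, 3, 3, 1⟩ :=
  out_sound (S := T4.ds_pp) T4.ok_pp (w := 16) (j := 4) (by decide +kernel)
theorem L02135 : Good (Phi V4.P V4.D 1 1) ⟨3, 6, 3, 5, 2, 3, 2, 3, 2, 0⟩ :=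
  out_sound (S := T4.ds_pp) T4.ok_pp (w := 48) (j := 3) (by decide +kernel)
theorem L02136 : Good (Phi V4.P V4.D 1 1) ⟨3, 7, 3, 5, 2, 3, 2, 3, 2, 0⟩ :=
  out_sound (S := T4.ds_pp) T4.ok_pp (w := 16) (j := 4) (by decide +kernel)
theorem L02137 : Good (Phi V4.P V4.D 1 1) ⟨4, 12, 2, 2, 2, 3, 3, 6, 3, 2⟩ :=
  out_sound (S := T4.ds_pp) T4.ok_pp (w := 56) (j := 3) (by decide +kernel)
theorem L02138 : Good (Phi V4.P V4.D 1 1) ⟨4, 13, 3, 4, 2, 3, 3, 6, 3, 2⟩ :=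
  leaf_sound (S := T4.ds_pp) T4.ok_pp (w := 184) (c := ⟨⟨.negSucc 2940, .negSucc 145, .negSucc 42, .ofNat 0, .negSucc 577, .ofNat 0⟩, ⟨.negSucc 1466, .negSucc 178, .negSucc 266, .ofNat 0, .negSucc 315, .ofNat 0⟩, ⟨.ofNat 1537, .ofNat 80, .negSucc 8, .ofNat 0, .ofNat 308, .ofNat 0⟩, ⟨.negSucc 5110, .negSucc 182, .negSucc 36, .ofNat 0, .negSucc 903, .ofNat 0⟩, ⟨.ofNat 1069, .ofNat 51, .ofNat 28, .ofNat 0, .ofNat 54, .ofNat 0⟩, .ofNat 1872, .negSucc 2835, .ofNat 0, .negSucc 2835, .ofNat 5358, .ofNat 0, .ofNat 964, .ofNat 3353, .negSucc 3959, .ofNat 0, .ofNat 1967, .negSucc 2108, .ofNat 0, .ofNat 0, .ofNat 4848, .ofNat 19440, .ofNat 0, .ofNat 287019955660188015227499643404288000, .ofNat 0, .ofNat 0, .ofNat 0, .ofNat 55411517218163692663851913838592000000, .ofNat 1687272616797994502021875079577600, .ofNat 0, .ofNat 0, .ofNat 63538990919119766284899653055519129600, .ofNat 0,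 .ofNat 0, .ofNat 0, .ofNat 76775425568631208500286406919192576000, .ofNat 2276508875579374390000417662566400, .ofNat 0⟩)
    (by decide +kernel)
theorem L02139 : Good (Phi V4.P V4.D 1 1) ⟨4, 13, 3, 5, 2, 3, 3, 6, 3, 2⟩ :=
  out_sound (S := T4.ds_pp) T4.ok_pp (w := 56) (j := 3) (by decide +kernel)
theorem L02140 : Good (Phi V4.P V4.D 1 1) ⟨3, 7, 2, 2, 2, 3, 3, 6, 3, 2⟩ :=
  out_sound (S := T4.ds_pp) T4.ok_pp (w := 16) (j := 4) (by decide +kernel)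
theorem L02141 : Good (Phi V4.P V4.D 1 1) ⟨2, 3, 2, 2, 2, 3, 3, 7, 3, 2⟩ :=
  out_sound (S := T4.ds_pp) T4.ok_pp (w := 32) (j := 2) (by decide +kernel)
theorem L02142 : Good (Phi V4.P V4.D 1 1) ⟨2, 3, 2, 2, 2, 3, 2, 3, 3, 3⟩ :=
  out_sound (S := T4.ds_pp) T4.ok_pp (w := 32) (j := 2) (by decide +kernel)
theorem L02143 : Good (Phi V4.P V4.D 1 1) ⟨3, 6, 2, 3, 2, 3, 2, 3, 1, 0⟩ :=
  out_sound (S := T4.ds_pp) T4.ok_pp (w := 48) (j := 3) (by decide +kernel)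
theorem L02144 : Good (Phi V4.P V4.D 1 1) ⟨3, 7, 2, 3, 2, 3, 2, 3, 1, 0⟩ :=
  out_sound (S := T4.ds_pp) T4.ok_pp (w := 16) (j := 4) (by decide +kernel)
theorem L02145 : Good (Phi V4.P V4.D 1 1) ⟨2, 2, 1, 0, 2, 0, 1, 0, 2, 2⟩ :=
  leaf_sound (S := T4.ds_pp) T4.ok_pp (w := 160) (c := ⟨⟨.negSucc 553, .negSucc 294, .negSucc 2, .negSucc 111, .ofNat 61, .ofNat 141⟩, ⟨.ofNat 40, .negSucc 156, .negSucc 207, .negSucc 23, .negSucc 20, .ofNat 29⟩, ⟨.ofNat 366, .ofNat 242, .ofNat 15, .negSucc 29, .negSucc 174, .negSucc 143⟩, ⟨.negSucc 1311, .negSucc 202, .negSucc 2, .negSucc 195, .ofNat 166, .ofNat 251⟩, ⟨.negSucc 46, .ofNat 24, .ofNat 9, .negSucc 127, .ofNat 25, .ofNat 2⟩, .ofNat 321, .negSucc 54, .ofNat 0, .negSucc 54, .ofNat 770, .ofNat 0, .ofNat 376, .ofNat 59, .negSucc 296, .ofNat 0, .ofNat 209, .negSucc 18, .ofNat 0, .ofNat 0, .ofNat 771, .ofNat 16845, .ofNat 1214722681559723506452450508800,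 .ofNat 0, .ofNat 0, .ofNat 0, .ofNat 22927942511754752765318293094400, .ofNat 0, .ofNat 0, .ofNat 0, .ofNat 11885099052033218596286811340800, .ofNat 0, .ofNat 0, .ofNat 0, .ofNat 59906185954935856932101868748800, .ofNat 0, .ofNat 0, .ofNat 0⟩)
    (by decide +kernel)
theorem L02146 : Good (Phi V4.P V4.D 1 1) ⟨2, 2, 1, 0, 2, 1, 1, 0, 2, 2⟩ :=
  leaf_sound (S := T4.ds_pp) T4.ok_pp (w := 160) (c := ⟨⟨.negSucc 539, .negSucc 362, .negSucc 13, .negSucc 203, .negSucc 48, .ofNat 155⟩, ⟨.ofNat 28, .negSucc 180, .negSucc 303, .negSucc 23, .negSucc 4, .ofNat 18⟩, ⟨.ofNat 126, .ofNat 233, .negSucc 65, .ofNat 4, .ofNat 96, .negSucc 204⟩, ⟨.negSucc 1267, .negSucc 277, .ofNat 51, .negSucc 403, .negSucc 91, .ofNat 300⟩, ⟨.negSucc 226, .ofNat 109, .negSucc 19, .ofNat 51, .ofNat 38, .ofNat 14⟩, .ofNat 321, .negSucc 53, .ofNat 0, .negSucc 53, .ofNat 765, .ofNat 0, .ofNat 382, .ofNat 58,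 .negSucc 266, .ofNat 0, .ofNat 210, .negSucc 3, .ofNat 0, .ofNat 0, .ofNat 760, .ofNat 5415, .ofNat 581108283712313511068565504000, .ofNat 0, .ofNat 523652001268851957458534400, .ofNat 0, .ofNat 18500125848892730113989279744000, .ofNat 0, .ofNat 0, .ofNat 0, .ofNat 0, .ofNat 0, .ofNat 0, .ofNat 0, .ofNat 44514375453491049456202049126400, .ofNat 0, .ofNat 22931681239178878723817472000, .ofNat 0⟩)
    (by decide +kernel)
theorem L02147 : Good (Phi V4.P V4.D 1 1) ⟨2, 2, 1, 1, 1, 0, 1, 0, 2, 2⟩ :=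
  out_sound (S := T4.ds_pp) T4.ok_pp (w := 40) (j := 3) (by decide +kernel)
theorem L02148 : Good (Phi V4.P V4.D 1 1) ⟨2, 2, 0, 0, 1, 0, 1, 0, 2, 3⟩ :=
  out_sound (S := T4.ds_pp) T4.ok_pp (w := 24) (j := 1) (by decide +kernel)
theorem L02149 : Good (Phi V4.P V4.D 1 1) ⟨3, 4, 1, 0, 2, 0, 2, 2, 2, 2⟩ :=
  leaf_sound (S := T4.ds_pp) T4.ok_pp (w := 168) (c := ⟨⟨.negSucc 468, .negSucc 117, .negSucc 23, .negSucc 154, .ofNat 91, .ofNat 60⟩, ⟨.ofNat 3, .negSucc 47, .negSucc 150, .negSucc 8, .ofNat 4, .ofNat 4⟩, ⟨.ofNat 121, .ofNat 106, .ofNat 19, .ofNat 61, .negSucc 88, .negSucc 20⟩, ⟨.negSucc 1056, .negSucc 102, .negSucc 12, .negSucc 321, .ofNat 190, .ofNat 122⟩, ⟨.negSucc 31, .ofNat 3, .negSucc 19, .negSucc 103, .ofNat 20, .ofNat 11⟩, .ofNat 331, .negSucc 21, .ofNat 0, .negSucc 21, .ofNat 830, .ofNat 0, .ofNat 367, .ofNat 22, .negSucc 335, .ofNat 0, .ofNat 194, .negSucc 8,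 .ofNat 0, .ofNat 0, .ofNat 730, .ofNat 7641, .ofNat 16339057775290955236475142144000, .ofNat 0, .ofNat 728859547958188321013760000, .ofNat 0, .ofNat 0, .ofNat 0, .ofNat 0, .ofNat 0, .ofNat 0, .ofNat 0, .ofNat 0, .ofNat 0, .ofNat 925476551502609210051242911334400, .ofNat 0, .ofNat 0, .ofNat 0⟩)
    (by decide +kernel)
theorem L02150 : Good (Phi V4.P V4.D 1 1) ⟨3, 5, 1, 0, 2, 0, 2, 2, 2, 2⟩ :=
  leaf_sound (S := T4.ds_pp) T4.ok_pp (w := 168) (c := ⟨⟨.negSucc 512, .negSucc 199, .negSucc 4, .negSucc 262, .ofNat 37, .ofNat 82⟩, ⟨.negSucc 20, .negSucc 106, .negSucc 200, .negSucc 56, .ofNat 3, .ofNat 18⟩, ⟨.ofNat 165, .ofNat 180, .negSucc 7, .ofNat 138, .negSucc 29, .negSucc 37⟩, ⟨.negSucc 1033, .negSucc 188, .ofNat 17, .negSucc 460, .ofNat 69, .ofNat 145⟩, ⟨.negSucc 42, .ofNat 16, .negSucc 10, .negSucc 79, .ofNat 25, .ofNat 10⟩, .ofNat 312, .negSucc 77, .ofNat 0, .negSucc 77,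 .ofNat 709, .ofNat 0, .ofNat 381, .ofNat 90, .negSucc 397, .ofNat 0, .ofNat 224, .negSucc 49, .ofNat 0, .ofNat 0, .ofNat 771, .ofNat 6752, .ofNat 21384568255567331867102281728000, .ofNat 0, .ofNat 286316885857638056303001600, .ofNat 0, .ofNat 0, .ofNat 0, .ofNat 0, .ofNat 0, .ofNat 0, .ofNat 0, .ofNat 0, .ofNat 0, .ofNat 0, .ofNat 0, .ofNat 80903682413112735680377651200, .ofNat 0⟩)
    (by decide +kernel)
theorem L02151 : Good (Phi V4.P V4.D 1 1) ⟨2, 2, 1, 0, 2, 0, 2, 2, 2, 3⟩ :=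
  leaf_sound (S := T4.ds_pp) T4.ok_pp (w := 160) (c := ⟨⟨.negSucc 107, .negSucc 314, .negSucc 58, .negSucc 294, .negSucc 136, .ofNat 35⟩, ⟨.ofNat 136, .negSucc 125, .negSucc 227, .negSucc 47, .negSucc 98, .ofNat 68⟩, ⟨.negSucc 214, .ofNat 290, .ofNat 53, .ofNat 195, .ofNat 164, .ofNat 4⟩, ⟨.negSucc 480, .negSucc 331, .negSucc 37, .negSucc 551, .negSucc 149, .negSucc 10⟩, ⟨.negSucc 59, .ofNat 24, .negSucc 16, .negSucc 54, .ofNat 33, .ofNat 148⟩, .ofNat 320, .negSucc 53, .ofNat 0, .negSucc 53, .ofNat 766, .ofNat 0, .ofNat 349, .ofNat 54, .negSucc 357, .ofNat 0, .ofNat 194, .negSucc 29, .ofNat 0, .ofNat 0, .ofNat 696, .ofNat 69123, .ofNat 105944454976452877374357661286400, .ofNat 0, .ofNat 0, .ofNat 0, .ofNat 630082931583309857954818582118400, .ofNat 0, .ofNat 0, .ofNat 0, .ofNat 285131845778783630118964376371200, .ofNat 0, .ofNat 298779019278774101275469414400, .ofNat 0,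 .ofNat 762361569096183866050190770176000, .ofNat 0, .ofNat 203321170719190135700088422400, .ofNat 0⟩)
    (by decide +kernel)
theorem L02152 : Good (Phi V4.P V4.D 1 1) ⟨2, 2, 2, 0, 3, 0, 3, 6, 2, 2⟩ :=
  leaf_sound (S := T4.ds_pp) T4.ok_pp (w := 176) (c := ⟨⟨.negSucc 328, .negSucc 257, .negSucc 54, .negSucc 142, .ofNat 93, .ofNat 44⟩, ⟨.ofNat 7, .negSucc 91, .negSucc 119, .negSucc 19, .ofNat 13, .ofNat 9⟩, ⟨.negSucc 37, .ofNat 250, .ofNat 54, .ofNat 104, .negSucc 82, .ofNat 13⟩, ⟨.negSucc 754, .negSucc 281, .negSucc 53, .negSucc 274, .ofNat 179, .ofNat 80⟩, ⟨.negSucc 11, .ofNat 2, .negSucc 1, .negSucc 49, .ofNat 9, .ofNat 5⟩, .ofNat 322, .negSucc 55, .ofNat 0, .negSucc 55, .ofNat 774, .ofNat 0, .ofNat 392, .ofNat 63, .negSucc 479, .ofNat 0, .ofNat 218, .negSucc 41, .ofNat 0, .ofNat 0, .ofNat 805, .ofNat 5892, .ofNat 0, .ofNat 0, .ofNat 0, .ofNat 0, .ofNat 0, .ofNat 0,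 .ofNat 0, .ofNat 0, .ofNat 0, .ofNat 0, .ofNat 0, .ofNat 0, .ofNat 0, .ofNat 0, .ofNat 833723426714666804948151513907200, .ofNat 0⟩)
    (by decide +kernel)
theorem L02153 : Good (Phi V4.P V4.D 1 1) ⟨3, 4, 2, 0, 3, 0, 3, 7, 2, 2⟩ :=
  leaf_sound (S := T4.ds_pp) T4.ok_pp (w := 176) (c := ⟨⟨.negSucc 185, .negSucc 107, .negSucc 29, .negSucc 190, .ofNat 200, .negSucc 27⟩, ⟨.ofNat 5, .negSucc 26, .negSucc 35, .negSucc 8, .ofNat 9, .negSucc 1⟩, ⟨.negSucc 181, .ofNat 102, .ofNat 40, .ofNat 162, .negSucc 187, .ofNat 96⟩, ⟨.negSucc 431, .negSucc 145, .negSucc 85, .negSucc 399, .ofNat 421, .negSucc 55⟩, ⟨.negSucc 13, .ofNat 0, .ofNat 16, .negSucc 27, .ofNat 19, .ofNat 5⟩, .ofNat 448, .negSucc 85, .ofNat 0, .negSucc 85, .ofNat 2369, .ofNat 0, .ofNat 390, .ofNat 46, .negSucc 481, .ofNat 0, .ofNat 133, .negSucc 19, .ofNat 0, .ofNat 0, .ofNat 798, .ofNat 6576, .ofNat 0, .ofNat 0, .ofNat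 0, .ofNat 0, .ofNat 0, .ofNat 0, .ofNat 0, .ofNat 0, .ofNat 0, .ofNat 0, .ofNat 2600058892568012175248592784588800, .ofNat 0, .ofNat 0, .ofNat 0, .ofNat 787860841972927280245480253030400, .ofNat 0⟩)
    (by decide +kernel)
theorem L02154 : Good (Phi V4.P V4.D 1 1) ⟨4, 10, 2, 0, 3, 0, 3, 7, 2, 2⟩ :=
  leaf_sound (S := T4.ds_pp) T4.ok_pp (w := 184) (c := ⟨⟨.negSucc 265, .negSucc 82, .ofNat 24, .negSucc 315, .ofNat 262, .negSucc 13⟩, ⟨.negSucc 17, .negSucc 26, .negSucc 51, .negSucc 41, .ofNat 35, .ofNat 1⟩, ⟨.negSucc 101, .ofNat 82, .negSucc 28, .ofNat 280, .negSucc 250, .ofNat 83⟩, ⟨.negSucc 525, .negSucc 111, .ofNat 51, .negSucc 598, .ofNat 498, .negSucc 32⟩, ⟨.negSucc 10, .negSucc 1, .negSucc 0, .negSucc 24, .ofNat 16, .ofNat 2⟩, .ofNat 431, .negSucc 194, .ofNat 0, .negSucc 194, .ofNat 1844, .ofNat 0, .ofNat 393, .ofNat 118, .negSucc 568, .ofNat 0, .ofNat 165, .negSucc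 66, .ofNat 0, .ofNat 0, .ofNat 863, .ofNat 3920, .ofNat 0, .ofNat 0, .ofNat 0, .ofNat 0, .ofNat 0, .ofNat 0, .ofNat 0, .ofNat 0, .ofNat 0, .ofNat 0, .ofNat 0, .ofNat 0, .ofNat 0, .ofNat 5297122539440628950641591101004185600, .ofNat 0, .ofNat 0⟩)
    (by decide +kernel)
theorem L02155 : Good (Phi V4.P V4.D 1 1) ⟨4, 11, 2, 0, 3, 0, 3, 7, 2, 2⟩ :=
  leaf_sound (S := T4.ds_pp) T4.ok_pp (w := 184) (c := ⟨⟨.negSucc 286, .negSucc 107, .negSucc 19, .negSucc 402, .ofNat 273, .negSucc 24⟩, ⟨.negSucc 21, .negSucc 43, .negSucc 77, .negSucc 87, .ofNat 61, .negSucc 2⟩, ⟨.negSucc 80, .ofNat 106, .ofNat 19, .ofNat 362, .negSucc 261, .ofNat 94⟩, ⟨.negSucc 537, .negSucc 136, .negSucc 26, .negSucc 710, .ofNat 482, .negSucc 47⟩, ⟨.negSucc 8, .negSucc 1, .ofNat 1, .negSucc 29, .ofNat 14, .ofNat 2⟩, .ofNat 546, .negSucc 554, .ofNat 0, .negSucc 554, .ofNat 2708, .ofNat 0, .ofNat 357, .ofNat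 214, .negSucc 606, .ofNat 0, .ofNat 172, .negSucc 129, .ofNat 0, .ofNat 0, .ofNat 891, .ofNat 2442, .ofNat 0, .ofNat 0, .ofNat 0, .ofNat 0, .ofNat 0, .ofNat 2636859077409467177544363668825702400, .ofNat 308531547068562475476253566566400, .ofNat 0, .ofNat 0, .ofNat 586314041353160392511243881021440000, .ofNat 366225274932224337656350035148800, .ofNat 0, .ofNat 0, .ofNat 5349020328188894874669570543373516800, .ofNat 0, .ofNat 0⟩)
    (by decide +kernel)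
theorem L02156 : Good (Phi V4.P V4.D 1 1) ⟨3, 4, 2, 0, 3, 1, 2, 3, 2, 2⟩ :=
  leaf_sound (S := T4.ds_pp) T4.ok_pp (w := 176) (c := ⟨⟨.negSucc 389, .negSucc 170, .negSucc 82, .negSucc 151, .ofNat 125, .ofNat 7⟩, ⟨.ofNat 5, .negSucc 45, .negSucc 112, .negSucc 5, .ofNat 4, .ofNat 0⟩, ⟨.negSucc 6, .ofNat 156, .ofNat 70, .ofNat 106, .negSucc 101, .ofNat 52⟩, ⟨.negSucc 887, .negSucc 220, .negSucc 115, .negSucc 321, .ofNat 266, .ofNat 15⟩, ⟨.negSucc 85, .ofNat 10, .ofNat 4, .negSucc 6, .ofNat 66, .ofNat 18⟩, .ofNat 448, .negSucc 87, .ofNat 0, .negSucc 87, .ofNat 2361, .ofNat 0, .ofNat 373, .ofNat 45, .negSucc 366, .ofNat 0, .ofNat 127, .negSucc 15, .ofNat 0, .ofNat 0, .ofNat 731, .ofNat 3675, .ofNat 0, .ofNat 0, .ofNat 0, .ofNat 0, .ofNat 0, .ofNat 112141473332401969581997819743436800, .ofNat 0, .ofNat 0, .ofNat 0, .ofNat 0, .ofNat 0, .ofNat 0, .ofNat 0, .ofNat 165580593640514850492692132423270400,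 .ofNat 96648908546912596108048229990400, .ofNat 0⟩)
    (by decide +kernel)
theorem L02157 : Good (Phi V4.P V4.D 1 1) ⟨3, 5, 2, 0, 3, 1, 2, 3, 2, 2⟩ :=
  leaf_sound (S := T4.ds_pp) T4.ok_pp (w := 176) (c := ⟨⟨.negSucc 479, .negSucc 328, .ofNat 6, .negSucc 235, .ofNat 29, .negSucc 3⟩, ⟨.negSucc 16, .negSucc 126, .negSucc 118, .negSucc 38, .ofNat 7, .negSucc 0⟩, ⟨.ofNat 71, .ofNat 316, .negSucc 18, .ofNat 173, .ofNat 1, .ofNat 67⟩, ⟨.negSucc 965, .negSucc 415, .ofNat 26, .negSucc 435, .ofNat 48, .negSucc 9⟩, ⟨.negSucc 71, .ofNat 5, .negSucc 0, .ofNat 1, .ofNat 48, .ofNat 12⟩, .ofNat 436, .negSucc 255, .ofNat 0, .negSucc 255, .ofNat 1665, .ofNat 0, .ofNat 372, .ofNat 156, .negSucc 467, .ofNat 0, .ofNat 176, .negSucc 79, .ofNat 0, .ofNat 0, .ofNat 796, .ofNat 1528, .ofNat 0, .ofNat 0, .ofNat 354598763841897989351355187200, .ofNat 0, .ofNat 0, .ofNat 0, .ofNat 0, .ofNat 0,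 .ofNat 0, .ofNat 0, .ofNat 0, .ofNat 0, .ofNat 0, .ofNat 159727451977130610255922112495616000, .ofNat 0, .ofNat 0⟩)
    (by decide +kernel)
theorem L02158 : Good (Phi V4.P V4.D 1 1) ⟨2, 2, 2, 1, 2, 0, 2, 3, 2, 2⟩ :=
  out_sound (S := T4.ds_pp) T4.ok_pp (w := 40) (j := 3) (by decide +kernel)
theorem L02159 : Good (Phi V4.P V4.D 1 1) ⟨2, 2, 2, 0, 2, 0, 3, 6, 3, 6⟩ :=
  leaf_sound (S := T4.ds_pp) T4.ok_pp (w := 168) (c := ⟨⟨.negSucc 205, .negSucc 292, .negSucc 109, .negSucc 345, .ofNat 41, .negSucc 74⟩, ⟨.ofNat 24, .negSucc 93, .negSucc 163, .negSucc 34, .ofNat 8, .negSucc 20⟩, ⟨.negSucc 106, .ofNat 282, .ofNat 97, .ofNat 264, .negSucc 19, .ofNat 103⟩, ⟨.negSucc 521, .negSucc 344, .negSucc 113, .negSucc 680, .ofNat 75, .negSucc 129⟩, ⟨.negSucc 24, .ofNat 6, .ofNat 0, .negSucc 47, .ofNat 12, .ofNat 5⟩, .ofNat 320, .negSucc 55, .ofNat 0, .negSucc 55, .ofNat 763, .ofNat 0, .ofNat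 358, .ofNat 58, .negSucc 420, .ofNat 0, .ofNat 200, .negSucc 38, .ofNat 0, .ofNat 0, .ofNat 724, .ofNat 6455, .ofNat 224567196354114388186516527513600, .ofNat 0, .ofNat 0, .ofNat 0, .ofNat 0, .ofNat 0, .ofNat 0, .ofNat 0, .ofNat 0, .ofNat 0, .ofNat 0, .ofNat 0, .ofNat 0, .ofNat 0, .ofNat 0, .ofNat 0⟩)
    (by decide +kernel)
theorem L02160 : Good (Phi V4.P V4.D 1 1) ⟨2, 2, 2, 0, 2, 0, 4, 14, 3, 6⟩ :=
  leaf_sound (S := T4.ds_pp) T4.ok_pp (w := 176) (c := ⟨⟨.negSucc 91, .negSucc 320, .negSucc 61, .negSucc 551, .ofNat 35, .ofNat 1⟩, ⟨.ofNat 41, .negSucc 99, .negSucc 107, .negSucc 75, .negSucc 0, .negSucc 2⟩, ⟨.negSucc 209, .ofNat 314, .ofNat 59, .ofNat 483, .negSucc 26, .ofNat 26⟩, ⟨.negSucc 296, .negSucc 419, .negSucc 76, .negSucc 1050, .ofNat 78, .ofNat 5⟩, ⟨.negSucc 6, .negSucc 1, .ofNat 0, .negSucc 47, .ofNat 4, .ofNat 0⟩, .ofNat 319, .negSucc 55, .ofNat 0, .negSucc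 55, .ofNat 753, .ofNat 0, .ofNat 374, .ofNat 61, .negSucc 545, .ofNat 0, .ofNat 211, .negSucc 51, .ofNat 0, .ofNat 0, .ofNat 804, .ofNat 6341, .ofNat 446794292477106784627844972544000, .ofNat 0, .ofNat 0, .ofNat 0, .ofNat 0, .ofNat 0, .ofNat 0, .ofNat 0, .ofNat 0, .ofNat 0, .ofNat 0, .ofNat 0, .ofNat 5315692606357023422911030807756800, .ofNat 739123743829481741786104096358400, .ofNat 442753205869760780998603387699200, .ofNat 0⟩)
    (by decide +kernel)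
theorem L02161 : Good (Phi V4.P V4.D 1 1) ⟨3, 4, 2, 0, 2, 0, 4, 15, 3, 6⟩ :=
  leaf_sound (S := T4.ds_pp) T4.ok_pp (w := 176) (c := ⟨⟨.negSucc 90, .negSucc 109, .ofNat 8, .negSucc 513, .ofNat 142, .negSucc 21⟩, ⟨.ofNat 9, .negSucc 25, .negSucc 32, .negSucc 29, .ofNat 9, .negSucc 1⟩, ⟨.negSucc 206, .ofNat 107, .negSucc 6, .ofNat 465, .negSucc 133, .ofNat 49⟩, ⟨.negSucc 232, .negSucc 158, .ofNat 10, .negSucc 1060, .ofNat 290, .negSucc 43⟩, ⟨.negSucc 2, .negSucc 0, .ofNat 3, .negSucc 37, .ofNat 6, .negSucc 1⟩, .ofNat 447, .negSucc 89, .ofNat 0, .negSucc 89, .ofNat 2337, .ofNat 0, .ofNat 353, .ofNat 43, .negSucc 453, .ofNat 0, .ofNat 122, .negSucc 19, .ofNat 0, .ofNat 0, .ofNat 731, .ofNat 17903, .ofNat 0, .ofNat 0, .ofNat 0, .ofNat 0, .ofNat 0, .ofNat 43673790571669989499332628316160000, .ofNat 0, .ofNat 0, .ofNat 49857359197613319091005425713152000, .ofNat 76879917877607135919099991189094400,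 .ofNat 320312521748090049656183901388800, .ofNat 0, .ofNat 0, .ofNat 54397444616545134306453580519833600, .ofNat 67274809245862918081916121907200, .ofNat 0⟩)
    (by decide +kernel)
theorem L02162 : Good (Phi V4.P V4.D 1 1) ⟨3, 5, 2, 0, 2, 0, 4, 15, 3, 6⟩ :=
  leaf_sound (S := T4.ds_pp) T4.ok_pp (w := 176) (c := ⟨⟨.negSucc 81, .negSucc 237, .negSucc 34, .negSucc 867, .ofNat 150, .negSucc 57⟩, ⟨.ofNat 28, .negSucc 81, .negSucc 85, .negSucc 149, .ofNat 30, .negSucc 19⟩, ⟨.negSucc 215, .ofNat 236, .ofNat 32, .ofNat 807, .negSucc 141, .ofNat 86⟩, ⟨.negSucc 208, .negSucc 328, .negSucc 44, .negSucc 1589, .ofNat 271, .negSucc 91⟩, ⟨.negSucc 0, .negSucc 3, .negSucc 1, .negSucc 44, .ofNat 7, .negSucc 2⟩, .ofNat 312, .negSucc 80, .ofNat 0, .negSucc 80, .ofNat 712, .ofNat 0, .ofNat 389, .ofNat 94, .negSucc 757, .ofNat 0, .ofNat 229, .negSucc 107, .ofNat 0, .ofNat 0, .ofNat 966, .ofNat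 2472, .ofNat 0, .ofNat 0, .ofNat 0, .ofNat 0, .ofNat 0, .ofNat 0, .ofNat 0, .ofNat 0, .ofNat 0, .ofNat 0, .ofNat 0, .ofNat 0, .ofNat 0, .ofNat 52659211243672452070539813873254400, .ofNat 0, .ofNat 0⟩)
    (by decide +kernel)
theorem L02163 : Good (Phi V4.P V4.D 1 1) ⟨2, 2, 2, 0, 2, 0, 3, 6, 4, 14⟩ :=
  out_sound (S := T4.ds_pp) T4.ok_pp (w := 32) (j := 1) (by decide +kernel)
theorem L02164 : Good (Phi V4.P V4.D 1 1) ⟨2, 2, 3, 0, 2, 0, 4, 14, 5, 28⟩ :=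
  out_sound (S := T4.ds_pp) T4.ok_pp (w := 32) (j := 1) (by decide +kernel)
theorem L02165 : Good (Phi V4.P V4.D 1 1) ⟨2, 2, 3, 0, 3, 0, 4, 15, 5, 28⟩ :=
  out_sound (S := T4.ds_pp) T4.ok_pp (w := 32) (j := 1) (by decide +kernel)
theorem L02166 : Good (Phi V4.P V4.D 1 1) ⟨2, 2, 3, 0, 3, 1, 4, 15, 5, 28⟩ :=
  out_sound (S := T4.ds_pp) T4.ok_pp (w := 40) (j := 2) (by decide +kernel)
theorem L02167 : Good (Phi V4.P V4.D 1 1) ⟨3, 4, 3, 1, 2, 0, 3, 7, 5, 28⟩ :=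
  out_sound (S := T4.ds_pp) T4.ok_pp (w := 48) (j := 3) (by decide +kernel)
theorem L02168 : Good (Phi V4.P V4.D 1 1) ⟨5, 20, 4, 2, 2, 0, 3, 7, 5, 28⟩ :=
  out_sound (S := T4.ds_pp) T4.ok_pp (w := 64) (j := 3) (by decide +kernel)
theorem L02169 : Good (Phi V4.P V4.D 1 1) ⟨6, 42, 5, 4, 2, 0, 3, 7, 5, 28⟩ :=
  out_sound (S := T4.ds_pp) T4.ok_pp (w := 72) (j := 3) (by decide +kernel)
theorem L02170 : Good (Phi V4.P V4.D 1 1) ⟨7, 86, 6, 8, 2, 0, 3, 7, 5, 28⟩ :=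
  out_sound (S := T4.ds_pp) T4.ok_pp (w := 80) (j := 3) (by decide +kernel)
theorem L02171 : Good (Phi V4.P V4.D 1 1) ⟨8, 174, 7, 16, 2, 0, 3, 7, 5, 28⟩ :=
  out_sound (S := T4.ds_pp) T4.ok_pp (w := 88) (j := 3) (by decide +kernel)
theorem L02172 : Good (Phi V4.P V4.D 1 1) ⟨9, 350, 8, 32, 2, 0, 3, 7, 5, 28⟩ :=
  out_sound (S := T4.ds_pp) T4.ok_pp (w := 96) (j := 3) (by decide +kernel)
theorem L02173 : Good (Phi V4.P V4.D 1 1) ⟨9, 351, 8, 32, 2, 0, 4, 14, 5, 28⟩ :=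
  out_sound (S := T4.ds_pp) T4.ok_pp (w := 32) (j := 1) (by decide +kernel)
theorem L02174 : Good (Phi V4.P V4.D 1 1) ⟨9, 351, 8, 32, 3, 0, 4, 15, 5, 28⟩ :=
  out_sound (S := T4.ds_pp) T4.ok_pp (w := 32) (j := 1) (by decide +kernel)
theorem L02175 : Good (Phi V4.P V4.D 1 1) ⟨9, 351, 8, 32, 3, 1, 4, 15, 5, 28⟩ :=
  out_sound (S := T4.ds_pp) T4.ok_pp (w := 40) (j := 2) (by decide +kernel)
theorem L02176 : Good (Phi V4.P V4.D 1 1) ⟨8, 175, 8, 33, 2, 0, 3, 7, 5, 28⟩ :=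
  out_sound (S := T4.ds_pp) T4.ok_pp (w := 88) (j := 3) (by decide +kernel)
theorem L02177 : Good (Phi V4.P V4.D 1 1) ⟨7, 87, 7, 17, 2, 0, 3, 7, 5, 28⟩ :=
  out_sound (S := T4.ds_pp) T4.ok_pp (w := 80) (j := 3) (by decide +kernel)
theorem L02178 : Good (Phi V4.P V4.D 1 1) ⟨6, 43, 6, 9, 2, 0, 3, 7, 5, 28⟩ :=
  out_sound (S := T4.ds_pp) T4.ok_pp (w := 72) (j := 3) (by decide +kernel)
theorem L02179 : Good (Phi V4.P V4.D 1 1) ⟨5, 21, 5, 5, 2, 0, 3, 7, 5, 28⟩ :=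
  out_sound (S := T4.ds_pp) T4.ok_pp (w := 64) (j := 3) (by decide +kernel)
theorem L02180 : Good (Phi V4.P V4.D 1 1) ⟨4, 10, 4, 3, 2, 0, 3, 7, 5, 28⟩ :=
  out_sound (S := T4.ds_pp) T4.ok_pp (w := 56) (j := 3) (by decide +kernel)
theorem L02181 : Good (Phi V4.P V4.D 1 1) ⟨4, 11, 4, 2, 2, 0, 4, 14, 5, 28⟩ :=
  out_sound (S := T4.ds_pp) T4.ok_pp (w := 32) (j := 1) (by decide +kernel)
theorem L02182 : Good (Phi V4.P V4.D 1 1) ⟨4, 11, 4, 2, 3, 0, 4, 15, 5, 28⟩ :=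
  out_sound (S := T4.ds_pp) T4.ok_pp (w := 32) (j := 1) (by decide +kernel)
theorem L02183 : Good (Phi V4.P V4.D 1 1) ⟨4, 11, 4, 2, 3, 1, 4, 15, 5, 28⟩ :=
  out_sound (S := T4.ds_pp) T4.ok_pp (w := 40) (j := 2) (by decide +kernel)
theorem L02184 : Good (Phi V4.P V4.D 1 1) ⟨5, 22, 4, 3, 2, 0, 3, 7, 5, 28⟩ :=
  out_sound (S := T4.ds_pp) T4.ok_pp (w := 64) (j := 3) (by decide +kernel)
theorem L02185 : Good (Phi V4.P V4.D 1 1) ⟨6, 46, 5, 6, 2, 0, 4, 14, 5, 28⟩ :=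
  out_sound (S := T4.ds_pp) T4.ok_pp (w := 32) (j := 1) (by decide +kernel)
theorem L02186 : Good (Phi V4.P V4.D 1 1) ⟨6, 46, 5, 6, 3, 0, 4, 15, 5, 28⟩ :=
  out_sound (S := T4.ds_pp) T4.ok_pp (w := 32) (j := 1) (by decide +kernel)
theorem L02187 : Good (Phi V4.P V4.D 1 1) ⟨6, 46, 5, 6, 3, 1, 4, 15, 5, 28⟩ :=
  out_sound (S := T4.ds_pp) T4.ok_pp (w := 40) (j := 2) (by decide +kernel)
theorem L02188 : Good (Phi V4.P V4.D 1 1) ⟨6, 46, 5, 7, 2, 0, 3, 7, 5, 28⟩ :=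
  out_sound (S := T4.ds_pp) T4.ok_pp (w := 72) (j := 3) (by decide +kernel)
theorem L02189 : Good (Phi V4.P V4.D 1 1) ⟨6, 47, 4, 3, 2, 0, 4, 14, 5, 28⟩ :=
  out_sound (S := T4.ds_pp) T4.ok_pp (w := 32) (j := 1) (by decide +kernel)
theorem L02190 : Good (Phi V4.P V4.D 1 1) ⟨6, 47, 4, 3, 3, 0, 4, 15, 5, 28⟩ :=
  out_sound (S := T4.ds_pp) T4.ok_pp (w := 32) (j := 1) (by decide +kernel)
theorem L02191 : Good (Phi V4.P V4.D 1 1) ⟨6, 47, 4, 3, 3, 1, 4, 15, 5, 28⟩ :=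
  out_sound (S := T4.ds_pp) T4.ok_pp (w := 40) (j := 2) (by decide +kernel)
theorem L02192 : Good (Phi V4.P V4.D 1 1) ⟨2, 2, 2, 0, 2, 0, 3, 7, 5, 29⟩ :=
  out_sound (S := T4.ds_pp) T4.ok_pp (w := 32) (j := 1) (by decide +kernel)
theorem L02193 : Good (Phi V4.P V4.D 1 1) ⟨2, 2, 2, 0, 2, 0, 2, 3, 4, 15⟩ :=
  out_sound (S := T4.ds_pp) T4.ok_pp (w := 24) (j := 1) (by decide +kernel)
theorem L02194 : Good (Phi V4.P V4.D 1 1) ⟨2, 2, 2, 1, 2, 0, 2, 3, 2, 3⟩ :=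
  out_sound (S := T4.ds_pp) T4.ok_pp (w := 40) (j := 3) (by decide +kernel)
theorem L02195 : Good (Phi V4.P V4.D 1 1) ⟨2, 2, 1, 0, 2, 1, 2, 2, 2, 2⟩ :=
  leaf_sound (S := T4.ds_pp) T4.ok_pp (w := 160) (c := ⟨⟨.negSucc 530, .negSucc 407, .negSucc 66, .negSucc 257, .negSucc 52, .ofNat 117⟩, ⟨.ofNat 22, .negSucc 164, .negSucc 362, .negSucc 19, .negSucc 12, .ofNat 19⟩, ⟨.ofNat 105, .ofNat 322, .negSucc 25, .ofNat 98, .ofNat 75, .negSucc 90⟩, ⟨.negSucc 1228, .negSucc 395, .ofNat 0, .negSucc 529, .negSucc 96, .ofNat 217⟩, ⟨.negSucc 180, .ofNat 67, .ofNat 29, .ofNat 82, .ofNat 59, .ofNat 22⟩, .ofNat 319, .negSucc 60, .ofNat 0, .negSucc 60, .ofNat 760, .ofNat 0, .ofNat 394, .ofNat 70, .negSucc 330, .ofNat 0, .ofNat 217, .negSucc 20, .ofNat 0, .ofNat 0, .ofNat 754, .ofNat 4324, .ofNat 1439623461736535654091718656000, .ofNat 0, .ofNat 3892316331559903077335040000, .ofNat 0, .ofNat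 0, .ofNat 16085592132000640100072423424000, .ofNat 91693892013244781060476108800, .ofNat 0, .ofNat 0, .ofNat 0, .ofNat 413807568746634844597282406400, .ofNat 0, .ofNat 0, .ofNat 8855791275738855272849237606400, .ofNat 0, .ofNat 0⟩)
    (by decide +kernel)
theorem L02196 : Good (Phi V4.P V4.D 1 1) ⟨2, 2, 1, 0, 2, 1, 2, 3, 2, 2⟩ :=
  leaf_sound (S := T4.ds_pp) T4.ok_pp (w := 160) (c := ⟨⟨.negSucc 486, .negSucc 483, .negSucc 122, .negSucc 367, .negSucc 32, .ofNat 31⟩, ⟨.ofNat 15, .negSucc 159, .negSucc 381, .negSucc 29, .ofNat 21, .ofNat 6⟩, ⟨.ofNat 57, .ofNat 420, .ofNat 81, .ofNat 229, .ofNat 66, .ofNat 24⟩, ⟨.negSucc 1129, .negSucc 574, .negSucc 86, .negSucc 737, .negSucc 103, .ofNat 56⟩, ⟨.negSucc 115, .ofNat 55, .negSucc 12, .ofNat 75, .ofNat 73, .ofNat 34⟩, .ofNat 321, .negSucc 55, .ofNat 0, .negSucc 55, .ofNat 769, .ofNat 0, .ofNat 415, .ofNat 68, .negSucc 445, .ofNat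 0, .ofNat 227, .negSucc 37, .ofNat 0, .ofNat 0, .ofNat 794, .ofNat 1152, .ofNat 0, .ofNat 0, .ofNat 5198021065191836477502259200, .ofNat 0, .ofNat 0, .ofNat 24058003660231499334300362342400, .ofNat 0, .ofNat 0, .ofNat 0, .ofNat 12391670834304051020660578713600, .ofNat 0, .ofNat 0, .ofNat 0, .ofNat 21312413990036841951418908672000, .ofNat 0, .ofNat 0⟩)
    (by decide +kernel)
theorem L02197 : Good (Phi V4.P V4.D 1 1) ⟨2, 2, 1, 0, 2, 1, 1, 1, 2, 3⟩ :=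
  leaf_sound (S := T4.ds_pp) T4.ok_pp (w := 160) (c := ⟨⟨.negSucc 417, .negSucc 404, .negSucc 79, .negSucc 231, .negSucc 152, .ofNat 86⟩, ⟨.ofNat 32, .negSucc 146, .negSucc 311, .negSucc 7, .negSucc 40, .ofNat 54⟩, ⟨.negSucc 12, .ofNat 359, .ofNat 38, .ofNat 120, .ofNat 244, .negSucc 29⟩, ⟨.negSucc 1003, .negSucc 453, .negSucc 30, .negSucc 493, .negSucc 257, .ofNat 100⟩, ⟨.negSucc 122, .ofNat 39, .ofNat 5, .ofNat 26, .ofNat 93, .ofNat 28⟩, .ofNat 321, .negSucc 50, .ofNat 0, .negSucc 50, .ofNat 774, .ofNat 0, .ofNat 350, .ofNat 52, .negSucc 329, .ofNat 0, .ofNat 192, .negSucc 25, .ofNat 0, .ofNat 0, .ofNat 678, .ofNat 1993, .ofNat 454097773203507138977700249600, .ofNat 0, .ofNat 0, .ofNat 0, .ofNat 0, .ofNat 9270334455092630175881782886400, .ofNat 0, .ofNat 0, .ofNat 0, .ofNat 7836454353693448554405691392000, .ofNat 0, .ofNat 0, .ofNat 0, .ofNat 8080717633611882339791536128000,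 .ofNat 0, .ofNat 0⟩)
    (by decide +kernel)
theorem L02198 : Good (Phi V4.P V4.D 1 1) ⟨2, 2, 1, 1, 1, 0, 1, 1, 1, 1⟩ :=
  out_sound (S := T4.ds_pp) T4.ok_pp (w := 40) (j := 3) (by decide +kernel)
theorem L02199 : Good (Phi V4.P V4.D 1 1) ⟨2, 2, 1, 0, 2, 2, 1, 0, 2, 2⟩ :=
  leaf_sound (S := T4.ds_pp) T4.ok_pp (w := 160) (c := ⟨⟨.negSucc 685, .negSucc 415, .ofNat 16, .negSucc 249, .negSucc 123, .ofNat 288⟩, ⟨.ofNat 39, .negSucc 209, .negSucc 356, .negSucc 27, .negSucc 25, .ofNat 62⟩, ⟨.ofNat 96, .ofNat 181, .negSucc 102, .negSucc 0, .ofNat 206, .negSucc 397⟩, ⟨.negSucc 1605, .negSucc 300, .ofNat 71, .negSucc 500, .negSucc 230, .ofNat 532⟩, ⟨.negSucc 216, .ofNat 195, .negSucc 30, .ofNat 224, .ofNat 81, .negSucc 64⟩, .ofNat 318, .negSucc 57, .ofNat 0, .negSucc 57, .ofNat 750, .ofNat 0, .ofNat 416, .ofNat 65, .negSucc 250, .ofNat 0, .ofNat 228, .ofNat 11, .ofNat 0, .ofNat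 0, .ofNat 805, .ofNat 3528, .ofNat 708536304244256155222671360000, .ofNat 0, .ofNat 526821240236575752349286400, .ofNat 0, .ofNat 18107719819056237057144363417600, .ofNat 9840161483261986651653537792000, .ofNat 0, .ofNat 0, .ofNat 0, .ofNat 0, .ofNat 0, .ofNat 0, .ofNat 41190512925804006822016293273600, .ofNat 9453993874063184490214824345600, .ofNat 0, .ofNat 0⟩)
    (by decide +kernel)
theorem L02200 : Good (Phi V4.P V4.D 1 1) ⟨2, 2, 1, 0, 2, 2, 1, 1, 2, 2⟩ :=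
  leaf_sound (S := T4.ds_pp) T4.ok_pp (w := 160) (c := ⟨⟨.negSucc 770, .negSucc 476, .negSucc 5, .ofNat 0, .ofNat 0, .ofNat 0⟩, ⟨.ofNat 18, .negSucc 198, .negSucc 420, .ofNat 0, .ofNat 0, .ofNat 0⟩, ⟨.ofNat 235, .ofNat 290, .negSucc 96, .ofNat 0, .ofNat 0, .ofNat 0⟩, ⟨.negSucc 1763, .negSucc 436, .ofNat 75, .ofNat 0, .ofNat 0, .ofNat 0⟩, ⟨.negSucc 133, .ofNat 194, .negSucc 17, .ofNat 0, .ofNat 0, .ofNat 0⟩, .ofNat 170, .negSucc 9, .ofNat 0, .negSucc 9, .ofNat 247, .ofNat 0, .ofNat 1124, .ofNat 64, .negSucc 1266, .ofNat 0, .ofNat 804, .ofNat 130, .ofNat 0, .ofNat 0, .ofNat 1985, .ofNat 34690, .ofNat 0, .ofNat 0, .ofNat 0, .ofNat 0, .ofNat 0, .ofNat 2133456881296185346408109309952000, .ofNat 571156332540331663493274009600, .ofNat 0, .ofNat 0, .ofNat 957535473682664725756676721868800, .ofNat 495994158477104324926242816000, .ofNat 0, .ofNat 0, .ofNat 2875617135362525430091484233728000,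 .ofNat 570815886584350060465618944000, .ofNat 0⟩)
    (by decide +kernel)
theorem L02201 : Good (Phi V4.P V4.D 1 1) ⟨2, 2, 1, 1, 2, 2, 0, 0, 2, 2⟩ :=
  out_sound (S := T4.ds_pp) T4.ok_pp (w := 40) (j := 3) (by decide +kernel)
theorem L02202 : Good (Phi V4.P V4.D 1 1) ⟨2, 2, 0, 0, 2, 3, 0, 0, 2, 2⟩ :=
  out_sound (S := T4.ds_pp) T4.ok_pp (w := 24) (j := 2) (by decide +kernel)
theorem L02203 : Good (Phi V4.P V4.D 1 1) ⟨2, 2, 0, 0, 1, 1, 0, 0, 2, 3⟩ :=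
  out_sound (S := T4.ds_pp) T4.ok_pp (w := 24) (j := 2) (by decide +kernel)
theorem L02204 : Good (Phi V4.P V4.D 1 1) ⟨4, 12, 2, 0, 1, 0, 1, 0, 3, 4⟩ :=
  leaf_sound (S := T4.ds_pp) T4.ok_pp (w := 160) (c := ⟨⟨.negSucc 633, .negSucc 75, .negSucc 43, .negSucc 402, .negSucc 138, .ofNat 118⟩, ⟨.negSucc 94, .negSucc 82, .negSucc 119, .negSucc 131, .negSucc 43, .ofNat 37⟩, ⟨.ofNat 326, .ofNat 93, .negSucc 17, .negSucc 81, .ofNat 202, .negSucc 128⟩, ⟨.negSucc 1044, .ofNat 29, .negSucc 117, .negSucc 679, .negSucc 246, .ofNat 209⟩, ⟨.negSucc 176, .negSucc 104, .ofNat 138, .ofNat 5, .ofNat 52, .negSucc 34⟩, .ofNat 476, .negSucc 394, .ofNat 0, .negSucc 394, .ofNat 1443, .ofNat 0, .ofNat 322, .ofNat 227, .negSucc 291, .ofNat 0, .ofNat 203, .negSucc 78, .ofNat 0, .ofNat 0, .ofNat 775, .ofNat 4126, .ofNat 0, .ofNat 0, .ofNat 0, .ofNat 0, .ofNat 167952259593855927507786242457600, .ofNat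 0, .ofNat 622932214987571626141286400, .ofNat 0, .ofNat 527207436762944927385687529881600, .ofNat 0, .ofNat 772837373625406055409254400, .ofNat 0, .ofNat 1311467225223086697373725464985600, .ofNat 0, .ofNat 0, .ofNat 0⟩)
    (by decide +kernel)
theorem L02205 : Good (Phi V4.P V4.D 1 1) ⟨4, 12, 3, 0, 1, 0, 1, 1, 3, 4⟩ :=
  out_sound (S := T4.ds_pp) T4.ok_pp (w := 56) (j := 3) (by decide +kernel)
theorem L02206 : Good (Phi V4.P V4.D 1 1) ⟨4, 12, 3, 1, 1, 0, 2, 2, 3, 4⟩ :=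
  leaf_sound (S := T4.ds_pp) T4.ok_pp (w := 168) (c := ⟨⟨.negSucc 676, .negSucc 132, .ofNat 8, .negSucc 631, .negSucc 39, .ofNat 67⟩, ⟨.negSucc 160, .negSucc 84, .negSucc 59, .negSucc 199, .negSucc 9, .ofNat 22⟩, ⟨.ofNat 349, .ofNat 115, .negSucc 19, .ofNat 240, .ofNat 51, .negSucc 50⟩, ⟨.negSucc 1144, .negSucc 117, .ofNat 12, .negSucc 1064, .negSucc 77, .ofNat 110⟩, ⟨.negSucc 75, .ofNat 17, .ofNat 7, .ofNat 8, .ofNat 35, .ofNat 4⟩, .ofNat 473, .negSucc 385, .ofNat 0, .negSucc 385, .ofNat 1430, .ofNat 0, .ofNat 336, .ofNat 233, .negSucc 377, .ofNat 0, .ofNat 211, .negSucc 106, .ofNat 0, .ofNat 0, .ofNat 788, .ofNat 4751, .ofNat 0, .ofNat 0, .ofNat 0, .ofNat 0, .ofNat 0, .ofNat 1208527455802858181594124071731200, .ofNat 1865144081590059914389094400, .ofNat 0, .ofNat 0, .ofNat 735965066352219668509485957120000, .ofNat 0, .ofNat 0, .ofNat 0, .ofNat 699689389473184757792933884723200,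 .ofNat 0, .ofNat 0⟩)
    (by decide +kernel)
theorem L02207 : Good (Phi V4.P V4.D 1 1) ⟨5, 24, 3, 1, 1, 0, 3, 6, 3, 4⟩ :=
  leaf_sound (S := T4.ds_pp) T4.ok_pp (w := 176) (c := ⟨⟨.negSucc 565, .negSucc 99, .ofNat 50, .negSucc 1041, .negSucc 14, .ofNat 30⟩, ⟨.negSucc 125, .negSucc 52, .negSucc 44, .negSucc 324, .ofNat 0, .ofNat 7⟩, ⟨.ofNat 200, .ofNat 101, .negSucc 56, .ofNat 737, .ofNat 33, .ofNat 9⟩, ⟨.negSucc 974, .negSucc 109, .ofNat 86, .negSucc 1749, .negSucc 28, .ofNat 53⟩, ⟨.negSucc 13, .negSucc 6, .negSucc 2, .negSucc 30, .ofNat 2, .negSucc 5⟩, .ofNat 638, .negSucc 759, .ofNat 0, .negSucc 759, .ofNat 2533, .ofNat 0, .ofNat 326, .ofNat 286, .negSucc 531, .ofNat 0, .ofNat 204, .negSucc 164, .ofNat 0, .ofNat 0, .ofNat 864, .ofNat 2574, .ofNat 0, .ofNat 0, .ofNat 0, .ofNat 0, .ofNat 0, .ofNat 56626414436139938348500204388352000, .ofNat 17285058430391320545381580800,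 .ofNat 0, .ofNat 0, .ofNat 27697007813392540976745541533696000, .ofNat 0, .ofNat 0, .ofNat 0, .ofNat 0, .ofNat 0, .ofNat 0⟩)
    (by decide +kernel)
theorem L02208 : Good (Phi V4.P V4.D 1 1) ⟨5, 24, 4, 2, 1, 0, 3, 7, 3, 4⟩ :=
  leaf_sound (S := T4.ds_pp) T4.ok_pp (w := 176) (c := ⟨⟨.negSucc 414, .negSucc 122, .ofNat 24, .negSucc 1598, .ofNat 245, .negSucc 12⟩, ⟨.negSucc 93, .negSucc 50, .negSucc 20, .negSucc 451, .ofNat 72, .negSucc 5⟩, ⟨.ofNat 48, .ofNat 133, .negSucc 26, .ofNat 1356, .negSucc 232, .ofNat 53⟩, ⟨.negSucc 712, .negSucc 160, .ofNat 42, .negSucc 2706, .ofNat 412, .negSucc 19⟩, ⟨.negSucc 10, .negSucc 15, .negSucc 1, .negSucc 55, .ofNat 12, .negSucc 0⟩, .ofNat 577, .negSucc 605, .ofNat 0, .negSucc 605, .ofNat 2256, .ofNat 0, .ofNat 367, .ofNat 267, .negSucc 713, .ofNat 0, .ofNat 215, .negSucc 200, .ofNat 0, .ofNat 0, .ofNat 990, .ofNat 1797, .ofNat 0, .ofNat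 2597317025413859050334516674560000, .ofNat 0, .ofNat 0, .ofNat 0, .ofNat 463155830604932769919736996482252800, .ofNat 0, .ofNat 0, .ofNat 0, .ofNat 353053808348906032501322021024563200, .ofNat 0, .ofNat 0, .ofNat 0, .ofNat 715772778558020253991560035067494400, .ofNat 0, .ofNat 0⟩)
    (by decide +kernel)
theorem L02209 : Good (Phi V4.P V4.D 1 1) ⟨5, 24, 4, 3, 1, 0, 3, 7, 3, 4⟩ :=
  leaf_sound (S := T4.ds_pp) T4.ok_pp (w := 176) (c := ⟨⟨.negSucc 309, .negSucc 216, .ofNat 33, .negSucc 1817, .ofNat 193, .negSucc 40⟩, ⟨.negSucc 73, .negSucc 90, .negSucc 14, .negSucc 581, .ofNat 61, .negSucc 12⟩, ⟨.negSucc 56, .ofNat 218, .negSucc 34, .ofNat 1575, .negSucc 178, .ofNat 84⟩, ⟨.negSucc 542, .negSucc 319, .ofNat 59, .negSucc 3041, .ofNat 326, .negSucc 70⟩, ⟨.negSucc 11, .negSucc 2, .negSucc 0, .negSucc 69, .ofNat 11, .negSucc 0⟩, .ofNat 752, .negSucc 1049, .ofNat 0, .negSucc 1049,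 .ofNat 3368, .ofNat 0, .ofNat 332, .ofNat 316, .negSucc 744, .ofNat 0, .ofNat 210, .negSucc 236, .ofNat 0, .ofNat 0, .ofNat 1015, .ofNat 1832, .ofNat 0, .ofNat 2517037900881719402459854326988800, .ofNat 0, .ofNat 0, .ofNat 0, .ofNat 382222087532016943249535570804736000, .ofNat 0, .ofNat 0, .ofNat 0, .ofNat 357827023696750207288220292061593600, .ofNat 0, .ofNat 0, .ofNat 0, .ofNat 525878087655178137522928466106777600, .ofNat 0, .ofNat 0⟩)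
    (by decide +kernel)
theorem L02210 : Good (Phi V4.P V4.D 1 1) ⟨6, 50, 3, 1, 1, 0, 3, 6, 3, 4⟩ :=
  leaf_sound (S := T4.ds_pp) T4.ok_pp (w := 176) (c := ⟨⟨.negSucc 222, .negSucc 161, .negSucc 412, .negSucc 1087, .negSucc 6, .ofNat 53⟩, ⟨.negSucc 52, .negSucc 74, .negSucc 166, .negSucc 376, .negSucc 1, .ofNat 18⟩, ⟨.negSucc 179, .ofNat 169, .ofNat 451, .ofNat 760, .ofNat 22, .negSucc 14⟩, ⟨.negSucc 361, .negSucc 235, .negSucc 680, .negSucc 1791, .negSucc 12, .ofNat 89⟩, ⟨.negSucc 27, .negSucc 26, .ofNat 6, .negSucc 18, .ofNat 2, .negSucc 4⟩, .ofNat 833, .negSucc 1191, .ofNat 0, .negSucc 1191, .ofNat 3460, .ofNat 0, .ofNat 307, .ofNat 306, .negSucc 539, .ofNat 0, .ofNat 212, .negSucc 185, .ofNat 0, .ofNat 0, .ofNat 869, .ofNat 4059, .ofNat 0, .ofNat 0, .ofNat 0, .ofNat 0, .ofNat 0, .ofNat 1215805202478921446002388489365094400, .ofNat 54436319596622165015789568000, .ofNat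 0, .ofNat 0, .ofNat 148495324537266779538926114911027200, .ofNat 5476137534326406045184819200, .ofNat 0, .ofNat 0, .ofNat 699882895321574709082136283552153600, .ofNat 42184907131394780145333043200, .ofNat 0⟩)
    (by decide +kernel)
theorem L02211 : Good (Phi V4.P V4.D 1 1) ⟨6, 50, 3, 1, 2, 0, 3, 7, 3, 4⟩ :=
  leaf_sound (S := T4.ds_pp) T4.ok_pp (w := 184) (c := ⟨⟨.negSucc 158, .ofNat 313, .negSucc 285, .negSucc 960, .ofNat 212, .negSucc 35⟩, ⟨.negSucc 27, .ofNat 96, .negSucc 124, .negSucc 333, .ofNat 74, .negSucc 11⟩, ⟨.negSucc 208, .negSucc 373, .ofNat 288, .ofNat 832, .negSucc 198, .ofNat 77⟩, ⟨.negSucc 260, .ofNat 521, .negSucc 468, .negSucc 1575, .ofNat 347, .negSucc 59⟩, ⟨.negSucc 19, .ofNat 52, .ofNat 6, .negSucc 37, .ofNat 8, .ofNat 0⟩, .ofNat 811, .negSucc 1137, .ofNat 0, .negSucc 1137, .ofNat 3320, .ofNat 0, .ofNat 325, .ofNat 323, .negSucc 758, .ofNat 0, .ofNat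 224, .negSucc 262, .ofNat 0, .ofNat 0, .ofNat 1024, .ofNat 2671, .ofNat 0, .ofNat 0, .ofNat 0, .ofNat 0, .ofNat 0, .ofNat 151684381405554600831449556972050841600, .ofNat 56291948616587400972226422374400, .ofNat 0, .ofNat 0, .ofNat 0, .ofNat 29027053414968004054831280947200, .ofNat 0, .ofNat 0, .ofNat 346386171374701112057647849382766182400, .ofNat 11697929139821313804357913804800, .ofNat 0⟩)
    (by decide +kernel)
theorem L02212 : Good (Phi V4.P V4.D 1 1) ⟨6, 50, 3, 1, 2, 1, 3, 7, 3, 4⟩ :=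
  leaf_sound (S := T4.ds_pp) T4.ok_pp (w := 192) (c := ⟨⟨.negSucc 1269, .negSucc 85, .negSucc 1, .negSucc 748, .negSucc 249, .negSucc 23⟩, ⟨.negSucc 400, .negSucc 52, .negSucc 39, .negSucc 252, .negSucc 85, .negSucc 6⟩, ⟨.ofNat 762, .ofNat 78, .negSucc 1, .ofNat 543, .ofNat 265, .ofNat 65⟩, ⟨.negSucc 2092, .negSucc 109, .ofNat 3, .negSucc 1262, .negSucc 413, .negSucc 41⟩, ⟨.negSucc 34, .ofNat 0, .ofNat 0, .ofNat 73, .ofNat 7, .ofNat 9⟩, .ofNat 485, .negSucc 411, .ofNat 0, .negSucc 411, .ofNat 1392, .ofNat 0, .ofNat 3089, .ofNat 2369, .negSucc 5862, .ofNat 0, .ofNat 2063, .negSucc 1916, .ofNat 0, .ofNat 0, .ofNat 8069, .ofNat 89552, .ofNat 0, .ofNat 475017770656373458571613507751929446400, .ofNat 0, .ofNat 0, .ofNat 0, .ofNat 75324205921932617981152024304835939532800, .ofNat 3408217281571813013040428954419200, .ofNat 0, .ofNat 0, .ofNat 104322229867626913230093038186188819660800,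 .ofNat 525134223978531740001189966643200, .ofNat 0, .ofNat 0, .ofNat 131716830065553336037559317289925554995200, .ofNat 0, .ofNat 0⟩)
    (by decide +kernel)
theorem L02213 : Good (Phi V4.P V4.D 1 1) ⟨6, 51, 3, 1, 1, 0, 2, 3, 3, 4⟩ :=
  out_sound (S := T4.ds_pp) T4.ok_pp (w := 64) (j := 3) (by decide +kernel)
theorem L02214 : Good (Phi V4.P V4.D 1 1) ⟨4, 12, 2, 0, 1, 1, 1, 0, 3, 4⟩ :=
  leaf_sound (S := T4.ds_pp) T4.ok_pp (w := 160) (c := ⟨⟨.negSucc 1039, .negSucc 127, .ofNat 33, .negSucc 449, .negSucc 246, .ofNat 164⟩, ⟨.negSucc 167, .negSucc 92, .negSucc 158, .negSucc 104, .negSucc 73, .ofNat 50⟩, ⟨.ofNat 166, .ofNat 48, .negSucc 66, .negSucc 166, .ofNat 388, .negSucc 207⟩, ⟨.negSucc 1769, .negSucc 89, .ofNat 57, .negSucc 935, .negSucc 449, .ofNat 291⟩, ⟨.negSucc 40, .ofNat 49, .negSucc 16, .ofNat 559, .ofNat 106, .negSucc 44⟩, .ofNat 479, .negSucc 403, .ofNat 0, .negSucc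 403, .ofNat 1475, .ofNat 0, .ofNat 680, .ofNat 488, .negSucc 473, .ofNat 0, .ofNat 422, .negSucc 102, .ofNat 0, .ofNat 0, .ofNat 1611, .ofNat 9581, .ofNat 0, .ofNat 0, .ofNat 0, .ofNat 0, .ofNat 0, .ofNat 1148089430708920029819144713011200, .ofNat 943056120666206778163200000, .ofNat 0, .ofNat 4184999721628108178155352830771200, .ofNat 1906840197468180168413487405465600, .ofNat 2296535194959917520361881600, .ofNat 0, .ofNat 4456359530890572316454716597862400, .ofNat 1185624791537479326169873514496000, .ofNat 399666152852091094066790400, .ofNat 0⟩)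
    (by decide +kernel)
theorem L02215 : Good (Phi V4.P V4.D 1 1) ⟨4, 12, 2, 0, 1, 1, 1, 1, 3, 4⟩ :=
  leaf_sound (S := T4.ds_pp) T4.ok_pp (w := 176) (c := ⟨⟨.negSucc 1293, .negSucc 159, .ofNat 41, .ofNat 0, .ofNat 0, .ofNat 0⟩, ⟨.negSucc 224, .negSucc 104, .negSucc 175, .ofNat 0, .ofNat 0, .ofNat 0⟩, ⟨.ofNat 555, .ofNat 98, .negSucc 78, .ofNat 0, .ofNat 0, .ofNat 0⟩, ⟨.negSucc 2230, .negSucc 133, .ofNat 66, .ofNat 0, .ofNat 0, .ofNat 0⟩, ⟨.ofNat 65, .ofNat 52, .negSucc 14, .ofNat 0, .ofNat 0, .ofNat 0⟩, .ofNat 315, .negSucc 137, .ofNat 0, .negSucc 137, .ofNat 662, .ofNat 0, .ofNat 13826, .ofNat 6201, .negSucc 11611, .ofNat 0, .ofNat 8951, .negSucc 1816, .ofNat 0, .ofNat 0, .ofNat 26775, .ofNat 3830264, .ofNat 0, .ofNat 0, .ofNat 0, .ofNat 0, .ofNat 0, .ofNat 114209408232928638058286292973859635200, .ofNat 1370685253168039965163624857600, .ofNat 0, .ofNat 0, .ofNat 48605833496584995202610617324142592000,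 .ofNat 1337380817697566956750425292800, .ofNat 0, .ofNat 0, .ofNat 90370272793590319790755151996151398400, .ofNat 0, .ofNat 0⟩)
    (by decide +kernel)
theorem L02216 : Good (Phi V4.P V4.D 1 1) ⟨4, 12, 2, 0, 1, 0, 1, 0, 3, 5⟩ :=
  leaf_sound (S := T4.ds_pp) T4.ok_pp (w := 160) (c := ⟨⟨.negSucc 457, .negSucc 118, .ofNat 9, .negSucc 479, .negSucc 192, .ofNat 62⟩, ⟨.negSucc 29, .negSucc 89, .negSucc 125, .negSucc 140, .negSucc 59, .ofNat 17⟩, ⟨.ofNat 17, .ofNat 82, .negSucc 33, .negSucc 4, .ofNat 378, .negSucc 55⟩, ⟨.negSucc 757, .negSucc 89, .ofNat 30, .negSucc 853, .negSucc 327, .ofNat 98⟩, ⟨.negSucc 161, .ofNat 29, .negSucc 12, .ofNat 145, .ofNat 8, .ofNat 21⟩, .ofNat 477, .negSucc 396, .ofNat 0, .negSucc 396, .ofNat 1456, .ofNat 0, .ofNat 302, .ofNat 214, .negSucc 261, .ofNat 0, .ofNat 190, .negSucc 69, .ofNat 0, .ofNat 0, .ofNat 721, .ofNat 26547, .ofNat 0, .ofNat 0,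 .ofNat 0, .ofNat 0, .ofNat 2067251821875639776147533096550400, .ofNat 0, .ofNat 571374154108153054258790400, .ofNat 0, .ofNat 1532843294986455879093941226700800, .ofNat 481311724236525134335180800, .ofNat 904063607088145909206220800, .ofNat 0, .ofNat 3757867513169390807839146403430400, .ofNat 0, .ofNat 0, .ofNat 0⟩)
    (by decide +kernel)
theorem L02217 : Good (Phi V4.P V4.D 1 1) ⟨4, 12, 2, 0, 1, 1, 1, 0, 3, 5⟩ :=
  out_sound (S := T4.ds_pp) T4.ok_pp (w := 24) (j := 2) (by decide +kernel)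
theorem L02218 : Good (Phi V4.P V4.D 1 1) ⟨4, 12, 2, 0, 2, 0, 2, 2, 3, 5⟩ :=
  leaf_sound (S := T4.ds_pp) T4.ok_pp (w := 176) (c := ⟨⟨.negSucc 569, .negSucc 106, .negSucc 14, .negSucc 348, .negSucc 32, .ofNat 47⟩, ⟨.negSucc 78, .negSucc 73, .negSucc 111, .negSucc 113, .negSucc 7, .ofNat 16⟩, ⟨.ofNat 225, .ofNat 92, .ofNat 5, .ofNat 194, .ofNat 63, .negSucc 21⟩, ⟨.negSucc 980, .negSucc 92, .negSucc 9, .negSucc 570, .negSucc 64, .ofNat 77⟩, ⟨.negSucc 42, .ofNat 17, .negSucc 3, .negSucc 47, .ofNat 25, .ofNat 3⟩, .ofNat 645, .negSucc 774, .ofNat 0, .negSucc 774, .ofNat 2555, .ofNat 0, .ofNat 273, .ofNat 242, .negSucc 350, .ofNat 0, .ofNat 173, .negSucc 109, .ofNat 0, .ofNat 0, .ofNat 718, .ofNat 6587, .ofNat 6039160522924994290131128863948800, .ofNat 0, .ofNat 0, .ofNat 0, .ofNat 0, .ofNat 0, .ofNat 3556060187869483578626251161600, .ofNat 0, .ofNat 304479071322848528644284190241587200,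 .ofNat 0, .ofNat 4446829425495976721335399219200, .ofNat 0, .ofNat 0, .ofNat 0, .ofNat 0, .ofNat 0⟩)
    (by decide +kernel)
theorem L02219 : Good (Phi V4.P V4.D 1 1) ⟨4, 12, 2, 0, 2, 1, 2, 2, 3, 5⟩ :=
  leaf_sound (S := T4.ds_pp) T4.ok_pp (w := 176) (c := ⟨⟨.negSucc 855, .negSucc 150, .ofNat 10, .negSucc 301, .negSucc 166, .ofNat 64⟩, ⟨.negSucc 145, .negSucc 99, .negSucc 129, .negSucc 90, .negSucc 50, .ofNat 21⟩, ⟨.ofNat 346, .ofNat 123, .negSucc 27, .ofNat 70, .ofNat 224, .negSucc 38⟩, ⟨.negSucc 1447, .negSucc 139, .ofNat 24, .negSucc 540, .negSucc 296, .ofNat 105⟩, ⟨.negSucc 98, .ofNat 24, .negSucc 0, .ofNat 103, .ofNat 50, .ofNat 9⟩, .ofNat 647, .negSucc 781, .ofNat 0, .negSucc 781, .ofNat 2585, .ofNat 0, .ofNat 275, .ofNat 247, .negSucc 298, .ofNat 0, .ofNat 173, .negSucc 90, .ofNat 0, .ofNat 0, .ofNat 706, .ofNat 3498, .ofNat 0, .ofNat 0, .ofNat 0, .ofNat 0, .ofNat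 0, .ofNat 26506173982530620905083375294873600, .ofNat 3370086673505534853773682278400, .ofNat 0, .ofNat 194407834704982044163663632688742400, .ofNat 12385681101611038343316505205145600, .ofNat 3456588520981493722474610688000, .ofNat 0, .ofNat 0, .ofNat 0, .ofNat 0, .ofNat 0⟩)
    (by decide +kernel)
theorem L02220 : Good (Phi V4.P V4.D 1 1) ⟨4, 12, 2, 0, 1, 1, 2, 2, 3, 5⟩ :=
  out_sound (S := T4.ds_pp) T4.ok_pp (w := 32) (j := 2) (by decide +kernel)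
theorem L02221 : Good (Phi V4.P V4.D 1 1) ⟨4, 12, 3, 0, 1, 0, 3, 6, 3, 5⟩ :=
  out_sound (S := T4.ds_pp) T4.ok_pp (w := 56) (j := 3) (by decide +kernel)
theorem L02222 : Good (Phi V4.P V4.D 1 1) ⟨4, 12, 3, 1, 1, 0, 3, 6, 3, 5⟩ :=
  leaf_sound (S := T4.ds_pp) T4.ok_pp (w := 168) (c := ⟨⟨.negSucc 529, .negSucc 138, .ofNat 0, .negSucc 1052, .negSucc 10, .ofNat 50⟩, ⟨.negSucc 118, .negSucc 84, .negSucc 52, .negSucc 332, .negSucc 1, .ofNat 14⟩, ⟨.ofNat 195, .ofNat 140, .negSucc 6, .ofNat 783, .ofNat 27, .negSucc 20⟩, ⟨.negSucc 910, .negSucc 132, .ofNat 0, .negSucc 1756, .negSucc 20, .ofNat 87⟩, ⟨.negSucc 19, .negSucc 14, .ofNat 8, .negSucc 63, .ofNat 8, .negSucc 1⟩, .ofNat 722, .negSucc 971, .ofNat 0, .negSucc 971, .ofNat 3177, .ofNat 0, .ofNat 286, .ofNat 258, .negSucc 443, .ofNat 0, .ofNat 178, .negSucc 137, .ofNat 0, .ofNat 0, .ofNat 767, .ofNat 2911, .ofNat 0, .ofNat 0,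 .ofNat 0, .ofNat 0, .ofNat 0, .ofNat 2285043782064994319048580582604800, .ofNat 75218471037780468576760627200, .ofNat 0, .ofNat 0, .ofNat 1734754748264652552174743165337600, .ofNat 112022633109251194958433484800, .ofNat 0, .ofNat 0, .ofNat 3033246352105551759674117927731200, .ofNat 0, .ofNat 0⟩)
    (by decide +kernel)
theorem L02223 : Good (Phi V4.P V4.D 1 1) ⟨4, 12, 2, 0, 1, 1, 3, 6, 3, 5⟩ :=
  out_sound (S := T4.ds_pp) T4.ok_pp (w := 32) (j := 2) (by decide +kernel)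
theorem L02224 : Good (Phi V4.P V4.D 1 1) ⟨4, 12, 3, 0, 1, 0, 3, 7, 3, 5⟩ :=
  out_sound (S := T4.ds_pp) T4.ok_pp (w := 56) (j := 3) (by decide +kernel)
theorem L02225 : Good (Phi V4.P V4.D 1 1) ⟨4, 12, 3, 1, 3, 0, 3, 7, 3, 5⟩ :=
  leaf_sound (S := T4.ds_pp) T4.ok_pp (w := 184) (c := ⟨⟨.negSucc 334, .negSucc 165, .negSucc 20, .negSucc 539, .ofNat 207, .negSucc 4⟩, ⟨.negSucc 71, .negSucc 86, .negSucc 43, .negSucc 169, .ofNat 65, .ofNat 2⟩, ⟨.negSucc 0, .ofNat 165, .ofNat 20, .ofNat 497, .negSucc 190, .ofNat 36⟩, ⟨.negSucc 577, .negSucc 203, .negSucc 33, .negSucc 899, .ofNat 345, .negSucc 9⟩, ⟨.negSucc 5, .negSucc 2, .ofNat 1, .negSucc 33, .ofNat 10, .ofNat 0⟩, .ofNat 630, .negSucc 737, .ofNat 0, .negSucc 737, .ofNat 2486, .ofNat 0, .ofNat 312, .ofNat 265, .negSucc 655, .ofNat 0, .ofNat 194, .negSucc 202, .ofNat 0, .ofNat 0, .ofNat 910, .ofNat 2207, .ofNat 0, .ofNat 0, .ofNat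 0, .ofNat 0, .ofNat 0, .ofNat 60448065894068859629742456327005798400, .ofNat 25072537470696618655192881876172800, .ofNat 0, .ofNat 0, .ofNat 63389532269506285774274565559969382400, .ofNat 28334444953062576068520350161305600, .ofNat 0, .ofNat 0, .ofNat 163589295139953487493127557419420876800, .ofNat 11640052450323566740091180364595200, .ofNat 0⟩)
    (by decide +kernel)

end Crest.Agent.R097C4.N4pp
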