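import Crest.Agent.R097.T4

/-!
# Row 97, box cover in dimension n = 4 (generated)
-/

set_option autoImplicit false
set_option Elab.async false
set_option maxHeartbeats 0
set_option maxRecDepth 100000

open Crest.Agent.R097 Crest.Agent.R097.KA


namespace Crest.Agent.R097C4.N4pp

theorem L02226 : Good (Phi V4.P V4.D 1 1) ⟨4, 12, 3, 1, 3, 1, 3, 7, 3, 5⟩ :=
  leaf_sound (S := T4.ds_pp) T4.ok_pp (w := 192) (c := ⟨⟨.negSucc 749, .negSucc 267, .ofNat 11, .negSucc 421, .negSucc 132, .negSucc 21⟩, ⟨.negSucc 178, .negSucc 136, .negSucc 57, .negSucc 135, .negSucc 40, .negSucc 7⟩, ⟨.ofNat 371, .ofNat 261, .negSucc 15, .ofNat 350, .ofNat 154, .ofNat 57⟩, ⟨.negSucc 1281, .negSucc 328, .ofNat 20, .negSucc 708, .negSucc 226, .negSucc 36⟩, ⟨.negSucc 38, .negSucc 5, .ofNat 2, .ofNat 2, .ofNat 10, .ofNat 0⟩, .ofNat 478, .negSucc 400, .ofNat 0, .negSucc 400, .ofNat 1457, .ofNat 0, .ofNat 674, .ofNat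 483, .negSucc 1227, .ofNat 0, .ofNat 427, .negSucc 374, .ofNat 0, .ofNat 0, .ofNat 1758, .ofNat 7644, .ofNat 0, .ofNat 0, .ofNat 0, .ofNat 0, .ofNat 0, .ofNat 666584599174393447059753095487553536000, .ofNat 0, .ofNat 0, .ofNat 0, .ofNat 525327820136518581037071174533854003200, .ofNat 0, .ofNat 0, .ofNat 0, .ofNat 1141695984428808830380492470260387020800, .ofNat 0, .ofNat 0⟩)
    (by decide +kernel)
theorem L02227 : Good (Phi V4.P V4.D 1 1) ⟨4, 12, 3, 1, 2, 1, 3, 7, 3, 5⟩ :=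
  out_sound (S := T4.ds_pp) T4.ok_pp (w := 32) (j := 2) (by decide +kernel)
theorem L02228 : Good (Phi V4.P V4.D 1 1) ⟨4, 12, 2, 0, 1, 1, 3, 7, 3, 5⟩ :=
  out_sound (S := T4.ds_pp) T4.ok_pp (w := 32) (j := 2) (by decide +kernel)
theorem L02229 : Good (Phi V4.P V4.D 1 1) ⟨4, 13, 2, 0, 0, 0, 0, 0, 2, 2⟩ :=
  out_sound (S := T4.ds_pp) T4.ok_pp (w := 56) (j := 3) (by decide +kernel)
theorem L02230 : Good (Phi V4.P V4.D 1 1) ⟨4, 12, 2, 1, 1, 0, 1, 0, 2, 2⟩ :=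
  leaf_sound (S := T4.ds_pp) T4.ok_pp (w := 160) (c := ⟨⟨.negSucc 672, .negSucc 135, .ofNat 4, .negSucc 398, .negSucc 109, .ofNat 209⟩, ⟨.negSucc 194, .negSucc 101, .negSucc 124, .negSucc 153, .negSucc 47, .ofNat 82⟩, ⟨.ofNat 346, .ofNat 123, .negSucc 65, .negSucc 104, .ofNat 157, .negSucc 214⟩, ⟨.negSucc 1147, .negSucc 112, .negSucc 1, .negSucc 651, .negSucc 187, .ofNat 357⟩, ⟨.negSucc 85, .ofNat 20, .ofNat 51, .negSucc 7, .ofNat 30, .negSucc 36⟩, .ofNat 527, .negSucc 511, .ofNat 0, .negSucc 511, .ofNat 1596, .ofNat 0, .ofNat 293, .ofNat 262, .negSucc 297, .ofNat 0, .ofNat 204, .negSucc 97, .ofNat 0, .ofNat 0, .ofNat 772, .ofNat 6081, .ofNat 1985270923288953755480044339200, .ofNat 0, .ofNat 0, .ofNat 0, .ofNat 125753315993358800456914462310400, .ofNat 0, .ofNat 0, .ofNat 0, .ofNat 0, .ofNat 0, .ofNat 0, .ofNat 0, .ofNat 460997974398358135201355897241600, .ofNat 0, .ofNat 6104398079377940406681600,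 .ofNat 0⟩)
    (by decide +kernel)
theorem L02231 : Good (Phi V4.P V4.D 1 1) ⟨4, 12, 2, 1, 1, 1, 1, 0, 2, 2⟩ :=
  leaf_sound (S := T4.ds_pp) T4.ok_pp (w := 160) (c := ⟨⟨.negSucc 999, .negSucc 125, .ofNat 33, .negSucc 459, .negSucc 254, .ofNat 307⟩, ⟨.negSucc 314, .negSucc 95, .negSucc 165, .negSucc 138, .negSucc 90, .ofNat 118⟩, ⟨.ofNat 84, .ofNat 53, .negSucc 75, .negSucc 137, .ofNat 413, .negSucc 414⟩, ⟨.negSucc 1702, .negSucc 82, .ofNat 54, .negSucc 982, .negSucc 461, .ofNat 536⟩, ⟨.negSucc 62, .ofNat 47, .negSucc 12, .ofNat 599, .ofNat 113, .negSucc 82⟩, .ofNat 525, .negSucc 509, .ofNat 0, .negSucc 509, .ofNat 1602, .ofNat 0, .ofNat 317, .ofNat 283, .negSucc 240, .ofNat 0, .ofNat 218, .negSucc 64, .ofNat 0, .ofNat 0, .ofNat 819, .ofNat 5218, .ofNat 4273685025007605290322886656000, .ofNat 0, .ofNat 0, .ofNat 0, .ofNat 0, .ofNat 94358088648970932797683059916800, .ofNat 17935105749943945420800000,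 .ofNat 0, .ofNat 0, .ofNat 91374162119613229452916005273600, .ofNat 27943144040284373149286400, .ofNat 0, .ofNat 262833543112399237656104612659200, .ofNat 76364235294888783798194090803200, .ofNat 6254155808326144394035200, .ofNat 0⟩)
    (by decide +kernel)
theorem L02232 : Good (Phi V4.P V4.D 1 1) ⟨4, 13, 3, 2, 1, 0, 1, 0, 2, 2⟩ :=
  leaf_sound (S := T4.ds_pp) T4.ok_pp (w := 160) (c := ⟨⟨.negSucc 664, .negSucc 60, .negSucc 72, .negSucc 408, .negSucc 186, .ofNat 247⟩, ⟨.negSucc 230, .negSucc 71, .negSucc 94, .negSucc 175, .negSucc 79, .ofNat 104⟩, ⟨.ofNat 204, .ofNat 166, .ofNat 168, .negSucc 142, .ofNat 266, .negSucc 258⟩, ⟨.negSucc 1048, .ofNat 52, .negSucc 91, .negSucc 659, .negSucc 321, .ofNat 424⟩, ⟨.negSucc 61, .negSucc 171, .negSucc 23, .ofNat 19, .ofNat 56, .negSucc 69⟩, .ofNat 1383, .negSucc 2244, .ofNat 0, .negSucc 2244, .ofNat 5166, .ofNat 0, .ofNat 212, .ofNat 332, .negSucc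 293, .ofNat 0, .ofNat 203, .negSucc 124, .ofNat 0, .ofNat 0, .ofNat 774, .ofNat 4077, .ofNat 2037897879349053219043855564800, .ofNat 0, .ofNat 3447660053480095859097600, .ofNat 0, .ofNat 323863680282397961711320144281600, .ofNat 1467732010088257316412456960000, .ofNat 1068769673722942608900096000, .ofNat 0, .ofNat 970312590134587668895605404467200, .ofNat 34716125270201459479328430489600, .ofNat 601823352436565789638656000, .ofNat 0, .ofNat 1001051613069920388461789341286400, .ofNat 0, .ofNat 0, .ofNat 0⟩)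
    (by decide +kernel)
theorem L02233 : Good (Phi V4.P V4.D 1 1) ⟨4, 13, 3, 2, 1, 1, 1, 0, 2, 2⟩ :=
  leaf_sound (S := T4.ds_pp) T4.ok_pp (w := 160) (c := ⟨⟨.negSucc 1090, .negSucc 75, .ofNat 4, .negSucc 441, .negSucc 296, .ofNat 342⟩, ⟨.negSucc 396, .negSucc 75, .negSucc 78, .negSucc 163, .negSucc 122, .ofNat 145⟩, ⟨.ofNat 107, .ofNat 39, .negSucc 42, .negSucc 185, .ofNat 466, .negSucc 435⟩, ⟨.negSucc 1740, .negSucc 36, .ofNat 19, .negSucc 972, .negSucc 524, .ofNat 585⟩, ⟨.negSucc 23, .ofNat 25, .negSucc 0, .ofNat 614, .ofNat 118, .negSucc 96⟩, .ofNat 570, .negSucc 579, .ofNat 0, .negSucc 579, .ofNat 1547, .ofNat 0, .ofNat 592, .ofNat 623, .negSucc 488, .ofNat 0, .ofNat 476, .negSucc 160, .ofNat 0, .ofNat 0, .ofNat 1660, .ofNat 16262, .ofNat 0, .ofNat 0, .ofNat 0, .ofNat 0, .ofNat 4037682951721913762822448218112000, .ofNat 1550710715703045351548096662732800, .ofNat 871153642499334282097459200,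 .ofNat 0, .ofNat 5419223560490699401361613442252800, .ofNat 2638000813482634726000924242739200, .ofNat 2402984646612221331662438400, .ofNat 0, .ofNat 5332724429657256717209323123507200, .ofNat 2144517007753959303186638438400000, .ofNat 0, .ofNat 0⟩)
    (by decide +kernel)
theorem L02234 : Good (Phi V4.P V4.D 1 1) ⟨4, 13, 3, 3, 1, 0, 1, 0, 2, 2⟩ :=
  leaf_sound (S := T4.ds_pp) T4.ok_pp (w := 160) (c := ⟨⟨.negSucc 776, .negSucc 77, .negSucc 20, .negSucc 387, .negSucc 145, .ofNat 224⟩, ⟨.negSucc 324, .negSucc 92, .negSucc 74, .negSucc 187, .negSucc 72, .ofNat 109⟩, ⟨.ofNat 396, .ofNat 20, .ofNat 20, .negSucc 194, .ofNat 252, .negSucc 229⟩, ⟨.negSucc 1252, .negSucc 2, .negSucc 34, .negSucc 608, .negSucc 203, .ofNat 360⟩, ⟨.ofNat 4, .ofNat 0, .ofNat 13, .ofNat 4, .negSucc 47, .negSucc 21⟩, .ofNat 1183, .negSucc 1741, .ofNat 0, .negSucc 1741, .ofNat 3794, .ofNat 0, .ofNat 193, .ofNat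 351, .negSucc 301, .ofNat 0, .ofNat 216, .negSucc 139, .ofNat 0, .ofNat 0, .ofNat 783, .ofNat 5328, .ofNat 3283679187663233063851760025600, .ofNat 0, .ofNat 55841310495363883104000, .ofNat 0, .ofNat 387930951305333102649780102758400, .ofNat 23447071637911745975723596185600, .ofNat 92199561262931168074137600, .ofNat 0, .ofNat 684137456356968315053802101145600, .ofNat 0, .ofNat 79062304721253358436352000, .ofNat 0, .ofNat 1621382205776300240810886247219200, .ofNat 0, .ofNat 0, .ofNat 0⟩)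
    (by decide +kernel)
theorem L02235 : Good (Phi V4.P V4.D 1 1) ⟨4, 13, 3, 3, 1, 1, 1, 0, 2, 2⟩ :=
  leaf_sound (S := T4.ds_pp) T4.ok_pp (w := 160) (c := ⟨⟨.negSucc 1071, .negSucc 122, .ofNat 14, .negSucc 409, .negSucc 316, .ofNat 355⟩, ⟨.negSucc 457, .negSucc 104, .negSucc 84, .negSucc 165, .negSucc 149, .ofNat 173⟩, ⟨.ofNat 51, .ofNat 46, .negSucc 34, .negSucc 213, .ofNat 492, .negSucc 455⟩, ⟨.negSucc 1699, .negSucc 82, .ofNat 28, .negSucc 933, .negSucc 554, .ofNat 600⟩, ⟨.negSucc 31, .ofNat 44, .negSucc 7, .ofNat 613, .ofNat 126, .negSucc 94⟩, .ofNat 345, .negSucc 219, .ofNat 0, .negSucc 219, .ofNat 676, .ofNat 0, .ofNat 369, .ofNat 267, .negSucc 299, .ofNat 0, .ofNat 290, .negSucc 74, .ofNat 0, .ofNat 0, .ofNat 868, .ofNat 3079, .ofNat 6346091783038255291077702451200, .ofNat 1379324145501288347125520793600, .ofNat 95092929567646304947200, .ofNat 0, .ofNat 0, .ofNat 310802482683167863745563066368000,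 .ofNat 0, .ofNat 0, .ofNat 0, .ofNat 347517644857469766628064781926400, .ofNat 0, .ofNat 0, .ofNat 808252443700010479225899948441600, .ofNat 224135005038744692491424052019200, .ofNat 5129350437908578406400000, .ofNat 0⟩)
    (by decide +kernel)
theorem L02236 : Good (Phi V4.P V4.D 1 1) ⟨5, 24, 4, 4, 1, 0, 2, 2, 3, 4⟩ :=
  leaf_sound (S := T4.ds_pp) T4.ok_pp (w := 176) (c := ⟨⟨.negSucc 677, .negSucc 77, .ofNat 20, .negSucc 589, .negSucc 46, .ofNat 58⟩, ⟨.negSucc 213, .negSucc 52, .negSucc 22, .negSucc 202, .negSucc 14, .ofNat 22⟩, ⟨.ofNat 342, .ofNat 74, .negSucc 30, .ofNat 177, .ofNat 70, .negSucc 40⟩, ⟨.negSucc 1150, .negSucc 66, .ofNat 30, .negSucc 992, .negSucc 85, .ofNat 90⟩, ⟨.negSucc 63, .negSucc 7, .ofNat 11, .ofNat 9, .ofNat 18, .ofNat 14⟩, .ofNat 766, .negSucc 1086, .ofNat 0, .negSucc 1086, .ofNat 3311, .ofNat 0, .ofNat 269, .ofNat 307, .negSucc 367, .ofNat 0, .ofNat 184,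 .negSucc 122, .ofNat 0, .ofNat 0, .ofNat 784, .ofNat 5273, .ofNat 0, .ofNat 0, .ofNat 0, .ofNat 0, .ofNat 0, .ofNat 72975345659947854100378768166092800, .ofNat 0, .ofNat 0, .ofNat 0, .ofNat 74050261018600747787473055750553600, .ofNat 0, .ofNat 0, .ofNat 0, .ofNat 0, .ofNat 0, .ofNat 0⟩)
    (by decide +kernel)
theorem L02237 : Good (Phi V4.P V4.D 1 1) ⟨5, 24, 4, 4, 1, 0, 2, 2, 3, 5⟩ :=
  leaf_sound (S := T4.ds_pp) T4.ok_pp (w := 176) (c := ⟨⟨.negSucc 570, .negSucc 84, .ofNat 26, .negSucc 641, .negSucc 63, .ofNat 51⟩, ⟨.negSucc 178, .negSucc 49, .negSucc 18, .negSucc 223, .negSucc 20, .ofNat 17⟩, ⟨.ofNat 204, .ofNat 86, .negSucc 36, .ofNat 290, .ofNat 114, .negSucc 20⟩, ⟨.negSucc 982, .negSucc 87, .ofNat 43, .negSucc 1057, .negSucc 106, .ofNat 85⟩, ⟨.negSucc 17, .negSucc 5, .ofNat 6, .negSucc 53, .negSucc 0, .negSucc 3⟩, .ofNat 1062, .negSucc 1845, .ofNat 0, .negSucc 1845, .ofNat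 5371, .ofNat 0, .ofNat 226, .ofNat 287, .negSucc 342, .ofNat 0, .ofNat 161, .negSucc 117, .ofNat 0, .ofNat 0, .ofNat 714, .ofNat 4099, .ofNat 8147100173663472790099283096371200, .ofNat 0, .ofNat 4344124590042077332684800, .ofNat 0, .ofNat 0, .ofNat 28617055282734008093136919933747200, .ofNat 0, .ofNat 0, .ofNat 92164277772150058468630762566451200, .ofNat 29596213323735367780584375975936000, .ofNat 0, .ofNat 0, .ofNat 0, .ofNat 0, .ofNat 0, .ofNat 0⟩)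
    (by decide +kernel)
theorem L02238 : Good (Phi V4.P V4.D 1 1) ⟨5, 24, 4, 5, 1, 0, 2, 2, 2, 2⟩ :=
  out_sound (S := T4.ds_pp) T4.ok_pp (w := 64) (j := 3) (by decide +kernel)
theorem L02239 : Good (Phi V4.P V4.D 1 1) ⟨5, 25, 3, 2, 1, 0, 2, 2, 3, 4⟩ :=
  leaf_sound (S := T4.ds_pp) T4.ok_pp (w := 168) (c := ⟨⟨.negSucc 712, .negSucc 148, .ofNat 23, .negSucc 619, .negSucc 81, .ofNat 91⟩, ⟨.negSucc 230, .negSucc 85, .negSucc 57, .negSucc 245, .negSucc 34, .ofNat 37⟩, ⟨.ofNat 389, .ofNat 138, .negSucc 23, .ofNat 154, .ofNat 108, .negSucc 79⟩, ⟨.negSucc 1164, .negSucc 198, .ofNat 52, .negSucc 1023, .negSucc 133, .ofNat 146⟩, ⟨.negSucc 72, .ofNat 47, .negSucc 25, .ofNat 50, .ofNat 6, .ofNat 3⟩, .ofNat 542, .negSucc 536, .ofNat 0, .negSucc 536, .ofNat 1565, .ofNat 0, .ofNat 302, .ofNat 289, .negSucc 396, .ofNat 0, .ofNat 225, .negSucc 143, .ofNat 0, .ofNat 0, .ofNat 802, .ofNat 4486, .ofNat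 0, .ofNat 0, .ofNat 0, .ofNat 0, .ofNat 0, .ofNat 20988374493896499889702632318566400, .ofNat 0, .ofNat 0, .ofNat 0, .ofNat 0, .ofNat 0, .ofNat 0, .ofNat 0, .ofNat 0, .ofNat 0, .ofNat 0⟩)
    (by decide +kernel)
theorem L02240 : Good (Phi V4.P V4.D 1 1) ⟨5, 25, 3, 2, 2, 0, 2, 2, 3, 5⟩ :=
  leaf_sound (S := T4.ds_pp) T4.ok_pp (w := 184) (c := ⟨⟨.negSucc 641, .negSucc 78, .ofNat 32, .negSucc 380, .negSucc 61, .ofNat 77⟩, ⟨.negSucc 212, .negSucc 53, .negSucc 43, .negSucc 155, .negSucc 20, .ofNat 31⟩, ⟨.ofNat 292, .ofNat 78, .negSucc 42, .ofNat 210, .ofNat 96, .negSucc 54⟩, ⟨.negSucc 1056, .negSucc 75, .ofNat 54, .negSucc 598, .negSucc 110, .ofNat 125⟩, ⟨.negSucc 32, .ofNat 1, .ofNat 1, .negSucc 45, .ofNat 20, .ofNat 0⟩, .ofNat 822, .negSucc 1118, .ofNat 0, .negSucc 1118, .ofNat 2935, .ofNat 0, .ofNat 233, .ofNat 290, .negSucc 372, .ofNat 0, .ofNat 188, .negSucc 145, .ofNat 0, .ofNat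 0, .ofNat 732, .ofNat 11402, .ofNat 667749591551882667192490081124352000, .ofNat 0, .ofNat 0, .ofNat 0, .ofNat 0, .ofNat 0, .ofNat 0, .ofNat 0, .ofNat 5059966882166552647341430051700736000, .ofNat 0, .ofNat 2186259575447206712862100684800, .ofNat 0, .ofNat 38487329506754434603954889188127539200, .ofNat 0, .ofNat 470031924512466171124619673600, .ofNat 0⟩)
    (by decide +kernel)
theorem L02241 : Good (Phi V4.P V4.D 1 1) ⟨5, 25, 3, 2, 2, 1, 2, 2, 3, 5⟩ :=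
  leaf_sound (S := T4.ds_pp) T4.ok_pp (w := 184) (c := ⟨⟨.negSucc 892, .negSucc 78, .negSucc 0, .negSucc 316, .negSucc 204, .ofNat 55⟩, ⟨.negSucc 303, .negSucc 56, .negSucc 70, .negSucc 119, .negSucc 79, .ofNat 23⟩, ⟨.ofNat 348, .ofNat 66, .negSucc 9, .ofNat 71, .ofNat 267, .negSucc 23⟩, ⟨.negSucc 1447, .negSucc 69, .ofNat 3, .negSucc 558, .negSucc 350, .ofNat 85⟩, ⟨.negSucc 88, .ofNat 10, .negSucc 2, .ofNat 109, .ofNat 46, .ofNat 11⟩, .ofNat 543, .negSucc 538, .ofNat 0, .negSucc 538, .ofNat 1567, .ofNat 0, .ofNat 273, .ofNat 263, .negSucc 333, .ofNat 0, .ofNat 204, .negSucc 121, .ofNat 0, .ofNat 0, .ofNat 720, .ofNat 7931, .ofNat 0, .ofNat 0, .ofNat 0, .ofNat 0, .ofNat 0, .ofNat 4370855268901502458303489852519219200, .ofNat 0, .ofNat 0, .ofNat 0, .ofNat 2480367923536066307695710173763993600, .ofNat 0, .ofNat 0, .ofNat 0, .ofNat 2752165816106672974862185398691430400, .ofNat 0, .ofNat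 0⟩)
    (by decide +kernel)
theorem L02242 : Good (Phi V4.P V4.D 1 1) ⟨4, 12, 3, 2, 1, 1, 2, 2, 2, 2⟩ :=
  leaf_sound (S := T4.ds_pp) T4.ok_pp (w := 176) (c := ⟨⟨.negSucc 1251, .negSucc 162, .ofNat 22, .ofNat 0, .ofNat 0, .ofNat 0⟩, ⟨.negSucc 398, .negSucc 110, .negSucc 90, .ofNat 0, .ofNat 0, .ofNat 0⟩, ⟨.ofNat 475, .ofNat 100, .negSucc 42, .ofNat 0, .ofNat 0, .ofNat 0⟩, ⟨.negSucc 2162, .negSucc 135, .ofNat 35, .ofNat 0, .ofNat 0, .ofNat 0⟩, ⟨.ofNat 50, .ofNat 53, .negSucc 7, .ofNat 0, .ofNat 0, .ofNat 0⟩, .ofNat 164, .negSucc 32, .ofNat 0, .negSucc 32, .ofNat 233, .ofNat 0, .ofNat 9173, .ofNat 2245, .negSucc 12224, .ofNat 0, .ofNat 6861, .negSucc 374, .ofNat 0, .ofNat 0, .ofNat 17638, .ofNat 5332696, .ofNat 0, .ofNat 0, .ofNat 0, .ofNat 0, .ofNat 0, .ofNat 107066850043700481614786300663247667200, .ofNat 286028417118915696474980352000, .ofNat 0, .ofNat 0, .ofNat 90970623999901130614674418471167590400,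 .ofNat 332691587150378805463980441600, .ofNat 0, .ofNat 0, .ofNat 173711191716503000011324536988159180800, .ofNat 360176877784822218186188390400, .ofNat 0⟩)
    (by decide +kernel)
theorem L02243 : Good (Phi V4.P V4.D 1 1) ⟨5, 26, 4, 4, 0, 0, 2, 2, 2, 2⟩ :=
  out_sound (S := T4.ds_pp) T4.ok_pp (w := 64) (j := 3) (by decide +kernel)
theorem L02244 : Good (Phi V4.P V4.D 1 1) ⟨6, 52, 4, 5, 2, 0, 2, 2, 2, 2⟩ :=
  leaf_sound (S := T4.ds_pp) T4.ok_pp (w := 184) (c := ⟨⟨.negSucc 772, .negSucc 3, .ofNat 2, .negSucc 368, .negSucc 55, .ofNat 131⟩, ⟨.negSucc 308, .negSucc 13, .negSucc 28, .negSucc 161, .negSucc 23, .ofNat 58⟩, ⟨.ofNat 425, .ofNat 13, .negSucc 13, .ofNat 179, .ofNat 76, .negSucc 89⟩, ⟨.negSucc 1227, .ofNat 23, .ofNat 15, .negSucc 568, .negSucc 95, .ofNat 202⟩, ⟨.negSucc 20, .negSucc 6, .negSucc 21, .negSucc 40, .ofNat 15, .ofNat 17⟩, .ofNat 1306, .negSucc 2078, .ofNat 0, .negSucc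 2078, .ofNat 4802, .ofNat 0, .ofNat 215, .ofNat 333, .negSucc 399, .ofNat 0, .ofNat 205, .negSucc 172, .ofNat 0, .ofNat 0, .ofNat 776, .ofNat 6311, .ofNat 3681817517338528511627697076568064000, .ofNat 0, .ofNat 0, .ofNat 0, .ofNat 22218507410595601167982291166901043200, .ofNat 0, .ofNat 470383063018396468475697561600, .ofNat 0, .ofNat 268913709550855865846916204395809996800, .ofNat 0, .ofNat 186833252015220188164128768000, .ofNat 0, .ofNat 0, .ofNat 0, .ofNat 0, .ofNat 0⟩)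
    (by decide +kernel)
theorem L02245 : Good (Phi V4.P V4.D 1 1) ⟨6, 52, 4, 5, 2, 1, 2, 2, 2, 2⟩ :=
  leaf_sound (S := T4.ds_pp) T4.ok_pp (w := 184) (c := ⟨⟨.negSucc 1036, .negSucc 8, .negSucc 18, .negSucc 326, .negSucc 232, .ofNat 163⟩, ⟨.negSucc 418, .negSucc 19, .negSucc 45, .negSucc 134, .negSucc 98, .ofNat 72⟩, ⟨.ofNat 496, .ofNat 20, .negSucc 5, .ofNat 29, .ofNat 273, .negSucc 119⟩, ⟨.negSucc 1604, .ofNat 32, .negSucc 37, .negSucc 587, .negSucc 392, .ofNat 252⟩, ⟨.negSucc 117, .negSucc 25, .ofNat 19, .ofNat 153, .ofNat 50, .ofNat 20⟩, .ofNat 1374, .negSucc 2223, .ofNat 0, .negSucc 2223, .ofNat 5117, .ofNat 0, .ofNat 221, .ofNat 349, .negSucc 351, .ofNat 0, .ofNat 213, .negSucc 149, .ofNat 0, .ofNat 0, .ofNat 769, .ofNat 7884, .ofNat 0, .ofNat 0, .ofNat 0, .ofNat 0, .ofNat 0, .ofNat 69839766562200675654498581191694745600, .ofNat 234888695342815065307663564800, .ofNat 0, .ofNat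 122596358749073150844595527729178214400, .ofNat 59325433062297000577823245087014912000, .ofNat 60814488364356564419818291200, .ofNat 0, .ofNat 0, .ofNat 49599435222292505172785531349840691200, .ofNat 0, .ofNat 0⟩)
    (by decide +kernel)
theorem L02246 : Good (Phi V4.P V4.D 1 1) ⟨6, 52, 4, 5, 1, 1, 2, 2, 2, 2⟩ :=
  leaf_sound (S := T4.ds_pp) T4.ok_pp (w := 192) (c := ⟨⟨.negSucc 1404, .negSucc 41, .ofNat 11, .ofNat 0, .ofNat 0, .ofNat 0⟩, ⟨.negSucc 558, .negSucc 31, .negSucc 43, .ofNat 0, .ofNat 0, .ofNat 0⟩, ⟨.ofNat 555, .ofNat 25, .negSucc 21, .ofNat 0, .ofNat 0, .ofNat 0⟩, ⟨.negSucc 2282, .negSucc 33, .ofNat 18, .ofNat 0, .ofNat 0, .ofNat 0⟩, ⟨.ofNat 98, .ofNat 13, .negSucc 3, .ofNat 0, .ofNat 0, .ofNat 0⟩, .ofNat 333, .negSucc 193, .ofNat 0, .negSucc 193, .ofNat 660, .ofNat 0, .ofNat 26023, .ofNat 17027, .negSucc 24847, .ofNat 0, .ofNat 19360, .negSucc 6464, .ofNat 0, .ofNat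 0, .ofNat 55123, .ofNat 86558801, .ofNat 0, .ofNat 0, .ofNat 0, .ofNat 0, .ofNat 0, .ofNat 5178753587997249614684713906863433423257600, .ofNat 1828041825942733058318794752000, .ofNat 0, .ofNat 0, .ofNat 3227367403809804159498786413883849650995200, .ofNat 4803072512708090455712700825600, .ofNat 0, .ofNat 0, .ofNat 5094457343061711756402671946056868456038400, .ofNat 6833882531261125142343843840000, .ofNat 0⟩)
    (by decide +kernel)
theorem L02247 : Good (Phi V4.P V4.D 1 1) ⟨6, 53, 4, 5, 0, 0, 2, 2, 2, 2⟩ :=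
  out_sound (S := T4.ds_pp) T4.ok_pp (w := 72) (j := 3) (by decide +kernel)
theorem L02248 : Good (Phi V4.P V4.D 1 1) ⟨5, 27, 3, 2, 0, 0, 2, 2, 2, 2⟩ :=
  out_sound (S := T4.ds_pp) T4.ok_pp (w := 64) (j := 3) (by decide +kernel)
theorem L02249 : Good (Phi V4.P V4.D 1 1) ⟨4, 12, 3, 2, 3, 0, 3, 6, 2, 2⟩ :=
  leaf_sound (S := T4.ds_pp) T4.ok_pp (w := 184) (c := ⟨⟨.negSucc 532, .negSucc 216, .ofNat 24, .negSucc 307, .ofNat 52, .ofNat 66⟩, ⟨.negSucc 159, .negSucc 119, .negSucc 37, .negSucc 118, .ofNat 17, .ofNat 25⟩, ⟨.ofNat 164, .ofNat 216, .negSucc 24, .ofNat 248, .negSucc 41, .negSucc 5⟩, ⟨.negSucc 924, .negSucc 268, .ofNat 41, .negSucc 487, .ofNat 86, .ofNat 108⟩, ⟨.negSucc 10, .ofNat 3, .negSucc 0, .negSucc 45, .ofNat 5, .ofNat 4⟩, .ofNat 809, .negSucc 1122, .ofNat 0, .negSucc 1122, .ofNat 3084, .ofNat 0, .ofNat 261, .ofNat 316, .negSucc 530, .ofNat 0, .ofNat 200, .negSucc 199,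 .ofNat 0, .ofNat 0, .ofNat 844, .ofNat 8861, .ofNat 0, .ofNat 0, .ofNat 0, .ofNat 0, .ofNat 0, .ofNat 0, .ofNat 1683366043741593378502597410816000, .ofNat 0, .ofNat 0, .ofNat 0, .ofNat 1673852598601947341673503234457600, .ofNat 0, .ofNat 0, .ofNat 0, .ofNat 1135336208503203305546777100288000, .ofNat 0⟩)
    (by decide +kernel)
theorem L02250 : Good (Phi V4.P V4.D 1 1) ⟨4, 12, 3, 2, 3, 1, 3, 6, 2, 2⟩ :=
  leaf_sound (S := T4.ds_pp) T4.ok_pp (w := 184) (c := ⟨⟨.negSucc 714, .negSucc 260, .ofNat 29, .negSucc 296, .negSucc 121, .ofNat 45⟩, ⟨.negSucc 217, .negSucc 148, .negSucc 54, .negSucc 108, .negSucc 46, .ofNat 17⟩, ⟨.ofNat 288, .ofNat 250, .negSucc 34, .ofNat 210, .ofNat 140, .ofNat 19⟩, ⟨.negSucc 1220, .negSucc 309, .ofNat 52, .negSucc 493, .negSucc 203, .ofNat 69⟩, ⟨.negSucc 65, .ofNat 3, .ofNat 0, .ofNat 11, .ofNat 14, .ofNat 13⟩, .ofNat 522, .negSucc 502, .ofNat 0, .negSucc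 502, .ofNat 1592, .ofNat 0, .ofNat 311, .ofNat 274, .negSucc 506, .ofNat 0, .ofNat 214, .negSucc 173, .ofNat 0, .ofNat 0, .ofNat 825, .ofNat 5690, .ofNat 0, .ofNat 0, .ofNat 0, .ofNat 0, .ofNat 0, .ofNat 0, .ofNat 0, .ofNat 0, .ofNat 0, .ofNat 0, .ofNat 0, .ofNat 0, .ofNat 0, .ofNat 0, .ofNat 0, .ofNat 0⟩)
    (by decide +kernel)
theorem L02251 : Good (Phi V4.P V4.D 1 1) ⟨4, 12, 3, 2, 2, 1, 3, 6, 2, 2⟩ :=
  leaf_sound (S := T4.ds_pp) T4.ok_pp (w := 176) (c := ⟨⟨.negSucc 966, .negSucc 251, .ofNat 11, .negSucc 579, .negSucc 192, .ofNat 39⟩, ⟨.negSucc 297, .negSucc 151, .negSucc 80, .negSucc 220, .negSucc 72, .ofNat 15⟩, ⟨.ofNat 461, .ofNat 228, .negSucc 25, .ofNat 329, .ofNat 208, .ofNat 27⟩, ⟨.negSucc 1649, .negSucc 275, .ofNat 23, .negSucc 1000, .negSucc 324, .ofNat 57⟩, ⟨.negSucc 66, .ofNat 15, .ofNat 1, .ofNat 134, .ofNat 21, .ofNat 26⟩, .ofNat 532, .negSucc 522, .ofNat 0, .negSucc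 522, .ofNat 1612, .ofNat 0, .ofNat 325, .ofNat 302, .negSucc 511, .ofNat 0, .ofNat 229, .negSucc 178, .ofNat 0, .ofNat 0, .ofNat 844, .ofNat 5422, .ofNat 0, .ofNat 0, .ofNat 0, .ofNat 0, .ofNat 0, .ofNat 276072362369386010327935195545600000, .ofNat 0, .ofNat 0, .ofNat 0, .ofNat 227555284109128040543114251940659200, .ofNat 0, .ofNat 0, .ofNat 0, .ofNat 224322699635449899705162915014246400, .ofNat 0, .ofNat 0⟩)
    (by decide +kernel)
theorem L02252 : Good (Phi V4.P V4.D 1 1) ⟨5, 26, 3, 2, 2, 0, 3, 6, 2, 2⟩ :=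
  leaf_sound (S := T4.ds_pp) T4.ok_pp (w := 184) (c := ⟨⟨.negSucc 489, .negSucc 148, .negSucc 154, .negSucc 659, .negSucc 64, .ofNat 71⟩, ⟨.negSucc 154, .negSucc 91, .negSucc 126, .negSucc 287, .negSucc 27, .ofNat 31⟩, ⟨.ofNat 79, .ofNat 149, .ofNat 201, .ofNat 498, .ofNat 77, .negSucc 5⟩, ⟨.negSucc 801, .negSucc 184, .negSucc 214, .negSucc 1037, .negSucc 106, .ofNat 110⟩, ⟨.ofNat 28, .negSucc 6, .negSucc 54, .negSucc 31, .ofNat 9, .ofNat 9⟩, .ofNat 1380, .negSucc 2236, .ofNat 0, .negSucc 2236, .ofNat 5146, .ofNat 0, .ofNat 227, .ofNat 355, .negSucc 544, .ofNat 0, .ofNat 218, .negSucc 236, .ofNat 0, .ofNat 0, .ofNat 857, .ofNat 5328, .ofNat 0, .ofNat 0, .ofNat 18473604919307654051502489600, .ofNat 0, .ofNat 0, .ofNat 1550451615638644167699331479188275200, .ofNat 14693015852650705208564986675200, .ofNat 0, .ofNat 0, .ofNat 0, .ofNat 11533787598456467852961094041600, .ofNat 0, .ofNat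 0, .ofNat 368489876260185053476066797237043200, .ofNat 4153845744551274664806265651200, .ofNat 0⟩)
    (by decide +kernel)
theorem L02253 : Good (Phi V4.P V4.D 1 1) ⟨5, 26, 3, 2, 2, 1, 3, 6, 2, 2⟩ :=
  leaf_sound (S := T4.ds_pp) T4.ok_pp (w := 184) (c := ⟨⟨.negSucc 1244, .negSucc 83, .ofNat 39, .negSucc 592, .negSucc 244, .ofNat 59⟩, ⟨.negSucc 471, .negSucc 68, .negSucc 55, .negSucc 250, .negSucc 105, .ofNat 27⟩, ⟨.ofNat 700, .ofNat 81, .negSucc 34, .ofNat 322, .ofNat 257, .ofNat 9⟩, ⟨.negSucc 1972, .negSucc 64, .ofNat 72, .negSucc 1004, .negSucc 397, .ofNat 84⟩, ⟨.negSucc 40, .ofNat 1, .negSucc 10, .ofNat 139, .ofNat 16, .ofNat 24⟩, .ofNat 1175, .negSucc 1802, .ofNat 0, .negSucc 1802, .ofNat 4204, .ofNat 0, .ofNat 474, .ofNat 741, .negSucc 1024, .ofNat 0, .ofNat 454, .negSucc 444, .ofNat 0, .ofNat 0, .ofNat 1684, .ofNat 9300, .ofNat 0, .ofNat 0, .ofNat 0, .ofNat 0, .ofNat 0, .ofNat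 14227665138775962566001432421466112000, .ofNat 48151680737208300828123306393600, .ofNat 0, .ofNat 0, .ofNat 8214280591159320526361066713015910400, .ofNat 23735057102924348618674746163200, .ofNat 0, .ofNat 0, .ofNat 16476683345753028110425287308397772800, .ofNat 0, .ofNat 0⟩)
    (by decide +kernel)
theorem L02254 : Good (Phi V4.P V4.D 1 1) ⟨5, 27, 3, 2, 1, 0, 3, 6, 2, 2⟩ :=
  out_sound (S := T4.ds_pp) T4.ok_pp (w := 64) (j := 3) (by decide +kernel)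
theorem L02255 : Good (Phi V4.P V4.D 1 1) ⟨3, 6, 3, 2, 1, 1, 3, 6, 2, 2⟩ :=
  out_sound (S := T4.ds_pp) T4.ok_pp (w := 32) (j := 2) (by decide +kernel)
theorem L02256 : Good (Phi V4.P V4.D 1 1) ⟨5, 24, 3, 2, 2, 0, 4, 14, 2, 2⟩ :=
  leaf_sound (S := T4.ds_pp) T4.ok_pp (w := 184) (c := ⟨⟨.negSucc 312, .negSucc 152, .ofNat 47, .negSucc 847, .negSucc 7, .negSucc 26⟩, ⟨.negSucc 89, .negSucc 72, .negSucc 32, .negSucc 292, .negSucc 2, .negSucc 9⟩, ⟨.negSucc 58, .ofNat 155, .negSucc 54, .ofNat 730, .ofNat 20, .ofNat 102⟩, ⟨.negSucc 552, .negSucc 205, .ofNat 77, .negSucc 1409, .negSucc 10, .negSucc 43⟩, ⟨.negSucc 2, .negSucc 6, .ofNat 7, .negSucc 44, .negSucc 0, .negSucc 1⟩, .ofNat 1034, .negSucc 1777, .ofNat 0, .negSucc 1777, .ofNat 5219, .ofNat 0, .ofNat 270, .ofNat 335, .negSucc 654, .ofNat 0, .ofNat 189, .negSucc 224, .ofNat 0, .ofNat 0, .ofNat 928, .ofNat 3059, .ofNat 0, .ofNat 0, .ofNat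 0, .ofNat 0, .ofNat 0, .ofNat 0, .ofNat 0, .ofNat 0, .ofNat 0, .ofNat 6489973529246412790134467127253401600, .ofNat 5518616179161129480091179417600, .ofNat 0, .ofNat 0, .ofNat 2090876718568070575041208704722534400, .ofNat 0, .ofNat 0⟩)
    (by decide +kernel)
theorem L02257 : Good (Phi V4.P V4.D 1 1) ⟨5, 24, 3, 2, 2, 0, 4, 15, 2, 2⟩ :=
  leaf_sound (S := T4.ds_pp) T4.ok_pp (w := 184) (c := ⟨⟨.negSucc 234, .negSucc 82, .negSucc 39, .negSucc 1187, .ofNat 226, .negSucc 62⟩, ⟨.negSucc 66, .negSucc 43, .negSucc 53, .negSucc 413, .ofNat 79, .negSucc 19⟩, ⟨.negSucc 128, .ofNat 78, .ofNat 42, .ofNat 1092, .negSucc 218, .ofNat 137⟩, ⟨.negSucc 415, .negSucc 95, .negSucc 73, .negSucc 1972, .ofNat 375, .negSucc 106⟩, ⟨.negSucc 0, .negSucc 1, .ofNat 0, .negSucc 55, .ofNat 6, .negSucc 2⟩, .ofNat 763, .negSucc 1079, .ofNat 0, .negSucc 1079, .ofNat 3292, .ofNat 0, .ofNat 147, .ofNat 166, .negSucc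 410, .ofNat 0, .ofNat 101, .negSucc 139, .ofNat 0, .ofNat 0, .ofNat 529, .ofNat 1910, .ofNat 0, .ofNat 0, .ofNat 0, .ofNat 0, .ofNat 0, .ofNat 2753651536757058382486526929718476800, .ofNat 0, .ofNat 0, .ofNat 0, .ofNat 3386406775789025301127774144875724800, .ofNat 0, .ofNat 0, .ofNat 0, .ofNat 4586654892676451680376307765057945600, .ofNat 570367381032888214154851123200, .ofNat 0⟩)
    (by decide +kernel)
theorem L02258 : Good (Phi V4.P V4.D 1 1) ⟨5, 24, 3, 2, 2, 1, 3, 7, 2, 2⟩ :=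
  leaf_sound (S := T4.ds_pp) T4.ok_pp (w := 184) (c := ⟨⟨.negSucc 1103, .negSucc 170, .ofNat 17, .negSucc 686, .negSucc 186, .negSucc 36⟩, ⟨.negSucc 353, .negSucc 87, .negSucc 78, .negSucc 231, .negSucc 61, .negSucc 10⟩, ⟨.ofNat 603, .ofNat 160, .negSucc 26, .ofNat 490, .ofNat 203, .ofNat 120⟩, ⟨.negSucc 1884, .negSucc 211, .ofNat 30, .negSucc 1177, .negSucc 319, .negSucc 68⟩, ⟨.negSucc 34, .ofNat 0, .ofNat 2, .ofNat 69, .ofNat 13, .ofNat 18⟩, .ofNat 509, .negSucc 480, .ofNat 0, .negSucc 480, .ofNat 1646, .ofNat 0, .ofNat 2966, .ofNat 2494, .negSucc 5703, .ofNat 0, .ofNat 1911, .negSucc 1830, .ofNat 0, .ofNat 0, .ofNat 7960, .ofNat 91693, .ofNat 0, .ofNat 0, .ofNat 0, .ofNat 0, .ofNat 0, .ofNat 1738794765496854693072251050903417651200, .ofNat 0, .ofNat 0, .ofNat 0, .ofNat 1509557689762196219553788992930657075200, .ofNat 0, .ofNat 0, .ofNat 0, .ofNat 1897654852907355486576832163285984870400,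 .ofNat 0, .ofNat 0⟩)
    (by decide +kernel)
theorem L02259 : Good (Phi V4.P V4.D 1 1) ⟨5, 25, 4, 4, 2, 0, 3, 7, 2, 2⟩ :=
  leaf_sound (S := T4.ds_pp) T4.ok_pp (w := 184) (c := ⟨⟨.negSucc 392, .negSucc 167, .negSucc 25, .negSucc 1002, .ofNat 189, .negSucc 6⟩, ⟨.negSucc 126, .negSucc 81, .negSucc 32, .negSucc 382, .ofNat 70, .ofNat 1⟩, ⟨.ofNat 26, .ofNat 164, .ofNat 27, .ofNat 880, .negSucc 174, .ofNat 80⟩, ⟨.negSucc 651, .negSucc 227, .negSucc 43, .negSucc 1619, .ofNat 308, .negSucc 14⟩, ⟨.negSucc 8, .negSucc 2, .ofNat 0, .negSucc 50, .ofNat 8, .ofNat 2⟩, .ofNat 901, .negSucc 1316, .ofNat 0, .negSucc 1316, .ofNat 3549, .ofNat 0, .ofNat 282, .ofNat 334, .negSucc 726, .ofNat 0, .ofNat 215, .negSucc 274, .ofNat 0, .ofNat 0, .ofNat 984, .ofNat 1572, .ofNat 0, .ofNat 25222714386352746102609855853363200, .ofNat 0, .ofNat 0, .ofNat 0, .ofNat 6999999922959557877262068556706611200, .ofNat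 1989089443664402509552051814400, .ofNat 0, .ofNat 0, .ofNat 8551082902452621760190637113396428800, .ofNat 0, .ofNat 0, .ofNat 0, .ofNat 18445238486237631222692835902462361600, .ofNat 476287633477375028962630041600, .ofNat 0⟩)
    (by decide +kernel)
theorem L02260 : Good (Phi V4.P V4.D 1 1) ⟨5, 25, 4, 4, 2, 1, 3, 7, 2, 2⟩ :=
  leaf_sound (S := T4.ds_pp) T4.ok_pp (w := 184) (c := ⟨⟨.negSucc 1269, .negSucc 205, .ofNat 12, .negSucc 746, .negSucc 269, .negSucc 24⟩, ⟨.negSucc 437, .negSucc 111, .negSucc 39, .negSucc 275, .negSucc 102, .negSucc 6⟩, ⟨.ofNat 759, .ofNat 192, .negSucc 16, .ofNat 532, .ofNat 287, .ofNat 112⟩, ⟨.negSucc 2089, .negSucc 256, .ofNat 22, .negSucc 1247, .negSucc 439, .negSucc 46⟩, ⟨.negSucc 34, .ofNat 0, .ofNat 0, .ofNat 69, .ofNat 0, .ofNat 14⟩, .ofNat 517, .negSucc 484, .ofNat 0, .negSucc 484, .ofNat 1498, .ofNat 0, .ofNat 2942, .ofNat 2612, .negSucc 6073, .ofNat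 0, .ofNat 2085, .negSucc 2160, .ofNat 0, .ofNat 0, .ofNat 8233, .ofNat 65283, .ofNat 0, .ofNat 20078428548376797793335693150466867200, .ofNat 0, .ofNat 0, .ofNat 0, .ofNat 5891052061033147414594612591601909760000, .ofNat 0, .ofNat 0, .ofNat 0, .ofNat 5414391223935813413799472887036169420800, .ofNat 0, .ofNat 0, .ofNat 0, .ofNat 8015129879678563221666775902927716352000, .ofNat 0, .ofNat 0⟩)
    (by decide +kernel)
theorem L02261 : Good (Phi V4.P V4.D 1 1) ⟨5, 25, 4, 5, 2, 0, 3, 7, 2, 2⟩ :=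
  leaf_sound (S := T4.ds_pp) T4.ok_pp (w := 184) (c := ⟨⟨.negSucc 384, .negSucc 107, .negSucc 17, .negSucc 1057, .ofNat 181, .negSucc 26⟩, ⟨.negSucc 137, .negSucc 58, .negSucc 33, .negSucc 430, .ofNat 73, .negSucc 9⟩, ⟨.ofNat 18, .ofNat 107, .ofNat 15, .ofNat 925, .negSucc 164, .ofNat 105⟩, ⟨.negSucc 644, .negSucc 125, .negSucc 31, .negSucc 1700, .ofNat 290, .negSucc 44⟩, ⟨.negSucc 5, .negSucc 9, .ofNat 5, .negSucc 41, .ofNat 8, .negSucc 5⟩, .ofNat 1129, .negSucc 1812, .ofNat 0, .negSucc 1812, .ofNat 4570, .ofNat 0, .ofNat 248, .ofNat 365, .negSucc 761, .ofNat 0, .ofNat 214, .negSucc 307, .ofNat 0, .ofNat 0, .ofNat 1010, .ofNat 1780, .ofNat 0, .ofNat 0, .ofNat 0, .ofNat 0, .ofNat 0, .ofNat 5732450689957118507314749579146035200, .ofNat 0, .ofNat 0, .ofNat 0, .ofNat 10080321236055142922084545331409715200, .ofNat 0, .ofNat 0, .ofNat 0, .ofNat 21959080486635460267747876863895142400,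 .ofNat 0, .ofNat 0⟩)
    (by decide +kernel)
theorem L02262 : Good (Phi V4.P V4.D 1 1) ⟨5, 25, 4, 5, 2, 1, 3, 7, 2, 2⟩ :=
  leaf_sound (S := T4.ds_pp) T4.ok_pp (w := 184) (c := ⟨⟨.negSucc 1260, .negSucc 201, .ofNat 10, .negSucc 714, .negSucc 262, .negSucc 11⟩, ⟨.negSucc 476, .negSucc 113, .negSucc 41, .negSucc 285, .negSucc 105, .negSucc 4⟩, ⟨.ofNat 744, .ofNat 189, .negSucc 13, .ofNat 501, .ofNat 282, .ofNat 104⟩, ⟨.negSucc 2075, .negSucc 245, .ofNat 17, .negSucc 1187, .negSucc 427, .negSucc 23⟩, ⟨.negSucc 33, .negSucc 0, .ofNat 0, .ofNat 66, .negSucc 1, .ofNat 11⟩, .ofNat 555, .negSucc 566, .ofNat 0, .negSucc 566, .ofNat 1636, .ofNat 0, .ofNat 1382, .ofNat 1401, .negSucc 3075, .ofNat 0, .ofNat 1037, .negSucc 1164, .ofNat 0, .ofNat 0, .ofNat 4141, .ofNat 43520, .ofNat 0, .ofNat 12727056973919360299097992855761715200, .ofNat 0, .ofNat 0, .ofNat 0, .ofNat 1614413937494915621717448198953159884800,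 .ofNat 0, .ofNat 0, .ofNat 0, .ofNat 1636677227624481861925553253380417126400, .ofNat 0, .ofNat 0, .ofNat 0, .ofNat 2253527767811242881201979378083299328000, .ofNat 0, .ofNat 0⟩)
    (by decide +kernel)
theorem L02263 : Good (Phi V4.P V4.D 1 1) ⟨6, 52, 3, 2, 2, 0, 3, 7, 2, 2⟩ :=
  leaf_sound (S := T4.ds_pp) T4.ok_pp (w := 184) (c := ⟨⟨.negSucc 220, .negSucc 280, .negSucc 216, .negSucc 1207, .ofNat 135, .negSucc 32⟩, ⟨.negSucc 49, .negSucc 136, .negSucc 139, .negSucc 527, .ofNat 58, .negSucc 13⟩, ⟨.negSucc 138, .ofNat 275, .ofNat 209, .ofNat 1070, .negSucc 121, .ofNat 112⟩, ⟨.negSucc 337, .negSucc 416, .negSucc 360, .negSucc 1899, .ofNat 214, .negSucc 50⟩, ⟨.negSucc 41, .negSucc 7, .ofNat 38, .negSucc 53, .ofNat 4, .negSucc 4⟩, .ofNat 1310, .negSucc 2087, .ofNat 0, .negSucc 2087, .ofNat 4822, .ofNat 0, .ofNat 121, .ofNat 188, .negSucc 395, .ofNat 0, .ofNat 116, .negSucc 172, .ofNat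 0, .ofNat 0, .ofNat 518, .ofNat 838, .ofNat 0, .ofNat 61456994501257511163650844603187200, .ofNat 1773988229008131112304640000, .ofNat 0, .ofNat 0, .ofNat 6579216606316196385869277392850124800, .ofNat 970696828131985644857170329600, .ofNat 0, .ofNat 0, .ofNat 3610102561061193533987178194298470400, .ofNat 503752821064037104639750963200, .ofNat 0, .ofNat 0, .ofNat 19535158022033540369377672498564300800, .ofNat 189096774593279757373145088000, .ofNat 0⟩)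
    (by decide +kernel)
theorem L02264 : Good (Phi V4.P V4.D 1 1) ⟨6, 53, 3, 2, 2, 0, 3, 7, 2, 2⟩ :=
  out_sound (S := T4.ds_pp) T4.ok_pp (w := 64) (j := 3) (by decide +kernel)
theorem L02265 : Good (Phi V4.P V4.D 1 1) ⟨5, 27, 3, 2, 2, 0, 3, 7, 2, 2⟩ :=
  out_sound (S := T4.ds_pp) T4.ok_pp (w := 64) (j := 3) (by decide +kernel)
theorem L02266 : Good (Phi V4.P V4.D 1 1) ⟨4, 13, 3, 2, 2, 1, 3, 7, 2, 2⟩ :=
  leaf_sound (S := T4.ds_pp) T4.ok_pp (w := 184) (c := ⟨⟨.negSucc 1407, .negSucc 308, .negSucc 46, .negSucc 802, .negSucc 383, .negSucc 23⟩, ⟨.negSucc 523, .negSucc 193, .negSucc 111, .negSucc 346, .negSucc 167, .negSucc 9⟩, ⟨.ofNat 890, .ofNat 291, .ofNat 31, .ofNat 561, .ofNat 398, .ofNat 114⟩, ⟨.negSucc 2247, .negSucc 371, .negSucc 56, .negSucc 1311, .negSucc 608, .negSucc 43⟩, ⟨.negSucc 35, .negSucc 2, .ofNat 1, .ofNat 72, .negSucc 9, .ofNat 10⟩, .ofNat 909, .negSucc 1251, .ofNat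 0, .negSucc 1251, .ofNat 3016, .ofNat 0, .ofNat 1134, .ofNat 1619, .negSucc 3104, .ofNat 0, .ofNat 1034, .negSucc 1337, .ofNat 0, .ofNat 0, .ofNat 4169, .ofNat 26495, .ofNat 0, .ofNat 76967791254531831152056550503219200, .ofNat 0, .ofNat 0, .ofNat 0, .ofNat 11508697455584003361368636216102092800, .ofNat 1146763448061550227530585210880000, .ofNat 0, .ofNat 0, .ofNat 18313665441520064781239391159425433600, .ofNat 853394446464243098320055461478400, .ofNat 0, .ofNat 0, .ofNat 32310609308323527304031908774123929600, .ofNat 397100214324858072940221667737600, .ofNat 0⟩)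
    (by decide +kernel)
theorem L02267 : Good (Phi V4.P V4.D 1 1) ⟨3, 6, 3, 2, 1, 1, 3, 7, 2, 2⟩ :=
  out_sound (S := T4.ds_pp) T4.ok_pp (w := 32) (j := 2) (by decide +kernel)
theorem L02268 : Good (Phi V4.P V4.D 1 1) ⟨5, 24, 3, 3, 0, 0, 2, 2, 3, 4⟩ :=
  out_sound (S := T4.ds_pp) T4.ok_pp (w := 64) (j := 3) (by decide +kernel)
theorem L02269 : Good (Phi V4.P V4.D 1 1) ⟨5, 25, 4, 6, 1, 0, 2, 2, 3, 4⟩ :=
  leaf_sound (S := T4.ds_pp) T4.ok_pp (w := 176) (c := ⟨⟨.negSucc 713, .negSucc 67, .ofNat 67, .negSucc 652, .negSucc 103, .ofNat 103⟩, ⟨.negSucc 285, .negSucc 56, .negSucc 4, .negSucc 283, .negSucc 43, .ofNat 44⟩, ⟨.ofNat 374, .ofNat 66, .negSucc 87, .ofNat 184, .ofNat 129, .negSucc 85⟩, ⟨.negSucc 1192, .negSucc 24, .ofNat 95, .negSucc 1066, .negSucc 177, .ofNat 172⟩, ⟨.negSucc 11, .negSucc 54, .ofNat 31, .ofNat 46, .ofNat 24, .negSucc 13⟩, .ofNat 1783, .negSucc 3144, .ofNat 0, .negSucc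 3144, .ofNat 7208, .ofNat 0, .ofNat 196, .ofNat 366, .negSucc 384, .ofNat 0, .ofNat 206, .negSucc 166, .ofNat 0, .ofNat 0, .ofNat 792, .ofNat 5035, .ofNat 0, .ofNat 0, .ofNat 53368479288426863178547200, .ofNat 0, .ofNat 0, .ofNat 0, .ofNat 0, .ofNat 0, .ofNat 0, .ofNat 68102828065378906490622657429504000, .ofNat 6517802893694714418246451200, .ofNat 0, .ofNat 0, .ofNat 10676719726480762170706134407577600, .ofNat 8197896516544875288172953600, .ofNat 0⟩)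
    (by decide +kernel)
theorem L02270 : Good (Phi V4.P V4.D 1 1) ⟨5, 25, 4, 6, 1, 1, 2, 2, 3, 4⟩ :=
  leaf_sound (S := T4.ds_pp) T4.ok_pp (w := 184) (c := ⟨⟨.negSucc 1309, .negSucc 83, .ofNat 12, .ofNat 0, .ofNat 0, .ofNat 0⟩, ⟨.negSucc 540, .negSucc 61, .negSucc 43, .ofNat 0, .ofNat 0, .ofNat 0⟩, ⟨.ofNat 481, .ofNat 51, .negSucc 21, .ofNat 0, .ofNat 0, .ofNat 0⟩, ⟨.negSucc 2194, .negSucc 68, .ofNat 18, .ofNat 0, .ofNat 0, .ofNat 0⟩, ⟨.ofNat 68, .ofNat 26, .negSucc 3, .ofNat 0, .ofNat 0, .ofNat 0⟩, .ofNat 336, .negSucc 201, .ofNat 0, .negSucc 201, .ofNat 684, .ofNat 0, .ofNat 6442, .ofNat 4323, .negSucc 6190, .ofNat 0, .ofNat 4750, .negSucc 1635, .ofNat 0, .ofNat 0, .ofNat 13780, .ofNat 10199537, .ofNat 0, .ofNat 0, .ofNat 0, .ofNat 0, .ofNat 0, .ofNat 44561304426530192566118247682204395110400, .ofNat 2974423506931610931953664000000, .ofNat 0, .ofNat 0, .ofNat 13994357748613749066499260170498998272000,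 .ofNat 0, .ofNat 0, .ofNat 0, .ofNat 39764643824366124725438357851136537395200, .ofNat 0, .ofNat 0⟩)
    (by decide +kernel)
theorem L02271 : Good (Phi V4.P V4.D 1 1) ⟨5, 25, 4, 7, 0, 0, 2, 2, 3, 4⟩ :=
  out_sound (S := T4.ds_pp) T4.ok_pp (w := 64) (j := 3) (by decide +kernel)
theorem L02272 : Good (Phi V4.P V4.D 1 1) ⟨4, 13, 3, 3, 2, 0, 2, 2, 3, 4⟩ :=
  leaf_sound (S := T4.ds_pp) T4.ok_pp (w := 176) (c := ⟨⟨.negSucc 827, .negSucc 310, .ofNat 98, .negSucc 342, .negSucc 31, .ofNat 92⟩, ⟨.negSucc 353, .negSucc 200, .negSucc 13, .negSucc 168, .negSucc 12, .ofNat 44⟩, ⟨.ofNat 489, .ofNat 311, .negSucc 110, .ofNat 134, .ofNat 43, .negSucc 79⟩, ⟨.negSucc 1316, .negSucc 402, .ofNat 172, .negSucc 508, .negSucc 55, .ofNat 145⟩, ⟨.negSucc 22, .ofNat 64, .negSucc 31, .negSucc 53, .ofNat 11, .ofNat 0⟩, .ofNat 1195, .negSucc 1761, .ofNat 0, .negSucc 1761, .ofNat 3820, .ofNat 0, .ofNat 199, .ofNat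 365, .negSucc 429, .ofNat 0, .ofNat 224, .negSucc 202, .ofNat 0, .ofNat 0, .ofNat 814, .ofNat 6529, .ofNat 0, .ofNat 0, .ofNat 16486511762793328209926553600, .ofNat 0, .ofNat 0, .ofNat 0, .ofNat 9649129971327889670345746022400, .ofNat 0, .ofNat 0, .ofNat 0, .ofNat 5761084630633433269650063360000, .ofNat 0, .ofNat 0, .ofNat 0, .ofNat 3683985179729281110709685452800, .ofNat 0⟩)
    (by decide +kernel)
theorem L02273 : Good (Phi V4.P V4.D 1 1) ⟨4, 13, 3, 3, 2, 1, 2, 2, 3, 4⟩ :=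
  leaf_sound (S := T4.ds_pp) T4.ok_pp (w := 176) (c := ⟨⟨.negSucc 1039, .negSucc 238, .ofNat 35, .negSucc 327, .negSucc 242, .ofNat 78⟩, ⟨.negSucc 443, .negSucc 168, .negSucc 67, .negSucc 156, .negSucc 115, .ofNat 36⟩, ⟨.ofNat 480, .ofNat 196, .negSucc 43, .ofNat 16, .ofNat 284, .negSucc 60⟩, ⟨.negSucc 1617, .negSucc 243, .ofNat 55, .negSucc 587, .negSucc 402, .ofNat 121⟩, ⟨.negSucc 104, .negSucc 9, .ofNat 26, .ofNat 156, .ofNat 49, .ofNat 4⟩, .ofNat 643, .negSucc 708, .ofNat 0, .negSucc 708, .ofNat 1697, .ofNat 0, .ofNat 268, .ofNat 343, .negSucc 388, .ofNat 0, .ofNat 248, .negSucc 168, .ofNat 0, .ofNat 0, .ofNat 806, .ofNat 4521, .ofNat 0, .ofNat 0, .ofNat 0, .ofNat 0, .ofNat 0, .ofNat 154700188000574229791351902096588800, .ofNat 6115333446841318442245973606400, .ofNat 0, .ofNat 0, .ofNat 182695598086683178002623447118643200, .ofNat 5256888978290518763734302720000, .ofNat 0, .ofNat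 0, .ofNat 0, .ofNat 0, .ofNat 0⟩)
    (by decide +kernel)
theorem L02274 : Good (Phi V4.P V4.D 1 1) ⟨4, 13, 3, 3, 1, 1, 2, 2, 3, 4⟩ :=
  leaf_sound (S := T4.ds_pp) T4.ok_pp (w := 176) (c := ⟨⟨.negSucc 1392, .negSucc 160, .ofNat 19, .ofNat 0, .ofNat 0, .ofNat 0⟩, ⟨.negSucc 601, .negSucc 126, .negSucc 92, .ofNat 0, .ofNat 0, .ofNat 0⟩, ⟨.ofNat 533, .ofNat 98, .negSucc 41, .ofNat 0, .ofNat 0, .ofNat 0⟩, ⟨.negSucc 2263, .negSucc 131, .ofNat 33, .ofNat 0, .ofNat 0, .ofNat 0⟩, ⟨.ofNat 94, .ofNat 49, .negSucc 6, .ofNat 0, .ofNat 0, .ofNat 0⟩, .ofNat 164, .negSucc 42, .ofNat 0, .negSucc 42, .ofNat 228, .ofNat 0, .ofNat 9111, .ofNat 3035, .negSucc 13385, .ofNat 0, .ofNat 7100, .negSucc 1242, .ofNat 0, .ofNat 0, .ofNat 18734, .ofNat 2287678, .ofNat 0, .ofNat 0, .ofNat 0, .ofNat 0, .ofNat 0, .ofNat 247295032956357761614080346639722086400, .ofNat 5664416396139916106255459942400, .ofNat 0, .ofNat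 0, .ofNat 184324132829169358739519828906527948800, .ofNat 5930625623567564651857182720000, .ofNat 0, .ofNat 0, .ofNat 394385552076892586928143013459158630400, .ofNat 5865115715745134855181041664000, .ofNat 0⟩)
    (by decide +kernel)
theorem L02275 : Good (Phi V4.P V4.D 1 1) ⟨4, 12, 3, 3, 1, 0, 3, 6, 3, 4⟩ :=
  leaf_sound (S := T4.ds_pp) T4.ok_pp (w := 176) (c := ⟨⟨.negSucc 124, .negSucc 582, .negSucc 85, .negSucc 1134, .negSucc 83, .ofNat 54⟩, ⟨.negSucc 4, .negSucc 304, .negSucc 104, .negSucc 492, .negSucc 37, .ofNat 23⟩, ⟨.negSucc 298, .ofNat 658, .ofNat 89, .ofNat 740, .ofNat 99, .negSucc 13⟩, ⟨.negSucc 342, .negSucc 763, .negSucc 128, .negSucc 1831, .negSucc 134, .ofNat 87⟩, ⟨.ofNat 70, .negSucc 115, .negSucc 17, .ofNat 29, .ofNat 2, .negSucc 2⟩, .ofNat 1737, .negSucc 3049, .ofNat 0, .negSucc 3049, .ofNat 7006, .ofNat 0, .ofNat 210, .ofNat 391, .negSucc 549, .ofNat 0, .ofNat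 220, .negSucc 238, .ofNat 0, .ofNat 0, .ofNat 878, .ofNat 2856, .ofNat 0, .ofNat 0, .ofNat 1739519034777407444012236800, .ofNat 0, .ofNat 0, .ofNat 0, .ofNat 0, .ofNat 0, .ofNat 0, .ofNat 4770411209638240198173694466457600, .ofNat 103842725201355614176935936000, .ofNat 0, .ofNat 0, .ofNat 0, .ofNat 171312924276896350760180121600, .ofNat 0⟩)
    (by decide +kernel)
theorem L02276 : Good (Phi V4.P V4.D 1 1) ⟨4, 13, 3, 3, 2, 0, 3, 6, 3, 4⟩ :=
  leaf_sound (S := T4.ds_pp) T4.ok_pp (w := 184) (c := ⟨⟨.negSucc 692, .negSucc 349, .ofNat 103, .negSucc 617, .negSucc 33, .ofNat 35⟩, ⟨.negSucc 287, .negSucc 201, .negSucc 22, .negSucc 297, .negSucc 13, .ofNat 16⟩, ⟨.ofNat 332, .ofNat 303, .negSucc 79, .ofNat 441, .ofNat 48, .negSucc 1⟩, ⟨.negSucc 1109, .negSucc 483, .ofNat 197, .negSucc 950, .negSucc 54, .ofNat 54⟩, ⟨.negSucc 14, .ofNat 79, .negSucc 52, .negSucc 33, .ofNat 1, .ofNat 4⟩, .ofNat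 1226, .negSucc 1813, .ofNat 0, .negSucc 1813, .ofNat 3896, .ofNat 0, .ofNat 208, .ofNat 392, .negSucc 609, .ofNat 0, .ofNat 241, .negSucc 291, .ofNat 0, .ofNat 0, .ofNat 920, .ofNat 2296, .ofNat 0, .ofNat 0, .ofNat 160917506484329824918909747200, .ofNat 0, .ofNat 0, .ofNat 0, .ofNat 77638948743294214886271850905600, .ofNat 0, .ofNat 0, .ofNat 52814277266386284982803591541555200, .ofNat 49431163582436536437981157785600, .ofNat 0, .ofNat 0, .ofNat 243996470465600440847796188007628800, .ofNat 0, .ofNat 0⟩)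
    (by decide +kernel)
theorem L02277 : Good (Phi V4.P V4.D 1 1) ⟨4, 13, 3, 3, 2, 1, 3, 6, 3, 4⟩ :=
  leaf_sound (S := T4.ds_pp) T4.ok_pp (w := 184) (c := ⟨⟨.negSucc 1198, .negSucc 289, .negSucc 1, .negSucc 572, .negSucc 288, .ofNat 42⟩, ⟨.negSucc 516, .negSucc 203, .negSucc 90, .negSucc 266, .negSucc 139, .ofNat 21⟩, ⟨.ofNat 659, .ofNat 265, .negSucc 11, .ofNat 290, .ofNat 301, .negSucc 3⟩, ⟨.negSucc 1894, .negSucc 313, .ofNat 8, .negSucc 965, .negSucc 456, .ofNat 61⟩, ⟨.negSucc 48, .ofNat 15, .negSucc 1, .ofNat 138, .ofNat 11, .ofNat 10⟩, .ofNat 1166, .negSucc 1707, .ofNat 0, .negSucc 1707, .ofNat 3728, .ofNat 0, .ofNat 220, .ofNat 403, .negSucc 563, .ofNat 0, .ofNat 247, .negSucc 265, .ofNat 0, .ofNat 0, .ofNat 884, .ofNat 3280, .ofNat 0, .ofNat 6894411982327502171823288405196800, .ofNat 65374128373856925392673177600, .ofNat 0, .ofNat 0, .ofNat 287623364477482905739353062689996800,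 .ofNat 60973444760501014738491565670400, .ofNat 0, .ofNat 0, .ofNat 956745338912038146251158311665664000, .ofNat 46297010250771638548707252633600, .ofNat 0, .ofNat 0, .ofNat 567598351420043384083691057499340800, .ofNat 43091794539648766501304087347200, .ofNat 0⟩)
    (by decide +kernel)
theorem L02278 : Good (Phi V4.P V4.D 1 1) ⟨3, 6, 3, 3, 1, 1, 3, 6, 3, 4⟩ :=
  out_sound (S := T4.ds_pp) T4.ok_pp (w := 32) (j := 2) (by decide +kernel)
theorem L02279 : Good (Phi V4.P V4.D 1 1) ⟨4, 12, 3, 3, 2, 0, 3, 7, 3, 4⟩ :=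
  leaf_sound (S := T4.ds_pp) T4.ok_pp (w := 184) (c := ⟨⟨.negSucc 624, .ofNat 146, .negSucc 119, .negSucc 1041, .ofNat 99, .negSucc 39⟩, ⟨.negSucc 229, .ofNat 22, .negSucc 114, .negSucc 457, .ofNat 44, .negSucc 18⟩, ⟨.ofNat 287, .negSucc 171, .ofNat 114, .ofNat 893, .negSucc 80, .ofNat 82⟩, ⟨.negSucc 1074, .ofNat 317, .negSucc 179, .negSucc 1650, .ofNat 156, .negSucc 62⟩, ⟨.negSucc 30, .ofNat 20, .ofNat 1, .negSucc 40, .ofNat 3, .negSucc 0⟩, .ofNat 1791, .negSucc 3158, .ofNat 0, .negSucc 3158, .ofNat 7227, .ofNat 0, .ofNat 110, .ofNat 205, .negSucc 408, .ofNat 0, .ofNat 115, .negSucc 178, .ofNat 0, .ofNat 0, .ofNat 536, .ofNat 662, .ofNat 0, .ofNat 280793802812324850587344778035200, .ofNat 12395576385227767987725926400, .ofNat 0, .ofNat 0, .ofNat 0, .ofNat 0, .ofNat 0, .ofNat 0, .ofNat 65655302532284704581189617319936000, .ofNat 38849757095487036359195806924800, .ofNat 0, .ofNat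 0, .ofNat 156453795806596041386818804698316800, .ofNat 6322979392935294163833638092800, .ofNat 0⟩)
    (by decide +kernel)
theorem L02280 : Good (Phi V4.P V4.D 1 1) ⟨4, 12, 3, 3, 2, 1, 3, 7, 3, 4⟩ :=
  leaf_sound (S := T4.ds_pp) T4.ok_pp (w := 184) (c := ⟨⟨.negSucc 1042, .negSucc 402, .ofNat 8, .negSucc 807, .negSucc 347, .negSucc 22⟩, ⟨.negSucc 390, .negSucc 240, .negSucc 87, .negSucc 349, .negSucc 151, .negSucc 9⟩, ⟨.ofNat 538, .ofNat 374, .negSucc 15, .ofNat 569, .ofNat 360, .ofNat 67⟩, ⟨.negSucc 1798, .negSucc 493, .ofNat 25, .negSucc 1323, .negSucc 556, .negSucc 38⟩, ⟨.negSucc 32, .negSucc 0, .ofNat 0, .ofNat 76, .negSucc 3, .ofNat 7⟩, .ofNat 1018, .negSucc 1505, .ofNat 0, .negSucc 1505, .ofNat 3620, .ofNat 0, .ofNat 2059, .ofNat 3305, .negSucc 5968, .ofNat 0, .ofNat 1968, .negSucc 2570, .ofNat 0, .ofNat 0, .ofNat 8136, .ofNat 62279, .ofNat 0, .ofNat 1080296749693593348642046544235724800,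 .ofNat 0, .ofNat 0, .ofNat 0, .ofNat 292443746916128572016886004873533849600, .ofNat 0, .ofNat 0, .ofNat 0, .ofNat 244542854687173504643917141468250112000, .ofNat 0, .ofNat 0, .ofNat 0, .ofNat 342507894383911289996064246319389081600, .ofNat 0, .ofNat 0⟩)
    (by decide +kernel)
theorem L02281 : Good (Phi V4.P V4.D 1 1) ⟨5, 26, 4, 6, 3, 0, 3, 7, 3, 4⟩ :=
  leaf_sound (S := T4.ds_pp) T4.ok_pp (w := 192) (c := ⟨⟨.negSucc 329, .negSucc 155, .negSucc 4, .negSucc 858, .ofNat 177, .negSucc 88⟩, ⟨.negSucc 130, .negSucc 94, .negSucc 25, .negSucc 400, .ofNat 81, .negSucc 40⟩, ⟨.negSucc 39, .ofNat 151, .ofNat 6, .ofNat 803, .negSucc 165, .ofNat 129⟩, ⟨.negSucc 532, .negSucc 195, .negSucc 7, .negSucc 1332, .ofNat 276, .negSucc 141⟩, ⟨.negSucc 4, .negSucc 3, .ofNat 1, .negSucc 41, .ofNat 7, .ofNat 1⟩, .ofNat 1887, .negSucc 3193, .ofNat 0, .negSucc 3193, .ofNat 6875, .ofNat 0, .ofNat 108, .ofNat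 208, .negSucc 455, .ofNat 0, .ofNat 122, .negSucc 211, .ofNat 0, .ofNat 0, .ofNat 575, .ofNat 680, .ofNat 0, .ofNat 0, .ofNat 0, .ofNat 0, .ofNat 0, .ofNat 0, .ofNat 8399095087602736900672009430630400, .ofNat 0, .ofNat 0, .ofNat 104195886667718637559471302743005593600, .ofNat 7137340249143968693259122560204800, .ofNat 0, .ofNat 0, .ofNat 2508173709675904124356824222872371200000, .ofNat 0, .ofNat 0⟩)
    (by decide +kernel)
theorem L02282 : Good (Phi V4.P V4.D 1 1) ⟨5, 26, 4, 6, 3, 1, 3, 7, 3, 4⟩ :=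
  leaf_sound (S := T4.ds_pp) T4.ok_pp (w := 200) (c := ⟨⟨.negSucc 956, .negSucc 276, .ofNat 36, .negSucc 508, .negSucc 344, .negSucc 21⟩, ⟨.negSucc 406, .negSucc 163, .negSucc 25, .negSucc 235, .negSucc 160, .negSucc 10⟩, ⟨.ofNat 531, .ofNat 276, .negSucc 41, .ofNat 404, .ofNat 360, .ofNat 66⟩, ⟨.negSucc 1514, .negSucc 352, .ofNat 56, .negSucc 804, .negSucc 540, .negSucc 34⟩, ⟨.negSucc 43, .negSucc 12, .ofNat 5, .ofNat 5, .negSucc 4, .ofNat 1⟩, .ofNat 1070, .negSucc 1546, .ofNat 0, .negSucc 1546, .ofNat 3497, .ofNat 0, .ofNat 488, .ofNat 813, .negSucc 1632, .ofNat 0, .ofNat 504, .negSucc 747, .ofNat 0, .ofNat 0, .ofNat 2133, .ofNat 3885, .ofNat 0, .ofNat 159932312708515166946487534994482790400, .ofNat 0, .ofNat 0, .ofNat 0, .ofNat 16276069401290046671720424036025289932800, .ofNat 0, .ofNat 0, .ofNat 0, .ofNat 35079801907370320189571257831598220902400, .ofNat 0, .ofNat 0, .ofNat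 0, .ofNat 65429077674241979843716344547156112179200, .ofNat 0, .ofNat 0⟩)
    (by decide +kernel)
theorem L02283 : Good (Phi V4.P V4.D 1 1) ⟨5, 26, 4, 6, 2, 1, 3, 7, 3, 4⟩ :=
  leaf_sound (S := T4.ds_pp) T4.ok_pp (w := 192) (c := ⟨⟨.negSucc 1445, .negSucc 231, .ofNat 2, .negSucc 789, .negSucc 439, .negSucc 0⟩, ⟨.negSucc 628, .negSucc 143, .negSucc 49, .negSucc 360, .negSucc 203, .ofNat 1⟩, ⟨.ofNat 913, .ofNat 220, .negSucc 7, .ofNat 546, .ofNat 455, .ofNat 50⟩, ⟨.negSucc 2294, .negSucc 277, .ofNat 5, .negSucc 1282, .negSucc 683, .negSucc 3⟩, ⟨.negSucc 33, .negSucc 2, .ofNat 1, .ofNat 74, .negSucc 15, .ofNat 4⟩, .ofNat 1077, .negSucc 1560, .ofNat 0, .negSucc 1560, .ofNat 3526, .ofNat 0, .ofNat 1001, .ofNat 1700, .negSucc 3135, .ofNat 0, .ofNat 1045, .negSucc 1436, .ofNat 0, .ofNat 0, .ofNat 4183, .ofNat 26263, .ofNat 0, .ofNat 27037304110062148574367801771923865600, .ofNat 0, .ofNat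 0, .ofNat 0, .ofNat 2622846310437572652559185655017504768000, .ofNat 0, .ofNat 0, .ofNat 0, .ofNat 4701049779567040575003056913901210828800, .ofNat 0, .ofNat 0, .ofNat 0, .ofNat 7580383043270807273864338025362332057600, .ofNat 0, .ofNat 0⟩)
    (by decide +kernel)
theorem L02284 : Good (Phi V4.P V4.D 1 1) ⟨6, 52, 5, 14, 2, 0, 4, 14, 3, 4⟩ :=
  leaf_sound (S := T4.ds_pp) T4.ok_pp (w := 200) (c := ⟨⟨.negSucc 620, .ofNat 102, .negSucc 283, .negSucc 1107, .negSucc 49, .ofNat 23⟩, ⟨.negSucc 286, .ofNat 37, .negSucc 154, .negSucc 532, .negSucc 23, .ofNat 11⟩, ⟨.ofNat 236, .negSucc 79, .ofNat 300, .ofNat 949, .ofNat 60, .ofNat 16⟩, ⟨.negSucc 1005, .ofNat 200, .negSucc 431, .negSucc 1717, .negSucc 76, .ofNat 35⟩, ⟨.ofNat 17, .negSucc 28, .negSucc 19, .negSucc 43, .negSucc 3, .ofNat 2⟩, .ofNat 2335, .negSucc 4050, .ofNat 0, .negSucc 4050, .ofNat 8478, .ofNat 0, .ofNat 92, .ofNat 215, .negSucc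 418, .ofNat 0, .ofNat 122, .negSucc 200, .ofNat 0, .ofNat 0, .ofNat 544, .ofNat 2366, .ofNat 0, .ofNat 0, .ofNat 0, .ofNat 0, .ofNat 0, .ofNat 0, .ofNat 0, .ofNat 0, .ofNat 0, .ofNat 0, .ofNat 195175184761433566912120986009600, .ofNat 0, .ofNat 0, .ofNat 1466206563276856785441172419579897446400, .ofNat 131836611084231719119960512921600, .ofNat 0⟩)
    (by decide +kernel)
theorem L02285 : Good (Phi V4.P V4.D 1 1) ⟨6, 52, 5, 14, 2, 0, 4, 15, 3, 4⟩ :=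
  leaf_sound (S := T4.ds_pp) T4.ok_pp (w := 200) (c := ⟨⟨.negSucc 73, .negSucc 361, .negSucc 61, .negSucc 1654, .ofNat 181, .negSucc 8⟩, ⟨.negSucc 24, .negSucc 184, .negSucc 43, .negSucc 795, .ofNat 87, .negSucc 3⟩, ⟨.negSucc 286, .ofNat 357, .ofNat 73, .ofNat 1529, .negSucc 170, .ofNat 49⟩, ⟨.negSucc 138, .negSucc 543, .negSucc 93, .negSucc 2558, .ofNat 283, .negSucc 12⟩, ⟨.ofNat 4, .negSucc 4, .negSucc 2, .negSucc 77, .ofNat 2, .ofNat 0⟩, .ofNat 2510, .negSucc 4398, .ofNat 0, .negSucc 4398, .ofNat 9177, .ofNat 0, .ofNat 94, .ofNat 221, .negSucc 540, .ofNat 0, .ofNat 125, .negSucc 259, .ofNat 0, .ofNat 0, .ofNat 646, .ofNat 1001, .ofNat 0, .ofNat 46248184261810277494310041745463705600, .ofNat 0, .ofNat 0, .ofNat 0, .ofNat 0, .ofNat 0, .ofNat 0, .ofNat 0, .ofNat 2187075533716580706127181351391068160000, .ofNat 0, .ofNat 0, .ofNat 0, .ofNat 3407040467715463475922013406474797056000,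 .ofNat 0, .ofNat 0⟩)
    (by decide +kernel)
theorem L02286 : Good (Phi V4.P V4.D 1 1) ⟨6, 52, 5, 15, 2, 0, 3, 7, 3, 4⟩ :=
  out_sound (S := T4.ds_pp) T4.ok_pp (w := 72) (j := 3) (by decide +kernel)
theorem L02287 : Good (Phi V4.P V4.D 1 1) ⟨6, 53, 4, 7, 3, 0, 3, 7, 3, 4⟩ :=
  leaf_sound (S := T4.ds_pp) T4.ok_pp (w := 200) (c := ⟨⟨.negSucc 495, .negSucc 47, .negSucc 96, .negSucc 739, .ofNat 184, .ofNat 10⟩, ⟨.negSucc 231, .negSucc 31, .negSucc 75, .negSucc 371, .ofNat 91, .ofNat 6⟩, ⟨.ofNat 127, .ofNat 48, .ofNat 96, .ofNat 680, .negSucc 171, .ofNat 29⟩, ⟨.negSucc 781, .negSucc 54, .negSucc 143, .negSucc 1123, .ofNat 285, .ofNat 15⟩, ⟨.negSucc 1, .ofNat 4, .negSucc 6, .negSucc 45, .ofNat 5, .negSucc 0⟩, .ofNat 1319, .negSucc 1961, .ofNat 0, .negSucc 1961, .ofNat 4097, .ofNat 0, .ofNat 105, .ofNat 211, .negSucc 472, .ofNat 0, .ofNat 130, .negSucc 232, .ofNat 0, .ofNat 0, .ofNat 590,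 .ofNat 726, .ofNat 0, .ofNat 0, .ofNat 0, .ofNat 0, .ofNat 0, .ofNat 0, .ofNat 0, .ofNat 0, .ofNat 0, .ofNat 0, .ofNat 0, .ofNat 0, .ofNat 0, .ofNat 54633140842516424386211809141321000550400, .ofNat 0, .ofNat 0⟩)
    (by decide +kernel)
theorem L02288 : Good (Phi V4.P V4.D 1 1) ⟨6, 53, 4, 7, 3, 1, 3, 7, 3, 4⟩ :=
  leaf_sound (S := T4.ds_pp) T4.ok_pp (w := 200) (c := ⟨⟨.negSucc 997, .negSucc 147, .ofNat 6, .negSucc 553, .negSucc 464, .negSucc 34⟩, ⟨.negSucc 471, .negSucc 90, .negSucc 39, .negSucc 277, .negSucc 233, .negSucc 17⟩, ⟨.ofNat 568, .ofNat 147, .negSucc 11, .ofNat 445, .ofNat 480, .ofNat 77⟩, ⟨.negSucc 1551, .negSucc 184, .ofNat 8, .negSucc 860, .negSucc 713, .negSucc 52⟩, ⟨.negSucc 39, .negSucc 8, .ofNat 4, .ofNat 2, .negSucc 13, .negSucc 0⟩, .ofNat 2018, .negSucc 3310, .ofNat 0, .negSucc 3310, .ofNat 6739, .ofNat 0, .ofNat 183, .ofNat 436, .negSucc 845, .ofNat 0, .ofNat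 255, .negSucc 420, .ofNat 0, .ofNat 0, .ofNat 1089, .ofNat 1794, .ofNat 0, .ofNat 1293689156587142772067403927962779648000, .ofNat 0, .ofNat 0, .ofNat 0, .ofNat 57825814478844512374236994025582021836800, .ofNat 0, .ofNat 0, .ofNat 0, .ofNat 128647012136233882757844039161421496320000, .ofNat 0, .ofNat 0, .ofNat 0, .ofNat 243832642942761797610135301334763149721600, .ofNat 0, .ofNat 0⟩)
    (by decide +kernel)
theorem L02289 : Good (Phi V4.P V4.D 1 1) ⟨5, 26, 4, 7, 2, 1, 3, 7, 3, 4⟩ :=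
  leaf_sound (S := T4.ds_pp) T4.ok_pp (w := 192) (c := ⟨⟨.negSucc 1425, .negSucc 254, .ofNat 6, .negSucc 837, .negSucc 476, .negSucc 5⟩, ⟨.negSucc 664, .negSucc 160, .negSucc 51, .negSucc 417, .negSucc 235, .negSucc 3⟩, ⟨.ofNat 889, .ofNat 240, .negSucc 10, .ofNat 576, .ofNat 494, .ofNat 55⟩, ⟨.negSucc 2265, .negSucc 307, .ofNat 13, .negSucc 1336, .negSucc 731, .negSucc 9⟩, ⟨.negSucc 31, .negSucc 2, .ofNat 0, .ofNat 72, .negSucc 22, .ofNat 2⟩, .ofNat 1296, .negSucc 1929, .ofNat 0, .negSucc 1929, .ofNat 4068, .ofNat 0, .ofNat 881, .ofNat 1782, .negSucc 3256, .ofNat 0, .ofNat 1082, .negSucc 1593, .ofNat 0, .ofNat 0, .ofNat 4273, .ofNat 20308, .ofNat 0, .ofNat 20434508578218377750004196135088947200, .ofNat 0, .ofNat 0, .ofNat 0, .ofNat 3929985496693752314785255301762462515200, .ofNat 0, .ofNat 0, .ofNat 0, .ofNat 5991115796954661155600800363425929625600, .ofNat 0, .ofNat 0, .ofNat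 0, .ofNat 7079273959690911913720612411077033984000, .ofNat 0, .ofNat 0⟩)
    (by decide +kernel)
theorem L02290 : Good (Phi V4.P V4.D 1 1) ⟨5, 27, 4, 6, 1, 0, 3, 7, 3, 4⟩ :=
  out_sound (S := T4.ds_pp) T4.ok_pp (w := 64) (j := 3) (by decide +kernel)
theorem L02291 : Good (Phi V4.P V4.D 1 1) ⟨6, 54, 5, 14, 1, 0, 3, 7, 3, 4⟩ :=
  out_sound (S := T4.ds_pp) T4.ok_pp (w := 72) (j := 3) (by decide +kernel)
theorem L02292 : Good (Phi V4.P V4.D 1 1) ⟨7, 108, 6, 30, 1, 0, 3, 7, 3, 4⟩ :=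
  out_sound (S := T4.ds_pp) T4.ok_pp (w := 80) (j := 3) (by decide +kernel)
theorem L02293 : Good (Phi V4.P V4.D 1 1) ⟨7, 108, 6, 31, 3, 0, 3, 7, 3, 4⟩ :=
  leaf_sound (S := T4.ds_pp) T4.ok_pp (w := 208) (c := ⟨⟨.negSucc 522, .ofNat 114, .negSucc 39, .negSucc 779, .ofNat 157, .negSucc 52⟩, ⟨.negSucc 266, .ofNat 55, .negSucc 27, .negSucc 407, .ofNat 82, .negSucc 27⟩, ⟨.ofNat 152, .negSucc 116, .ofNat 40, .ofNat 719, .negSucc 143, .ofNat 92⟩, ⟨.negSucc 803, .ofNat 184, .negSucc 61, .negSucc 1173, .ofNat 240, .negSucc 80⟩, ⟨.negSucc 2, .ofNat 3, .ofNat 1, .negSucc 46, .ofNat 2, .negSucc 0⟩, .ofNat 3304, .negSucc 5605, .ofNat 0, .negSucc 5605, .ofNat 10788, .ofNat 0, .ofNat 76, .ofNat 223, .negSucc 472, .ofNat 0, .ofNat 130, .negSucc 246, .ofNat 0, .ofNat 0, .ofNat 590, .ofNat 595, .ofNat 0, .ofNat 0, .ofNat 0, .ofNat 0, .ofNat 0, .ofNat 809512510260069124632073520051880827289600, .ofNat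 8720040485547818537271195126988800, .ofNat 0, .ofNat 0, .ofNat 0, .ofNat 0, .ofNat 0, .ofNat 0, .ofNat 13071927985953893203749524174308339246694400, .ofNat 0, .ofNat 0⟩)
    (by decide +kernel)

end Crest.Agent.R097C4.N4pp
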