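import Crest.Agent.R097.T4

/-!
# Row 97, box cover in dimension n = 4 (generated)
-/

set_option autoImplicit false
set_option Elab.async false
set_option maxHeartbeats 0
set_option maxRecDepth 100000

open Crest.Agent.R097 Crest.Agent.R097.KA


namespace Crest.Agent.R097C4.N4pp

theorem L02294 : Good (Phi V4.P V4.D 1 1) ⟨7, 108, 6, 31, 3, 1, 4, 14, 3, 4⟩ :=
  leaf_sound (S := T4.ds_pp) T4.ok_pp (w := 216) (c := ⟨⟨.negSucc 1093, .negSucc 119, .ofNat 10, .negSucc 600, .negSucc 275, .negSucc 19⟩, ⟨.negSucc 560, .negSucc 71, .negSucc 6, .negSucc 314, .negSucc 143, .negSucc 9⟩, ⟨.ofNat 662, .ofNat 121, .negSucc 10, .ofNat 484, .ofNat 282, .ofNat 63⟩, ⟨.negSucc 1663, .negSucc 158, .ofNat 15, .negSucc 923, .negSucc 417, .negSucc 29⟩, ⟨.negSucc 41, .negSucc 7, .ofNat 2, .ofNat 1, .negSucc 9, .ofNat 0⟩, .ofNat 3896, .negSucc 6698, .ofNat 0, .negSucc 6698, .ofNat 12812, .ofNat 0, .ofNat 149,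 .ofNat 457, .negSucc 874, .ofNat 0, .ofNat 264, .negSucc 457, .ofNat 0, .ofNat 0, .ofNat 1114, .ofNat 6077, .ofNat 0, .ofNat 0, .ofNat 0, .ofNat 0, .ofNat 0, .ofNat 11677333104769976626709949958792489520332800, .ofNat 280725623242685016735056640815923200, .ofNat 0, .ofNat 0, .ofNat 0, .ofNat 0, .ofNat 0, .ofNat 0, .ofNat 0, .ofNat 0, .ofNat 0⟩)
    (by decide +kernel)
theorem L02295 : Good (Phi V4.P V4.D 1 1) ⟨7, 108, 6, 31, 3, 1, 4, 15, 3, 4⟩ :=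
  leaf_sound (S := T4.ds_pp) T4.ok_pp (w := 216) (c := ⟨⟨.negSucc 1272, .negSucc 84, .negSucc 7, .negSucc 893, .negSucc 430, .negSucc 78⟩, ⟨.negSucc 654, .negSucc 53, .negSucc 16, .negSucc 467, .negSucc 225, .negSucc 40⟩, ⟨.ofNat 843, .ofNat 81, .ofNat 9, .ofNat 788, .ofNat 437, .ofNat 122⟩, ⟨.negSucc 1938, .negSucc 107, .negSucc 11, .negSucc 1355, .negSucc 650, .negSucc 118⟩, ⟨.negSucc 40, .negSucc 1, .negSucc 0, .negSucc 33, .negSucc 19, .negSucc 4⟩, .ofNat 1492, .negSucc 2232, .ofNat 0, .negSucc 2232, .ofNat 4469, .ofNat 0, .ofNat 793, .ofNat 1790, .negSucc 4453, .ofNat 0, .ofNat 1099, .negSucc 2291, .ofNat 0, .ofNat 0, .ofNat 5246, .ofNat 12788, .ofNat 0, .ofNat 13189701433077176889269851174714720282214400, .ofNat 0, .ofNat 0, .ofNat 0, .ofNat 0, .ofNat 0, .ofNat 0, .ofNat 0, .ofNat 3556835154334581222386603107511299194067353600, .ofNat 0, .ofNat 0, .ofNat 0, .ofNat 5017084676797011703845369687000935253304934400,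 .ofNat 0, .ofNat 0⟩)
    (by decide +kernel)
theorem L02296 : Good (Phi V4.P V4.D 1 1) ⟨7, 108, 6, 31, 2, 1, 3, 7, 3, 4⟩ :=
  leaf_sound (S := T4.ds_pp) T4.ok_pp (w := 208) (c := ⟨⟨.negSucc 1668, .negSucc 67, .ofNat 0, .negSucc 896, .negSucc 624, .negSucc 11⟩, ⟨.negSucc 859, .negSucc 45, .negSucc 12, .negSucc 466, .negSucc 327, .negSucc 5⟩, ⟨.ofNat 1114, .ofNat 65, .negSucc 1, .ofNat 614, .ofNat 631, .ofNat 59⟩, ⟨.negSucc 2550, .negSucc 80, .ofNat 1, .negSucc 1417, .negSucc 943, .negSucc 19⟩, ⟨.negSucc 34, .negSucc 0, .ofNat 0, .ofNat 76, .negSucc 29, .ofNat 2⟩, .ofNat 2455, .negSucc 4020, .ofNat 0, .negSucc 4020, .ofNat 7820, .ofNat 0, .ofNat 670, .ofNat 1881, .negSucc 3336, .ofNat 0, .ofNat 1102, .negSucc 1737, .ofNat 0, .ofNat 0, .ofNat 4334, .ofNat 40338, .ofNat 0, .ofNat 161606725041320544466697138940197575065600, .ofNat 0, .ofNat 0, .ofNat 0, .ofNat 14704934867614700037385893723237613830144000,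 .ofNat 0, .ofNat 0, .ofNat 0, .ofNat 30566474494255992226459958055943016546304000, .ofNat 0, .ofNat 0, .ofNat 0, .ofNat 43761239424772978410520068331915829261107200, .ofNat 81804644718569151294495050956800, .ofNat 0⟩)
    (by decide +kernel)
theorem L02297 : Good (Phi V4.P V4.D 1 1) ⟨7, 109, 5, 15, 1, 0, 3, 7, 3, 4⟩ :=
  out_sound (S := T4.ds_pp) T4.ok_pp (w := 80) (j := 3) (by decide +kernel)
theorem L02298 : Good (Phi V4.P V4.D 1 1) ⟨6, 55, 4, 7, 1, 0, 3, 7, 3, 4⟩ :=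
  out_sound (S := T4.ds_pp) T4.ok_pp (w := 72) (j := 3) (by decide +kernel)
theorem L02299 : Good (Phi V4.P V4.D 1 1) ⟨3, 6, 3, 3, 1, 1, 3, 7, 3, 4⟩ :=
  out_sound (S := T4.ds_pp) T4.ok_pp (w := 32) (j := 2) (by decide +kernel)
theorem L02300 : Good (Phi V4.P V4.D 1 1) ⟨3, 6, 3, 3, 2, 0, 3, 4, 3, 5⟩ :=
  leaf_sound (S := T4.ds_pp) T4.ok_pp (w := 176) (c := ⟨⟨.negSucc 618, .negSucc 252, .negSucc 8, .negSucc 280, .negSucc 24, .ofNat 76⟩, ⟨.negSucc 226, .negSucc 179, .negSucc 71, .negSucc 136, .negSucc 13, .ofNat 39⟩, ⟨.ofNat 289, .ofNat 249, .negSucc 2, .ofNat 68, .ofNat 40, .negSucc 59⟩, ⟨.negSucc 1058, .negSucc 254, .ofNat 8, .negSucc 414, .negSucc 37, .ofNat 110⟩, ⟨.negSucc 46, .ofNat 38, .negSucc 2, .negSucc 52, .ofNat 0, .ofNat 14⟩, .ofNat 635, .negSucc 698, .ofNat 0, .negSucc 698, .ofNat 1698, .ofNat 0, .ofNat 238, .ofNat 295, .negSucc 352, .ofNat 0, .ofNat 216, .negSucc 154,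 .ofNat 0, .ofNat 0, .ofNat 744, .ofNat 48735, .ofNat 35135063081477301588588372374323200, .ofNat 0, .ofNat 508275287071438919276534169600, .ofNat 0, .ofNat 614635908739026000518320639023513600, .ofNat 0, .ofNat 54419313402391207924661118566400, .ofNat 0, .ofNat 104137752557941681599921475760947200, .ofNat 0, .ofNat 116023450014014422215522307276800, .ofNat 0, .ofNat 1427455991663371306461702767247360000, .ofNat 0, .ofNat 27917911886125801020020962099200, .ofNat 0⟩)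
    (by decide +kernel)
theorem L02301 : Good (Phi V4.P V4.D 1 1) ⟨3, 6, 3, 3, 3, 0, 3, 5, 3, 5⟩ :=
  leaf_sound (S := T4.ds_pp) T4.ok_pp (w := 184) (c := ⟨⟨.negSucc 596, .negSucc 252, .negSucc 15, .negSucc 205, .ofNat 2, .ofNat 64⟩, ⟨.negSucc 217, .negSucc 184, .negSucc 64, .negSucc 99, .ofNat 0, .ofNat 32⟩, ⟨.ofNat 252, .ofNat 260, .ofNat 11, .ofNat 127, .ofNat 8, .negSucc 38⟩, ⟨.negSucc 1037, .negSucc 235, .negSucc 13, .negSucc 298, .ofNat 3, .ofNat 101⟩, ⟨.negSucc 0, .negSucc 11, .ofNat 5, .negSucc 49, .ofNat 3, .negSucc 1⟩, .ofNat 631, .negSucc 692, .ofNat 0, .negSucc 692, .ofNat 1689, .ofNat 0, .ofNat 242, .ofNat 296, .negSucc 423, .ofNat 0, .ofNat 218, .negSucc 186, .ofNat 0, .ofNat 0, .ofNat 765, .ofNat 26134, .ofNat 2229073969993557136471759636345651200, .ofNat 0, .ofNat 133817269298696999789728156876800, .ofNat 0, .ofNat 0, .ofNat 0, .ofNat 0, .ofNat 0, .ofNat 0, .ofNat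 0, .ofNat 57355841656095506565705767898316800, .ofNat 0, .ofNat 0, .ofNat 0, .ofNat 0, .ofNat 0⟩)
    (by decide +kernel)
theorem L02302 : Good (Phi V4.P V4.D 1 1) ⟨3, 6, 3, 3, 3, 1, 3, 5, 3, 5⟩ :=
  leaf_sound (S := T4.ds_pp) T4.ok_pp (w := 184) (c := ⟨⟨.negSucc 669, .negSucc 381, .ofNat 10, .negSucc 221, .negSucc 97, .ofNat 58⟩, ⟨.negSucc 241, .negSucc 258, .negSucc 64, .negSucc 104, .negSucc 46, .ofNat 28⟩, ⟨.ofNat 256, .ofNat 360, .negSucc 16, .ofNat 116, .ofNat 121, .negSucc 28⟩, ⟨.negSucc 1132, .negSucc 429, .ofNat 36, .negSucc 353, .negSucc 160, .ofNat 88⟩, ⟨.negSucc 86, .ofNat 38, .negSucc 6, .ofNat 12, .ofNat 15, .ofNat 5⟩, .ofNat 1161, .negSucc 1714, .ofNat 0, .negSucc 1714, .ofNat 3785, .ofNat 0, .ofNat 186, .ofNat 334, .negSucc 392, .ofNat 0, .ofNat 204, .negSucc 182, .ofNat 0, .ofNat 0, .ofNat 745, .ofNat 5717, .ofNat 426937238051626289644147060192051200, .ofNat 0, .ofNat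 70223232595464454079639243980800, .ofNat 0, .ofNat 17277428193177099677348870250666393600, .ofNat 0, .ofNat 30511671303044275224089650318540800, .ofNat 0, .ofNat 0, .ofNat 0, .ofNat 55866037807489992106025264401612800, .ofNat 0, .ofNat 0, .ofNat 0, .ofNat 0, .ofNat 0⟩)
    (by decide +kernel)
theorem L02303 : Good (Phi V4.P V4.D 1 1) ⟨3, 6, 3, 3, 2, 1, 2, 2, 3, 5⟩ :=
  leaf_sound (S := T4.ds_pp) T4.ok_pp (w := 168) (c := ⟨⟨.negSucc 832, .negSucc 248, .negSucc 20, .negSucc 316, .negSucc 243, .ofNat 68⟩, ⟨.negSucc 313, .negSucc 195, .negSucc 91, .negSucc 148, .negSucc 113, .ofNat 31⟩, ⟨.ofNat 304, .ofNat 179, .ofNat 17, .ofNat 38, .ofNat 304, .negSucc 36⟩, ⟨.negSucc 1392, .negSucc 204, .negSucc 13, .negSucc 553, .negSucc 405, .ofNat 104⟩, ⟨.negSucc 94, .ofNat 27, .ofNat 3, .ofNat 121, .ofNat 45, .ofNat 7⟩, .ofNat 1164, .negSucc 1721, .ofNat 0, .negSucc 1721, .ofNat 3803, .ofNat 0,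 .ofNat 186, .ofNat 336, .negSucc 342, .ofNat 0, .ofNat 205, .negSucc 158, .ofNat 0, .ofNat 0, .ofNat 727, .ofNat 1545, .ofNat 183848043297137236894375162675200, .ofNat 0, .ofNat 12012956248860967953235968000, .ofNat 0, .ofNat 20086062819185974088831775591628800, .ofNat 767184587415020664747921191731200, .ofNat 6906348651320428317779165184000, .ofNat 0, .ofNat 0, .ofNat 1239244131260313001953832049049600, .ofNat 10816944422254893693355740364800, .ofNat 0, .ofNat 0, .ofNat 0, .ofNat 0, .ofNat 0⟩)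
    (by decide +kernel)
theorem L02304 : Good (Phi V4.P V4.D 1 1) ⟨3, 6, 3, 3, 1, 1, 2, 2, 3, 5⟩ :=
  out_sound (S := T4.ds_pp) T4.ok_pp (w := 32) (j := 2) (by decide +kernel)
theorem L02305 : Good (Phi V4.P V4.D 1 1) ⟨4, 12, 3, 3, 1, 0, 3, 6, 3, 5⟩ :=
  leaf_sound (S := T4.ds_pp) T4.ok_pp (w := 168) (c := ⟨⟨.negSucc 473, .negSucc 158, .negSucc 133, .negSucc 1199, .negSucc 67, .ofNat 54⟩, ⟨.negSucc 157, .negSucc 117, .negSucc 121, .negSucc 524, .negSucc 29, .ofNat 23⟩, ⟨.ofNat 115, .ofNat 177, .ofNat 129, .ofNat 872, .ofNat 91, .negSucc 15⟩, ⟨.negSucc 862, .negSucc 138, .negSucc 201, .negSucc 1903, .negSucc 105, .ofNat 92⟩, ⟨.ofNat 24, .negSucc 37, .ofNat 1, .negSucc 41, .negSucc 4, .negSucc 11⟩, .ofNat 1771, .negSucc 3119, .ofNat 0, .negSucc 3119, .ofNat 7153, .ofNat 0, .ofNat 189, .ofNat 348, .negSucc 483, .ofNat 0, .ofNat 196, .negSucc 211, .ofNat 0, .ofNat 0, .ofNat 794, .ofNat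 4500, .ofNat 0, .ofNat 0, .ofNat 321728111861403178185523200, .ofNat 0, .ofNat 0, .ofNat 3435341907671115484451927438131200, .ofNat 0, .ofNat 0, .ofNat 0, .ofNat 3622841139046281804066106795622400, .ofNat 133086491118829585149670195200, .ofNat 0, .ofNat 0, .ofNat 1920109148488640055588547461120000, .ofNat 182276261500180316485268275200, .ofNat 0⟩)
    (by decide +kernel)
theorem L02306 : Good (Phi V4.P V4.D 1 1) ⟨5, 26, 4, 6, 2, 0, 3, 6, 3, 5⟩ :=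
  leaf_sound (S := T4.ds_pp) T4.ok_pp (w := 184) (c := ⟨⟨.negSucc 612, .negSucc 89, .ofNat 12, .negSucc 654, .negSucc 95, .ofNat 48⟩, ⟨.negSucc 256, .negSucc 69, .negSucc 22, .negSucc 303, .negSucc 42, .ofNat 21⟩, ⟨.ofNat 281, .ofNat 79, .negSucc 10, .ofNat 488, .ofNat 116, .negSucc 19⟩, ⟨.negSucc 974, .negSucc 88, .ofNat 22, .negSucc 1022, .negSucc 151, .ofNat 74⟩, ⟨.negSucc 27, .ofNat 14, .negSucc 5, .negSucc 19, .ofNat 0, .ofNat 7⟩, .ofNat 1485, .negSucc 2387, .ofNat 0, .negSucc 2387, .ofNat 5242, .ofNat 0, .ofNat 187, .ofNat 349, .negSucc 498, .ofNat 0, .ofNat 207, .negSucc 229, .ofNat 0, .ofNat 0, .ofNat 801, .ofNat 6115, .ofNat 0, .ofNat 0, .ofNat 0, .ofNat 0, .ofNat 0, .ofNat 5425868885291611746811394917190860800, .ofNat 60948715918643032264290179481600, .ofNat 0, .ofNat 0, .ofNat 14939242144278273730460914606197964800, .ofNat 41828363018533009131946219929600, .ofNat 0, .ofNat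 0, .ofNat 20098160339129979152287926639919104000, .ofNat 0, .ofNat 0⟩)
    (by decide +kernel)
theorem L02307 : Good (Phi V4.P V4.D 1 1) ⟨5, 26, 4, 7, 2, 0, 3, 6, 3, 5⟩ :=
  leaf_sound (S := T4.ds_pp) T4.ok_pp (w := 184) (c := ⟨⟨.negSucc 584, .negSucc 103, .negSucc 1, .negSucc 718, .negSucc 77, .ofNat 59⟩, ⟨.negSucc 256, .negSucc 88, .negSucc 23, .negSucc 355, .negSucc 37, .ofNat 29⟩, ⟨.ofNat 241, .ofNat 118, .negSucc 3, .ofNat 553, .ofNat 96, .negSucc 31⟩, ⟨.negSucc 952, .negSucc 82, .negSucc 7, .negSucc 1103, .negSucc 122, .ofNat 90⟩, ⟨.negSucc 0, .negSucc 28, .ofNat 5, .negSucc 31, .ofNat 2, .ofNat 5⟩, .ofNat 664, .negSucc 743, .ofNat 0, .negSucc 743, .ofNat 1731, .ofNat 0, .ofNat 247, .ofNat 325, .negSucc 559, .ofNat 0, .ofNat 237, .negSucc 258, .ofNat 0, .ofNat 0, .ofNat 850, .ofNat 6169, .ofNat 0, .ofNat 0, .ofNat 63888566168990958601686220800, .ofNat 0, .ofNat 0, .ofNat 0,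 .ofNat 0, .ofNat 0, .ofNat 0, .ofNat 0, .ofNat 0, .ofNat 0, .ofNat 0, .ofNat 0, .ofNat 0, .ofNat 0⟩)
    (by decide +kernel)
theorem L02308 : Good (Phi V4.P V4.D 1 1) ⟨5, 26, 3, 3, 2, 1, 3, 6, 3, 5⟩ :=
  leaf_sound (S := T4.ds_pp) T4.ok_pp (w := 184) (c := ⟨⟨.negSucc 1180, .negSucc 121, .negSucc 0, .negSucc 511, .negSucc 264, .ofNat 45⟩, ⟨.negSucc 512, .negSucc 86, .negSucc 81, .negSucc 242, .negSucc 129, .ofNat 22⟩, ⟨.ofNat 670, .ofNat 112, .negSucc 9, .ofNat 271, .ofNat 287, .negSucc 6⟩, ⟨.negSucc 1870, .negSucc 122, .ofNat 4, .negSucc 856, .negSucc 416, .ofNat 67⟩, ⟨.negSucc 35, .ofNat 5, .ofNat 0, .ofNat 112, .ofNat 11, .ofNat 7⟩, .ofNat 345, .negSucc 220, .ofNat 0, .negSucc 220, .ofNat 677, .ofNat 0, .ofNat 691, .ofNat 510, .negSucc 1128, .ofNat 0, .ofNat 553, .negSucc 433, .ofNat 0, .ofNat 0, .ofNat 1701, .ofNat 13203, .ofNat 0, .ofNat 0, .ofNat 0, .ofNat 0, .ofNat 0, .ofNat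 128363802542457282729650209665790771200, .ofNat 0, .ofNat 0, .ofNat 0, .ofNat 110480016438388355089122326742250291200, .ofNat 0, .ofNat 0, .ofNat 0, .ofNat 133675371679805229012085282127531212800, .ofNat 0, .ofNat 0⟩)
    (by decide +kernel)
theorem L02309 : Good (Phi V4.P V4.D 1 1) ⟨5, 27, 4, 6, 1, 0, 3, 6, 3, 5⟩ :=
  out_sound (S := T4.ds_pp) T4.ok_pp (w := 64) (j := 3) (by decide +kernel)
theorem L02310 : Good (Phi V4.P V4.D 1 1) ⟨5, 27, 4, 7, 2, 0, 4, 12, 3, 5⟩ :=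
  leaf_sound (S := T4.ds_pp) T4.ok_pp (w := 192) (c := ⟨⟨.negSucc 716, .negSucc 159, .ofNat 1, .negSucc 620, .negSucc 53, .ofNat 49⟩, ⟨.negSucc 342, .negSucc 104, .negSucc 31, .negSucc 323, .negSucc 28, .ofNat 26⟩, ⟨.ofNat 374, .ofNat 152, .ofNat 8, .ofNat 443, .ofNat 65, .negSucc 18⟩, ⟨.negSucc 1110, .negSucc 201, .ofNat 19, .negSucc 937, .negSucc 81, .ofNat 73⟩, ⟨.ofNat 3, .ofNat 3, .negSucc 22, .negSucc 29, .negSucc 0, .ofNat 3⟩, .ofNat 1481, .negSucc 2214, .ofNat 0, .negSucc 2214, .ofNat 4440, .ofNat 0, .ofNat 163, .ofNat 364, .negSucc 497, .ofNat 0, .ofNat 224, .negSucc 254, .ofNat 0, .ofNat 0, .ofNat 807, .ofNat 17213, .ofNat 0, .ofNat 0, .ofNat 0, .ofNat 0, .ofNat 0, .ofNat 0, .ofNat 1321535130602127472055361208320000, .ofNat 0, .ofNat 0, .ofNat 0, .ofNat 1244512460130624314245373755392000, .ofNat 0, .ofNat 0, .ofNat 0, .ofNat 855654851775555487984823304192000, .ofNat 0⟩)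
    (by decide +kernel)
theorem L02311 : Good (Phi V4.P V4.D 1 1) ⟨5, 27, 4, 7, 2, 0, 4, 13, 3, 5⟩ :=
  leaf_sound (S := T4.ds_pp) T4.ok_pp (w := 192) (c := ⟨⟨.negSucc 555, .ofNat 68, .negSucc 94, .negSucc 853, .negSucc 90, .ofNat 21⟩, ⟨.negSucc 258, .ofNat 9, .negSucc 81, .negSucc 445, .negSucc 46, .ofNat 11⟩, ⟨.ofNat 233, .negSucc 85, .ofNat 84, .ofNat 685, .ofNat 104, .ofNat 12⟩, ⟨.negSucc 848, .ofNat 153, .negSucc 144, .negSucc 1296, .negSucc 136, .ofNat 31⟩, ⟨.negSucc 20, .ofNat 13, .ofNat 6, .negSucc 29, .negSucc 4, .ofNat 1⟩, .ofNat 3320, .negSucc 5636, .ofNat 0, .negSucc 5636, .ofNat 10852, .ofNat 0, .ofNat 131, .ofNat 391, .negSucc 584, .ofNat 0, .ofNat 227, .negSucc 305, .ofNat 0, .ofNat 0, .ofNat 864, .ofNat 5911, .ofNat 0, .ofNat 0, .ofNat 0, .ofNat 0, .ofNat 0, .ofNat 0, .ofNat 1410895620067437213028060653158400, .ofNat 0, .ofNat 0, .ofNat 46684661572462911254226543644246016000,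 .ofNat 1103303823570933214114892847513600, .ofNat 0, .ofNat 0, .ofNat 68977554736263882830622671277706444800, .ofNat 686588740108227964965175374643200, .ofNat 0⟩)
    (by decide +kernel)
theorem L02312 : Good (Phi V4.P V4.D 1 1) ⟨5, 27, 4, 7, 2, 1, 3, 6, 3, 5⟩ :=
  leaf_sound (S := T4.ds_pp) T4.ok_pp (w := 192) (c := ⟨⟨.negSucc 1289, .negSucc 108, .negSucc 9, .negSucc 550, .negSucc 292, .ofNat 42⟩, ⟨.negSucc 631, .negSucc 82, .negSucc 48, .negSucc 284, .negSucc 152, .ofNat 22⟩, ⟨.ofNat 764, .ofNat 96, .ofNat 5, .ofNat 287, .ofNat 316, .negSucc 3⟩, ⟨.negSucc 1973, .negSucc 109, .negSucc 7, .negSucc 909, .negSucc 454, .ofNat 62⟩, ⟨.negSucc 30, .ofNat 6, .negSucc 0, .ofNat 121, .ofNat 9, .ofNat 7⟩, .ofNat 2453, .negSucc 4019, .ofNat 0, .negSucc 4019, .ofNat 7821, .ofNat 0, .ofNat 278, .ofNat 774, .negSucc 949, .ofNat 0, .ofNat 454, .negSucc 493, .ofNat 0, .ofNat 0, .ofNat 1585, .ofNat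 29663, .ofNat 0, .ofNat 0, .ofNat 0, .ofNat 0, .ofNat 0, .ofNat 312679198759793242134108862692930355200, .ofNat 675221157264562065285247401984000, .ofNat 0, .ofNat 0, .ofNat 613485055458032423532460120827179827200, .ofNat 367674418326295434668639728435200, .ofNat 0, .ofNat 0, .ofNat 669909739811605291348453969432569446400, .ofNat 76881883751118404834894335180800, .ofNat 0⟩)
    (by decide +kernel)
theorem L02313 : Good (Phi V4.P V4.D 1 1) ⟨3, 6, 3, 3, 1, 1, 3, 6, 3, 5⟩ :=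
  out_sound (S := T4.ds_pp) T4.ok_pp (w := 32) (j := 2) (by decide +kernel)
theorem L02314 : Good (Phi V4.P V4.D 1 1) ⟨4, 12, 3, 3, 1, 0, 4, 14, 3, 5⟩ :=
  leaf_sound (S := T4.ds_pp) T4.ok_pp (w := 176) (c := ⟨⟨.negSucc 242, .negSucc 280, .negSucc 68, .negSucc 2041, .negSucc 22, .ofNat 23⟩, ⟨.negSucc 64, .negSucc 163, .negSucc 87, .negSucc 891, .negSucc 9, .ofNat 10⟩, ⟨.negSucc 55, .ofNat 243, .ofNat 107, .ofNat 1790, .ofNat 37, .ofNat 11⟩, ⟨.negSucc 468, .negSucc 364, .negSucc 85, .negSucc 3223, .negSucc 34, .ofNat 36⟩, ⟨.negSucc 33, .ofNat 33, .negSucc 45, .negSucc 111, .negSucc 4, .negSucc 0⟩, .ofNat 1649, .negSucc 2858, .ofNat 0, .negSucc 2858, .ofNat 6592, .ofNat 0, .ofNat 200, .ofNat 366, .negSucc 670, .ofNat 0, .ofNat 207, .negSucc 292, .ofNat 0, .ofNat 0, .ofNat 924, .ofNat 3926, .ofNat 0, .ofNat 50269384165440760413986960179200, .ofNat 0, .ofNat 0, .ofNat 0, .ofNat 14273622801365252291972212300185600,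 .ofNat 0, .ofNat 0, .ofNat 0, .ofNat 13002558843939529157484571577548800, .ofNat 2234698824475128454518826598400, .ofNat 0, .ofNat 0, .ofNat 7859554171858332234469769792716800, .ofNat 1825794715016993557127469465600, .ofNat 0⟩)
    (by decide +kernel)
theorem L02315 : Good (Phi V4.P V4.D 1 1) ⟨5, 26, 3, 3, 2, 0, 4, 14, 3, 5⟩ :=
  leaf_sound (S := T4.ds_pp) T4.ok_pp (w := 184) (c := ⟨⟨.negSucc 438, .negSucc 140, .negSucc 26, .negSucc 1151, .negSucc 28, .ofNat 16⟩, ⟨.negSucc 166, .negSucc 88, .negSucc 81, .negSucc 553, .negSucc 15, .ofNat 12⟩, ⟨.ofNat 113, .ofNat 137, .ofNat 21, .ofNat 1010, .ofNat 36, .ofNat 20⟩, ⟨.negSucc 713, .negSucc 165, .negSucc 33, .negSucc 1778, .negSucc 43, .ofNat 23⟩, ⟨.negSucc 7, .ofNat 0, .ofNat 0, .negSucc 51, .ofNat 0, .negSucc 1⟩, .ofNat 630, .negSucc 687, .ofNat 0, .negSucc 687, .ofNat 1673, .ofNat 0, .ofNat 271, .ofNat 332, .negSucc 736, .ofNat 0,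 .ofNat 245, .negSucc 327, .ofNat 0, .ofNat 0, .ofNat 979, .ofNat 4795, .ofNat 0, .ofNat 0, .ofNat 0, .ofNat 0, .ofNat 0, .ofNat 0, .ofNat 0, .ofNat 0, .ofNat 0, .ofNat 23462126664954329036826129220396646400, .ofNat 0, .ofNat 0, .ofNat 0, .ofNat 28023326633608812960963866813634969600, .ofNat 0, .ofNat 0⟩)
    (by decide +kernel)
theorem L02316 : Good (Phi V4.P V4.D 1 1) ⟨5, 27, 4, 6, 2, 0, 4, 14, 3, 5⟩ :=
  out_sound (S := T4.ds_pp) T4.ok_pp (w := 64) (j := 3) (by decide +kernel)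
theorem L02317 : Good (Phi V4.P V4.D 1 1) ⟨5, 27, 4, 7, 2, 0, 4, 14, 3, 5⟩ :=
  leaf_sound (S := T4.ds_pp) T4.ok_pp (w := 192) (c := ⟨⟨.negSucc 422, .negSucc 160, .negSucc 116, .negSucc 1327, .negSucc 104, .ofNat 46⟩, ⟨.negSucc 187, .negSucc 108, .negSucc 94, .negSucc 693, .negSucc 54, .ofNat 23⟩, ⟨.ofNat 85, .ofNat 191, .ofNat 122, .ofNat 1181, .ofNat 116, .negSucc 10⟩, ⟨.negSucc 658, .negSucc 181, .negSucc 170, .negSucc 2006, .negSucc 156, .ofNat 71⟩, ⟨.ofNat 0, .negSucc 34, .negSucc 2, .negSucc 62, .negSucc 5, .negSucc 0⟩, .ofNat 2455, .negSucc 4023, .ofNat 0, .negSucc 4023, .ofNat 7829, .ofNat 0, .ofNat 147, .ofNat 404, .negSucc 757, .ofNat 0, .ofNat 237, .negSucc 393, .ofNat 0, .ofNat 0, .ofNat 994, .ofNat 6334, .ofNat 0, .ofNat 1564543420210187013135518684046950400, .ofNat 0, .ofNat 0, .ofNat 0, .ofNat 9813824137406338221403272153504153600, .ofNat 1197765867729095361184927422873600,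 .ofNat 0, .ofNat 0, .ofNat 138311164151067092564055733291922227200, .ofNat 477033028615382419352917219737600, .ofNat 0, .ofNat 0, .ofNat 102811460145914094863230163886066892800, .ofNat 341731380910293663066359857152000, .ofNat 0⟩)
    (by decide +kernel)
theorem L02318 : Good (Phi V4.P V4.D 1 1) ⟨4, 13, 3, 3, 2, 1, 4, 14, 3, 5⟩ :=
  out_sound (S := T4.ds_pp) T4.ok_pp (w := 32) (j := 2) (by decide +kernel)
theorem L02319 : Good (Phi V4.P V4.D 1 1) ⟨4, 12, 3, 3, 2, 0, 4, 15, 3, 5⟩ :=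
  leaf_sound (S := T4.ds_pp) T4.ok_pp (w := 184) (c := ⟨⟨.negSucc 255, .negSucc 106, .ofNat 134, .negSucc 1635, .ofNat 176, .negSucc 11⟩, ⟨.negSucc 75, .negSucc 81, .ofNat 19, .negSucc 717, .ofNat 78, .negSucc 4⟩, ⟨.negSucc 66, .ofNat 101, .negSucc 142, .ofNat 1534, .negSucc 167, .ofNat 45⟩, ⟨.negSucc 484, .negSucc 90, .ofNat 213, .negSucc 2584, .ofNat 280, .negSucc 17⟩, ⟨.negSucc 0, .negSucc 0, .ofNat 4, .negSucc 76, .ofNat 4, .negSucc 1⟩, .ofNat 1793, .negSucc 3164, .ofNat 0, .negSucc 3164, .ofNat 7244, .ofNat 0, .ofNat 103, .ofNat 191, .negSucc 436, .ofNat 0, .ofNat 108, .negSucc 191, .ofNat 0, .ofNat 0, .ofNat 544, .ofNat 1618, .ofNat 0, .ofNat 0, .ofNat 0, .ofNat 0, .ofNat 0, .ofNat 0, .ofNat 0, .ofNat 0, .ofNat 0, .ofNat 584923369537368769260981455526297600, .ofNat 492102921815515875026842052198400, .ofNat 0, .ofNat 0, .ofNat 1142350907550700021274111569507123200, .ofNat 255179037128475412447104702873600,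 .ofNat 0⟩)
    (by decide +kernel)
theorem L02320 : Good (Phi V4.P V4.D 1 1) ⟨4, 12, 3, 3, 2, 1, 4, 15, 3, 5⟩ :=
  out_sound (S := T4.ds_pp) T4.ok_pp (w := 32) (j := 2) (by decide +kernel)
theorem L02321 : Good (Phi V4.P V4.D 1 1) ⟨5, 26, 3, 3, 2, 0, 4, 15, 3, 5⟩ :=
  leaf_sound (S := T4.ds_pp) T4.ok_pp (w := 184) (c := ⟨⟨.negSucc 228, .negSucc 213, .ofNat 17, .negSucc 1912, .ofNat 117, .negSucc 61⟩, ⟨.negSucc 68, .negSucc 109, .negSucc 64, .negSucc 921, .ofNat 56, .negSucc 33⟩, ⟨.negSucc 98, .ofNat 220, .negSucc 27, .ofNat 1803, .negSucc 106, .ofNat 96⟩, ⟨.negSucc 387, .negSucc 295, .ofNat 47, .negSucc 2951, .ofNat 182, .negSucc 91⟩, ⟨.ofNat 4, .negSucc 4, .negSucc 1, .negSucc 89, .ofNat 2, .negSucc 2⟩, .ofNat 1164, .negSucc 1707, .ofNat 0, .negSucc 1707, .ofNat 3736, .ofNat 0, .ofNat 107, .ofNat 192, .negSucc 474, .ofNat 0, .ofNat 119, .negSucc 223, .ofNat 0, .ofNat 0, .ofNat 575,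 .ofNat 923, .ofNat 0, .ofNat 178343886443688713987306518531276800, .ofNat 0, .ofNat 0, .ofNat 0, .ofNat 3307163776464767925665837159232307200, .ofNat 55197567479489647051562758963200, .ofNat 0, .ofNat 0, .ofNat 8739548607047243800858318259984793600, .ofNat 0, .ofNat 0, .ofNat 0, .ofNat 19064797744478014181577510211918233600, .ofNat 0, .ofNat 0⟩)
    (by decide +kernel)
theorem L02322 : Good (Phi V4.P V4.D 1 1) ⟨5, 26, 3, 3, 2, 1, 4, 15, 3, 5⟩ :=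
  out_sound (S := T4.ds_pp) T4.ok_pp (w := 32) (j := 2) (by decide +kernel)
theorem L02323 : Good (Phi V4.P V4.D 1 1) ⟨5, 27, 4, 6, 1, 0, 4, 15, 3, 5⟩ :=
  out_sound (S := T4.ds_pp) T4.ok_pp (w := 64) (j := 3) (by decide +kernel)
theorem L02324 : Good (Phi V4.P V4.D 1 1) ⟨6, 54, 4, 7, 3, 0, 4, 15, 3, 5⟩ :=
  leaf_sound (S := T4.ds_pp) T4.ok_pp (w := 208) (c := ⟨⟨.negSucc 309, .negSucc 60, .negSucc 94, .negSucc 1135, .ofNat 77, .ofNat 36⟩, ⟨.negSucc 135, .negSucc 43, .negSucc 75, .negSucc 593, .ofNat 40, .ofNat 19⟩, ⟨.negSucc 14, .ofNat 70, .ofNat 91, .ofNat 1082, .negSucc 68, .negSucc 2⟩, ⟨.negSucc 482, .negSucc 68, .negSucc 141, .negSucc 1717, .ofNat 118, .ofNat 56⟩, ⟨.ofNat 7, .ofNat 3, .negSucc 5, .negSucc 54, .ofNat 2, .negSucc 1⟩, .ofNat 3288, .negSucc 5573, .ofNat 0, .negSucc 5573, .ofNat 10727, .ofNat 0, .ofNat 71, .ofNat 208, .negSucc 500, .ofNat 0, .ofNat 121, .negSucc 261,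 .ofNat 0, .ofNat 0, .ofNat 597, .ofNat 1525, .ofNat 0, .ofNat 0, .ofNat 0, .ofNat 0, .ofNat 0, .ofNat 0, .ofNat 44826021977895675729818552578867200, .ofNat 0, .ofNat 0, .ofNat 31914074633749759186121346956231757004800, .ofNat 48482003569855801773341746711756800, .ofNat 0, .ofNat 0, .ofNat 184532410022789666040121429292055999283200, .ofNat 13703603025628587112695776201932800, .ofNat 0⟩)
    (by decide +kernel)
theorem L02325 : Good (Phi V4.P V4.D 1 1) ⟨6, 54, 4, 7, 3, 1, 4, 15, 3, 5⟩ :=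
  leaf_sound (S := T4.ds_pp) T4.ok_pp (w := 208) (c := ⟨⟨.negSucc 1350, .negSucc 159, .negSucc 3, .negSucc 915, .negSucc 419, .negSucc 42⟩, ⟨.negSucc 664, .negSucc 102, .negSucc 43, .negSucc 479, .negSucc 219, .negSucc 22⟩, ⟨.ofNat 967, .ofNat 161, .negSucc 1, .ofNat 827, .ofNat 431, .ofNat 80⟩, ⟨.negSucc 2057, .negSucc 200, .negSucc 2, .negSucc 1384, .negSucc 634, .negSucc 62⟩, ⟨.negSucc 45, .negSucc 6, .ofNat 1, .negSucc 41, .negSucc 19, .negSucc 4⟩, .ofNat 2479, .negSucc 4064, .ofNat 0, .negSucc 4064, .ofNat 7901, .ofNat 0, .ofNat 1206, .ofNat 3343, .negSucc 7483, .ofNat 0, .ofNat 1965, .negSucc 3901, .ofNat 0, .ofNat 0, .ofNat 9094, .ofNat 71742, .ofNat 0, .ofNat 320577753281763275369602078523739498086400, .ofNat 0, .ofNat 0, .ofNat 0, .ofNat 39743594801075476433259079585280655202713600, .ofNat 11017364970245246112475662627373056000, .ofNat 0, .ofNat 0, .ofNat 65796546095053450141772816825896374003302400,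 .ofNat 11260339360153005663671677522595020800, .ofNat 0, .ofNat 0, .ofNat 140909288707017790139312289720282792119500800, .ofNat 3183612036624797917524190327052697600, .ofNat 0⟩)
    (by decide +kernel)
theorem L02326 : Good (Phi V4.P V4.D 1 1) ⟨6, 55, 4, 7, 2, 0, 4, 15, 3, 5⟩ :=
  out_sound (S := T4.ds_pp) T4.ok_pp (w := 72) (j := 3) (by decide +kernel)
theorem L02327 : Good (Phi V4.P V4.D 1 1) ⟨5, 27, 4, 7, 2, 1, 4, 15, 3, 5⟩ :=
  out_sound (S := T4.ds_pp) T4.ok_pp (w := 32) (j := 2) (by decide +kernel)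
theorem L02328 : Good (Phi V4.P V4.D 1 1) ⟨3, 6, 3, 3, 1, 1, 3, 7, 3, 5⟩ :=
  out_sound (S := T4.ds_pp) T4.ok_pp (w := 32) (j := 2) (by decide +kernel)
theorem L02329 : Good (Phi V4.P V4.D 1 1) ⟨3, 6, 1, 0, 1, 0, 1, 0, 2, 3⟩ :=
  out_sound (S := T4.ds_pp) T4.ok_pp (w := 24) (j := 1) (by decide +kernel)
theorem L02330 : Good (Phi V4.P V4.D 1 1) ⟨3, 6, 1, 0, 2, 0, 2, 2, 3, 6⟩ :=
  leaf_sound (S := T4.ds_pp) T4.ok_pp (w := 168) (c := ⟨⟨.negSucc 275, .negSucc 280, .negSucc 51, .negSucc 476, .negSucc 199, .negSucc 22⟩, ⟨.ofNat 61, .negSucc 197, .negSucc 271, .negSucc 192, .negSucc 55, .negSucc 26⟩, ⟨.negSucc 123, .ofNat 261, .ofNat 33, .ofNat 331, .ofNat 312, .negSucc 11⟩, ⟨.negSucc 544, .negSucc 274, .negSucc 29, .negSucc 757, .negSucc 323, .negSucc 67⟩, ⟨.ofNat 53, .ofNat 25, .negSucc 19, .negSucc 42, .negSucc 64, .ofNat 135⟩, .ofNat 164, .negSucc 34, .ofNat 0, .negSucc 34, .ofNat 230,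 .ofNat 0, .ofNat 223, .ofNat 60, .negSucc 559, .ofNat 0, .ofNat 180, .negSucc 114, .ofNat 0, .ofNat 0, .ofNat 641, .ofNat 11682, .ofNat 970006540128352117328640894566400, .ofNat 0, .ofNat 0, .ofNat 0, .ofNat 10927177379703286476345138216960000, .ofNat 0, .ofNat 0, .ofNat 0, .ofNat 0, .ofNat 0, .ofNat 0, .ofNat 0, .ofNat 8974136812548314674203413446656000, .ofNat 0, .ofNat 0, .ofNat 0⟩)
    (by decide +kernel)
theorem L02331 : Good (Phi V4.P V4.D 1 1) ⟨3, 6, 1, 0, 2, 1, 2, 2, 3, 6⟩ :=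
  leaf_sound (S := T4.ds_pp) T4.ok_pp (w := 168) (c := ⟨⟨.negSucc 669, .negSucc 377, .ofNat 6, .negSucc 366, .negSucc 292, .ofNat 17⟩, ⟨.negSucc 31, .negSucc 268, .negSucc 271, .negSucc 169, .negSucc 133, .negSucc 8⟩, ⟨.ofNat 171, .ofNat 349, .negSucc 45, .ofNat 173, .ofNat 360, .ofNat 20⟩, ⟨.negSucc 1179, .negSucc 379, .ofNat 40, .negSucc 618, .negSucc 474, .ofNat 32⟩, ⟨.negSucc 68, .ofNat 14, .ofNat 6, .ofNat 87, .ofNat 28, .ofNat 5⟩, .ofNat 332, .negSucc 190, .ofNat 0, .negSucc 190, .ofNat 673, .ofNat 0, .ofNat 657, .ofNat 411, .negSucc 874, .ofNat 0, .ofNat 488, .negSucc 292, .ofNat 0, .ofNat 0, .ofNat 1495, .ofNat 19020, .ofNat 2018335864957528029157425099571200, .ofNat 0, .ofNat 0, .ofNat 0, .ofNat 19809328949597932516934915457024000, .ofNat 4953451182392731724552421664358400, .ofNat 0, .ofNat 0, .ofNat 44068830105220883415124369263820800, .ofNat 1915676594919765907655995529625600,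 .ofNat 0, .ofNat 0, .ofNat 14237150064161315374586013312614400, .ofNat 270392024557743505973217696153600, .ofNat 0, .ofNat 0⟩)
    (by decide +kernel)
theorem L02332 : Good (Phi V4.P V4.D 1 1) ⟨3, 6, 1, 0, 1, 0, 2, 2, 3, 7⟩ :=
  out_sound (S := T4.ds_pp) T4.ok_pp (w := 24) (j := 1) (by decide +kernel)
theorem L02333 : Good (Phi V4.P V4.D 1 1) ⟨4, 12, 3, 0, 1, 0, 3, 6, 3, 6⟩ :=
  out_sound (S := T4.ds_pp) T4.ok_pp (w := 56) (j := 3) (by decide +kernel)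
theorem L02334 : Good (Phi V4.P V4.D 1 1) ⟨4, 12, 3, 1, 3, 0, 3, 6, 3, 6⟩ :=
  leaf_sound (S := T4.ds_pp) T4.ok_pp (w := 192) (c := ⟨⟨.negSucc 475, .negSucc 119, .negSucc 5, .negSucc 331, .ofNat 43, .ofNat 14⟩, ⟨.negSucc 109, .negSucc 68, .negSucc 45, .negSucc 105, .ofNat 14, .ofNat 6⟩, ⟨.ofNat 157, .ofNat 120, .ofNat 4, .ofNat 286, .negSucc 26, .ofNat 11⟩, ⟨.negSucc 818, .negSucc 126, .negSucc 5, .negSucc 546, .ofNat 70, .ofNat 21⟩, ⟨.negSucc 7, .negSucc 2, .ofNat 0, .negSucc 41, .ofNat 5, .ofNat 5⟩, .ofNat 806, .negSucc 1197, .ofNat 0, .negSucc 1197, .ofNat 3827, .ofNat 0, .ofNat 265, .ofNat 248, .negSucc 448, .ofNat 0, .ofNat 167, .negSucc 140, .ofNat 0, .ofNat 0, .ofNat 742, .ofNat 26511, .ofNat 131067736381135646996645850371850240000, .ofNat 0, .ofNat 0, .ofNat 0, .ofNat 156612029274146805982875974039607705600, .ofNat 0, .ofNat 40432283591302822006978534755532800, .ofNat 0,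 .ofNat 92690077070111597872293129542959104000, .ofNat 0, .ofNat 49519144832501368564603770057523200, .ofNat 0, .ofNat 0, .ofNat 0, .ofNat 0, .ofNat 0⟩)
    (by decide +kernel)
theorem L02335 : Good (Phi V4.P V4.D 1 1) ⟨4, 12, 3, 1, 3, 1, 3, 6, 3, 6⟩ :=
  leaf_sound (S := T4.ds_pp) T4.ok_pp (w := 192) (c := ⟨⟨.negSucc 700, .negSucc 204, .ofNat 13, .negSucc 283, .negSucc 114, .ofNat 14⟩, ⟨.negSucc 167, .negSucc 112, .negSucc 55, .negSucc 88, .negSucc 35, .ofNat 6⟩, ⟨.ofNat 334, .ofNat 198, .negSucc 18, .ofNat 210, .ofNat 140, .ofNat 17⟩, ⟨.negSucc 1194, .negSucc 233, .ofNat 24, .negSucc 481, .negSucc 195, .ofNat 22⟩, ⟨.negSucc 51, .ofNat 3, .ofNat 0, .ofNat 11, .ofNat 10, .ofNat 2⟩, .ofNat 475, .negSucc 393, .ofNat 0, .negSucc 393, .ofNat 1462, .ofNat 0, .ofNat 303, .ofNat 212, .negSucc 432, .ofNat 0, .ofNat 189, .negSucc 128, .ofNat 0, .ofNat 0, .ofNat 733, .ofNat 20163, .ofNat 0,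 .ofNat 0, .ofNat 0, .ofNat 0, .ofNat 90260668662814179802518113750718873600, .ofNat 73226136613352433784699068079511961600, .ofNat 0, .ofNat 0, .ofNat 166256662604686795325976799360529203200, .ofNat 74117936758923898253125775979341414400, .ofNat 0, .ofNat 0, .ofNat 352778325221866177298675205529613107200, .ofNat 91041282895371556824604607536064102400, .ofNat 0, .ofNat 0⟩)
    (by decide +kernel)
theorem L02336 : Good (Phi V4.P V4.D 1 1) ⟨4, 12, 3, 1, 2, 1, 3, 6, 3, 6⟩ :=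
  leaf_sound (S := T4.ds_pp) T4.ok_pp (w := 184) (c := ⟨⟨.negSucc 965, .negSucc 182, .ofNat 5, .ofNat 0, .negSucc 119, .ofNat 33⟩, ⟨.negSucc 243, .negSucc 109, .negSucc 65, .ofNat 0, .negSucc 34, .ofNat 11⟩, ⟨.ofNat 524, .ofNat 169, .negSucc 12, .ofNat 0, .ofNat 140, .negSucc 3⟩, ⟨.negSucc 1647, .negSucc 188, .ofNat 11, .ofNat 0, .negSucc 207, .ofNat 53⟩, ⟨.negSucc 37, .ofNat 8, .ofNat 0, .ofNat 0, .ofNat 16, .ofNat 7⟩, .ofNat 316, .negSucc 139, .ofNat 0, .negSucc 139, .ofNat 664, .ofNat 0, .ofNat 5614, .ofNat 2536, .negSucc 6961, .ofNat 0, .ofNat 3746, .negSucc 1768, .ofNat 0, .ofNat 0, .ofNat 11893, .ofNat 1414496, .ofNat 0, .ofNat 0, .ofNat 0, .ofNat 0, .ofNat 0, .ofNat 4535831610121494826128101810735834726400, .ofNat 0, .ofNat 0, .ofNat 0, .ofNat 1741398377963705134391886249456775987200, .ofNat 0, .ofNat 0, .ofNat 0, .ofNat 4789224883557207024368651751450791116800, .ofNat 0,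 .ofNat 0⟩)
    (by decide +kernel)
theorem L02337 : Good (Phi V4.P V4.D 1 1) ⟨4, 13, 2, 0, 1, 0, 3, 6, 3, 6⟩ :=
  out_sound (S := T4.ds_pp) T4.ok_pp (w := 56) (j := 3) (by decide +kernel)
theorem L02338 : Good (Phi V4.P V4.D 1 1) ⟨4, 12, 2, 1, 1, 0, 4, 12, 3, 6⟩ :=
  leaf_sound (S := T4.ds_pp) T4.ok_pp (w := 176) (c := ⟨⟨.negSucc 444, .negSucc 157, .negSucc 3, .negSucc 1096, .negSucc 32, .negSucc 32⟩, ⟨.negSucc 120, .negSucc 102, .negSucc 102, .negSucc 417, .negSucc 12, .negSucc 23⟩, ⟨.ofNat 132, .ofNat 146, .ofNat 10, .ofNat 830, .ofNat 48, .ofNat 58⟩, ⟨.negSucc 785, .negSucc 161, .negSucc 0, .negSucc 1772, .negSucc 52, .negSucc 49⟩, ⟨.negSucc 12, .ofNat 10, .negSucc 15, .negSucc 80, .negSucc 3, .ofNat 8⟩, .ofNat 326, .negSucc 172, .ofNat 0, .negSucc 172, .ofNat 679, .ofNat 0, .ofNat 338, .ofNat 187, .negSucc 507, .ofNat 0, .ofNat 239, .negSucc 153, .ofNat 0, .ofNat 0, .ofNat 790,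 .ofNat 9503, .ofNat 1828034029596223150018619926118400, .ofNat 0, .ofNat 797948311290220079795404800, .ofNat 0, .ofNat 0, .ofNat 1995432843508749187081835013734400, .ofNat 0, .ofNat 0, .ofNat 24588684816429455359508362140057600, .ofNat 1783463835698763163863841190707200, .ofNat 0, .ofNat 0, .ofNat 87706065484586509794010908013363200, .ofNat 1438598278338658199456724497203200, .ofNat 0, .ofNat 0⟩)
    (by decide +kernel)
theorem L02339 : Good (Phi V4.P V4.D 1 1) ⟨4, 13, 3, 2, 1, 0, 4, 12, 3, 6⟩ :=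
  leaf_sound (S := T4.ds_pp) T4.ok_pp (w := 176) (c := ⟨⟨.negSucc 622, .negSucc 336, .ofNat 59, .negSucc 1204, .negSucc 64, .ofNat 50⟩, ⟨.negSucc 220, .negSucc 184, .negSucc 24, .negSucc 527, .negSucc 29, .ofNat 21⟩, ⟨.ofNat 367, .ofNat 360, .negSucc 123, .ofNat 906, .ofNat 87, .negSucc 21⟩, ⟨.negSucc 958, .negSucc 457, .ofNat 60, .negSucc 1891, .negSucc 96, .ofNat 80⟩, ⟨.negSucc 115, .negSucc 10, .ofNat 113, .negSucc 59, .negSucc 16, .ofNat 2⟩, .ofNat 1392, .negSucc 2259, .ofNat 0, .negSucc 2259, .ofNat 5190, .ofNat 0, .ofNat 199, .ofNat 313, .negSucc 433, .ofNat 0, .ofNat 191, .negSucc 189, .ofNat 0, .ofNat 0, .ofNat 739, .ofNat 8041, .ofNat 8145017601754594266832175942860800, .ofNat 0, .ofNat 20006851322750722319056896000, .ofNat 0, .ofNat 490466408928157925828577105385881600, .ofNat 7162538977868461564613717340979200, .ofNat 22986388738520589278485728460800, .ofNat 0, .ofNat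 0, .ofNat 3771656993824153970682192356966400, .ofNat 16299409085707234681035738316800, .ofNat 0, .ofNat 31969071394613519573635527868416000, .ofNat 0, .ofNat 7877621154940494606008687001600, .ofNat 0⟩)
    (by decide +kernel)
theorem L02340 : Good (Phi V4.P V4.D 1 1) ⟨4, 13, 3, 3, 2, 0, 4, 12, 3, 6⟩ :=
  leaf_sound (S := T4.ds_pp) T4.ok_pp (w := 184) (c := ⟨⟨.negSucc 546, .negSucc 113, .negSucc 44, .negSucc 639, .negSucc 67, .ofNat 55⟩, ⟨.negSucc 219, .negSucc 85, .negSucc 91, .negSucc 308, .negSucc 32, .ofNat 26⟩, ⟨.ofNat 240, .ofNat 91, .ofNat 49, .ofNat 480, .ofNat 86, .negSucc 38⟩, ⟨.negSucc 877, .negSucc 102, .negSucc 48, .negSucc 988, .negSucc 102, .ofNat 77⟩, ⟨.negSucc 21, .ofNat 36, .negSucc 16, .negSucc 22, .negSucc 7, .ofNat 22⟩, .ofNat 1167, .negSucc 1712, .ofNat 0, .negSucc 1712, .ofNat 3739, .ofNat 0, .ofNat 182, .ofNat 326, .negSucc 447, .ofNat 0, .ofNat 201, .negSucc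 211, .ofNat 0, .ofNat 0, .ofNat 748, .ofNat 20204, .ofNat 2513313546760163599892672288705740800, .ofNat 0, .ofNat 0, .ofNat 0, .ofNat 14773128926506311514823200743830323200, .ofNat 0, .ofNat 660450903482042985803200384204800, .ofNat 0, .ofNat 6520817793187621291555890290648678400, .ofNat 799081093338155553314561388340838400, .ofNat 421477734040190507286850122547200, .ofNat 0, .ofNat 13763340559496838298457684938693017600, .ofNat 0, .ofNat 0, .ofNat 0⟩)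
    (by decide +kernel)
theorem L02341 : Good (Phi V4.P V4.D 1 1) ⟨4, 13, 3, 3, 2, 1, 4, 12, 3, 6⟩ :=
  leaf_sound (S := T4.ds_pp) T4.ok_pp (w := 192) (c := ⟨⟨.negSucc 1146, .negSucc 212, .negSucc 4, .ofNat 0, .negSucc 117, .ofNat 28⟩, ⟨.negSucc 498, .negSucc 154, .negSucc 80, .ofNat 0, .negSucc 56, .ofNat 10⟩, ⟨.ofNat 672, .ofNat 197, .negSucc 3, .ofNat 0, .ofNat 130, .ofNat 5⟩, ⟨.negSucc 1818, .negSucc 211, .ofNat 1, .ofNat 0, .negSucc 185, .ofNat 45⟩, ⟨.negSucc 28, .ofNat 7, .ofNat 0, .ofNat 0, .ofNat 6, .ofNat 6⟩, .ofNat 345, .negSucc 221, .ofNat 0, .negSucc 221, .ofNat 677, .ofNat 0, .ofNat 2574, .ofNat 1899, .negSucc 3961, .ofNat 0, .ofNat 2068, .negSucc 1533, .ofNat 0, .ofNat 0, .ofNat 6275, .ofNat 591416, .ofNat 0, .ofNat 0, .ofNat 0, .ofNat 0, .ofNat 0, .ofNat 1932965169572158554844464132077597491200, .ofNat 0, .ofNat 0, .ofNat 0, .ofNat 881336321543725515764511042792377548800,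 .ofNat 42656021563315390736070627400089600, .ofNat 0, .ofNat 0, .ofNat 1483038086993809145599622670481725849600, .ofNat 33486720596652237108609982817894400, .ofNat 0⟩)
    (by decide +kernel)
theorem L02342 : Good (Phi V4.P V4.D 1 1) ⟨4, 12, 2, 1, 1, 0, 4, 13, 3, 6⟩ :=
  leaf_sound (S := T4.ds_pp) T4.ok_pp (w := 176) (c := ⟨⟨.negSucc 377, .negSucc 174, .negSucc 35, .negSucc 1446, .negSucc 50, .ofNat 21⟩, ⟨.negSucc 98, .negSucc 103, .negSucc 140, .negSucc 538, .negSucc 16, .ofNat 3⟩, ⟨.ofNat 67, .ofNat 175, .ofNat 24, .ofNat 1214, .ofNat 65, .ofNat 10⟩, ⟨.negSucc 672, .negSucc 191, .negSucc 34, .negSucc 2361, .negSucc 86, .ofNat 43⟩, ⟨.negSucc 6, .negSucc 7, .ofNat 5, .negSucc 87, .ofNat 0, .negSucc 6⟩, .ofNat 530, .negSucc 518, .ofNat 0, .negSucc 518, .ofNat 1611, .ofNat 0, .ofNat 278, .ofNat 252, .negSucc 491, .ofNat 0, .ofNat 195, .negSucc 173, .ofNat 0, .ofNat 0, .ofNat 770, .ofNat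 7324, .ofNat 1685740158998728723239141585715200, .ofNat 0, .ofNat 0, .ofNat 0, .ofNat 0, .ofNat 2296447779405837115042127098675200, .ofNat 0, .ofNat 0, .ofNat 0, .ofNat 1809186670503653799416951734272000, .ofNat 185844809974985801450127360000, .ofNat 0, .ofNat 0, .ofNat 1606088240456538411396266301849600, .ofNat 0, .ofNat 0⟩)
    (by decide +kernel)
theorem L02343 : Good (Phi V4.P V4.D 1 1) ⟨4, 13, 2, 1, 1, 0, 4, 13, 3, 6⟩ :=
  leaf_sound (S := T4.ds_pp) T4.ok_pp (w := 176) (c := ⟨⟨.negSucc 491, .negSucc 279, .ofNat 69, .negSucc 1857, .negSucc 68, .negSucc 30⟩, ⟨.negSucc 134, .negSucc 185, .negSucc 77, .negSucc 913, .negSucc 33, .negSucc 16⟩, ⟨.ofNat 203, .ofNat 295, .negSucc 101, .ofNat 1582, .ofNat 81, .ofNat 65⟩, ⟨.negSucc 794, .negSucc 324, .ofNat 104, .negSucc 2853, .negSucc 105, .negSucc 44⟩, ⟨.negSucc 30, .negSucc 28, .ofNat 37, .negSucc 86, .negSucc 1, .negSucc 5⟩, .ofNat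 648, .negSucc 718, .ofNat 0, .negSucc 718, .ofNat 1706, .ofNat 0, .ofNat 240, .ofNat 305, .negSucc 566, .ofNat 0, .ofNat 223, .negSucc 257, .ofNat 0, .ofNat 0, .ofNat 825, .ofNat 5502, .ofNat 1062634846392584715433829990400000, .ofNat 0, .ofNat 779280217507210664293171200, .ofNat 0, .ofNat 0, .ofNat 1730038376888897247270350408908800, .ofNat 432657616003967838299199897600, .ofNat 0, .ofNat 0, .ofNat 1392256734887701167351719893401600, .ofNat 359590743646011901584447897600, .ofNat 0, .ofNat 0, .ofNat 1687545054022111389291590870630400, .ofNat 0, .ofNat 0⟩)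
    (by decide +kernel)
theorem L02344 : Good (Phi V4.P V4.D 1 1) ⟨3, 6, 1, 0, 2, 0, 3, 6, 3, 7⟩ :=
  out_sound (S := T4.ds_pp) T4.ok_pp (w := 24) (j := 1) (by decide +kernel)
theorem L02345 : Good (Phi V4.P V4.D 1 1) ⟨3, 6, 1, 0, 2, 1, 3, 6, 3, 7⟩ :=
  out_sound (S := T4.ds_pp) T4.ok_pp (w := 32) (j := 2) (by decide +kernel)
theorem L02346 : Good (Phi V4.P V4.D 1 1) ⟨4, 12, 3, 0, 2, 0, 3, 7, 2, 3⟩ :=
  out_sound (S := T4.ds_pp) T4.ok_pp (w := 56) (j := 3) (by decide +kernel)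
theorem L02347 : Good (Phi V4.P V4.D 1 1) ⟨4, 12, 3, 1, 2, 0, 3, 7, 2, 3⟩ :=
  leaf_sound (S := T4.ds_pp) T4.ok_pp (w := 176) (c := ⟨⟨.negSucc 329, .negSucc 168, .ofNat 5, .negSucc 1121, .ofNat 157, .ofNat 23⟩, ⟨.negSucc 62, .negSucc 93, .negSucc 38, .negSucc 363, .ofNat 51, .ofNat 7⟩, ⟨.ofNat 26, .ofNat 164, .negSucc 6, .ofNat 1035, .negSucc 138, .ofNat 31⟩, ⟨.negSucc 575, .negSucc 199, .ofNat 10, .negSucc 1866, .ofNat 261, .ofNat 40⟩, ⟨.negSucc 5, .negSucc 0, .ofNat 1, .negSucc 58, .ofNat 5, .negSucc 1⟩, .ofNat 793, .negSucc 1155, .ofNat 0, .negSucc 1155, .ofNat 3671, .ofNat 0, .ofNat 279, .ofNat 265, .negSucc 606, .ofNat 0, .ofNat 177, .negSucc 193, .ofNat 0, .ofNat 0, .ofNat 849, .ofNat 2135, .ofNat 16658358316904307998115337391308800, .ofNat 0, .ofNat 3147799657553202153259008000, .ofNat 0, .ofNat 75876173721511798303150854635520000, .ofNat 91408773906777408002358814074470400,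 .ofNat 3937035645380005066879008768000, .ofNat 0, .ofNat 450309496275602871713806089505996800, .ofNat 51927110596307638496924660662272000, .ofNat 4472001380719873493715596083200, .ofNat 0, .ofNat 824239506065596947940388274752716800, .ofNat 209757844504697196241199030914252800, .ofNat 1215486531320571352263426048000, .ofNat 0⟩)
    (by decide +kernel)
theorem L02348 : Good (Phi V4.P V4.D 1 1) ⟨4, 12, 3, 2, 2, 0, 3, 7, 2, 3⟩ :=
  leaf_sound (S := T4.ds_pp) T4.ok_pp (w := 176) (c := ⟨⟨.negSucc 284, .negSucc 125, .negSucc 63, .negSucc 1126, .ofNat 105, .negSucc 73⟩, ⟨.negSucc 64, .negSucc 84, .negSucc 72, .negSucc 434, .ofNat 38, .negSucc 10⟩, ⟨.negSucc 16, .ofNat 118, .ofNat 67, .ofNat 1027, .negSucc 86, .ofNat 133⟩, ⟨.negSucc 518, .negSucc 118, .negSucc 100, .negSucc 1822, .ofNat 174, .negSucc 137⟩, ⟨.negSucc 3, .negSucc 0, .negSucc 2, .negSucc 60, .ofNat 4, .ofNat 0⟩, .ofNat 809,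 .negSucc 1124, .ofNat 0, .negSucc 1124, .ofNat 3102, .ofNat 0, .ofNat 247, .ofNat 300, .negSucc 609, .ofNat 0, .ofNat 188, .negSucc 229, .ofNat 0, .ofNat 0, .ofNat 853, .ofNat 2814, .ofNat 22126069990452323458996008438988800, .ofNat 0, .ofNat 0, .ofNat 0, .ofNat 225167133502824157750955127865344000, .ofNat 107898722801470845554905428944486400, .ofNat 0, .ofNat 0, .ofNat 677589125370523829142538926057062400, .ofNat 126345380665816900417614745750732800, .ofNat 2215698100870909229784052531200, .ofNat 0, .ofNat 47247547975665933969814584714854400, .ofNat 304005671327676108964730286322483200, .ofNat 0, .ofNat 0⟩)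
    (by decide +kernel)
theorem L02349 : Good (Phi V4.P V4.D 1 1) ⟨5, 24, 3, 3, 2, 0, 3, 7, 3, 6⟩ :=
  out_sound (S := T4.ds_pp) T4.ok_pp (w := 64) (j := 3) (by decide +kernel)
theorem L02350 : Good (Phi V4.P V4.D 1 1) ⟨5, 25, 3, 3, 2, 0, 3, 7, 3, 6⟩ :=
  leaf_sound (S := T4.ds_pp) T4.ok_pp (w := 184) (c := ⟨⟨.negSucc 277, .negSucc 93, .negSucc 223, .negSucc 1358, .ofNat 22, .negSucc 16⟩, ⟨.negSucc 99, .negSucc 62, .negSucc 146, .negSucc 594, .ofNat 9, .negSucc 7⟩, ⟨.negSucc 32, .ofNat 99, .ofNat 224, .ofNat 1256, .negSucc 1, .ofNat 45⟩, ⟨.negSucc 487, .negSucc 100, .negSucc 352, .negSucc 2146, .ofNat 35, .negSucc 24⟩, ⟨.ofNat 7, .negSucc 11, .ofNat 4, .negSucc 69, .ofNat 0, .negSucc 1⟩, .ofNat 1666, .negSucc 2896, .ofNat 0, .negSucc 2896, .ofNat 6669, .ofNat 0, .ofNat 187, .ofNat 345, .negSucc 664, .ofNat 0, .ofNat 195, .negSucc 290, .ofNat 0, .ofNat 0, .ofNat 894, .ofNat 3278,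 .ofNat 1292452986992737464829797320569651200, .ofNat 0, .ofNat 149309951176445427027070156800, .ofNat 0, .ofNat 0, .ofNat 0, .ofNat 0, .ofNat 0, .ofNat 0, .ofNat 12594718631910560269974854069492121600, .ofNat 61568392020712621093702493798400, .ofNat 0, .ofNat 0, .ofNat 13599512351904193999704988612086988800, .ofNat 19122081848064893625238447718400, .ofNat 0⟩)
    (by decide +kernel)
theorem L02351 : Good (Phi V4.P V4.D 1 1) ⟨5, 24, 3, 3, 2, 0, 3, 7, 3, 7⟩ :=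
  out_sound (S := T4.ds_pp) T4.ok_pp (w := 64) (j := 3) (by decide +kernel)
theorem L02352 : Good (Phi V4.P V4.D 1 1) ⟨6, 50, 4, 6, 2, 0, 3, 7, 3, 7⟩ :=
  out_sound (S := T4.ds_pp) T4.ok_pp (w := 72) (j := 3) (by decide +kernel)
theorem L02353 : Good (Phi V4.P V4.D 1 1) ⟨7, 102, 5, 12, 2, 0, 3, 7, 3, 7⟩ :=
  out_sound (S := T4.ds_pp) T4.ok_pp (w := 80) (j := 3) (by decide +kernel)
theorem L02354 : Good (Phi V4.P V4.D 1 1) ⟨7, 103, 6, 24, 2, 0, 4, 14, 5, 28⟩ :=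
  out_sound (S := T4.ds_pp) T4.ok_pp (w := 32) (j := 1) (by decide +kernel)
theorem L02355 : Good (Phi V4.P V4.D 1 1) ⟨7, 103, 6, 24, 3, 0, 4, 15, 5, 28⟩ :=
  out_sound (S := T4.ds_pp) T4.ok_pp (w := 32) (j := 1) (by decide +kernel)
theorem L02356 : Good (Phi V4.P V4.D 1 1) ⟨7, 103, 6, 24, 3, 1, 4, 15, 5, 28⟩ :=
  out_sound (S := T4.ds_pp) T4.ok_pp (w := 40) (j := 2) (by decide +kernel)
theorem L02357 : Good (Phi V4.P V4.D 1 1) ⟨8, 206, 6, 25, 2, 0, 3, 7, 5, 28⟩ :=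
  out_sound (S := T4.ds_pp) T4.ok_pp (w := 88) (j := 3) (by decide +kernel)
theorem L02358 : Good (Phi V4.P V4.D 1 1) ⟨8, 207, 7, 50, 2, 0, 4, 14, 5, 28⟩ :=
  out_sound (S := T4.ds_pp) T4.ok_pp (w := 32) (j := 1) (by decide +kernel)
theorem L02359 : Good (Phi V4.P V4.D 1 1) ⟨8, 207, 7, 50, 3, 0, 4, 15, 5, 28⟩ :=
  out_sound (S := T4.ds_pp) T4.ok_pp (w := 32) (j := 1) (by decide +kernel)
theorem L02360 : Good (Phi V4.P V4.D 1 1) ⟨8, 207, 7, 50, 3, 1, 4, 15, 5, 28⟩ :=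
  out_sound (S := T4.ds_pp) T4.ok_pp (w := 40) (j := 2) (by decide +kernel)
theorem L02361 : Good (Phi V4.P V4.D 1 1) ⟨8, 207, 7, 51, 2, 0, 3, 7, 5, 28⟩ :=
  out_sound (S := T4.ds_pp) T4.ok_pp (w := 88) (j := 3) (by decide +kernel)
theorem L02362 : Good (Phi V4.P V4.D 1 1) ⟨7, 103, 5, 12, 2, 0, 3, 7, 5, 29⟩ :=
  out_sound (S := T4.ds_pp) T4.ok_pp (w := 32) (j := 1) (by decide +kernel)
theorem L02363 : Good (Phi V4.P V4.D 1 1) ⟨7, 103, 5, 12, 2, 0, 3, 7, 4, 15⟩ :=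
  out_sound (S := T4.ds_pp) T4.ok_pp (w := 32) (j := 1) (by decide +kernel)
theorem L02364 : Good (Phi V4.P V4.D 1 1) ⟨6, 51, 5, 13, 2, 0, 3, 7, 3, 7⟩ :=
  out_sound (S := T4.ds_pp) T4.ok_pp (w := 72) (j := 3) (by decide +kernel)
theorem L02365 : Good (Phi V4.P V4.D 1 1) ⟨5, 25, 4, 7, 2, 0, 3, 7, 3, 7⟩ :=
  out_sound (S := T4.ds_pp) T4.ok_pp (w := 64) (j := 3) (by decide +kernel)
theorem L02366 : Good (Phi V4.P V4.D 1 1) ⟨4, 13, 2, 0, 2, 0, 3, 7, 2, 3⟩ :=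
  out_sound (S := T4.ds_pp) T4.ok_pp (w := 56) (j := 3) (by decide +kernel)
theorem L02367 : Good (Phi V4.P V4.D 1 1) ⟨4, 13, 2, 1, 2, 0, 4, 14, 3, 6⟩ :=
  leaf_sound (S := T4.ds_pp) T4.ok_pp (w := 184) (c := ⟨⟨.negSucc 424, .negSucc 260, .ofNat 21, .negSucc 1306, .negSucc 51, .ofNat 27⟩, ⟨.negSucc 113, .negSucc 162, .negSucc 93, .negSucc 633, .negSucc 23, .ofNat 8⟩, ⟨.ofNat 129, .ofNat 268, .negSucc 35, .ofNat 1196, .ofNat 64, .ofNat 0⟩, ⟨.negSucc 694, .negSucc 319, .ofNat 42, .negSucc 2005, .negSucc 80, .ofNat 47⟩, ⟨.negSucc 10, .negSucc 19, .ofNat 19, .negSucc 77, .negSucc 2, .negSucc 0⟩, .ofNat 632, .negSucc 690, .ofNat 0, .negSucc 690, .ofNat 1671, .ofNat 0, .ofNat 252, .ofNat 309, .negSucc 696, .ofNat 0, .ofNat 229, .negSucc 311, .ofNat 0, .ofNat 0, .ofNat 922, .ofNat 5954, .ofNat 77591253205435052188064874391142400, .ofNat 0, .ofNat 0, .ofNat 0, .ofNat 2486090261413503531110206969321881600,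 .ofNat 341925229595336050731077037195264000, .ofNat 180413584136526103347157637529600, .ofNat 0, .ofNat 1764702702672161941915589868414566400, .ofNat 348143818997070383656014381160857600, .ofNat 196730615830341702741062477414400, .ofNat 0, .ofNat 1070480217031174380782660324268441600, .ofNat 563036074456644813620332230554419200, .ofNat 104867180588486978474570101555200, .ofNat 0⟩)
    (by decide +kernel)
theorem L02368 : Good (Phi V4.P V4.D 1 1) ⟨4, 13, 3, 2, 2, 0, 4, 15, 3, 6⟩ :=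
  leaf_sound (S := T4.ds_pp) T4.ok_pp (w := 184) (c := ⟨⟨.negSucc 367, .negSucc 488, .ofNat 71, .negSucc 1871, .ofNat 165, .negSucc 61⟩, ⟨.negSucc 118, .negSucc 240, .negSucc 10, .negSucc 817, .ofNat 72, .negSucc 26⟩, ⟨.ofNat 67, .ofNat 489, .negSucc 69, .ofNat 1790, .negSucc 155, .ofNat 91⟩, ⟨.negSucc 597, .negSucc 725, .ofNat 124, .negSucc 2941, .ofNat 261, .negSucc 97⟩, ⟨.negSucc 0, .negSucc 10, .ofNat 1, .negSucc 89, .ofNat 3, .negSucc 0⟩, .ofNat 1377, .negSucc 2229, .ofNat 0, .negSucc 2229, .ofNat 5132, .ofNat 0, .ofNat 218, .ofNat 338, .negSucc 799, .ofNat 0, .ofNat 208, .negSucc 348, .ofNat 0, .ofNat 0, .ofNat 1002, .ofNat 6124, .ofNat 626515128082961668692692506666598400, .ofNat 43527478235908061131446184574976000, .ofNat 8001325339435108422328202035200, .ofNat 0, .ofNat 0, .ofNat 2299448301366208660328507654327500800, .ofNat 3766020837183865788091220990361600, .ofNat 0,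 .ofNat 0, .ofNat 2527764733132717247115824481907507200, .ofNat 6871769330278448484318624664780800, .ofNat 0, .ofNat 0, .ofNat 6805621187163591015294094973652172800, .ofNat 835727422737113889975842321203200, .ofNat 0⟩)
    (by decide +kernel)
theorem L02369 : Good (Phi V4.P V4.D 1 1) ⟨5, 26, 3, 3, 2, 0, 5, 30, 3, 6⟩ :=
  leaf_sound (S := T4.ds_pp) T4.ok_pp (w := 192) (c := ⟨⟨.negSucc 274, .negSucc 241, .ofNat 85, .negSucc 1941, .negSucc 16, .negSucc 20⟩, ⟨.negSucc 98, .negSucc 138, .negSucc 1, .negSucc 937, .negSucc 10, .negSucc 10⟩, ⟨.negSucc 24, .ofNat 241, .negSucc 83, .ofNat 1854, .ofNat 22, .ofNat 50⟩, ⟨.negSucc 454, .negSucc 328, .ofNat 128, .negSucc 2990, .negSucc 23, .negSucc 31⟩, ⟨.ofNat 3, .negSucc 4, .ofNat 1, .negSucc 100, .negSucc 0, .negSucc 1⟩, .ofNat 643, .negSucc 709, .ofNat 0, .negSucc 709, .ofNat 1699, .ofNat 0, .ofNat 128, .ofNat 160, .negSucc 429, .ofNat 0, .ofNat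 118, .negSucc 193, .ofNat 0, .ofNat 0, .ofNat 527, .ofNat 3062, .ofNat 0, .ofNat 0, .ofNat 0, .ofNat 0, .ofNat 0, .ofNat 0, .ofNat 0, .ofNat 0, .ofNat 0, .ofNat 26398257429442241848334660484150067200, .ofNat 0, .ofNat 0, .ofNat 0, .ofNat 26288433752520641335680286289874124800, .ofNat 0, .ofNat 0⟩)
    (by decide +kernel)
theorem L02370 : Good (Phi V4.P V4.D 1 1) ⟨5, 26, 3, 3, 2, 0, 5, 31, 3, 6⟩ :=
  leaf_sound (S := T4.ds_pp) T4.ok_pp (w := 192) (c := ⟨⟨.negSucc 171, .negSucc 147, .ofNat 3, .negSucc 2576, .ofNat 160, .negSucc 48⟩, ⟨.negSucc 55, .negSucc 82, .negSucc 40, .negSucc 1238, .ofNat 82, .negSucc 28⟩, ⟨.negSucc 124, .ofNat 147, .negSucc 2, .ofNat 2502, .negSucc 155, .ofNat 76⟩, ⟨.negSucc 288, .negSucc 198, .ofNat 11, .negSucc 3983, .ofNat 245, .negSucc 71⟩, ⟨.ofNat 3, .negSucc 3, .ofNat 0, .negSucc 103, .ofNat 3, .negSucc 1⟩, .ofNat 634, .negSucc 694, .ofNat 0, .negSucc 694,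 .ofNat 1682, .ofNat 0, .ofNat 132, .ofNat 162, .negSucc 525, .ofNat 0, .ofNat 120, .negSucc 234, .ofNat 0, .ofNat 0, .ofNat 609, .ofNat 3431, .ofNat 0, .ofNat 1157467619957173521858251891461324800, .ofNat 0, .ofNat 0, .ofNat 0, .ofNat 49668857366737665622232194829254656000, .ofNat 0, .ofNat 0, .ofNat 0, .ofNat 58871472416061723222495152128288358400, .ofNat 0, .ofNat 0, .ofNat 0, .ofNat 89953126845425533424197538098760908800, .ofNat 0, .ofNat 0⟩)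
    (by decide +kernel)
theorem L02371 : Good (Phi V4.P V4.D 1 1) ⟨5, 27, 4, 6, 2, 0, 4, 15, 3, 6⟩ :=
  out_sound (S := T4.ds_pp) T4.ok_pp (w := 64) (j := 3) (by decide +kernel)
theorem L02372 : Good (Phi V4.P V4.D 1 1) ⟨5, 27, 5, 14, 2, 0, 4, 15, 3, 6⟩ :=
  out_sound (S := T4.ds_pp) T4.ok_pp (w := 64) (j := 3) (by decide +kernel)
theorem L02373 : Good (Phi V4.P V4.D 1 1) ⟨5, 27, 5, 15, 2, 0, 5, 30, 3, 6⟩ :=
  leaf_sound (S := T4.ds_pp) T4.ok_pp (w := 192) (c := ⟨⟨.negSucc 405, .negSucc 246, .ofNat 50, .negSucc 2208, .negSucc 20, .negSucc 35⟩, ⟨.negSucc 197, .negSucc 146, .ofNat 12, .negSucc 1154, .negSucc 10, .negSucc 18⟩, ⟨.ofNat 107, .ofNat 250, .negSucc 51, .ofNat 2116, .ofNat 27, .ofNat 66⟩, ⟨.negSucc 627, .negSucc 335, .ofNat 80, .negSucc 3334, .negSucc 31, .negSucc 52⟩, ⟨.ofNat 3, .negSucc 7, .ofNat 0, .negSucc 112, .negSucc 0, .negSucc 2⟩, .ofNat 3254, .negSucc 5512, .ofNat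 0, .negSucc 5512, .ofNat 10619, .ofNat 0, .ofNat 66, .ofNat 192, .negSucc 419, .ofNat 0, .ofNat 112, .negSucc 218, .ofNat 0, .ofNat 0, .ofNat 519, .ofNat 6169, .ofNat 0, .ofNat 13957097769584954730691915334182502400, .ofNat 11498303269113617574698523033600, .ofNat 0, .ofNat 343912586803509675571073338268712960000, .ofNat 188782040746328342533916234879493734400, .ofNat 5934304214841687540047168510361600, .ofNat 0, .ofNat 0, .ofNat 612764219217285212714823089358530150400, .ofNat 1685589632718333904548125894246400, .ofNat 0, .ofNat 0, .ofNat 616887283309747048826061634466847129600, .ofNat 689980257292908735632563922534400, .ofNat 0⟩)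
    (by decide +kernel)
theorem L02374 : Good (Phi V4.P V4.D 1 1) ⟨5, 27, 5, 15, 2, 0, 5, 31, 3, 6⟩ :=
  leaf_sound (S := T4.ds_pp) T4.ok_pp (w := 200) (c := ⟨⟨.negSucc 294, .negSucc 93, .ofNat 12, .negSucc 2951, .ofNat 116, .negSucc 11⟩, ⟨.negSucc 142, .negSucc 63, .negSucc 6, .negSucc 1541, .ofNat 61, .negSucc 5⟩, ⟨.negSucc 0, .ofNat 91, .negSucc 12, .ofNat 2874, .negSucc 110, .ofNat 40⟩, ⟨.negSucc 456, .negSucc 111, .ofNat 20, .negSucc 4469, .ofNat 176, .negSucc 17⟩, ⟨.ofNat 2, .ofNat 8, .negSucc 0, .negSucc 125, .ofNat 4, .negSucc 1⟩, .ofNat 3788, .negSucc 6509, .ofNat 0, .negSucc 6509, .ofNat 12483, .ofNat 0, .ofNat 66, .ofNat 196, .negSucc 504, .ofNat 0, .ofNat 114, .negSucc 263, .ofNat 0, .ofNat 0, .ofNat 591, .ofNat 4299, .ofNat 0, .ofNat 34814826957554768199229555010332262400, .ofNat 0, .ofNat 0, .ofNat 0, .ofNat 213067915140971536932559872245052211200, .ofNat 5608940102036643378708171089510400,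 .ofNat 0, .ofNat 0, .ofNat 897518360100578697990351683730800640000, .ofNat 2686622578253297175007861722316800, .ofNat 0, .ofNat 0, .ofNat 1579086527137918666836161383632155443200, .ofNat 1400673465472467218957457791385600, .ofNat 0⟩)
    (by decide +kernel)
theorem L02375 : Good (Phi V4.P V4.D 1 1) ⟨5, 26, 4, 4, 2, 0, 3, 7, 4, 14⟩ :=
  out_sound (S := T4.ds_pp) T4.ok_pp (w := 64) (j := 3) (by decide +kernel)
theorem L02376 : Good (Phi V4.P V4.D 1 1) ⟨6, 52, 5, 10, 2, 0, 3, 7, 4, 14⟩ :=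
  out_sound (S := T4.ds_pp) T4.ok_pp (w := 72) (j := 3) (by decide +kernel)
theorem L02377 : Good (Phi V4.P V4.D 1 1) ⟨7, 104, 6, 22, 2, 0, 3, 7, 4, 14⟩ :=
  out_sound (S := T4.ds_pp) T4.ok_pp (w := 80) (j := 3) (by decide +kernel)
theorem L02378 : Good (Phi V4.P V4.D 1 1) ⟨8, 208, 6, 23, 2, 0, 4, 14, 5, 28⟩ :=
  out_sound (S := T4.ds_pp) T4.ok_pp (w := 32) (j := 1) (by decide +kernel)
theorem L02379 : Good (Phi V4.P V4.D 1 1) ⟨8, 208, 6, 23, 3, 0, 4, 15, 5, 28⟩ :=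
  out_sound (S := T4.ds_pp) T4.ok_pp (w := 32) (j := 1) (by decide +kernel)
theorem L02380 : Good (Phi V4.P V4.D 1 1) ⟨8, 208, 6, 23, 3, 1, 4, 15, 5, 28⟩ :=
  out_sound (S := T4.ds_pp) T4.ok_pp (w := 40) (j := 2) (by decide +kernel)
theorem L02381 : Good (Phi V4.P V4.D 1 1) ⟨8, 208, 6, 23, 2, 0, 3, 7, 5, 29⟩ :=
  out_sound (S := T4.ds_pp) T4.ok_pp (w := 32) (j := 1) (by decide +kernel)
theorem L02382 : Good (Phi V4.P V4.D 1 1) ⟨8, 209, 6, 23, 2, 0, 3, 7, 4, 14⟩ :=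
  out_sound (S := T4.ds_pp) T4.ok_pp (w := 88) (j := 3) (by decide +kernel)
theorem L02383 : Good (Phi V4.P V4.D 1 1) ⟨7, 105, 5, 11, 2, 0, 3, 7, 4, 14⟩ :=
  out_sound (S := T4.ds_pp) T4.ok_pp (w := 80) (j := 3) (by decide +kernel)
theorem L02384 : Good (Phi V4.P V4.D 1 1) ⟨6, 53, 4, 5, 2, 0, 3, 7, 4, 14⟩ :=
  out_sound (S := T4.ds_pp) T4.ok_pp (w := 72) (j := 3) (by decide +kernel)
theorem L02385 : Good (Phi V4.P V4.D 1 1) ⟨5, 27, 3, 2, 2, 0, 3, 7, 4, 14⟩ :=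
  out_sound (S := T4.ds_pp) T4.ok_pp (w := 64) (j := 3) (by decide +kernel)
theorem L02386 : Good (Phi V4.P V4.D 1 1) ⟨5, 26, 3, 3, 2, 0, 4, 14, 5, 28⟩ :=
  out_sound (S := T4.ds_pp) T4.ok_pp (w := 32) (j := 1) (by decide +kernel)
theorem L02387 : Good (Phi V4.P V4.D 1 1) ⟨5, 26, 3, 3, 3, 0, 4, 15, 5, 28⟩ :=
  out_sound (S := T4.ds_pp) T4.ok_pp (w := 32) (j := 1) (by decide +kernel)
theorem L02388 : Good (Phi V4.P V4.D 1 1) ⟨5, 26, 3, 3, 3, 1, 4, 15, 5, 28⟩ :=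
  out_sound (S := T4.ds_pp) T4.ok_pp (w := 40) (j := 2) (by decide +kernel)
theorem L02389 : Good (Phi V4.P V4.D 1 1) ⟨5, 26, 3, 3, 2, 0, 3, 7, 5, 29⟩ :=
  out_sound (S := T4.ds_pp) T4.ok_pp (w := 32) (j := 1) (by decide +kernel)
theorem L02390 : Good (Phi V4.P V4.D 1 1) ⟨5, 27, 4, 6, 2, 0, 3, 7, 4, 14⟩ :=
  out_sound (S := T4.ds_pp) T4.ok_pp (w := 64) (j := 3) (by decide +kernel)
theorem L02391 : Good (Phi V4.P V4.D 1 1) ⟨6, 54, 5, 14, 2, 0, 3, 7, 4, 14⟩ :=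
  out_sound (S := T4.ds_pp) T4.ok_pp (w := 72) (j := 3) (by decide +kernel)
theorem L02392 : Good (Phi V4.P V4.D 1 1) ⟨7, 108, 6, 30, 2, 0, 3, 7, 4, 14⟩ :=
  out_sound (S := T4.ds_pp) T4.ok_pp (w := 80) (j := 3) (by decide +kernel)
theorem L02393 : Good (Phi V4.P V4.D 1 1) ⟨10, 864, 9, 248, 2, 0, 3, 7, 5, 28⟩ :=
  out_sound (S := T4.ds_pp) T4.ok_pp (w := 104) (j := 3) (by decide +kernel)
theorem L02394 : Good (Phi V4.P V4.D 1 1) ⟨10, 864, 9, 249, 2, 0, 4, 14, 5, 28⟩ :=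
  out_sound (S := T4.ds_pp) T4.ok_pp (w := 32) (j := 1) (by decide +kernel)
theorem L02395 : Good (Phi V4.P V4.D 1 1) ⟨10, 864, 9, 249, 3, 0, 4, 15, 5, 28⟩ :=
  out_sound (S := T4.ds_pp) T4.ok_pp (w := 32) (j := 1) (by decide +kernel)
theorem L02396 : Good (Phi V4.P V4.D 1 1) ⟨10, 864, 9, 249, 3, 1, 4, 15, 5, 28⟩ :=
  out_sound (S := T4.ds_pp) T4.ok_pp (w := 40) (j := 2) (by decide +kernel)
theorem L02397 : Good (Phi V4.P V4.D 1 1) ⟨10, 865, 8, 124, 2, 0, 3, 7, 5, 28⟩ :=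
  out_sound (S := T4.ds_pp) T4.ok_pp (w := 104) (j := 3) (by decide +kernel)
theorem L02398 : Good (Phi V4.P V4.D 1 1) ⟨9, 432, 8, 125, 2, 0, 4, 14, 5, 28⟩ :=
  out_sound (S := T4.ds_pp) T4.ok_pp (w := 32) (j := 1) (by decide +kernel)
theorem L02399 : Good (Phi V4.P V4.D 1 1) ⟨9, 432, 8, 125, 3, 0, 4, 15, 5, 28⟩ :=
  out_sound (S := T4.ds_pp) T4.ok_pp (w := 32) (j := 1) (by decide +kernel)
theorem L02400 : Good (Phi V4.P V4.D 1 1) ⟨9, 432, 8, 125, 3, 1, 4, 15, 5, 28⟩ :=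
  out_sound (S := T4.ds_pp) T4.ok_pp (w := 40) (j := 2) (by decide +kernel)
theorem L02401 : Good (Phi V4.P V4.D 1 1) ⟨9, 433, 7, 62, 2, 0, 3, 7, 5, 28⟩ :=
  out_sound (S := T4.ds_pp) T4.ok_pp (w := 96) (j := 3) (by decide +kernel)
theorem L02402 : Good (Phi V4.P V4.D 1 1) ⟨8, 216, 7, 63, 2, 0, 4, 14, 5, 28⟩ :=
  out_sound (S := T4.ds_pp) T4.ok_pp (w := 32) (j := 1) (by decide +kernel)
theorem L02403 : Good (Phi V4.P V4.D 1 1) ⟨8, 216, 7, 63, 3, 0, 4, 15, 5, 28⟩ :=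
  out_sound (S := T4.ds_pp) T4.ok_pp (w := 32) (j := 1) (by decide +kernel)
theorem L02404 : Good (Phi V4.P V4.D 1 1) ⟨8, 216, 7, 63, 3, 1, 4, 15, 5, 28⟩ :=
  out_sound (S := T4.ds_pp) T4.ok_pp (w := 40) (j := 2) (by decide +kernel)
theorem L02405 : Good (Phi V4.P V4.D 1 1) ⟨8, 216, 6, 31, 2, 0, 3, 7, 5, 29⟩ :=
  out_sound (S := T4.ds_pp) T4.ok_pp (w := 32) (j := 1) (by decide +kernel)
theorem L02406 : Good (Phi V4.P V4.D 1 1) ⟨8, 217, 6, 31, 2, 0, 3, 7, 4, 14⟩ :=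
  out_sound (S := T4.ds_pp) T4.ok_pp (w := 88) (j := 3) (by decide +kernel)
theorem L02407 : Good (Phi V4.P V4.D 1 1) ⟨7, 109, 5, 15, 2, 0, 3, 7, 4, 14⟩ :=
  out_sound (S := T4.ds_pp) T4.ok_pp (w := 80) (j := 3) (by decide +kernel)
theorem L02408 : Good (Phi V4.P V4.D 1 1) ⟨6, 55, 4, 7, 2, 0, 3, 7, 4, 14⟩ :=
  out_sound (S := T4.ds_pp) T4.ok_pp (w := 72) (j := 3) (by decide +kernel)
theorem L02409 : Good (Phi V4.P V4.D 1 1) ⟨4, 13, 2, 1, 2, 0, 3, 7, 4, 15⟩ :=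
  out_sound (S := T4.ds_pp) T4.ok_pp (w := 32) (j := 1) (by decide +kernel)
theorem L02410 : Good (Phi V4.P V4.D 1 1) ⟨3, 6, 1, 0, 2, 1, 3, 7, 2, 3⟩ :=
  out_sound (S := T4.ds_pp) T4.ok_pp (w := 32) (j := 2) (by decide +kernel)
theorem L02411 : Good (Phi V4.P V4.D 1 1) ⟨3, 6, 1, 0, 1, 1, 0, 0, 2, 3⟩ :=
  out_sound (S := T4.ds_pp) T4.ok_pp (w := 24) (j := 2) (by decide +kernel)
theorem L02412 : Good (Phi V4.P V4.D 1 1) ⟨4, 12, 1, 1, 0, 0, 0, 0, 1, 1⟩ :=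
  out_sound (S := T4.ds_pp) T4.ok_pp (w := 48) (j := 3) (by decide +kernel)
theorem L02413 : Good (Phi V4.P V4.D 1 1) ⟨5, 26, 1, 1, 2, 0, 0, 0, 1, 1⟩ :=
  out_sound (S := T4.ds_pp) T4.ok_pp (w := 56) (j := 3) (by decide +kernel)
theorem L02414 : Good (Phi V4.P V4.D 1 1) ⟨5, 27, 3, 4, 2, 0, 1, 0, 2, 2⟩ :=
  leaf_sound (S := T4.ds_pp) T4.ok_pp (w := 176) (c := ⟨⟨.negSucc 915, .negSucc 56, .negSucc 9, .negSucc 176, .negSucc 61, .ofNat 230⟩, ⟨.negSucc 476, .negSucc 67, .negSucc 53, .negSucc 97, .negSucc 32, .ofNat 127⟩, ⟨.ofNat 640, .ofNat 37, .ofNat 18, .negSucc 93, .ofNat 30, .negSucc 242⟩, ⟨.negSucc 1398, .negSucc 55, .ofNat 13, .negSucc 229, .negSucc 100, .ofNat 358⟩, ⟨.negSucc 23, .ofNat 14, .negSucc 8, .negSucc 70, .ofNat 12, .negSucc 15⟩, .ofNat 1857, .negSucc 2814, .ofNat 0, .negSucc 2814, .ofNat 5333, .ofNat 0, .ofNat 140, .ofNat 380, .negSucc 342, .ofNat 0, .ofNat 233, .negSucc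 183, .ofNat 0, .ofNat 0, .ofNat 801, .ofNat 15958, .ofNat 7896694710633490435209305260032000, .ofNat 0, .ofNat 0, .ofNat 0, .ofNat 1278138661390751175899110513940889600, .ofNat 0, .ofNat 28267510097398178665149235200, .ofNat 0, .ofNat 1858858592951423743189051516334899200, .ofNat 0, .ofNat 0, .ofNat 0, .ofNat 4371625840928211555679978159236710400, .ofNat 0, .ofNat 0, .ofNat 0⟩)
    (by decide +kernel)
theorem L02415 : Good (Phi V4.P V4.D 1 1) ⟨5, 27, 3, 5, 2, 0, 1, 0, 2, 2⟩ :=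
  out_sound (S := T4.ds_pp) T4.ok_pp (w := 64) (j := 3) (by decide +kernel)
theorem L02416 : Good (Phi V4.P V4.D 1 1) ⟨5, 27, 4, 8, 2, 0, 2, 2, 3, 4⟩ :=
  leaf_sound (S := T4.ds_pp) T4.ok_pp (w := 184) (c := ⟨⟨.negSucc 866, .negSucc 148, .ofNat 30, .negSucc 368, .negSucc 66, .ofNat 114⟩, ⟨.negSucc 450, .negSucc 91, .negSucc 20, .negSucc 201, .negSucc 36, .ofNat 62⟩, ⟨.ofNat 521, .ofNat 202, .negSucc 60, .ofNat 144, .ofNat 77, .negSucc 105⟩, ⟨.negSucc 1320, .negSucc 179, .ofNat 53, .negSucc 535, .negSucc 109, .ofNat 171⟩, ⟨.negSucc 28, .negSucc 31, .ofNat 16, .negSucc 45, .ofNat 16, .ofNat 7⟩, .ofNat 1761, .negSucc 2665, .ofNat 0, .negSucc 2665, .ofNat 5118, .ofNat 0, .ofNat 151, .ofNat 391, .negSucc 440, .ofNat 0, .ofNat 240, .negSucc 234, .ofNat 0, .ofNat 0, .ofNat 823, .ofNat 7025, .ofNat 0, .ofNat 0, .ofNat 5404564738944673513891430400, .ofNat 0, .ofNat 0, .ofNat 0, .ofNat 8318072151417056686295010508800,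 .ofNat 0, .ofNat 0, .ofNat 0, .ofNat 4921529106242572314031108915200, .ofNat 0, .ofNat 0, .ofNat 0, .ofNat 2899344640935356261762649292800, .ofNat 0⟩)
    (by decide +kernel)

end Crest.Agent.R097C4.N4pp
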