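import Crest.Agent.R097.T4

/-!
# Row 97, box cover in dimension n = 4 (generated)
-/

set_option autoImplicit false
set_option Elab.async false
set_option maxHeartbeats 0
set_option maxRecDepth 100000

open Crest.Agent.R097 Crest.Agent.R097.KA


namespace Crest.Agent.R097C4.N4pp

theorem L02417 : Good (Phi V4.P V4.D 1 1) ⟨6, 54, 5, 16, 2, 0, 3, 4, 3, 5⟩ :=
  leaf_sound (S := T4.ds_pp) T4.ok_pp (w := 192) (c := ⟨⟨.negSucc 807, .ofNat 11, .negSucc 25, .negSucc 298, .negSucc 29, .ofNat 73⟩, ⟨.negSucc 420, .negSucc 6, .negSucc 27, .negSucc 160, .negSucc 15, .ofNat 39⟩, ⟨.ofNat 469, .ofNat 2, .ofNat 12, .ofNat 73, .ofNat 46, .negSucc 53⟩, ⟨.negSucc 1236, .ofNat 76, .negSucc 60, .negSucc 429, .negSucc 45, .ofNat 107⟩, ⟨.negSucc 16, .negSucc 62, .ofNat 44, .negSucc 48, .ofNat 1, .ofNat 9⟩, .ofNat 2996, .negSucc 4941, .ofNat 0, .negSucc 4941, .ofNat 9354, .ofNat 0, .ofNat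 114, .ofNat 362, .negSucc 356, .ofNat 0, .ofNat 212, .negSucc 189, .ofNat 0, .ofNat 0, .ofNat 746, .ofNat 54797, .ofNat 1971198366297741869036026252764590899200, .ofNat 0, .ofNat 0, .ofNat 0, .ofNat 23244482172664475616789492095581264281600, .ofNat 0, .ofNat 53401147279218485686050383462400, .ofNat 0, .ofNat 18371313891793379302501157867664860774400, .ofNat 0, .ofNat 50808199756941476554415800320000, .ofNat 0, .ofNat 48958554582031745315326385974506474700800, .ofNat 0, .ofNat 21253294611058852496626679808000, .ofNat 0⟩)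
    (by decide +kernel)
theorem L02418 : Good (Phi V4.P V4.D 1 1) ⟨6, 54, 5, 16, 3, 0, 3, 5, 3, 5⟩ :=
  leaf_sound (S := T4.ds_pp) T4.ok_pp (w := 200) (c := ⟨⟨.negSucc 776, .negSucc 15, .negSucc 9, .negSucc 234, .negSucc 20, .ofNat 71⟩, ⟨.negSucc 404, .negSucc 16, .negSucc 19, .negSucc 126, .negSucc 10, .ofNat 38⟩, ⟨.ofNat 433, .ofNat 14, .ofNat 9, .ofNat 153, .ofNat 34, .negSucc 45⟩, ⟨.negSucc 1191, .ofNat 1, .negSucc 15, .negSucc 332, .negSucc 32, .ofNat 107⟩, ⟨.negSucc 8, .negSucc 3, .ofNat 4, .negSucc 46, .ofNat 3, .ofNat 1⟩, .ofNat 2942, .negSucc 4849, .ofNat 0, .negSucc 4849, .ofNat 9201, .ofNat 0, .ofNat 116, .ofNat 364, .negSucc 427, .ofNat 0, .ofNat 214, .negSucc 227, .ofNat 0, .ofNat 0, .ofNat 765, .ofNat 44629, .ofNat 238673324730122274534813418164783258009600, .ofNat 0, .ofNat 0, .ofNat 0, .ofNat 1038857620480201669614834973057159790592000, .ofNat 0,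 .ofNat 30535290532794450815677056732364800, .ofNat 0, .ofNat 171167176899624482023906392024399269068800, .ofNat 0, .ofNat 19291446837681271106734422333849600, .ofNat 0, .ofNat 0, .ofNat 0, .ofNat 6126703708331736851418571603968000, .ofNat 0⟩)
    (by decide +kernel)
theorem L02419 : Good (Phi V4.P V4.D 1 1) ⟨6, 54, 5, 16, 3, 1, 3, 5, 3, 5⟩ :=
  leaf_sound (S := T4.ds_pp) T4.ok_pp (w := 200) (c := ⟨⟨.negSucc 928, .negSucc 40, .negSucc 9, .negSucc 228, .negSucc 124, .ofNat 55⟩, ⟨.negSucc 483, .negSucc 35, .negSucc 21, .negSucc 121, .negSucc 66, .ofNat 30⟩, ⟨.ofNat 493, .ofNat 42, .ofNat 6, .ofNat 114, .ofNat 149, .negSucc 23⟩, ⟨.negSucc 1397, .negSucc 27, .negSucc 16, .negSucc 356, .negSucc 197, .ofNat 82⟩, ⟨.negSucc 63, .negSucc 7, .ofNat 6, .ofNat 15, .ofNat 13, .ofNat 4⟩, .ofNat 2946, .negSucc 4860, .ofNat 0, .negSucc 4860, .ofNat 9229, .ofNat 0, .ofNat 118, .ofNat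 372, .negSucc 413, .ofNat 0, .ofNat 218, .negSucc 219, .ofNat 0, .ofNat 0, .ofNat 759, .ofNat 39096, .ofNat 130676193721183886181283503165117825024000, .ofNat 0, .ofNat 0, .ofNat 0, .ofNat 0, .ofNat 0, .ofNat 34767625946171003217023530224844800, .ofNat 0, .ofNat 0, .ofNat 0, .ofNat 0, .ofNat 0, .ofNat 0, .ofNat 0, .ofNat 0, .ofNat 0⟩)
    (by decide +kernel)
theorem L02420 : Good (Phi V4.P V4.D 1 1) ⟨6, 54, 5, 17, 2, 0, 3, 4, 3, 5⟩ :=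
  leaf_sound (S := T4.ds_pp) T4.ok_pp (w := 192) (c := ⟨⟨.negSucc 743, .negSucc 87, .ofNat 31, .negSucc 314, .negSucc 54, .ofNat 93⟩, ⟨.negSucc 400, .negSucc 55, .ofNat 0, .negSucc 173, .negSucc 29, .ofNat 52⟩, ⟨.ofNat 431, .ofNat 42, .negSucc 8, .ofNat 90, .ofNat 75, .negSucc 79⟩, ⟨.negSucc 1074, .negSucc 197, .ofNat 96, .negSucc 449, .negSucc 89, .ofNat 135⟩, ⟨.negSucc 125, .ofNat 148, .negSucc 79, .negSucc 48, .ofNat 11, .ofNat 9⟩, .ofNat 6477, .negSucc 11065, .ofNat 0, .negSucc 11065, .ofNat 20107, .ofNat 0, .ofNat 81, .ofNat 372, .negSucc 361, .ofNat 0, .ofNat 215, .negSucc 199, .ofNat 0, .ofNat 0, .ofNat 748, .ofNat 29556, .ofNat 953390563153087391041782215541679718400, .ofNat 0, .ofNat 125538322918665040573759488000, .ofNat 0, .ofNat 3311011403407774316464186672573474406400, .ofNat 0, .ofNat 99251318079159668676101564006400, .ofNat 0, .ofNat 66460775602310195159343455623060232601600,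 .ofNat 0, .ofNat 53390767031182666164352529203200, .ofNat 0, .ofNat 0, .ofNat 0, .ofNat 0, .ofNat 0⟩)
    (by decide +kernel)
theorem L02421 : Good (Phi V4.P V4.D 1 1) ⟨6, 54, 5, 17, 3, 0, 4, 10, 3, 5⟩ :=
  leaf_sound (S := T4.ds_pp) T4.ok_pp (w := 208) (c := ⟨⟨.negSucc 788, .negSucc 51, .ofNat 7, .negSucc 195, .negSucc 7, .ofNat 78⟩, ⟨.negSucc 423, .negSucc 37, .negSucc 9, .negSucc 108, .negSucc 3, .ofNat 43⟩, ⟨.ofNat 444, .ofNat 59, .negSucc 10, .ofNat 107, .ofNat 13, .negSucc 56⟩, ⟨.negSucc 1210, .negSucc 56, .ofNat 14, .negSucc 269, .negSucc 12, .ofNat 118⟩, ⟨.negSucc 1, .negSucc 6, .ofNat 2, .negSucc 49, .ofNat 3, .ofNat 1⟩, .ofNat 1862, .negSucc 2820, .ofNat 0, .negSucc 2820, .ofNat 5341, .ofNat 0, .ofNat 133, .ofNat 360, .negSucc 406, .ofNat 0, .ofNat 221, .negSucc 219, .ofNat 0, .ofNat 0, .ofNat 764, .ofNat 143406, .ofNat 2800963484865158686301726522080993109606400,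 .ofNat 0, .ofNat 1775148643242210866868509265100800, .ofNat 0, .ofNat 0, .ofNat 0, .ofNat 0, .ofNat 0, .ofNat 7417881153831307457054771654217130259251200, .ofNat 0, .ofNat 229535927074465837704466419784089600, .ofNat 0, .ofNat 0, .ofNat 0, .ofNat 132426540638431839094742088626995200, .ofNat 0⟩)
    (by decide +kernel)
theorem L02422 : Good (Phi V4.P V4.D 1 1) ⟨6, 54, 5, 17, 3, 0, 4, 11, 3, 5⟩ :=
  leaf_sound (S := T4.ds_pp) T4.ok_pp (w := 208) (c := ⟨⟨.negSucc 819, .ofNat 31, .negSucc 30, .negSucc 258, .negSucc 6, .ofNat 73⟩, ⟨.negSucc 438, .ofNat 5, .negSucc 29, .negSucc 143, .negSucc 3, .ofNat 40⟩, ⟨.ofNat 487, .negSucc 43, .ofNat 38, .ofNat 180, .ofNat 12, .negSucc 46⟩, ⟨.negSucc 1255, .ofNat 65, .negSucc 41, .negSucc 365, .negSucc 11, .ofNat 111⟩, ⟨.negSucc 5, .ofNat 2, .negSucc 3, .negSucc 48, .ofNat 2, .negSucc 0⟩, .ofNat 1869, .negSucc 2831, .ofNat 0, .negSucc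 2831, .ofNat 5356, .ofNat 0, .ofNat 134, .ofNat 364, .negSucc 454, .ofNat 0, .ofNat 224, .negSucc 245, .ofNat 0, .ofNat 0, .ofNat 782, .ofNat 50746, .ofNat 1059984886682840756204086819392027466137600, .ofNat 0, .ofNat 659242760917010769858426568704000, .ofNat 0, .ofNat 0, .ofNat 0, .ofNat 0, .ofNat 0, .ofNat 0, .ofNat 0, .ofNat 341325142830819489037216132576051200, .ofNat 0, .ofNat 2374845941145114900154843468289244816998400, .ofNat 0, .ofNat 177919578957523678465692963491020800, .ofNat 0⟩)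
    (by decide +kernel)
theorem L02423 : Good (Phi V4.P V4.D 1 1) ⟨6, 54, 5, 17, 3, 1, 3, 5, 3, 5⟩ :=
  leaf_sound (S := T4.ds_pp) T4.ok_pp (w := 208) (c := ⟨⟨.negSucc 886, .negSucc 108, .ofNat 29, .negSucc 222, .negSucc 137, .ofNat 59⟩, ⟨.negSucc 474, .negSucc 71, .negSucc 1, .negSucc 122, .negSucc 75, .ofNat 32⟩, ⟨.ofNat 450, .ofNat 108, .negSucc 32, .ofNat 103, .ofNat 163, .negSucc 26⟩, ⟨.negSucc 1321, .negSucc 152, .ofNat 54, .negSucc 347, .negSucc 214, .ofNat 86⟩, ⟨.negSucc 78, .ofNat 21, .negSucc 8, .ofNat 17, .ofNat 11, .ofNat 5⟩, .ofNat 6389, .negSucc 10908, .ofNat 0, .negSucc 10908, .ofNat 19826, .ofNat 0, .ofNat 84, .ofNat 381, .negSucc 413, .ofNat 0, .ofNat 221, .negSucc 227, .ofNat 0, .ofNat 0, .ofNat 759, .ofNat 29480, .ofNat 100358718428853942841470293298832107110400, .ofNat 0, .ofNat 63878907090639692477706220339200, .ofNat 0, .ofNat 0, .ofNat 0, .ofNat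 49039970995607099488709149458432000, .ofNat 0, .ofNat 3063215645188347275220231800571858989875200, .ofNat 0, .ofNat 21615877556438464438854138357350400, .ofNat 0, .ofNat 12293106075991704724589011741378294579200, .ofNat 0, .ofNat 23434324109221148931058785740390400, .ofNat 0⟩)
    (by decide +kernel)
theorem L02424 : Good (Phi V4.P V4.D 1 1) ⟨6, 55, 5, 16, 2, 0, 2, 2, 3, 5⟩ :=
  out_sound (S := T4.ds_pp) T4.ok_pp (w := 72) (j := 3) (by decide +kernel)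
theorem L02425 : Good (Phi V4.P V4.D 1 1) ⟨8, 220, 6, 34, 2, 0, 2, 2, 3, 5⟩ :=
  out_sound (S := T4.ds_pp) T4.ok_pp (w := 88) (j := 3) (by decide +kernel)
theorem L02426 : Good (Phi V4.P V4.D 1 1) ⟨8, 220, 6, 35, 3, 0, 3, 4, 3, 5⟩ :=
  leaf_sound (S := T4.ds_pp) T4.ok_pp (w := 216) (c := ⟨⟨.negSucc 859, .negSucc 30, .ofNat 22, .negSucc 156, .negSucc 5, .ofNat 91⟩, ⟨.negSucc 478, .negSucc 19, .ofNat 6, .negSucc 88, .negSucc 3, .ofNat 51⟩, ⟨.ofNat 521, .ofNat 34, .negSucc 24, .ofNat 57, .ofNat 12, .negSucc 74⟩, ⟨.negSucc 1297, .negSucc 44, .ofNat 41, .negSucc 206, .negSucc 10, .ofNat 136⟩, ⟨.negSucc 3, .ofNat 7, .negSucc 10, .negSucc 51, .ofNat 3, .ofNat 2⟩, .ofNat 2051, .negSucc 3117, .ofNat 0, .negSucc 3117, .ofNat 5781, .ofNat 0, .ofNat 123, .ofNat 362, .negSucc 376, .ofNat 0, .ofNat 223, .negSucc 207, .ofNat 0, .ofNat 0, .ofNat 759, .ofNat 123123, .ofNat 500463164026035684743410135236863560620441600,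 .ofNat 0, .ofNat 0, .ofNat 0, .ofNat 0, .ofNat 0, .ofNat 0, .ofNat 0, .ofNat 6558936145809322016426845156216460696302387200, .ofNat 0, .ofNat 0, .ofNat 0, .ofNat 14425246339355323769966486582272410249068544000, .ofNat 0, .ofNat 4143145979019900821402772150681600, .ofNat 0⟩)
    (by decide +kernel)
theorem L02427 : Good (Phi V4.P V4.D 1 1) ⟨8, 220, 6, 35, 3, 1, 3, 4, 3, 5⟩ :=
  leaf_sound (S := T4.ds_pp) T4.ok_pp (w := 216) (c := ⟨⟨.negSucc 954, .ofNat 2, .negSucc 7, .negSucc 153, .negSucc 68, .ofNat 72⟩, ⟨.negSucc 531, .negSucc 2, .negSucc 11, .negSucc 86, .negSucc 38, .ofNat 41⟩, ⟨.ofNat 498, .negSucc 16, .ofNat 21, .ofNat 23, .ofNat 93, .negSucc 48⟩, ⟨.negSucc 1406, .negSucc 4, .ofNat 3, .negSucc 235, .negSucc 111, .ofNat 105⟩, ⟨.negSucc 65, .ofNat 26, .negSucc 24, .ofNat 7, .ofNat 13, .ofNat 7⟩, .ofNat 2048, .negSucc 3113, .ofNat 0, .negSucc 3113, .ofNat 5776,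 .ofNat 0, .ofNat 123, .ofNat 363, .negSucc 351, .ofNat 0, .ofNat 223, .negSucc 193, .ofNat 0, .ofNat 0, .ofNat 745, .ofNat 84521, .ofNat 267939537679850361260392012138549452000460800, .ofNat 0, .ofNat 0, .ofNat 0, .ofNat 0, .ofNat 0, .ofNat 0, .ofNat 0, .ofNat 0, .ofNat 0, .ofNat 0, .ofNat 0, .ofNat 9851630154571692469412182377946426190384332800, .ofNat 0, .ofNat 6260302150168990841711513881804800, .ofNat 0⟩)
    (by decide +kernel)
theorem L02428 : Good (Phi V4.P V4.D 1 1) ⟨8, 220, 6, 35, 4, 0, 4, 10, 3, 5⟩ :=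
  leaf_sound (S := T4.ds_pp) T4.ok_pp (w := 224) (c := ⟨⟨.negSucc 842, .negSucc 5, .negSucc 3, .negSucc 99, .ofNat 7, .ofNat 86⟩, ⟨.negSucc 469, .negSucc 6, .negSucc 7, .negSucc 56, .ofNat 4, .ofNat 48⟩, ⟨.ofNat 503, .ofNat 6, .ofNat 4, .ofNat 59, .negSucc 3, .negSucc 65⟩, ⟨.negSucc 1272, .negSucc 2, .negSucc 5, .negSucc 131, .ofNat 10, .ofNat 129⟩, ⟨.negSucc 1, .negSucc 0, .ofNat 1, .negSucc 33, .ofNat 1, .ofNat 0⟩, .ofNat 2043, .negSucc 3104, .ofNat 0, .negSucc 3104, .ofNat 5763, .ofNat 0, .ofNat 124, .ofNat 363, .negSucc 412, .ofNat 0, .ofNat 224, .negSucc 227, .ofNat 0, .ofNat 0, .ofNat 769, .ofNat 237583, .ofNat 713412952325561857839394556946134443469517619200, .ofNat 0, .ofNat 0, .ofNat 0, .ofNat 0, .ofNat 0, .ofNat 0, .ofNat 0, .ofNat 0, .ofNat 0, .ofNat 0, .ofNat 0, .ofNat 1994157351765822753088924188275098868775282278400, .ofNat 0, .ofNat 0, .ofNat 0⟩)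
    (by decide +kernel)
theorem L02429 : Good (Phi V4.P V4.D 1 1) ⟨8, 220, 6, 35, 4, 1, 4, 10, 3, 5⟩ :=
  leaf_sound (S := T4.ds_pp) T4.ok_pp (w := 224) (c := ⟨⟨.negSucc 921, .ofNat 5, .negSucc 14, .negSucc 99, .negSucc 18, .ofNat 76⟩, ⟨.negSucc 513, .negSucc 0, .negSucc 14, .negSucc 55, .negSucc 10, .ofNat 43⟩, ⟨.ofNat 537, .negSucc 6, .ofNat 17, .ofNat 51, .ofNat 25, .negSucc 52⟩, ⟨.negSucc 1372, .ofNat 13, .negSucc 20, .negSucc 140, .negSucc 29, .ofNat 114⟩, ⟨.negSucc 36, .ofNat 0, .ofNat 0, .negSucc 16, .ofNat 3, .ofNat 1⟩, .ofNat 2052, .negSucc 3119, .ofNat 0, .negSucc 3119, .ofNat 5785, .ofNat 0, .ofNat 124, .ofNat 366, .negSucc 409, .ofNat 0, .ofNat 225, .negSucc 225, .ofNat 0, .ofNat 0, .ofNat 767, .ofNat 202755, .ofNat 487406220908798597067875822336355541937710694400, .ofNat 0, .ofNat 0, .ofNat 0, .ofNat 0, .ofNat 0, .ofNat 0, .ofNat 0, .ofNat 1083643810926675664256052627228097693111182950400,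 .ofNat 0, .ofNat 40996789866723354469403102655440486400, .ofNat 0, .ofNat 104617558428067482707152829116445543137227571200, .ofNat 0, .ofNat 29932017541269162021990919313974886400, .ofNat 0⟩)
    (by decide +kernel)
theorem L02430 : Good (Phi V4.P V4.D 1 1) ⟨8, 220, 6, 35, 3, 0, 4, 11, 3, 5⟩ :=
  leaf_sound (S := T4.ds_pp) T4.ok_pp (w := 216) (c := ⟨⟨.negSucc 817, .negSucc 60, .ofNat 49, .negSucc 262, .negSucc 8, .ofNat 71⟩, ⟨.negSucc 455, .negSucc 35, .ofNat 20, .negSucc 148, .negSucc 4, .ofNat 40⟩, ⟨.ofNat 480, .ofNat 72, .negSucc 59, .ofNat 182, .ofNat 15, .negSucc 44⟩, ⟨.negSucc 1232, .negSucc 84, .ofNat 76, .negSucc 370, .negSucc 14, .ofNat 106⟩, ⟨.negSucc 6, .negSucc 1, .ofNat 0, .negSucc 45, .ofNat 2, .ofNat 1⟩, .ofNat 798, .negSucc 944, .ofNat 0, .negSucc 944, .ofNat 1929, .ofNat 0, .ofNat 204, .ofNat 337, .negSucc 476, .ofNat 0, .ofNat 241, .negSucc 248,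 .ofNat 0, .ofNat 0, .ofNat 800, .ofNat 43422, .ofNat 957076989131301192390360345715848683873894400, .ofNat 0, .ofNat 123375627715628055765437330227200, .ofNat 0, .ofNat 0, .ofNat 0, .ofNat 0, .ofNat 0, .ofNat 0, .ofNat 0, .ofNat 0, .ofNat 0, .ofNat 2844548334036862500554177347870244135239680000, .ofNat 0, .ofNat 89644515892164083590326381654835200, .ofNat 0⟩)
    (by decide +kernel)
theorem L02431 : Good (Phi V4.P V4.D 1 1) ⟨8, 220, 6, 35, 3, 1, 3, 5, 3, 5⟩ :=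
  leaf_sound (S := T4.ds_pp) T4.ok_pp (w := 216) (c := ⟨⟨.negSucc 980, .negSucc 29, .ofNat 18, .negSucc 228, .negSucc 128, .ofNat 55⟩, ⟨.negSucc 546, .negSucc 20, .ofNat 2, .negSucc 128, .negSucc 72, .ofNat 31⟩, ⟨.ofNat 542, .ofNat 29, .negSucc 18, .ofNat 109, .ofNat 154, .negSucc 22⟩, ⟨.negSucc 1449, .negSucc 38, .ofNat 29, .negSucc 354, .negSucc 199, .ofNat 82⟩, ⟨.negSucc 60, .ofNat 2, .negSucc 0, .ofNat 17, .ofNat 9, .ofNat 3⟩, .ofNat 4653, .negSucc 7699, .ofNat 0, .negSucc 7699, .ofNat 13879, .ofNat 0, .ofNat 86, .ofNat 381, .negSucc 424, .ofNat 0, .ofNat 224, .negSucc 237, .ofNat 0, .ofNat 0, .ofNat 764, .ofNat 45425, .ofNat 152660050952038290038214149499165829024972800, .ofNat 0, .ofNat 0, .ofNat 0, .ofNat 0, .ofNat 0, .ofNat 0, .ofNat 0, .ofNat 2878840710041162318249283073220070584667340800, .ofNat 0, .ofNat 0, .ofNat 0, .ofNat 145064349290173690082899764866015230427136000,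 .ofNat 0, .ofNat 2695326137244298137954094468300800, .ofNat 0⟩)
    (by decide +kernel)
theorem L02432 : Good (Phi V4.P V4.D 1 1) ⟨8, 221, 5, 17, 2, 0, 2, 2, 3, 5⟩ :=
  out_sound (S := T4.ds_pp) T4.ok_pp (w := 80) (j := 3) (by decide +kernel)
theorem L02433 : Good (Phi V4.P V4.D 1 1) ⟨7, 111, 5, 17, 2, 0, 2, 2, 3, 5⟩ :=
  out_sound (S := T4.ds_pp) T4.ok_pp (w := 80) (j := 3) (by decide +kernel)
theorem L02434 : Good (Phi V4.P V4.D 1 1) ⟨6, 54, 4, 9, 2, 0, 2, 2, 2, 2⟩ :=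
  out_sound (S := T4.ds_pp) T4.ok_pp (w := 72) (j := 3) (by decide +kernel)
theorem L02435 : Good (Phi V4.P V4.D 1 1) ⟨7, 110, 5, 18, 3, 0, 3, 4, 3, 4⟩ :=
  leaf_sound (S := T4.ds_pp) T4.ok_pp (w := 208) (c := ⟨⟨.negSucc 986, .negSucc 9, .negSucc 7, .negSucc 122, .ofNat 0, .ofNat 110⟩, ⟨.negSucc 555, .negSucc 15, .negSucc 14, .negSucc 69, .ofNat 0, .ofNat 63⟩, ⟨.ofNat 653, .ofNat 9, .ofNat 6, .ofNat 16, .negSucc 4, .negSucc 104⟩, ⟨.negSucc 1486, .negSucc 7, .negSucc 4, .negSucc 151, .ofNat 0, .ofNat 166⟩, ⟨.negSucc 5, .ofNat 2, .ofNat 1, .negSucc 57, .ofNat 1, .ofNat 0⟩, .ofNat 2227, .negSucc 3393, .ofNat 0, .negSucc 3393, .ofNat 6198, .ofNat 0, .ofNat 125, .ofNat 393, .negSucc 405, .ofNat 0, .ofNat 242, .negSucc 226, .ofNat 0, .ofNat 0, .ofNat 819, .ofNat 72200, .ofNat 0, .ofNat 0, .ofNat 0, .ofNat 0, .ofNat 0, .ofNat 0, .ofNat 0, .ofNat 0, .ofNat 0, .ofNat 0, .ofNat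 0, .ofNat 0, .ofNat 0, .ofNat 0, .ofNat 1721267323333941389389976095948800, .ofNat 0⟩)
    (by decide +kernel)
theorem L02436 : Good (Phi V4.P V4.D 1 1) ⟨7, 110, 5, 18, 3, 0, 3, 4, 3, 5⟩ :=
  leaf_sound (S := T4.ds_pp) T4.ok_pp (w := 208) (c := ⟨⟨.negSucc 848, .negSucc 5, .negSucc 5, .negSucc 156, .negSucc 15, .ofNat 78⟩, ⟨.negSucc 477, .negSucc 12, .negSucc 12, .negSucc 89, .negSucc 8, .ofNat 45⟩, ⟨.ofNat 508, .ofNat 4, .ofNat 6, .ofNat 55, .ofNat 25, .negSucc 59⟩, ⟨.negSucc 1274, .negSucc 3, .ofNat 0, .negSucc 205, .negSucc 25, .ofNat 115⟩, ⟨.negSucc 10, .ofNat 3, .negSucc 3, .negSucc 50, .ofNat 4, .ofNat 3⟩, .ofNat 2247, .negSucc 3425, .ofNat 0, .negSucc 3425, .ofNat 6245, .ofNat 0, .ofNat 115, .ofNat 364, .negSucc 373, .ofNat 0, .ofNat 224, .negSucc 208, .ofNat 0, .ofNat 0, .ofNat 757, .ofNat 72908, .ofNat 4125409981856641787533695330672200122368000, .ofNat 0,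 .ofNat 29160906830386002860653412352000, .ofNat 0, .ofNat 0, .ofNat 0, .ofNat 0, .ofNat 0, .ofNat 0, .ofNat 0, .ofNat 0, .ofNat 0, .ofNat 0, .ofNat 0, .ofNat 0, .ofNat 0⟩)
    (by decide +kernel)
theorem L02437 : Good (Phi V4.P V4.D 1 1) ⟨7, 110, 5, 18, 3, 1, 3, 4, 3, 4⟩ :=
  leaf_sound (S := T4.ds_pp) T4.ok_pp (w := 208) (c := ⟨⟨.negSucc 1078, .negSucc 4, .negSucc 13, .negSucc 138, .negSucc 51, .ofNat 99⟩, ⟨.negSucc 607, .negSucc 13, .negSucc 19, .negSucc 78, .negSucc 29, .ofNat 57⟩, ⟨.ofNat 629, .ofNat 3, .ofNat 10, .ofNat 0, .ofNat 61, .negSucc 92⟩, ⟨.negSucc 1590, .ofNat 1, .negSucc 13, .negSucc 208, .negSucc 83, .ofNat 147⟩, ⟨.negSucc 66, .negSucc 0, .ofNat 2, .ofNat 1, .ofNat 9, .ofNat 3⟩, .ofNat 5811, .negSucc 9626, .ofNat 0, .negSucc 9626, .ofNat 17062, .ofNat 0, .ofNat 78, .ofNat 411, .negSucc 389, .ofNat 0, .ofNat 242, .negSucc 221, .ofNat 0, .ofNat 0,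 .ofNat 810, .ofNat 53697, .ofNat 0, .ofNat 0, .ofNat 0, .ofNat 0, .ofNat 0, .ofNat 0, .ofNat 17640876107190246156686436021043200, .ofNat 0, .ofNat 0, .ofNat 0, .ofNat 0, .ofNat 0, .ofNat 0, .ofNat 0, .ofNat 6065525205535732005607376840294400, .ofNat 0⟩)
    (by decide +kernel)
theorem L02438 : Good (Phi V4.P V4.D 1 1) ⟨7, 110, 5, 18, 3, 1, 3, 4, 3, 5⟩ :=
  leaf_sound (S := T4.ds_pp) T4.ok_pp (w := 208) (c := ⟨⟨.negSucc 962, .negSucc 5, .negSucc 17, .negSucc 152, .negSucc 66, .ofNat 73⟩, ⟨.negSucc 541, .negSucc 13, .negSucc 21, .negSucc 87, .negSucc 38, .ofNat 42⟩, ⟨.ofNat 509, .ofNat 4, .ofNat 18, .ofNat 21, .ofNat 92, .negSucc 50⟩, ⟨.negSucc 1415, .ofNat 2, .negSucc 23, .negSucc 232, .negSucc 104, .ofNat 103⟩, ⟨.negSucc 65, .negSucc 3, .ofNat 7, .ofNat 6, .ofNat 7, .ofNat 11⟩, .ofNat 821, .negSucc 976, .ofNat 0, .negSucc 976, .ofNat 1964, .ofNat 0, .ofNat 196, .ofNat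 335, .negSucc 371, .ofNat 0, .ofNat 239, .negSucc 195, .ofNat 0, .ofNat 0, .ofNat 756, .ofNat 108437, .ofNat 5435657346345848973174632004177370074316800, .ofNat 0, .ofNat 95710997761725284560992101990400, .ofNat 0, .ofNat 0, .ofNat 0, .ofNat 0, .ofNat 0, .ofNat 0, .ofNat 0, .ofNat 0, .ofNat 0, .ofNat 191219384963130334851827040898909305883852800, .ofNat 0, .ofNat 4522709084385694875206782707302400, .ofNat 0⟩)
    (by decide +kernel)
theorem L02439 : Good (Phi V4.P V4.D 1 1) ⟨7, 110, 5, 18, 3, 0, 3, 5, 3, 4⟩ :=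
  leaf_sound (S := T4.ds_pp) T4.ok_pp (w := 208) (c := ⟨⟨.negSucc 925, .negSucc 56, .ofNat 22, .negSucc 200, .ofNat 3, .ofNat 107⟩, ⟨.negSucc 521, .negSucc 41, .ofNat 1, .negSucc 114, .ofNat 1, .ofNat 61⟩, ⟨.ofNat 568, .ofNat 62, .negSucc 24, .ofNat 109, .ofNat 0, .negSucc 87⟩, ⟨.negSucc 1393, .negSucc 79, .ofNat 41, .negSucc 272, .ofNat 4, .ofNat 159⟩, ⟨.negSucc 5, .ofNat 2, .negSucc 1, .negSucc 52, .ofNat 0, .ofNat 3⟩, .ofNat 2219, .negSucc 3380, .ofNat 0, .negSucc 3380, .ofNat 6178, .ofNat 0, .ofNat 129, .ofNat 406, .negSucc 499, .ofNat 0, .ofNat 250, .negSucc 278, .ofNat 0, .ofNat 0, .ofNat 859, .ofNat 22813, .ofNat 0, .ofNat 0, .ofNat 0, .ofNat 0, .ofNat 0, .ofNat 0, .ofNat 0, .ofNat 0, .ofNat 0, .ofNat 0, .ofNat 0, .ofNat 0, .ofNat 0, .ofNat 0, .ofNat 6373086320005549485216483822796800, .ofNat 0⟩)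
    (by decide +kernel)
theorem L02440 : Good (Phi V4.P V4.D 1 1) ⟨7, 110, 5, 18, 4, 0, 4, 10, 3, 5⟩ :=
  leaf_sound (S := T4.ds_pp) T4.ok_pp (w := 224) (c := ⟨⟨.negSucc 844, .negSucc 8, .negSucc 9, .negSucc 103, .ofNat 6, .ofNat 85⟩, ⟨.negSucc 476, .negSucc 12, .negSucc 14, .negSucc 59, .ofNat 4, .ofNat 48⟩, ⟨.ofNat 505, .ofNat 9, .ofNat 10, .ofNat 63, .negSucc 3, .negSucc 64⟩, ⟨.negSucc 1274, .negSucc 4, .negSucc 10, .negSucc 137, .ofNat 9, .ofNat 127⟩, ⟨.negSucc 0, .negSucc 2, .ofNat 3, .negSucc 33, .ofNat 1, .ofNat 1⟩, .ofNat 820, .negSucc 975, .ofNat 0, .negSucc 975, .ofNat 1962, .ofNat 0, .ofNat 197, .ofNat 335, .negSucc 429, .ofNat 0, .ofNat 239, .negSucc 227, .ofNat 0, .ofNat 0, .ofNat 779, .ofNat 235785, .ofNat 11655506687990836995212689831310476998554419200, .ofNat 0, .ofNat 0, .ofNat 0, .ofNat 0, .ofNat 0, .ofNat 63898186489925997429696452827388313600,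 .ofNat 0, .ofNat 0, .ofNat 0, .ofNat 0, .ofNat 0, .ofNat 14481933198645225808931518274519016721612800000, .ofNat 0, .ofNat 19385261635817961558095999601003724800, .ofNat 0⟩)
    (by decide +kernel)
theorem L02441 : Good (Phi V4.P V4.D 1 1) ⟨7, 110, 5, 18, 4, 1, 4, 10, 4, 10⟩ :=
  leaf_sound (S := T4.ds_pp) T4.ok_pp (w := 224) (c := ⟨⟨.negSucc 929, .negSucc 17, .negSucc 3, .negSucc 96, .negSucc 16, .ofNat 41⟩, ⟨.negSucc 523, .negSucc 19, .negSucc 12, .negSucc 55, .negSucc 9, .ofNat 23⟩, ⟨.ofNat 546, .ofNat 18, .ofNat 3, .ofNat 47, .ofNat 24, .negSucc 29⟩, ⟨.negSucc 1382, .negSucc 18, .ofNat 0, .negSucc 135, .negSucc 26, .ofNat 61⟩, ⟨.negSucc 36, .ofNat 0, .ofNat 0, .negSucc 17, .ofNat 2, .ofNat 1⟩, .ofNat 821, .negSucc 976, .ofNat 0, .negSucc 976, .ofNat 1963, .ofNat 0, .ofNat 199, .ofNat 339, .negSucc 428, .ofNat 0, .ofNat 242, .negSucc 226, .ofNat 0, .ofNat 0, .ofNat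 784, .ofNat 367865, .ofNat 0, .ofNat 0, .ofNat 0, .ofNat 0, .ofNat 0, .ofNat 0, .ofNat 572627908101464769137472868775362560000, .ofNat 0, .ofNat 0, .ofNat 0, .ofNat 0, .ofNat 0, .ofNat 0, .ofNat 0, .ofNat 0, .ofNat 0⟩)
    (by decide +kernel)
theorem L02442 : Good (Phi V4.P V4.D 1 1) ⟨7, 110, 5, 18, 4, 1, 4, 10, 5, 22⟩ :=
  leaf_sound (S := T4.ds_pp) T4.ok_pp (w := 232) (c := ⟨⟨.negSucc 884, .negSucc 12, .negSucc 7, .negSucc 104, .negSucc 22, .ofNat 19⟩, ⟨.negSucc 497, .negSucc 16, .negSucc 13, .negSucc 59, .negSucc 12, .ofNat 11⟩, ⟨.ofNat 510, .ofNat 12, .ofNat 8, .ofNat 56, .ofNat 31, .negSucc 13⟩, ⟨.negSucc 1315, .negSucc 10, .negSucc 5, .negSucc 147, .negSucc 34, .ofNat 28⟩, ⟨.negSucc 36, .ofNat 0, .negSucc 0, .negSucc 16, .ofNat 2, .ofNat 1⟩, .ofNat 821, .negSucc 976, .ofNat 0, .negSucc 976, .ofNat 1964, .ofNat 0, .ofNat 193, .ofNat 329, .negSucc 415, .ofNat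 0, .ofNat 235, .negSucc 219, .ofNat 0, .ofNat 0, .ofNat 759, .ofNat 506329, .ofNat 296565729427089787873791736828291067469103104000, .ofNat 0, .ofNat 216347953169684897434360821128468889600, .ofNat 0, .ofNat 133394978358087344090585471059159662906782515200, .ofNat 0, .ofNat 17482769958073076210018173437918314496000, .ofNat 0, .ofNat 0, .ofNat 0, .ofNat 0, .ofNat 0, .ofNat 0, .ofNat 0, .ofNat 0, .ofNat 0⟩)
    (by decide +kernel)
theorem L02443 : Good (Phi V4.P V4.D 1 1) ⟨7, 110, 5, 18, 4, 1, 4, 10, 5, 23⟩ :=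
  leaf_sound (S := T4.ds_pp) T4.ok_pp (w := 232) (c := ⟨⟨.negSucc 858, .negSucc 9, .negSucc 9, .negSucc 111, .negSucc 26, .ofNat 11⟩, ⟨.negSucc 483, .negSucc 14, .negSucc 15, .negSucc 63, .negSucc 15, .ofNat 6⟩, ⟨.ofNat 484, .ofNat 10, .ofNat 9, .ofNat 66, .ofNat 41, .negSucc 6⟩, ⟨.negSucc 1280, .negSucc 7, .negSucc 8, .negSucc 158, .negSucc 37, .ofNat 16⟩, ⟨.negSucc 27, .negSucc 0, .ofNat 1, .negSucc 15, .negSucc 5, .ofNat 2⟩, .ofNat 373, .negSucc 272, .ofNat 0, .negSucc 272, .ofNat 693, .ofNat 0, .ofNat 293, .ofNat 266, .negSucc 489, .ofNat 0, .ofNat 269, .negSucc 222, .ofNat 0, .ofNat 0, .ofNat 803, .ofNat 8552548, .ofNat 7831220746146527879419213703666854469869712179200, .ofNat 0, .ofNat 5736715601399741459732746519365392793600, .ofNat 0, .ofNat 10136251144888281097879721051684478991185897062400, .ofNat 0, .ofNat 7659399000903140865714177087658524672000, .ofNat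 0, .ofNat 17690577083542890761177135525967998413391580364800, .ofNat 0, .ofNat 0, .ofNat 0, .ofNat 21777868459547633064251976838965293636039108198400, .ofNat 0, .ofNat 7403889017615572440532387867381884518400, .ofNat 0⟩)
    (by decide +kernel)
theorem L02444 : Good (Phi V4.P V4.D 1 1) ⟨7, 110, 5, 18, 4, 0, 4, 11, 3, 5⟩ :=
  leaf_sound (S := T4.ds_pp) T4.ok_pp (w := 224) (c := ⟨⟨.negSucc 824, .ofNat 3, .negSucc 15, .negSucc 134, .ofNat 5, .ofNat 77⟩, ⟨.negSucc 464, .negSucc 6, .negSucc 17, .negSucc 76, .ofNat 3, .ofNat 44⟩, ⟨.ofNat 485, .negSucc 3, .ofNat 16, .ofNat 98, .ofNat 0, .negSucc 53⟩, ⟨.negSucc 1244, .ofNat 11, .negSucc 17, .negSucc 183, .ofNat 6, .ofNat 116⟩, ⟨.negSucc 1, .ofNat 0, .ofNat 0, .negSucc 31, .ofNat 1, .ofNat 1⟩, .ofNat 5805, .negSucc 9617, .ofNat 0, .negSucc 9617, .ofNat 17048, .ofNat 0, .ofNat 73, .ofNat 381, .negSucc 456, .ofNat 0, .ofNat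 224, .negSucc 259, .ofNat 0, .ofNat 0, .ofNat 785, .ofNat 106014, .ofNat 5509428057194530189566878419978741123488153600, .ofNat 0, .ofNat 0, .ofNat 0, .ofNat 7788087965531315097999682189628850335593267200, .ofNat 0, .ofNat 71613235122971818370413140754248499200, .ofNat 0, .ofNat 0, .ofNat 0, .ofNat 0, .ofNat 0, .ofNat 0, .ofNat 0, .ofNat 35333001111656120048409956341461811200, .ofNat 0⟩)
    (by decide +kernel)
theorem L02445 : Good (Phi V4.P V4.D 1 1) ⟨7, 110, 5, 18, 4, 1, 4, 11, 4, 10⟩ :=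
  leaf_sound (S := T4.ds_pp) T4.ok_pp (w := 224) (c := ⟨⟨.negSucc 926, .negSucc 20, .negSucc 9, .negSucc 126, .negSucc 27, .ofNat 38⟩, ⟨.negSucc 521, .negSucc 21, .negSucc 15, .negSucc 72, .negSucc 15, .ofNat 22⟩, ⟨.ofNat 547, .ofNat 21, .ofNat 9, .ofNat 80, .ofNat 36, .negSucc 25⟩, ⟨.negSucc 1377, .negSucc 24, .negSucc 6, .negSucc 181, .negSucc 43, .ofNat 57⟩, ⟨.negSucc 36, .ofNat 3, .negSucc 1, .negSucc 14, .ofNat 2, .ofNat 1⟩, .ofNat 2229, .negSucc 3395, .ofNat 0, .negSucc 3395, .ofNat 6201, .ofNat 0, .ofNat 121, .ofNat 382, .negSucc 475, .ofNat 0, .ofNat 235, .negSucc 265, .ofNat 0, .ofNat 0, .ofNat 807, .ofNat 173281, .ofNat 0, .ofNat 0, .ofNat 0, .ofNat 0, .ofNat 0, .ofNat 0, .ofNat 1230536485389321794552296016893811097600, .ofNat 0, .ofNat 0, .ofNat 0, .ofNat 0, .ofNat 0, .ofNat 0, .ofNat 0, .ofNat 0, .ofNat 0⟩)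
    (by decide +kernel)
theorem L02446 : Good (Phi V4.P V4.D 1 1) ⟨7, 110, 5, 18, 4, 1, 5, 22, 5, 22⟩ :=
  leaf_sound (S := T4.ds_pp) T4.ok_pp (w := 232) (c := ⟨⟨.negSucc 896, .negSucc 18, .negSucc 0, .negSucc 120, .negSucc 12, .ofNat 18⟩, ⟨.negSucc 504, .negSucc 20, .negSucc 10, .negSucc 68, .negSucc 6, .ofNat 10⟩, ⟨.ofNat 529, .ofNat 19, .ofNat 0, .ofNat 75, .ofNat 17, .negSucc 11⟩, ⟨.negSucc 1333, .negSucc 21, .ofNat 4, .negSucc 171, .negSucc 19, .ofNat 27⟩, ⟨.negSucc 34, .ofNat 1, .negSucc 0, .negSucc 15, .ofNat 1, .ofNat 0⟩, .ofNat 820, .negSucc 975, .ofNat 0, .negSucc 975, .ofNat 1962, .ofNat 0, .ofNat 195, .ofNat 333, .negSucc 446, .ofNat 0, .ofNat 238, .negSucc 236, .ofNat 0, .ofNat 0, .ofNat 775, .ofNat 820024, .ofNat 0, .ofNat 0, .ofNat 0, .ofNat 0, .ofNat 0, .ofNat 0, .ofNat 107847651333748437198459470370712426905600, .ofNat 0, .ofNat 0, .ofNat 0, .ofNat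 107396325146328610890618430864077776486400, .ofNat 0, .ofNat 0, .ofNat 0, .ofNat 0, .ofNat 0⟩)
    (by decide +kernel)
theorem L02447 : Good (Phi V4.P V4.D 1 1) ⟨7, 110, 5, 18, 4, 1, 5, 22, 5, 23⟩ :=
  leaf_sound (S := T4.ds_pp) T4.ok_pp (w := 232) (c := ⟨⟨.negSucc 876, .negSucc 11, .negSucc 9, .negSucc 124, .negSucc 16, .ofNat 15⟩, ⟨.negSucc 493, .negSucc 15, .negSucc 15, .negSucc 70, .negSucc 8, .ofNat 9⟩, ⟨.ofNat 515, .ofNat 12, .ofNat 9, .ofNat 80, .ofNat 21, .negSucc 8⟩, ⟨.negSucc 1304, .negSucc 10, .negSucc 7, .negSucc 178, .negSucc 25, .ofNat 23⟩, ⟨.negSucc 34, .negSucc 0, .ofNat 0, .negSucc 14, .ofNat 2, .ofNat 0⟩, .ofNat 820, .negSucc 975, .ofNat 0, .negSucc 975, .ofNat 1963, .ofNat 0, .ofNat 192, .ofNat 327, .negSucc 437, .ofNat 0, .ofNat 234, .negSucc 231, .ofNat 0, .ofNat 0, .ofNat 761, .ofNat 1444267, .ofNat 4807708271977216037211957836371008224450366668800,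 .ofNat 0, .ofNat 7795635363791870893313193169031843020800, .ofNat 0, .ofNat 2505396162330785689514752769134530674346373939200, .ofNat 0, .ofNat 113044207104110643073031481804119133388800, .ofNat 0, .ofNat 0, .ofNat 0, .ofNat 0, .ofNat 0, .ofNat 1564876966011169248112670491959881958636807782400, .ofNat 0, .ofNat 73185340164140964681599842874326568140800, .ofNat 0⟩)
    (by decide +kernel)
theorem L02448 : Good (Phi V4.P V4.D 1 1) ⟨7, 110, 5, 18, 4, 1, 5, 23, 4, 11⟩ :=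
  leaf_sound (S := T4.ds_pp) T4.ok_pp (w := 232) (c := ⟨⟨.negSucc 895, .negSucc 11, .negSucc 15, .negSucc 142, .negSucc 19, .ofNat 31⟩, ⟨.negSucc 504, .negSucc 15, .negSucc 19, .negSucc 81, .negSucc 10, .ofNat 18⟩, ⟨.ofNat 532, .ofNat 11, .ofNat 16, .ofNat 99, .ofNat 24, .negSucc 17⟩, ⟨.negSucc 1332, .negSucc 11, .negSucc 14, .negSucc 205, .negSucc 29, .ofNat 46⟩, ⟨.negSucc 34, .ofNat 2, .negSucc 1, .negSucc 13, .ofNat 1, .ofNat 1⟩, .ofNat 822, .negSucc 978, .ofNat 0, .negSucc 978, .ofNat 1966, .ofNat 0, .ofNat 196, .ofNat 334, .negSucc 473, .ofNat 0, .ofNat 238, .negSucc 251, .ofNat 0, .ofNat 0, .ofNat 786, .ofNat 303065, .ofNat 222062334797790014045278275293966911170360115200, .ofNat 0, .ofNat 0, .ofNat 0, .ofNat 0, .ofNat 0, .ofNat 0, .ofNat 0, .ofNat 0, .ofNat 0, .ofNat 0, .ofNat 0, .ofNat 0, .ofNat 0, .ofNat 5508888519498423133421617479996250521600, .ofNat 0⟩)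
    (by decide +kernel)
theorem L02449 : Good (Phi V4.P V4.D 1 1) ⟨7, 110, 5, 18, 4, 2, 4, 10, 3, 4⟩ :=
  leaf_sound (S := T4.ds_pp) T4.ok_pp (w := 216) (c := ⟨⟨.negSucc 1110, .negSucc 8, .negSucc 12, .negSucc 88, .negSucc 33, .ofNat 90⟩, ⟨.negSucc 625, .negSucc 15, .negSucc 19, .negSucc 50, .negSucc 18, .ofNat 52⟩, ⟨.ofNat 659, .ofNat 6, .ofNat 13, .ofNat 28, .ofNat 39, .negSucc 70⟩, ⟨.negSucc 1643, .negSucc 5, .negSucc 10, .negSucc 130, .negSucc 52, .ofNat 134⟩, ⟨.negSucc 57, .ofNat 2, .negSucc 1, .negSucc 3, .ofNat 4, .ofNat 3⟩, .ofNat 821, .negSucc 977, .ofNat 0, .negSucc 977, .ofNat 1964, .ofNat 0, .ofNat 219, .ofNat 375, .negSucc 483, .ofNat 0, .ofNat 267, .negSucc 254, .ofNat 0, .ofNat 0, .ofNat 855, .ofNat 52804, .ofNat 0, .ofNat 0, .ofNat 0, .ofNat 0, .ofNat 0, .ofNat 0, .ofNat 0, .ofNat 0, .ofNat 0, .ofNat 0, .ofNat 0, .ofNat 0, .ofNat 0, .ofNat 0, .ofNat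 0, .ofNat 0⟩)
    (by decide +kernel)
theorem L02450 : Good (Phi V4.P V4.D 1 1) ⟨7, 110, 5, 18, 4, 2, 4, 10, 3, 5⟩ :=
  leaf_sound (S := T4.ds_pp) T4.ok_pp (w := 224) (c := ⟨⟨.negSucc 1011, .negSucc 4, .negSucc 18, .negSucc 99, .negSucc 42, .ofNat 67⟩, ⟨.negSucc 569, .negSucc 12, .negSucc 21, .negSucc 57, .negSucc 24, .ofNat 38⟩, ⟨.ofNat 575, .ofNat 3, .ofNat 19, .ofNat 43, .ofNat 54, .negSucc 40⟩, ⟨.negSucc 1495, .ofNat 1, .negSucc 21, .negSucc 149, .negSucc 67, .ofNat 99⟩, ⟨.negSucc 55, .negSucc 0, .ofNat 1, .negSucc 0, .ofNat 5, .ofNat 3⟩, .ofNat 2227, .negSucc 3393, .ofNat 0, .negSucc 3393, .ofNat 6197, .ofNat 0, .ofNat 117, .ofNat 369, .negSucc 402, .ofNat 0, .ofNat 227, .negSucc 225, .ofNat 0, .ofNat 0, .ofNat 760, .ofNat 143210, .ofNat 3713555076012307007028830710567099421215948800, .ofNat 0, .ofNat 253120613554517821689356921025331200, .ofNat 0, .ofNat 0,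 .ofNat 0, .ofNat 72811227773649359126449103074806988800, .ofNat 0, .ofNat 0, .ofNat 0, .ofNat 0, .ofNat 0, .ofNat 41467392896578589841786539955844545855356928000, .ofNat 0, .ofNat 20716324162658245410498785634051686400, .ofNat 0⟩)
    (by decide +kernel)
theorem L02451 : Good (Phi V4.P V4.D 1 1) ⟨7, 110, 5, 18, 4, 3, 4, 10, 2, 2⟩ :=
  leaf_sound (S := T4.ds_pp) T4.ok_pp (w := 216) (c := ⟨⟨.negSucc 1175, .negSucc 13, .negSucc 13, .negSucc 98, .negSucc 60, .ofNat 151⟩, ⟨.negSucc 662, .negSucc 19, .negSucc 19, .negSucc 55, .negSucc 34, .ofNat 86⟩, ⟨.ofNat 658, .ofNat 11, .ofNat 12, .ofNat 31, .ofNat 72, .negSucc 99⟩, ⟨.negSucc 1736, .negSucc 12, .negSucc 12, .negSucc 155, .negSucc 95, .ofNat 220⟩, ⟨.negSucc 65, .ofNat 2, .ofNat 1, .ofNat 14, .ofNat 7, .ofNat 11⟩, .ofNat 5852, .negSucc 9694, .ofNat 0, .negSucc 9694, .ofNat 17175, .ofNat 0, .ofNat 76, .ofNat 403, .negSucc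 420, .ofNat 0, .ofNat 237, .negSucc 238, .ofNat 0, .ofNat 0, .ofNat 791, .ofNat 49311, .ofNat 0, .ofNat 0, .ofNat 0, .ofNat 0, .ofNat 2852698071851996325336430521028209893022105600, .ofNat 0, .ofNat 3162319111769107126597379221251686400, .ofNat 0, .ofNat 0, .ofNat 0, .ofNat 0, .ofNat 0, .ofNat 0, .ofNat 0, .ofNat 0, .ofNat 0⟩)
    (by decide +kernel)
theorem L02452 : Good (Phi V4.P V4.D 1 1) ⟨7, 110, 5, 18, 3, 1, 4, 11, 2, 2⟩ :=
  leaf_sound (S := T4.ds_pp) T4.ok_pp (w := 208) (c := ⟨⟨.negSucc 1097, .ofNat 0, .negSucc 31, .negSucc 253, .negSucc 75, .ofNat 127⟩, ⟨.negSucc 617, .negSucc 12, .negSucc 29, .negSucc 144, .negSucc 43, .ofNat 73⟩, ⟨.ofNat 643, .ofNat 0, .ofNat 30, .ofNat 132, .ofNat 86, .negSucc 66⟩, ⟨.negSucc 1622, .ofNat 15, .negSucc 46, .negSucc 392, .negSucc 117, .ofNat 186⟩, ⟨.negSucc 59, .negSucc 9, .ofNat 12, .ofNat 21, .ofNat 6, .ofNat 9⟩, .ofNat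 2249, .negSucc 3428, .ofNat 0, .negSucc 3428, .ofNat 6249, .ofNat 0, .ofNat 123, .ofNat 394, .negSucc 477, .ofNat 0, .ofNat 243, .negSucc 267, .ofNat 0, .ofNat 0, .ofNat 812, .ofNat 31796, .ofNat 1759156346182227393560487154680713969664000, .ofNat 0, .ofNat 0, .ofNat 0, .ofNat 0, .ofNat 0, .ofNat 7274110995972754064769828048076800, .ofNat 0, .ofNat 0, .ofNat 0, .ofNat 0, .ofNat 0, .ofNat 0, .ofNat 0, .ofNat 1924208574821728466213496736972800, .ofNat 0⟩)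
    (by decide +kernel)
theorem L02453 : Good (Phi V4.P V4.D 1 1) ⟨7, 111, 5, 18, 2, 0, 2, 2, 2, 2⟩ :=
  out_sound (S := T4.ds_pp) T4.ok_pp (w := 24) (j := 4) (by decide +kernel)
theorem L02454 : Good (Phi V4.P V4.D 1 1) ⟨7, 110, 5, 19, 2, 0, 2, 2, 2, 2⟩ :=
  out_sound (S := T4.ds_pp) T4.ok_pp (w := 80) (j := 3) (by decide +kernel)
theorem L02455 : Good (Phi V4.P V4.D 1 1) ⟨7, 111, 5, 19, 2, 0, 2, 2, 2, 2⟩ :=
  out_sound (S := T4.ds_pp) T4.ok_pp (w := 24) (j := 4) (by decide +kernel)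
theorem L02456 : Good (Phi V4.P V4.D 1 1) ⟨6, 54, 5, 16, 2, 0, 4, 12, 2, 2⟩ :=
  leaf_sound (S := T4.ds_pp) T4.ok_pp (w := 192) (c := ⟨⟨.negSucc 785, .ofNat 16, .negSucc 40, .negSucc 614, .negSucc 47, .ofNat 106⟩, ⟨.negSucc 407, .negSucc 1, .negSucc 39, .negSucc 328, .negSucc 25, .ofNat 57⟩, ⟨.ofNat 425, .negSucc 1, .ofNat 29, .ofNat 430, .ofNat 56, .negSucc 42⟩, ⟨.negSucc 1200, .ofNat 72, .negSucc 73, .negSucc 921, .negSucc 73, .ofNat 157⟩, ⟨.negSucc 21, .negSucc 37, .ofNat 25, .negSucc 33, .ofNat 0, .ofNat 10⟩, .ofNat 1621, .negSucc 2441, .ofNat 0, .negSucc 2441, .ofNat 4783, .ofNat 0, .ofNat 162, .ofNat 391, .negSucc 549, .ofNat 0, .ofNat 240, .negSucc 287, .ofNat 0, .ofNat 0, .ofNat 864, .ofNat 11971, .ofNat 0, .ofNat 0, .ofNat 0, .ofNat 0, .ofNat 0, .ofNat 0, .ofNat 0, .ofNat 0, .ofNat 0, .ofNat 575427508977397217796396646898702745600, .ofNat 12862368286155614197551779020800,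 .ofNat 0, .ofNat 0, .ofNat 510524419054061411630730677147664384000, .ofNat 7363130273299125980206674739200, .ofNat 0⟩)
    (by decide +kernel)
theorem L02457 : Good (Phi V4.P V4.D 1 1) ⟨6, 54, 5, 16, 2, 0, 4, 13, 2, 2⟩ :=
  leaf_sound (S := T4.ds_pp) T4.ok_pp (w := 192) (c := ⟨⟨.negSucc 688, .negSucc 20, .negSucc 41, .negSucc 858, .negSucc 71, .ofNat 82⟩, ⟨.negSucc 354, .negSucc 25, .negSucc 38, .negSucc 457, .negSucc 38, .ofNat 43⟩, ⟨.ofNat 327, .negSucc 4, .ofNat 61, .ofNat 682, .ofNat 81, .negSucc 10⟩, ⟨.negSucc 1056, .negSucc 12, .negSucc 54, .negSucc 1295, .negSucc 109, .ofNat 128⟩, ⟨.negSucc 14, .ofNat 20, .negSucc 15, .negSucc 32, .negSucc 1, .negSucc 1⟩, .ofNat 2888, .negSucc 4758, .ofNat 0, .negSucc 4758, .ofNat 9049, .ofNat 0, .ofNat 132, .ofNat 409, .negSucc 632, .ofNat 0, .ofNat 240, .negSucc 335, .ofNat 0, .ofNat 0, .ofNat 913, .ofNat 5420, .ofNat 0,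 .ofNat 0, .ofNat 0, .ofNat 0, .ofNat 0, .ofNat 53277094926190566147114316818756403200, .ofNat 30280280707707236104976046489600, .ofNat 0, .ofNat 0, .ofNat 0, .ofNat 0, .ofNat 0, .ofNat 0, .ofNat 542163534768034834460943405617145446400, .ofNat 0, .ofNat 0⟩)
    (by decide +kernel)
theorem L02458 : Good (Phi V4.P V4.D 1 1) ⟨6, 54, 5, 17, 3, 0, 4, 12, 2, 2⟩ :=
  leaf_sound (S := T4.ds_pp) T4.ok_pp (w := 200) (c := ⟨⟨.negSucc 833, .negSucc 35, .ofNat 16, .negSucc 320, .negSucc 3, .ofNat 146⟩, ⟨.negSucc 445, .negSucc 32, .negSucc 3, .negSucc 177, .negSucc 1, .ofNat 81⟩, ⟨.ofNat 465, .ofNat 41, .negSucc 22, .ofNat 245, .ofNat 9, .negSucc 87⟩, ⟨.negSucc 1287, .negSucc 20, .ofNat 21, .negSucc 460, .negSucc 5, .ofNat 219⟩, ⟨.ofNat 8, .negSucc 20, .ofNat 10, .negSucc 46, .ofNat 1, .ofNat 2⟩, .ofNat 3854, .negSucc 6370, .ofNat 0, .negSucc 6370, .ofNat 11692, .ofNat 0, .ofNat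 107, .ofNat 409, .negSucc 569, .ofNat 0, .ofNat 240, .negSucc 312, .ofNat 0, .ofNat 0, .ofNat 880, .ofNat 18625, .ofNat 0, .ofNat 0, .ofNat 0, .ofNat 0, .ofNat 0, .ofNat 0, .ofNat 0, .ofNat 0, .ofNat 0, .ofNat 0, .ofNat 0, .ofNat 0, .ofNat 0, .ofNat 0, .ofNat 0, .ofNat 0⟩)
    (by decide +kernel)
theorem L02459 : Good (Phi V4.P V4.D 1 1) ⟨6, 54, 5, 17, 3, 1, 4, 12, 2, 2⟩ :=
  leaf_sound (S := T4.ds_pp) T4.ok_pp (w := 200) (c := ⟨⟨.negSucc 1126, .ofNat 36, .negSucc 35, .negSucc 309, .negSucc 99, .ofNat 97⟩, ⟨.negSucc 605, .ofNat 6, .negSucc 38, .negSucc 170, .negSucc 54, .ofNat 54⟩, ⟨.ofNat 684, .negSucc 43, .ofNat 35, .ofNat 193, .ofNat 110, .negSucc 27⟩, ⟨.negSucc 1703, .ofNat 85, .negSucc 52, .negSucc 479, .negSucc 151, .ofNat 143⟩, ⟨.negSucc 48, .negSucc 10, .ofNat 7, .ofNat 19, .ofNat 2, .ofNat 8⟩, .ofNat 1879, .negSucc 2847, .ofNat 0, .negSucc 2847, .ofNat 5379,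 .ofNat 0, .ofNat 144, .ofNat 396, .negSucc 538, .ofNat 0, .ofNat 243, .negSucc 291, .ofNat 0, .ofNat 0, .ofNat 847, .ofNat 18193, .ofNat 0, .ofNat 0, .ofNat 0, .ofNat 0, .ofNat 0, .ofNat 0, .ofNat 0, .ofNat 0, .ofNat 0, .ofNat 0, .ofNat 15277777500551141096577952225689600, .ofNat 0, .ofNat 0, .ofNat 0, .ofNat 11504075337137327867537060265984000, .ofNat 0⟩)
    (by decide +kernel)
theorem L02460 : Good (Phi V4.P V4.D 1 1) ⟨6, 54, 5, 17, 2, 0, 4, 13, 2, 2⟩ :=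
  leaf_sound (S := T4.ds_pp) T4.ok_pp (w := 192) (c := ⟨⟨.negSucc 747, .ofNat 31, .negSucc 60, .negSucc 902, .negSucc 76, .ofNat 100⟩, ⟨.negSucc 396, .ofNat 3, .negSucc 50, .negSucc 499, .negSucc 41, .ofNat 55⟩, ⟨.ofNat 411, .negSucc 67, .ofNat 76, .ofNat 722, .ofNat 83, .negSucc 27⟩, ⟨.negSucc 1137, .ofNat 57, .negSucc 82, .negSucc 1348, .negSucc 115, .ofNat 151⟩, ⟨.negSucc 31, .ofNat 23, .negSucc 6, .negSucc 35, .negSucc 0, .ofNat 0⟩, .ofNat 1870, .negSucc 2833, .ofNat 0, .negSucc 2833, .ofNat 5359, .ofNat 0, .ofNat 150, .ofNat 411, .negSucc 672, .ofNat 0, .ofNat 252, .negSucc 364, .ofNat 0, .ofNat 0, .ofNat 946, .ofNat 6301, .ofNat 0, .ofNat 0, .ofNat 0, .ofNat 0, .ofNat 0, .ofNat 0, .ofNat 0, .ofNat 0, .ofNat 0, .ofNat 0, .ofNat 0, .ofNat 0, .ofNat 0, .ofNat 0, .ofNat 23729086084072876819409063116800, .ofNat 0⟩)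
    (by decide +kernel)
theorem L02461 : Good (Phi V4.P V4.D 1 1) ⟨6, 55, 4, 8, 3, 0, 3, 6, 2, 2⟩ :=
  leaf_sound (S := T4.ds_pp) T4.ok_pp (w := 200) (c := ⟨⟨.negSucc 806, .negSucc 30, .ofNat 23, .negSucc 417, .negSucc 53, .ofNat 118⟩, ⟨.negSucc 433, .negSucc 36, .negSucc 7, .negSucc 235, .negSucc 30, .ofNat 67⟩, ⟨.ofNat 440, .ofNat 33, .negSucc 27, .ofNat 345, .ofNat 68, .negSucc 56⟩, ⟨.negSucc 1221, .negSucc 25, .ofNat 41, .negSucc 604, .negSucc 83, .ofNat 178⟩, ⟨.negSucc 12, .negSucc 8, .ofNat 7, .negSucc 43, .ofNat 3, .ofNat 2⟩, .ofNat 4698, .negSucc 7774, .ofNat 0, .negSucc 7774, .ofNat 14001, .ofNat 0, .ofNat 94, .ofNat 415, .negSucc 615, .ofNat 0, .ofNat 244, .negSucc 344, .ofNat 0, .ofNat 0, .ofNat 906, .ofNat 5680, .ofNat 0, .ofNat 0, .ofNat 1569810456909970633084266086400, .ofNat 0, .ofNat 0, .ofNat 0, .ofNat 1300362368083982199568439495884800, .ofNat 0,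 .ofNat 0, .ofNat 0, .ofNat 1285846111936923019049772358041600, .ofNat 0, .ofNat 0, .ofNat 0, .ofNat 0, .ofNat 0⟩)
    (by decide +kernel)
theorem L02462 : Good (Phi V4.P V4.D 1 1) ⟨7, 110, 5, 16, 3, 1, 3, 6, 2, 2⟩ :=
  out_sound (S := T4.ds_pp) T4.ok_pp (w := 80) (j := 3) (by decide +kernel)
theorem L02463 : Good (Phi V4.P V4.D 1 1) ⟨7, 110, 6, 34, 3, 1, 3, 6, 2, 2⟩ :=
  out_sound (S := T4.ds_pp) T4.ok_pp (w := 80) (j := 3) (by decide +kernel)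
theorem L02464 : Good (Phi V4.P V4.D 1 1) ⟨7, 110, 6, 35, 3, 1, 3, 6, 2, 2⟩ :=
  leaf_sound (S := T4.ds_pp) T4.ok_pp (w := 208) (c := ⟨⟨.negSucc 1081, .negSucc 113, .ofNat 33, .negSucc 357, .negSucc 283, .ofNat 91⟩, ⟨.negSucc 601, .negSucc 69, .ofNat 8, .negSucc 200, .negSucc 159, .ofNat 51⟩, ⟨.ofNat 627, .ofNat 83, .negSucc 16, .ofNat 238, .ofNat 300, .negSucc 20⟩, ⟨.negSucc 1606, .negSucc 173, .ofNat 61, .negSucc 550, .negSucc 428, .ofNat 133⟩, ⟨.negSucc 52, .ofNat 22, .negSucc 11, .ofNat 19, .ofNat 2, .ofNat 8⟩, .ofNat 4685, .negSucc 7752, .ofNat 0, .negSucc 7752, .ofNat 13965, .ofNat 0, .ofNat 95, .ofNat 423, .negSucc 581, .ofNat 0, .ofNat 249, .negSucc 325, .ofNat 0, .ofNat 0, .ofNat 881, .ofNat 6650, .ofNat 0, .ofNat 0, .ofNat 0, .ofNat 0, .ofNat 0, .ofNat 0, .ofNat 2476401270427886821385240051712000, .ofNat 0, .ofNat 0, .ofNat 0, .ofNat 0, .ofNat 0, .ofNat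 0, .ofNat 2998563301374580150236606745140039725875200, .ofNat 0, .ofNat 0⟩)
    (by decide +kernel)
theorem L02465 : Good (Phi V4.P V4.D 1 1) ⟨7, 111, 4, 8, 3, 1, 3, 6, 2, 2⟩ :=
  out_sound (S := T4.ds_pp) T4.ok_pp (w := 72) (j := 3) (by decide +kernel)
theorem L02466 : Good (Phi V4.P V4.D 1 1) ⟨5, 27, 4, 9, 3, 0, 4, 12, 2, 2⟩ :=
  leaf_sound (S := T4.ds_pp) T4.ok_pp (w := 192) (c := ⟨⟨.negSucc 851, .negSucc 4, .negSucc 40, .negSucc 335, .negSucc 18, .ofNat 138⟩, ⟨.negSucc 472, .negSucc 18, .negSucc 54, .negSucc 191, .negSucc 10, .ofNat 79⟩, ⟨.ofNat 483, .ofNat 4, .ofNat 44, .ofNat 259, .ofNat 26, .negSucc 79⟩, ⟨.negSucc 1287, .ofNat 7, .negSucc 35, .negSucc 479, .negSucc 27, .ofNat 206⟩, ⟨.negSucc 2, .negSucc 3, .negSucc 6, .negSucc 44, .ofNat 0, .ofNat 3⟩, .ofNat 820, .negSucc 975, .ofNat 0, .negSucc 975, .ofNat 1963, .ofNat 0, .ofNat 216, .ofNat 368, .negSucc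 602, .ofNat 0, .ofNat 263, .negSucc 319, .ofNat 0, .ofNat 0, .ofNat 901, .ofNat 14874, .ofNat 0, .ofNat 0, .ofNat 36372125451528117520500680294400, .ofNat 0, .ofNat 0, .ofNat 0, .ofNat 0, .ofNat 0, .ofNat 0, .ofNat 0, .ofNat 0, .ofNat 0, .ofNat 0, .ofNat 0, .ofNat 8917602191023833762902436741120000, .ofNat 0⟩)
    (by decide +kernel)
theorem L02467 : Good (Phi V4.P V4.D 1 1) ⟨5, 27, 4, 9, 3, 1, 4, 12, 2, 2⟩ :=
  leaf_sound (S := T4.ds_pp) T4.ok_pp (w := 192) (c := ⟨⟨.negSucc 1092, .negSucc 42, .negSucc 48, .negSucc 322, .negSucc 109, .ofNat 91⟩, ⟨.negSucc 606, .negSucc 45, .negSucc 68, .negSucc 184, .negSucc 62, .ofNat 52⟩, ⟨.ofNat 641, .ofNat 42, .ofNat 45, .ofNat 206, .ofNat 121, .negSucc 22⟩, ⟨.negSucc 1623, .negSucc 51, .negSucc 46, .negSucc 494, .negSucc 166, .ofNat 133⟩, ⟨.negSucc 56, .ofNat 3, .ofNat 2, .ofNat 17, .ofNat 2, .ofNat 8⟩, .ofNat 2232, .negSucc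 3400, .ofNat 0, .negSucc 3400, .ofNat 6208, .ofNat 0, .ofNat 128, .ofNat 406, .negSucc 553, .ofNat 0, .ofNat 250, .negSucc 309, .ofNat 0, .ofNat 0, .ofNat 860, .ofNat 15215, .ofNat 0, .ofNat 0, .ofNat 0, .ofNat 0, .ofNat 0, .ofNat 0, .ofNat 0, .ofNat 0, .ofNat 0, .ofNat 0, .ofNat 10271287597133173253341759458508800, .ofNat 0, .ofNat 0, .ofNat 0, .ofNat 11742572142013389471395463403929600, .ofNat 0⟩)
    (by decide +kernel)
theorem L02468 : Good (Phi V4.P V4.D 1 1) ⟨5, 27, 4, 9, 2, 0, 4, 13, 2, 2⟩ :=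
  leaf_sound (S := T4.ds_pp) T4.ok_pp (w := 184) (c := ⟨⟨.negSucc 631, .negSucc 142, .negSucc 109, .negSucc 924, .negSucc 135, .ofNat 103⟩, ⟨.negSucc 342, .negSucc 101, .negSucc 103, .negSucc 529, .negSucc 77, .ofNat 58⟩, ⟨.ofNat 262, .ofNat 157, .ofNat 119, .ofNat 731, .ofNat 143, .negSucc 30⟩, ⟨.negSucc 958, .negSucc 191, .negSucc 132, .negSucc 1376, .negSucc 202, .ofNat 154⟩, ⟨.negSucc 7, .negSucc 15, .negSucc 8, .negSucc 24, .negSucc 3, .ofNat 3⟩, .ofNat 2230, .negSucc 3397, .ofNat 0, .negSucc 3397, .ofNat 6204, .ofNat 0, .ofNat 132, .ofNat 420, .negSucc 676, .ofNat 0, .ofNat 258, .negSucc 378, .ofNat 0, .ofNat 0, .ofNat 948, .ofNat 4231, .ofNat 0, .ofNat 0, .ofNat 0, .ofNat 0, .ofNat 0, .ofNat 0, .ofNat 0, .ofNat 0, .ofNat 0, .ofNat 0, .ofNat 0, .ofNat 0, .ofNat 0, .ofNat 0, .ofNat 0, .ofNat 0⟩)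
    (by decide +kernel)
theorem L02469 : Good (Phi V4.P V4.D 1 1) ⟨6, 54, 4, 8, 2, 0, 4, 14, 2, 2⟩ :=
  leaf_sound (S := T4.ds_pp) T4.ok_pp (w := 192) (c := ⟨⟨.negSucc 496, .negSucc 55, .negSucc 54, .negSucc 1297, .negSucc 149, .ofNat 1⟩, ⟨.negSucc 245, .negSucc 44, .negSucc 66, .negSucc 702, .negSucc 82, .ofNat 1⟩, ⟨.ofNat 135, .ofNat 72, .ofNat 25, .ofNat 1122, .ofNat 161, .ofNat 78⟩, ⟨.negSucc 772, .negSucc 50, .negSucc 85, .negSucc 1951, .negSucc 222, .ofNat 3⟩, ⟨.negSucc 6, .negSucc 6, .ofNat 12, .negSucc 47, .negSucc 9, .negSucc 2⟩, .ofNat 1674, .negSucc 2525, .ofNat 0, .negSucc 2525, .ofNat 4907, .ofNat 0, .ofNat 85, .ofNat 212, .negSucc 416, .ofNat 0, .ofNat 130, .negSucc 219, .ofNat 0, .ofNat 0, .ofNat 535, .ofNat 1716, .ofNat 0, .ofNat 1059850455836611985348066992875110400, .ofNat 0, .ofNat 0, .ofNat 0, .ofNat 0, .ofNat 0, .ofNat 0, .ofNat 0, .ofNat 0,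 .ofNat 0, .ofNat 0, .ofNat 0, .ofNat 92761913090686024635307090005668659200, .ofNat 0, .ofNat 0⟩)
    (by decide +kernel)
theorem L02470 : Good (Phi V4.P V4.D 1 1) ⟨6, 55, 5, 16, 2, 0, 4, 14, 2, 2⟩ :=
  out_sound (S := T4.ds_pp) T4.ok_pp (w := 72) (j := 3) (by decide +kernel)
theorem L02471 : Good (Phi V4.P V4.D 1 1) ⟨7, 110, 6, 34, 2, 0, 4, 14, 2, 2⟩ :=
  out_sound (S := T4.ds_pp) T4.ok_pp (w := 80) (j := 3) (by decide +kernel)

end Crest.Agent.R097C4.N4pp
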