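import Crest.Agent.R097.T4

/-!
# Row 97, box cover in dimension n = 4 (generated)
-/

set_option autoImplicit false
set_option Elab.async false
set_option maxHeartbeats 0
set_option maxRecDepth 100000

open Crest.Agent.R097 Crest.Agent.R097.KA


namespace Crest.Agent.R097C4.N4pp

theorem L02472 : Good (Phi V4.P V4.D 1 1) ⟨8, 220, 6, 35, 2, 0, 4, 14, 2, 2⟩ :=
  leaf_sound (S := T4.ds_pp) T4.ok_pp (w := 200) (c := ⟨⟨.negSucc 627, .negSucc 81, .ofNat 87, .negSucc 1381, .negSucc 170, .ofNat 62⟩, ⟨.negSucc 346, .negSucc 52, .ofNat 42, .negSucc 779, .negSucc 96, .ofNat 35⟩, ⟨.ofNat 267, .ofNat 59, .negSucc 70, .ofNat 1204, .ofNat 177, .ofNat 14⟩, ⟨.negSucc 945, .negSucc 123, .ofNat 135, .negSucc 2053, .negSucc 254, .ofNat 95⟩, ⟨.negSucc 8, .ofNat 16, .negSucc 7, .negSucc 55, .negSucc 6, .negSucc 0⟩, .ofNat 4712, .negSucc 7797, .ofNat 0, .negSucc 7797, .ofNat 14040, .ofNat 0,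 .ofNat 50, .ofNat 222, .negSucc 418, .ofNat 0, .ofNat 130, .negSucc 234, .ofNat 0, .ofNat 0, .ofNat 536, .ofNat 1944, .ofNat 0, .ofNat 5791488454321281737779112699983036416000, .ofNat 0, .ofNat 0, .ofNat 0, .ofNat 0, .ofNat 0, .ofNat 0, .ofNat 0, .ofNat 0, .ofNat 0, .ofNat 0, .ofNat 0, .ofNat 343261850983389863677527016254933565440000, .ofNat 0, .ofNat 0⟩)
    (by decide +kernel)
theorem L02473 : Good (Phi V4.P V4.D 1 1) ⟨8, 221, 6, 35, 2, 0, 4, 14, 2, 2⟩ :=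
  out_sound (S := T4.ds_pp) T4.ok_pp (w := 88) (j := 3) (by decide +kernel)
theorem L02474 : Good (Phi V4.P V4.D 1 1) ⟨7, 111, 5, 17, 2, 0, 4, 14, 2, 2⟩ :=
  out_sound (S := T4.ds_pp) T4.ok_pp (w := 80) (j := 3) (by decide +kernel)
theorem L02475 : Good (Phi V4.P V4.D 1 1) ⟨6, 54, 4, 9, 2, 0, 4, 14, 2, 2⟩ :=
  out_sound (S := T4.ds_pp) T4.ok_pp (w := 72) (j := 3) (by decide +kernel)
theorem L02476 : Good (Phi V4.P V4.D 1 1) ⟨7, 110, 5, 18, 2, 0, 4, 14, 2, 2⟩ :=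
  leaf_sound (S := T4.ds_pp) T4.ok_pp (w := 192) (c := ⟨⟨.negSucc 605, .negSucc 43, .ofNat 28, .negSucc 1416, .negSucc 125, .ofNat 43⟩, ⟨.negSucc 335, .negSucc 36, .ofNat 2, .negSucc 810, .negSucc 71, .ofNat 25⟩, ⟨.ofNat 248, .ofNat 23, .negSucc 4, .ofNat 1239, .ofNat 132, .ofNat 39⟩, ⟨.negSucc 913, .negSucc 64, .ofNat 58, .negSucc 2094, .negSucc 185, .ofNat 69⟩, ⟨.negSucc 7, .ofNat 14, .negSucc 12, .negSucc 60, .negSucc 5, .negSucc 6⟩, .ofNat 2238, .negSucc 3411, .ofNat 0, .negSucc 3411, .ofNat 6224, .ofNat 0, .ofNat 69, .ofNat 218, .negSucc 434, .ofNat 0, .ofNat 134, .negSucc 243, .ofNat 0, .ofNat 0, .ofNat 549, .ofNat 2050, .ofNat 0, .ofNat 128722727830249404818457945108067123200, .ofNat 0, .ofNat 0, .ofNat 0, .ofNat 0, .ofNat 0, .ofNat 0, .ofNat 0, .ofNat 4875230607548342939702606969605560729600, .ofNat 0, .ofNat 0, .ofNat 0, .ofNat 8485305907674353569653674719440587980800,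 .ofNat 0, .ofNat 0⟩)
    (by decide +kernel)
theorem L02477 : Good (Phi V4.P V4.D 1 1) ⟨7, 111, 5, 18, 2, 0, 4, 14, 2, 2⟩ :=
  out_sound (S := T4.ds_pp) T4.ok_pp (w := 24) (j := 4) (by decide +kernel)
theorem L02478 : Good (Phi V4.P V4.D 1 1) ⟨7, 110, 5, 19, 2, 0, 4, 14, 2, 2⟩ :=
  out_sound (S := T4.ds_pp) T4.ok_pp (w := 80) (j := 3) (by decide +kernel)
theorem L02479 : Good (Phi V4.P V4.D 1 1) ⟨7, 111, 5, 19, 2, 0, 4, 14, 2, 2⟩ :=
  out_sound (S := T4.ds_pp) T4.ok_pp (w := 24) (j := 4) (by decide +kernel)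
theorem L02480 : Good (Phi V4.P V4.D 1 1) ⟨5, 27, 4, 8, 2, 0, 5, 30, 3, 4⟩ :=
  leaf_sound (S := T4.ds_pp) T4.ok_pp (w := 192) (c := ⟨⟨.negSucc 313, .negSucc 159, .negSucc 106, .negSucc 2088, .negSucc 49, .negSucc 24⟩, ⟨.negSucc 140, .negSucc 152, .negSucc 75, .negSucc 1142, .negSucc 29, .negSucc 11⟩, ⟨.negSucc 42, .ofNat 88, .ofNat 142, .ofNat 1940, .ofNat 55, .ofNat 69⟩, ⟨.negSucc 503, .negSucc 166, .negSucc 162, .negSucc 3121, .negSucc 72, .negSucc 37⟩, ⟨.ofNat 5, .ofNat 0, .negSucc 4, .negSucc 98, .negSucc 3, .negSucc 1⟩, .ofNat 754, .negSucc 879, .ofNat 0, .negSucc 879, .ofNat 1861, .ofNat 0, .ofNat 134, .ofNat 207, .negSucc 651, .ofNat 0, .ofNat 149, .negSucc 330, .ofNat 0, .ofNat 0, .ofNat 741, .ofNat 943, .ofNat 0, .ofNat 2675967544469713781681934388376371200, .ofNat 4898976898281513731422263705600, .ofNat 0, .ofNat 0, .ofNat 0, .ofNat 0, .ofNat 0, .ofNat 0, .ofNat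 0, .ofNat 0, .ofNat 0, .ofNat 0, .ofNat 126689982913389405946544728218324172800, .ofNat 481237296495151712655228744499200, .ofNat 0⟩)
    (by decide +kernel)
theorem L02481 : Good (Phi V4.P V4.D 1 1) ⟨6, 54, 4, 9, 2, 0, 5, 30, 3, 4⟩ :=
  out_sound (S := T4.ds_pp) T4.ok_pp (w := 72) (j := 3) (by decide +kernel)
theorem L02482 : Good (Phi V4.P V4.D 1 1) ⟨6, 55, 4, 9, 3, 0, 5, 30, 3, 4⟩ :=
  leaf_sound (S := T4.ds_pp) T4.ok_pp (w := 208) (c := ⟨⟨.negSucc 458, .ofNat 0, .negSucc 150, .negSucc 1184, .negSucc 63, .negSucc 0⟩, ⟨.negSucc 250, .negSucc 25, .negSucc 108, .negSucc 679, .negSucc 35, .negSucc 0⟩, ⟨.ofNat 95, .ofNat 0, .ofNat 150, .ofNat 1119, .ofNat 67, .ofNat 43⟩, ⟨.negSucc 700, .ofNat 19, .negSucc 207, .negSucc 1746, .negSucc 94, .ofNat 0⟩, ⟨.ofNat 4, .ofNat 0, .negSucc 4, .negSucc 57, .negSucc 2, .negSucc 0⟩, .ofNat 2251, .negSucc 3431, .ofNat 0, .negSucc 3431,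 .ofNat 6254, .ofNat 0, .ofNat 73, .ofNat 233, .negSucc 624, .ofNat 0, .ofNat 144, .negSucc 350, .ofNat 0, .ofNat 0, .ofNat 719, .ofNat 1248, .ofNat 0, .ofNat 0, .ofNat 0, .ofNat 0, .ofNat 0, .ofNat 0, .ofNat 0, .ofNat 0, .ofNat 0, .ofNat 0, .ofNat 0, .ofNat 0, .ofNat 0, .ofNat 0, .ofNat 0, .ofNat 0⟩)
    (by decide +kernel)
theorem L02483 : Good (Phi V4.P V4.D 1 1) ⟨6, 55, 4, 9, 3, 1, 5, 30, 3, 4⟩ :=
  leaf_sound (S := T4.ds_pp) T4.ok_pp (w := 208) (c := ⟨⟨.negSucc 1451, .negSucc 118, .negSucc 129, .negSucc 1051, .negSucc 352, .negSucc 65⟩, ⟨.negSucc 815, .negSucc 105, .negSucc 111, .negSucc 601, .negSucc 201, .negSucc 36⟩, ⟨.ofNat 1020, .ofNat 117, .ofNat 127, .ofNat 932, .ofNat 354, .ofNat 110⟩, ⟨.negSucc 2168, .negSucc 149, .negSucc 166, .negSucc 1554, .negSucc 519, .negSucc 94⟩, ⟨.negSucc 44, .negSucc 3, .negSucc 3, .negSucc 46, .negSucc 17, .negSucc 6⟩, .ofNat 2238,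 .negSucc 3410, .ofNat 0, .negSucc 3410, .ofNat 6224, .ofNat 0, .ofNat 296, .ofNat 945, .negSucc 2456, .ofNat 0, .ofNat 581, .negSucc 1378, .ofNat 0, .ofNat 0, .ofNat 2820, .ofNat 4369, .ofNat 0, .ofNat 36371550145269027331138267805740380979200, .ofNat 0, .ofNat 0, .ofNat 0, .ofNat 0, .ofNat 0, .ofNat 0, .ofNat 0, .ofNat 0, .ofNat 0, .ofNat 0, .ofNat 0, .ofNat 5366308916298375519317267874477795547545600, .ofNat 0, .ofNat 0⟩)
    (by decide +kernel)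
theorem L02484 : Good (Phi V4.P V4.D 1 1) ⟨6, 54, 4, 8, 2, 0, 5, 31, 3, 4⟩ :=
  leaf_sound (S := T4.ds_pp) T4.ok_pp (w := 200) (c := ⟨⟨.negSucc 164, .ofNat 60, .negSucc 250, .negSucc 2949, .ofNat 113, .negSucc 73⟩, ⟨.negSucc 78, .ofNat 59, .negSucc 204, .negSucc 1595, .ofNat 61, .negSucc 38⟩, ⟨.negSucc 201, .negSucc 59, .ofNat 250, .ofNat 2836, .negSucc 107, .ofNat 118⟩, ⟨.negSucc 260, .ofNat 82, .negSucc 340, .negSucc 4435, .ofNat 171, .negSucc 112⟩, ⟨.ofNat 2, .ofNat 7, .negSucc 11, .negSucc 112, .ofNat 2, .negSucc 0⟩, .ofNat 1708, .negSucc 2579, .ofNat 0, .negSucc 2579, .ofNat 4988, .ofNat 0, .ofNat 91, .ofNat 228, .negSucc 717, .ofNat 0, .ofNat 140, .negSucc 380, .ofNat 0, .ofNat 0, .ofNat 801, .ofNat 1387, .ofNat 0, .ofNat 107896085192161955596423118468205772800, .ofNat 0, .ofNat 0, .ofNat 0, .ofNat 0, .ofNat 0, .ofNat 0, .ofNat 0, .ofNat 2855074044979365911787644078794997760000,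 .ofNat 0, .ofNat 0, .ofNat 0, .ofNat 4723973948958972487323814673342948966400, .ofNat 37861136800662730600206670233600, .ofNat 0⟩)
    (by decide +kernel)
theorem L02485 : Good (Phi V4.P V4.D 1 1) ⟨6, 55, 4, 8, 2, 0, 5, 31, 3, 4⟩ :=
  leaf_sound (S := T4.ds_pp) T4.ok_pp (w := 200) (c := ⟨⟨.negSucc 198, .negSucc 193, .negSucc 65, .negSucc 3273, .ofNat 125, .negSucc 52⟩, ⟨.negSucc 89, .negSucc 127, .negSucc 59, .negSucc 1843, .ofNat 70, .negSucc 29⟩, ⟨.negSucc 157, .ofNat 207, .ofNat 56, .ofNat 3152, .negSucc 120, .ofNat 97⟩, ⟨.negSucc 316, .negSucc 277, .negSucc 84, .negSucc 4867, .ofNat 188, .negSucc 77⟩, ⟨.ofNat 6, .ofNat 5, .negSucc 2, .negSucc 130, .ofNat 2, .negSucc 1⟩, .ofNat 4648, .negSucc 7690, .ofNat 0, .negSucc 7690, .ofNat 13862, .ofNat 0, .ofNat 110, .ofNat 483, .negSucc 1508, .ofNat 0, .ofNat 284, .negSucc 844, .ofNat 0, .ofNat 0, .ofNat 1669, .ofNat 2093,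 .ofNat 0, .ofNat 238516997666371123093066029534806016000, .ofNat 0, .ofNat 0, .ofNat 0, .ofNat 5817609713798871801767446809088622592000, .ofNat 2910417313695596735673384566784000, .ofNat 0, .ofNat 0, .ofNat 9120533820773446800934426412760799641600, .ofNat 0, .ofNat 0, .ofNat 0, .ofNat 25223133022607606325625588120523322163200, .ofNat 681267297154884810770253820723200, .ofNat 0⟩)
    (by decide +kernel)
theorem L02486 : Good (Phi V4.P V4.D 1 1) ⟨6, 54, 4, 9, 2, 0, 5, 31, 3, 4⟩ :=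
  out_sound (S := T4.ds_pp) T4.ok_pp (w := 72) (j := 3) (by decide +kernel)
theorem L02487 : Good (Phi V4.P V4.D 1 1) ⟨6, 55, 5, 18, 3, 0, 5, 31, 3, 4⟩ :=
  leaf_sound (S := T4.ds_pp) T4.ok_pp (w := 208) (c := ⟨⟨.negSucc 251, .negSucc 135, .ofNat 10, .negSucc 1678, .ofNat 106, .negSucc 50⟩, ⟨.negSucc 136, .negSucc 84, .negSucc 12, .negSucc 961, .ofNat 62, .negSucc 29⟩, ⟨.negSucc 110, .ofNat 134, .negSucc 9, .ofNat 1617, .negSucc 100, .ofNat 94⟩, ⟨.negSucc 387, .negSucc 195, .ofNat 27, .negSucc 2483, .ofNat 158, .negSucc 75⟩, ⟨.ofNat 6, .negSucc 2, .ofNat 0, .negSucc 67, .ofNat 2, .negSucc 1⟩, .ofNat 2237, .negSucc 3409, .ofNat 0, .negSucc 3409, .ofNat 6221, .ofNat 0, .ofNat 151, .ofNat 477, .negSucc 1599, .ofNat 0, .ofNat 294, .negSucc 896, .ofNat 0, .ofNat 0, .ofNat 1755, .ofNat 1963, .ofNat 0, .ofNat 68299681389365850600939927982533771264000, .ofNat 0, .ofNat 0, .ofNat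 0, .ofNat 0, .ofNat 0, .ofNat 0, .ofNat 0, .ofNat 0, .ofNat 0, .ofNat 0, .ofNat 0, .ofNat 13045294253769562296872923355724315937996800, .ofNat 576914949146422415988778095083520000, .ofNat 0⟩)
    (by decide +kernel)
theorem L02488 : Good (Phi V4.P V4.D 1 1) ⟨6, 55, 5, 18, 3, 1, 5, 31, 3, 4⟩ :=
  leaf_sound (S := T4.ds_pp) T4.ok_pp (w := 216) (c := ⟨⟨.negSucc 1776, .negSucc 74, .negSucc 149, .negSucc 1368, .negSucc 472, .negSucc 103⟩, ⟨.negSucc 1004, .negSucc 58, .negSucc 117, .negSucc 783, .negSucc 270, .negSucc 59⟩, ⟨.ofNat 1344, .ofNat 75, .ofNat 148, .ofNat 1269, .ofNat 476, .ofNat 151⟩, ⟨.negSucc 2644, .negSucc 98, .negSucc 200, .negSucc 2012, .negSucc 696, .negSucc 151⟩, ⟨.negSucc 59, .negSucc 2, .negSucc 5, .negSucc 77, .negSucc 22, .negSucc 7⟩, .ofNat 2245, .negSucc 3421, .ofNat 0, .negSucc 3421, .ofNat 6240, .ofNat 0, .ofNat 1226, .ofNat 3912, .negSucc 12519, .ofNat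 0, .ofNat 2408, .negSucc 7029, .ofNat 0, .ofNat 0, .ofNat 13754, .ofNat 62599, .ofNat 0, .ofNat 8096119115406927938323148838000276799488000, .ofNat 0, .ofNat 0, .ofNat 0, .ofNat 988383782771055224918056753281752104540569600, .ofNat 0, .ofNat 0, .ofNat 0, .ofNat 1582401063457374900805972371392794467709747200, .ofNat 0, .ofNat 0, .ofNat 0, .ofNat 2269447331953135460296348783530775372470681600, .ofNat 112131699372204551467354447138101657600, .ofNat 0⟩)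
    (by decide +kernel)
theorem L02489 : Good (Phi V4.P V4.D 1 1) ⟨7, 110, 5, 19, 2, 0, 5, 31, 3, 4⟩ :=
  out_sound (S := T4.ds_pp) T4.ok_pp (w := 80) (j := 3) (by decide +kernel)
theorem L02490 : Good (Phi V4.P V4.D 1 1) ⟨7, 111, 5, 19, 2, 0, 5, 31, 3, 4⟩ :=
  out_sound (S := T4.ds_pp) T4.ok_pp (w := 24) (j := 4) (by decide +kernel)
theorem L02491 : Good (Phi V4.P V4.D 1 1) ⟨6, 54, 4, 8, 3, 0, 4, 15, 3, 5⟩ :=
  leaf_sound (S := T4.ds_pp) T4.ok_pp (w := 200) (c := ⟨⟨.negSucc 432, .ofNat 252, .negSucc 324, .negSucc 1204, .ofNat 40, .ofNat 37⟩, ⟨.negSucc 216, .ofNat 122, .negSucc 201, .negSucc 654, .ofNat 23, .ofNat 21⟩, ⟨.ofNat 109, .negSucc 269, .ofNat 341, .ofNat 1149, .negSucc 31, .negSucc 3⟩, ⟨.negSucc 676, .ofNat 409, .negSucc 491, .negSucc 1802, .ofNat 61, .ofNat 56⟩, ⟨.ofNat 3, .negSucc 2, .negSucc 0, .negSucc 57, .ofNat 0, .ofNat 0⟩, .ofNat 1702, .negSucc 2569,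 .ofNat 0, .negSucc 2569, .ofNat 4970, .ofNat 0, .ofNat 82, .ofNat 206, .negSucc 520, .ofNat 0, .ofNat 127, .negSucc 276, .ofNat 0, .ofNat 0, .ofNat 615, .ofNat 1298, .ofNat 0, .ofNat 0, .ofNat 0, .ofNat 0, .ofNat 0, .ofNat 0, .ofNat 0, .ofNat 0, .ofNat 0, .ofNat 0, .ofNat 0, .ofNat 0, .ofNat 0, .ofNat 182242868108281277218465144326674448384000, .ofNat 5258611800154075158957610185523200, .ofNat 0⟩)
    (by decide +kernel)
theorem L02492 : Good (Phi V4.P V4.D 1 1) ⟨6, 54, 4, 8, 3, 1, 4, 15, 3, 5⟩ :=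
  leaf_sound (S := T4.ds_pp) T4.ok_pp (w := 208) (c := ⟨⟨.negSucc 1344, .negSucc 176, .negSucc 9, .negSucc 961, .negSucc 475, .negSucc 37⟩, ⟨.negSucc 700, .negSucc 117, .negSucc 47, .negSucc 519, .negSucc 254, .negSucc 19⟩, ⟨.ofNat 957, .ofNat 173, .ofNat 10, .ofNat 869, .ofNat 485, .ofNat 75⟩, ⟨.negSucc 2048, .negSucc 223, .negSucc 10, .negSucc 1441, .negSucc 713, .negSucc 54⟩, ⟨.negSucc 44, .negSucc 7, .ofNat 1, .negSucc 46, .negSucc 22, .negSucc 5⟩, .ofNat 743, .negSucc 863, .ofNat 0, .negSucc 863, .ofNat 1845, .ofNat 0, .ofNat 494, .ofNat 754, .negSucc 2081, .ofNat 0, .ofNat 540, .negSucc 1050, .ofNat 0, .ofNat 0, .ofNat 2449, .ofNat 11750, .ofNat 0, .ofNat 53359087534354437341487929327941897420800, .ofNat 0, .ofNat 0, .ofNat 0, .ofNat 4934193481476840297018260913442023643545600, .ofNat 0, .ofNat 0, .ofNat 0, .ofNat 5823729059135314184207107145129504695910400, .ofNat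 0, .ofNat 0, .ofNat 0, .ofNat 7717097266548075281531640011720098421145600, .ofNat 0, .ofNat 0⟩)
    (by decide +kernel)
theorem L02493 : Good (Phi V4.P V4.D 1 1) ⟨6, 55, 4, 8, 3, 0, 4, 15, 3, 5⟩ :=
  leaf_sound (S := T4.ds_pp) T4.ok_pp (w := 208) (c := ⟨⟨.negSucc 440, .ofNat 87, .ofNat 3, .negSucc 1269, .ofNat 12, .ofNat 11⟩, ⟨.negSucc 229, .ofNat 26, .negSucc 15, .negSucc 715, .ofNat 7, .ofNat 7⟩, ⟨.ofNat 107, .negSucc 97, .ofNat 4, .ofNat 1213, .negSucc 3, .ofNat 22⟩, ⟨.negSucc 675, .ofNat 150, .ofNat 13, .negSucc 1881, .ofNat 19, .ofNat 17⟩, ⟨.ofNat 3, .negSucc 0, .ofNat 0, .negSucc 60, .negSucc 0, .negSucc 0⟩, .ofNat 4679, .negSucc 7744, .ofNat 0, .negSucc 7744, .ofNat 13953, .ofNat 0, .ofNat 49, .ofNat 217, .negSucc 535, .ofNat 0, .ofNat 128, .negSucc 299, .ofNat 0, .ofNat 0, .ofNat 628, .ofNat 1310, .ofNat 0, .ofNat 1247693734245764905173391111661341900800, .ofNat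 0, .ofNat 0, .ofNat 0, .ofNat 0, .ofNat 47660196568062170275320069881856000, .ofNat 0, .ofNat 0, .ofNat 62578923634970077890425256840719971123200, .ofNat 0, .ofNat 0, .ofNat 0, .ofNat 221220835148273611206786440085890924544000, .ofNat 11211158030472766736130378616012800, .ofNat 0⟩)
    (by decide +kernel)
theorem L02494 : Good (Phi V4.P V4.D 1 1) ⟨6, 55, 4, 8, 3, 1, 4, 15, 3, 5⟩ :=
  leaf_sound (S := T4.ds_pp) T4.ok_pp (w := 208) (c := ⟨⟨.negSucc 1460, .negSucc 147, .negSucc 65, .negSucc 1042, .negSucc 587, .negSucc 39⟩, ⟨.negSucc 787, .negSucc 114, .negSucc 72, .negSucc 587, .negSucc 330, .negSucc 22⟩, ⟨.ofNat 1071, .ofNat 147, .ofNat 64, .ofNat 946, .ofNat 597, .ofNat 78⟩, ⟨.negSucc 2197, .negSucc 189, .negSucc 77, .negSucc 1542, .negSucc 868, .negSucc 56⟩, ⟨.negSucc 48, .negSucc 6, .negSucc 2, .negSucc 52, .negSucc 29, .negSucc 6⟩, .ofNat 798, .negSucc 943, .ofNat 0,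 .negSucc 943, .ofNat 1928, .ofNat 0, .ofNat 934, .ofNat 1551, .negSucc 4364, .ofNat 0, .ofNat 1105, .negSucc 2297, .ofNat 0, .ofNat 0, .ofNat 5068, .ofNat 27000, .ofNat 0, .ofNat 129165736141144318362090255147190557081600, .ofNat 0, .ofNat 0, .ofNat 0, .ofNat 12544609462807819712505568530984688051814400, .ofNat 0, .ofNat 0, .ofNat 0, .ofNat 22227739820390531354091748210685366186803200, .ofNat 0, .ofNat 0, .ofNat 0, .ofNat 39876767375303205132482024032675795933593600, .ofNat 423548150731847713147544313790464000, .ofNat 0⟩)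
    (by decide +kernel)
theorem L02495 : Good (Phi V4.P V4.D 1 1) ⟨6, 54, 4, 9, 2, 0, 4, 15, 3, 5⟩ :=
  out_sound (S := T4.ds_pp) T4.ok_pp (w := 72) (j := 3) (by decide +kernel)
theorem L02496 : Good (Phi V4.P V4.D 1 1) ⟨7, 110, 6, 36, 3, 0, 4, 15, 3, 5⟩ :=
  leaf_sound (S := T4.ds_pp) T4.ok_pp (w := 216) (c := ⟨⟨.negSucc 503, .ofNat 472, .negSucc 277, .negSucc 1441, .negSucc 20, .negSucc 16⟩, ⟨.negSucc 280, .ofNat 262, .negSucc 165, .negSucc 824, .negSucc 11, .negSucc 7⟩, ⟨.ofNat 174, .negSucc 470, .ofNat 277, .ofNat 1385, .ofNat 30, .ofNat 50⟩, ⟨.negSucc 762, .ofNat 710, .negSucc 409, .negSucc 2129, .negSucc 29, .negSucc 24⟩, ⟨.ofNat 0, .ofNat 12, .negSucc 6, .negSucc 65, .negSucc 2, .negSucc 1⟩, .ofNat 5743, .negSucc 9513, .ofNat 0, .negSucc 9513, .ofNat 16876, .ofNat 0, .ofNat 43, .ofNat 220, .negSucc 569, .ofNat 0, .ofNat 130, .negSucc 323, .ofNat 0, .ofNat 0, .ofNat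 657, .ofNat 1222, .ofNat 0, .ofNat 0, .ofNat 0, .ofNat 0, .ofNat 0, .ofNat 0, .ofNat 0, .ofNat 0, .ofNat 0, .ofNat 0, .ofNat 0, .ofNat 0, .ofNat 0, .ofNat 46640315522369290184892824993992341769420800, .ofNat 20915932637581971550248879783936000, .ofNat 0⟩)
    (by decide +kernel)
theorem L02497 : Good (Phi V4.P V4.D 1 1) ⟨7, 110, 6, 36, 3, 1, 4, 15, 3, 5⟩ :=
  leaf_sound (S := T4.ds_pp) T4.ok_pp (w := 216) (c := ⟨⟨.negSucc 1545, .negSucc 13, .negSucc 47, .negSucc 1061, .negSucc 623, .negSucc 33⟩, ⟨.negSucc 873, .negSucc 14, .negSucc 41, .negSucc 608, .negSucc 357, .negSucc 19⟩, ⟨.ofNat 1153, .ofNat 13, .ofNat 48, .ofNat 963, .ofNat 635, .ofNat 72⟩, ⟨.negSucc 2302, .negSucc 13, .negSucc 60, .negSucc 1563, .negSucc 917, .negSucc 46⟩, ⟨.negSucc 50, .ofNat 0, .negSucc 2, .negSucc 55, .negSucc 33, .negSucc 6⟩, .ofNat 2238, .negSucc 3410, .ofNat 0, .negSucc 3410, .ofNat 6223,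 .ofNat 0, .ofNat 540, .ofNat 1719, .negSucc 4110, .ofNat 0, .ofNat 1058, .negSucc 2307, .ofNat 0, .ofNat 0, .ofNat 4857, .ofNat 29771, .ofNat 0, .ofNat 36015820032006915843896872127145131271782400, .ofNat 0, .ofNat 0, .ofNat 0, .ofNat 4623245099387069885440368554484101619803750400, .ofNat 0, .ofNat 0, .ofNat 0, .ofNat 6276031760852792151125113014790468471986585600, .ofNat 0, .ofNat 0, .ofNat 0, .ofNat 8768101443815750165926198219549764791304192000, .ofNat 1118646193984002728208506407197081600, .ofNat 0⟩)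
    (by decide +kernel)
theorem L02498 : Good (Phi V4.P V4.D 1 1) ⟨8, 220, 6, 37, 2, 0, 4, 15, 3, 5⟩ :=
  out_sound (S := T4.ds_pp) T4.ok_pp (w := 88) (j := 3) (by decide +kernel)
theorem L02499 : Good (Phi V4.P V4.D 1 1) ⟨9, 442, 7, 74, 2, 0, 4, 15, 3, 5⟩ :=
  out_sound (S := T4.ds_pp) T4.ok_pp (w := 96) (j := 3) (by decide +kernel)
theorem L02500 : Good (Phi V4.P V4.D 1 1) ⟨10, 886, 8, 148, 2, 0, 4, 15, 3, 5⟩ :=
  out_sound (S := T4.ds_pp) T4.ok_pp (w := 104) (j := 3) (by decide +kernel)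
theorem L02501 : Good (Phi V4.P V4.D 1 1) ⟨10, 887, 8, 148, 2, 0, 4, 15, 3, 5⟩ :=
  out_sound (S := T4.ds_pp) T4.ok_pp (w := 32) (j := 4) (by decide +kernel)
theorem L02502 : Good (Phi V4.P V4.D 1 1) ⟨9, 443, 8, 149, 2, 0, 4, 15, 3, 5⟩ :=
  out_sound (S := T4.ds_pp) T4.ok_pp (w := 96) (j := 3) (by decide +kernel)
theorem L02503 : Good (Phi V4.P V4.D 1 1) ⟨8, 221, 7, 75, 2, 0, 4, 15, 3, 5⟩ :=
  out_sound (S := T4.ds_pp) T4.ok_pp (w := 88) (j := 3) (by decide +kernel)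
theorem L02504 : Good (Phi V4.P V4.D 1 1) ⟨7, 110, 5, 19, 2, 0, 4, 15, 3, 5⟩ :=
  out_sound (S := T4.ds_pp) T4.ok_pp (w := 80) (j := 3) (by decide +kernel)
theorem L02505 : Good (Phi V4.P V4.D 1 1) ⟨7, 111, 4, 9, 2, 0, 4, 15, 3, 5⟩ :=
  out_sound (S := T4.ds_pp) T4.ok_pp (w := 24) (j := 4) (by decide +kernel)
theorem L02506 : Good (Phi V4.P V4.D 1 1) ⟨5, 27, 3, 5, 2, 0, 1, 1, 2, 2⟩ :=
  out_sound (S := T4.ds_pp) T4.ok_pp (w := 64) (j := 3) (by decide +kernel)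
theorem L02507 : Good (Phi V4.P V4.D 1 1) ⟨5, 27, 2, 3, 2, 0, 0, 0, 2, 2⟩ :=
  out_sound (S := T4.ds_pp) T4.ok_pp (w := 56) (j := 3) (by decide +kernel)
theorem L02508 : Good (Phi V4.P V4.D 1 1) ⟨5, 27, 4, 8, 5, 0, 1, 0, 4, 12⟩ :=
  out_sound (S := T4.ds_pp) T4.ok_pp (w := 32) (j := 1) (by decide +kernel)
theorem L02509 : Good (Phi V4.P V4.D 1 1) ⟨5, 27, 4, 8, 5, 0, 2, 2, 4, 12⟩ :=
  leaf_sound (S := T4.ds_pp) T4.ok_pp (w := 224) (c := ⟨⟨.negSucc 693, .negSucc 38, .negSucc 13, .negSucc 75, .ofNat 0, .ofNat 0⟩, ⟨.negSucc 361, .negSucc 33, .negSucc 32, .negSucc 40, .ofNat 0, .ofNat 0⟩, ⟨.ofNat 379, .ofNat 39, .ofNat 14, .ofNat 60, .ofNat 0, .ofNat 0⟩, ⟨.negSucc 1067, .negSucc 34, .negSucc 12, .negSucc 104, .ofNat 0, .ofNat 0⟩, ⟨.ofNat 0, .ofNat 0, .ofNat 0, .negSucc 17, .ofNat 0, .ofNat 0⟩, .ofNat 364, .negSucc 256, .ofNat 0, .negSucc 256, .ofNat 686, .ofNat 0, .ofNat 300,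 .ofNat 255, .negSucc 545, .ofNat 0, .ofNat 265, .negSucc 237, .ofNat 0, .ofNat 0, .ofNat 829, .ofNat 33274506, .ofNat 4075301549451713033426453149037630088650371891200, .ofNat 0, .ofNat 0, .ofNat 0, .ofNat 396056002308759632807642966715182996617848422400, .ofNat 0, .ofNat 0, .ofNat 0, .ofNat 61108325648981694114294336370432012696367923200, .ofNat 0, .ofNat 0, .ofNat 0, .ofNat 27997836886919500739214556274600172502332211200, .ofNat 0, .ofNat 0, .ofNat 0⟩)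
    (by decide +kernel)
theorem L02510 : Good (Phi V4.P V4.D 1 1) ⟨5, 27, 4, 8, 5, 0, 3, 6, 4, 12⟩ :=
  leaf_sound (S := T4.ds_pp) T4.ok_pp (w := 224) (c := ⟨⟨.negSucc 659, .negSucc 40, .negSucc 26, .negSucc 130, .ofNat 59, .ofNat 23⟩, ⟨.negSucc 343, .negSucc 36, .negSucc 36, .negSucc 71, .ofNat 31, .ofNat 13⟩, ⟨.ofNat 342, .ofNat 40, .ofNat 27, .ofNat 119, .negSucc 45, .negSucc 10⟩, ⟨.negSucc 1014, .negSucc 32, .negSucc 35, .negSucc 189, .ofNat 89, .ofNat 35⟩, ⟨.negSucc 0, .negSucc 1, .ofNat 1, .negSucc 15, .ofNat 2, .ofNat 0⟩, .ofNat 1753, .negSucc 2649, .ofNat 0, .negSucc 2649, .ofNat 5088, .ofNat 0, .ofNat 140, .ofNat 358, .negSucc 561, .ofNat 0, .ofNat 220, .negSucc 299, .ofNat 0, .ofNat 0, .ofNat 825, .ofNat 99504, .ofNat 1795735272819974150684995684249185158588006400, .ofNat 0, .ofNat 0, .ofNat 0, .ofNat 2587979570948324388995401521732642965500723200, .ofNat 0,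 .ofNat 136691998575218134735844427751840599244800, .ofNat 0, .ofNat 0, .ofNat 0, .ofNat 94164942436611667248134307417702373785600, .ofNat 0, .ofNat 5301893831439396889036376371627249565800857600, .ofNat 0, .ofNat 47121630045546237931008767068841233612800, .ofNat 0⟩)
    (by decide +kernel)
theorem L02511 : Good (Phi V4.P V4.D 1 1) ⟨5, 27, 4, 8, 5, 0, 4, 14, 4, 12⟩ :=
  leaf_sound (S := T4.ds_pp) T4.ok_pp (w := 224) (c := ⟨⟨.negSucc 562, .negSucc 123, .ofNat 10, .negSucc 183, .ofNat 70, .ofNat 22⟩, ⟨.negSucc 292, .negSucc 73, .negSucc 18, .negSucc 99, .ofNat 38, .ofNat 11⟩, ⟨.ofNat 257, .ofNat 126, .negSucc 11, .ofNat 174, .negSucc 62, .negSucc 8⟩, ⟨.negSucc 866, .negSucc 170, .ofNat 25, .negSucc 271, .ofNat 105, .ofNat 34⟩, ⟨.ofNat 0, .ofNat 1, .negSucc 0, .negSucc 14, .ofNat 1, .ofNat 0⟩, .ofNat 1745, .negSucc 2637, .ofNat 0, .negSucc 2637, .ofNat 5069, .ofNat 0, .ofNat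 145, .ofNat 371, .negSucc 692, .ofNat 0, .ofNat 228, .negSucc 368, .ofNat 0, .ofNat 0, .ofNat 922, .ofNat 57289, .ofNat 0, .ofNat 0, .ofNat 0, .ofNat 0, .ofNat 0, .ofNat 0, .ofNat 1218182264588253537991586732541268407091200, .ofNat 0, .ofNat 0, .ofNat 0, .ofNat 816092225626443025258347583110723403776000, .ofNat 0, .ofNat 0, .ofNat 0, .ofNat 287075206284166517850725148004960331366400, .ofNat 0⟩)
    (by decide +kernel)
theorem L02512 : Good (Phi V4.P V4.D 1 1) ⟨5, 27, 4, 8, 5, 0, 4, 15, 4, 12⟩ :=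
  leaf_sound (S := T4.ds_pp) T4.ok_pp (w := 224) (c := ⟨⟨.negSucc 380, .negSucc 95, .negSucc 0, .negSucc 378, .ofNat 286, .negSucc 30⟩, ⟨.negSucc 196, .negSucc 84, .negSucc 2, .negSucc 207, .ofNat 157, .negSucc 15⟩, ⟨.ofNat 81, .ofNat 95, .ofNat 1, .ofNat 370, .negSucc 278, .ofNat 45⟩, ⟨.negSucc 587, .negSucc 111, .negSucc 4, .negSucc 569, .ofNat 434, .negSucc 48⟩, ⟨.negSucc 0, .ofNat 1, .negSucc 0, .negSucc 11, .ofNat 3, .ofNat 0⟩, .ofNat 1761, .negSucc 2662, .ofNat 0, .negSucc 2662, .ofNat 5110, .ofNat 0, .ofNat 76, .ofNat 196, .negSucc 498, .ofNat 0, .ofNat 120, .negSucc 266, .ofNat 0, .ofNat 0, .ofNat 588, .ofNat 4675, .ofNat 0, .ofNat 0, .ofNat 0, .ofNat 0, .ofNat 0, .ofNat 0, .ofNat 327107463030793000032489377048604495052800, .ofNat 0, .ofNat 0, .ofNat 0, .ofNat 0, .ofNat 0, .ofNat 0, .ofNat 740708102768894308861419423330325599407308800, .ofNat 105974633167502822387690353367968854835200,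 .ofNat 0⟩)
    (by decide +kernel)
theorem L02513 : Good (Phi V4.P V4.D 1 1) ⟨5, 27, 4, 8, 5, 1, 1, 0, 4, 12⟩ :=
  out_sound (S := T4.ds_pp) T4.ok_pp (w := 32) (j := 1) (by decide +kernel)
theorem L02514 : Good (Phi V4.P V4.D 1 1) ⟨5, 27, 4, 8, 5, 1, 2, 2, 4, 12⟩ :=
  leaf_sound (S := T4.ds_pp) T4.ok_pp (w := 224) (c := ⟨⟨.negSucc 763, .negSucc 52, .negSucc 12, .negSucc 73, .negSucc 1, .ofNat 0⟩, ⟨.negSucc 398, .negSucc 44, .negSucc 32, .negSucc 39, .negSucc 1, .ofNat 0⟩, ⟨.ofNat 431, .ofNat 52, .ofNat 12, .ofNat 56, .ofNat 5, .ofNat 0⟩, ⟨.negSucc 1166, .negSucc 47, .negSucc 10, .negSucc 104, .negSucc 2, .ofNat 0⟩, ⟨.negSucc 16, .ofNat 0, .ofNat 0, .negSucc 13, .negSucc 1, .ofNat 0⟩, .ofNat 363, .negSucc 256, .ofNat 0, .negSucc 256, .ofNat 686, .ofNat 0, .ofNat 300, .ofNat 255, .negSucc 545, .ofNat 0, .ofNat 265, .negSucc 237, .ofNat 0, .ofNat 0, .ofNat 829, .ofNat 8079180,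 .ofNat 154074976391955131569850995996430957961176678400, .ofNat 0, .ofNat 0, .ofNat 0, .ofNat 94298113314327058895109935381407912056324096000, .ofNat 0, .ofNat 0, .ofNat 0, .ofNat 43058541906786903135414066571383556667552563200, .ofNat 0, .ofNat 0, .ofNat 0, .ofNat 24302607043863689805653405033795039028628684800, .ofNat 0, .ofNat 0, .ofNat 0⟩)
    (by decide +kernel)
theorem L02515 : Good (Phi V4.P V4.D 1 1) ⟨6, 54, 5, 16, 5, 1, 3, 6, 4, 12⟩ :=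
  leaf_sound (S := T4.ds_pp) T4.ok_pp (w := 224) (c := ⟨⟨.negSucc 732, .negSucc 44, .ofNat 0, .negSucc 119, .negSucc 12, .ofNat 23⟩, ⟨.negSucc 382, .negSucc 32, .negSucc 12, .negSucc 64, .negSucc 6, .ofNat 12⟩, ⟨.ofNat 401, .ofNat 45, .ofNat 0, .ofNat 106, .ofNat 29, .negSucc 9⟩, ⟨.negSucc 1118, .negSucc 48, .ofNat 1, .negSucc 176, .negSucc 20, .ofNat 35⟩, ⟨.negSucc 18, .ofNat 0, .ofNat 0, .negSucc 12, .ofNat 3, .ofNat 0⟩, .ofNat 1634, .negSucc 2462, .ofNat 0, .negSucc 2462, .ofNat 4815, .ofNat 0, .ofNat 146, .ofNat 353, .negSucc 541, .ofNat 0, .ofNat 217, .negSucc 284, .ofNat 0, .ofNat 0, .ofNat 811, .ofNat 130885, .ofNat 135001208835665236118931882565854139553887027200, .ofNat 0, .ofNat 0, .ofNat 0, .ofNat 0, .ofNat 0, .ofNat 0, .ofNat 0, .ofNat 0, .ofNat 0, .ofNat 0, .ofNat 0, .ofNat 0, .ofNat 0, .ofNat 0, .ofNat 0⟩)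
    (by decide +kernel)
theorem L02516 : Good (Phi V4.P V4.D 1 1) ⟨6, 54, 5, 16, 5, 1, 3, 7, 4, 12⟩ :=
  leaf_sound (S := T4.ds_pp) T4.ok_pp (w := 224) (c := ⟨⟨.negSucc 625, .ofNat 79, .negSucc 113, .negSucc 304, .negSucc 58, .negSucc 16⟩, ⟨.negSucc 324, .ofNat 32, .negSucc 72, .negSucc 162, .negSucc 31, .negSucc 9⟩, ⟨.ofNat 308, .negSucc 79, .ofNat 114, .ofNat 294, .ofNat 76, .ofNat 31⟩, ⟨.negSucc 958, .ofNat 141, .negSucc 170, .negSucc 456, .negSucc 89, .negSucc 25⟩, ⟨.negSucc 12, .ofNat 3, .negSucc 2, .negSucc 14, .ofNat 2, .negSucc 0⟩, .ofNat 4221, .negSucc 7193, .ofNat 0, .negSucc 7193, .ofNat 13508, .ofNat 0, .ofNat 113, .ofNat 391, .negSucc 798, .ofNat 0, .ofNat 227, .negSucc 426, .ofNat 0, .ofNat 0, .ofNat 1007, .ofNat 5019, .ofNat 0, .ofNat 0, .ofNat 0, .ofNat 0, .ofNat 127356580668614547339587669996410439065613107200, .ofNat 0, .ofNat 120291660697071209037802856758080700416000,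 .ofNat 0, .ofNat 0, .ofNat 0, .ofNat 0, .ofNat 0, .ofNat 0, .ofNat 48797308011283232986771297240557609326267596800, .ofNat 0, .ofNat 0⟩)
    (by decide +kernel)
theorem L02517 : Good (Phi V4.P V4.D 1 1) ⟨7, 108, 5, 17, 5, 1, 2, 3, 4, 12⟩ :=
  out_sound (S := T4.ds_pp) T4.ok_pp (w := 80) (j := 3) (by decide +kernel)
theorem L02518 : Good (Phi V4.P V4.D 1 1) ⟨7, 109, 5, 17, 5, 1, 3, 6, 4, 12⟩ :=
  leaf_sound (S := T4.ds_pp) T4.ok_pp (w := 232) (c := ⟨⟨.negSucc 744, .negSucc 36, .negSucc 0, .negSucc 131, .negSucc 9, .ofNat 19⟩, ⟨.negSucc 404, .negSucc 25, .negSucc 11, .negSucc 72, .negSucc 5, .ofNat 11⟩, ⟨.ofNat 412, .ofNat 38, .ofNat 1, .ofNat 118, .ofNat 25, .negSucc 5⟩, ⟨.negSucc 1126, .negSucc 44, .ofNat 0, .negSucc 192, .negSucc 15, .ofNat 29⟩, ⟨.negSucc 17, .negSucc 0, .ofNat 1, .negSucc 12, .ofNat 3, .ofNat 0⟩, .ofNat 3812, .negSucc 6301, .ofNat 0, .negSucc 6301, .ofNat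 11578, .ofNat 0, .ofNat 98, .ofNat 371, .negSucc 552, .ofNat 0, .ofNat 218, .negSucc 303, .ofNat 0, .ofNat 0, .ofNat 819, .ofNat 107872, .ofNat 1736892551552904712105641993100534545723162624000, .ofNat 0, .ofNat 0, .ofNat 0, .ofNat 0, .ofNat 0, .ofNat 0, .ofNat 0, .ofNat 0, .ofNat 0, .ofNat 0, .ofNat 0, .ofNat 8909025443265441952813917576587664973447456358400, .ofNat 0, .ofNat 0, .ofNat 0⟩)
    (by decide +kernel)
theorem L02519 : Good (Phi V4.P V4.D 1 1) ⟨7, 109, 5, 17, 5, 1, 3, 7, 4, 12⟩ :=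
  leaf_sound (S := T4.ds_pp) T4.ok_pp (w := 232) (c := ⟨⟨.negSucc 651, .ofNat 9, .negSucc 87, .negSucc 288, .negSucc 138, .negSucc 7⟩, ⟨.negSucc 352, .ofNat 0, .negSucc 61, .negSucc 159, .negSucc 76, .negSucc 4⟩, ⟨.ofNat 333, .negSucc 9, .ofNat 89, .ofNat 278, .ofNat 157, .ofNat 22⟩, ⟨.negSucc 987, .ofNat 24, .negSucc 129, .negSucc 429, .negSucc 210, .negSucc 11⟩, ⟨.negSucc 12, .ofNat 1, .negSucc 1, .negSucc 15, .ofNat 0, .negSucc 0⟩, .ofNat 6315, .negSucc 10786, .ofNat 0, .negSucc 10786, .ofNat 19629, .ofNat 0, .ofNat 88, .ofNat 396, .negSucc 786, .ofNat 0, .ofNat 229, .negSucc 433, .ofNat 0, .ofNat 0, .ofNat 997, .ofNat 8702, .ofNat 0, .ofNat 0, .ofNat 0, .ofNat 0, .ofNat 0, .ofNat 0, .ofNat 0, .ofNat 0, .ofNat 0, .ofNat 0, .ofNat 0, .ofNat 0, .ofNat 0, .ofNat 915932350746453318977917902973684123890509414400, .ofNat 6263324026239018625702905165053637427200, .ofNat 0⟩)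
    (by decide +kernel)
theorem L02520 : Good (Phi V4.P V4.D 1 1) ⟨6, 55, 5, 16, 5, 1, 2, 3, 4, 12⟩ :=
  out_sound (S := T4.ds_pp) T4.ok_pp (w := 72) (j := 3) (by decide +kernel)
theorem L02521 : Good (Phi V4.P V4.D 1 1) ⟨7, 110, 6, 34, 5, 1, 2, 3, 4, 12⟩ :=
  out_sound (S := T4.ds_pp) T4.ok_pp (w := 80) (j := 3) (by decide +kernel)
theorem L02522 : Good (Phi V4.P V4.D 1 1) ⟨8, 220, 6, 35, 5, 1, 3, 6, 4, 12⟩ :=
  leaf_sound (S := T4.ds_pp) T4.ok_pp (w := 240) (c := ⟨⟨.negSucc 770, .negSucc 17, .ofNat 4, .negSucc 133, .negSucc 19, .ofNat 20⟩, ⟨.negSucc 429, .negSucc 12, .negSucc 3, .negSucc 75, .negSucc 11, .ofNat 11⟩, ⟨.ofNat 439, .ofNat 17, .negSucc 2, .ofNat 120, .ofNat 36, .negSucc 6⟩, ⟨.negSucc 1155, .negSucc 22, .ofNat 7, .negSucc 194, .negSucc 31, .ofNat 30⟩, ⟨.negSucc 17, .ofNat 0, .ofNat 0, .negSucc 12, .ofNat 3, .ofNat 0⟩, .ofNat 9173, .negSucc 15662, .ofNat 0,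 .negSucc 15662, .ofNat 27913, .ofNat 0, .ofNat 66, .ofNat 379, .negSucc 563, .ofNat 0, .ofNat 220, .negSucc 316, .ofNat 0, .ofNat 0, .ofNat 826, .ofNat 89501, .ofNat 91012210135423576152767279413661072983301554176000, .ofNat 0, .ofNat 0, .ofNat 0, .ofNat 138211826751270351175469516403924283023420083404800, .ofNat 0, .ofNat 41919168891523021993409447431671644160000, .ofNat 0, .ofNat 0, .ofNat 0, .ofNat 0, .ofNat 0, .ofNat 0, .ofNat 0, .ofNat 0, .ofNat 0⟩)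
    (by decide +kernel)
theorem L02523 : Good (Phi V4.P V4.D 1 1) ⟨8, 220, 6, 35, 5, 1, 3, 7, 4, 12⟩ :=
  leaf_sound (S := T4.ds_pp) T4.ok_pp (w := 240) (c := ⟨⟨.negSucc 671, .ofNat 65, .negSucc 103, .negSucc 265, .negSucc 129, .ofNat 4⟩, ⟨.negSucc 372, .ofNat 35, .negSucc 66, .negSucc 149, .negSucc 72, .ofNat 2⟩, ⟨.ofNat 353, .negSucc 65, .ofNat 105, .ofNat 254, .ofNat 148, .ofNat 10⟩, ⟨.negSucc 1008, .ofNat 101, .negSucc 153, .negSucc 391, .negSucc 195, .ofNat 6⟩, ⟨.negSucc 12, .ofNat 1, .negSucc 1, .negSucc 14, .ofNat 0, .negSucc 0⟩, .ofNat 9084, .negSucc 15514, .ofNat 0, .negSucc 15514, .ofNat 27671, .ofNat 0, .ofNat 71, .ofNat 402, .negSucc 807, .ofNat 0, .ofNat 233, .negSucc 454, .ofNat 0, .ofNat 0, .ofNat 1015, .ofNat 6512, .ofNat 0, .ofNat 0, .ofNat 0, .ofNat 0, .ofNat 0, .ofNat 2444397731329819192889066088216173322490714521600, .ofNat 71923810987978315699797890822520491212800,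 .ofNat 0, .ofNat 0, .ofNat 0, .ofNat 0, .ofNat 0, .ofNat 0, .ofNat 61619260486542834087916399297926301296136657305600, .ofNat 5303359543376523189675880650504771993600, .ofNat 0⟩)
    (by decide +kernel)
theorem L02524 : Good (Phi V4.P V4.D 1 1) ⟨8, 221, 6, 35, 5, 1, 2, 3, 4, 12⟩ :=
  out_sound (S := T4.ds_pp) T4.ok_pp (w := 88) (j := 3) (by decide +kernel)
theorem L02525 : Good (Phi V4.P V4.D 1 1) ⟨7, 111, 5, 17, 5, 1, 2, 3, 4, 12⟩ :=
  out_sound (S := T4.ds_pp) T4.ok_pp (w := 80) (j := 3) (by decide +kernel)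
theorem L02526 : Good (Phi V4.P V4.D 1 1) ⟨5, 27, 4, 9, 5, 0, 1, 0, 4, 12⟩ :=
  out_sound (S := T4.ds_pp) T4.ok_pp (w := 32) (j := 1) (by decide +kernel)
theorem L02527 : Good (Phi V4.P V4.D 1 1) ⟨5, 27, 5, 18, 5, 0, 2, 2, 4, 12⟩ :=
  leaf_sound (S := T4.ds_pp) T4.ok_pp (w := 232) (c := ⟨⟨.negSucc 727, .negSucc 4, .negSucc 15, .negSucc 78, .ofNat 0, .ofNat 0⟩, ⟨.negSucc 410, .negSucc 6, .negSucc 23, .negSucc 44, .ofNat 0, .ofNat 0⟩, ⟨.ofNat 413, .ofNat 5, .ofNat 16, .ofNat 64, .ofNat 0, .ofNat 0⟩, ⟨.negSucc 1097, .negSucc 3, .negSucc 14, .negSucc 108, .ofNat 0, .ofNat 0⟩, ⟨.negSucc 0, .ofNat 0, .ofNat 0, .negSucc 17, .ofNat 0, .ofNat 0⟩, .ofNat 373, .negSucc 272, .ofNat 0, .negSucc 272, .ofNat 693, .ofNat 0, .ofNat 293, .ofNat 266, .negSucc 558, .ofNat 0, .ofNat 270, .negSucc 255, .ofNat 0, .ofNat 0, .ofNat 839, .ofNat 52641503, .ofNat 24274475820747167336880913113029717694996912537600,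 .ofNat 0, .ofNat 0, .ofNat 0, .ofNat 1254584773699101329631398008448022546232010342400, .ofNat 0, .ofNat 0, .ofNat 0, .ofNat 42390348352934727454404430102196135634822758400, .ofNat 0, .ofNat 28430457178745061435700809111983829811200, .ofNat 0, .ofNat 342950026427179240441734265772604337626179174400, .ofNat 0, .ofNat 29476248870332252890512120792194482176000, .ofNat 0⟩)
    (by decide +kernel)
theorem L02528 : Good (Phi V4.P V4.D 1 1) ⟨5, 27, 5, 18, 5, 0, 3, 6, 4, 12⟩ :=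
  leaf_sound (S := T4.ds_pp) T4.ok_pp (w := 224) (c := ⟨⟨.negSucc 709, .negSucc 3, .negSucc 13, .negSucc 132, .ofNat 65, .ofNat 23⟩, ⟨.negSucc 400, .negSucc 5, .negSucc 21, .negSucc 75, .ofNat 37, .ofNat 13⟩, ⟨.ofNat 394, .ofNat 3, .ofNat 14, .ofNat 120, .negSucc 52, .negSucc 9⟩, ⟨.negSucc 1070, .negSucc 2, .negSucc 11, .negSucc 190, .ofNat 97, .ofNat 34⟩, ⟨.negSucc 0, .ofNat 0, .ofNat 0, .negSucc 15, .ofNat 1, .ofNat 0⟩, .ofNat 5789, .negSucc 9589, .ofNat 0, .negSucc 9589, .ofNat 17001, .ofNat 0, .ofNat 73, .ofNat 379, .negSucc 566, .ofNat 0, .ofNat 223, .negSucc 321, .ofNat 0, .ofNat 0, .ofNat 829, .ofNat 76330, .ofNat 5569295816315456311531633387387558279564492800, .ofNat 0, .ofNat 0, .ofNat 0, .ofNat 9791736430061265831904617034076011069911859200, .ofNat 0, .ofNat 281435409893311630047253082426591674368000, .ofNat 0, .ofNat 19768058999350016874511360305725801575848345600,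 .ofNat 0, .ofNat 139275307395207463258868840474717926195200, .ofNat 0, .ofNat 23697374850873414895833269442525499146790502400, .ofNat 0, .ofNat 113270063015142266206274341785646084915200, .ofNat 0⟩)
    (by decide +kernel)
theorem L02529 : Good (Phi V4.P V4.D 1 1) ⟨6, 54, 5, 18, 5, 0, 3, 7, 4, 12⟩ :=
  out_sound (S := T4.ds_pp) T4.ok_pp (w := 72) (j := 3) (by decide +kernel)
theorem L02530 : Good (Phi V4.P V4.D 1 1) ⟨7, 110, 6, 36, 5, 0, 3, 7, 4, 12⟩ :=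
  leaf_sound (S := T4.ds_pp) T4.ok_pp (w := 232) (c := ⟨⟨.negSucc 590, .negSucc 7, .negSucc 13, .negSucc 287, .ofNat 298, .ofNat 39⟩, ⟨.negSucc 334, .negSucc 5, .negSucc 13, .negSucc 164, .ofNat 171, .ofNat 22⟩, ⟨.ofNat 285, .ofNat 7, .ofNat 14, .ofNat 278, .negSucc 283, .negSucc 25⟩, ⟨.negSucc 890, .negSucc 10, .negSucc 17, .negSucc 424, .ofNat 446, .ofNat 59⟩, ⟨.negSucc 0, .negSucc 0, .ofNat 0, .negSucc 13, .ofNat 4, .ofNat 0⟩, .ofNat 5772, .negSucc 9561, .ofNat 0, .negSucc 9561, .ofNat 16955, .ofNat 0, .ofNat 39, .ofNat 202, .negSucc 414, .ofNat 0, .ofNat 119, .negSucc 235, .ofNat 0, .ofNat 0, .ofNat 517, .ofNat 3145, .ofNat 0, .ofNat 0, .ofNat 0, .ofNat 0, .ofNat 0, .ofNat 0, .ofNat 0, .ofNat 0, .ofNat 0, .ofNat 0, .ofNat 0, .ofNat 0, .ofNat 0, .ofNat 0, .ofNat 0, .ofNat 0⟩)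
    (by decide +kernel)
theorem L02531 : Good (Phi V4.P V4.D 1 1) ⟨8, 220, 6, 37, 5, 0, 3, 7, 4, 12⟩ :=
  out_sound (S := T4.ds_pp) T4.ok_pp (w := 88) (j := 3) (by decide +kernel)
theorem L02532 : Good (Phi V4.P V4.D 1 1) ⟨9, 442, 7, 74, 5, 0, 3, 7, 4, 12⟩ :=
  out_sound (S := T4.ds_pp) T4.ok_pp (w := 96) (j := 3) (by decide +kernel)
theorem L02533 : Good (Phi V4.P V4.D 1 1) ⟨10, 886, 8, 148, 5, 0, 3, 7, 4, 12⟩ :=
  out_sound (S := T4.ds_pp) T4.ok_pp (w := 104) (j := 3) (by decide +kernel)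
theorem L02534 : Good (Phi V4.P V4.D 1 1) ⟨10, 887, 8, 148, 5, 0, 3, 7, 4, 12⟩ :=
  out_sound (S := T4.ds_pp) T4.ok_pp (w := 32) (j := 4) (by decide +kernel)
theorem L02535 : Good (Phi V4.P V4.D 1 1) ⟨9, 443, 8, 149, 5, 0, 3, 7, 4, 12⟩ :=
  out_sound (S := T4.ds_pp) T4.ok_pp (w := 96) (j := 3) (by decide +kernel)
theorem L02536 : Good (Phi V4.P V4.D 1 1) ⟨8, 221, 7, 75, 5, 0, 3, 7, 4, 12⟩ :=
  out_sound (S := T4.ds_pp) T4.ok_pp (w := 88) (j := 3) (by decide +kernel)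
theorem L02537 : Good (Phi V4.P V4.D 1 1) ⟨7, 111, 5, 18, 5, 0, 3, 7, 4, 12⟩ :=
  out_sound (S := T4.ds_pp) T4.ok_pp (w := 24) (j := 4) (by decide +kernel)
theorem L02538 : Good (Phi V4.P V4.D 1 1) ⟨6, 54, 5, 19, 5, 0, 1, 1, 4, 12⟩ :=
  out_sound (S := T4.ds_pp) T4.ok_pp (w := 72) (j := 3) (by decide +kernel)
theorem L02539 : Good (Phi V4.P V4.D 1 1) ⟨7, 110, 5, 19, 5, 0, 1, 1, 4, 12⟩ :=
  out_sound (S := T4.ds_pp) T4.ok_pp (w := 80) (j := 3) (by decide +kernel)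
theorem L02540 : Good (Phi V4.P V4.D 1 1) ⟨7, 111, 5, 19, 5, 0, 1, 1, 4, 12⟩ :=
  out_sound (S := T4.ds_pp) T4.ok_pp (w := 24) (j := 4) (by decide +kernel)
theorem L02541 : Good (Phi V4.P V4.D 1 1) ⟨5, 27, 4, 9, 5, 1, 1, 0, 4, 12⟩ :=
  out_sound (S := T4.ds_pp) T4.ok_pp (w := 32) (j := 1) (by decide +kernel)
theorem L02542 : Good (Phi V4.P V4.D 1 1) ⟨6, 54, 4, 9, 5, 1, 1, 1, 4, 12⟩ :=
  out_sound (S := T4.ds_pp) T4.ok_pp (w := 72) (j := 3) (by decide +kernel)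
theorem L02543 : Good (Phi V4.P V4.D 1 1) ⟨7, 110, 5, 18, 5, 1, 2, 2, 4, 12⟩ :=
  leaf_sound (S := T4.ds_pp) T4.ok_pp (w := 232) (c := ⟨⟨.negSucc 802, .negSucc 10, .negSucc 9, .negSucc 76, .negSucc 1, .ofNat 0⟩, ⟨.negSucc 451, .negSucc 14, .negSucc 13, .negSucc 43, .negSucc 0, .ofNat 0⟩, ⟨.ofNat 470, .ofNat 10, .ofNat 10, .ofNat 59, .ofNat 4, .ofNat 0⟩, ⟨.negSucc 1200, .negSucc 9, .negSucc 8, .negSucc 107, .negSucc 3, .ofNat 0⟩, ⟨.negSucc 18, .ofNat 1, .negSucc 0, .negSucc 12, .ofNat 1, .ofNat 0⟩, .ofNat 373, .negSucc 272, .ofNat 0, .negSucc 272, .ofNat 693, .ofNat 0, .ofNat 293, .ofNat 266, .negSucc 556, .ofNat 0, .ofNat 270, .negSucc 254, .ofNat 0, .ofNat 0, .ofNat 837, .ofNat 24502003, .ofNat 388532271162472036803069575760431547671442043699200, .ofNat 0, .ofNat 0, .ofNat 0, .ofNat 19750388889910266341703403930721536991660762726400, .ofNat 0, .ofNat 8834875342966002076120993709047991500800,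 .ofNat 0, .ofNat 105525348654799822253963224311852407911248769843200, .ofNat 0, .ofNat 0, .ofNat 0, .ofNat 39531970798183079127441136586746542626192542924800, .ofNat 0, .ofNat 8477797631149371837782206655532682444800, .ofNat 0⟩)
    (by decide +kernel)
theorem L02544 : Good (Phi V4.P V4.D 1 1) ⟨7, 110, 5, 18, 5, 1, 3, 6, 4, 12⟩ :=
  leaf_sound (S := T4.ds_pp) T4.ok_pp (w := 232) (c := ⟨⟨.negSucc 770, .negSucc 19, .negSucc 11, .negSucc 127, .negSucc 27, .ofNat 23⟩, ⟨.negSucc 433, .negSucc 19, .negSucc 15, .negSucc 72, .negSucc 15, .ofNat 13⟩, ⟨.ofNat 438, .ofNat 20, .ofNat 12, .ofNat 113, .ofNat 44, .negSucc 8⟩, ⟨.negSucc 1153, .negSucc 22, .negSucc 11, .negSucc 184, .negSucc 42, .ofNat 34⟩, ⟨.negSucc 17, .negSucc 0, .ofNat 0, .negSucc 12, .ofNat 2, .ofNat 0⟩, .ofNat 15044, .negSucc 25705, .ofNat 0, .negSucc 25705, .ofNat 45074, .ofNat 0, .ofNat 47, .ofNat 382, .negSucc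 560, .ofNat 0, .ofNat 222, .negSucc 320, .ofNat 0, .ofNat 0, .ofNat 825, .ofNat 64638, .ofNat 995149034738080639010277656517311611140675993600, .ofNat 0, .ofNat 0, .ofNat 0, .ofNat 2906858049599273234587945008497160624876080332800, .ofNat 0, .ofNat 101510677531225823479985751568253190144000, .ofNat 0, .ofNat 0, .ofNat 0, .ofNat 0, .ofNat 0, .ofNat 0, .ofNat 0, .ofNat 0, .ofNat 0⟩)
    (by decide +kernel)
theorem L02545 : Good (Phi V4.P V4.D 1 1) ⟨7, 110, 5, 18, 5, 1, 3, 7, 4, 12⟩ :=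
  leaf_sound (S := T4.ds_pp) T4.ok_pp (w := 232) (c := ⟨⟨.negSucc 570, .negSucc 193, .ofNat 139, .negSucc 368, .negSucc 194, .negSucc 8⟩, ⟨.negSucc 318, .negSucc 119, .ofNat 69, .negSucc 210, .negSucc 111, .negSucc 4⟩, ⟨.ofNat 251, .ofNat 195, .negSucc 140, .ofNat 357, .ofNat 213, .ofNat 23⟩, ⟨.negSucc 857, .negSucc 281, .ofNat 214, .negSucc 543, .negSucc 291, .negSucc 13⟩, ⟨.negSucc 10, .negSucc 3, .ofNat 3, .negSucc 17, .negSucc 1, .negSucc 0⟩, .ofNat 14968, .negSucc 25577, .ofNat 0, .negSucc 25577, .ofNat 44856, .ofNat 0, .ofNat 25, .ofNat 204, .negSucc 424, .ofNat 0, .ofNat 119, .negSucc 242, .ofNat 0, .ofNat 0, .ofNat 525, .ofNat 1809, .ofNat 33806285326361140643759523495464215774022860800, .ofNat 0, .ofNat 40573727514701279881598125520348774400, .ofNat 0, .ofNat 272115885687480589869868190800550153970253824000, .ofNat 0, .ofNat 22908590903608972319449516995164661350400,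 .ofNat 0, .ofNat 0, .ofNat 0, .ofNat 0, .ofNat 0, .ofNat 0, .ofNat 232633579869953179535484140513870827940216832000, .ofNat 2323063164118615621848273779772987801600, .ofNat 0⟩)
    (by decide +kernel)
theorem L02546 : Good (Phi V4.P V4.D 1 1) ⟨7, 111, 5, 18, 5, 1, 1, 1, 4, 12⟩ :=
  out_sound (S := T4.ds_pp) T4.ok_pp (w := 24) (j := 4) (by decide +kernel)
theorem L02547 : Good (Phi V4.P V4.D 1 1) ⟨7, 110, 5, 19, 5, 1, 1, 1, 4, 12⟩ :=
  out_sound (S := T4.ds_pp) T4.ok_pp (w := 80) (j := 3) (by decide +kernel)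
theorem L02548 : Good (Phi V4.P V4.D 1 1) ⟨7, 111, 5, 19, 5, 1, 1, 1, 4, 12⟩ :=
  out_sound (S := T4.ds_pp) T4.ok_pp (w := 24) (j := 4) (by decide +kernel)
theorem L02549 : Good (Phi V4.P V4.D 1 1) ⟨5, 27, 3, 5, 4, 0, 0, 0, 4, 12⟩ :=
  out_sound (S := T4.ds_pp) T4.ok_pp (w := 64) (j := 3) (by decide +kernel)
theorem L02550 : Good (Phi V4.P V4.D 1 1) ⟨5, 27, 2, 2, 4, 0, 1, 0, 4, 13⟩ :=
  out_sound (S := T4.ds_pp) T4.ok_pp (w := 32) (j := 1) (by decide +kernel)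
theorem L02551 : Good (Phi V4.P V4.D 1 1) ⟨5, 27, 2, 2, 4, 0, 2, 2, 4, 13⟩ :=
  out_sound (S := T4.ds_pp) T4.ok_pp (w := 32) (j := 1) (by decide +kernel)
theorem L02552 : Good (Phi V4.P V4.D 1 1) ⟨5, 27, 2, 2, 4, 0, 3, 6, 4, 13⟩ :=
  out_sound (S := T4.ds_pp) T4.ok_pp (w := 32) (j := 1) (by decide +kernel)
theorem L02553 : Good (Phi V4.P V4.D 1 1) ⟨6, 54, 4, 8, 4, 0, 4, 14, 4, 13⟩ :=
  leaf_sound (S := T4.ds_pp) T4.ok_pp (w := 216) (c := ⟨⟨.negSucc 423, .negSucc 164, .ofNat 113, .negSucc 458, .negSucc 32, .ofNat 54⟩, ⟨.negSucc 214, .negSucc 105, .ofNat 48, .negSucc 248, .negSucc 17, .ofNat 30⟩, ⟨.ofNat 129, .ofNat 167, .negSucc 114, .ofNat 439, .ofNat 43, .negSucc 41⟩, ⟨.negSucc 657, .negSucc 225, .ofNat 167, .negSucc 684, .negSucc 50, .ofNat 80⟩, ⟨.ofNat 0, .negSucc 1, .ofNat 2, .negSucc 27, .ofNat 1, .ofNat 0⟩, .ofNat 1695, .negSucc 2560, .ofNat 0, .negSucc 2560, .ofNat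 4961, .ofNat 0, .ofNat 146, .ofNat 365, .negSucc 723, .ofNat 0, .ofNat 224, .negSucc 383, .ofNat 0, .ofNat 0, .ofNat 938, .ofNat 41413, .ofNat 765965935155010896762314492684590460279193600, .ofNat 0, .ofNat 0, .ofNat 0, .ofNat 0, .ofNat 0, .ofNat 0, .ofNat 0, .ofNat 0, .ofNat 0, .ofNat 0, .ofNat 0, .ofNat 6927911215178693182129577964928811848748236800, .ofNat 0, .ofNat 0, .ofNat 0⟩)
    (by decide +kernel)
theorem L02554 : Good (Phi V4.P V4.D 1 1) ⟨6, 54, 4, 8, 4, 0, 4, 15, 4, 13⟩ :=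
  leaf_sound (S := T4.ds_pp) T4.ok_pp (w := 216) (c := ⟨⟨.negSucc 181, .negSucc 530, .ofNat 497, .negSucc 839, .ofNat 136, .negSucc 86⟩, ⟨.negSucc 83, .negSucc 308, .ofNat 264, .negSucc 456, .ofNat 73, .negSucc 44⟩, ⟨.negSucc 105, .ofNat 534, .negSucc 499, .ofNat 823, .negSucc 127, .ofNat 100⟩, ⟨.negSucc 290, .negSucc 778, .ofNat 746, .negSucc 1261, .ofNat 206, .negSucc 131⟩, ⟨.ofNat 4, .negSucc 10, .ofNat 10, .negSucc 29, .ofNat 1, .negSucc 1⟩, .ofNat 1723, .negSucc 2601, .ofNat 0, .negSucc 2601, .ofNat 5012, .ofNat 0, .ofNat 75, .ofNat 190, .negSucc 495, .ofNat 0, .ofNat 117, .negSucc 263, .ofNat 0, .ofNat 0, .ofNat 580, .ofNat 4142, .ofNat 60832778082854433004554780414437173179187200, .ofNat 0, .ofNat 0, .ofNat 0, .ofNat 0, .ofNat 0, .ofNat 0, .ofNat 0, .ofNat 0, .ofNat 0, .ofNat 0, .ofNat 0, .ofNat 0, .ofNat 0, .ofNat 0, .ofNat 0⟩)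
    (by decide +kernel)
theorem L02555 : Good (Phi V4.P V4.D 1 1) ⟨6, 55, 5, 16, 4, 0, 3, 7, 4, 13⟩ :=
  out_sound (S := T4.ds_pp) T4.ok_pp (w := 72) (j := 3) (by decide +kernel)
theorem L02556 : Good (Phi V4.P V4.D 1 1) ⟨6, 55, 5, 17, 4, 0, 3, 7, 4, 13⟩ :=
  leaf_sound (S := T4.ds_pp) T4.ok_pp (w := 216) (c := ⟨⟨.negSucc 249, .ofNat 184, .negSucc 157, .negSucc 851, .ofNat 59, .ofNat 35⟩, ⟨.negSucc 129, .ofNat 97, .negSucc 101, .negSucc 479, .ofNat 34, .ofNat 19⟩, ⟨.negSucc 46, .negSucc 186, .ofNat 159, .ofNat 834, .negSucc 41, .negSucc 22⟩, ⟨.negSucc 383, .ofNat 292, .negSucc 233, .negSucc 1266, .ofNat 89, .ofNat 53⟩, ⟨.ofNat 0, .negSucc 9, .ofNat 4, .negSucc 33, .ofNat 0, .ofNat 0⟩, .ofNat 9057, .negSucc 15466, .ofNat 0, .negSucc 15466, .ofNat 27587, .ofNat 0, .ofNat 35, .ofNat 200, .negSucc 471, .ofNat 0, .ofNat 116, .negSucc 264, .ofNat 0, .ofNat 0, .ofNat 559, .ofNat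 3357, .ofNat 84456226223251718100401279705118020311449600, .ofNat 0, .ofNat 393487812871199114939341950733516800, .ofNat 0, .ofNat 87512956728010044763460199589756869908889600, .ofNat 0, .ofNat 109034011777734784560297330636698419200, .ofNat 0, .ofNat 987307990968966596768434209535084017903206400, .ofNat 609395085584737914554978920971632640000, .ofNat 63905883993267970520898381242223820800, .ofNat 0, .ofNat 96841135364269102584866808243174535436697600, .ofNat 110619567032019833118683076609378444587827200, .ofNat 50763663636092338202158919759953920000, .ofNat 0⟩)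
    (by decide +kernel)
theorem L02557 : Good (Phi V4.P V4.D 1 1) ⟨6, 54, 4, 9, 4, 0, 3, 7, 4, 13⟩ :=
  out_sound (S := T4.ds_pp) T4.ok_pp (w := 72) (j := 3) (by decide +kernel)
theorem L02558 : Good (Phi V4.P V4.D 1 1) ⟨6, 55, 4, 9, 4, 0, 4, 14, 4, 13⟩ :=
  leaf_sound (S := T4.ds_pp) T4.ok_pp (w := 224) (c := ⟨⟨.negSucc 494, .negSucc 82, .negSucc 25, .negSucc 481, .negSucc 4, .ofNat 7⟩, ⟨.negSucc 275, .negSucc 62, .negSucc 30, .negSucc 276, .negSucc 2, .ofNat 5⟩, ⟨.ofNat 200, .ofNat 84, .ofNat 25, .ofNat 460, .ofNat 13, .ofNat 7⟩, ⟨.negSucc 747, .negSucc 113, .negSucc 27, .negSucc 706, .negSucc 6, .ofNat 10⟩, ⟨.ofNat 0, .negSucc 0, .ofNat 0, .negSucc 28, .ofNat 0, .ofNat 0⟩, .ofNat 5958, .negSucc 9870, .ofNat 0, .negSucc 9870, .ofNat 17467, .ofNat 0, .ofNat 73, .ofNat 388, .negSucc 745, .ofNat 0, .ofNat 229, .negSucc 424, .ofNat 0, .ofNat 0, .ofNat 956, .ofNat 96364,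 .ofNat 1657055643093902194442671989498062483069337600, .ofNat 0, .ofNat 0, .ofNat 0, .ofNat 4356062455041763047141648337687450258243584000, .ofNat 0, .ofNat 1090111647412041253149495592018457395200, .ofNat 0, .ofNat 0, .ofNat 0, .ofNat 0, .ofNat 0, .ofNat 0, .ofNat 0, .ofNat 0, .ofNat 0⟩)
    (by decide +kernel)
theorem L02559 : Good (Phi V4.P V4.D 1 1) ⟨6, 55, 4, 9, 4, 0, 4, 15, 4, 13⟩ :=
  leaf_sound (S := T4.ds_pp) T4.ok_pp (w := 216) (c := ⟨⟨.negSucc 253, .negSucc 114, .ofNat 133, .negSucc 951, .ofNat 14, .negSucc 7⟩, ⟨.negSucc 138, .negSucc 81, .ofNat 61, .negSucc 544, .ofNat 8, .negSucc 3⟩, ⟨.negSucc 33, .ofNat 115, .negSucc 133, .ofNat 934, .negSucc 4, .ofNat 20⟩, ⟨.negSucc 387, .negSucc 160, .ofNat 210, .negSucc 1409, .ofNat 22, .negSucc 10⟩, ⟨.ofNat 4, .negSucc 0, .ofNat 0, .negSucc 34, .negSucc 0, .negSucc 0⟩, .ofNat 2231, .negSucc 3399, .ofNat 0, .negSucc 3399,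 .ofNat 6207, .ofNat 0, .ofNat 62, .ofNat 196, .negSucc 531, .ofNat 0, .ofNat 121, .negSucc 297, .ofNat 0, .ofNat 0, .ofNat 612, .ofNat 1829, .ofNat 22954511760771588847402872522691450817740800, .ofNat 0, .ofNat 0, .ofNat 0, .ofNat 0, .ofNat 0, .ofNat 0, .ofNat 0, .ofNat 0, .ofNat 0, .ofNat 0, .ofNat 0, .ofNat 0, .ofNat 91409349040087164997952782159670453207040000, .ofNat 0, .ofNat 0⟩)
    (by decide +kernel)
theorem L02560 : Good (Phi V4.P V4.D 1 1) ⟨5, 27, 3, 5, 4, 0, 3, 7, 4, 13⟩ :=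
  out_sound (S := T4.ds_pp) T4.ok_pp (w := 64) (j := 3) (by decide +kernel)
theorem L02561 : Good (Phi V4.P V4.D 1 1) ⟨5, 27, 2, 2, 4, 0, 0, 0, 3, 7⟩ :=
  out_sound (S := T4.ds_pp) T4.ok_pp (w := 24) (j := 1) (by decide +kernel)
theorem L02562 : Good (Phi V4.P V4.D 1 1) ⟨5, 27, 3, 4, 4, 1, 1, 0, 3, 6⟩ :=
  out_sound (S := T4.ds_pp) T4.ok_pp (w := 32) (j := 1) (by decide +kernel)

end Crest.Agent.R097C4.N4pp
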