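import Crest.Agent.R097.T4

/-!
# Row 97, box cover in dimension n = 4 (generated)
-/

set_option autoImplicit false
set_option Elab.async false
set_option maxHeartbeats 0
set_option maxRecDepth 100000

open Crest.Agent.R097 Crest.Agent.R097.KA


namespace Crest.Agent.R097C4.N4pp

theorem L02563 : Good (Phi V4.P V4.D 1 1) ⟨6, 54, 5, 16, 4, 1, 2, 2, 3, 6⟩ :=
  leaf_sound (S := T4.ds_pp) T4.ok_pp (w := 216) (c := ⟨⟨.negSucc 754, .negSucc 38, .negSucc 3, .negSucc 139, .negSucc 81, .ofNat 0⟩, ⟨.negSucc 392, .negSucc 31, .negSucc 15, .negSucc 74, .negSucc 44, .ofNat 0⟩, ⟨.ofNat 383, .ofNat 37, .ofNat 4, .ofNat 99, .ofNat 108, .ofNat 0⟩, ⟨.negSucc 1148, .negSucc 34, .negSucc 3, .negSucc 205, .negSucc 123, .ofNat 0⟩, ⟨.negSucc 29, .ofNat 0, .ofNat 0, .negSucc 14, .negSucc 2, .ofNat 0⟩, .ofNat 361, .negSucc 251, .ofNat 0, .negSucc 251, .ofNat 685, .ofNat 0, .ofNat 303, .ofNat 252, .negSucc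 532, .ofNat 0, .ofNat 263, .negSucc 227, .ofNat 0, .ofNat 0, .ofNat 819, .ofNat 2855137, .ofNat 3913665129205284185227361696304032967661977600, .ofNat 0, .ofNat 0, .ofNat 0, .ofNat 3391949206558838997564471087217942110142464000, .ofNat 0, .ofNat 0, .ofNat 0, .ofNat 3714612889209428580312450618739198943192678400, .ofNat 0, .ofNat 0, .ofNat 0, .ofNat 2887418039111916414269359909529000844302745600, .ofNat 0, .ofNat 0, .ofNat 0⟩)
    (by decide +kernel)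
theorem L02564 : Good (Phi V4.P V4.D 1 1) ⟨6, 54, 5, 16, 4, 1, 3, 6, 3, 6⟩ :=
  leaf_sound (S := T4.ds_pp) T4.ok_pp (w := 216) (c := ⟨⟨.negSucc 720, .negSucc 159, .ofNat 48, .negSucc 259, .negSucc 147, .ofNat 29⟩, ⟨.negSucc 373, .negSucc 95, .ofNat 11, .negSucc 138, .negSucc 79, .ofNat 16⟩, ⟨.ofNat 371, .ofNat 162, .negSucc 49, .ofNat 225, .ofNat 169, .ofNat 1⟩, ⟨.negSucc 1096, .negSucc 216, .ofNat 75, .negSucc 387, .negSucc 227, .ofNat 44⟩, ⟨.negSucc 30, .negSucc 2, .ofNat 1, .negSucc 14, .ofNat 3, .negSucc 0⟩, .ofNat 2962, .negSucc 4886, .ofNat 0, .negSucc 4886, .ofNat 9269, .ofNat 0, .ofNat 117, .ofNat 367, .negSucc 556, .ofNat 0, .ofNat 215, .negSucc 296, .ofNat 0, .ofNat 0, .ofNat 820, .ofNat 32152, .ofNat 69776575859817791281998159449577034560307200, .ofNat 0, .ofNat 0, .ofNat 0, .ofNat 206797488319005135381114676279077683331072000, .ofNat 0, .ofNat 19723210432156024395496646188518604800,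 .ofNat 0, .ofNat 68250013329211148462403404907177576077721600, .ofNat 0, .ofNat 10222051611469413617152631030100787200, .ofNat 0, .ofNat 0, .ofNat 0, .ofNat 7501182470982602787702705036145459200, .ofNat 0⟩)
    (by decide +kernel)
theorem L02565 : Good (Phi V4.P V4.D 1 1) ⟨6, 54, 5, 16, 4, 1, 3, 7, 3, 6⟩ :=
  leaf_sound (S := T4.ds_pp) T4.ok_pp (w := 216) (c := ⟨⟨.negSucc 744, .negSucc 201, .ofNat 26, .negSucc 416, .negSucc 415, .negSucc 5⟩, ⟨.negSucc 386, .negSucc 114, .negSucc 7, .negSucc 222, .negSucc 222, .negSucc 2⟩, ⟨.ofNat 414, .ofNat 203, .negSucc 26, .ofNat 386, .ofNat 438, .ofNat 36⟩, ⟨.negSucc 1138, .negSucc 279, .ofNat 44, .negSucc 625, .negSucc 628, .negSucc 7⟩, ⟨.negSucc 20, .negSucc 6, .ofNat 1, .negSucc 22, .negSucc 11, .negSucc 2⟩, .ofNat 2924, .negSucc 4821, .ofNat 0, .negSucc 4821, .ofNat 9157, .ofNat 0, .ofNat 123, .ofNat 384, .negSucc 772, .ofNat 0, .ofNat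 225, .negSucc 411, .ofNat 0, .ofNat 0, .ofNat 981, .ofNat 2694, .ofNat 4263734006486177137160909026186872697651200, .ofNat 0, .ofNat 0, .ofNat 0, .ofNat 44791706486041434661160686823656220786688000, .ofNat 0, .ofNat 16061006981612245882098994880761036800, .ofNat 0, .ofNat 0, .ofNat 0, .ofNat 0, .ofNat 0, .ofNat 112232980410995003319080542740969960977203200, .ofNat 121462734947333877484611245019833334497280000, .ofNat 0, .ofNat 0⟩)
    (by decide +kernel)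
theorem L02566 : Good (Phi V4.P V4.D 1 1) ⟨6, 55, 5, 16, 4, 1, 1, 1, 3, 6⟩ :=
  out_sound (S := T4.ds_pp) T4.ok_pp (w := 72) (j := 3) (by decide +kernel)
theorem L02567 : Good (Phi V4.P V4.D 1 1) ⟨5, 27, 5, 17, 4, 1, 2, 2, 3, 6⟩ :=
  leaf_sound (S := T4.ds_pp) T4.ok_pp (w := 208) (c := ⟨⟨.negSucc 778, .negSucc 30, .negSucc 15, .negSucc 143, .negSucc 74, .ofNat 0⟩, ⟨.negSucc 418, .negSucc 26, .negSucc 25, .negSucc 79, .negSucc 42, .ofNat 0⟩, ⟨.ofNat 410, .ofNat 31, .ofNat 15, .ofNat 103, .ofNat 97, .ofNat 0⟩, ⟨.negSucc 1176, .negSucc 28, .negSucc 13, .negSucc 209, .negSucc 110, .ofNat 0⟩, ⟨.negSucc 29, .ofNat 0, .ofNat 0, .negSucc 14, .negSucc 1, .ofNat 0⟩, .ofNat 367, .negSucc 263, .ofNat 0, .negSucc 263, .ofNat 689, .ofNat 0, .ofNat 298, .ofNat 261, .negSucc 543, .ofNat 0, .ofNat 267, .negSucc 241, .ofNat 0, .ofNat 0, .ofNat 827, .ofNat 1996973, .ofNat 138082029555156360432909593522312410929561600,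 .ofNat 0, .ofNat 0, .ofNat 0, .ofNat 176587529316574995127264676315436469872230400, .ofNat 0, .ofNat 0, .ofNat 0, .ofNat 49557395906748879390603754599381853431398400, .ofNat 0, .ofNat 2954801251782478038211041292399411200, .ofNat 0, .ofNat 171642183336416970311689646963315593917235200, .ofNat 0, .ofNat 2000389209691585691856851280750182400, .ofNat 0⟩)
    (by decide +kernel)
theorem L02568 : Good (Phi V4.P V4.D 1 1) ⟨5, 27, 5, 17, 4, 1, 3, 6, 3, 6⟩ :=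
  leaf_sound (S := T4.ds_pp) T4.ok_pp (w := 208) (c := ⟨⟨.negSucc 715, .negSucc 216, .ofNat 17, .negSucc 242, .negSucc 139, .ofNat 6⟩, ⟨.negSucc 384, .negSucc 129, .negSucc 9, .negSucc 135, .negSucc 76, .ofNat 2⟩, ⟨.ofNat 364, .ofNat 222, .negSucc 18, .ofNat 207, .ofNat 160, .ofNat 24⟩, ⟨.negSucc 1079, .negSucc 309, .ofNat 36, .negSucc 359, .negSucc 212, .ofNat 11⟩, ⟨.negSucc 29, .negSucc 3, .ofNat 1, .negSucc 14, .ofNat 2, .negSucc 1⟩, .ofNat 1914, .negSucc 2902, .ofNat 0, .negSucc 2902, .ofNat 5462, .ofNat 0, .ofNat 131, .ofNat 362, .negSucc 550, .ofNat 0, .ofNat 223, .negSucc 299, .ofNat 0, .ofNat 0, .ofNat 816, .ofNat 38590, .ofNat 4720957792318193819544830614301740892160000, .ofNat 0, .ofNat 0, .ofNat 0, .ofNat 14061109265905392634985103316906566431539200, .ofNat 0, .ofNat 24811791731752048353544342090442342400, .ofNat 0, .ofNat 17636955417100144667334346223106471336345600,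 .ofNat 0, .ofNat 0, .ofNat 0, .ofNat 15379684991733491512270752760312089909657600, .ofNat 0, .ofNat 13293647436326097150093778595138764800, .ofNat 0⟩)
    (by decide +kernel)
theorem L02569 : Good (Phi V4.P V4.D 1 1) ⟨6, 54, 5, 17, 4, 1, 3, 7, 3, 6⟩ :=
  leaf_sound (S := T4.ds_pp) T4.ok_pp (w := 216) (c := ⟨⟨.negSucc 951, .ofNat 188, .negSucc 100, .negSucc 446, .negSucc 488, .ofNat 3⟩, ⟨.negSucc 507, .ofNat 88, .negSucc 73, .negSucc 246, .negSucc 269, .ofNat 2⟩, ⟨.ofNat 620, .negSucc 186, .ofNat 99, .ofNat 415, .ofNat 511, .ofNat 27⟩, ⟨.negSucc 1450, .ofNat 307, .negSucc 146, .negSucc 663, .negSucc 733, .ofNat 7⟩, ⟨.negSucc 29, .ofNat 9, .negSucc 2, .negSucc 24, .negSucc 14, .negSucc 2⟩, .ofNat 3843, .negSucc 6354, .ofNat 0, .negSucc 6354, .ofNat 11672, .ofNat 0, .ofNat 103, .ofNat 393, .negSucc 793, .ofNat 0, .ofNat 231, .negSucc 436, .ofNat 0, .ofNat 0, .ofNat 999, .ofNat 3142,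 .ofNat 5159091801786009582365412882355527981465600, .ofNat 0, .ofNat 23009922188881760941656615419904000, .ofNat 0, .ofNat 0, .ofNat 0, .ofNat 0, .ofNat 0, .ofNat 0, .ofNat 0, .ofNat 0, .ofNat 0, .ofNat 132911793669147513287174256064412355290726400, .ofNat 129136939078729461736077890230230309666816000, .ofNat 0, .ofNat 0⟩)
    (by decide +kernel)
theorem L02570 : Good (Phi V4.P V4.D 1 1) ⟨6, 55, 5, 17, 4, 1, 3, 7, 3, 6⟩ :=
  leaf_sound (S := T4.ds_pp) T4.ok_pp (w := 216) (c := ⟨⟨.negSucc 918, .negSucc 418, .ofNat 115, .negSucc 432, .negSucc 494, .ofNat 13⟩, ⟨.negSucc 501, .negSucc 251, .ofNat 47, .negSucc 243, .negSucc 278, .ofNat 7⟩, ⟨.ofNat 588, .ofNat 420, .negSucc 115, .ofNat 400, .ofNat 516, .ofNat 18⟩, ⟨.negSucc 1379, .negSucc 602, .ofNat 179, .negSucc 638, .negSucc 738, .ofNat 21⟩, ⟨.negSucc 27, .negSucc 21, .ofNat 7, .negSucc 24, .negSucc 14, .negSucc 2⟩, .ofNat 4666,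 .negSucc 7722, .ofNat 0, .negSucc 7722, .ofNat 13918, .ofNat 0, .ofNat 89, .ofNat 393, .negSucc 767, .ofNat 0, .ofNat 231, .negSucc 429, .ofNat 0, .ofNat 0, .ofNat 977, .ofNat 3176, .ofNat 4159148815663569294596922415402934127820800, .ofNat 12205243823875066071444908623999795200, .ofNat 27387080259633799109824057285017600, .ofNat 0, .ofNat 304933731036847526274985638228012127852953600, .ofNat 0, .ofNat 20276161306918635699537828723346636800, .ofNat 0, .ofNat 54378470998966186708845880287367901321625600, .ofNat 43154139825986848372793868078034242345369600, .ofNat 21733707832082690667670027716526080000, .ofNat 0, .ofNat 86218002875136540993911507664089739008409600, .ofNat 129114002013962928635621481940038837495398400, .ofNat 1276966232963852844815908335098265600, .ofNat 0⟩)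
    (by decide +kernel)
theorem L02571 : Good (Phi V4.P V4.D 1 1) ⟨6, 54, 4, 9, 4, 1, 1, 1, 3, 6⟩ :=
  out_sound (S := T4.ds_pp) T4.ok_pp (w := 72) (j := 3) (by decide +kernel)
theorem L02572 : Good (Phi V4.P V4.D 1 1) ⟨6, 55, 6, 36, 4, 1, 2, 2, 3, 6⟩ :=
  leaf_sound (S := T4.ds_pp) T4.ok_pp (w := 216) (c := ⟨⟨.negSucc 791, .negSucc 3, .negSucc 10, .negSucc 147, .negSucc 94, .ofNat 0⟩, ⟨.negSucc 446, .negSucc 4, .negSucc 14, .negSucc 84, .negSucc 54, .ofNat 0⟩, ⟨.ofNat 422, .ofNat 3, .ofNat 10, .ofNat 105, .ofNat 117, .ofNat 0⟩, ⟨.negSucc 1173, .negSucc 4, .negSucc 8, .negSucc 213, .negSucc 142, .ofNat 0⟩, ⟨.negSucc 35, .ofNat 2, .ofNat 0, .negSucc 13, .ofNat 3, .ofNat 0⟩, .ofNat 373, .negSucc 273, .ofNat 0, .negSucc 273, .ofNat 693, .ofNat 0, .ofNat 294, .ofNat 267, .negSucc 549, .ofNat 0, .ofNat 270, .negSucc 252, .ofNat 0, .ofNat 0, .ofNat 831, .ofNat 2588411, .ofNat 10003809533054311552068318286179130843909324800,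 .ofNat 0, .ofNat 0, .ofNat 0, .ofNat 13831503260695361901157973730953955336467251200, .ofNat 0, .ofNat 0, .ofNat 0, .ofNat 4162497899006200375324412517709556458979328000, .ofNat 0, .ofNat 2408583899562045062154765742374912000, .ofNat 0, .ofNat 11410804348149479514795896893113584676608409600, .ofNat 0, .ofNat 1683746681912735996488994599521484800, .ofNat 0⟩)
    (by decide +kernel)
theorem L02573 : Good (Phi V4.P V4.D 1 1) ⟨7, 110, 6, 36, 4, 1, 3, 6, 3, 6⟩ :=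
  leaf_sound (S := T4.ds_pp) T4.ok_pp (w := 224) (c := ⟨⟨.negSucc 793, .ofNat 46, .negSucc 37, .negSucc 274, .negSucc 189, .ofNat 35⟩, ⟨.negSucc 447, .ofNat 22, .negSucc 30, .negSucc 156, .negSucc 108, .ofNat 20⟩, ⟨.ofNat 443, .negSucc 47, .ofNat 39, .ofNat 239, .ofNat 212, .negSucc 4⟩, ⟨.negSucc 1180, .ofNat 73, .negSucc 51, .negSucc 404, .negSucc 285, .ofNat 52⟩, ⟨.negSucc 29, .negSucc 0, .ofNat 0, .negSucc 14, .ofNat 1, .ofNat 0⟩, .ofNat 14689, .negSucc 25099, .ofNat 0, .negSucc 25099, .ofNat 44039, .ofNat 0, .ofNat 48, .ofNat 384, .negSucc 570, .ofNat 0, .ofNat 223, .negSucc 326, .ofNat 0, .ofNat 0, .ofNat 830, .ofNat 32336, .ofNat 3914739919454518933306166093407899848854732800, .ofNat 0, .ofNat 0, .ofNat 0, .ofNat 13168284600746216131579669770729495882576691200, .ofNat 0, .ofNat 18554296410913481296852228002702950400, .ofNat 0, .ofNat 4847781147135859094233709450454457373215948800,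 .ofNat 0, .ofNat 8243296243901703891321293078160998400, .ofNat 0, .ofNat 0, .ofNat 0, .ofNat 5601412575685593873703496760636211200, .ofNat 0⟩)
    (by decide +kernel)
theorem L02574 : Good (Phi V4.P V4.D 1 1) ⟨7, 110, 6, 36, 4, 1, 4, 14, 3, 6⟩ :=
  leaf_sound (S := T4.ds_pp) T4.ok_pp (w := 224) (c := ⟨⟨.negSucc 884, .ofNat 42, .negSucc 55, .negSucc 437, .negSucc 225, .ofNat 22⟩, ⟨.negSucc 496, .ofNat 15, .negSucc 39, .negSucc 249, .negSucc 128, .ofNat 13⟩, ⟨.ofNat 553, .negSucc 40, .ofNat 55, .ofNat 404, .ofNat 236, .ofNat 8⟩, ⟨.negSucc 1322, .ofNat 70, .negSucc 77, .negSucc 644, .negSucc 334, .ofNat 35⟩, ⟨.negSucc 25, .ofNat 3, .negSucc 2, .negSucc 23, .negSucc 6, .negSucc 0⟩, .ofNat 2223, .negSucc 3387, .ofNat 0, .negSucc 3387, .ofNat 6188, .ofNat 0, .ofNat 122, .ofNat 383, .negSucc 740, .ofNat 0, .ofNat 236, .negSucc 414, .ofNat 0, .ofNat 0, .ofNat 956, .ofNat 28523, .ofNat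 0, .ofNat 0, .ofNat 0, .ofNat 0, .ofNat 0, .ofNat 0, .ofNat 0, .ofNat 0, .ofNat 0, .ofNat 0, .ofNat 0, .ofNat 0, .ofNat 70438332704282093268806170648344110655602688000, .ofNat 28741467791980312779811664192581140480000, .ofNat 46988497664281985029787651933837721600, .ofNat 0⟩)
    (by decide +kernel)
theorem L02575 : Good (Phi V4.P V4.D 1 1) ⟨7, 110, 6, 36, 4, 1, 4, 15, 3, 6⟩ :=
  leaf_sound (S := T4.ds_pp) T4.ok_pp (w := 216) (c := ⟨⟨.negSucc 952, .negSucc 49, .negSucc 32, .negSucc 659, .negSucc 473, .ofNat 3⟩, ⟨.negSucc 535, .negSucc 33, .negSucc 29, .negSucc 377, .negSucc 271, .ofNat 1⟩, ⟨.ofNat 632, .ofNat 47, .ofNat 34, .ofNat 628, .ofNat 485, .ofNat 26⟩, ⟨.negSucc 1425, .negSucc 68, .negSucc 39, .negSucc 969, .negSucc 701, .ofNat 6⟩, ⟨.negSucc 22, .negSucc 1, .negSucc 1, .negSucc 37, .negSucc 17, .negSucc 2⟩, .ofNat 2237, .negSucc 3409, .ofNat 0, .negSucc 3409, .ofNat 6221,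 .ofNat 0, .ofNat 63, .ofNat 198, .negSucc 483, .ofNat 0, .ofNat 122, .negSucc 270, .ofNat 0, .ofNat 0, .ofNat 572, .ofNat 4013, .ofNat 0, .ofNat 0, .ofNat 0, .ofNat 0, .ofNat 0, .ofNat 0, .ofNat 0, .ofNat 0, .ofNat 0, .ofNat 0, .ofNat 0, .ofNat 0, .ofNat 4083416225012849438193745845759491410860441600, .ofNat 9967181830989086600820324152856319772904652800, .ofNat 2604906638855926568566892234853580800, .ofNat 0⟩)
    (by decide +kernel)
theorem L02576 : Good (Phi V4.P V4.D 1 1) ⟨7, 111, 6, 36, 4, 1, 2, 3, 3, 6⟩ :=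
  out_sound (S := T4.ds_pp) T4.ok_pp (w := 80) (j := 3) (by decide +kernel)
theorem L02577 : Good (Phi V4.P V4.D 1 1) ⟨8, 220, 6, 37, 4, 1, 1, 1, 3, 6⟩ :=
  out_sound (S := T4.ds_pp) T4.ok_pp (w := 88) (j := 3) (by decide +kernel)
theorem L02578 : Good (Phi V4.P V4.D 1 1) ⟨9, 442, 7, 74, 4, 1, 1, 1, 3, 6⟩ :=
  out_sound (S := T4.ds_pp) T4.ok_pp (w := 96) (j := 3) (by decide +kernel)
theorem L02579 : Good (Phi V4.P V4.D 1 1) ⟨10, 886, 8, 148, 4, 1, 1, 1, 3, 6⟩ :=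
  out_sound (S := T4.ds_pp) T4.ok_pp (w := 104) (j := 3) (by decide +kernel)
theorem L02580 : Good (Phi V4.P V4.D 1 1) ⟨10, 887, 8, 148, 4, 1, 1, 1, 3, 6⟩ :=
  out_sound (S := T4.ds_pp) T4.ok_pp (w := 32) (j := 4) (by decide +kernel)
theorem L02581 : Good (Phi V4.P V4.D 1 1) ⟨9, 443, 8, 149, 4, 1, 1, 1, 3, 6⟩ :=
  out_sound (S := T4.ds_pp) T4.ok_pp (w := 96) (j := 3) (by decide +kernel)
theorem L02582 : Good (Phi V4.P V4.D 1 1) ⟨8, 221, 7, 75, 4, 1, 1, 1, 3, 6⟩ :=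
  out_sound (S := T4.ds_pp) T4.ok_pp (w := 88) (j := 3) (by decide +kernel)
theorem L02583 : Good (Phi V4.P V4.D 1 1) ⟨7, 111, 6, 37, 4, 1, 1, 1, 3, 6⟩ :=
  out_sound (S := T4.ds_pp) T4.ok_pp (w := 24) (j := 4) (by decide +kernel)
theorem L02584 : Good (Phi V4.P V4.D 1 1) ⟨7, 110, 5, 19, 4, 1, 1, 1, 3, 6⟩ :=
  out_sound (S := T4.ds_pp) T4.ok_pp (w := 80) (j := 3) (by decide +kernel)
theorem L02585 : Good (Phi V4.P V4.D 1 1) ⟨7, 111, 5, 19, 4, 1, 1, 1, 3, 6⟩ :=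
  out_sound (S := T4.ds_pp) T4.ok_pp (w := 24) (j := 4) (by decide +kernel)
theorem L02586 : Good (Phi V4.P V4.D 1 1) ⟨5, 27, 3, 5, 4, 1, 0, 0, 3, 6⟩ :=
  out_sound (S := T4.ds_pp) T4.ok_pp (w := 64) (j := 3) (by decide +kernel)
theorem L02587 : Good (Phi V4.P V4.D 1 1) ⟨5, 27, 2, 2, 4, 1, 0, 0, 3, 7⟩ :=
  out_sound (S := T4.ds_pp) T4.ok_pp (w := 24) (j := 1) (by decide +kernel)
theorem L02588 : Good (Phi V4.P V4.D 1 1) ⟨5, 27, 2, 3, 3, 0, 0, 0, 2, 3⟩ :=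
  out_sound (S := T4.ds_pp) T4.ok_pp (w := 56) (j := 3) (by decide +kernel)
theorem L02589 : Good (Phi V4.P V4.D 1 1) ⟨5, 27, 1, 1, 3, 1, 1, 0, 2, 3⟩ :=
  out_sound (S := T4.ds_pp) T4.ok_pp (w := 24) (j := 1) (by decide +kernel)
theorem L02590 : Good (Phi V4.P V4.D 1 1) ⟨5, 27, 1, 1, 3, 1, 3, 4, 2, 3⟩ :=
  out_sound (S := T4.ds_pp) T4.ok_pp (w := 24) (j := 1) (by decide +kernel)
theorem L02591 : Good (Phi V4.P V4.D 1 1) ⟨5, 27, 2, 2, 3, 1, 4, 10, 3, 6⟩ :=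
  out_sound (S := T4.ds_pp) T4.ok_pp (w := 32) (j := 1) (by decide +kernel)
theorem L02592 : Good (Phi V4.P V4.D 1 1) ⟨5, 27, 3, 4, 4, 2, 4, 11, 3, 6⟩ :=
  leaf_sound (S := T4.ds_pp) T4.ok_pp (w := 208) (c := ⟨⟨.negSucc 908, .negSucc 66, .negSucc 37, .negSucc 137, .negSucc 72, .ofNat 8⟩, ⟨.negSucc 470, .negSucc 73, .negSucc 73, .negSucc 75, .negSucc 39, .ofNat 3⟩, ⟨.ofNat 510, .ofNat 61, .ofNat 35, .ofNat 88, .ofNat 88, .ofNat 19⟩, ⟨.negSucc 1373, .negSucc 57, .negSucc 36, .negSucc 209, .negSucc 112, .ofNat 13⟩, ⟨.negSucc 51, .ofNat 1, .ofNat 0, .ofNat 3, .ofNat 4, .ofNat 2⟩, .ofNat 366, .negSucc 261, .ofNat 0, .negSucc 261, .ofNat 688, .ofNat 0, .ofNat 299, .ofNat 261, .negSucc 524, .ofNat 0, .ofNat 267, .negSucc 232, .ofNat 0, .ofNat 0, .ofNat 810, .ofNat 531327, .ofNat 21697548803660772807079002844588464616243200, .ofNat 0, .ofNat 0, .ofNat 0, .ofNat 31119462638375538185337089045841835563417600,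 .ofNat 0, .ofNat 0, .ofNat 0, .ofNat 0, .ofNat 0, .ofNat 0, .ofNat 0, .ofNat 26712321492808527926926970743611793499750400, .ofNat 0, .ofNat 0, .ofNat 0⟩)
    (by decide +kernel)
theorem L02593 : Good (Phi V4.P V4.D 1 1) ⟨5, 27, 3, 5, 4, 2, 4, 11, 3, 6⟩ :=
  out_sound (S := T4.ds_pp) T4.ok_pp (w := 64) (j := 3) (by decide +kernel)
theorem L02594 : Good (Phi V4.P V4.D 1 1) ⟨5, 27, 2, 2, 4, 3, 4, 11, 3, 6⟩ :=
  leaf_sound (S := T4.ds_pp) T4.ok_pp (w := 208) (c := ⟨⟨.negSucc 1013, .negSucc 94, .negSucc 37, .negSucc 136, .negSucc 106, .ofNat 31⟩, ⟨.negSucc 523, .negSucc 114, .negSucc 93, .negSucc 74, .negSucc 57, .ofNat 13⟩, ⟨.ofNat 566, .ofNat 85, .ofNat 31, .ofNat 79, .ofNat 122, .ofNat 0⟩, ⟨.negSucc 1536, .negSucc 86, .negSucc 35, .negSucc 217, .negSucc 164, .ofNat 44⟩, ⟨.negSucc 49, .ofNat 2, .ofNat 1, .ofNat 19, .ofNat 5, .ofNat 9⟩, .ofNat 364, .negSucc 257, .ofNat 0, .negSucc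 257, .ofNat 687, .ofNat 0, .ofNat 301, .ofNat 260, .negSucc 505, .ofNat 0, .ofNat 266, .negSucc 221, .ofNat 0, .ofNat 0, .ofNat 794, .ofNat 133641, .ofNat 1135985793907457407005132772709286228787200, .ofNat 0, .ofNat 0, .ofNat 0, .ofNat 1057838105085503126240690123188062073651200, .ofNat 0, .ofNat 0, .ofNat 0, .ofNat 0, .ofNat 0, .ofNat 20904334285039123336092721751261184000, .ofNat 0, .ofNat 0, .ofNat 0, .ofNat 0, .ofNat 0⟩)
    (by decide +kernel)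
theorem L02595 : Good (Phi V4.P V4.D 1 1) ⟨5, 27, 2, 2, 3, 1, 3, 5, 3, 7⟩ :=
  out_sound (S := T4.ds_pp) T4.ok_pp (w := 32) (j := 1) (by decide +kernel)
theorem L02596 : Good (Phi V4.P V4.D 1 1) ⟨5, 27, 2, 3, 3, 1, 3, 5, 2, 3⟩ :=
  out_sound (S := T4.ds_pp) T4.ok_pp (w := 56) (j := 3) (by decide +kernel)
theorem L02597 : Good (Phi V4.P V4.D 1 1) ⟨5, 27, 3, 4, 3, 1, 3, 6, 2, 3⟩ :=
  leaf_sound (S := T4.ds_pp) T4.ok_pp (w := 192) (c := ⟨⟨.negSucc 856, .negSucc 165, .negSucc 8, .negSucc 404, .negSucc 347, .ofNat 119⟩, ⟨.negSucc 433, .negSucc 149, .negSucc 52, .negSucc 224, .negSucc 193, .ofNat 69⟩, ⟨.ofNat 472, .ofNat 162, .ofNat 3, .ofNat 301, .ofNat 375, .negSucc 51⟩, ⟨.negSucc 1306, .negSucc 182, .negSucc 5, .negSucc 621, .negSucc 522, .ofNat 177⟩, ⟨.negSucc 41, .negSucc 11, .ofNat 9, .ofNat 13, .negSucc 6, .ofNat 4⟩, .ofNat 1837, .negSucc 2782, .ofNat 0, .negSucc 2782, .ofNat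 5284, .ofNat 0, .ofNat 135, .ofNat 364, .negSucc 519, .ofNat 0, .ofNat 223, .negSucc 280, .ofNat 0, .ofNat 0, .ofNat 794, .ofNat 11031, .ofNat 78038334343486524964558186611317145600, .ofNat 0, .ofNat 2234776674096779907402458726400, .ofNat 0, .ofNat 1143253789804134092210865321769382707200, .ofNat 46280301366409508390822525622288384000, .ofNat 1033162627234460309958415299379200, .ofNat 0, .ofNat 0, .ofNat 0, .ofNat 0, .ofNat 0, .ofNat 1771837721983421420304426831784496332800, .ofNat 0, .ofNat 0, .ofNat 0⟩)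
    (by decide +kernel)
theorem L02598 : Good (Phi V4.P V4.D 1 1) ⟨5, 27, 3, 4, 3, 1, 4, 14, 3, 6⟩ :=
  leaf_sound (S := T4.ds_pp) T4.ok_pp (w := 200) (c := ⟨⟨.negSucc 1118, .negSucc 150, .negSucc 92, .negSucc 634, .negSucc 313, .ofNat 6⟩, ⟨.negSucc 577, .negSucc 125, .negSucc 125, .negSucc 348, .negSucc 172, .ofNat 3⟩, ⟨.ofNat 756, .ofNat 147, .ofNat 89, .ofNat 545, .ofNat 326, .ofNat 27⟩, ⟨.negSucc 1704, .negSucc 171, .negSucc 110, .negSucc 955, .negSucc 468, .ofNat 11⟩, ⟨.negSucc 39, .negSucc 3, .negSucc 3, .negSucc 14, .negSucc 13, .negSucc 2⟩, .ofNat 764, .negSucc 894, .ofNat 0, .negSucc 894, .ofNat 1877, .ofNat 0, .ofNat 217, .ofNat 342, .negSucc 719, .ofNat 0, .ofNat 245, .negSucc 369, .ofNat 0, .ofNat 0, .ofNat 937, .ofNat 6611, .ofNat 0, .ofNat 0, .ofNat 0, .ofNat 0, .ofNat 0, .ofNat 0, .ofNat 0, .ofNat 0, .ofNat 4936337582075365859574003336324789043200, .ofNat 6721869401037869975764163264129060044800,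 .ofNat 0, .ofNat 0, .ofNat 20742049030248241695474570747388624896000, .ofNat 7110125585232721075954161292338737971200, .ofNat 0, .ofNat 0⟩)
    (by decide +kernel)
theorem L02599 : Good (Phi V4.P V4.D 1 1) ⟨5, 27, 3, 4, 3, 1, 4, 15, 3, 6⟩ :=
  leaf_sound (S := T4.ds_pp) T4.ok_pp (w := 200) (c := ⟨⟨.negSucc 1401, .negSucc 209, .negSucc 130, .ofNat 0, .negSucc 467, .negSucc 21⟩, ⟨.negSucc 731, .negSucc 152, .negSucc 162, .ofNat 0, .negSucc 252, .negSucc 11⟩, ⟨.ofNat 1049, .ofNat 208, .ofNat 127, .ofNat 0, .ofNat 476, .ofNat 54⟩, ⟨.negSucc 2129, .negSucc 263, .negSucc 156, .ofNat 0, .negSucc 695, .negSucc 29⟩, ⟨.negSucc 50, .negSucc 7, .negSucc 5, .ofNat 0, .negSucc 24, .negSucc 5⟩, .ofNat 764, .negSucc 893, .ofNat 0, .negSucc 893, .ofNat 1876, .ofNat 0, .ofNat 451, .ofNat 710, .negSucc 1852, .ofNat 0, .ofNat 508, .negSucc 951, .ofNat 0, .ofNat 0, .ofNat 2219, .ofNat 16800, .ofNat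 0, .ofNat 1761040931715006372846252234087019315200, .ofNat 0, .ofNat 0, .ofNat 0, .ofNat 182464368591053723128561684973184299827200, .ofNat 0, .ofNat 0, .ofNat 0, .ofNat 189405363556414769027567507986642580275200, .ofNat 0, .ofNat 0, .ofNat 0, .ofNat 210072323944268380025720613860634368409600, .ofNat 0, .ofNat 0⟩)
    (by decide +kernel)
theorem L02600 : Good (Phi V4.P V4.D 1 1) ⟨5, 27, 3, 4, 4, 2, 4, 14, 5, 28⟩ :=
  out_sound (S := T4.ds_pp) T4.ok_pp (w := 32) (j := 1) (by decide +kernel)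
theorem L02601 : Good (Phi V4.P V4.D 1 1) ⟨5, 27, 3, 4, 4, 2, 4, 15, 5, 28⟩ :=
  out_sound (S := T4.ds_pp) T4.ok_pp (w := 40) (j := 2) (by decide +kernel)
theorem L02602 : Good (Phi V4.P V4.D 1 1) ⟨5, 27, 3, 4, 4, 2, 3, 7, 5, 29⟩ :=
  out_sound (S := T4.ds_pp) T4.ok_pp (w := 32) (j := 1) (by decide +kernel)
theorem L02603 : Good (Phi V4.P V4.D 1 1) ⟨5, 27, 3, 4, 4, 3, 3, 7, 4, 14⟩ :=
  out_sound (S := T4.ds_pp) T4.ok_pp (w := 40) (j := 2) (by decide +kernel)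
theorem L02604 : Good (Phi V4.P V4.D 1 1) ⟨5, 27, 3, 4, 3, 1, 3, 7, 4, 15⟩ :=
  out_sound (S := T4.ds_pp) T4.ok_pp (w := 32) (j := 1) (by decide +kernel)
theorem L02605 : Good (Phi V4.P V4.D 1 1) ⟨5, 27, 3, 5, 3, 1, 2, 3, 2, 3⟩ :=
  out_sound (S := T4.ds_pp) T4.ok_pp (w := 64) (j := 3) (by decide +kernel)
theorem L02606 : Good (Phi V4.P V4.D 1 1) ⟨5, 27, 2, 3, 3, 1, 2, 3, 2, 3⟩ :=
  out_sound (S := T4.ds_pp) T4.ok_pp (w := 56) (j := 3) (by decide +kernel)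
theorem L02607 : Good (Phi V4.P V4.D 1 1) ⟨4, 13, 2, 2, 2, 1, 2, 0, 2, 2⟩ :=
  leaf_sound (S := T4.ds_pp) T4.ok_pp (w := 216) (c := ⟨⟨.negSucc 1252, .negSucc 53, .negSucc 31, .ofNat 0, .ofNat 0, .ofNat 0⟩, ⟨.negSucc 601, .negSucc 131, .negSucc 132, .ofNat 0, .ofNat 0, .ofNat 0⟩, ⟨.ofNat 298, .negSucc 11, .negSucc 26, .ofNat 0, .ofNat 0, .ofNat 0⟩, ⟨.negSucc 1985, .negSucc 11, .ofNat 4, .ofNat 0, .ofNat 0, .ofNat 0⟩, ⟨.ofNat 36, .ofNat 17, .ofNat 7, .ofNat 0, .ofNat 0, .ofNat 0⟩, .ofNat 165, .negSucc 49, .ofNat 0, .negSucc 49, .ofNat 227, .ofNat 0, .ofNat 4183, .ofNat 1514, .negSucc 4625, .ofNat 0, .ofNat 3404, .ofNat 77, .ofNat 0, .ofNat 0, .ofNat 9229, .ofNat 3750232245642044928, .ofNat 5510197124023903154730538642079255816380927180800, .ofNat 0, .ofNat 0, .ofNat 0, .ofNat 0, .ofNat 0, .ofNat 0, .ofNat 0, .ofNat 0, .ofNat 0, .ofNat 0, .ofNat 0, .ofNat 0, .ofNat 0, .ofNat 0, .ofNat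 0⟩)
    (by decide +kernel)
theorem L02608 : Good (Phi V4.P V4.D 1 1) ⟨4, 13, 3, 4, 2, 1, 2, 1, 2, 2⟩ :=
  leaf_sound (S := T4.ds_pp) T4.ok_pp (w := 176) (c := ⟨⟨.negSucc 1028, .negSucc 43, .negSucc 44, .negSucc 223, .negSucc 139, .ofNat 246⟩, ⟨.negSucc 513, .negSucc 64, .negSucc 105, .negSucc 122, .negSucc 77, .ofNat 137⟩, ⟨.ofNat 436, .ofNat 2, .ofNat 22, .negSucc 148, .ofNat 201, .negSucc 278⟩, ⟨.negSucc 1553, .negSucc 3, .negSucc 39, .negSucc 413, .negSucc 234, .ofNat 384⟩, ⟨.negSucc 103, .negSucc 15, .ofNat 25, .ofNat 135, .ofNat 41, .negSucc 20⟩, .ofNat 1820, .negSucc 2754, .ofNat 0, .negSucc 2754, .ofNat 5242, .ofNat 0, .ofNat 144, .ofNat 387, .negSucc 289, .ofNat 0, .ofNat 237, .negSucc 152, .ofNat 0, .ofNat 0, .ofNat 794, .ofNat 9784, .ofNat 1726877428721088125089973325004800, .ofNat 0, .ofNat 0, .ofNat 0, .ofNat 57136073072101614434140157273702400, .ofNat 0, .ofNat 575790046406154647096839372800,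 .ofNat 0, .ofNat 240697345713208776604694653540761600, .ofNat 0, .ofNat 368992621170821784080587161600, .ofNat 0, .ofNat 678891497451786415240135076059545600, .ofNat 0, .ofNat 0, .ofNat 0⟩)
    (by decide +kernel)
theorem L02609 : Good (Phi V4.P V4.D 1 1) ⟨4, 13, 3, 5, 2, 1, 2, 1, 2, 2⟩ :=
  out_sound (S := T4.ds_pp) T4.ok_pp (w := 56) (j := 3) (by decide +kernel)
theorem L02610 : Good (Phi V4.P V4.D 1 1) ⟨4, 13, 2, 2, 2, 1, 1, 0, 2, 3⟩ :=
  out_sound (S := T4.ds_pp) T4.ok_pp (w := 24) (j := 1) (by decide +kernel)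
theorem L02611 : Good (Phi V4.P V4.D 1 1) ⟨5, 26, 3, 4, 2, 1, 2, 2, 2, 2⟩ :=
  out_sound (S := T4.ds_pp) T4.ok_pp (w := 64) (j := 3) (by decide +kernel)
theorem L02612 : Good (Phi V4.P V4.D 1 1) ⟨5, 27, 4, 8, 2, 1, 2, 2, 2, 2⟩ :=
  leaf_sound (S := T4.ds_pp) T4.ok_pp (w := 176) (c := ⟨⟨.negSucc 1098, .negSucc 118, .ofNat 8, .negSucc 331, .negSucc 287, .ofNat 159⟩, ⟨.negSucc 568, .negSucc 104, .negSucc 30, .negSucc 179, .negSucc 157, .ofNat 87⟩, ⟨.ofNat 502, .ofNat 67, .ofNat 2, .ofNat 9, .ofNat 341, .negSucc 102⟩, ⟨.negSucc 1642, .negSucc 143, .ofNat 30, .negSucc 597, .negSucc 461, .ofNat 231⟩, ⟨.negSucc 93, .ofNat 29, .negSucc 11, .ofNat 171, .ofNat 46, .ofNat 18⟩, .ofNat 1778, .negSucc 2690, .ofNat 0, .negSucc 2690, .ofNat 5152, .ofNat 0, .ofNat 147, .ofNat 390, .negSucc 371, .ofNat 0, .ofNat 239, .negSucc 197, .ofNat 0, .ofNat 0, .ofNat 778, .ofNat 4790, .ofNat 0, .ofNat 0,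 .ofNat 0, .ofNat 0, .ofNat 0, .ofNat 2022748434499855926732026721966489600, .ofNat 381753294878707120958393548800, .ofNat 0, .ofNat 0, .ofNat 1970304257223652642851431289087590400, .ofNat 108613252578638299897685606400, .ofNat 0, .ofNat 0, .ofNat 2182812026152214465861756251432550400, .ofNat 0, .ofNat 0⟩)
    (by decide +kernel)
theorem L02613 : Good (Phi V4.P V4.D 1 1) ⟨5, 27, 4, 9, 2, 1, 2, 2, 2, 2⟩ :=
  leaf_sound (S := T4.ds_pp) T4.ok_pp (w := 176) (c := ⟨⟨.negSucc 1161, .negSucc 0, .negSucc 21, .negSucc 333, .negSucc 315, .ofNat 184⟩, ⟨.negSucc 645, .negSucc 21, .negSucc 55, .negSucc 190, .negSucc 180, .ofNat 105⟩, ⟨.ofNat 558, .negSucc 4, .ofNat 6, .negSucc 7, .ofNat 364, .negSucc 131⟩, ⟨.negSucc 1708, .ofNat 15, .negSucc 4, .negSucc 605, .negSucc 505, .ofNat 269⟩, ⟨.negSucc 89, .negSucc 2, .negSucc 0, .ofNat 181, .ofNat 55, .ofNat 12⟩, .ofNat 2244, .negSucc 3419, .ofNat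 0, .negSucc 3419, .ofNat 6237, .ofNat 0, .ofNat 124, .ofNat 401, .negSucc 375, .ofNat 0, .ofNat 246, .negSucc 209, .ofNat 0, .ofNat 0, .ofNat 783, .ofNat 6186, .ofNat 0, .ofNat 0, .ofNat 0, .ofNat 0, .ofNat 0, .ofNat 0, .ofNat 0, .ofNat 0, .ofNat 0, .ofNat 4072919586016454110829450287801958400, .ofNat 61149857352615918090112204800, .ofNat 0, .ofNat 0, .ofNat 1895490049457493375356927341913702400, .ofNat 0, .ofNat 0⟩)
    (by decide +kernel)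
theorem L02614 : Good (Phi V4.P V4.D 1 1) ⟨5, 26, 3, 4, 2, 1, 2, 3, 2, 2⟩ :=
  out_sound (S := T4.ds_pp) T4.ok_pp (w := 64) (j := 3) (by decide +kernel)
theorem L02615 : Good (Phi V4.P V4.D 1 1) ⟨6, 54, 4, 8, 2, 1, 3, 6, 2, 2⟩ :=
  leaf_sound (S := T4.ds_pp) T4.ok_pp (w := 184) (c := ⟨⟨.negSucc 1313, .negSucc 83, .negSucc 1, .negSucc 603, .negSucc 374, .ofNat 86⟩, ⟨.negSucc 684, .negSucc 58, .negSucc 51, .negSucc 323, .negSucc 201, .ofNat 47⟩, ⟨.ofNat 753, .ofNat 78, .negSucc 4, .ofNat 287, .ofNat 384, .negSucc 9⟩, ⟨.negSucc 2001, .negSucc 90, .ofNat 2, .negSucc 1001, .negSucc 574, .ofNat 122⟩, ⟨.negSucc 40, .negSucc 2, .ofNat 6, .ofNat 151, .ofNat 4, .ofNat 17⟩, .ofNat 1688, .negSucc 2547, .ofNat 0, .negSucc 2547, .ofNat 4938, .ofNat 0, .ofNat 167, .ofNat 427, .negSucc 583, .ofNat 0, .ofNat 261, .negSucc 308, .ofNat 0, .ofNat 0, .ofNat 892, .ofNat 4697, .ofNat 0, .ofNat 1670185140093777435998314790544998400,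 .ofNat 0, .ofNat 0, .ofNat 0, .ofNat 154239054925101901277821804681887744000, .ofNat 0, .ofNat 0, .ofNat 0, .ofNat 287288126777572323579327236346268876800, .ofNat 0, .ofNat 0, .ofNat 0, .ofNat 252664173629101786551523487834229964800, .ofNat 0, .ofNat 0⟩)
    (by decide +kernel)
theorem L02616 : Good (Phi V4.P V4.D 1 1) ⟨6, 54, 4, 8, 2, 1, 3, 7, 2, 2⟩ :=
  leaf_sound (S := T4.ds_pp) T4.ok_pp (w := 192) (c := ⟨⟨.negSucc 1671, .negSucc 114, .negSucc 28, .negSucc 841, .negSucc 655, .ofNat 7⟩, ⟨.negSucc 872, .negSucc 86, .negSucc 66, .negSucc 451, .negSucc 354, .ofNat 5⟩, ⟨.ofNat 1114, .ofNat 114, .ofNat 16, .ofNat 564, .ofNat 668, .ofNat 94⟩, ⟨.negSucc 2556, .negSucc 126, .negSucc 40, .negSucc 1324, .negSucc 979, .ofNat 9⟩, ⟨.negSucc 32, .negSucc 3, .ofNat 3, .ofNat 71, .negSucc 37, .ofNat 1⟩, .ofNat 1724, .negSucc 2607, .ofNat 0, .negSucc 2607, .ofNat 5031, .ofNat 0, .ofNat 361,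 .ofNat 941, .negSucc 1743, .ofNat 0, .ofNat 574, .negSucc 927, .ofNat 0, .ofNat 0, .ofNat 2225, .ofNat 10385, .ofNat 0, .ofNat 37397313683124473690180434648262246400, .ofNat 0, .ofNat 0, .ofNat 0, .ofNat 3289433367104281827982545251965127884800, .ofNat 0, .ofNat 0, .ofNat 0, .ofNat 6236431455016510487313369570918531072000, .ofNat 0, .ofNat 0, .ofNat 0, .ofNat 7799599052250751531100911309755619737600, .ofNat 0, .ofNat 0⟩)
    (by decide +kernel)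
theorem L02617 : Good (Phi V4.P V4.D 1 1) ⟨6, 55, 5, 16, 2, 1, 2, 3, 2, 2⟩ :=
  out_sound (S := T4.ds_pp) T4.ok_pp (w := 72) (j := 3) (by decide +kernel)
theorem L02618 : Good (Phi V4.P V4.D 1 1) ⟨7, 110, 6, 34, 2, 1, 2, 3, 2, 2⟩ :=
  out_sound (S := T4.ds_pp) T4.ok_pp (w := 80) (j := 3) (by decide +kernel)
theorem L02619 : Good (Phi V4.P V4.D 1 1) ⟨7, 110, 6, 35, 2, 1, 3, 6, 2, 2⟩ :=
  leaf_sound (S := T4.ds_pp) T4.ok_pp (w := 200) (c := ⟨⟨.negSucc 1386, .negSucc 26, .negSucc 2, .negSucc 625, .negSucc 407, .ofNat 89⟩, ⟨.negSucc 771, .negSucc 21, .negSucc 14, .negSucc 350, .negSucc 229, .ofNat 50⟩, ⟨.ofNat 815, .ofNat 21, .ofNat 4, .ofNat 297, .ofNat 416, .negSucc 11⟩, ⟨.negSucc 2075, .negSucc 27, .ofNat 0, .negSucc 1030, .negSucc 615, .ofNat 124⟩, ⟨.negSucc 37, .ofNat 4, .negSucc 1, .ofNat 154, .ofNat 2, .ofNat 17⟩, .ofNat 4660, .negSucc 7709, .ofNat 0, .negSucc 7709, .ofNat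 13890, .ofNat 0, .ofNat 99, .ofNat 445, .negSucc 588, .ofNat 0, .ofNat 262, .negSucc 329, .ofNat 0, .ofNat 0, .ofNat 892, .ofNat 6071, .ofNat 0, .ofNat 581451900564679026130735129901924352000, .ofNat 0, .ofNat 0, .ofNat 0, .ofNat 14273227722915420516171465858706990694400, .ofNat 0, .ofNat 0, .ofNat 0, .ofNat 79204263568604249382695094000450482995200, .ofNat 0, .ofNat 0, .ofNat 0, .ofNat 72371547320300944381444849713502853529600, .ofNat 0, .ofNat 0⟩)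
    (by decide +kernel)
theorem L02620 : Good (Phi V4.P V4.D 1 1) ⟨7, 110, 6, 35, 2, 1, 3, 7, 2, 2⟩ :=
  leaf_sound (S := T4.ds_pp) T4.ok_pp (w := 200) (c := ⟨⟨.negSucc 1797, .negSucc 64, .negSucc 6, .negSucc 952, .negSucc 788, .negSucc 13⟩, ⟨.negSucc 1001, .negSucc 46, .negSucc 18, .negSucc 536, .negSucc 444, .negSucc 7⟩, ⟨.ofNat 1230, .ofNat 58, .ofNat 7, .ofNat 642, .ofNat 788, .ofNat 111⟩, ⟨.negSucc 2698, .negSucc 80, .negSucc 5, .negSucc 1479, .negSucc 1167, .negSucc 21⟩, ⟨.negSucc 34, .ofNat 0, .negSucc 0, .ofNat 76, .negSucc 41, .ofNat 0⟩, .ofNat 2047, .negSucc 3111, .ofNat 0, .negSucc 3111, .ofNat 5773, .ofNat 0, .ofNat 641, .ofNat 1932, .negSucc 3602, .ofNat 0, .ofNat 1183, .negSucc 1989, .ofNat 0, .ofNat 0, .ofNat 4543, .ofNat 28808, .ofNat 0, .ofNat 26313042251506041165418701976387348070400, .ofNat 0, .ofNat 0, .ofNat 0, .ofNat 4576016704040020512897847419424283924889600,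 .ofNat 0, .ofNat 0, .ofNat 0, .ofNat 7765970065717554430729343441845490810880000, .ofNat 0, .ofNat 0, .ofNat 0, .ofNat 10500717316851590798231411394323425945190400, .ofNat 0, .ofNat 0⟩)
    (by decide +kernel)
theorem L02621 : Good (Phi V4.P V4.D 1 1) ⟨7, 111, 5, 17, 2, 1, 2, 3, 2, 2⟩ :=
  out_sound (S := T4.ds_pp) T4.ok_pp (w := 80) (j := 3) (by decide +kernel)
theorem L02622 : Good (Phi V4.P V4.D 1 1) ⟨6, 54, 4, 9, 2, 1, 3, 6, 2, 2⟩ :=
  out_sound (S := T4.ds_pp) T4.ok_pp (w := 72) (j := 3) (by decide +kernel)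
theorem L02623 : Good (Phi V4.P V4.D 1 1) ⟨7, 110, 5, 18, 2, 1, 3, 6, 2, 2⟩ :=
  leaf_sound (S := T4.ds_pp) T4.ok_pp (w := 200) (c := ⟨⟨.negSucc 1394, .ofNat 15, .negSucc 48, .negSucc 651, .negSucc 416, .ofNat 70⟩, ⟨.negSucc 784, .negSucc 7, .negSucc 44, .negSucc 372, .negSucc 237, .ofNat 40⟩, ⟨.ofNat 827, .negSucc 21, .ofNat 47, .ofNat 312, .ofNat 424, .ofNat 6⟩, ⟨.negSucc 2081, .ofNat 28, .negSucc 59, .negSucc 1072, .negSucc 627, .ofNat 97⟩, ⟨.negSucc 43, .ofNat 11, .negSucc 5, .ofNat 162, .ofNat 2, .ofNat 15⟩, .ofNat 14491, .negSucc 24761, .ofNat 0, .negSucc 24761, .ofNat 43463, .ofNat 0, .ofNat 57, .ofNat 460, .negSucc 585, .ofNat 0, .ofNat 267, .negSucc 334, .ofNat 0, .ofNat 0, .ofNat 897, .ofNat 5076, .ofNat 0, .ofNat 118572966558030979417712364142932787200, .ofNat 0, .ofNat 0, .ofNat 0, .ofNat 3636840229494475894025187148323146956800, .ofNat 2940756153695388615275288985600,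 .ofNat 0, .ofNat 0, .ofNat 18416122474995901955419790263260807168000, .ofNat 0, .ofNat 0, .ofNat 0, .ofNat 13969811610194846598224309910800380723200, .ofNat 0, .ofNat 0⟩)
    (by decide +kernel)
theorem L02624 : Good (Phi V4.P V4.D 1 1) ⟨7, 111, 5, 18, 2, 1, 3, 6, 2, 2⟩ :=
  out_sound (S := T4.ds_pp) T4.ok_pp (w := 24) (j := 4) (by decide +kernel)
theorem L02625 : Good (Phi V4.P V4.D 1 1) ⟨7, 110, 5, 19, 2, 1, 3, 6, 2, 2⟩ :=
  out_sound (S := T4.ds_pp) T4.ok_pp (w := 80) (j := 3) (by decide +kernel)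
theorem L02626 : Good (Phi V4.P V4.D 1 1) ⟨7, 111, 5, 19, 2, 1, 3, 6, 2, 2⟩ :=
  out_sound (S := T4.ds_pp) T4.ok_pp (w := 24) (j := 4) (by decide +kernel)
theorem L02627 : Good (Phi V4.P V4.D 1 1) ⟨6, 54, 4, 9, 2, 1, 3, 7, 2, 2⟩ :=
  out_sound (S := T4.ds_pp) T4.ok_pp (w := 72) (j := 3) (by decide +kernel)
theorem L02628 : Good (Phi V4.P V4.D 1 1) ⟨6, 55, 4, 9, 2, 1, 4, 14, 2, 2⟩ :=
  leaf_sound (S := T4.ds_pp) T4.ok_pp (w := 192) (c := ⟨⟨.negSucc 1809, .negSucc 78, .negSucc 79, .negSucc 967, .negSucc 419, .negSucc 23⟩, ⟨.negSucc 1018, .negSucc 83, .negSucc 84, .negSucc 553, .negSucc 240, .negSucc 13⟩, ⟨.ofNat 1240, .ofNat 73, .ofNat 71, .ofNat 657, .ofNat 420, .ofNat 120⟩, ⟨.negSucc 2711, .negSucc 89, .negSucc 94, .negSucc 1498, .negSucc 617, .negSucc 34⟩, ⟨.negSucc 34, .negSucc 1, .ofNat 0, .ofNat 74, .negSucc 22, .negSucc 0⟩, .ofNat 820, .negSucc 975, .ofNat 0, .negSucc 975,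 .ofNat 1963, .ofNat 0, .ofNat 1021, .ofNat 1788, .negSucc 3846, .ofNat 0, .ofNat 1258, .negSucc 2049, .ofNat 0, .ofNat 0, .ofNat 4729, .ofNat 39199, .ofNat 0, .ofNat 177983024174386927260305733408994099200, .ofNat 0, .ofNat 0, .ofNat 0, .ofNat 32083957417954708547730784700128139673600, .ofNat 0, .ofNat 0, .ofNat 0, .ofNat 56413100452548756807120412561603402137600, .ofNat 0, .ofNat 0, .ofNat 0, .ofNat 63347847862911347329164913190300024832000, .ofNat 32039822537339753046541860864000, .ofNat 0⟩)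
    (by decide +kernel)
theorem L02629 : Good (Phi V4.P V4.D 1 1) ⟨6, 55, 4, 9, 2, 1, 4, 15, 2, 2⟩ :=
  out_sound (S := T4.ds_pp) T4.ok_pp (w := 32) (j := 2) (by decide +kernel)
theorem L02630 : Good (Phi V4.P V4.D 1 1) ⟨5, 26, 3, 4, 2, 1, 1, 1, 2, 3⟩ :=
  out_sound (S := T4.ds_pp) T4.ok_pp (w := 64) (j := 3) (by decide +kernel)
theorem L02631 : Good (Phi V4.P V4.D 1 1) ⟨5, 27, 3, 4, 3, 2, 3, 4, 4, 12⟩ :=
  out_sound (S := T4.ds_pp) T4.ok_pp (w := 32) (j := 1) (by decide +kernel)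
theorem L02632 : Good (Phi V4.P V4.D 1 1) ⟨5, 27, 3, 4, 3, 3, 3, 4, 4, 12⟩ :=
  out_sound (S := T4.ds_pp) T4.ok_pp (w := 40) (j := 2) (by decide +kernel)
theorem L02633 : Good (Phi V4.P V4.D 1 1) ⟨5, 27, 3, 4, 2, 1, 3, 4, 4, 13⟩ :=
  out_sound (S := T4.ds_pp) T4.ok_pp (w := 32) (j := 1) (by decide +kernel)
theorem L02634 : Good (Phi V4.P V4.D 1 1) ⟨5, 27, 3, 4, 2, 1, 3, 5, 3, 6⟩ :=
  leaf_sound (S := T4.ds_pp) T4.ok_pp (w := 184) (c := ⟨⟨.negSucc 1038, .negSucc 93, .negSucc 20, .negSucc 389, .negSucc 219, .ofNat 40⟩, ⟨.negSucc 537, .negSucc 88, .negSucc 79, .negSucc 210, .negSucc 120, .ofNat 22⟩, ⟨.ofNat 508, .ofNat 81, .ofNat 15, .ofNat 182, .ofNat 261, .negSucc 2⟩, ⟨.negSucc 1584, .negSucc 93, .negSucc 9, .negSucc 642, .negSucc 337, .ofNat 58⟩, ⟨.negSucc 32, .ofNat 5, .negSucc 0, .ofNat 92, .ofNat 8, .ofNat 6⟩, .ofNat 766, .negSucc 896, .ofNat 0, .negSucc 896, .ofNat 1878, .ofNat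 0, .ofNat 406, .ofNat 646, .negSucc 838, .ofNat 0, .ofNat 460, .negSucc 428, .ofNat 0, .ofNat 0, .ofNat 1470, .ofNat 48138, .ofNat 0, .ofNat 0, .ofNat 0, .ofNat 0, .ofNat 355355978271441226206249688053999206400, .ofNat 70057108600398786573257052348481536000, .ofNat 0, .ofNat 0, .ofNat 0, .ofNat 70338733089834163230052100334629683200, .ofNat 0, .ofNat 0, .ofNat 508474452322078686197853921024462028800, .ofNat 58090362760066041906336240595107840000, .ofNat 0, .ofNat 0⟩)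
    (by decide +kernel)
theorem L02635 : Good (Phi V4.P V4.D 1 1) ⟨5, 27, 3, 4, 2, 1, 2, 2, 3, 7⟩ :=
  out_sound (S := T4.ds_pp) T4.ok_pp (w := 24) (j := 1) (by decide +kernel)
theorem L02636 : Good (Phi V4.P V4.D 1 1) ⟨5, 27, 3, 4, 2, 1, 2, 3, 2, 3⟩ :=
  leaf_sound (S := T4.ds_pp) T4.ok_pp (w := 184) (c := ⟨⟨.negSucc 1262, .negSucc 103, .negSucc 18, .ofNat 0, .negSucc 381, .ofNat 0⟩, ⟨.negSucc 658, .negSucc 94, .negSucc 82, .ofNat 0, .negSucc 210, .ofNat 0⟩, ⟨.ofNat 771, .ofNat 96, .ofNat 9, .ofNat 0, .ofNat 418, .ofNat 0⟩, ⟨.negSucc 1929, .negSucc 105, .negSucc 8, .ofNat 0, .negSucc 584, .ofNat 0⟩, ⟨.negSucc 24, .ofNat 3, .ofNat 0, .ofNat 0, .ofNat 12, .ofNat 0⟩, .ofNat 766, .negSucc 896, .ofNat 0, .negSucc 896, .ofNat 1878, .ofNat 0, .ofNat 827, .ofNat 1319, .negSucc 1804, .ofNat 0, .ofNat 939, .negSucc 923, .ofNat 0, .ofNat 0, .ofNat 3022, .ofNat 110096, .ofNat 0, .ofNat 0,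 .ofNat 0, .ofNat 0, .ofNat 0, .ofNat 257149078955314068733610183994271334400, .ofNat 0, .ofNat 0, .ofNat 0, .ofNat 561622523874503200343129524602824294400, .ofNat 0, .ofNat 0, .ofNat 0, .ofNat 549918085992785242187848193056702464000, .ofNat 0, .ofNat 0⟩)
    (by decide +kernel)
theorem L02637 : Good (Phi V4.P V4.D 1 1) ⟨4, 13, 3, 5, 2, 1, 1, 1, 1, 1⟩ :=
  out_sound (S := T4.ds_pp) T4.ok_pp (w := 56) (j := 3) (by decide +kernel)
theorem L02638 : Good (Phi V4.P V4.D 1 1) ⟨4, 13, 2, 3, 2, 1, 0, 0, 1, 1⟩ :=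
  out_sound (S := T4.ds_pp) T4.ok_pp (w := 56) (j := 3) (by decide +kernel)
theorem L02639 : Good (Phi V4.P V4.D 1 1) ⟨4, 13, 2, 2, 1, 1, 1, 0, 2, 2⟩ :=
  leaf_sound (S := T4.ds_pp) T4.ok_pp (w := 160) (c := ⟨⟨.negSucc 1061, .negSucc 67, .negSucc 44, .negSucc 337, .negSucc 353, .ofNat 377⟩, ⟨.negSucc 489, .negSucc 145, .negSucc 145, .negSucc 182, .negSucc 194, .ofNat 208⟩, ⟨.ofNat 13, .ofNat 0, .negSucc 24, .negSucc 287, .ofNat 532, .negSucc 481⟩, ⟨.negSucc 1657, .negSucc 29, .negSucc 27, .negSucc 861, .negSucc 612, .ofNat 630⟩, ⟨.negSucc 30, .ofNat 13, .ofNat 24, .ofNat 629, .ofNat 138, .negSucc 105⟩, .ofNat 366, .negSucc 260, .ofNat 0, .negSucc 260, .ofNat 688, .ofNat 0, .ofNat 348, .ofNat 303, .negSucc 309, .ofNat 0, .ofNat 305, .negSucc 96, .ofNat 0, .ofNat 0, .ofNat 890, .ofNat 4246, .ofNat 815964714998741942993210572800, .ofNat 470491418921855943537642700800, .ofNat 215899573987430586316800,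 .ofNat 0, .ofNat 0, .ofNat 79444061198297751080228880384000, .ofNat 18947455501826168016076800, .ofNat 0, .ofNat 0, .ofNat 89137073394397615232356083302400, .ofNat 0, .ofNat 0, .ofNat 249609493372006804134320249241600, .ofNat 79354395507727480423109256806400, .ofNat 16872720556640492254003200, .ofNat 0⟩)
    (by decide +kernel)
theorem L02640 : Good (Phi V4.P V4.D 1 1) ⟨4, 13, 2, 2, 1, 1, 1, 1, 2, 2⟩ :=
  leaf_sound (S := T4.ds_pp) T4.ok_pp (w := 160) (c := ⟨⟨.negSucc 1413, .negSucc 87, .negSucc 36, .ofNat 0, .ofNat 0, .ofNat 0⟩, ⟨.negSucc 678, .negSucc 159, .negSucc 161, .ofNat 0, .ofNat 0, .ofNat 0⟩, ⟨.ofNat 528, .ofNat 29, .negSucc 15, .ofNat 0, .ofNat 0, .ofNat 0⟩, ⟨.negSucc 2270, .negSucc 57, .negSucc 7, .ofNat 0, .ofNat 0, .ofNat 0⟩, ⟨.ofNat 100, .ofNat 26, .ofNat 10, .ofNat 0, .ofNat 0, .ofNat 0⟩, .ofNat 762, .negSucc 890, .ofNat 0, .negSucc 890, .ofNat 1872, .ofNat 0,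 .ofNat 1984, .ofNat 3217, .negSucc 2789, .ofNat 0, .ofNat 2253, .negSucc 1330, .ofNat 0, .ofNat 0, .ofNat 6764, .ofNat 83498, .ofNat 0, .ofNat 1208750122971607274228809728000, .ofNat 0, .ofNat 0, .ofNat 0, .ofNat 97112862234746984366664353788723200, .ofNat 5766083648967179505342873600, .ofNat 0, .ofNat 0, .ofNat 69443869509306035636781766724812800, .ofNat 0, .ofNat 0, .ofNat 0, .ofNat 119708878269617531205691555971072000, .ofNat 5334986887101308916360806400, .ofNat 0⟩)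
    (by decide +kernel)
theorem L02641 : Good (Phi V4.P V4.D 1 1) ⟨4, 13, 2, 3, 1, 1, 0, 0, 2, 2⟩ :=
  out_sound (S := T4.ds_pp) T4.ok_pp (w := 56) (j := 3) (by decide +kernel)
theorem L02642 : Good (Phi V4.P V4.D 1 1) ⟨4, 13, 1, 1, 1, 1, 0, 0, 2, 3⟩ :=
  out_sound (S := T4.ds_pp) T4.ok_pp (w := 24) (j := 2) (by decide +kernel)
theorem L02643 : Good (Phi V4.P V4.D 1 1) ⟨3, 7, 0, 0, 0, 0, 0, 0, 1, 1⟩ :=
  out_sound (S := T4.ds_pp) T4.ok_pp (w := 16) (j := 4) (by decide +kernel)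

end Crest.Agent.R097C4.N4pp
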