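import Crest.Agent.R097C4.N4pp_000
import Crest.Agent.R097C4.N4pp_001
import Crest.Agent.R097C4.N4pp_002
import Crest.Agent.R097C4.N4pp_003
import Crest.Agent.R097C4.N4pp_004
import Crest.Agent.R097C4.N4pp_005
import Crest.Agent.R097C4.N4pp_006
import Crest.Agent.R097C4.N4pp_007
import Crest.Agent.R097C4.N4pp_008
import Crest.Agent.R097C4.N4pp_009
import Crest.Agent.R097C4.N4pp_010
import Crest.Agent.R097C4.N4pp_011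
import Crest.Agent.R097C4.N4pp_012
import Crest.Agent.R097C4.N4pp_013
import Crest.Agent.R097C4.N4pp_014
import Crest.Agent.R097C4.N4pp_015
import Crest.Agent.R097C4.N4pp_016
import Crest.Agent.R097C4.N4pp_017
import Crest.Agent.R097C4.N4pp_018
import Crest.Agent.R097C4.N4pp_019
import Crest.Agent.R097C4.N4pp_020
import Crest.Agent.R097C4.N4pp_021
import Crest.Agent.R097C4.N4pp_022
import Crest.Agent.R097C4.N4pp_023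
import Crest.Agent.R097C4.N4pp_024
import Crest.Agent.R097C4.N4pp_025
import Crest.Agent.R097C4.N4pp_026
import Crest.Agent.R097C4.N4pp_027
import Crest.Agent.R097C4.N4pp_028
import Crest.Agent.R097C4.N4pp_029
import Crest.Agent.R097C4.N4pp_030
import Crest.Agent.R097C4.N4pp_031
import Crest.Agent.R097C4.N4pp_032

/-!
# Row 97, box cover in dimension n = 4 (generated)
-/

set_option autoImplicit false
set_option Elab.async false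
set_option maxHeartbeats 0
set_option maxRecDepth 100000

open Crest.Agent.R097 Crest.Agent.R097.KA


namespace Crest.Agent.R097C4.N4pp

theorem g00000 : Good (Phi V4.P V4.D 1 1) ⟨1, 0, 1, 0, 1, 0, 2, 3, 2, 0⟩ :=
  Good.n4 (Good.n0 (Good.n4 (Good.n2 (Good.n3 L00008 L00009) L00010) L00011) L00012) (Good.n0 (Good.n2 L00013 L00014) L00015)
theorem g00001 : Good (Phi V4.P V4.D 1 1) ⟨1, 0, 1, 0, 1, 0, 2, 3, 2, 1⟩ :=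
  Good.n4 (Good.n0 (Good.n1 L00016 (Good.n2 L00017 L00018)) L00019) (Good.n3 (Good.n0 L00020 L00021) (Good.n0 L00022 L00023))
theorem g00002 : Good (Phi V4.P V4.D 1 1) ⟨1, 0, 1, 0, 1, 0, 0, 0, 1, 0⟩ :=
  Good.n3 (Good.n4 (Good.n4 (Good.n0 L00000 L00001) L00002) L00003) (Good.n3 (Good.n4 (Good.n4 L00004 L00005) (Good.n0 L00006 L00007)) (Good.n4 g00000 g00001))
theorem g00003 : Good (Phi V4.P V4.D 1 1) ⟨1, 0, 1, 0, 2, 2, 1, 0, 1, 0⟩ :=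
  Good.n4 (Good.n4 (Good.n0 (Good.n1 L00024 L00025) (Good.n3 L00026 L00027)) (Good.n0 L00028 L00029)) (Good.n4 (Good.n4 L00030 L00031) L00032)
theorem g00004 : Good (Phi V4.P V4.D 1 1) ⟨2, 0, 1, 0, 2, 2, 1, 1, 1, 0⟩ :=
  Good.n4 (Good.n4 (Good.n1 L00033 (Good.n3 L00034 L00035)) (Good.n1 L00036 L00037)) (Good.n4 L00038 L00039)
theorem g00005 : Good (Phi V4.P V4.D 1 1) ⟨1, 0, 2, 0, 2, 3, 1, 0, 1, 0⟩ :=
  Good.n4 (Good.n4 (Good.n4 L00043 (Good.n0 L00044 L00045)) (Good.n0 L00046 L00047)) (Good.n3 L00048 L00049)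
theorem g00006 : Good (Phi V4.P V4.D 1 1) ⟨1, 0, 2, 0, 2, 3, 1, 1, 2, 0⟩ :=
  Good.n4 (Good.n0 L00050 L00051) (Good.n0 (Good.n3 L00052 L00053) (Good.n0 L00054 (Good.n1 L00055 L00056)))
theorem g00007 : Good (Phi V4.P V4.D 1 1) ⟨1, 0, 2, 1, 2, 3, 0, 0, 2, 0⟩ :=
  Good.n4 (Good.n0 (Good.n3 (Good.n1 (Good.n3 L00060 L00061) L00062) (Good.n3 L00063 L00064)) L00065) (Good.n3 (Good.n0 L00066 L00067) (Good.n0 (Good.n3 L00068 (Good.n2 L00069 L00070)) L00071))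
theorem g00008 : Good (Phi V4.P V4.D 1 1) ⟨1, 0, 1, 0, 2, 3, 0, 0, 1, 0⟩ :=
  Good.n1 (Good.n3 g00005 (Good.n4 g00006 (Good.n4 (Good.n3 L00057 L00058) L00059))) (Good.n4 g00007 (Good.n0 (Good.n3 L00072 L00073) L00074))
theorem g00009 : Good (Phi V4.P V4.D 1 1) ⟨1, 0, 1, 0, 0, 0, 0, 0, 1, 0⟩ :=
  Good.n2 g00002 (Good.n2 (Good.n3 g00003 (Good.n0 g00004 (Good.n4 (Good.n1 L00040 L00041) L00042))) g00008)
theorem g00010 : Good (Phi V4.P V4.D 1 1) ⟨2, 0, 1, 0, 1, 0, 1, 1, 2, 2⟩ :=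
  Good.n3 (Good.n2 (Good.n2 (Good.n4 L00080 (Good.n4 L00081 L00082)) (Good.n4 L00083 L00084)) L00085) (Good.n1 L00086 L00087)
theorem g00011 : Good (Phi V4.P V4.D 1 1) ⟨1, 0, 1, 0, 2, 0, 1, 1, 3, 7⟩ :=
  Good.n3 L00099 (Good.n4 (Good.n3 L00100 (Good.n4 (Good.n3 L00101 (Good.n2 L00102 L00103)) L00104)) L00105)
theorem g00012 : Good (Phi V4.P V4.D 1 1) ⟨1, 0, 1, 0, 1, 0, 1, 1, 2, 3⟩ :=
  Good.n4 (Good.n3 (Good.n2 L00093 L00094) (Good.n0 (Good.n1 L00095 L00096) (Good.n1 L00097 L00098))) (Good.n2 g00011 (Good.n2 (Good.n2 (Good.n3 L00106 L00107) L00108) L00109))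
theorem g00013 : Good (Phi V4.P V4.D 1 1) ⟨1, 0, 1, 0, 0, 0, 1, 1, 1, 1⟩ :=
  Good.n4 (Good.n2 (Good.n0 g00010 (Good.n2 (Good.n1 (Good.n3 L00088 L00089) L00090) L00091)) L00092) (Good.n2 g00012 L00110)
theorem g00014 : Good (Phi V4.P V4.D 1 1) ⟨1, 0, 1, 0, 0, 0, 0, 0, 0, 0⟩ :=
  Good.n4 g00009 (Good.n3 (Good.n4 (Good.n2 (Good.n2 L00075 L00076) L00077) (Good.n2 L00078 L00079)) g00013)
theorem g00015 : Good (Phi V4.P V4.D 1 1) ⟨2, 2, 3, 0, 0, 0, 1, 0, 3, 0⟩ :=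
  Good.n2 (Good.n3 L00112 L00113) (Good.n4 (Good.n2 L00114 (Good.n2 L00115 (Good.n0 L00116 L00117))) (Good.n2 L00118 L00119))
theorem g00016 : Good (Phi V4.P V4.D 1 1) ⟨2, 2, 3, 0, 1, 1, 1, 0, 3, 1⟩ :=
  Good.n2 (Good.n3 L00122 L00123) (Good.n4 (Good.n3 L00124 L00125) (Good.n3 (Good.n0 L00126 L00127) L00128))
theorem g00017 : Good (Phi V4.P V4.D 1 1) ⟨2, 2, 3, 0, 1, 0, 2, 3, 2, 0⟩ :=
  Good.n2 (Good.n4 (Good.n3 L00131 L00132) (Good.n3 L00133 (Good.n0 L00134 L00135))) (Good.n4 (Good.n0 L00136 L00137) (Good.n0 L00138 (Good.n0 L00139 L00140)))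
theorem g00018 : Good (Phi V4.P V4.D 1 1) ⟨2, 2, 3, 0, 1, 1, 2, 2, 3, 1⟩ :=
  Good.n2 (Good.n0 L00143 L00144) (Good.n0 L00145 (Good.n0 L00146 (Good.n4 L00147 (Good.n3 L00148 (Good.n2 L00149 L00150)))))
theorem g00019 : Good (Phi V4.P V4.D 1 1) ⟨2, 2, 3, 0, 2, 2, 2, 3, 2, 0⟩ :=
  Good.n4 (Good.n0 L00151 L00152) (Good.n3 (Good.n0 L00153 L00154) (Good.n0 L00155 (Good.n0 L00156 L00157)))
theorem g00020 : Good (Phi V4.P V4.D 1 1) ⟨3, 5, 3, 0, 2, 3, 2, 3, 3, 1⟩ :=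
  Good.n0 (Good.n3 L00165 L00166) (Good.n3 (Good.n4 L00167 (Good.n2 L00168 L00169)) (Good.n4 L00170 L00171))
theorem g00021 : Good (Phi V4.P V4.D 1 1) ⟨2, 2, 3, 0, 2, 3, 2, 3, 2, 0⟩ :=
  Good.n4 (Good.n0 L00158 (Good.n2 (Good.n0 L00159 L00160) (Good.n0 L00161 L00162))) (Good.n0 (Good.n3 L00163 L00164) g00020)
theorem g00022 : Good (Phi V4.P V4.D 1 1) ⟨2, 2, 3, 0, 0, 0, 1, 1, 2, 0⟩ :=
  Good.n2 (Good.n3 (Good.n0 L00129 L00130) g00017) (Good.n3 (Good.n4 (Good.n2 L00141 L00142) g00018) (Good.n2 g00019 g00021))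
theorem g00023 : Good (Phi V4.P V4.D 1 1) ⟨2, 2, 3, 0, 1, 1, 1, 0, 3, 2⟩ :=
  Good.n0 (Good.n2 L00174 L00175) (Good.n2 (Good.n3 L00176 L00177) (Good.n0 (Good.n3 L00178 L00179) (Good.n3 L00180 L00181)))
theorem g00024 : Good (Phi V4.P V4.D 1 1) ⟨2, 2, 3, 0, 1, 0, 2, 3, 2, 1⟩ :=
  Good.n4 (Good.n0 (Good.n2 L00187 L00188) (Good.n0 L00189 (Good.n3 L00190 L00191))) (Good.n3 (Good.n2 L00192 L00193) (Good.n0 L00194 L00195))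
theorem g00025 : Good (Phi V4.P V4.D 1 1) ⟨2, 2, 3, 0, 1, 1, 1, 1, 2, 1⟩ :=
  Good.n3 (Good.n4 (Good.n2 (Good.n0 L00196 L00197) (Good.n0 L00198 (Good.n3 L00199 L00200))) L00201) (Good.n2 (Good.n0 L00202 (Good.n3 L00203 L00204)) L00205)
theorem g00026 : Good (Phi V4.P V4.D 1 1) ⟨2, 2, 3, 0, 0, 0, 0, 0, 2, 1⟩ :=
  Good.n3 (Good.n2 (Good.n2 L00172 L00173) (Good.n4 g00023 L00182)) (Good.n2 (Good.n3 (Good.n4 (Good.n0 L00183 L00184) (Good.n0 L00185 L00186)) g00024) g00025)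
theorem g00027 : Good (Phi V4.P V4.D 1 1) ⟨1, 1, 3, 0, 0, 0, 0, 0, 1, 0⟩ :=
  Good.n0 (Good.n4 (Good.n3 (Good.n4 g00015 (Good.n2 (Good.n3 L00120 L00121) g00016)) g00022) g00026) L00206
theorem g00028 : Good (Phi V4.P V4.D 1 1) ⟨1, 1, 4, 2, 2, 0, 1, 0, 1, 0⟩ :=
  Good.n0 (Good.n3 (Good.n4 (Good.n0 L00207 L00208) L00209) (Good.n4 L00210 L00211)) (Good.n0 (Good.n0 (Good.n4 (Good.n4 (Good.n3 L00212 L00213) L00214) L00215) L00216) L00217)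
theorem g00029 : Good (Phi V4.P V4.D 1 1) ⟨1, 1, 4, 2, 2, 0, 1, 1, 1, 0⟩ :=
  Good.n3 (Good.n4 (Good.n0 L00218 L00219) (Good.n0 L00220 L00221)) (Good.n0 (Good.n4 L00222 L00223) (Good.n0 (Good.n0 (Good.n4 L00224 L00225) L00226) L00227))
theorem g00030 : Good (Phi V4.P V4.D 1 1) ⟨2, 3, 4, 3, 2, 0, 1, 0, 1, 0⟩ :=
  Good.n4 (Good.n0 (Good.n0 (Good.n4 L00234 L00235) L00236) L00237) (Good.n0 (Good.n0 L00238 L00239) L00240)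
theorem g00031 : Good (Phi V4.P V4.D 1 1) ⟨1, 1, 4, 3, 2, 0, 1, 0, 1, 0⟩ :=
  Good.n0 (Good.n4 (Good.n0 L00228 (Good.n0 L00229 (Good.n4 (Good.n3 L00230 L00231) L00232))) L00233) g00030
theorem g00032 : Good (Phi V4.P V4.D 1 1) ⟨2, 3, 4, 3, 2, 0, 2, 3, 1, 0⟩ :=
  Good.n0 (Good.n0 (Good.n4 L00247 (Good.n0 (Good.n3 L00248 L00249) (Good.n3 L00250 L00251))) L00252) L00253
theorem g00033 : Good (Phi V4.P V4.D 1 1) ⟨1, 1, 4, 3, 2, 0, 1, 1, 1, 0⟩ :=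
  Good.n3 (Good.n0 L00241 (Good.n0 (Good.n0 L00242 L00243) L00244)) (Good.n0 (Good.n0 L00245 L00246) g00032)
theorem g00034 : Good (Phi V4.P V4.D 1 1) ⟨1, 1, 3, 1, 2, 1, 1, 1, 2, 0⟩ :=
  Good.n0 (Good.n0 L00260 (Good.n0 (Good.n1 (Good.n1 L00261 L00262) L00263) (Good.n3 L00264 L00265))) (Good.n3 (Good.n0 L00266 L00267) (Good.n0 (Good.n0 (Good.n4 L00268 L00269) L00270) L00271))
theorem g00035 : Good (Phi V4.P V4.D 1 1) ⟨1, 1, 3, 1, 2, 1, 0, 0, 2, 0⟩ :=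
  Good.n3 (Good.n0 (Good.n0 L00254 L00255) (Good.n0 (Good.n0 (Good.n4 L00256 L00257) L00258) L00259)) g00034
theorem g00036 : Good (Phi V4.P V4.D 1 1) ⟨2, 3, 3, 1, 2, 1, 1, 1, 3, 2⟩ :=
  Good.n0 (Good.n3 L00278 (Good.n0 (Good.n0 (Good.n3 L00279 L00280) (Good.n3 L00281 L00282)) L00283)) L00284
theorem g00037 : Good (Phi V4.P V4.D 1 1) ⟨1, 1, 3, 1, 2, 1, 0, 0, 3, 2⟩ :=
  Good.n3 (Good.n0 L00272 (Good.n0 L00273 L00274)) (Good.n0 (Good.n0 L00275 (Good.n3 L00276 L00277)) g00036)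
theorem g00038 : Good (Phi V4.P V4.D 1 1) ⟨1, 1, 3, 1, 2, 1, 0, 0, 3, 3⟩ :=
  Good.n0 (Good.n3 L00285 (Good.n0 L00286 (Good.n0 L00287 (Good.n3 L00288 L00289)))) (Good.n0 (Good.n0 (Good.n3 L00290 (Good.n3 L00291 L00292)) L00293) L00294)
theorem g00039 : Good (Phi V4.P V4.D 1 1) ⟨1, 1, 3, 1, 1, 0, 0, 0, 1, 0⟩ :=
  Good.n2 (Good.n1 (Good.n3 g00028 g00029) (Good.n3 g00031 g00033)) (Good.n4 g00035 (Good.n4 g00037 g00038))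
theorem g00040 : Good (Phi V4.P V4.D 1 1) ⟨2, 3, 3, 1, 2, 2, 1, 0, 3, 0⟩ :=
  Good.n0 (Good.n0 (Good.n0 (Good.n1 (Good.n3 L00297 L00298) (Good.n4 L00299 L00300)) L00301) L00302) L00303
theorem g00041 : Good (Phi V4.P V4.D 1 1) ⟨2, 2, 3, 1, 2, 3, 1, 0, 3, 0⟩ :=
  Good.n3 (Good.n0 L00304 (Good.n0 L00305 (Good.n4 L00306 L00307))) (Good.n0 L00308 (Good.n0 L00309 (Good.n4 L00310 L00311)))
theorem g00042 : Good (Phi V4.P V4.D 1 1) ⟨1, 1, 3, 1, 2, 3, 1, 0, 3, 0⟩ :=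
  Good.n0 g00041 (Good.n0 (Good.n4 (Good.n0 (Good.n4 (Good.n3 L00312 L00313) L00314) L00315) L00316) L00317)
theorem g00043 : Good (Phi V4.P V4.D 1 1) ⟨3, 5, 3, 1, 1, 1, 1, 0, 3, 1⟩ :=
  Good.n0 (Good.n2 L00319 (Good.n1 (Good.n1 (Good.n0 L00320 (Good.n3 L00321 L00322)) L00323) L00324)) (Good.n2 L00325 (Good.n2 (Good.n3 L00326 L00327) (Good.n3 L00328 L00329)))
theorem g00044 : Good (Phi V4.P V4.D 1 1) ⟨1, 1, 3, 1, 1, 1, 1, 0, 3, 1⟩ :=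
  Good.n0 (Good.n0 L00318 g00043) (Good.n0 (Good.n0 (Good.n2 L00330 (Good.n3 L00331 L00332)) L00333) L00334)
theorem g00045 : Good (Phi V4.P V4.D 1 1) ⟨4, 10, 3, 1, 1, 1, 1, 0, 3, 2⟩ :=
  Good.n1 (Good.n1 (Good.n1 (Good.n0 L00336 (Good.n3 (Good.n2 L00337 L00338) L00339)) L00340) L00341) L00342
theorem g00046 : Good (Phi V4.P V4.D 1 1) ⟨2, 2, 3, 1, 1, 1, 1, 0, 2, 1⟩ :=
  Good.n4 (Good.n0 L00335 (Good.n0 g00045 (Good.n2 (Good.n1 L00343 L00344) (Good.n3 L00345 L00346)))) L00347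
theorem g00047 : Good (Phi V4.P V4.D 1 1) ⟨5, 24, 3, 1, 1, 1, 1, 0, 3, 2⟩ :=
  Good.n1 (Good.n4 (Good.n2 L00348 (Good.n3 L00349 L00350)) (Good.n2 L00351 L00352)) (Good.n2 L00353 (Good.n3 L00354 L00355))
theorem g00048 : Good (Phi V4.P V4.D 1 1) ⟨6, 50, 4, 3, 1, 1, 1, 0, 3, 2⟩ :=
  Good.n4 (Good.n1 L00357 (Good.n0 (Good.n2 L00358 (Good.n3 L00359 L00360)) L00361)) (Good.n1 L00362 (Good.n3 L00363 L00364))
theorem g00049 : Good (Phi V4.P V4.D 1 1) ⟨2, 3, 3, 1, 1, 1, 1, 0, 2, 1⟩ :=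
  Good.n0 (Good.n0 (Good.n4 (Good.n0 g00047 (Good.n1 L00356 (Good.n0 g00048 L00365))) L00366) L00367) L00368
theorem g00050 : Good (Phi V4.P V4.D 1 1) ⟨1, 1, 3, 1, 1, 1, 1, 0, 1, 0⟩ :=
  Good.n4 (Good.n4 (Good.n2 (Good.n0 (Good.n4 L00295 L00296) g00040) g00042) g00044) (Good.n0 g00046 g00049)
theorem g00051 : Good (Phi V4.P V4.D 1 1) ⟨1, 1, 3, 1, 1, 1, 2, 2, 3, 0⟩ :=
  Good.n0 (Good.n0 L00369 (Good.n2 L00370 L00371)) (Good.n0 (Good.n0 (Good.n2 L00372 L00373) L00374) L00375)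
theorem g00052 : Good (Phi V4.P V4.D 1 1) ⟨2, 3, 3, 1, 1, 1, 2, 2, 3, 1⟩ :=
  Good.n0 (Good.n0 (Good.n2 L00380 (Good.n4 L00381 (Good.n3 L00382 (Good.n2 L00383 L00384)))) L00385) L00386
theorem g00053 : Good (Phi V4.P V4.D 1 1) ⟨3, 5, 3, 1, 1, 1, 2, 3, 2, 0⟩ :=
  Good.n2 (Good.n0 L00388 (Good.n4 L00389 (Good.n0 L00390 (Good.n3 L00391 L00392)))) (Good.n4 L00393 (Good.n3 (Good.n4 L00394 L00395) L00396))
theorem g00054 : Good (Phi V4.P V4.D 1 1) ⟨4, 12, 3, 1, 2, 2, 2, 3, 3, 1⟩ :=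
  Good.n3 (Good.n2 L00401 (Good.n4 L00402 L00403)) (Good.n2 (Good.n0 L00404 L00405) (Good.n4 (Good.n0 L00406 (Good.n1 L00407 L00408)) L00409))
theorem g00055 : Good (Phi V4.P V4.D 1 1) ⟨4, 12, 3, 1, 2, 3, 2, 3, 3, 1⟩ :=
  Good.n0 (Good.n3 (Good.n2 (Good.n4 L00410 L00411) (Good.n4 L00412 L00413)) (Good.n4 L00414 L00415)) (Good.n3 (Good.n1 L00416 (Good.n4 L00417 L00418)) (Good.n4 L00419 L00420))
theorem g00056 : Good (Phi V4.P V4.D 1 1) ⟨3, 6, 3, 1, 1, 1, 2, 3, 2, 0⟩ :=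
  Good.n4 (Good.n0 (Good.n2 L00397 (Good.n0 L00398 L00399)) L00400) (Good.n0 (Good.n2 g00054 g00055) L00421)
theorem g00057 : Good (Phi V4.P V4.D 1 1) ⟨1, 1, 3, 1, 1, 1, 1, 1, 2, 0⟩ :=
  Good.n3 (Good.n4 g00051 (Good.n0 (Good.n2 L00376 (Good.n0 L00377 (Good.n2 L00378 L00379))) g00052)) (Good.n0 (Good.n0 L00387 g00053) (Good.n0 g00056 L00422))
theorem g00058 : Good (Phi V4.P V4.D 1 1) ⟨2, 2, 3, 1, 1, 1, 1, 1, 2, 1⟩ :=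
  Good.n3 (Good.n0 L00423 (Good.n4 (Good.n2 L00424 (Good.n3 L00425 L00426)) L00427)) (Good.n0 L00428 (Good.n2 (Good.n3 L00429 L00430) L00431))
theorem g00059 : Good (Phi V4.P V4.D 1 1) ⟨4, 12, 3, 1, 1, 1, 1, 1, 2, 1⟩ :=
  Good.n3 (Good.n2 L00432 (Good.n4 (Good.n3 L00433 (Good.n2 L00434 L00435)) L00436)) (Good.n3 (Good.n2 (Good.n3 L00437 L00438) L00439) L00440)
theorem g00060 : Good (Phi V4.P V4.D 1 1) ⟨1, 1, 3, 1, 0, 0, 0, 0, 1, 0⟩ :=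
  Good.n2 g00039 (Good.n3 g00050 (Good.n4 g00057 (Good.n0 g00058 (Good.n0 (Good.n0 g00059 L00441) L00442))))
theorem g00061 : Good (Phi V4.P V4.D 1 1) ⟨4, 12, 4, 4, 0, 0, 2, 0, 3, 0⟩ :=
  Good.n3 (Good.n2 L00444 (Good.n2 L00445 (Good.n4 L00446 L00447))) (Good.n2 L00448 (Good.n2 L00449 (Good.n0 (Good.n4 L00450 L00451) (Good.n4 L00452 L00453))))
theorem g00062 : Good (Phi V4.P V4.D 1 1) ⟨3, 6, 4, 4, 0, 0, 2, 0, 1, 0⟩ :=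
  Good.n0 (Good.n4 (Good.n4 g00061 (Good.n2 L00454 L00455)) (Good.n2 L00456 (Good.n4 L00457 L00458))) L00459
theorem g00063 : Good (Phi V4.P V4.D 1 1) ⟨4, 12, 5, 8, 0, 0, 3, 2, 2, 0⟩ :=
  Good.n4 (Good.n2 L00460 (Good.n4 (Good.n2 L00461 L00462) L00463)) (Good.n2 L00464 (Good.n0 L00465 L00466))
theorem g00064 : Good (Phi V4.P V4.D 1 1) ⟨4, 12, 5, 9, 0, 0, 3, 2, 2, 0⟩ :=
  Good.n4 (Good.n2 L00470 (Good.n2 L00471 (Good.n0 L00472 (Good.n4 L00473 L00474)))) (Good.n2 L00475 L00476)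
theorem g00065 : Good (Phi V4.P V4.D 1 1) ⟨4, 12, 4, 4, 0, 0, 3, 2, 1, 0⟩ :=
  Good.n1 (Good.n4 g00063 (Good.n2 L00467 (Good.n2 L00468 L00469))) (Good.n4 g00064 (Good.n2 L00477 L00478))
theorem g00066 : Good (Phi V4.P V4.D 1 1) ⟨4, 12, 4, 4, 1, 1, 3, 3, 1, 0⟩ :=
  Good.n4 (Good.n4 (Good.n4 (Good.n2 L00482 L00483) L00484) (Good.n0 (Good.n2 L00485 L00486) L00487)) (Good.n2 L00488 L00489)
theorem g00067 : Good (Phi V4.P V4.D 1 1) ⟨3, 6, 4, 4, 0, 0, 1, 0, 1, 0⟩ :=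
  Good.n3 g00062 (Good.n3 (Good.n0 g00065 L00479) (Good.n0 (Good.n2 (Good.n4 L00480 L00481) g00066) L00490))
theorem g00068 : Good (Phi V4.P V4.D 1 1) ⟨5, 25, 4, 5, 1, 1, 1, 0, 2, 0⟩ :=
  Good.n4 (Good.n2 (Good.n4 L00497 L00498) (Good.n4 (Good.n2 (Good.n3 L00499 L00500) L00501) L00502)) (Good.n2 L00503 (Good.n2 L00504 (Good.n4 L00505 L00506)))
theorem g00069 : Good (Phi V4.P V4.D 1 1) ⟨4, 12, 4, 5, 0, 0, 1, 0, 2, 0⟩ :=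
  Good.n0 L00491 (Good.n2 (Good.n4 (Good.n0 (Good.n3 L00492 L00493) (Good.n3 L00494 L00495)) L00496) g00068)
theorem g00070 : Good (Phi V4.P V4.D 1 1) ⟨4, 13, 4, 5, 1, 0, 1, 0, 2, 0⟩ :=
  Good.n1 L00507 (Good.n0 (Good.n0 (Good.n1 L00508 (Good.n4 (Good.n3 L00509 L00510) L00511)) L00512) L00513)
theorem g00071 : Good (Phi V4.P V4.D 1 1) ⟨5, 26, 6, 23, 1, 1, 1, 0, 2, 0⟩ :=
  Good.n2 (Good.n4 (Good.n3 L00516 L00517) L00518) (Good.n4 (Good.n4 (Good.n3 L00519 L00520) L00521) (Good.n0 (Good.n4 L00522 L00523) L00524))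
theorem g00072 : Good (Phi V4.P V4.D 1 1) ⟨3, 6, 4, 5, 1, 0, 1, 0, 2, 1⟩ :=
  Good.n0 (Good.n2 L00526 L00527) (Good.n0 (Good.n0 (Good.n4 (Good.n3 L00528 L00529) L00530) L00531) L00532)
theorem g00073 : Good (Phi V4.P V4.D 1 1) ⟨3, 6, 4, 5, 1, 1, 1, 0, 2, 1⟩ :=
  Good.n0 (Good.n4 (Good.n0 L00533 (Good.n2 L00534 L00535)) L00536) (Good.n0 (Good.n0 (Good.n4 (Good.n1 L00537 (Good.n2 L00538 L00539)) L00540) L00541) L00542)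
theorem g00074 : Good (Phi V4.P V4.D 1 1) ⟨3, 6, 4, 5, 0, 0, 1, 0, 1, 0⟩ :=
  Good.n4 (Good.n0 g00069 (Good.n2 g00070 (Good.n1 L00514 (Good.n1 L00515 (Good.n0 g00071 L00525))))) (Good.n2 g00072 g00073)
theorem g00075 : Good (Phi V4.P V4.D 1 1) ⟨7, 103, 6, 24, 1, 1, 1, 0, 2, 0⟩ :=
  Good.n4 (Good.n2 (Good.n4 L00550 L00551) (Good.n4 (Good.n3 L00552 L00553) L00554)) (Good.n2 L00555 (Good.n2 L00556 (Good.n4 L00557 L00558)))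
theorem g00076 : Good (Phi V4.P V4.D 1 1) ⟨7, 103, 6, 25, 1, 1, 1, 0, 3, 0⟩ :=
  Good.n2 (Good.n3 L00559 L00560) (Good.n4 (Good.n3 (Good.n0 L00561 L00562) L00563) (Good.n3 L00564 L00565))
theorem g00077 : Good (Phi V4.P V4.D 1 1) ⟨7, 103, 5, 12, 0, 0, 1, 0, 2, 0⟩ :=
  Good.n2 (Good.n4 (Good.n3 (Good.n2 L00546 L00547) L00548) L00549) (Good.n1 g00075 (Good.n4 g00076 (Good.n2 L00566 (Good.n3 L00567 L00568))))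
theorem g00078 : Good (Phi V4.P V4.D 1 1) ⟨6, 51, 5, 12, 0, 0, 1, 0, 1, 0⟩ :=
  Good.n4 (Good.n0 L00545 g00077) (Good.n2 (Good.n4 L00569 L00570) (Good.n2 (Good.n4 L00571 L00572) (Good.n4 L00573 L00574)))
theorem g00079 : Good (Phi V4.P V4.D 1 1) ⟨5, 26, 4, 6, 1, 0, 1, 0, 3, 0⟩ :=
  Good.n0 (Good.n1 (Good.n3 L00577 L00578) (Good.n3 (Good.n2 L00579 L00580) L00581)) (Good.n1 L00582 (Good.n3 (Good.n4 L00583 L00584) L00585))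
theorem g00080 : Good (Phi V4.P V4.D 1 1) ⟨5, 26, 4, 6, 2, 3, 1, 0, 3, 0⟩ :=
  Good.n2 (Good.n4 (Good.n3 L00594 L00595) L00596) (Good.n4 (Good.n0 (Good.n3 L00597 L00598) (Good.n1 L00599 (Good.n3 L00600 L00601))) L00602)
theorem g00081 : Good (Phi V4.P V4.D 1 1) ⟨5, 26, 4, 6, 1, 1, 1, 0, 2, 0⟩ :=
  Good.n4 (Good.n2 (Good.n4 (Good.n3 L00591 L00592) L00593) g00080) (Good.n2 L00603 (Good.n2 L00604 (Good.n4 L00605 L00606)))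
theorem g00082 : Good (Phi V4.P V4.D 1 1) ⟨5, 26, 4, 6, 0, 0, 1, 0, 1, 0⟩ :=
  Good.n2 (Good.n4 (Good.n4 g00079 (Good.n0 L00586 (Good.n3 L00587 L00588))) (Good.n3 L00589 L00590)) (Good.n4 g00081 (Good.n4 (Good.n2 L00607 (Good.n3 L00608 L00609)) L00610))
theorem g00083 : Good (Phi V4.P V4.D 1 1) ⟨6, 54, 5, 15, 1, 0, 1, 0, 2, 0⟩ :=
  Good.n1 L00618 (Good.n4 (Good.n0 (Good.n0 (Good.n3 L00619 L00620) L00621) L00622) (Good.n3 L00623 L00624))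
theorem g00084 : Good (Phi V4.P V4.D 1 1) ⟨4, 13, 4, 7, 1, 0, 1, 0, 2, 0⟩ :=
  Good.n0 (Good.n4 (Good.n2 (Good.n3 L00612 L00613) L00614) (Good.n3 L00615 L00616)) (Good.n0 (Good.n1 L00617 g00083) L00625)
theorem g00085 : Good (Phi V4.P V4.D 1 1) ⟨4, 13, 4, 7, 1, 0, 1, 0, 2, 1⟩ :=
  Good.n0 (Good.n4 L00626 L00627) (Good.n0 (Good.n1 L00628 (Good.n0 (Good.n4 L00629 (Good.n3 L00630 L00631)) L00632)) L00633)
theorem g00086 : Good (Phi V4.P V4.D 1 1) ⟨5, 26, 4, 7, 2, 2, 1, 0, 3, 0⟩ :=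
  Good.n0 (Good.n1 (Good.n0 L00634 (Good.n3 L00635 L00636)) L00637) (Good.n4 (Good.n1 L00638 (Good.n3 L00639 L00640)) L00641)
theorem g00087 : Good (Phi V4.P V4.D 1 1) ⟨4, 13, 4, 7, 2, 2, 1, 0, 3, 0⟩ :=
  Good.n0 g00086 (Good.n0 (Good.n1 L00642 (Good.n0 (Good.n4 (Good.n3 L00643 L00644) L00645) L00646)) L00647)
theorem g00088 : Good (Phi V4.P V4.D 1 1) ⟨4, 13, 4, 7, 2, 3, 2, 0, 4, 0⟩ :=
  Good.n0 (Good.n2 (Good.n4 L00648 L00649) (Good.n4 (Good.n3 L00650 L00651) L00652)) (Good.n0 (Good.n2 (Good.n1 L00653 L00654) (Good.n1 L00655 (Good.n4 L00656 L00657))) L00658)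
theorem g00089 : Good (Phi V4.P V4.D 1 1) ⟨4, 13, 4, 7, 2, 3, 1, 0, 3, 0⟩ :=
  Good.n4 (Good.n3 g00088 (Good.n0 L00659 L00660)) (Good.n0 (Good.n2 L00661 L00662) (Good.n0 (Good.n1 L00663 (Good.n2 L00664 L00665)) L00666))
theorem g00090 : Good (Phi V4.P V4.D 1 1) ⟨4, 13, 4, 7, 1, 1, 1, 0, 3, 1⟩ :=
  Good.n0 (Good.n2 L00667 (Good.n3 L00668 L00669)) (Good.n0 (Good.n2 L00670 (Good.n1 L00671 (Good.n3 L00672 L00673))) L00674)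
theorem g00091 : Good (Phi V4.P V4.D 1 1) ⟨4, 13, 4, 7, 1, 1, 1, 0, 2, 1⟩ :=
  Good.n4 (Good.n0 (Good.n2 L00675 L00676) (Good.n0 (Good.n1 L00677 (Good.n2 L00678 L00679)) L00680)) (Good.n2 (Good.n0 L00681 L00682) L00683)
theorem g00092 : Good (Phi V4.P V4.D 1 1) ⟨4, 13, 3, 3, 0, 0, 1, 0, 1, 0⟩ :=
  Good.n1 (Good.n0 g00082 L00611) (Good.n2 (Good.n4 g00084 g00085) (Good.n4 (Good.n4 (Good.n2 g00087 g00089) g00090) g00091))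
theorem g00093 : Good (Phi V4.P V4.D 1 1) ⟨3, 6, 2, 1, 0, 0, 1, 0, 1, 0⟩ :=
  Good.n1 (Good.n1 g00067 g00074) (Good.n0 (Good.n0 L00543 (Good.n0 L00544 (Good.n1 (Good.n1 g00078 L00575) L00576))) g00092)
theorem g00094 : Good (Phi V4.P V4.D 1 1) ⟨4, 13, 2, 1, 1, 0, 2, 2, 2, 0⟩ :=
  Good.n1 L00688 (Good.n0 (Good.n4 L00689 L00690) (Good.n1 L00691 (Good.n0 (Good.n1 L00692 L00693) L00694)))
theorem g00095 : Good (Phi V4.P V4.D 1 1) ⟨2, 3, 2, 1, 1, 0, 2, 2, 2, 1⟩ :=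
  Good.n0 (Good.n0 (Good.n1 L00697 L00698) (Good.n4 (Good.n2 L00699 L00700) (Good.n2 L00701 L00702))) L00703
theorem g00096 : Good (Phi V4.P V4.D 1 1) ⟨1, 1, 2, 1, 1, 0, 2, 2, 1, 0⟩ :=
  Good.n4 (Good.n0 L00685 (Good.n0 (Good.n0 (Good.n1 L00686 L00687) g00094) L00695)) (Good.n0 L00696 g00095)
theorem g00097 : Good (Phi V4.P V4.D 1 1) ⟨3, 6, 2, 1, 1, 0, 3, 6, 2, 1⟩ :=
  Good.n0 L00709 (Good.n2 L00710 (Good.n1 L00711 (Good.n3 L00712 (Good.n0 L00713 (Good.n1 L00714 L00715)))))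
theorem g00098 : Good (Phi V4.P V4.D 1 1) ⟨4, 12, 3, 2, 1, 0, 3, 7, 2, 1⟩ :=
  Good.n4 (Good.n2 L00720 L00721) (Good.n0 (Good.n2 L00722 L00723) (Good.n1 (Good.n2 L00724 L00725) (Good.n2 L00726 L00727)))
theorem g00099 : Good (Phi V4.P V4.D 1 1) ⟨5, 26, 3, 2, 1, 0, 3, 7, 1, 0⟩ :=
  Good.n1 L00728 (Good.n4 (Good.n2 L00729 (Good.n4 L00730 L00731)) (Good.n2 L00732 (Good.n3 L00733 L00734)))
theorem g00100 : Good (Phi V4.P V4.D 1 1) ⟨2, 3, 3, 2, 1, 0, 3, 7, 1, 0⟩ :=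
  Good.n0 (Good.n0 (Good.n4 (Good.n4 L00717 (Good.n0 L00718 L00719)) g00098) (Good.n0 g00099 L00735)) L00736
theorem g00101 : Good (Phi V4.P V4.D 1 1) ⟨5, 26, 4, 6, 1, 0, 3, 7, 2, 0⟩ :=
  Good.n0 (Good.n2 L00742 (Good.n4 L00743 (Good.n2 L00744 L00745))) (Good.n1 L00746 (Good.n0 (Good.n2 L00747 (Good.n4 L00748 (Good.n3 L00749 L00750))) L00751))
theorem g00102 : Good (Phi V4.P V4.D 1 1) ⟨5, 26, 4, 6, 1, 0, 3, 7, 2, 1⟩ :=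
  Good.n0 (Good.n2 L00752 (Good.n3 L00753 L00754)) (Good.n2 (Good.n3 L00755 L00756) (Good.n3 L00757 L00758))
theorem g00103 : Good (Phi V4.P V4.D 1 1) ⟨3, 6, 4, 6, 1, 0, 3, 7, 1, 0⟩ :=
  Good.n0 (Good.n0 L00737 (Good.n4 L00738 (Good.n2 L00739 (Good.n4 L00740 L00741)))) (Good.n0 (Good.n4 g00101 g00102) L00759)
theorem g00104 : Good (Phi V4.P V4.D 1 1) ⟨6, 53, 5, 15, 2, 0, 3, 7, 2, 1⟩ :=
  Good.n0 (Good.n0 L00770 (Good.n4 L00771 (Good.n0 L00772 (Good.n2 L00773 L00774)))) (Good.n3 L00775 L00776)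
theorem g00105 : Good (Phi V4.P V4.D 1 1) ⟨5, 26, 4, 7, 1, 0, 3, 7, 2, 1⟩ :=
  Good.n2 (Good.n0 (Good.n3 L00765 L00766) (Good.n1 (Good.n2 L00767 (Good.n3 L00768 L00769)) g00104)) (Good.n3 L00777 L00778)
theorem g00106 : Good (Phi V4.P V4.D 1 1) ⟨6, 54, 4, 7, 1, 0, 3, 7, 2, 0⟩ :=
  Good.n1 L00779 (Good.n0 (Good.n1 L00780 (Good.n4 L00781 (Good.n2 L00782 (Good.n3 L00783 L00784)))) L00785)
theorem g00107 : Good (Phi V4.P V4.D 1 1) ⟨5, 27, 4, 7, 1, 0, 3, 7, 1, 0⟩ :=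
  Good.n0 (Good.n4 g00106 (Good.n1 L00786 (Good.n2 (Good.n3 L00787 L00788) (Good.n3 L00789 L00790)))) L00791
theorem g00108 : Good (Phi V4.P V4.D 1 1) ⟨3, 6, 4, 7, 1, 0, 3, 7, 1, 0⟩ :=
  Good.n0 L00760 (Good.n0 (Good.n4 (Good.n4 L00761 (Good.n3 L00762 (Good.n2 L00763 L00764))) g00105) g00107)
theorem g00109 : Good (Phi V4.P V4.D 1 1) ⟨2, 3, 2, 1, 1, 0, 2, 3, 1, 0⟩ :=
  Good.n3 (Good.n0 (Good.n4 (Good.n4 (Good.n0 L00705 L00706) (Good.n0 L00707 L00708)) g00097) L00716) (Good.n1 g00100 (Good.n0 (Good.n1 g00103 g00108) L00792))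
theorem g00110 : Good (Phi V4.P V4.D 1 1) ⟨2, 3, 2, 1, 2, 2, 2, 2, 2, 0⟩ :=
  Good.n4 (Good.n0 (Good.n0 L00794 L00795) L00796) (Good.n0 (Good.n0 L00797 (Good.n1 L00798 (Good.n4 L00799 L00800))) L00801)
theorem g00111 : Good (Phi V4.P V4.D 1 1) ⟨4, 12, 3, 2, 2, 2, 2, 3, 3, 1⟩ :=
  Good.n0 (Good.n3 L00808 (Good.n2 L00809 L00810)) (Good.n3 (Good.n2 L00811 L00812) (Good.n2 L00813 (Good.n3 L00814 L00815)))
theorem g00112 : Good (Phi V4.P V4.D 1 1) ⟨4, 13, 3, 2, 2, 2, 2, 3, 3, 1⟩ :=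
  Good.n3 (Good.n0 (Good.n2 L00816 L00817) L00818) (Good.n0 (Good.n3 (Good.n1 L00819 (Good.n4 (Good.n0 L00820 L00821) L00822)) L00823) L00824)
theorem g00113 : Good (Phi V4.P V4.D 1 1) ⟨3, 6, 3, 2, 2, 2, 2, 3, 2, 0⟩ :=
  Good.n4 (Good.n0 (Good.n0 (Good.n2 L00802 L00803) (Good.n1 L00804 L00805)) (Good.n1 L00806 L00807)) (Good.n0 g00111 g00112)
theorem g00114 : Good (Phi V4.P V4.D 1 1) ⟨4, 13, 3, 3, 2, 2, 3, 7, 3, 0⟩ :=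
  Good.n0 (Good.n2 (Good.n3 L00831 (Good.n1 L00832 L00833)) (Good.n1 L00834 L00835)) (Good.n1 L00836 (Good.n4 L00837 (Good.n0 L00838 L00839)))
theorem g00115 : Good (Phi V4.P V4.D 1 1) ⟨2, 3, 3, 3, 2, 2, 2, 3, 3, 0⟩ :=
  Good.n3 (Good.n0 (Good.n0 L00826 (Good.n2 L00827 L00828)) L00829) (Good.n0 (Good.n0 L00830 g00114) L00840)
theorem g00116 : Good (Phi V4.P V4.D 1 1) ⟨5, 27, 3, 3, 3, 4, 2, 3, 3, 1⟩ :=
  Good.n1 L00848 (Good.n0 (Good.n1 L00849 (Good.n0 (Good.n3 L00850 (Good.n3 L00851 L00852)) L00853)) L00854)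
theorem g00117 : Good (Phi V4.P V4.D 1 1) ⟨3, 6, 3, 3, 3, 4, 2, 3, 3, 1⟩ :=
  Good.n0 (Good.n3 L00841 L00842) (Good.n0 (Good.n3 L00843 (Good.n1 (Good.n3 L00844 L00845) (Good.n3 L00846 L00847))) g00116)
theorem g00118 : Good (Phi V4.P V4.D 1 1) ⟨4, 13, 3, 3, 3, 5, 2, 3, 3, 1⟩ :=
  Good.n0 (Good.n3 L00860 (Good.n1 (Good.n3 L00861 L00862) (Good.n3 L00863 L00864))) (Good.n1 L00865 (Good.n0 (Good.n1 L00866 (Good.n3 L00867 (Good.n3 L00868 L00869))) L00870))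
theorem g00119 : Good (Phi V4.P V4.D 1 1) ⟨2, 3, 3, 3, 2, 2, 2, 3, 3, 1⟩ :=
  Good.n2 (Good.n0 g00117 L00855) (Good.n0 (Good.n0 (Good.n3 L00856 (Good.n0 L00857 (Good.n4 L00858 L00859))) g00118) L00871)
theorem g00120 : Good (Phi V4.P V4.D 1 1) ⟨4, 12, 3, 2, 2, 3, 1, 1, 3, 0⟩ :=
  Good.n3 (Good.n4 L00872 L00873) (Good.n0 L00874 (Good.n2 L00875 (Good.n1 L00876 (Good.n4 L00877 L00878))))
theorem g00121 : Good (Phi V4.P V4.D 1 1) ⟨5, 26, 3, 2, 2, 3, 1, 1, 3, 0⟩ :=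
  Good.n1 L00879 (Good.n0 (Good.n1 L00880 (Good.n4 L00881 (Good.n3 L00882 (Good.n3 L00883 L00884)))) L00885)
theorem g00122 : Good (Phi V4.P V4.D 1 1) ⟨5, 25, 3, 2, 2, 3, 2, 3, 3, 1⟩ :=
  Good.n3 (Good.n4 L00897 (Good.n2 L00898 L00899)) (Good.n4 (Good.n2 (Good.n3 L00900 L00901) L00902) L00903)
theorem g00123 : Good (Phi V4.P V4.D 1 1) ⟨4, 12, 3, 2, 2, 3, 1, 1, 3, 1⟩ :=
  Good.n3 (Good.n0 (Good.n2 L00887 L00888) (Good.n4 L00889 (Good.n2 L00890 (Good.n3 L00891 L00892)))) (Good.n0 (Good.n3 (Good.n2 L00893 L00894) (Good.n4 L00895 L00896)) g00122)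
theorem g00124 : Good (Phi V4.P V4.D 1 1) ⟨4, 13, 3, 2, 2, 3, 2, 3, 3, 1⟩ :=
  Good.n3 (Good.n0 (Good.n2 L00909 (Good.n1 L00910 (Good.n4 L00911 L00912))) L00913) (Good.n4 (Good.n0 (Good.n3 L00914 L00915) L00916) L00917)
theorem g00125 : Good (Phi V4.P V4.D 1 1) ⟨3, 6, 3, 2, 2, 3, 1, 1, 3, 1⟩ :=
  Good.n0 g00123 (Good.n3 (Good.n0 (Good.n1 L00904 (Good.n4 L00905 (Good.n3 L00906 L00907))) L00908) g00124)
theorem g00126 : Good (Phi V4.P V4.D 1 1) ⟨4, 13, 3, 3, 2, 3, 2, 2, 3, 0⟩ :=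
  Good.n0 (Good.n4 (Good.n1 L00919 (Good.n2 L00920 L00921)) L00922) (Good.n1 L00923 (Good.n0 L00924 L00925))
theorem g00127 : Good (Phi V4.P V4.D 1 1) ⟨4, 13, 3, 3, 2, 3, 2, 2, 3, 1⟩ :=
  Good.n4 (Good.n0 (Good.n2 L00928 L00929) (Good.n1 L00930 (Good.n0 (Good.n1 L00931 L00932) L00933))) (Good.n2 L00934 (Good.n3 L00935 (Good.n0 L00936 L00937)))
theorem g00128 : Good (Phi V4.P V4.D 1 1) ⟨5, 26, 4, 6, 2, 3, 2, 3, 3, 0⟩ :=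
  Good.n0 (Good.n2 L00943 (Good.n4 L00944 (Good.n3 L00945 L00946))) (Good.n1 L00947 (Good.n4 L00948 (Good.n2 L00949 (Good.n3 L00950 L00951))))
theorem g00129 : Good (Phi V4.P V4.D 1 1) ⟨6, 53, 4, 7, 2, 3, 2, 3, 3, 0⟩ :=
  Good.n2 (Good.n1 (Good.n3 L00957 L00958) (Good.n3 L00959 L00960)) (Good.n4 L00961 (Good.n1 (Good.n3 L00962 L00963) (Good.n3 L00964 L00965)))
theorem g00130 : Good (Phi V4.P V4.D 1 1) ⟨7, 108, 6, 31, 2, 3, 2, 3, 3, 0⟩ :=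
  Good.n2 (Good.n0 (Good.n3 L00968 L00969) L00970) (Good.n0 (Good.n4 L00971 (Good.n3 L00972 L00973)) L00974)
theorem g00131 : Good (Phi V4.P V4.D 1 1) ⟨4, 13, 4, 7, 2, 3, 2, 3, 3, 0⟩ :=
  Good.n0 (Good.n0 (Good.n2 L00953 (Good.n4 L00954 (Good.n3 L00955 L00956))) g00129) (Good.n0 (Good.n1 L00966 (Good.n0 (Good.n1 L00967 g00130) L00975)) L00976)
theorem g00132 : Good (Phi V4.P V4.D 1 1) ⟨3, 6, 3, 3, 2, 3, 2, 3, 3, 0⟩ :=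
  Good.n0 (Good.n0 L00938 (Good.n1 (Good.n4 L00939 (Good.n2 L00940 L00941)) L00942)) (Good.n1 (Good.n0 g00128 L00952) g00131)
theorem g00133 : Good (Phi V4.P V4.D 1 1) ⟨5, 26, 4, 6, 2, 3, 2, 3, 3, 1⟩ :=
  Good.n3 (Good.n2 L00982 (Good.n4 L00983 L00984)) (Good.n4 (Good.n2 (Good.n3 L00985 L00986) L00987) L00988)
theorem g00134 : Good (Phi V4.P V4.D 1 1) ⟨4, 13, 3, 3, 2, 3, 2, 3, 3, 1⟩ :=
  Good.n0 (Good.n1 g00133 (Good.n3 (Good.n2 L00989 L00990) (Good.n4 (Good.n2 L00991 L00992) L00993))) (Good.n1 L00994 (Good.n0 (Good.n3 (Good.n1 L00995 L00996) (Good.n3 L00997 L00998)) L00999))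
theorem g00135 : Good (Phi V4.P V4.D 1 1) ⟨3, 6, 3, 3, 2, 3, 2, 3, 2, 0⟩ :=
  Good.n4 g00132 (Good.n0 (Good.n0 L00977 (Good.n3 (Good.n2 L00978 L00979) (Good.n4 L00980 L00981))) g00134)
theorem g00136 : Good (Phi V4.P V4.D 1 1) ⟨3, 6, 2, 1, 2, 3, 1, 1, 2, 0⟩ :=
  Good.n1 (Good.n4 (Good.n0 g00120 (Good.n0 g00121 L00886)) g00125) (Good.n3 (Good.n4 (Good.n0 L00918 g00126) (Good.n0 (Good.n2 L00926 L00927) g00127)) g00135)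
theorem g00137 : Good (Phi V4.P V4.D 1 1) ⟨2, 3, 2, 1, 1, 1, 1, 1, 2, 0⟩ :=
  Good.n2 (Good.n3 g00110 (Good.n1 (Good.n0 g00113 L00825) (Good.n4 g00115 g00119))) (Good.n0 g00136 L01000)
theorem g00138 : Good (Phi V4.P V4.D 1 1) ⟨4, 12, 2, 1, 1, 1, 2, 2, 3, 2⟩ :=
  Good.n1 (Good.n0 (Good.n2 L01002 (Good.n3 L01003 L01004)) (Good.n2 L01005 (Good.n3 L01006 L01007))) (Good.n2 L01008 L01009)
theorem g00139 : Good (Phi V4.P V4.D 1 1) ⟨5, 26, 3, 3, 1, 1, 2, 2, 3, 2⟩ :=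
  Good.n1 (Good.n2 L01013 (Good.n3 L01014 L01015)) (Good.n0 (Good.n2 L01016 L01017) (Good.n2 L01018 L01019))
theorem g00140 : Good (Phi V4.P V4.D 1 1) ⟨4, 13, 2, 1, 1, 1, 2, 2, 3, 2⟩ :=
  Good.n1 (Good.n2 L01010 (Good.n3 L01011 L01012)) (Good.n0 g00139 (Good.n1 L01020 (Good.n0 (Good.n1 L01021 (Good.n2 L01022 L01023)) L01024)))
theorem g00141 : Good (Phi V4.P V4.D 1 1) ⟨2, 3, 2, 1, 1, 1, 2, 2, 2, 1⟩ :=
  Good.n0 (Good.n4 (Good.n0 g00138 g00140) (Good.n0 (Good.n2 L01025 L01026) (Good.n2 L01027 L01028))) L01029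
theorem g00142 : Good (Phi V4.P V4.D 1 1) ⟨4, 13, 2, 1, 2, 2, 2, 3, 2, 1⟩ :=
  Good.n3 (Good.n3 (Good.n4 (Good.n1 L01033 L01034) L01035) (Good.n4 (Good.n1 L01036 L01037) L01038)) L01039
theorem g00143 : Good (Phi V4.P V4.D 1 1) ⟨2, 3, 2, 1, 1, 1, 1, 1, 2, 1⟩ :=
  Good.n3 g00141 (Good.n0 (Good.n0 (Good.n2 (Good.n3 L01030 L01031) L01032) (Good.n2 g00142 L01040)) L01041)
theorem g00144 : Good (Phi V4.P V4.D 1 1) ⟨1, 1, 2, 1, 0, 0, 1, 1, 1, 0⟩ :=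
  Good.n2 (Good.n3 g00096 (Good.n0 L00704 g00109)) (Good.n4 (Good.n0 L00793 g00137) (Good.n0 L01001 g00143))
theorem g00145 : Good (Phi V4.P V4.D 1 1) ⟨7, 110, 5, 18, 2, 0, 1, 0, 2, 0⟩ :=
  Good.n1 (Good.n4 (Good.n3 L01049 L01050) L01051) (Good.n0 L01052 (Good.n1 (Good.n0 L01053 (Good.n1 (Good.n0 L01054 L01055) L01056)) L01057))
theorem g00146 : Good (Phi V4.P V4.D 1 1) ⟨5, 27, 3, 4, 2, 0, 1, 0, 2, 0⟩ :=
  Good.n1 (Good.n4 (Good.n3 L01045 L01046) L01047) (Good.n0 L01048 (Good.n1 (Good.n0 g00145 L01058) (Good.n0 L01059 L01060)))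
theorem g00147 : Good (Phi V4.P V4.D 1 1) ⟨5, 27, 3, 4, 2, 1, 1, 0, 2, 0⟩ :=
  Good.n1 (Good.n4 (Good.n0 L01062 (Good.n1 L01063 L01064)) L01065) (Good.n4 (Good.n0 L01066 (Good.n3 L01067 L01068)) L01069)
theorem g00148 : Good (Phi V4.P V4.D 1 1) ⟨2, 3, 2, 2, 1, 0, 1, 0, 2, 0⟩ :=
  Good.n0 (Good.n0 L01043 (Good.n0 L01044 (Good.n2 (Good.n1 g00146 L01061) (Good.n1 g00147 L01070)))) L01071
theorem g00149 : Good (Phi V4.P V4.D 1 1) ⟨4, 13, 3, 4, 1, 0, 1, 0, 3, 3⟩ :=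
  Good.n0 L01077 (Good.n3 L01078 (Good.n1 L01079 (Good.n0 L01080 (Good.n1 L01081 (Good.n0 L01082 L01083)))))
theorem g00150 : Good (Phi V4.P V4.D 1 1) ⟨3, 6, 2, 2, 1, 0, 1, 0, 2, 1⟩ :=
  Good.n0 L01072 (Good.n4 (Good.n3 L01073 (Good.n1 (Good.n0 L01074 L01075) L01076)) (Good.n1 g00149 L01084))
theorem g00151 : Good (Phi V4.P V4.D 1 1) ⟨4, 13, 4, 9, 3, 0, 3, 7, 4, 0⟩ :=
  Good.n0 L01103 (Good.n0 L01104 (Good.n3 L01105 (Good.n1 (Good.n0 L01106 L01107) (Good.n0 L01108 L01109))))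
theorem g00152 : Good (Phi V4.P V4.D 1 1) ⟨2, 3, 3, 4, 3, 0, 3, 7, 4, 0⟩ :=
  Good.n1 (Good.n0 (Good.n0 L01096 (Good.n0 L01097 (Good.n0 L01098 (Good.n1 L01099 L01100)))) L01101) (Good.n0 (Good.n0 L01102 g00151) L01110)
theorem g00153 : Good (Phi V4.P V4.D 1 1) ⟨2, 3, 4, 8, 3, 0, 3, 7, 5, 2⟩ :=
  Good.n0 (Good.n0 L01113 (Good.n0 L01114 (Good.n3 L01115 (Good.n3 L01116 (Good.n0 L01117 L01118))))) L01119
theorem g00154 : Good (Phi V4.P V4.D 1 1) ⟨4, 13, 4, 9, 3, 0, 3, 7, 5, 2⟩ :=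
  Good.n0 L01121 (Good.n0 L01122 (Good.n1 (Good.n3 L01123 (Good.n0 L01124 L01125)) (Good.n0 L01126 L01127)))
theorem g00155 : Good (Phi V4.P V4.D 1 1) ⟨5, 27, 3, 4, 3, 0, 3, 7, 5, 3⟩ :=
  Good.n1 (Good.n3 L01133 (Good.n0 L01134 L01135)) (Good.n0 L01136 (Good.n3 L01137 (Good.n0 L01138 L01139)))
theorem g00156 : Good (Phi V4.P V4.D 1 1) ⟨2, 3, 2, 2, 3, 0, 3, 7, 4, 1⟩ :=
  Good.n4 (Good.n1 (Good.n1 g00153 (Good.n0 (Good.n0 L01120 g00154) L01128)) (Good.n0 L01129 L01130)) (Good.n0 (Good.n0 L01131 (Good.n0 L01132 (Good.n1 g00155 L01140))) L01141)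
theorem g00157 : Good (Phi V4.P V4.D 1 1) ⟨1, 1, 1, 1, 3, 0, 3, 7, 3, 0⟩ :=
  Good.n0 L01095 (Good.n1 (Good.n4 (Good.n1 g00152 (Good.n0 L01111 L01112)) g00156) (Good.n0 L01142 L01143))
theorem g00158 : Good (Phi V4.P V4.D 1 1) ⟨5, 27, 3, 4, 3, 1, 4, 15, 3, 0⟩ :=
  Good.n0 (Good.n1 L01153 L01154) (Good.n1 L01155 (Good.n1 (Good.n0 L01156 L01157) (Good.n0 L01158 L01159)))
theorem g00159 : Good (Phi V4.P V4.D 1 1) ⟨1, 1, 2, 2, 3, 1, 3, 7, 3, 0⟩ :=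
  Good.n3 (Good.n0 L01147 (Good.n0 L01148 L01149)) (Good.n0 L01150 (Good.n0 (Good.n0 L01151 (Good.n1 (Good.n0 L01152 g00158) L01160)) L01161))
theorem g00160 : Good (Phi V4.P V4.D 1 1) ⟨1, 1, 1, 1, 3, 1, 2, 3, 3, 0⟩ :=
  Good.n3 (Good.n0 L01144 (Good.n0 L01145 L01146)) (Good.n1 g00159 (Good.n0 L01162 (Good.n0 L01163 L01164)))
theorem g00161 : Good (Phi V4.P V4.D 1 1) ⟨5, 27, 2, 2, 3, 0, 4, 15, 3, 1⟩ :=
  Good.n1 (Good.n1 (Good.n3 L01175 (Good.n0 L01176 L01177)) (Good.n0 L01178 (Good.n0 L01179 L01180))) L01181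
theorem g00162 : Good (Phi V4.P V4.D 1 1) ⟨5, 27, 3, 4, 3, 1, 4, 15, 4, 2⟩ :=
  Good.n1 (Good.n0 L01183 L01184) (Good.n0 L01185 (Good.n1 (Good.n0 L01186 L01187) (Good.n0 L01188 L01189)))
theorem g00163 : Good (Phi V4.P V4.D 1 1) ⟨5, 27, 3, 4, 3, 1, 4, 15, 4, 3⟩ :=
  Good.n0 (Good.n1 L01190 L01191) (Good.n1 L01192 (Good.n1 (Good.n0 L01193 L01194) (Good.n0 L01195 L01196)))
theorem g00164 : Good (Phi V4.P V4.D 1 1) ⟨3, 6, 2, 2, 2, 0, 4, 15, 3, 1⟩ :=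
  Good.n0 L01173 (Good.n2 (Good.n0 L01174 g00161) (Good.n0 L01182 (Good.n1 (Good.n4 g00162 g00163) L01197)))
theorem g00165 : Good (Phi V4.P V4.D 1 1) ⟨1, 1, 1, 1, 2, 0, 3, 7, 3, 1⟩ :=
  Good.n3 (Good.n0 L01168 (Good.n0 (Good.n1 L01169 L01170) L01171)) (Good.n0 L01172 (Good.n0 (Good.n1 g00164 L01198) L01199))
theorem g00166 : Good (Phi V4.P V4.D 1 1) ⟨1, 1, 1, 1, 2, 0, 2, 3, 2, 0⟩ :=
  Good.n4 (Good.n2 (Good.n3 (Good.n0 L01092 (Good.n0 L01093 L01094)) g00157) g00160) (Good.n3 (Good.n0 L01165 (Good.n0 L01166 L01167)) g00165)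
theorem g00167 : Good (Phi V4.P V4.D 1 1) ⟨5, 27, 4, 8, 2, 1, 4, 15, 2, 0⟩ :=
  Good.n4 (Good.n0 (Good.n3 L01218 L01219) L01220) (Good.n3 (Good.n0 L01221 L01222) (Good.n2 (Good.n0 L01223 L01224) (Good.n0 L01225 L01226)))
theorem g00168 : Good (Phi V4.P V4.D 1 1) ⟨7, 110, 5, 18, 2, 1, 4, 15, 3, 1⟩ :=
  Good.n1 (Good.n3 L01231 L01232) (Good.n0 L01233 (Good.n1 (Good.n0 L01234 (Good.n1 (Good.n0 L01235 L01236) L01237)) L01238))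
theorem g00169 : Good (Phi V4.P V4.D 1 1) ⟨6, 55, 4, 9, 2, 1, 4, 15, 2, 0⟩ :=
  Good.n1 (Good.n4 (Good.n0 (Good.n4 L01228 L01229) L01230) (Good.n0 g00168 L01239)) (Good.n0 L01240 L01241)
theorem g00170 : Good (Phi V4.P V4.D 1 1) ⟨3, 6, 2, 2, 2, 1, 3, 7, 2, 0⟩ :=
  Good.n3 (Good.n0 L01210 (Good.n0 L01211 (Good.n1 (Good.n4 L01212 (Good.n1 L01213 L01214)) L01215))) (Good.n0 L01216 (Good.n1 (Good.n0 L01217 (Good.n1 g00167 (Good.n0 L01227 g00169))) L01242))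
theorem g00171 : Good (Phi V4.P V4.D 1 1) ⟨1, 1, 2, 2, 2, 1, 2, 3, 2, 0⟩ :=
  Good.n3 (Good.n0 L01204 (Good.n0 (Good.n0 L01205 (Good.n1 L01206 L01207)) L01208)) (Good.n0 L01209 (Good.n0 g00170 L01243))
theorem g00172 : Good (Phi V4.P V4.D 1 1) ⟨1, 1, 1, 1, 2, 1, 1, 1, 2, 0⟩ :=
  Good.n1 (Good.n3 (Good.n0 L01200 (Good.n0 (Good.n4 L01201 L01202) L01203)) g00171) (Good.n0 L01244 (Good.n0 L01245 L01246))
theorem g00173 : Good (Phi V4.P V4.D 1 1) ⟨3, 6, 1, 1, 2, 0, 2, 2, 2, 1⟩ :=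
  Good.n1 (Good.n0 L01248 (Good.n3 (Good.n1 L01249 L01250) (Good.n0 L01251 (Good.n1 L01252 L01253)))) L01254
theorem g00174 : Good (Phi V4.P V4.D 1 1) ⟨6, 55, 3, 4, 2, 0, 4, 15, 3, 2⟩ :=
  Good.n1 (Good.n0 (Good.n1 L01272 L01273) L01274) (Good.n1 (Good.n0 (Good.n2 L01275 (Good.n3 L01276 L01277)) L01278) (Good.n0 L01279 L01280))
theorem g00175 : Good (Phi V4.P V4.D 1 1) ⟨5, 27, 3, 4, 2, 0, 4, 15, 3, 3⟩ :=
  Good.n3 (Good.n1 (Good.n0 L01281 L01282) (Good.n2 L01283 L01284)) (Good.n1 (Good.n0 L01285 L01286) (Good.n0 L01287 (Good.n0 L01288 L01289)))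
theorem g00176 : Good (Phi V4.P V4.D 1 1) ⟨5, 27, 3, 4, 2, 0, 3, 7, 2, 1⟩ :=
  Good.n3 (Good.n1 L01263 (Good.n0 L01264 (Good.n2 L01265 (Good.n1 L01266 (Good.n0 L01267 L01268))))) (Good.n4 (Good.n0 (Good.n1 (Good.n3 L01269 L01270) L01271) g00174) g00175)
theorem g00177 : Good (Phi V4.P V4.D 1 1) ⟨1, 1, 2, 2, 2, 0, 3, 7, 2, 1⟩ :=
  Good.n0 L01260 (Good.n1 (Good.n0 (Good.n0 L01261 (Good.n0 L01262 g00176)) L01290) (Good.n0 L01291 L01292))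
theorem g00178 : Good (Phi V4.P V4.D 1 1) ⟨1, 1, 1, 1, 2, 0, 2, 3, 2, 1⟩ :=
  Good.n3 (Good.n0 L01256 (Good.n0 (Good.n1 L01257 L01258) L01259)) (Good.n1 g00177 (Good.n0 L01293 (Good.n0 L01294 L01295)))
theorem g00179 : Good (Phi V4.P V4.D 1 1) ⟨3, 6, 1, 1, 2, 1, 2, 2, 2, 1⟩ :=
  Good.n4 (Good.n1 (Good.n0 L01297 (Good.n1 (Good.n0 L01298 (Good.n3 L01299 L01300)) L01301)) L01302) (Good.n1 (Good.n0 L01303 (Good.n1 (Good.n0 L01304 (Good.n3 L01305 L01306)) L01307)) L01308)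
theorem g00180 : Good (Phi V4.P V4.D 1 1) ⟨5, 27, 4, 9, 2, 1, 3, 6, 2, 1⟩ :=
  Good.n0 L01318 (Good.n3 L01319 (Good.n4 (Good.n1 L01320 (Good.n0 L01321 L01322)) (Good.n2 L01323 L01324)))
theorem g00181 : Good (Phi V4.P V4.D 1 1) ⟨4, 13, 3, 4, 2, 1, 3, 6, 2, 1⟩ :=
  Good.n0 L01312 (Good.n1 (Good.n3 L01313 (Good.n0 L01314 (Good.n1 L01315 (Good.n0 L01316 L01317)))) g00180)
theorem g00182 : Good (Phi V4.P V4.D 1 1) ⟨5, 27, 4, 8, 2, 1, 3, 7, 3, 2⟩ :=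
  Good.n3 (Good.n2 L01331 L01332) (Good.n0 L01333 (Good.n3 L01334 (Good.n2 (Good.n3 L01335 L01336) L01337)))
theorem g00183 : Good (Phi V4.P V4.D 1 1) ⟨7, 110, 5, 18, 2, 1, 3, 7, 3, 2⟩ :=
  Good.n1 (Good.n3 (Good.n2 L01342 L01343) (Good.n3 L01344 L01345)) (Good.n0 L01346 (Good.n1 (Good.n0 L01347 (Good.n1 (Good.n0 L01348 L01349) L01350)) L01351))
theorem g00184 : Good (Phi V4.P V4.D 1 1) ⟨6, 55, 5, 18, 2, 1, 3, 7, 2, 1⟩ :=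
  Good.n4 (Good.n0 g00183 L01352) (Good.n3 (Good.n2 (Good.n3 L01353 L01354) L01355) (Good.n0 L01356 L01357))
theorem g00185 : Good (Phi V4.P V4.D 1 1) ⟨5, 27, 3, 4, 2, 1, 3, 7, 2, 1⟩ :=
  Good.n1 (Good.n4 g00182 (Good.n3 (Good.n2 L01338 L01339) L01340)) (Good.n0 L01341 (Good.n1 g00184 (Good.n0 L01358 L01359)))
theorem g00186 : Good (Phi V4.P V4.D 1 1) ⟨1, 1, 1, 1, 2, 1, 3, 7, 2, 1⟩ :=
  Good.n0 L01328 (Good.n0 (Good.n1 (Good.n0 L01329 (Good.n1 (Good.n0 L01330 g00185) L01360)) L01361) L01362)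
theorem g00187 : Good (Phi V4.P V4.D 1 1) ⟨1, 1, 1, 1, 2, 1, 2, 3, 2, 1⟩ :=
  Good.n3 (Good.n0 L01310 (Good.n0 (Good.n1 (Good.n0 L01311 (Good.n1 g00181 L01325)) L01326) L01327)) g00186
theorem g00188 : Good (Phi V4.P V4.D 1 1) ⟨1, 1, 1, 1, 1, 0, 1, 1, 2, 1⟩ :=
  Good.n2 (Good.n3 (Good.n0 L01247 (Good.n0 g00173 L01255)) g00178) (Good.n3 (Good.n0 L01296 (Good.n0 g00179 L01309)) g00187)
theorem g00189 : Good (Phi V4.P V4.D 1 1) ⟨1, 1, 1, 1, 1, 0, 1, 1, 1, 0⟩ :=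
  Good.n4 (Good.n2 (Good.n3 (Good.n0 L01088 (Good.n0 (Good.n1 L01089 L01090) L01091)) g00166) g00172) g00188
theorem g00190 : Good (Phi V4.P V4.D 1 1) ⟨1, 1, 1, 1, 1, 0, 0, 0, 1, 0⟩ :=
  Good.n3 (Good.n0 L01042 (Good.n1 (Good.n4 g00148 (Good.n0 g00150 L01085)) (Good.n0 L01086 L01087))) g00189
theorem g00191 : Good (Phi V4.P V4.D 1 1) ⟨5, 27, 3, 4, 3, 5, 2, 0, 4, 0⟩ :=
  Good.n1 (Good.n3 L01367 L01368) (Good.n0 L01369 (Good.n1 (Good.n0 L01370 L01371) (Good.n0 L01372 L01373)))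
theorem g00192 : Good (Phi V4.P V4.D 1 1) ⟨5, 27, 3, 4, 2, 2, 1, 0, 3, 0⟩ :=
  Good.n4 (Good.n2 L01366 (Good.n3 g00191 (Good.n1 L01374 L01375))) (Good.n2 L01376 (Good.n3 L01377 L01378))
theorem g00193 : Good (Phi V4.P V4.D 1 1) ⟨1, 1, 1, 1, 2, 2, 1, 0, 3, 0⟩ :=
  Good.n0 L01363 (Good.n0 (Good.n0 L01364 (Good.n1 (Good.n1 (Good.n0 L01365 g00192) L01379) L01380)) L01381)
theorem g00194 : Good (Phi V4.P V4.D 1 1) ⟨4, 13, 3, 4, 2, 2, 1, 0, 3, 1⟩ :=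
  Good.n4 (Good.n0 L01384 (Good.n3 L01385 L01386)) (Good.n0 L01387 (Good.n1 L01388 (Good.n3 L01389 L01390)))
theorem g00195 : Good (Phi V4.P V4.D 1 1) ⟨1, 1, 1, 1, 2, 2, 1, 0, 2, 0⟩ :=
  Good.n4 g00193 (Good.n0 L01382 (Good.n0 (Good.n1 (Good.n0 L01383 (Good.n1 g00194 L01391)) L01392) L01393))
theorem g00196 : Good (Phi V4.P V4.D 1 1) ⟨7, 110, 5, 18, 4, 12, 3, 0, 4, 0⟩ :=
  Good.n1 (Good.n4 L01401 L01402) (Good.n0 L01403 (Good.n1 (Good.n0 L01404 (Good.n1 (Good.n0 L01405 L01406) L01407)) L01408))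
theorem g00197 : Good (Phi V4.P V4.D 1 1) ⟨5, 27, 3, 4, 4, 12, 3, 0, 4, 0⟩ :=
  Good.n1 (Good.n0 L01397 (Good.n1 L01398 L01399)) (Good.n0 L01400 (Good.n1 (Good.n0 g00196 L01409) (Good.n0 L01410 L01411)))
theorem g00198 : Good (Phi V4.P V4.D 1 1) ⟨5, 27, 3, 4, 5, 26, 3, 0, 5, 0⟩ :=
  Good.n1 (Good.n0 L01415 L01416) (Good.n0 L01417 (Good.n1 (Good.n0 (Good.n4 L01418 L01419) L01420) (Good.n0 L01421 L01422)))
theorem g00199 : Good (Phi V4.P V4.D 1 1) ⟨4, 13, 3, 4, 5, 26, 3, 0, 4, 0⟩ :=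
  Good.n0 L01414 (Good.n4 g00198 (Good.n1 L01423 (Good.n0 L01424 (Good.n1 L01425 (Good.n0 L01426 L01427)))))
theorem g00200 : Good (Phi V4.P V4.D 1 1) ⟨7, 110, 5, 18, 5, 27, 3, 0, 5, 0⟩ :=
  Good.n1 (Good.n4 (Good.n3 L01436 L01437) L01438) (Good.n0 L01439 (Good.n1 (Good.n0 L01440 (Good.n1 (Good.n0 L01441 L01442) L01443)) L01444))
theorem g00201 : Good (Phi V4.P V4.D 1 1) ⟨5, 27, 3, 4, 5, 27, 3, 0, 5, 0⟩ :=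
  Good.n1 (Good.n0 (Good.n4 (Good.n1 L01429 L01430) L01431) (Good.n1 L01432 (Good.n0 L01433 L01434))) (Good.n0 L01435 (Good.n1 (Good.n0 g00200 L01445) (Good.n0 L01446 L01447)))
theorem g00202 : Good (Phi V4.P V4.D 1 1) ⟨4, 13, 3, 4, 5, 27, 3, 0, 4, 0⟩ :=
  Good.n0 L01428 (Good.n4 g00201 (Good.n1 L01448 (Good.n0 L01449 (Good.n1 L01450 (Good.n0 L01451 L01452)))))
theorem g00203 : Good (Phi V4.P V4.D 1 1) ⟨2, 3, 3, 4, 3, 6, 3, 0, 4, 0⟩ :=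
  Good.n2 (Good.n0 (Good.n0 L01395 (Good.n0 L01396 g00197)) L01412) (Good.n0 (Good.n0 L01413 (Good.n2 g00199 g00202)) L01453)
theorem g00204 : Good (Phi V4.P V4.D 1 1) ⟨4, 13, 3, 4, 3, 6, 3, 0, 4, 1⟩ :=
  Good.n0 L01455 (Good.n1 L01456 (Good.n3 (Good.n0 L01457 (Good.n1 L01458 (Good.n0 L01459 L01460))) L01461))
theorem g00205 : Good (Phi V4.P V4.D 1 1) ⟨5, 27, 4, 9, 3, 6, 3, 1, 4, 0⟩ :=
  Good.n0 L01470 (Good.n1 (Good.n0 (Good.n2 L01471 (Good.n4 L01472 L01473)) L01474) (Good.n0 L01475 L01476))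
theorem g00206 : Good (Phi V4.P V4.D 1 1) ⟨4, 13, 3, 4, 3, 6, 3, 1, 4, 0⟩ :=
  Good.n0 L01464 (Good.n1 (Good.n0 (Good.n1 L01465 L01466) (Good.n1 L01467 (Good.n0 L01468 L01469))) g00205)
theorem g00207 : Good (Phi V4.P V4.D 1 1) ⟨2, 3, 3, 4, 3, 6, 3, 1, 3, 0⟩ :=
  Good.n0 (Good.n4 (Good.n0 L01463 g00206) (Good.n0 L01477 (Good.n0 L01478 (Good.n1 L01479 L01480)))) L01481
theorem g00208 : Good (Phi V4.P V4.D 1 1) ⟨7, 110, 5, 18, 4, 13, 2, 1, 4, 0⟩ :=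
  Good.n1 L01490 (Good.n0 L01491 (Good.n1 (Good.n0 L01492 (Good.n1 (Good.n0 L01493 L01494) L01495)) L01496))
theorem g00209 : Good (Phi V4.P V4.D 1 1) ⟨5, 27, 3, 4, 3, 6, 2, 1, 4, 0⟩ :=
  Good.n1 (Good.n0 (Good.n2 L01484 (Good.n4 L01485 L01486)) L01487) (Good.n0 L01488 (Good.n1 (Good.n0 (Good.n2 L01489 g00208) L01497) (Good.n0 L01498 L01499)))
theorem g00210 : Good (Phi V4.P V4.D 1 1) ⟨2, 3, 3, 4, 3, 6, 2, 1, 3, 0⟩ :=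
  Good.n4 (Good.n0 (Good.n0 L01482 (Good.n0 L01483 g00209)) L01500) (Good.n0 (Good.n0 L01501 (Good.n0 L01502 (Good.n4 (Good.n1 L01503 L01504) L01505))) L01506)
theorem g00211 : Good (Phi V4.P V4.D 1 1) ⟨6, 54, 5, 16, 3, 7, 2, 0, 4, 0⟩ :=
  Good.n0 (Good.n4 (Good.n3 L01509 L01510) L01511) (Good.n1 L01512 (Good.n0 (Good.n4 L01513 L01514) L01515))
theorem g00212 : Good (Phi V4.P V4.D 1 1) ⟨7, 109, 5, 17, 3, 7, 2, 0, 5, 0⟩ :=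
  Good.n2 (Good.n1 (Good.n3 L01517 L01518) (Good.n3 L01519 L01520)) (Good.n1 (Good.n3 L01521 L01522) (Good.n3 L01523 L01524))
theorem g00213 : Good (Phi V4.P V4.D 1 1) ⟨7, 110, 6, 35, 3, 7, 3, 0, 4, 0⟩ :=
  Good.n4 (Good.n0 (Good.n1 L01528 (Good.n2 (Good.n3 L01529 L01530) (Good.n0 L01531 L01532))) L01533) L01534
theorem g00214 : Good (Phi V4.P V4.D 1 1) ⟨6, 55, 5, 17, 3, 7, 2, 0, 4, 0⟩ :=
  Good.n0 (Good.n3 (Good.n1 L01527 g00213) (Good.n1 L01535 (Good.n0 (Good.n4 L01536 L01537) L01538))) L01539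
theorem g00215 : Good (Phi V4.P V4.D 1 1) ⟨5, 27, 4, 8, 3, 7, 2, 1, 4, 0⟩ :=
  Good.n0 (Good.n1 L01540 (Good.n0 L01541 (Good.n1 (Good.n0 L01542 L01543) (Good.n0 L01544 L01545)))) (Good.n1 L01546 (Good.n0 (Good.n1 L01547 (Good.n0 (Good.n4 L01548 L01549) L01550)) L01551))
theorem g00216 : Good (Phi V4.P V4.D 1 1) ⟨5, 27, 4, 8, 3, 7, 1, 0, 4, 0⟩ :=
  Good.n3 (Good.n0 (Good.n1 g00211 (Good.n0 L01516 (Good.n4 g00212 L01525))) (Good.n1 L01526 g00214)) g00215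
theorem g00217 : Good (Phi V4.P V4.D 1 1) ⟨9, 442, 7, 72, 4, 14, 3, 0, 5, 0⟩ :=
  Good.n0 (Good.n1 (Good.n3 (Good.n3 L01558 L01559) L01560) (Good.n3 L01561 L01562)) (Good.n3 (Good.n3 L01563 L01564) L01565)
theorem g00218 : Good (Phi V4.P V4.D 1 1) ⟨7, 110, 5, 18, 4, 14, 3, 0, 5, 0⟩ :=
  Good.n1 (Good.n0 (Good.n3 L01556 L01557) (Good.n1 (Good.n0 g00217 L01566) (Good.n4 L01567 L01568))) (Good.n0 L01569 (Good.n1 (Good.n0 L01570 (Good.n1 (Good.n0 L01571 L01572) L01573)) L01574))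
theorem g00219 : Good (Phi V4.P V4.D 1 1) ⟨7, 110, 5, 18, 4, 15, 3, 0, 5, 0⟩ :=
  Good.n1 (Good.n0 L01575 (Good.n4 L01576 L01577)) (Good.n0 L01578 (Good.n1 (Good.n0 L01579 (Good.n1 (Good.n0 L01580 L01581) L01582)) L01583))
theorem g00220 : Good (Phi V4.P V4.D 1 1) ⟨4, 13, 4, 9, 3, 7, 3, 0, 5, 0⟩ :=
  Good.n0 L01554 (Good.n0 L01555 (Good.n1 (Good.n0 (Good.n2 g00218 g00219) L01584) (Good.n0 L01585 L01586)))
theorem g00221 : Good (Phi V4.P V4.D 1 1) ⟨7, 110, 5, 18, 3, 7, 3, 1, 5, 0⟩ :=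
  Good.n1 (Good.n0 L01589 L01590) (Good.n0 L01591 (Good.n1 (Good.n0 L01592 (Good.n1 (Good.n0 L01593 L01594) L01595)) L01596))
theorem g00222 : Good (Phi V4.P V4.D 1 1) ⟨4, 13, 4, 9, 3, 7, 2, 0, 5, 0⟩ :=
  Good.n3 g00220 (Good.n0 L01587 (Good.n0 L01588 (Good.n1 (Good.n0 g00221 L01597) (Good.n0 L01598 L01599))))
theorem g00223 : Good (Phi V4.P V4.D 1 1) ⟨6, 55, 4, 9, 3, 7, 2, 1, 5, 0⟩ :=
  Good.n1 (Good.n2 (Good.n0 (Good.n4 L01602 L01603) L01604) (Good.n0 L01605 L01606)) (Good.n0 L01607 L01608)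
theorem g00224 : Good (Phi V4.P V4.D 1 1) ⟨6, 55, 4, 9, 3, 7, 1, 0, 5, 1⟩ :=
  Good.n1 (Good.n3 (Good.n2 (Good.n0 (Good.n3 L01611 L01612) L01613) (Good.n0 L01614 L01615)) L01616) (Good.n0 L01617 L01618)
theorem g00225 : Good (Phi V4.P V4.D 1 1) ⟨4, 13, 4, 9, 3, 7, 1, 0, 4, 0⟩ :=
  Good.n4 (Good.n3 g00222 (Good.n0 L01600 (Good.n0 L01601 g00223))) (Good.n0 L01609 (Good.n0 L01610 g00224))
theorem g00226 : Good (Phi V4.P V4.D 1 1) ⟨2, 3, 3, 4, 3, 7, 1, 0, 4, 0⟩ :=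
  Good.n1 (Good.n0 (Good.n0 L01507 (Good.n0 L01508 g00216)) L01552) (Good.n0 (Good.n0 L01553 g00225) L01619)
theorem g00227 : Good (Phi V4.P V4.D 1 1) ⟨5, 27, 3, 4, 3, 7, 2, 0, 5, 2⟩ :=
  Good.n2 (Good.n1 L01622 (Good.n0 L01623 (Good.n1 L01624 (Good.n0 L01625 L01626)))) (Good.n1 L01627 (Good.n3 (Good.n0 L01628 (Good.n1 L01629 (Good.n0 L01630 L01631))) L01632))
theorem g00228 : Good (Phi V4.P V4.D 1 1) ⟨5, 27, 4, 9, 3, 7, 2, 0, 5, 3⟩ :=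
  Good.n0 L01634 (Good.n3 (Good.n1 (Good.n3 (Good.n3 L01635 L01636) L01637) (Good.n0 L01638 L01639)) L01640)
theorem g00229 : Good (Phi V4.P V4.D 1 1) ⟨4, 13, 3, 4, 3, 7, 1, 0, 4, 1⟩ :=
  Good.n0 L01621 (Good.n3 (Good.n4 g00227 (Good.n1 L01633 g00228)) (Good.n4 (Good.n1 L01641 L01642) L01643))
theorem g00230 : Good (Phi V4.P V4.D 1 1) ⟨2, 3, 3, 4, 2, 3, 1, 0, 3, 0⟩ :=
  Good.n2 (Good.n3 (Good.n3 (Good.n4 g00203 (Good.n0 (Good.n0 L01454 g00204) L01462)) g00207) g00210) (Good.n4 g00226 (Good.n0 (Good.n0 L01620 g00229) L01644))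
theorem g00231 : Good (Phi V4.P V4.D 1 1) ⟨5, 27, 3, 4, 3, 6, 1, 0, 4, 2⟩ :=
  Good.n1 (Good.n3 L01650 L01651) (Good.n0 L01652 (Good.n3 (Good.n1 L01653 (Good.n0 L01654 L01655)) L01656))
theorem g00232 : Good (Phi V4.P V4.D 1 1) ⟨7, 110, 5, 18, 3, 7, 1, 0, 4, 2⟩ :=
  Good.n1 (Good.n0 (Good.n3 L01661 L01662) (Good.n1 (Good.n3 L01663 L01664) (Good.n3 L01665 L01666))) (Good.n0 L01667 (Good.n1 (Good.n0 L01668 (Good.n1 (Good.n0 L01669 L01670) L01671)) L01672))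
theorem g00233 : Good (Phi V4.P V4.D 1 1) ⟨5, 27, 3, 4, 3, 7, 1, 0, 4, 2⟩ :=
  Good.n1 (Good.n3 L01658 L01659) (Good.n0 L01660 (Good.n1 (Good.n0 g00232 L01673) (Good.n0 L01674 L01675)))
theorem g00234 : Good (Phi V4.P V4.D 1 1) ⟨7, 110, 5, 18, 2, 3, 2, 0, 4, 3⟩ :=
  Good.n1 (Good.n0 (Good.n1 L01679 L01680) (Good.n3 L01681 L01682)) (Good.n0 L01683 (Good.n1 (Good.n0 L01684 (Good.n1 (Good.n0 L01685 L01686) L01687)) L01688))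
theorem g00235 : Good (Phi V4.P V4.D 1 1) ⟨5, 27, 3, 4, 2, 3, 1, 0, 4, 3⟩ :=
  Good.n3 (Good.n1 L01677 (Good.n0 L01678 (Good.n1 (Good.n0 g00234 L01689) (Good.n0 L01690 L01691)))) (Good.n1 L01692 (Good.n0 L01693 (Good.n1 (Good.n0 L01694 L01695) (Good.n0 L01696 L01697))))
theorem g00236 : Good (Phi V4.P V4.D 1 1) ⟨4, 13, 2, 2, 2, 3, 1, 0, 3, 1⟩ :=
  Good.n1 (Good.n4 (Good.n2 (Good.n0 L01649 g00231) (Good.n0 L01657 g00233)) (Good.n0 L01676 g00235)) L01698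
theorem g00237 : Good (Phi V4.P V4.D 1 1) ⟨1, 1, 2, 2, 2, 3, 1, 0, 2, 0⟩ :=
  Good.n4 (Good.n0 L01394 (Good.n1 g00230 (Good.n0 L01645 L01646))) (Good.n0 L01647 (Good.n0 (Good.n0 L01648 g00236) L01699))
theorem g00238 : Good (Phi V4.P V4.D 1 1) ⟨5, 27, 3, 4, 2, 2, 1, 0, 3, 2⟩ :=
  Good.n1 (Good.n4 L01706 L01707) (Good.n0 L01708 (Good.n1 (Good.n0 (Good.n3 L01709 L01710) L01711) (Good.n0 L01712 L01713)))
theorem g00239 : Good (Phi V4.P V4.D 1 1) ⟨4, 13, 2, 2, 2, 2, 1, 0, 2, 1⟩ :=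
  Good.n4 (Good.n1 (Good.n0 L01705 g00238) L01714) (Good.n1 (Good.n0 L01715 (Good.n3 L01716 L01717)) L01718)
theorem g00240 : Good (Phi V4.P V4.D 1 1) ⟨7, 110, 5, 18, 3, 7, 3, 0, 4, 4⟩ :=
  Good.n1 L01727 (Good.n0 L01728 (Good.n1 (Good.n0 L01729 (Good.n1 (Good.n0 L01730 L01731) L01732)) L01733))
theorem g00241 : Good (Phi V4.P V4.D 1 1) ⟨5, 27, 4, 9, 2, 3, 2, 0, 4, 4⟩ :=
  Good.n0 L01725 (Good.n1 (Good.n0 (Good.n3 (Good.n2 L01726 g00240) L01734) L01735) (Good.n0 L01736 L01737))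
theorem g00242 : Good (Phi V4.P V4.D 1 1) ⟨4, 13, 2, 2, 2, 3, 1, 0, 4, 4⟩ :=
  Good.n1 (Good.n0 L01723 (Good.n3 (Good.n1 L01724 g00241) (Good.n1 L01738 (Good.n2 L01739 L01740)))) L01741
theorem g00243 : Good (Phi V4.P V4.D 1 1) ⟨5, 27, 3, 4, 2, 3, 1, 0, 4, 5⟩ :=
  Good.n3 (Good.n1 L01743 (Good.n3 (Good.n1 L01744 (Good.n0 L01745 (Good.n0 L01746 L01747))) L01748)) L01749
theorem g00244 : Good (Phi V4.P V4.D 1 1) ⟨2, 3, 1, 1, 2, 3, 1, 0, 3, 2⟩ :=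
  Good.n0 (Good.n1 (Good.n0 L01722 (Good.n4 g00242 (Good.n1 (Good.n0 L01742 g00243) L01750))) L01751) L01752
theorem g00245 : Good (Phi V4.P V4.D 1 1) ⟨2, 3, 1, 1, 2, 3, 1, 0, 3, 3⟩ :=
  Good.n0 (Good.n3 (Good.n2 (Good.n1 (Good.n0 L01753 (Good.n1 L01754 L01755)) L01756) L01757) L01758) L01759
theorem g00246 : Good (Phi V4.P V4.D 1 1) ⟨1, 1, 1, 1, 1, 1, 1, 0, 2, 1⟩ :=
  Good.n2 (Good.n0 L01703 (Good.n0 (Good.n1 (Good.n0 L01704 g00239) L01719) L01720)) (Good.n0 L01721 (Good.n4 g00244 g00245))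
theorem g00247 : Good (Phi V4.P V4.D 1 1) ⟨2, 3, 2, 2, 3, 4, 3, 6, 2, 0⟩ :=
  Good.n0 (Good.n0 L01766 (Good.n4 (Good.n1 L01767 L01768) (Good.n1 (Good.n0 L01769 L01770) L01771))) L01772
theorem g00248 : Good (Phi V4.P V4.D 1 1) ⟨5, 27, 3, 4, 3, 4, 4, 14, 3, 1⟩ :=
  Good.n1 (Good.n4 L01781 L01782) (Good.n0 L01783 (Good.n1 (Good.n0 L01784 L01785) (Good.n0 L01786 L01787)))
theorem g00249 : Good (Phi V4.P V4.D 1 1) ⟨4, 13, 2, 2, 3, 4, 4, 14, 2, 0⟩ :=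
  Good.n4 (Good.n1 (Good.n0 L01774 (Good.n4 (Good.n0 L01775 L01776) (Good.n0 L01777 L01778))) L01779) (Good.n1 (Good.n0 L01780 g00248) L01788)
theorem g00250 : Good (Phi V4.P V4.D 1 1) ⟨5, 27, 3, 4, 3, 4, 5, 30, 2, 0⟩ :=
  Good.n1 (Good.n0 (Good.n4 L01792 L01793) (Good.n1 L01794 (Good.n0 L01795 L01796))) (Good.n0 L01797 (Good.n4 (Good.n0 L01798 L01799) L01800))
theorem g00251 : Good (Phi V4.P V4.D 1 1) ⟨7, 110, 5, 18, 3, 4, 5, 31, 2, 0⟩ :=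
  Good.n1 (Good.n4 L01809 L01810) (Good.n0 L01811 (Good.n1 (Good.n0 L01812 (Good.n1 (Good.n0 L01813 L01814) L01815)) L01816))
theorem g00252 : Good (Phi V4.P V4.D 1 1) ⟨5, 27, 3, 4, 3, 4, 5, 31, 2, 0⟩ :=
  Good.n1 (Good.n0 (Good.n4 L01803 L01804) (Good.n1 L01805 (Good.n4 L01806 L01807))) (Good.n0 L01808 (Good.n1 (Good.n0 g00251 L01817) (Good.n0 L01818 L01819)))
theorem g00253 : Good (Phi V4.P V4.D 1 1) ⟨3, 6, 2, 2, 3, 4, 4, 15, 2, 0⟩ :=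
  Good.n0 L01790 (Good.n3 (Good.n1 (Good.n0 L01791 g00250) L01801) (Good.n1 (Good.n0 L01802 g00252) L01820))
theorem g00254 : Good (Phi V4.P V4.D 1 1) ⟨2, 3, 2, 2, 3, 4, 1, 1, 2, 0⟩ :=
  Good.n3 (Good.n0 (Good.n4 (Good.n0 L01761 (Good.n1 L01762 L01763)) L01764) L01765) (Good.n3 g00247 (Good.n3 (Good.n0 (Good.n0 L01773 g00249) L01789) (Good.n0 g00253 L01821)))
theorem g00255 : Good (Phi V4.P V4.D 1 1) ⟨6, 55, 4, 9, 3, 4, 2, 3, 2, 1⟩ :=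
  Good.n3 (Good.n1 (Good.n3 L01830 L01831) (Good.n0 L01832 L01833)) (Good.n4 (Good.n1 (Good.n3 L01834 L01835) (Good.n0 L01836 L01837)) L01838)
theorem g00256 : Good (Phi V4.P V4.D 1 1) ⟨5, 27, 3, 4, 3, 4, 1, 1, 2, 1⟩ :=
  Good.n1 (Good.n3 L01824 (Good.n3 (Good.n3 L01825 L01826) L01827)) (Good.n3 L01828 (Good.n0 L01829 g00255))
theorem g00257 : Good (Phi V4.P V4.D 1 1) ⟨2, 3, 1, 1, 3, 4, 1, 1, 1, 0⟩ :=
  Good.n1 (Good.n4 g00254 (Good.n0 (Good.n0 L01822 (Good.n1 (Good.n0 L01823 g00256) L01839)) L01840)) (Good.n0 L01841 L01842)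
theorem g00258 : Good (Phi V4.P V4.D 1 1) ⟨2, 3, 3, 4, 3, 5, 2, 2, 3, 0⟩ :=
  Good.n0 (Good.n0 L01843 (Good.n0 L01844 (Good.n4 (Good.n2 L01845 (Good.n1 L01846 L01847)) L01848))) L01849
theorem g00259 : Good (Phi V4.P V4.D 1 1) ⟨5, 27, 3, 4, 3, 5, 3, 6, 4, 0⟩ :=
  Good.n2 (Good.n1 L01857 L01858) (Good.n1 L01859 (Good.n0 L01860 (Good.n1 L01861 (Good.n0 L01862 L01863))))
theorem g00260 : Good (Phi V4.P V4.D 1 1) ⟨4, 13, 3, 4, 3, 5, 3, 6, 2, 0⟩ :=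
  Good.n0 L01856 (Good.n4 (Good.n4 g00259 (Good.n1 L01864 L01865)) (Good.n4 L01866 (Good.n1 L01867 L01868)))
theorem g00261 : Good (Phi V4.P V4.D 1 1) ⟨7, 110, 4, 8, 3, 5, 3, 7, 3, 0⟩ :=
  Good.n1 L01875 (Good.n1 L01876 (Good.n0 (Good.n1 (Good.n4 L01877 L01878) (Good.n3 L01879 L01880)) L01881))
theorem g00262 : Good (Phi V4.P V4.D 1 1) ⟨3, 6, 4, 8, 3, 5, 3, 7, 3, 0⟩ :=
  Good.n0 L01870 (Good.n0 L01871 (Good.n0 (Good.n1 (Good.n0 L01872 L01873) L01874) (Good.n0 g00261 L01882)))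
theorem g00263 : Good (Phi V4.P V4.D 1 1) ⟨3, 6, 4, 8, 3, 5, 3, 7, 3, 1⟩ :=
  Good.n0 L01883 (Good.n0 L01884 (Good.n0 (Good.n3 L01885 L01886) (Good.n1 L01887 (Good.n3 L01888 L01889))))
theorem g00264 : Good (Phi V4.P V4.D 1 1) ⟨3, 6, 5, 18, 3, 5, 3, 7, 3, 0⟩ :=
  Good.n0 L01890 (Good.n0 L01891 (Good.n0 L01892 (Good.n0 (Good.n3 L01893 (Good.n4 L01894 L01895)) L01896)))
theorem g00265 : Good (Phi V4.P V4.D 1 1) ⟨7, 110, 5, 18, 3, 5, 3, 7, 3, 1⟩ :=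
  Good.n1 (Good.n3 L01900 L01901) (Good.n0 L01902 (Good.n1 (Good.n0 L01903 (Good.n1 (Good.n0 L01904 L01905) L01906)) L01907))
theorem g00266 : Good (Phi V4.P V4.D 1 1) ⟨3, 6, 4, 9, 3, 5, 3, 7, 2, 0⟩ :=
  Good.n1 (Good.n4 g00264 (Good.n0 L01897 (Good.n0 L01898 (Good.n0 L01899 (Good.n0 g00265 L01908))))) (Good.n0 L01909 (Good.n0 L01910 (Good.n0 L01911 (Good.n0 L01912 L01913))))
theorem g00267 : Good (Phi V4.P V4.D 1 1) ⟨3, 6, 3, 4, 3, 5, 2, 3, 1, 0⟩ :=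
  Good.n3 (Good.n4 (Good.n0 L01855 g00260) L01869) (Good.n4 (Good.n1 (Good.n4 g00262 g00263) g00266) L01914)
theorem g00268 : Good (Phi V4.P V4.D 1 1) ⟨2, 3, 3, 4, 3, 5, 1, 1, 1, 0⟩ :=
  Good.n3 (Good.n4 (Good.n4 g00258 (Good.n0 L01850 L01851)) (Good.n0 (Good.n0 L01852 L01853) L01854)) (Good.n0 g00267 L01915)
theorem g00269 : Good (Phi V4.P V4.D 1 1) ⟨1, 1, 1, 1, 2, 2, 1, 1, 1, 0⟩ :=
  Good.n0 L01760 (Good.n2 g00257 (Good.n1 (Good.n1 g00268 (Good.n0 L01916 L01917)) (Good.n0 L01918 L01919)))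
theorem g00270 : Good (Phi V4.P V4.D 1 1) ⟨5, 27, 4, 8, 2, 3, 3, 4, 4, 0⟩ :=
  Good.n0 (Good.n2 L01923 (Good.n1 L01924 L01925)) (Good.n1 L01926 (Good.n0 (Good.n1 L01927 (Good.n0 (Good.n2 L01928 L01929) L01930)) L01931))
theorem g00271 : Good (Phi V4.P V4.D 1 1) ⟨6, 55, 4, 9, 3, 7, 3, 4, 4, 0⟩ :=
  Good.n1 (Good.n0 (Good.n2 (Good.n4 L01937 L01938) (Good.n4 L01939 L01940)) L01941) (Good.n0 L01942 L01943)
theorem g00272 : Good (Phi V4.P V4.D 1 1) ⟨5, 27, 3, 4, 2, 3, 3, 4, 4, 0⟩ :=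
  Good.n1 g00270 (Good.n0 L01932 (Good.n2 (Good.n1 (Good.n0 L01933 L01934) (Good.n0 L01935 L01936)) g00271))
theorem g00273 : Good (Phi V4.P V4.D 1 1) ⟨5, 27, 3, 4, 2, 3, 3, 4, 4, 1⟩ :=
  Good.n2 (Good.n1 L01944 (Good.n0 L01945 (Good.n1 L01946 (Good.n0 L01947 L01948)))) (Good.n4 (Good.n2 (Good.n1 L01949 L01950) (Good.n1 L01951 L01952)) L01953)
theorem g00274 : Good (Phi V4.P V4.D 1 1) ⟨4, 13, 2, 2, 2, 3, 3, 4, 3, 1⟩ :=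
  Good.n1 (Good.n4 (Good.n0 L01955 (Good.n1 L01956 L01957)) (Good.n0 L01958 (Good.n1 L01959 L01960))) L01961
theorem g00275 : Good (Phi V4.P V4.D 1 1) ⟨5, 27, 3, 4, 3, 6, 3, 5, 4, 0⟩ :=
  Good.n1 (Good.n0 L01963 L01964) (Good.n0 L01965 (Good.n1 (Good.n0 L01966 L01967) (Good.n0 L01968 L01969)))
theorem g00276 : Good (Phi V4.P V4.D 1 1) ⟨5, 27, 3, 4, 3, 7, 3, 5, 4, 0⟩ :=
  Good.n1 (Good.n0 (Good.n1 L01970 L01971) L01972) (Good.n0 L01973 (Good.n1 (Good.n0 (Good.n2 L01974 L01975) L01976) (Good.n0 L01977 L01978)))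
theorem g00277 : Good (Phi V4.P V4.D 1 1) ⟨5, 27, 3, 4, 3, 7, 3, 5, 4, 1⟩ :=
  Good.n4 (Good.n2 (Good.n1 L01984 L01985) (Good.n1 L01986 L01987)) (Good.n2 (Good.n1 L01988 L01989) L01990)
theorem g00278 : Good (Phi V4.P V4.D 1 1) ⟨4, 13, 2, 2, 2, 3, 3, 5, 3, 0⟩ :=
  Good.n4 (Good.n1 (Good.n0 L01962 (Good.n2 g00275 g00276)) L01979) (Good.n1 (Good.n0 L01980 (Good.n2 (Good.n1 L01981 (Good.n0 L01982 L01983)) g00277)) L01991)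
theorem g00279 : Good (Phi V4.P V4.D 1 1) ⟨5, 27, 4, 8, 2, 3, 3, 5, 3, 1⟩ :=
  Good.n0 (Good.n1 L01993 (Good.n0 L01994 L01995)) (Good.n1 L01996 (Good.n0 (Good.n1 L01997 L01998) L01999))
theorem g00280 : Good (Phi V4.P V4.D 1 1) ⟨7, 110, 5, 18, 2, 3, 3, 5, 3, 1⟩ :=
  Good.n1 (Good.n2 L02001 L02002) (Good.n0 L02003 (Good.n1 (Good.n0 L02004 (Good.n1 (Good.n0 L02005 L02006) L02007)) L02008))
theorem g00281 : Good (Phi V4.P V4.D 1 1) ⟨4, 13, 3, 4, 2, 3, 3, 5, 3, 1⟩ :=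
  Good.n0 L01992 (Good.n1 g00279 (Good.n0 L02000 (Good.n1 (Good.n0 g00280 L02009) (Good.n0 L02010 L02011))))
theorem g00282 : Good (Phi V4.P V4.D 1 1) ⟨4, 13, 2, 2, 2, 3, 2, 2, 2, 0⟩ :=
  Good.n3 (Good.n4 (Good.n1 (Good.n0 L01922 (Good.n4 g00272 g00273)) L01954) g00274) (Good.n4 g00278 (Good.n1 g00281 L02012))
theorem g00283 : Good (Phi V4.P V4.D 1 1) ⟨4, 13, 1, 1, 2, 3, 2, 2, 1, 0⟩ :=
  Good.n1 (Good.n4 g00282 (Good.n4 (Good.n1 (Good.n0 L02013 (Good.n2 L02014 L02015)) L02016) L02017)) L02018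
theorem g00284 : Good (Phi V4.P V4.D 1 1) ⟨6, 54, 4, 8, 2, 3, 3, 6, 3, 0⟩ :=
  Good.n1 (Good.n2 L02022 (Good.n4 L02023 L02024)) (Good.n0 L02025 (Good.n2 L02026 (Good.n4 L02027 L02028)))
theorem g00285 : Good (Phi V4.P V4.D 1 1) ⟨5, 27, 4, 8, 2, 3, 3, 6, 3, 0⟩ :=
  Good.n0 g00284 (Good.n1 L02029 (Good.n0 (Good.n1 L02030 (Good.n0 (Good.n2 L02031 L02032) L02033)) L02034))
theorem g00286 : Good (Phi V4.P V4.D 1 1) ⟨6, 55, 5, 18, 2, 3, 3, 6, 3, 0⟩ :=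
  Good.n2 (Good.n4 (Good.n0 L02036 L02037) L02038) (Good.n4 (Good.n0 (Good.n2 L02039 L02040) L02041) L02042)
theorem g00287 : Good (Phi V4.P V4.D 1 1) ⟨4, 13, 3, 4, 3, 6, 3, 7, 4, 0⟩ :=
  Good.n1 (Good.n0 L02045 (Good.n0 L02046 L02047)) (Good.n0 L02048 (Good.n0 L02049 (Good.n1 (Good.n0 L02050 L02051) (Good.n0 L02052 L02053))))
theorem g00288 : Good (Phi V4.P V4.D 1 1) ⟨5, 27, 3, 4, 4, 14, 3, 7, 5, 1⟩ :=
  Good.n1 (Good.n0 L02060 L02061) (Good.n0 L02062 (Good.n1 (Good.n0 L02063 L02064) (Good.n0 L02065 L02066)))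
theorem g00289 : Good (Phi V4.P V4.D 1 1) ⟨4, 13, 3, 4, 4, 14, 3, 7, 4, 0⟩ :=
  Good.n0 L02054 (Good.n4 (Good.n0 (Good.n1 L02055 L02056) (Good.n1 L02057 (Good.n0 L02058 L02059))) g00288)
theorem g00290 : Good (Phi V4.P V4.D 1 1) ⟨5, 27, 3, 4, 5, 30, 3, 7, 4, 0⟩ :=
  Good.n0 (Good.n1 L02068 L02069) (Good.n1 L02070 (Good.n1 (Good.n0 L02071 L02072) (Good.n0 L02073 L02074)))
theorem g00291 : Good (Phi V4.P V4.D 1 1) ⟨4, 13, 3, 4, 4, 15, 3, 7, 4, 0⟩ :=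
  Good.n2 (Good.n0 L02067 g00290) (Good.n0 L02075 (Good.n1 (Good.n0 L02076 L02077) (Good.n0 L02078 (Good.n0 L02079 L02080))))
theorem g00292 : Good (Phi V4.P V4.D 1 1) ⟨5, 27, 3, 4, 4, 14, 4, 14, 4, 1⟩ :=
  Good.n1 (Good.n0 L02086 L02087) (Good.n0 L02088 (Good.n1 (Good.n0 L02089 L02090) (Good.n0 L02091 L02092)))
theorem g00293 : Good (Phi V4.P V4.D 1 1) ⟨5, 27, 3, 4, 2, 3, 4, 14, 4, 1⟩ :=
  Good.n2 (Good.n1 L02082 (Good.n0 L02083 (Good.n0 L02084 L02085))) (Good.n2 g00292 (Good.n1 L02093 (Good.n0 L02094 (Good.n0 L02095 L02096))))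
theorem g00294 : Good (Phi V4.P V4.D 1 1) ⟨6, 55, 4, 9, 2, 3, 4, 15, 4, 1⟩ :=
  Good.n2 (Good.n1 (Good.n0 L02103 L02104) (Good.n0 L02105 L02106)) (Good.n1 (Good.n0 L02107 L02108) (Good.n0 L02109 L02110))
theorem g00295 : Good (Phi V4.P V4.D 1 1) ⟨4, 13, 3, 4, 2, 3, 4, 15, 4, 1⟩ :=
  Good.n0 L02097 (Good.n1 (Good.n2 (Good.n0 L02098 L02099) (Good.n0 L02100 L02101)) (Good.n0 L02102 g00294))
theorem g00296 : Good (Phi V4.P V4.D 1 1) ⟨4, 13, 3, 4, 2, 3, 2, 3, 3, 0⟩ :=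
  Good.n3 (Good.n0 L02021 (Good.n1 g00285 (Good.n0 L02035 (Good.n1 g00286 (Good.n0 L02043 L02044))))) (Good.n4 (Good.n2 g00287 (Good.n2 g00289 g00291)) (Good.n3 (Good.n0 L02081 g00293) g00295))
theorem g00297 : Good (Phi V4.P V4.D 1 1) ⟨5, 27, 4, 8, 2, 3, 3, 7, 3, 1⟩ :=
  Good.n0 (Good.n4 (Good.n2 (Good.n3 L02119 L02120) L02121) L02122) (Good.n1 L02123 (Good.n0 (Good.n3 L02124 L02125) L02126))
theorem g00298 : Good (Phi V4.P V4.D 1 1) ⟨5, 27, 4, 9, 2, 3, 2, 3, 3, 1⟩ :=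
  Good.n0 L02127 (Good.n1 (Good.n0 (Good.n3 L02128 (Good.n3 L02129 L02130)) L02131) (Good.n0 L02132 L02133))
theorem g00299 : Good (Phi V4.P V4.D 1 1) ⟨5, 27, 3, 4, 2, 3, 2, 3, 3, 1⟩ :=
  Good.n1 (Good.n3 (Good.n0 (Good.n2 L02114 L02115) (Good.n1 L02116 (Good.n2 L02117 L02118))) g00297) g00298
theorem g00300 : Good (Phi V4.P V4.D 1 1) ⟨2, 3, 3, 4, 2, 3, 2, 3, 2, 0⟩ :=
  Good.n4 (Good.n0 (Good.n0 L02020 g00296) L02111) (Good.n0 (Good.n0 L02112 (Good.n0 L02113 g00299)) L02134)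
theorem g00301 : Good (Phi V4.P V4.D 1 1) ⟨2, 3, 2, 2, 2, 3, 2, 3, 1, 0⟩ :=
  Good.n4 (Good.n1 g00300 (Good.n0 L02135 L02136)) (Good.n4 (Good.n3 (Good.n0 (Good.n0 L02137 (Good.n1 L02138 L02139)) L02140) L02141) L02142)
theorem g00302 : Good (Phi V4.P V4.D 1 1) ⟨1, 1, 1, 1, 2, 3, 1, 1, 1, 0⟩ :=
  Good.n0 L01920 (Good.n3 (Good.n0 (Good.n0 L01921 g00283) L02019) (Good.n1 g00301 (Good.n0 L02143 L02144)))
theorem g00303 : Good (Phi V4.P V4.D 1 1) ⟨1, 1, 1, 1, 1, 1, 0, 0, 1, 0⟩ :=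
  Good.n3 (Good.n4 (Good.n2 g00195 (Good.n1 g00237 (Good.n0 L01700 (Good.n0 L01701 L01702)))) g00246) (Good.n2 g00269 g00302)
theorem g00304 : Good (Phi V4.P V4.D 1 1) ⟨1, 1, 0, 0, 0, 0, 0, 0, 1, 0⟩ :=
  Good.n1 (Good.n1 (Good.n1 g00027 g00060) (Good.n3 (Good.n0 L00443 (Good.n0 g00093 L00684)) g00144)) (Good.n2 g00190 g00303)
theorem g00305 : Good (Phi V4.P V4.D 1 1) ⟨2, 2, 1, 0, 2, 0, 2, 3, 2, 2⟩ :=
  Good.n1 (Good.n2 (Good.n3 L02152 (Good.n0 L02153 (Good.n0 L02154 L02155))) (Good.n0 L02156 L02157)) L02158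
theorem g00306 : Good (Phi V4.P V4.D 1 1) ⟨7, 87, 6, 8, 2, 0, 3, 7, 5, 28⟩ :=
  Good.n1 (Good.n0 L02171 (Good.n1 (Good.n0 L02172 (Good.n3 L02173 (Good.n2 L02174 L02175))) L02176)) L02177
theorem g00307 : Good (Phi V4.P V4.D 1 1) ⟨4, 10, 3, 1, 2, 0, 3, 7, 5, 28⟩ :=
  Good.n1 (Good.n0 L02168 (Good.n1 (Good.n0 L02169 (Good.n1 (Good.n0 L02170 g00306) L02178)) L02179)) L02180
theorem g00308 : Good (Phi V4.P V4.D 1 1) ⟨5, 23, 4, 3, 2, 0, 3, 7, 5, 28⟩ :=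
  Good.n0 (Good.n1 (Good.n3 L02185 (Good.n2 L02186 L02187)) L02188) (Good.n3 L02189 (Good.n2 L02190 L02191))
theorem g00309 : Good (Phi V4.P V4.D 1 1) ⟨2, 2, 3, 1, 2, 0, 3, 7, 5, 28⟩ :=
  Good.n0 L02167 (Good.n0 g00307 (Good.n1 (Good.n3 L02181 (Good.n2 L02182 L02183)) (Good.n0 L02184 g00308)))
theorem g00310 : Good (Phi V4.P V4.D 1 1) ⟨2, 2, 2, 0, 2, 0, 2, 3, 3, 7⟩ :=
  Good.n4 (Good.n3 L02163 (Good.n4 (Good.n1 (Good.n3 L02164 (Good.n2 L02165 L02166)) g00309) L02192)) L02193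
theorem g00311 : Good (Phi V4.P V4.D 1 1) ⟨2, 2, 1, 0, 2, 0, 2, 3, 1, 1⟩ :=
  Good.n4 g00305 (Good.n1 (Good.n4 (Good.n3 L02159 (Good.n3 L02160 (Good.n0 L02161 L02162))) g00310) L02194)
theorem g00312 : Good (Phi V4.P V4.D 1 1) ⟨2, 2, 1, 0, 1, 0, 1, 1, 1, 1⟩ :=
  Good.n2 (Good.n3 (Good.n4 (Good.n0 L02149 L02150) L02151) g00311) (Good.n4 (Good.n3 L02195 L02196) L02197)
theorem g00313 : Good (Phi V4.P V4.D 1 1) ⟨2, 2, 0, 0, 0, 0, 0, 0, 1, 1⟩ :=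
  Good.n2 (Good.n3 (Good.n4 (Good.n1 (Good.n2 L02145 L02146) L02147) L02148) (Good.n1 g00312 L02198)) (Good.n4 (Good.n2 (Good.n1 (Good.n3 L02199 L02200) L02201) L02202) L02203)
theorem g00314 : Good (Phi V4.P V4.D 1 1) ⟨4, 12, 3, 1, 1, 0, 2, 3, 3, 4⟩ :=
  Good.n0 (Good.n3 L02207 (Good.n1 L02208 L02209)) (Good.n0 (Good.n3 L02210 (Good.n2 L02211 L02212)) L02213)
theorem g00315 : Good (Phi V4.P V4.D 1 1) ⟨4, 12, 2, 0, 0, 0, 2, 3, 3, 5⟩ :=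
  Good.n3 (Good.n2 (Good.n1 L02221 L02222) L02223) (Good.n2 (Good.n1 L02224 (Good.n2 (Good.n2 L02225 L02226) L02227)) L02228)
theorem g00316 : Good (Phi V4.P V4.D 1 1) ⟨4, 12, 2, 0, 0, 0, 0, 0, 2, 2⟩ :=
  Good.n4 (Good.n2 (Good.n3 L02204 (Good.n1 L02205 (Good.n3 L02206 g00314))) (Good.n3 L02214 L02215)) (Good.n3 (Good.n2 L02216 L02217) (Good.n3 (Good.n2 (Good.n2 L02218 L02219) L02220) g00315))
theorem g00317 : Good (Phi V4.P V4.D 1 1) ⟨4, 12, 3, 2, 0, 0, 2, 2, 2, 2⟩ :=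
  Good.n2 (Good.n0 (Good.n1 (Good.n4 L02236 L02237) L02238) (Good.n4 L02239 (Good.n2 L02240 L02241))) L02242
theorem g00318 : Good (Phi V4.P V4.D 1 1) ⟨3, 6, 3, 2, 0, 0, 2, 2, 2, 2⟩ :=
  Good.n0 g00317 (Good.n0 (Good.n1 L02243 (Good.n0 (Good.n2 (Good.n2 L02244 L02245) L02246) L02247)) L02248)
theorem g00319 : Good (Phi V4.P V4.D 1 1) ⟨3, 6, 3, 2, 0, 0, 3, 6, 2, 2⟩ :=
  Good.n2 (Good.n0 (Good.n2 (Good.n2 L02249 L02250) L02251) (Good.n0 (Good.n2 L02252 L02253) L02254)) L02255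
theorem g00320 : Good (Phi V4.P V4.D 1 1) ⟨4, 12, 3, 2, 1, 0, 3, 7, 2, 2⟩ :=
  Good.n0 (Good.n2 (Good.n3 L02256 L02257) L02258) (Good.n1 (Good.n2 L02259 L02260) (Good.n2 L02261 L02262))
theorem g00321 : Good (Phi V4.P V4.D 1 1) ⟨3, 6, 3, 2, 0, 0, 2, 3, 2, 2⟩ :=
  Good.n3 g00319 (Good.n2 (Good.n0 g00320 (Good.n2 (Good.n0 (Good.n0 L02263 L02264) L02265) L02266)) L02267)
theorem g00322 : Good (Phi V4.P V4.D 1 1) ⟨3, 6, 3, 3, 0, 0, 2, 2, 3, 4⟩ :=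
  Good.n0 (Good.n0 L02268 (Good.n1 (Good.n2 L02269 L02270) L02271)) (Good.n2 (Good.n2 L02272 L02273) L02274)
theorem g00323 : Good (Phi V4.P V4.D 1 1) ⟨5, 26, 3, 3, 1, 0, 3, 7, 3, 4⟩ :=
  Good.n1 (Good.n2 (Good.n2 L02281 L02282) L02283) (Good.n2 (Good.n0 (Good.n1 (Good.n3 L02284 L02285) L02286) (Good.n2 L02287 L02288)) L02289)
theorem g00324 : Good (Phi V4.P V4.D 1 1) ⟨6, 54, 4, 7, 1, 0, 3, 7, 3, 4⟩ :=
  Good.n1 L02291 (Good.n0 (Good.n1 L02292 (Good.n2 (Good.n2 L02293 (Good.n3 L02294 L02295)) L02296)) L02297)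
theorem g00325 : Good (Phi V4.P V4.D 1 1) ⟨3, 6, 3, 3, 0, 0, 3, 7, 3, 4⟩ :=
  Good.n2 (Good.n0 (Good.n2 L02279 L02280) (Good.n0 g00323 (Good.n1 L02290 (Good.n0 g00324 L02298)))) L02299
theorem g00326 : Good (Phi V4.P V4.D 1 1) ⟨4, 13, 3, 3, 1, 0, 3, 6, 3, 5⟩ :=
  Good.n0 (Good.n2 (Good.n1 L02306 L02307) L02308) (Good.n1 L02309 (Good.n2 (Good.n3 L02310 L02311) L02312))
theorem g00327 : Good (Phi V4.P V4.D 1 1) ⟨4, 13, 3, 3, 1, 0, 4, 15, 3, 5⟩ :=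
  Good.n0 (Good.n2 L02321 L02322) (Good.n1 L02323 (Good.n2 (Good.n0 (Good.n2 L02324 L02325) L02326) L02327))
theorem g00328 : Good (Phi V4.P V4.D 1 1) ⟨3, 6, 3, 3, 1, 0, 3, 7, 3, 5⟩ :=
  Good.n3 (Good.n0 L02314 (Good.n2 (Good.n0 L02315 (Good.n1 L02316 L02317)) L02318)) (Good.n0 (Good.n2 L02319 L02320) g00327)
theorem g00329 : Good (Phi V4.P V4.D 1 1) ⟨3, 6, 3, 3, 0, 0, 1, 1, 3, 5⟩ :=
  Good.n3 (Good.n2 (Good.n2 (Good.n3 L02300 (Good.n2 L02301 L02302)) L02303) L02304) (Good.n3 (Good.n2 (Good.n0 L02305 g00326) L02313) (Good.n2 g00328 L02328))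
theorem g00330 : Good (Phi V4.P V4.D 1 1) ⟨3, 6, 3, 3, 0, 0, 1, 1, 2, 2⟩ :=
  Good.n4 (Good.n3 g00322 (Good.n3 (Good.n2 (Good.n0 L02275 (Good.n2 L02276 L02277)) L02278) g00325)) g00329
theorem g00331 : Good (Phi V4.P V4.D 1 1) ⟨3, 6, 2, 1, 0, 0, 0, 0, 2, 2⟩ :=
  Good.n3 (Good.n0 (Good.n2 L02230 L02231) (Good.n1 (Good.n2 L02232 L02233) (Good.n2 L02234 L02235))) (Good.n1 (Good.n3 g00318 g00321) g00330)
theorem g00332 : Good (Phi V4.P V4.D 1 1) ⟨3, 6, 1, 0, 1, 0, 3, 6, 3, 6⟩ :=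
  Good.n1 (Good.n0 (Good.n1 L02333 (Good.n2 (Good.n2 L02334 L02335) L02336)) L02337) (Good.n3 (Good.n0 L02338 (Good.n1 L02339 (Good.n2 L02340 L02341))) (Good.n0 L02342 L02343))
theorem g00333 : Good (Phi V4.P V4.D 1 1) ⟨7, 103, 5, 12, 2, 0, 3, 7, 5, 28⟩ :=
  Good.n1 (Good.n3 L02354 (Good.n2 L02355 L02356)) (Good.n0 L02357 (Good.n1 (Good.n3 L02358 (Good.n2 L02359 L02360)) L02361))
theorem g00334 : Good (Phi V4.P V4.D 1 1) ⟨5, 25, 3, 3, 2, 0, 3, 7, 3, 7⟩ :=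
  Good.n1 (Good.n0 L02352 (Good.n1 (Good.n0 L02353 (Good.n4 (Good.n4 g00333 L02362) L02363)) L02364)) L02365
theorem g00335 : Good (Phi V4.P V4.D 1 1) ⟨4, 12, 1, 0, 2, 0, 3, 7, 2, 3⟩ :=
  Good.n1 (Good.n1 L02346 L02347) (Good.n1 L02348 (Good.n4 (Good.n0 L02349 L02350) (Good.n0 L02351 g00334)))
theorem g00336 : Good (Phi V4.P V4.D 1 1) ⟨4, 13, 2, 1, 2, 0, 4, 15, 3, 6⟩ :=
  Good.n1 L02368 (Good.n0 (Good.n3 L02369 L02370) (Good.n1 L02371 (Good.n1 L02372 (Good.n3 L02373 L02374))))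
theorem g00337 : Good (Phi V4.P V4.D 1 1) ⟨6, 52, 5, 11, 2, 0, 3, 7, 4, 14⟩ :=
  Good.n0 (Good.n1 L02377 (Good.n0 (Good.n4 (Good.n3 L02378 (Good.n2 L02379 L02380)) L02381) L02382)) L02383
theorem g00338 : Good (Phi V4.P V4.D 1 1) ⟨9, 432, 7, 62, 2, 0, 3, 7, 5, 28⟩ :=
  Good.n1 (Good.n0 (Good.n1 L02393 (Good.n3 L02394 (Good.n2 L02395 L02396))) L02397) (Good.n3 L02398 (Good.n2 L02399 L02400))
theorem g00339 : Good (Phi V4.P V4.D 1 1) ⟨7, 108, 6, 31, 2, 0, 3, 7, 4, 14⟩ :=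
  Good.n0 (Good.n4 (Good.n1 (Good.n0 g00338 L02401) (Good.n3 L02402 (Good.n2 L02403 L02404))) L02405) L02406
theorem g00340 : Good (Phi V4.P V4.D 1 1) ⟨4, 13, 3, 3, 2, 0, 3, 7, 4, 14⟩ :=
  Good.n0 (Good.n4 (Good.n3 L02386 (Good.n2 L02387 L02388)) L02389) (Good.n1 L02390 (Good.n0 (Good.n1 L02391 (Good.n0 (Good.n1 L02392 g00339) L02407)) L02408))
theorem g00341 : Good (Phi V4.P V4.D 1 1) ⟨4, 13, 2, 1, 2, 0, 3, 7, 3, 7⟩ :=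
  Good.n4 (Good.n1 (Good.n0 (Good.n1 L02375 (Good.n0 (Good.n1 L02376 g00337) L02384)) L02385) g00340) L02409
theorem g00342 : Good (Phi V4.P V4.D 1 1) ⟨3, 6, 1, 0, 1, 0, 2, 3, 2, 3⟩ :=
  Good.n3 (Good.n4 g00332 (Good.n2 L02344 L02345)) (Good.n2 (Good.n0 g00335 (Good.n1 L02366 (Good.n4 (Good.n3 L02367 g00336) g00341))) L02410)
theorem g00343 : Good (Phi V4.P V4.D 1 1) ⟨3, 6, 1, 0, 0, 0, 0, 0, 1, 1⟩ :=
  Good.n4 (Good.n1 (Good.n0 g00316 L02229) g00331) (Good.n2 (Good.n3 L02329 (Good.n3 (Good.n4 (Good.n2 L02330 L02331) L02332) g00342)) L02411)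
theorem g00344 : Good (Phi V4.P V4.D 1 1) ⟨6, 54, 4, 8, 2, 0, 2, 2, 3, 5⟩ :=
  Good.n1 (Good.n3 L02417 (Good.n2 L02418 L02419)) (Good.n3 L02420 (Good.n2 (Good.n3 L02421 L02422) L02423))
theorem g00345 : Good (Phi V4.P V4.D 1 1) ⟨8, 220, 5, 17, 2, 0, 2, 2, 3, 5⟩ :=
  Good.n1 L02425 (Good.n3 (Good.n2 L02426 L02427) (Good.n2 (Good.n3 (Good.n2 L02428 L02429) L02430) L02431))
theorem g00346 : Good (Phi V4.P V4.D 1 1) ⟨7, 110, 5, 18, 3, 0, 3, 5, 3, 5⟩ :=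
  Good.n3 (Good.n2 L02440 (Good.n4 L02441 (Good.n4 L02442 L02443))) (Good.n2 L02444 (Good.n4 L02445 (Good.n3 (Good.n4 L02446 L02447) L02448)))
theorem g00347 : Good (Phi V4.P V4.D 1 1) ⟨7, 110, 5, 18, 2, 0, 2, 2, 2, 2⟩ :=
  Good.n3 (Good.n2 (Good.n4 L02435 L02436) (Good.n4 L02437 L02438)) (Good.n2 (Good.n4 L02439 g00346) (Good.n3 (Good.n2 (Good.n4 L02449 L02450) L02451) L02452))
theorem g00348 : Good (Phi V4.P V4.D 1 1) ⟨5, 27, 3, 4, 2, 0, 2, 2, 2, 2⟩ :=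
  Good.n1 (Good.n4 L02416 (Good.n0 g00344 (Good.n1 L02424 (Good.n0 (Good.n0 g00345 L02432) L02433)))) (Good.n0 L02434 (Good.n1 (Good.n0 g00347 L02453) (Good.n0 L02454 L02455)))
theorem g00349 : Good (Phi V4.P V4.D 1 1) ⟨5, 27, 4, 8, 2, 0, 3, 6, 2, 2⟩ :=
  Good.n0 (Good.n1 (Good.n3 L02456 L02457) (Good.n3 (Good.n2 L02458 L02459) L02460)) (Good.n2 L02461 (Good.n0 (Good.n1 L02462 (Good.n1 L02463 L02464)) L02465))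
theorem g00350 : Good (Phi V4.P V4.D 1 1) ⟨5, 27, 3, 4, 2, 0, 4, 14, 2, 2⟩ :=
  Good.n1 (Good.n0 L02469 (Good.n1 L02470 (Good.n0 (Good.n1 L02471 (Good.n0 L02472 L02473)) L02474))) (Good.n0 L02475 (Good.n1 (Good.n0 L02476 L02477) (Good.n0 L02478 L02479)))
theorem g00351 : Good (Phi V4.P V4.D 1 1) ⟨5, 27, 3, 4, 2, 0, 5, 31, 3, 4⟩ :=
  Good.n1 (Good.n0 L02484 L02485) (Good.n0 L02486 (Good.n1 (Good.n2 L02487 L02488) (Good.n0 L02489 L02490)))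
theorem g00352 : Good (Phi V4.P V4.D 1 1) ⟨7, 110, 5, 18, 2, 0, 4, 15, 3, 5⟩ :=
  Good.n1 (Good.n2 L02496 L02497) (Good.n0 L02498 (Good.n1 (Good.n0 L02499 (Good.n1 (Good.n0 L02500 L02501) L02502)) L02503))
theorem g00353 : Good (Phi V4.P V4.D 1 1) ⟨5, 27, 3, 4, 2, 0, 4, 15, 3, 5⟩ :=
  Good.n1 (Good.n0 (Good.n2 L02491 L02492) (Good.n2 L02493 L02494)) (Good.n0 L02495 (Good.n0 (Good.n1 g00352 L02504) L02505))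
theorem g00354 : Good (Phi V4.P V4.D 1 1) ⟨5, 27, 3, 4, 2, 0, 3, 7, 2, 2⟩ :=
  Good.n3 g00350 (Good.n4 (Good.n3 (Good.n1 L02480 (Good.n0 L02481 (Good.n2 L02482 L02483))) g00351) g00353)
theorem g00355 : Good (Phi V4.P V4.D 1 1) ⟨5, 27, 2, 2, 2, 0, 1, 1, 2, 2⟩ :=
  Good.n1 (Good.n3 g00348 (Good.n3 (Good.n1 g00349 (Good.n3 (Good.n2 L02466 L02467) L02468)) g00354)) L02506
theorem g00356 : Good (Phi V4.P V4.D 1 1) ⟨5, 27, 4, 8, 5, 1, 2, 3, 4, 12⟩ :=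
  Good.n0 (Good.n1 (Good.n3 L02515 L02516) (Good.n0 L02517 (Good.n3 L02518 L02519))) (Good.n1 L02520 (Good.n0 (Good.n1 L02521 (Good.n0 (Good.n3 L02522 L02523) L02524)) L02525))
theorem g00357 : Good (Phi V4.P V4.D 1 1) ⟨5, 27, 4, 8, 4, 0, 0, 0, 4, 12⟩ :=
  Good.n2 (Good.n3 L02508 (Good.n3 L02509 (Good.n3 L02510 (Good.n3 L02511 L02512)))) (Good.n3 L02513 (Good.n3 L02514 g00356))
theorem g00358 : Good (Phi V4.P V4.D 1 1) ⟨7, 110, 5, 18, 5, 0, 3, 7, 4, 12⟩ :=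
  Good.n1 L02530 (Good.n0 L02531 (Good.n1 (Good.n0 L02532 (Good.n1 (Good.n0 L02533 L02534) L02535)) L02536))
theorem g00359 : Good (Phi V4.P V4.D 1 1) ⟨5, 27, 4, 9, 5, 0, 1, 1, 4, 12⟩ :=
  Good.n1 (Good.n3 L02527 (Good.n3 L02528 (Good.n0 L02529 (Good.n0 g00358 L02537)))) (Good.n0 L02538 (Good.n0 L02539 L02540))
theorem g00360 : Good (Phi V4.P V4.D 1 1) ⟨5, 27, 4, 9, 5, 1, 1, 1, 4, 12⟩ :=
  Good.n0 L02542 (Good.n1 (Good.n0 (Good.n3 L02543 (Good.n3 L02544 L02545)) L02546) (Good.n0 L02547 L02548))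
theorem g00361 : Good (Phi V4.P V4.D 1 1) ⟨5, 27, 3, 4, 4, 0, 3, 7, 4, 13⟩ :=
  Good.n1 (Good.n0 (Good.n3 L02553 L02554) (Good.n1 L02555 L02556)) (Good.n0 L02557 (Good.n3 L02558 L02559))
theorem g00362 : Good (Phi V4.P V4.D 1 1) ⟨5, 27, 2, 2, 4, 0, 0, 0, 3, 6⟩ :=
  Good.n4 (Good.n1 (Good.n1 g00357 (Good.n2 (Good.n3 L02526 g00359) (Good.n3 L02541 g00360))) L02549) (Good.n3 L02550 (Good.n3 L02551 (Good.n3 L02552 (Good.n1 g00361 L02560))))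
theorem g00363 : Good (Phi V4.P V4.D 1 1) ⟨5, 27, 4, 8, 4, 1, 1, 1, 3, 6⟩ :=
  Good.n1 (Good.n0 (Good.n3 L02563 (Good.n3 L02564 L02565)) L02566) (Good.n3 L02567 (Good.n3 L02568 (Good.n0 L02569 L02570)))
theorem g00364 : Good (Phi V4.P V4.D 1 1) ⟨6, 55, 6, 37, 4, 1, 1, 1, 3, 6⟩ :=
  Good.n0 (Good.n0 L02577 (Good.n1 (Good.n0 L02578 (Good.n1 (Good.n0 L02579 L02580) L02581)) L02582)) L02583
theorem g00365 : Good (Phi V4.P V4.D 1 1) ⟨6, 55, 4, 9, 4, 1, 1, 1, 3, 6⟩ :=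
  Good.n1 (Good.n1 (Good.n3 L02572 (Good.n0 (Good.n3 L02573 (Good.n3 L02574 L02575)) L02576)) g00364) (Good.n0 L02584 L02585)
theorem g00366 : Good (Phi V4.P V4.D 1 1) ⟨5, 27, 2, 2, 3, 0, 0, 0, 2, 3⟩ :=
  Good.n2 (Good.n4 g00362 L02561) (Good.n4 (Good.n1 (Good.n3 L02562 (Good.n1 g00363 (Good.n0 L02571 g00365))) L02586) L02587)
theorem g00367 : Good (Phi V4.P V4.D 1 1) ⟨5, 27, 1, 1, 3, 1, 2, 2, 2, 3⟩ :=
  Good.n3 L02590 (Good.n1 (Good.n4 (Good.n3 L02591 (Good.n2 (Good.n1 L02592 L02593) L02594)) L02595) L02596)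
theorem g00368 : Good (Phi V4.P V4.D 1 1) ⟨5, 27, 3, 4, 3, 1, 3, 7, 2, 3⟩ :=
  Good.n4 (Good.n3 L02598 L02599) (Good.n4 (Good.n2 (Good.n4 (Good.n3 L02600 L02601) L02602) L02603) L02604)
theorem g00369 : Good (Phi V4.P V4.D 1 1) ⟨5, 27, 1, 1, 2, 0, 0, 0, 2, 3⟩ :=
  Good.n2 (Good.n1 g00366 L02588) (Good.n3 L02589 (Good.n3 g00367 (Good.n1 (Good.n1 (Good.n3 L02597 g00368) L02605) L02606)))
theorem g00370 : Good (Phi V4.P V4.D 1 1) ⟨5, 27, 4, 8, 2, 1, 2, 3, 2, 2⟩ :=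
  Good.n0 (Good.n3 L02615 L02616) (Good.n1 L02617 (Good.n0 (Good.n1 L02618 (Good.n3 L02619 L02620)) L02621))
theorem g00371 : Good (Phi V4.P V4.D 1 1) ⟨5, 27, 4, 9, 2, 1, 2, 3, 2, 2⟩ :=
  Good.n3 (Good.n0 L02622 (Good.n1 (Good.n0 L02623 L02624) (Good.n0 L02625 L02626))) (Good.n0 L02627 (Good.n3 L02628 L02629))
theorem g00372 : Good (Phi V4.P V4.D 1 1) ⟨4, 13, 3, 4, 2, 1, 1, 1, 2, 3⟩ :=
  Good.n0 L02630 (Good.n3 (Good.n4 (Good.n3 (Good.n4 (Good.n2 L02631 L02632) L02633) L02634) L02635) L02636)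
theorem g00373 : Good (Phi V4.P V4.D 1 1) ⟨4, 13, 3, 4, 2, 1, 1, 1, 1, 1⟩ :=
  Good.n4 (Good.n3 (Good.n0 L02611 (Good.n1 L02612 L02613)) (Good.n0 L02614 (Good.n1 g00370 g00371))) g00372
theorem g00374 : Good (Phi V4.P V4.D 1 1) ⟨4, 13, 1, 1, 2, 1, 0, 0, 1, 1⟩ :=
  Good.n1 (Good.n3 (Good.n4 (Good.n3 L02607 (Good.n1 L02608 L02609)) L02610) (Good.n1 g00373 L02637)) L02638
theorem g00375 : Good (Phi V4.P V4.D 1 1) ⟨4, 13, 1, 1, 1, 0, 0, 0, 1, 1⟩ :=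
  Good.n2 (Good.n0 L02413 (Good.n4 (Good.n1 (Good.n3 (Good.n1 L02414 L02415) g00355) L02507) g00369)) g00374
theorem g00376 : Good (Phi V4.P V4.D 1 1) ⟨3, 6, 0, 0, 0, 0, 0, 0, 1, 1⟩ :=
  Good.n1 g00343 (Good.n0 L02412 (Good.n2 g00375 (Good.n4 (Good.n1 (Good.n3 L02639 L02640) L02641) L02642)))
theorem all : Good (Phi V4.P V4.D 1 1) ⟨0, 0, 0, 0, 0, 0, 0, 0, 0, 0⟩ :=
  Good.n0 (Good.n1 g00014 L00111) (Good.n4 g00304 (Good.n0 g00313 (Good.n0 g00376 L02643)))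

end Crest.Agent.R097C4.N4pp
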