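import Crest.Agent.R097.T4

/-!
# Row 97, box cover in dimension n = 4 (generated)
-/

set_option autoImplicit false
set_option Elab.async false
set_option maxHeartbeats 0
set_option maxRecDepth 100000

open Crest.Agent.R097 Crest.Agent.R097.KA


namespace Crest.Agent.R097C4.N4pp

theorem L00000 : Good (Phi V4.P V4.D 1 1) ⟨2, 0, 1, 0, 1, 0, 1, 0, 3, 0⟩ :=
  leaf_sound (S := T4.ds_pp) T4.ok_pp (w := 152) (c := ⟨⟨.negSucc 207, .negSucc 73, .negSucc 41, .negSucc 12, .negSucc 23, .negSucc 172⟩, ⟨.ofNat 17, .ofNat 26, .negSucc 166, .negSucc 14, .negSucc 23, .negSucc 14⟩, ⟨.ofNat 604, .ofNat 113, .ofNat 67, .ofNat 29, .negSucc 520, .ofNat 55⟩, ⟨.negSucc 678, .negSucc 120, .negSucc 57, .negSucc 17, .negSucc 53, .negSucc 506⟩, ⟨.ofNat 99, .ofNat 30, .ofNat 35, .negSucc 199, .negSucc 245, .negSucc 11⟩, .ofNat 587, .negSucc 108, .ofNat 0, .negSucc 108,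 .ofNat 1384, .ofNat 0, .ofNat 462, .ofNat 73, .negSucc 358, .ofNat 0, .ofNat 267, .negSucc 10, .ofNat 0, .ofNat 0, .ofNat 921, .ofNat 4556, .ofNat 0, .ofNat 0, .ofNat 0, .ofNat 0, .ofNat 0, .ofNat 0, .ofNat 0, .ofNat 0, .ofNat 0, .ofNat 0, .ofNat 765803699264732506619904000, .ofNat 0, .ofNat 0, .ofNat 0, .ofNat 0, .ofNat 0⟩)
    (by decide +kernel)
theorem L00001 : Good (Phi V4.P V4.D 1 1) ⟨2, 1, 1, 0, 1, 0, 1, 0, 3, 0⟩ :=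
  leaf_sound (S := T4.ds_pp) T4.ok_pp (w := 152) (c := ⟨⟨.negSucc 212, .negSucc 223, .ofNat 7, .negSucc 88, .negSucc 12, .negSucc 234⟩, ⟨.ofNat 29, .negSucc 19, .negSucc 188, .negSucc 0, .negSucc 5, .ofNat 5⟩, ⟨.ofNat 649, .ofNat 225, .negSucc 28, .ofNat 139, .negSucc 523, .ofNat 105⟩, ⟨.negSucc 686, .negSucc 280, .ofNat 70, .negSucc 203, .negSucc 37, .negSucc 575⟩, ⟨.ofNat 23, .ofNat 125, .ofNat 110, .ofNat 19, .negSucc 255, .ofNat 16⟩, .ofNat 510, .ofNat 30, .ofNat 0, .ofNat 30, .ofNat 2170, .ofNat 0, .ofNat 505, .negSucc 20, .negSucc 450, .ofNat 0, .ofNat 192, .ofNat 18, .ofNat 0, .ofNat 0, .ofNat 967, .ofNat 6268, .ofNat 0, .ofNat 0, .ofNat 0, .ofNat 0, .ofNat 0, .ofNat 0, .ofNat 1136614118992871556435148800, .ofNat 0, .ofNat 212709951591858093397377024000, .ofNat 0, .ofNat 725696678262613704022425600, .ofNat 0, .ofNat 0, .ofNat 0, .ofNat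 1024373638924239349009612800, .ofNat 0⟩)
    (by decide +kernel)
theorem L00002 : Good (Phi V4.P V4.D 1 1) ⟨1, 0, 1, 0, 1, 0, 1, 0, 3, 1⟩ :=
  leaf_sound (S := T4.ds_pp) T4.ok_pp (w := 144) (c := ⟨⟨.negSucc 338, .negSucc 310, .negSucc 14, .negSucc 158, .ofNat 102, .negSucc 86⟩, ⟨.ofNat 13, .ofNat 32, .negSucc 232, .negSucc 15, .negSucc 5, .negSucc 9⟩, ⟨.ofNat 702, .ofNat 303, .ofNat 29, .ofNat 71, .negSucc 629, .negSucc 52⟩, ⟨.negSucc 1180, .negSucc 370, .ofNat 6, .negSucc 378, .ofNat 287, .negSucc 211⟩, ⟨.ofNat 4, .ofNat 206, .ofNat 53, .negSucc 85, .negSucc 262, .negSucc 34⟩, .ofNat 381, .negSucc 19, .ofNat 0, .negSucc 19, .ofNat 729, .ofNat 0, .ofNat 501, .ofNat 24, .negSucc 420, .ofNat 0, .ofNat 311, .ofNat 26, .ofNat 0, .ofNat 0, .ofNat 969, .ofNat 4820, .ofNat 0, .ofNat 0, .ofNat 0, .ofNat 0, .ofNat 0, .ofNat 0, .ofNat 0, .ofNat 0, .ofNat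 3093565937683321370286489600, .ofNat 0, .ofNat 1958434495202470597440307200, .ofNat 0, .ofNat 0, .ofNat 0, .ofNat 2334911366112804420452352000, .ofNat 0⟩)
    (by decide +kernel)
theorem L00003 : Good (Phi V4.P V4.D 1 1) ⟨1, 0, 1, 0, 1, 0, 1, 0, 2, 1⟩ :=
  leaf_sound (S := T4.ds_pp) T4.ok_pp (w := 144) (c := ⟨⟨.negSucc 461, .negSucc 248, .negSucc 29, .negSucc 159, .ofNat 155, .ofNat 50⟩, ⟨.ofNat 10, .ofNat 33, .negSucc 245, .negSucc 28, .negSucc 1, .negSucc 1⟩, ⟨.ofNat 656, .ofNat 184, .ofNat 20, .ofNat 12, .negSucc 522, .negSucc 242⟩, ⟨.negSucc 1489, .negSucc 235, .negSucc 13, .negSucc 390, .ofNat 419, .ofNat 162⟩, ⟨.ofNat 16, .ofNat 102, .negSucc 26, .negSucc 275, .negSucc 114, .negSucc 35⟩, .ofNat 382, .negSucc 18, .ofNat 0, .negSucc 18, .ofNat 725, .ofNat 0, .ofNat 410, .ofNat 20, .negSucc 274, .ofNat 0, .ofNat 260, .ofNat 16, .ofNat 0,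 .ofNat 0, .ofNat 852, .ofNat 3339, .ofNat 22404251563547925823488000, .ofNat 0, .ofNat 37944173972507918515200, .ofNat 0, .ofNat 0, .ofNat 0, .ofNat 0, .ofNat 0, .ofNat 0, .ofNat 0, .ofNat 0, .ofNat 0, .ofNat 5766296222930141660892364800, .ofNat 0, .ofNat 0, .ofNat 0⟩)
    (by decide +kernel)
theorem L00004 : Good (Phi V4.P V4.D 1 1) ⟨1, 0, 1, 0, 1, 0, 2, 2, 3, 0⟩ :=
  leaf_sound (S := T4.ds_pp) T4.ok_pp (w := 152) (c := ⟨⟨.negSucc 199, .negSucc 270, .negSucc 89, .negSucc 94, .ofNat 49, .negSucc 73⟩, ⟨.negSucc 2, .ofNat 35, .negSucc 172, .negSucc 21, .negSucc 1, .ofNat 1⟩, ⟨.ofNat 9, .ofNat 335, .ofNat 98, .ofNat 165, .negSucc 343, .negSucc 4⟩, ⟨.negSucc 740, .negSucc 344, .negSucc 69, .negSucc 236, .ofNat 126, .negSucc 220⟩, ⟨.negSucc 85, .ofNat 143, .ofNat 14, .negSucc 368, .negSucc 73, .negSucc 3⟩, .ofNat 378, .negSucc 11, .ofNat 0, .negSucc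 11, .ofNat 737, .ofNat 0, .ofNat 296, .ofNat 10, .negSucc 296, .ofNat 0, .ofNat 181, .ofNat 14, .ofNat 0, .ofNat 0, .ofNat 572, .ofNat 1735, .ofNat 0, .ofNat 0, .ofNat 0, .ofNat 0, .ofNat 0, .ofNat 0, .ofNat 5415662490288304578940108800, .ofNat 0, .ofNat 0, .ofNat 0, .ofNat 0, .ofNat 0, .ofNat 0, .ofNat 0, .ofNat 0, .ofNat 0⟩)
    (by decide +kernel)
theorem L00005 : Good (Phi V4.P V4.D 1 1) ⟨1, 0, 1, 0, 1, 0, 2, 2, 3, 1⟩ :=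
  leaf_sound (S := T4.ds_pp) T4.ok_pp (w := 152) (c := ⟨⟨.negSucc 288, .negSucc 246, .negSucc 35, .negSucc 187, .ofNat 113, .negSucc 14⟩, ⟨.negSucc 7, .ofNat 40, .negSucc 166, .negSucc 30, .ofNat 4, .ofNat 4⟩, ⟨.ofNat 62, .ofNat 226, .negSucc 5, .ofNat 172, .negSucc 298, .negSucc 16⟩, ⟨.negSucc 955, .negSucc 310, .negSucc 33, .negSucc 454, .ofNat 299, .negSucc 56⟩, ⟨.negSucc 85, .ofNat 86, .negSucc 0, .negSucc 360, .negSucc 13, .ofNat 41⟩, .ofNat 379, .negSucc 12, .ofNat 0, .negSucc 12, .ofNat 737, .ofNat 0, .ofNat 526, .ofNat 18, .negSucc 497, .ofNat 0, .ofNat 326, .ofNat 12, .ofNat 0, .ofNat 0, .ofNat 1022, .ofNat 3890, .ofNat 0, .ofNat 0, .ofNat 0, .ofNat 0, .ofNat 0, .ofNat 0, .ofNat 19396878977123094646436659200, .ofNat 0, .ofNat 0, .ofNat 0, .ofNat 0, .ofNat 0, .ofNat 0, .ofNat 0, .ofNat 20691950500055559893837414400, .ofNat 0⟩)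
    (by decide +kernel)
theorem L00006 : Good (Phi V4.P V4.D 1 1) ⟨2, 0, 1, 0, 1, 0, 2, 2, 2, 1⟩ :=
  leaf_sound (S := T4.ds_pp) T4.ok_pp (w := 152) (c := ⟨⟨.negSucc 327, .negSucc 64, .negSucc 39, .negSucc 158, .ofNat 99, .ofNat 37⟩, ⟨.negSucc 14, .ofNat 36, .negSucc 171, .negSucc 35, .ofNat 8, .ofNat 6⟩, ⟨.ofNat 39, .ofNat 40, .negSucc 1, .ofNat 96, .negSucc 164, .negSucc 43⟩, ⟨.negSucc 1025, .negSucc 101, .ofNat 6, .negSucc 440, .ofNat 291, .ofNat 107⟩, ⟨.negSucc 114, .ofNat 60, .ofNat 10, .negSucc 346, .ofNat 37, .ofNat 55⟩, .ofNat 399, .negSucc 26, .ofNat 0, .negSucc 26, .ofNat 666, .ofNat 0, .ofNat 414, .ofNat 30, .negSucc 317, .ofNat 0, .ofNat 286, .ofNat 1, .ofNat 0, .ofNat 0, .ofNat 816, .ofNat 5355, .ofNat 0, .ofNat 0, .ofNat 0, .ofNat 0, .ofNat 0, .ofNat 0, .ofNat 0, .ofNat 0, .ofNat 0, .ofNat 0, .ofNat 0, .ofNat 0, .ofNat 0, .ofNat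 0, .ofNat 0, .ofNat 0⟩)
    (by decide +kernel)
theorem L00007 : Good (Phi V4.P V4.D 1 1) ⟨2, 1, 1, 0, 1, 0, 2, 2, 2, 1⟩ :=
  leaf_sound (S := T4.ds_pp) T4.ok_pp (w := 152) (c := ⟨⟨.negSucc 358, .negSucc 208, .negSucc 47, .negSucc 233, .ofNat 105, .ofNat 47⟩, ⟨.ofNat 27, .negSucc 16, .negSucc 221, .negSucc 1, .ofNat 0, .negSucc 0⟩, ⟨.ofNat 97, .ofNat 166, .negSucc 26, .ofNat 116, .negSucc 188, .negSucc 88⟩, ⟨.negSucc 1052, .negSucc 239, .ofNat 5, .negSucc 583, .ofNat 270, .ofNat 121⟩, ⟨.negSucc 92, .ofNat 64, .negSucc 9, .negSucc 239, .ofNat 23, .ofNat 40⟩, .ofNat 512, .ofNat 24, .ofNat 0, .ofNat 24, .ofNat 2136, .ofNat 0, .ofNat 412, .negSucc 12, .negSucc 305, .ofNat 0, .ofNat 161, .ofNat 9, .ofNat 0, .ofNat 0, .ofNat 826, .ofNat 4369, .ofNat 0, .ofNat 0, .ofNat 0, .ofNat 0, .ofNat 0, .ofNat 0, .ofNat 560613580705744047518515200, .ofNat 0,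 .ofNat 0, .ofNat 0, .ofNat 667148913202971945310617600, .ofNat 0, .ofNat 0, .ofNat 0, .ofNat 622068687666541268670873600, .ofNat 0⟩)
    (by decide +kernel)
theorem L00008 : Good (Phi V4.P V4.D 1 1) ⟨2, 0, 1, 0, 2, 0, 3, 6, 4, 0⟩ :=
  leaf_sound (S := T4.ds_pp) T4.ok_pp (w := 168) (c := ⟨⟨.negSucc 253, .negSucc 23, .negSucc 38, .negSucc 40, .ofNat 61, .negSucc 2⟩, ⟨.negSucc 6, .ofNat 29, .negSucc 125, .negSucc 34, .ofNat 7, .ofNat 0⟩, ⟨.negSucc 256, .ofNat 33, .ofNat 22, .ofNat 66, .negSucc 190, .ofNat 32⟩, ⟨.negSucc 793, .negSucc 26, .negSucc 26, .negSucc 78, .ofNat 180, .negSucc 0⟩, ⟨.negSucc 21, .ofNat 7, .ofNat 5, .negSucc 351, .ofNat 3, .ofNat 22⟩, .ofNat 400, .negSucc 34, .ofNat 0, .negSucc 34, .ofNat 666, .ofNat 0, .ofNat 307, .ofNat 29, .negSucc 318, .ofNat 0, .ofNat 216, .negSucc 11, .ofNat 0, .ofNat 0, .ofNat 611, .ofNat 7187, .ofNat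 0, .ofNat 0, .ofNat 0, .ofNat 0, .ofNat 0, .ofNat 0, .ofNat 0, .ofNat 0, .ofNat 0, .ofNat 0, .ofNat 0, .ofNat 0, .ofNat 0, .ofNat 0, .ofNat 0, .ofNat 0⟩)
    (by decide +kernel)
theorem L00009 : Good (Phi V4.P V4.D 1 1) ⟨2, 0, 1, 0, 2, 0, 3, 7, 4, 0⟩ :=
  leaf_sound (S := T4.ds_pp) T4.ok_pp (w := 168) (c := ⟨⟨.negSucc 197, .negSucc 5, .negSucc 38, .negSucc 63, .ofNat 119, .ofNat 19⟩, ⟨.negSucc 11, .ofNat 22, .negSucc 83, .negSucc 34, .ofNat 17, .ofNat 6⟩, ⟨.negSucc 466, .ofNat 4, .ofNat 28, .ofNat 96, .negSucc 214, .ofNat 54⟩, ⟨.negSucc 611, .ofNat 9, .negSucc 35, .negSucc 149, .ofNat 350, .ofNat 49⟩, ⟨.negSucc 49, .ofNat 7, .negSucc 2, .negSucc 310, .ofNat 41, .ofNat 44⟩, .ofNat 401, .negSucc 35, .ofNat 0, .negSucc 35, .ofNat 660, .ofNat 0, .ofNat 324, .ofNat 32, .negSucc 376, .ofNat 0, .ofNat 230, .negSucc 21, .ofNat 0, .ofNat 0, .ofNat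 652, .ofNat 5591, .ofNat 0, .ofNat 0, .ofNat 345068073187837058779132723200, .ofNat 0, .ofNat 0, .ofNat 0, .ofNat 0, .ofNat 0, .ofNat 0, .ofNat 0, .ofNat 97796270710720040816819463782400, .ofNat 0, .ofNat 0, .ofNat 0, .ofNat 0, .ofNat 0⟩)
    (by decide +kernel)
theorem L00010 : Good (Phi V4.P V4.D 1 1) ⟨2, 0, 1, 0, 2, 1, 2, 3, 4, 0⟩ :=
  leaf_sound (S := T4.ds_pp) T4.ok_pp (w := 168) (c := ⟨⟨.negSucc 262, .negSucc 10, .negSucc 88, .negSucc 113, .ofNat 102, .negSucc 1⟩, ⟨.negSucc 56, .ofNat 56, .negSucc 126, .negSucc 29, .ofNat 20, .ofNat 9⟩, ⟨.negSucc 235, .ofNat 24, .ofNat 42, .ofNat 193, .negSucc 301, .ofNat 35⟩, ⟨.negSucc 805, .ofNat 10, .negSucc 47, .negSucc 309, .ofNat 288, .negSucc 15⟩, ⟨.negSucc 487, .ofNat 85, .ofNat 25, .negSucc 185, .ofNat 108, .ofNat 92⟩, .ofNat 585, .negSucc 94, .ofNat 0, .negSucc 94, .ofNat 1379, .ofNat 0, .ofNat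 299, .ofNat 44, .negSucc 262, .ofNat 0, .ofNat 170, .negSucc 10, .ofNat 0, .ofNat 0, .ofNat 567, .ofNat 1615, .ofNat 0, .ofNat 0, .ofNat 43477300285065639372836044800, .ofNat 0, .ofNat 0, .ofNat 0, .ofNat 0, .ofNat 0, .ofNat 0, .ofNat 0, .ofNat 12571629838603673049537026457600, .ofNat 0, .ofNat 0, .ofNat 0, .ofNat 0, .ofNat 0⟩)
    (by decide +kernel)
theorem L00011 : Good (Phi V4.P V4.D 1 1) ⟨2, 0, 1, 0, 1, 0, 2, 3, 4, 1⟩ :=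
  leaf_sound (S := T4.ds_pp) T4.ok_pp (w := 160) (c := ⟨⟨.negSucc 227, .negSucc 33, .negSucc 39, .negSucc 185, .ofNat 192, .ofNat 8⟩, ⟨.negSucc 21, .ofNat 31, .negSucc 108, .negSucc 51, .ofNat 28, .ofNat 8⟩, ⟨.negSucc 281, .ofNat 36, .ofNat 13, .ofNat 252, .negSucc 341, .ofNat 30⟩, ⟨.negSucc 705, .negSucc 51, .ofNat 9, .negSucc 504, .ofNat 542, .ofNat 13⟩, ⟨.negSucc 144, .ofNat 57, .negSucc 3, .negSucc 427, .ofNat 114, .ofNat 61⟩, .ofNat 399, .negSucc 31, .ofNat 0, .negSucc 31, .ofNat 666, .ofNat 0, .ofNat 308, .ofNat 28, .negSucc 336, .ofNat 0, .ofNat 212, .negSucc 9, .ofNat 0, .ofNat 0, .ofNat 594, .ofNat 2008, .ofNat 0, .ofNat 0, .ofNat 0, .ofNat 0, .ofNat 0, .ofNat 0, .ofNat 0, .ofNat 0, .ofNat 0, .ofNat 0, .ofNat 0, .ofNat 0, .ofNat 0, .ofNat 0, .ofNat 0, .ofNat 0⟩)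
    (by decide +kernel)
theorem L00012 : Good (Phi V4.P V4.D 1 1) ⟨2, 1, 1, 0, 1, 0, 2, 3, 3, 0⟩ :=
  leaf_sound (S := T4.ds_pp) T4.ok_pp (w := 152) (c := ⟨⟨.negSucc 201, .negSucc 183, .negSucc 152, .negSucc 218, .ofNat 197, .negSucc 34⟩, ⟨.ofNat 1, .ofNat 8, .negSucc 94, .negSucc 0, .ofNat 1, .ofNat 2⟩, ⟨.negSucc 315, .ofNat 191, .ofNat 141, .ofNat 330, .negSucc 417, .ofNat 71⟩, ⟨.negSucc 613, .negSucc 249, .negSucc 285, .negSucc 550, .ofNat 491, .negSucc 93⟩, ⟨.negSucc 194, .ofNat 94, .ofNat 179, .negSucc 341, .ofNat 95, .ofNat 92⟩, .ofNat 511, .ofNat 28, .ofNat 0, .ofNat 28, .ofNat 2166, .ofNat 0, .ofNat 308, .negSucc 10, .negSucc 313, .ofNat 0, .ofNat 118, .ofNat 8, .ofNat 0, .ofNat 0, .ofNat 591, .ofNat 1499, .ofNat 0, .ofNat 0, .ofNat 4663486723947286977331200, .ofNat 0, .ofNat 0, .ofNat 0, .ofNat 2748049667429957233960550400, .ofNat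 0, .ofNat 0, .ofNat 0, .ofNat 3124782402798099278227046400, .ofNat 0, .ofNat 0, .ofNat 0, .ofNat 2746047489622881441782169600, .ofNat 0⟩)
    (by decide +kernel)
theorem L00013 : Good (Phi V4.P V4.D 1 1) ⟨2, 0, 1, 0, 2, 0, 2, 3, 3, 1⟩ :=
  leaf_sound (S := T4.ds_pp) T4.ok_pp (w := 160) (c := ⟨⟨.negSucc 280, .negSucc 15, .negSucc 11, .negSucc 63, .ofNat 249, .ofNat 8⟩, ⟨.negSucc 23, .ofNat 27, .negSucc 93, .negSucc 21, .ofNat 27, .ofNat 4⟩, ⟨.negSucc 204, .ofNat 14, .ofNat 3, .ofNat 68, .negSucc 343, .ofNat 62⟩, ⟨.negSucc 834, .negSucc 18, .ofNat 4, .negSucc 160, .ofNat 714, .ofNat 18⟩, ⟨.negSucc 72, .ofNat 17, .ofNat 0, .negSucc 199, .ofNat 78, .ofNat 43⟩, .ofNat 400, .negSucc 35, .ofNat 0, .negSucc 35, .ofNat 664, .ofNat 0, .ofNat 270, .ofNat 27, .negSucc 297, .ofNat 0, .ofNat 190, .negSucc 17, .ofNat 0, .ofNat 0, .ofNat 538, .ofNat 2674,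 .ofNat 0, .ofNat 78552525325404615019698585600, .ofNat 2081087189741333097794764800, .ofNat 0, .ofNat 0, .ofNat 0, .ofNat 0, .ofNat 0, .ofNat 0, .ofNat 5980525178825929569573902745600, .ofNat 0, .ofNat 0, .ofNat 0, .ofNat 0, .ofNat 0, .ofNat 0⟩)
    (by decide +kernel)
theorem L00014 : Good (Phi V4.P V4.D 1 1) ⟨2, 0, 1, 0, 2, 1, 2, 3, 3, 1⟩ :=
  leaf_sound (S := T4.ds_pp) T4.ok_pp (w := 160) (c := ⟨⟨.negSucc 282, .negSucc 47, .negSucc 53, .negSucc 136, .ofNat 179, .ofNat 0⟩, ⟨.negSucc 39, .ofNat 42, .negSucc 140, .negSucc 24, .ofNat 32, .ofNat 6⟩, ⟨.negSucc 168, .ofNat 33, .ofNat 13, .ofNat 152, .negSucc 265, .ofNat 31⟩, ⟨.negSucc 854, .negSucc 88, .negSucc 13, .negSucc 391, .ofNat 504, .negSucc 5⟩, ⟨.negSucc 368, .ofNat 70, .ofNat 5, .negSucc 142, .ofNat 167, .ofNat 87⟩, .ofNat 400, .negSucc 29, .ofNat 0, .negSucc 29, .ofNat 663, .ofNat 0,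 .ofNat 284, .ofNat 25, .negSucc 282, .ofNat 0, .ofNat 193, .negSucc 3, .ofNat 0, .ofNat 0, .ofNat 525, .ofNat 2471, .ofNat 0, .ofNat 0, .ofNat 0, .ofNat 0, .ofNat 0, .ofNat 0, .ofNat 0, .ofNat 0, .ofNat 0, .ofNat 10613389723076613032136356659200, .ofNat 609224520665338846375418265600, .ofNat 0, .ofNat 0, .ofNat 0, .ofNat 0, .ofNat 0⟩)
    (by decide +kernel)
theorem L00015 : Good (Phi V4.P V4.D 1 1) ⟨2, 1, 1, 0, 1, 0, 2, 3, 3, 1⟩ :=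
  leaf_sound (S := T4.ds_pp) T4.ok_pp (w := 152) (c := ⟨⟨.negSucc 247, .negSucc 152, .ofNat 5, .negSucc 314, .ofNat 272, .ofNat 2⟩, ⟨.ofNat 13, .negSucc 6, .negSucc 129, .ofNat 2, .negSucc 1, .ofNat 0⟩, ⟨.negSucc 208, .ofNat 130, .negSucc 66, .ofNat 294, .negSucc 367, .ofNat 43⟩, ⟨.negSucc 719, .negSucc 198, .ofNat 110, .negSucc 791, .ofNat 680, .ofNat 7⟩, ⟨.negSucc 100, .ofNat 28, .negSucc 87, .negSucc 233, .ofNat 76, .ofNat 48⟩, .ofNat 513, .ofNat 29, .ofNat 0, .ofNat 29, .ofNat 2123, .ofNat 0, .ofNat 265, .negSucc 9, .negSucc 261, .ofNat 0, .ofNat 104, .ofNat 5, .ofNat 0, .ofNat 0, .ofNat 512, .ofNat 1195, .ofNat 0, .ofNat 0, .ofNat 7626968989355683838361600, .ofNat 0, .ofNat 0, .ofNat 85054817894125921467000422400, .ofNat 1256364155223471256554700800, .ofNat 0, .ofNat 0, .ofNat 0, .ofNat 3064062130485000461195673600, .ofNat 0, .ofNat 0,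 .ofNat 0, .ofNat 2871726496023475028754432000, .ofNat 0⟩)
    (by decide +kernel)
theorem L00016 : Good (Phi V4.P V4.D 1 1) ⟨2, 0, 2, 0, 1, 0, 2, 3, 3, 2⟩ :=
  leaf_sound (S := T4.ds_pp) T4.ok_pp (w := 160) (c := ⟨⟨.negSucc 226, .negSucc 51, .negSucc 16, .negSucc 195, .ofNat 241, .ofNat 26⟩, ⟨.negSucc 16, .ofNat 31, .negSucc 54, .negSucc 33, .ofNat 21, .ofNat 6⟩, ⟨.negSucc 185, .ofNat 26, .ofNat 5, .ofNat 174, .negSucc 275, .ofNat 9⟩, ⟨.negSucc 693, .negSucc 108, .negSucc 10, .negSucc 548, .ofNat 702, .ofNat 62⟩, ⟨.negSucc 76, .ofNat 42, .ofNat 1, .negSucc 308, .ofNat 74, .ofNat 33⟩, .ofNat 400, .negSucc 25, .ofNat 0, .negSucc 25, .ofNat 657, .ofNat 0, .ofNat 483, .ofNat 35, .negSucc 469, .ofNat 0, .ofNat 336, .negSucc 15, .ofNat 0, .ofNat 0, .ofNat 920, .ofNat 4208, .ofNat 0, .ofNat 0, .ofNat 0, .ofNat 0, .ofNat 0, .ofNat 1507945873972099825580743065600,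 .ofNat 0, .ofNat 0, .ofNat 0, .ofNat 0, .ofNat 0, .ofNat 0, .ofNat 0, .ofNat 1631804632129296210022996377600, .ofNat 0, .ofNat 0⟩)
    (by decide +kernel)
theorem L00017 : Good (Phi V4.P V4.D 1 1) ⟨2, 0, 2, 1, 2, 0, 2, 3, 3, 2⟩ :=
  leaf_sound (S := T4.ds_pp) T4.ok_pp (w := 168) (c := ⟨⟨.negSucc 265, .negSucc 26, .ofNat 1, .negSucc 72, .ofNat 250, .ofNat 15⟩, ⟨.negSucc 74, .ofNat 14, .negSucc 50, .negSucc 30, .ofNat 76, .ofNat 7⟩, ⟨.negSucc 173, .ofNat 11, .negSucc 1, .ofNat 63, .negSucc 280, .ofNat 37⟩, ⟨.negSucc 781, .negSucc 68, .ofNat 26, .negSucc 171, .ofNat 719, .ofNat 39⟩, ⟨.negSucc 67, .ofNat 26, .ofNat 10, .negSucc 157, .ofNat 80, .ofNat 26⟩, .ofNat 653, .negSucc 308, .ofNat 0, .negSucc 308, .ofNat 1447, .ofNat 0, .ofNat 390, .ofNat 171, .negSucc 361, .ofNat 0, .ofNat 258, .negSucc 86, .ofNat 0, .ofNat 0, .ofNat 848, .ofNat 5626,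 .ofNat 0, .ofNat 892636302302802251269904793600, .ofNat 4389865744381439180695142400, .ofNat 0, .ofNat 0, .ofNat 0, .ofNat 0, .ofNat 0, .ofNat 0, .ofNat 241414185367893650386863941222400, .ofNat 2599579107854478411738749337600, .ofNat 0, .ofNat 0, .ofNat 0, .ofNat 0, .ofNat 0⟩)
    (by decide +kernel)
theorem L00018 : Good (Phi V4.P V4.D 1 1) ⟨2, 0, 2, 1, 2, 1, 2, 3, 3, 2⟩ :=
  leaf_sound (S := T4.ds_pp) T4.ok_pp (w := 168) (c := ⟨⟨.negSucc 311, .negSucc 40, .negSucc 33, .negSucc 133, .ofNat 200, .ofNat 21⟩, ⟨.negSucc 103, .ofNat 34, .negSucc 75, .negSucc 42, .ofNat 61, .ofNat 10⟩, ⟨.negSucc 121, .ofNat 0, .ofNat 14, .ofNat 116, .negSucc 226, .ofNat 15⟩, ⟨.negSucc 865, .negSucc 119, .negSucc 42, .negSucc 362, .ofNat 554, .ofNat 50⟩, ⟨.negSucc 287, .ofNat 73, .negSucc 5, .negSucc 140, .ofNat 163, .ofNat 53⟩, .ofNat 644, .negSucc 288, .ofNat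 0, .negSucc 288, .ofNat 1439, .ofNat 0, .ofNat 409, .ofNat 174, .negSucc 337, .ofNat 0, .ofNat 262, .negSucc 71, .ofNat 0, .ofNat 0, .ofNat 843, .ofNat 3950, .ofNat 0, .ofNat 0, .ofNat 0, .ofNat 0, .ofNat 0, .ofNat 0, .ofNat 0, .ofNat 0, .ofNat 0, .ofNat 319352274427486811275663088025600, .ofNat 3268520421316226286165688320000, .ofNat 0, .ofNat 0, .ofNat 0, .ofNat 0, .ofNat 0⟩)
    (by decide +kernel)
theorem L00019 : Good (Phi V4.P V4.D 1 1) ⟨2, 1, 1, 0, 1, 0, 2, 3, 3, 2⟩ :=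
  leaf_sound (S := T4.ds_pp) T4.ok_pp (w := 152) (c := ⟨⟨.negSucc 234, .negSucc 178, .ofNat 37, .negSucc 338, .ofNat 268, .ofNat 28⟩, ⟨.ofNat 12, .negSucc 4, .negSucc 126, .ofNat 3, .negSucc 1, .ofNat 1⟩, ⟨.negSucc 182, .ofNat 154, .negSucc 49, .ofNat 269, .negSucc 302, .ofNat 5⟩, ⟨.negSucc 685, .negSucc 245, .ofNat 155, .negSucc 847, .ofNat 666, .ofNat 57⟩, ⟨.negSucc 90, .ofNat 34, .negSucc 31, .negSucc 164, .ofNat 81, .ofNat 27⟩, .ofNat 517, .ofNat 24, .ofNat 0, .ofNat 24, .ofNat 2094, .ofNat 0, .ofNat 473, .negSucc 14, .negSucc 439, .ofNat 0, .ofNat 187, .ofNat 8, .ofNat 0, .ofNat 0, .ofNat 903, .ofNat 2888, .ofNat 0, .ofNat 0, .ofNat 20533574147975830359244800, .ofNat 0, .ofNat 0, .ofNat 551670965850310345451844403200, .ofNat 5117614468168446355754188800, .ofNat 0, .ofNat 0, .ofNat 0, .ofNat 13507641393484255963014758400, .ofNat 0, .ofNat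 0, .ofNat 351930035311222448971579392000, .ofNat 7010647189731026699865292800, .ofNat 0⟩)
    (by decide +kernel)
theorem L00020 : Good (Phi V4.P V4.D 1 1) ⟨2, 0, 1, 0, 1, 0, 3, 6, 3, 3⟩ :=
  leaf_sound (S := T4.ds_pp) T4.ok_pp (w := 160) (c := ⟨⟨.negSucc 223, .negSucc 49, .negSucc 19, .negSucc 153, .ofNat 86, .ofNat 24⟩, ⟨.negSucc 9, .ofNat 25, .negSucc 125, .negSucc 36, .ofNat 14, .ofNat 9⟩, ⟨.negSucc 157, .ofNat 22, .negSucc 0, .ofNat 122, .negSucc 87, .ofNat 9⟩, ⟨.negSucc 688, .negSucc 89, .ofNat 20, .negSucc 427, .ofNat 249, .ofNat 59⟩, ⟨.negSucc 51, .ofNat 33, .ofNat 1, .negSucc 298, .ofNat 38, .ofNat 20⟩, .ofNat 400, .negSucc 31, .ofNat 0, .negSucc 31, .ofNat 663, .ofNat 0, .ofNat 418, .ofNat 37, .negSucc 373, .ofNat 0, .ofNat 292, .negSucc 17, .ofNat 0, .ofNat 0, .ofNat 810, .ofNat 4901, .ofNat 0, .ofNat 0, .ofNat 0, .ofNat 0, .ofNat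 0, .ofNat 1024170261583175847892117094400, .ofNat 0, .ofNat 0, .ofNat 0, .ofNat 0, .ofNat 0, .ofNat 0, .ofNat 0, .ofNat 0, .ofNat 0, .ofNat 0⟩)
    (by decide +kernel)
theorem L00021 : Good (Phi V4.P V4.D 1 1) ⟨2, 1, 1, 0, 1, 0, 3, 6, 3, 3⟩ :=
  leaf_sound (S := T4.ds_pp) T4.ok_pp (w := 160) (c := ⟨⟨.negSucc 199, .negSucc 177, .negSucc 45, .negSucc 306, .ofNat 92, .negSucc 1⟩, ⟨.ofNat 16, .negSucc 9, .negSucc 143, .ofNat 3, .ofNat 0, .ofNat 1⟩, ⟨.negSucc 173, .ofNat 146, .ofNat 3, .ofNat 208, .negSucc 98, .ofNat 28⟩, ⟨.negSucc 616, .negSucc 239, .ofNat 12, .negSucc 757, .ofNat 230, .ofNat 4⟩, ⟨.negSucc 70, .ofNat 35, .negSucc 12, .negSucc 161, .ofNat 33, .ofNat 24⟩, .ofNat 515, .ofNat 33, .ofNat 0, .ofNat 33, .ofNat 2131, .ofNat 0, .ofNat 405, .negSucc 17, .negSucc 353, .ofNat 0, .ofNat 160, .ofNat 7, .ofNat 0, .ofNat 0, .ofNat 795, .ofNat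 2353, .ofNat 0, .ofNat 0, .ofNat 0, .ofNat 0, .ofNat 0, .ofNat 631081818905202597679438233600, .ofNat 68153418895557244718835302400, .ofNat 0, .ofNat 0, .ofNat 0, .ofNat 95833165349363085896948121600, .ofNat 0, .ofNat 0, .ofNat 0, .ofNat 0, .ofNat 0⟩)
    (by decide +kernel)
theorem L00022 : Good (Phi V4.P V4.D 1 1) ⟨2, 0, 1, 0, 1, 0, 3, 7, 3, 3⟩ :=
  leaf_sound (S := T4.ds_pp) T4.ok_pp (w := 160) (c := ⟨⟨.negSucc 142, .negSucc 43, .negSucc 5, .negSucc 150, .ofNat 156, .ofNat 17⟩, ⟨.negSucc 6, .ofNat 17, .negSucc 63, .negSucc 32, .ofNat 16, .ofNat 2⟩, ⟨.negSucc 261, .ofNat 28, .ofNat 0, .ofNat 128, .negSucc 153, .ofNat 31⟩, ⟨.negSucc 427, .negSucc 101, .ofNat 10, .negSucc 420, .ofNat 446, .ofNat 45⟩, ⟨.negSucc 28, .ofNat 19, .negSucc 8, .negSucc 195, .ofNat 34, .ofNat 9⟩, .ofNat 399, .negSucc 30, .ofNat 0, .negSucc 30, .ofNat 668, .ofNat 0,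 .ofNat 439, .ofNat 37, .negSucc 483, .ofNat 0, .ofNat 306, .negSucc 30, .ofNat 0, .ofNat 0, .ofNat 865, .ofNat 5737, .ofNat 0, .ofNat 7565189552731587119520153600, .ofNat 42929584478593170790809600, .ofNat 0, .ofNat 0, .ofNat 2134112376502353948454158336000, .ofNat 0, .ofNat 0, .ofNat 0, .ofNat 1260515666177924233863521894400, .ofNat 0, .ofNat 0, .ofNat 0, .ofNat 1719212566865023438487027712000, .ofNat 0, .ofNat 0⟩)
    (by decide +kernel)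
theorem L00023 : Good (Phi V4.P V4.D 1 1) ⟨2, 1, 1, 0, 1, 0, 3, 7, 3, 3⟩ :=
  leaf_sound (S := T4.ds_pp) T4.ok_pp (w := 160) (c := ⟨⟨.negSucc 121, .negSucc 141, .negSucc 38, .negSucc 310, .ofNat 175, .negSucc 5⟩, ⟨.ofNat 10, .negSucc 5, .negSucc 76, .ofNat 4, .negSucc 0, .negSucc 1⟩, ⟨.negSucc 277, .ofNat 123, .ofNat 20, .ofNat 231, .negSucc 172, .ofNat 49⟩, ⟨.negSucc 372, .negSucc 230, .negSucc 27, .negSucc 791, .ofNat 444, .negSucc 6⟩, ⟨.negSucc 33, .ofNat 16, .ofNat 8, .negSucc 125, .ofNat 29, .ofNat 12⟩, .ofNat 367, .ofNat 9, .ofNat 0, .ofNat 9, .ofNat 794, .ofNat 0, .ofNat 456, .negSucc 10, .negSucc 554, .ofNat 0, .ofNat 264, .ofNat 5, .ofNat 0, .ofNat 0, .ofNat 909, .ofNat 3594, .ofNat 0, .ofNat 0, .ofNat 0, .ofNat 0, .ofNat 0, .ofNat 2135157698366870114311077888000, .ofNat 0, .ofNat 0, .ofNat 0, .ofNat 521277048041434368224683622400,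 .ofNat 0, .ofNat 0, .ofNat 0, .ofNat 1860595785393121171814429491200, .ofNat 0, .ofNat 0⟩)
    (by decide +kernel)
theorem L00024 : Good (Phi V4.P V4.D 1 1) ⟨2, 0, 2, 0, 2, 2, 1, 0, 3, 0⟩ :=
  leaf_sound (S := T4.ds_pp) T4.ok_pp (w := 160) (c := ⟨⟨.negSucc 7, .negSucc 86, .negSucc 42, .ofNat 18, .negSucc 182, .negSucc 368⟩, ⟨.ofNat 27, .ofNat 42, .negSucc 83, .ofNat 1, .negSucc 61, .negSucc 42⟩, ⟨.ofNat 421, .ofNat 164, .ofNat 71, .negSucc 41, .negSucc 351, .ofNat 164⟩, ⟨.negSucc 82, .negSucc 207, .negSucc 60, .ofNat 60, .negSucc 485, .negSucc 1087⟩, ⟨.ofNat 22, .ofNat 205, .ofNat 17, .negSucc 9, .negSucc 545, .negSucc 48⟩, .ofNat 707, .negSucc 190, .ofNat 0, .negSucc 190, .ofNat 2165, .ofNat 0, .ofNat 527, .ofNat 96, .negSucc 335, .ofNat 0, .ofNat 256, .ofNat 2, .ofNat 0, .ofNat 0, .ofNat 913, .ofNat 3214, .ofNat 0, .ofNat 0, .ofNat 0, .ofNat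 0, .ofNat 0, .ofNat 0, .ofNat 0, .ofNat 0, .ofNat 0, .ofNat 0, .ofNat 0, .ofNat 0, .ofNat 0, .ofNat 0, .ofNat 0, .ofNat 0⟩)
    (by decide +kernel)
theorem L00025 : Good (Phi V4.P V4.D 1 1) ⟨2, 0, 2, 1, 2, 2, 1, 0, 3, 0⟩ :=
  leaf_sound (S := T4.ds_pp) T4.ok_pp (w := 160) (c := ⟨⟨.negSucc 47, .negSucc 89, .negSucc 54, .negSucc 4, .negSucc 191, .negSucc 335⟩, ⟨.negSucc 7, .ofNat 37, .negSucc 83, .negSucc 4, .negSucc 91, .negSucc 92⟩, ⟨.ofNat 490, .ofNat 166, .ofNat 93, .negSucc 16, .negSucc 371, .ofNat 150⟩, ⟨.negSucc 171, .negSucc 284, .negSucc 113, .ofNat 0, .negSucc 428, .negSucc 989⟩, ⟨.ofNat 43, .ofNat 184, .ofNat 2, .negSucc 13, .negSucc 536, .negSucc 35⟩, .ofNat 650, .negSucc 302, .ofNat 0, .negSucc 302, .ofNat 1449, .ofNat 0, .ofNat 490, .ofNat 224, .negSucc 343, .ofNat 0, .ofNat 297, .negSucc 40, .ofNat 0, .ofNat 0, .ofNat 938, .ofNat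 4377, .ofNat 0, .ofNat 0, .ofNat 2843898646432921307578368000, .ofNat 0, .ofNat 0, .ofNat 0, .ofNat 0, .ofNat 0, .ofNat 0, .ofNat 0, .ofNat 751300906852392827066567884800, .ofNat 0, .ofNat 0, .ofNat 0, .ofNat 0, .ofNat 0⟩)
    (by decide +kernel)
theorem L00026 : Good (Phi V4.P V4.D 1 1) ⟨2, 1, 1, 0, 2, 2, 2, 0, 3, 0⟩ :=
  leaf_sound (S := T4.ds_pp) T4.ok_pp (w := 160) (c := ⟨⟨.negSucc 28, .negSucc 315, .negSucc 184, .negSucc 2, .negSucc 79, .negSucc 536⟩, ⟨.ofNat 34, .negSucc 32, .negSucc 203, .ofNat 4, .negSucc 2, .ofNat 12⟩, ⟨.ofNat 609, .ofNat 281, .ofNat 151, .negSucc 119, .negSucc 159, .ofNat 198⟩, ⟨.negSucc 195, .negSucc 515, .negSucc 488, .negSucc 6, .negSucc 198, .negSucc 1356⟩, ⟨.ofNat 102, .ofNat 342, .ofNat 180, .ofNat 201, .negSucc 295, .ofNat 26⟩, .ofNat 514, .ofNat 28, .ofNat 0, .ofNat 28, .ofNat 2132, .ofNat 0, .ofNat 599,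 .negSucc 43, .negSucc 431, .ofNat 0, .ofNat 205, .ofNat 29, .ofNat 0, .ofNat 0, .ofNat 910, .ofNat 8662, .ofNat 9690600642371092162873707724800, .ofNat 0, .ofNat 0, .ofNat 0, .ofNat 0, .ofNat 0, .ofNat 8435735937415551921363615744000, .ofNat 0, .ofNat 159194361301019814005043521126400, .ofNat 0, .ofNat 6254051757938003358417892147200, .ofNat 0, .ofNat 0, .ofNat 0, .ofNat 5977548172657532503465132032000, .ofNat 0⟩)
    (by decide +kernel)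
theorem L00027 : Good (Phi V4.P V4.D 1 1) ⟨2, 1, 1, 0, 2, 2, 2, 1, 3, 0⟩ :=
  leaf_sound (S := T4.ds_pp) T4.ok_pp (w := 160) (c := ⟨⟨.negSucc 170, .negSucc 264, .negSucc 5, .negSucc 29, .negSucc 48, .negSucc 426⟩, ⟨.ofNat 25, .negSucc 10, .negSucc 232, .ofNat 0, .negSucc 5, .ofNat 6⟩, ⟨.ofNat 444, .ofNat 258, .ofNat 72, .negSucc 37, .negSucc 190, .ofNat 146⟩, ⟨.negSucc 568, .negSucc 357, .ofNat 56, .negSucc 90, .negSucc 125, .negSucc 1083⟩, ⟨.negSucc 169, .ofNat 328, .ofNat 61, .ofNat 165, .negSucc 263, .ofNat 25⟩, .ofNat 520, .ofNat 25, .ofNat 0, .ofNat 25, .ofNat 2060, .ofNat 0, .ofNat 611, .negSucc 30, .negSucc 473, .ofNat 0, .ofNat 219, .ofNat 37, .ofNat 0, .ofNat 0, .ofNat 995, .ofNat 4870, .ofNat 0, .ofNat 0, .ofNat 0, .ofNat 0, .ofNat 0, .ofNat 0, .ofNat 6370740299503988717693121331200, .ofNat 0, .ofNat 0, .ofNat 0, .ofNat 6720040814296328199038671257600,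 .ofNat 0, .ofNat 0, .ofNat 0, .ofNat 6481036609296899819802565017600, .ofNat 0⟩)
    (by decide +kernel)
theorem L00028 : Good (Phi V4.P V4.D 1 1) ⟨2, 0, 1, 0, 2, 2, 1, 0, 3, 1⟩ :=
  leaf_sound (S := T4.ds_pp) T4.ok_pp (w := 160) (c := ⟨⟨.negSucc 428, .negSucc 126, .negSucc 53, .negSucc 140, .ofNat 49, .negSucc 136⟩, ⟨.negSucc 4, .ofNat 73, .negSucc 287, .negSucc 6, .negSucc 34, .negSucc 18⟩, ⟨.ofNat 638, .ofNat 125, .ofNat 112, .ofNat 17, .negSucc 459, .negSucc 22⟩, ⟨.negSucc 1328, .negSucc 266, .negSucc 58, .negSucc 408, .ofNat 181, .negSucc 394⟩, ⟨.negSucc 119, .ofNat 272, .ofNat 51, .ofNat 48, .negSucc 444, .negSucc 92⟩, .ofNat 586, .negSucc 95, .ofNat 0, .negSucc 95, .ofNat 1368, .ofNat 0, .ofNat 500, .ofNat 59, .negSucc 276, .ofNat 0, .ofNat 267, .ofNat 24, .ofNat 0, .ofNat 0, .ofNat 904, .ofNat 4777, .ofNat 0, .ofNat 0, .ofNat 0, .ofNat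 0, .ofNat 38632026702928652273058840576000, .ofNat 0, .ofNat 187206900326127864208215244800, .ofNat 0, .ofNat 0, .ofNat 0, .ofNat 451611243966861409287300710400, .ofNat 0, .ofNat 0, .ofNat 0, .ofNat 0, .ofNat 0⟩)
    (by decide +kernel)
theorem L00029 : Good (Phi V4.P V4.D 1 1) ⟨2, 1, 1, 0, 2, 2, 1, 0, 3, 1⟩ :=
  leaf_sound (S := T4.ds_pp) T4.ok_pp (w := 160) (c := ⟨⟨.negSucc 493, .negSucc 380, .negSucc 3, .negSucc 253, .ofNat 58, .negSucc 147⟩, ⟨.ofNat 45, .negSucc 28, .negSucc 296, .ofNat 11, .negSucc 12, .ofNat 4⟩, ⟨.ofNat 786, .ofNat 282, .ofNat 134, .ofNat 1, .negSucc 432, .negSucc 99⟩, ⟨.negSucc 1452, .negSucc 504, .ofNat 6, .negSucc 626, .ofNat 138, .negSucc 382⟩, ⟨.ofNat 64, .ofNat 368, .ofNat 79, .ofNat 252, .negSucc 506, .negSucc 75⟩, .ofNat 368, .ofNat 8, .ofNat 0, .ofNat 8, .ofNat 794, .ofNat 0, .ofNat 621, .negSucc 43, .negSucc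 477, .ofNat 0, .ofNat 316, .ofNat 81, .ofNat 0, .ofNat 0, .ofNat 988, .ofNat 4261, .ofNat 670483439569090232277427814400, .ofNat 0, .ofNat 672067602172202786802892800, .ofNat 0, .ofNat 2447404909240885989870875443200, .ofNat 0, .ofNat 400784733219217924957195468800, .ofNat 0, .ofNat 24711165014000629728339925401600, .ofNat 0, .ofNat 621842732972771689691401420800, .ofNat 0, .ofNat 0, .ofNat 0, .ofNat 733218307599280817453609779200, .ofNat 0⟩)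
    (by decide +kernel)
theorem L00030 : Good (Phi V4.P V4.D 1 1) ⟨1, 0, 1, 0, 2, 2, 1, 0, 4, 4⟩ :=
  leaf_sound (S := T4.ds_pp) T4.ok_pp (w := 160) (c := ⟨⟨.negSucc 465, .negSucc 484, .negSucc 89, .negSucc 238, .ofNat 98, .negSucc 11⟩, ⟨.negSucc 4, .ofNat 71, .negSucc 315, .negSucc 20, .negSucc 12, .negSucc 11⟩, ⟨.ofNat 549, .ofNat 279, .ofNat 120, .ofNat 54, .negSucc 383, .negSucc 61⟩, ⟨.negSucc 1647, .negSucc 647, .negSucc 56, .negSucc 583, .ofNat 308, .ofNat 0⟩, ⟨.negSucc 329, .ofNat 634, .ofNat 59, .ofNat 135, .negSucc 347, .negSucc 52⟩, .ofNat 385, .negSucc 30, .ofNat 0, .negSucc 30, .ofNat 715, .ofNat 0, .ofNat 523, .ofNat 25, .negSucc 326, .ofNat 0, .ofNat 310, .ofNat 55, .ofNat 0, .ofNat 0, .ofNat 935, .ofNat 4623, .ofNat 46559044761791382764598067200, .ofNat 0, .ofNat 33261582289908900389348966400, .ofNat 0, .ofNat 0, .ofNat 0, .ofNat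 0, .ofNat 0, .ofNat 0, .ofNat 0, .ofNat 0, .ofNat 0, .ofNat 0, .ofNat 0, .ofNat 0, .ofNat 0⟩)
    (by decide +kernel)
theorem L00031 : Good (Phi V4.P V4.D 1 1) ⟨1, 0, 1, 0, 2, 2, 1, 0, 4, 5⟩ :=
  leaf_sound (S := T4.ds_pp) T4.ok_pp (w := 160) (c := ⟨⟨.negSucc 522, .negSucc 382, .negSucc 53, .negSucc 200, .ofNat 87, .ofNat 11⟩, ⟨.negSucc 26, .ofNat 92, .negSucc 295, .negSucc 3, .negSucc 6, .negSucc 8⟩, ⟨.ofNat 501, .ofNat 178, .ofNat 74, .ofNat 29, .negSucc 290, .negSucc 114⟩, ⟨.negSucc 1728, .negSucc 494, .ofNat 10, .negSucc 542, .ofNat 278, .ofNat 79⟩, ⟨.negSucc 412, .ofNat 567, .ofNat 54, .ofNat 95, .negSucc 198, .negSucc 48⟩, .ofNat 385, .negSucc 20, .ofNat 0, .negSucc 20, .ofNat 716, .ofNat 0, .ofNat 474, .ofNat 8, .negSucc 261, .ofNat 0, .ofNat 288, .ofNat 53, .ofNat 0, .ofNat 0, .ofNat 895, .ofNat 3773, .ofNat 0, .ofNat 0, .ofNat 85211659583221188806678937600,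 .ofNat 0, .ofNat 0, .ofNat 0, .ofNat 0, .ofNat 0, .ofNat 0, .ofNat 0, .ofNat 0, .ofNat 0, .ofNat 0, .ofNat 0, .ofNat 0, .ofNat 0⟩)
    (by decide +kernel)
theorem L00032 : Good (Phi V4.P V4.D 1 1) ⟨1, 0, 1, 0, 2, 2, 1, 0, 3, 3⟩ :=
  leaf_sound (S := T4.ds_pp) T4.ok_pp (w := 160) (c := ⟨⟨.negSucc 529, .negSucc 357, .negSucc 79, .negSucc 187, .ofNat 115, .ofNat 62⟩, ⟨.negSucc 28, .ofNat 71, .negSucc 285, .negSucc 9, .ofNat 5, .negSucc 0⟩, ⟨.ofNat 414, .ofNat 114, .ofNat 34, .ofNat 20, .negSucc 249, .negSucc 167⟩, ⟨.negSucc 1729, .negSucc 382, .ofNat 19, .negSucc 480, .ofNat 293, .ofNat 169⟩, ⟨.negSucc 464, .ofNat 425, .ofNat 3, .ofNat 47, .negSucc 60, .negSucc 29⟩, .ofNat 384, .negSucc 11, .ofNat 0, .negSucc 11, .ofNat 716, .ofNat 0, .ofNat 414, .ofNat 3, .negSucc 217, .ofNat 0, .ofNat 258, .ofNat 45, .ofNat 0, .ofNat 0, .ofNat 847, .ofNat 4862,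 .ofNat 28662218976121409927695564800, .ofNat 0, .ofNat 0, .ofNat 0, .ofNat 0, .ofNat 1011496733121356387672968396800, .ofNat 0, .ofNat 0, .ofNat 0, .ofNat 0, .ofNat 0, .ofNat 0, .ofNat 4993038348576372167222388326400, .ofNat 479637641814690085513828761600, .ofNat 910852465659207573854748672000, .ofNat 0⟩)
    (by decide +kernel)
theorem L00033 : Good (Phi V4.P V4.D 1 1) ⟨2, 0, 2, 0, 2, 2, 1, 1, 3, 0⟩ :=
  leaf_sound (S := T4.ds_pp) T4.ok_pp (w := 160) (c := ⟨⟨.negSucc 237, .negSucc 46, .negSucc 49, .negSucc 130, .negSucc 35, .negSucc 147⟩, ⟨.negSucc 65, .ofNat 67, .negSucc 100, .negSucc 0, .ofNat 7, .ofNat 8⟩, ⟨.ofNat 52, .ofNat 62, .ofNat 8, .ofNat 200, .negSucc 325, .ofNat 104⟩, ⟨.negSucc 732, .negSucc 79, .negSucc 42, .negSucc 378, .negSucc 104, .negSucc 435⟩, ⟨.negSucc 698, .ofNat 179, .ofNat 5, .ofNat 92, .ofNat 81, .ofNat 164⟩, .ofNat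 695, .negSucc 155, .ofNat 0, .negSucc 155, .ofNat 2275, .ofNat 0, .ofNat 301, .ofNat 52, .negSucc 223, .ofNat 0, .ofNat 143, .negSucc 1, .ofNat 0, .ofNat 0, .ofNat 518, .ofNat 1120, .ofNat 0, .ofNat 0, .ofNat 0, .ofNat 0, .ofNat 0, .ofNat 0, .ofNat 0, .ofNat 0, .ofNat 0, .ofNat 0, .ofNat 0, .ofNat 0, .ofNat 0, .ofNat 0, .ofNat 0, .ofNat 0⟩)
    (by decide +kernel)
theorem L00034 : Good (Phi V4.P V4.D 1 1) ⟨2, 0, 2, 1, 2, 2, 2, 2, 3, 0⟩ :=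
  leaf_sound (S := T4.ds_pp) T4.ok_pp (w := 168) (c := ⟨⟨.negSucc 272, .negSucc 35, .negSucc 58, .negSucc 61, .negSucc 48, .negSucc 220⟩, ⟨.negSucc 121, .ofNat 76, .negSucc 93, .negSucc 15, .negSucc 21, .negSucc 52⟩, ⟨.ofNat 108, .ofNat 122, .ofNat 65, .ofNat 82, .negSucc 191, .ofNat 89⟩, ⟨.negSucc 700, .negSucc 128, .negSucc 27, .negSucc 177, .negSucc 110, .negSucc 669⟩, ⟨.negSucc 547, .ofNat 214, .ofNat 11, .negSucc 19, .negSucc 127, .ofNat 56⟩, .ofNat 645, .negSucc 290, .ofNat 0, .negSucc 290, .ofNat 1442, .ofNat 0, .ofNat 267, .ofNat 123, .negSucc 202, .ofNat 0, .ofNat 163, .negSucc 21, .ofNat 0, .ofNat 0, .ofNat 516, .ofNat 3366, .ofNat 0, .ofNat 0, .ofNat 0, .ofNat 0, .ofNat 0, .ofNat 0, .ofNat 0, .ofNat 0, .ofNat 0, .ofNat 0, .ofNat 673220563984561330670115225600, .ofNat 0, .ofNat 0, .ofNat 0, .ofNat 1188515209188358375656652800000,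 .ofNat 0⟩)
    (by decide +kernel)
theorem L00035 : Good (Phi V4.P V4.D 1 1) ⟨2, 0, 2, 1, 2, 2, 2, 3, 3, 0⟩ :=
  leaf_sound (S := T4.ds_pp) T4.ok_pp (w := 168) (c := ⟨⟨.negSucc 368, .ofNat 43, .negSucc 24, .negSucc 132, .ofNat 8, .negSucc 81⟩, ⟨.negSucc 159, .ofNat 94, .negSucc 96, .negSucc 31, .ofNat 16, .negSucc 7⟩, ⟨.negSucc 89, .negSucc 10, .negSucc 21, .ofNat 200, .negSucc 151, .ofNat 65⟩, ⟨.negSucc 922, .ofNat 93, .ofNat 60, .negSucc 396, .negSucc 20, .negSucc 291⟩, ⟨.negSucc 780, .ofNat 242, .negSucc 11, .ofNat 32, .ofNat 188, .ofNat 184⟩, .ofNat 646, .negSucc 292, .ofNat 0, .negSucc 292, .ofNat 1446, .ofNat 0, .ofNat 292, .ofNat 141, .negSucc 247, .ofNat 0, .ofNat 182, .negSucc 40, .ofNat 0, .ofNat 0, .ofNat 540, .ofNat 2371, .ofNat 0, .ofNat 0, .ofNat 7661070091400739066740736000, .ofNat 0, .ofNat 0, .ofNat 0, .ofNat 0, .ofNat 0,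 .ofNat 0, .ofNat 61954818718443727909204839628800, .ofNat 435779448278623719968577945600, .ofNat 0, .ofNat 0, .ofNat 0, .ofNat 0, .ofNat 0⟩)
    (by decide +kernel)
theorem L00036 : Good (Phi V4.P V4.D 1 1) ⟨2, 0, 2, 0, 2, 2, 1, 1, 3, 1⟩ :=
  leaf_sound (S := T4.ds_pp) T4.ok_pp (w := 160) (c := ⟨⟨.negSucc 415, .negSucc 93, .negSucc 29, .negSucc 215, .ofNat 142, .negSucc 44⟩, ⟨.negSucc 57, .ofNat 69, .negSucc 117, .negSucc 7, .ofNat 24, .negSucc 2⟩, ⟨.ofNat 145, .ofNat 83, .negSucc 11, .ofNat 193, .negSucc 335, .negSucc 2⟩, ⟨.negSucc 1261, .negSucc 194, .ofNat 6, .negSucc 629, .ofNat 402, .negSucc 127⟩, ⟨.negSucc 609, .ofNat 219, .negSucc 4, .ofNat 29, .ofNat 189, .ofNat 47⟩, .ofNat 399, .negSucc 22, .ofNat 0, .negSucc 22, .ofNat 660, .ofNat 0, .ofNat 611, .ofNat 43, .negSucc 509, .ofNat 0, .ofNat 387, .ofNat 40, .ofNat 0, .ofNat 0, .ofNat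 1011, .ofNat 2269, .ofNat 0, .ofNat 0, .ofNat 0, .ofNat 0, .ofNat 0, .ofNat 0, .ofNat 0, .ofNat 0, .ofNat 0, .ofNat 0, .ofNat 0, .ofNat 0, .ofNat 0, .ofNat 0, .ofNat 0, .ofNat 0⟩)
    (by decide +kernel)
theorem L00037 : Good (Phi V4.P V4.D 1 1) ⟨2, 0, 2, 1, 2, 2, 1, 1, 3, 1⟩ :=
  leaf_sound (S := T4.ds_pp) T4.ok_pp (w := 160) (c := ⟨⟨.negSucc 476, .negSucc 35, .negSucc 53, .negSucc 185, .ofNat 154, .negSucc 36⟩, ⟨.negSucc 171, .ofNat 82, .negSucc 124, .negSucc 48, .ofNat 51, .negSucc 7⟩, ⟨.ofNat 181, .ofNat 33, .ofNat 13, .ofNat 160, .negSucc 366, .negSucc 7⟩, ⟨.negSucc 1289, .negSucc 147, .negSucc 56, .negSucc 549, .ofNat 417, .negSucc 113⟩, ⟨.negSucc 594, .ofNat 300, .ofNat 38, .negSucc 10, .ofNat 155, .ofNat 24⟩, .ofNat 416, .negSucc 94, .ofNat 0, .negSucc 94, .ofNat 667, .ofNat 0, .ofNat 588, .ofNat 168, .negSucc 490, .ofNat 0, .ofNat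 397, .negSucc 22, .ofNat 0, .ofNat 0, .ofNat 1017, .ofNat 2942, .ofNat 0, .ofNat 0, .ofNat 650234745965759004514713600, .ofNat 0, .ofNat 0, .ofNat 0, .ofNat 0, .ofNat 0, .ofNat 0, .ofNat 122776416444115187200884001996800, .ofNat 0, .ofNat 0, .ofNat 0, .ofNat 71651130904380785750952011366400, .ofNat 0, .ofNat 0⟩)
    (by decide +kernel)
theorem L00038 : Good (Phi V4.P V4.D 1 1) ⟨2, 0, 1, 0, 2, 2, 1, 1, 3, 2⟩ :=
  leaf_sound (S := T4.ds_pp) T4.ok_pp (w := 160) (c := ⟨⟨.negSucc 459, .negSucc 129, .negSucc 75, .negSucc 197, .ofNat 155, .ofNat 41⟩, ⟨.negSucc 56, .ofNat 81, .negSucc 266, .negSucc 24, .ofNat 36, .ofNat 6⟩, ⟨.ofNat 137, .ofNat 79, .ofNat 19, .ofNat 149, .negSucc 270, .negSucc 69⟩, ⟨.negSucc 1397, .negSucc 283, .ofNat 4, .negSucc 567, .ofNat 440, .ofNat 102⟩, ⟨.negSucc 581, .ofNat 259, .ofNat 25, .ofNat 10, .ofNat 177, .ofNat 0⟩, .ofNat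 400, .negSucc 38, .ofNat 0, .negSucc 38, .ofNat 666, .ofNat 0, .ofNat 518, .ofNat 51, .negSucc 354, .ofNat 0, .ofNat 334, .ofNat 29, .ofNat 0, .ofNat 0, .ofNat 901, .ofNat 2599, .ofNat 0, .ofNat 0, .ofNat 0, .ofNat 0, .ofNat 0, .ofNat 19431760611190869206015724748800, .ofNat 0, .ofNat 0, .ofNat 0, .ofNat 32016604107207549554299345305600, .ofNat 222930964988087553467036467200, .ofNat 0, .ofNat 0, .ofNat 16870787454003616446201357926400, .ofNat 0, .ofNat 0⟩)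
    (by decide +kernel)
theorem L00039 : Good (Phi V4.P V4.D 1 1) ⟨2, 0, 1, 0, 2, 2, 1, 1, 3, 3⟩ :=
  leaf_sound (S := T4.ds_pp) T4.ok_pp (w := 160) (c := ⟨⟨.negSucc 451, .negSucc 101, .negSucc 65, .negSucc 164, .ofNat 142, .ofNat 35⟩, ⟨.negSucc 51, .ofNat 66, .negSucc 234, .negSucc 24, .ofNat 18, .ofNat 4⟩, ⟨.ofNat 105, .ofNat 40, .ofNat 6, .ofNat 109, .negSucc 221, .negSucc 54⟩, ⟨.negSucc 1384, .negSucc 212, .ofNat 6, .negSucc 441, .ofNat 446, .ofNat 114⟩, ⟨.negSucc 498, .ofNat 186, .ofNat 4, .negSucc 75, .ofNat 146, .ofNat 13⟩, .ofNat 399, .negSucc 28, .ofNat 0, .negSucc 28, .ofNat 665, .ofNat 0, .ofNat 433, .ofNat 31, .negSucc 276, .ofNat 0, .ofNat 290, .ofNat 21, .ofNat 0, .ofNat 0, .ofNat 815, .ofNat 5308, .ofNat 0, .ofNat 0, .ofNat 0, .ofNat 0, .ofNat 0, .ofNat 50319073245426695497750413312000, .ofNat 0, .ofNat 0, .ofNat 0, .ofNat 61752561106856525710188399820800,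 .ofNat 152684308083799973626380288000, .ofNat 0, .ofNat 0, .ofNat 39189236160797812171225851494400, .ofNat 0, .ofNat 0⟩)
    (by decide +kernel)
theorem L00040 : Good (Phi V4.P V4.D 1 1) ⟨2, 1, 2, 0, 2, 2, 1, 1, 2, 0⟩ :=
  leaf_sound (S := T4.ds_pp) T4.ok_pp (w := 160) (c := ⟨⟨.negSucc 238, .negSucc 319, .ofNat 62, .negSucc 190, .negSucc 9, .negSucc 406⟩, ⟨.ofNat 12, .negSucc 10, .negSucc 118, .ofNat 15, .ofNat 4, .ofNat 7⟩, ⟨.ofNat 130, .ofNat 268, .negSucc 57, .ofNat 246, .negSucc 350, .ofNat 144⟩, ⟨.negSucc 796, .negSucc 414, .ofNat 252, .negSucc 502, .negSucc 20, .negSucc 1008⟩, ⟨.negSucc 571, .ofNat 310, .ofNat 129, .ofNat 293, .ofNat 64, .ofNat 149⟩, .ofNat 517, .ofNat 30, .ofNat 0, .ofNat 30, .ofNat 2068, .ofNat 0, .ofNat 316, .negSucc 12, .negSucc 261, .ofNat 0, .ofNat 115, .ofNat 16, .ofNat 0, .ofNat 0, .ofNat 521, .ofNat 762, .ofNat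 0, .ofNat 0, .ofNat 36950464794741440053248000, .ofNat 0, .ofNat 0, .ofNat 0, .ofNat 5844618669345901496185651200, .ofNat 0, .ofNat 0, .ofNat 0, .ofNat 0, .ofNat 0, .ofNat 0, .ofNat 0, .ofNat 10012980741025472121824870400, .ofNat 0⟩)
    (by decide +kernel)
theorem L00041 : Good (Phi V4.P V4.D 1 1) ⟨2, 1, 2, 1, 2, 2, 1, 1, 2, 0⟩ :=
  out_sound (S := T4.ds_pp) T4.ok_pp (w := 40) (j := 3) (by decide +kernel)
theorem L00042 : Good (Phi V4.P V4.D 1 1) ⟨2, 1, 1, 0, 2, 2, 1, 1, 2, 1⟩ :=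
  leaf_sound (S := T4.ds_pp) T4.ok_pp (w := 160) (c := ⟨⟨.negSucc 508, .negSucc 386, .negSucc 77, .negSucc 309, .ofNat 90, .ofNat 51⟩, ⟨.ofNat 32, .negSucc 20, .negSucc 301, .ofNat 12, .ofNat 1, .negSucc 1⟩, ⟨.ofNat 203, .ofNat 256, .negSucc 54, .ofNat 192, .negSucc 229, .negSucc 165⟩, ⟨.negSucc 1518, .negSucc 514, .ofNat 82, .negSucc 773, .ofNat 232, .ofNat 132⟩, ⟨.negSucc 420, .ofNat 290, .ofNat 114, .ofNat 225, .ofNat 117, .ofNat 26⟩, .ofNat 367, .ofNat 9, .ofNat 0, .ofNat 9, .ofNat 794, .ofNat 0, .ofNat 539, .negSucc 20, .negSucc 408, .ofNat 0, .ofNat 288, .ofNat 45, .ofNat 0, .ofNat 0, .ofNat 906, .ofNat 2295, .ofNat 0, .ofNat 0, .ofNat 0, .ofNat 0, .ofNat 0, .ofNat 9107998347923580937602229862400, .ofNat 24337793993918935553644953600, .ofNat 0, .ofNat 0, .ofNat 3886503227938558790368808140800, .ofNat 30201052488080783235769958400, .ofNat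 0, .ofNat 0, .ofNat 7948034787711066871148052480000, .ofNat 24264562737493013531354726400, .ofNat 0⟩)
    (by decide +kernel)
theorem L00043 : Good (Phi V4.P V4.D 1 1) ⟨1, 0, 2, 0, 2, 3, 1, 0, 4, 0⟩ :=
  leaf_sound (S := T4.ds_pp) T4.ok_pp (w := 160) (c := ⟨⟨.ofNat 231, .negSucc 292, .ofNat 17, .ofNat 86, .negSucc 342, .negSucc 422⟩, ⟨.ofNat 8, .ofNat 35, .negSucc 25, .ofNat 15, .negSucc 40, .negSucc 18⟩, ⟨.ofNat 270, .ofNat 285, .ofNat 54, .negSucc 149, .negSucc 142, .ofNat 180⟩, ⟨.ofNat 528, .negSucc 544, .ofNat 63, .ofNat 193, .negSucc 915, .negSucc 1129⟩, ⟨.negSucc 73, .ofNat 791, .negSucc 49, .ofNat 340, .negSucc 618, .negSucc 10⟩, .ofNat 381, .negSucc 11, .ofNat 0, .negSucc 11, .ofNat 725, .ofNat 0, .ofNat 827, .negSucc 18, .negSucc 619, .ofNat 0, .ofNat 394, .ofNat 28, .ofNat 0, .ofNat 0, .ofNat 994, .ofNat 2072, .ofNat 0, .ofNat 0,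 .ofNat 0, .ofNat 0, .ofNat 0, .ofNat 0, .ofNat 0, .ofNat 0, .ofNat 0, .ofNat 0, .ofNat 0, .ofNat 0, .ofNat 0, .ofNat 0, .ofNat 0, .ofNat 0⟩)
    (by decide +kernel)
theorem L00044 : Good (Phi V4.P V4.D 1 1) ⟨2, 0, 2, 0, 2, 3, 1, 0, 4, 1⟩ :=
  leaf_sound (S := T4.ds_pp) T4.ok_pp (w := 168) (c := ⟨⟨.negSucc 196, .negSucc 121, .ofNat 22, .negSucc 118, .negSucc 154, .negSucc 300⟩, ⟨.ofNat 6, .ofNat 78, .negSucc 128, .ofNat 14, .negSucc 61, .negSucc 18⟩, ⟨.ofNat 420, .ofNat 121, .ofNat 74, .negSucc 40, .negSucc 217, .ofNat 122⟩, ⟨.negSucc 628, .negSucc 265, .ofNat 70, .negSucc 341, .negSucc 420, .negSucc 869⟩, ⟨.negSucc 111, .ofNat 420, .negSucc 45, .ofNat 276, .negSucc 541, .ofNat 23⟩, .ofNat 581, .negSucc 71, .ofNat 0, .negSucc 71, .ofNat 1376, .ofNat 0, .ofNat 657, .ofNat 36, .negSucc 342, .ofNat 0, .ofNat 312, .ofNat 6, .ofNat 0, .ofNat 0,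 .ofNat 916, .ofNat 3139, .ofNat 0, .ofNat 0, .ofNat 0, .ofNat 0, .ofNat 0, .ofNat 0, .ofNat 0, .ofNat 0, .ofNat 0, .ofNat 0, .ofNat 0, .ofNat 0, .ofNat 0, .ofNat 0, .ofNat 0, .ofNat 0⟩)
    (by decide +kernel)
theorem L00045 : Good (Phi V4.P V4.D 1 1) ⟨2, 1, 2, 0, 2, 3, 1, 0, 4, 1⟩ :=
  leaf_sound (S := T4.ds_pp) T4.ok_pp (w := 168) (c := ⟨⟨.negSucc 240, .negSucc 450, .ofNat 61, .negSucc 193, .negSucc 97, .negSucc 411⟩, ⟨.ofNat 56, .negSucc 50, .negSucc 159, .ofNat 10, .negSucc 5, .ofNat 11⟩, ⟨.ofNat 563, .ofNat 208, .ofNat 15, .negSucc 141, .negSucc 131, .ofNat 121⟩, ⟨.negSucc 790, .negSucc 705, .ofNat 112, .negSucc 450, .negSucc 281, .negSucc 1036⟩, ⟨.ofNat 46, .ofNat 735, .ofNat 24, .ofNat 640, .negSucc 697, .ofNat 231⟩, .ofNat 512, .ofNat 24, .ofNat 0, .ofNat 24, .ofNat 2157, .ofNat 0, .ofNat 745, .negSucc 74, .negSucc 446, .ofNat 0, .ofNat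 231, .ofNat 22, .ofNat 0, .ofNat 0, .ofNat 946, .ofNat 4484, .ofNat 0, .ofNat 0, .ofNat 0, .ofNat 0, .ofNat 29084367952866004267688578252800, .ofNat 0, .ofNat 11139582926287395078052773888000, .ofNat 0, .ofNat 0, .ofNat 0, .ofNat 6098851808095443163322882457600, .ofNat 0, .ofNat 0, .ofNat 0, .ofNat 0, .ofNat 0⟩)
    (by decide +kernel)
theorem L00046 : Good (Phi V4.P V4.D 1 1) ⟨2, 0, 2, 0, 2, 3, 1, 0, 3, 1⟩ :=
  leaf_sound (S := T4.ds_pp) T4.ok_pp (w := 160) (c := ⟨⟨.negSucc 514, .negSucc 219, .ofNat 26, .negSucc 255, .ofNat 57, .negSucc 217⟩, ⟨.ofNat 16, .ofNat 97, .negSucc 188, .negSucc 0, .negSucc 47, .negSucc 30⟩, ⟨.ofNat 600, .ofNat 73, .ofNat 39, .negSucc 22, .negSucc 229, .negSucc 26⟩, ⟨.negSucc 1569, .negSucc 494, .ofNat 84, .negSucc 777, .ofNat 197, .negSucc 627⟩, ⟨.negSucc 194, .ofNat 582, .ofNat 19, .ofNat 335, .negSucc 557, .negSucc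 61⟩, .ofNat 585, .negSucc 91, .ofNat 0, .negSucc 91, .ofNat 1367, .ofNat 0, .ofNat 584, .ofNat 34, .negSucc 250, .ofNat 0, .ofNat 293, .ofNat 11, .ofNat 0, .ofNat 0, .ofNat 905, .ofNat 2498, .ofNat 0, .ofNat 0, .ofNat 0, .ofNat 0, .ofNat 0, .ofNat 0, .ofNat 0, .ofNat 0, .ofNat 0, .ofNat 0, .ofNat 0, .ofNat 0, .ofNat 0, .ofNat 0, .ofNat 0, .ofNat 0⟩)
    (by decide +kernel)
theorem L00047 : Good (Phi V4.P V4.D 1 1) ⟨2, 1, 2, 0, 2, 3, 1, 0, 3, 1⟩ :=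
  leaf_sound (S := T4.ds_pp) T4.ok_pp (w := 160) (c := ⟨⟨.negSucc 645, .negSucc 485, .ofNat 78, .negSucc 365, .ofNat 16, .negSucc 226⟩, ⟨.ofNat 90, .negSucc 85, .negSucc 255, .ofNat 23, .negSucc 11, .ofNat 10⟩, ⟨.ofNat 605, .ofNat 255, .ofNat 8, .negSucc 79, .negSucc 39, .negSucc 62⟩, ⟨.negSucc 1914, .negSucc 597, .ofNat 132, .negSucc 907, .ofNat 57, .negSucc 580⟩, ⟨.ofNat 101, .ofNat 705, .negSucc 118, .ofNat 889, .negSucc 590, .ofNat 58⟩, .ofNat 507, .ofNat 29, .ofNat 0, .ofNat 29, .ofNat 2200, .ofNat 0, .ofNat 653, .negSucc 76, .negSucc 328, .ofNat 0, .ofNat 212, .ofNat 24, .ofNat 0, .ofNat 0, .ofNat 917, .ofNat 2743, .ofNat 947455448234068637425808179200, .ofNat 0, .ofNat 0, .ofNat 0, .ofNat 0, .ofNat 0, .ofNat 0, .ofNat 0, .ofNat 0, .ofNat 0, .ofNat 0, .ofNat 0, .ofNat 0, .ofNat 0, .ofNat 0, .ofNat 0⟩)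
    (by decide +kernel)
theorem L00048 : Good (Phi V4.P V4.D 1 1) ⟨1, 0, 2, 0, 2, 3, 2, 0, 2, 1⟩ :=
  leaf_sound (S := T4.ds_pp) T4.ok_pp (w := 160) (c := ⟨⟨.negSucc 682, .negSucc 580, .ofNat 15, .negSucc 270, .ofNat 28, .ofNat 150⟩, ⟨.ofNat 21, .ofNat 65, .negSucc 213, .ofNat 23, .negSucc 37, .negSucc 15⟩, ⟨.ofNat 560, .ofNat 92, .ofNat 97, .negSucc 121, .negSucc 17, .negSucc 428⟩, ⟨.negSucc 2262, .negSucc 754, .ofNat 47, .negSucc 755, .ofNat 153, .ofNat 387⟩, ⟨.negSucc 524, .ofNat 1332, .ofNat 38, .ofNat 700, .negSucc 251, .negSucc 446⟩, .ofNat 381, .negSucc 5, .ofNat 0, .negSucc 5, .ofNat 730, .ofNat 0, .ofNat 574, .negSucc 78, .negSucc 236, .ofNat 0, .ofNat 328, .ofNat 46, .ofNat 0, .ofNat 0, .ofNat 918, .ofNat 4593, .ofNat 0, .ofNat 0, .ofNat 0, .ofNat 0, .ofNat 0, .ofNat 0, .ofNat 0, .ofNat 0, .ofNat 0, .ofNat 0, .ofNat 0, .ofNat 0,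 .ofNat 0, .ofNat 2956960632476334346172419276800, .ofNat 0, .ofNat 0⟩)
    (by decide +kernel)
theorem L00049 : Good (Phi V4.P V4.D 1 1) ⟨1, 0, 2, 0, 2, 3, 2, 1, 2, 1⟩ :=
  leaf_sound (S := T4.ds_pp) T4.ok_pp (w := 160) (c := ⟨⟨.negSucc 655, .negSucc 647, .ofNat 53, .negSucc 226, .ofNat 48, .ofNat 184⟩, ⟨.negSucc 41, .ofNat 79, .negSucc 175, .ofNat 34, .negSucc 1, .ofNat 15⟩, ⟨.ofNat 384, .ofNat 279, .ofNat 24, .ofNat 2, .negSucc 35, .negSucc 338⟩, ⟨.negSucc 2050, .negSucc 927, .ofNat 87, .negSucc 690, .ofNat 104, .ofNat 360⟩, ⟨.negSucc 645, .ofNat 1207, .negSucc 61, .ofNat 558, .negSucc 166, .negSucc 198⟩, .ofNat 381, .negSucc 8, .ofNat 0, .negSucc 8, .ofNat 719, .ofNat 0, .ofNat 596, .negSucc 43, .negSucc 316, .ofNat 0, .ofNat 339, .ofNat 61, .ofNat 0, .ofNat 0, .ofNat 921, .ofNat 4289, .ofNat 0, .ofNat 0, .ofNat 0, .ofNat 0, .ofNat 0, .ofNat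 942493615203073101263378841600, .ofNat 0, .ofNat 0, .ofNat 0, .ofNat 0, .ofNat 0, .ofNat 0, .ofNat 0, .ofNat 3406697681506689609354549657600, .ofNat 0, .ofNat 0⟩)
    (by decide +kernel)
theorem L00050 : Good (Phi V4.P V4.D 1 1) ⟨2, 0, 2, 0, 2, 3, 1, 1, 3, 0⟩ :=
  leaf_sound (S := T4.ds_pp) T4.ok_pp (w := 160) (c := ⟨⟨.negSucc 167, .negSucc 135, .ofNat 25, .negSucc 99, .negSucc 210, .negSucc 349⟩, ⟨.negSucc 58, .ofNat 68, .negSucc 126, .ofNat 50, .ofNat 16, .negSucc 15⟩, ⟨.negSucc 7, .ofNat 145, .negSucc 51, .ofNat 229, .ofNat 8, .ofNat 189⟩, ⟨.negSucc 490, .negSucc 308, .ofNat 125, .negSucc 332, .negSucc 649, .negSucc 1055⟩, ⟨.negSucc 970, .ofNat 428, .negSucc 26, .ofNat 591, .ofNat 438, .ofNat 190⟩, .ofNat 582, .negSucc 69, .ofNat 0, .negSucc 69, .ofNat 1369, .ofNat 0, .ofNat 715, .ofNat 120, .negSucc 453, .ofNat 0, .ofNat 355, .ofNat 30,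 .ofNat 0, .ofNat 0, .ofNat 1010, .ofNat 2226, .ofNat 0, .ofNat 0, .ofNat 0, .ofNat 0, .ofNat 0, .ofNat 0, .ofNat 0, .ofNat 0, .ofNat 0, .ofNat 0, .ofNat 0, .ofNat 0, .ofNat 0, .ofNat 0, .ofNat 0, .ofNat 0⟩)
    (by decide +kernel)
theorem L00051 : Good (Phi V4.P V4.D 1 1) ⟨2, 1, 2, 0, 2, 3, 1, 1, 3, 0⟩ :=
  leaf_sound (S := T4.ds_pp) T4.ok_pp (w := 160) (c := ⟨⟨.negSucc 22, .negSucc 458, .negSucc 59, .negSucc 165, .negSucc 355, .negSucc 612⟩, ⟨.ofNat 24, .negSucc 33, .negSucc 165, .ofNat 23, .ofNat 17, .ofNat 17⟩, ⟨.ofNat 6, .ofNat 342, .ofNat 62, .ofNat 185, .ofNat 134, .ofNat 300⟩, ⟨.negSucc 272, .negSucc 730, .negSucc 137, .negSucc 392, .negSucc 877, .negSucc 1530⟩, ⟨.negSucc 831, .ofNat 654, .ofNat 216, .ofNat 821, .ofNat 530, .ofNat 248⟩, .ofNat 516, .ofNat 34, .ofNat 0, .ofNat 34, .ofNat 2096, .ofNat 0, .ofNat 398, .negSucc 5, .negSucc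 291, .ofNat 0, .ofNat 129, .ofNat 21, .ofNat 0, .ofNat 0, .ofNat 522, .ofNat 701, .ofNat 0, .ofNat 0, .ofNat 0, .ofNat 0, .ofNat 0, .ofNat 0, .ofNat 0, .ofNat 0, .ofNat 0, .ofNat 8886383300262371476329883238400, .ofNat 119767988894169110755147776000, .ofNat 0, .ofNat 0, .ofNat 10212680332043595553479170457600, .ofNat 121173907358794943128456396800, .ofNat 0⟩)
    (by decide +kernel)
theorem L00052 : Good (Phi V4.P V4.D 1 1) ⟨2, 0, 2, 0, 2, 3, 2, 2, 3, 1⟩ :=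
  leaf_sound (S := T4.ds_pp) T4.ok_pp (w := 168) (c := ⟨⟨.negSucc 507, .negSucc 191, .negSucc 24, .negSucc 250, .ofNat 17, .negSucc 118⟩, ⟨.negSucc 53, .ofNat 100, .negSucc 182, .ofNat 8, .ofNat 15, .negSucc 8⟩, ⟨.ofNat 214, .ofNat 159, .negSucc 3, .ofNat 203, .negSucc 60, .ofNat 16⟩, ⟨.negSucc 1537, .negSucc 435, .negSucc 0, .negSucc 747, .ofNat 47, .negSucc 348⟩, ⟨.negSucc 793, .ofNat 582, .ofNat 24, .ofNat 402, .ofNat 88, .ofNat 33⟩, .ofNat 584, .negSucc 81, .ofNat 0, .negSucc 81, .ofNat 1366, .ofNat 0, .ofNat 613, .ofNat 70, .negSucc 332, .ofNat 0, .ofNat 311, .ofNat 27, .ofNat 0, .ofNat 0, .ofNat 934, .ofNat 3328, .ofNat 0, .ofNat 0, .ofNat 0, .ofNat 0, .ofNat 0, .ofNat 0, .ofNat 0, .ofNat 0, .ofNat 0, .ofNat 0, .ofNat 0, .ofNat 0, .ofNat 0, .ofNat 0, .ofNat 0, .ofNat 0⟩)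
    (by decide +kernel)
theorem L00053 : Good (Phi V4.P V4.D 1 1) ⟨2, 0, 2, 0, 2, 3, 2, 3, 3, 1⟩ :=
  leaf_sound (S := T4.ds_pp) T4.ok_pp (w := 168) (c := ⟨⟨.negSucc 503, .negSucc 209, .ofNat 3, .negSucc 280, .ofNat 24, .negSucc 87⟩, ⟨.negSucc 55, .ofNat 93, .negSucc 171, .ofNat 26, .ofNat 30, .ofNat 3⟩, ⟨.ofNat 107, .ofNat 184, .negSucc 42, .ofNat 314, .negSucc 38, .ofNat 36⟩, ⟨.negSucc 1515, .negSucc 473, .ofNat 51, .negSucc 857, .ofNat 16, .negSucc 266⟩, ⟨.negSucc 760, .ofNat 577, .negSucc 15, .ofNat 607, .ofNat 306, .ofNat 92⟩, .ofNat 400, .negSucc 25, .ofNat 0, .negSucc 25, .ofNat 660, .ofNat 0, .ofNat 383, .ofNat 45, .negSucc 288, .ofNat 0, .ofNat 224, .ofNat 31, .ofNat 0, .ofNat 0, .ofNat 522, .ofNat 1136, .ofNat 0, .ofNat 0, .ofNat 0, .ofNat 0, .ofNat 0, .ofNat 75059289091101861680785234329600, .ofNat 0, .ofNat 0, .ofNat 0, .ofNat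 78419200616954796658217346662400, .ofNat 0, .ofNat 0, .ofNat 0, .ofNat 72646168956257109723789341491200, .ofNat 0, .ofNat 0⟩)
    (by decide +kernel)
theorem L00054 : Good (Phi V4.P V4.D 1 1) ⟨3, 2, 2, 0, 2, 3, 1, 1, 3, 1⟩ :=
  leaf_sound (S := T4.ds_pp) T4.ok_pp (w := 168) (c := ⟨⟨.negSucc 602, .negSucc 266, .ofNat 29, .negSucc 394, .negSucc 109, .negSucc 154⟩, ⟨.ofNat 46, .negSucc 7, .negSucc 241, .ofNat 38, .ofNat 16, .ofNat 7⟩, ⟨.ofNat 304, .ofNat 150, .negSucc 35, .ofNat 281, .ofNat 65, .ofNat 28⟩, ⟨.negSucc 1726, .negSucc 435, .ofNat 19, .negSucc 1024, .negSucc 285, .negSucc 414⟩, ⟨.negSucc 534, .ofNat 359, .negSucc 25, .ofNat 879, .ofNat 413, .ofNat 112⟩, .ofNat 536, .ofNat 29, .ofNat 0, .ofNat 29, .ofNat 1901, .ofNat 0, .ofNat 677, .negSucc 40, .negSucc 402, .ofNat 0, .ofNat 253, .ofNat 39, .ofNat 0, .ofNat 0, .ofNat 951, .ofNat 1312,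 .ofNat 0, .ofNat 0, .ofNat 0, .ofNat 0, .ofNat 0, .ofNat 845961905842024148389486972108800, .ofNat 0, .ofNat 0, .ofNat 0, .ofNat 0, .ofNat 0, .ofNat 0, .ofNat 0, .ofNat 765202503437669570072344421990400, .ofNat 0, .ofNat 0⟩)
    (by decide +kernel)
theorem L00055 : Good (Phi V4.P V4.D 1 1) ⟨3, 3, 3, 0, 2, 3, 1, 1, 3, 1⟩ :=
  leaf_sound (S := T4.ds_pp) T4.ok_pp (w := 168) (c := ⟨⟨.negSucc 765, .negSucc 369, .negSucc 20, .negSucc 445, .negSucc 268, .negSucc 196⟩, ⟨.ofNat 60, .negSucc 67, .negSucc 152, .ofNat 14, .ofNat 8, .ofNat 6⟩, ⟨.ofNat 467, .ofNat 184, .negSucc 20, .ofNat 217, .ofNat 200, .ofNat 19⟩, ⟨.negSucc 2002, .negSucc 521, .negSucc 56, .negSucc 1046, .negSucc 628, .negSucc 471⟩, ⟨.negSucc 290, .ofNat 356, .ofNat 171, .ofNat 1097, .ofNat 384, .ofNat 156⟩, .ofNat 570, .ofNat 118, .ofNat 0, .ofNat 118, .ofNat 7197, .ofNat 0, .ofNat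 705, .negSucc 72, .negSucc 440, .ofNat 0, .ofNat 126, .ofNat 16, .ofNat 0, .ofNat 0, .ofNat 956, .ofNat 1412, .ofNat 0, .ofNat 13279074814167977030590660608000, .ofNat 0, .ofNat 0, .ofNat 0, .ofNat 4367530679975353698610254446592000, .ofNat 550860567341068546188351897600, .ofNat 0, .ofNat 0, .ofNat 0, .ofNat 0, .ofNat 0, .ofNat 0, .ofNat 4828922529822983697840905335603200, .ofNat 0, .ofNat 0⟩)
    (by decide +kernel)
theorem L00056 : Good (Phi V4.P V4.D 1 1) ⟨3, 3, 3, 1, 2, 3, 1, 1, 3, 1⟩ :=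
  out_sound (S := T4.ds_pp) T4.ok_pp (w := 48) (j := 3) (by decide +kernel)
theorem L00057 : Good (Phi V4.P V4.D 1 1) ⟨1, 0, 2, 0, 2, 3, 2, 2, 3, 2⟩ :=
  leaf_sound (S := T4.ds_pp) T4.ok_pp (w := 160) (c := ⟨⟨.negSucc 493, .negSucc 750, .ofNat 17, .negSucc 353, .ofNat 18, .ofNat 13⟩, ⟨.negSucc 22, .ofNat 74, .negSucc 182, .ofNat 5, .ofNat 12, .negSucc 7⟩, ⟨.ofNat 192, .ofNat 446, .negSucc 12, .ofNat 196, .negSucc 41, .negSucc 78⟩, ⟨.negSucc 1734, .negSucc 1190, .ofNat 72, .negSucc 884, .ofNat 25, .ofNat 73⟩, ⟨.negSucc 810, .ofNat 1180, .negSucc 35, .ofNat 618, .ofNat 56, .negSucc 26⟩, .ofNat 378, .negSucc 7, .ofNat 0, .negSucc 7, .ofNat 739, .ofNat 0, .ofNat 630, .negSucc 14, .negSucc 400, .ofNat 0, .ofNat 341, .ofNat 62, .ofNat 0, .ofNat 0, .ofNat 939, .ofNat 2801, .ofNat 0, .ofNat 0, .ofNat 0, .ofNat 0, .ofNat 0, .ofNat 13609488629161167125439578112000,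 .ofNat 0, .ofNat 0, .ofNat 0, .ofNat 14775454083123793373480091648000, .ofNat 0, .ofNat 0, .ofNat 0, .ofNat 23148953810008790610442243276800, .ofNat 0, .ofNat 0⟩)
    (by decide +kernel)
theorem L00058 : Good (Phi V4.P V4.D 1 1) ⟨1, 0, 2, 0, 2, 3, 2, 3, 3, 2⟩ :=
  leaf_sound (S := T4.ds_pp) T4.ok_pp (w := 160) (c := ⟨⟨.negSucc 472, .negSucc 768, .negSucc 45, .ofNat 0, .ofNat 38, .ofNat 0⟩, ⟨.negSucc 20, .ofNat 69, .negSucc 168, .ofNat 0, .ofNat 66, .ofNat 0⟩, ⟨.ofNat 95, .ofNat 531, .negSucc 12, .ofNat 0, .negSucc 32, .ofNat 0⟩, ⟨.negSucc 1620, .negSucc 1330, .ofNat 12, .ofNat 0, .ofNat 10, .ofNat 0⟩, ⟨.negSucc 546, .ofNat 872, .negSucc 3, .ofNat 0, .ofNat 140, .ofNat 0⟩, .ofNat 382, .negSucc 14, .ofNat 0, .negSucc 14, .ofNat 720, .ofNat 0, .ofNat 671, .ofNat 31, .negSucc 521, .ofNat 0, .ofNat 367, .ofNat 41, .ofNat 0, .ofNat 0, .ofNat 982,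 .ofNat 5232, .ofNat 0, .ofNat 0, .ofNat 0, .ofNat 0, .ofNat 0, .ofNat 227608433325866657655034793164800, .ofNat 2613748088751424685769071001600, .ofNat 0, .ofNat 0, .ofNat 105072355927544547622758698188800, .ofNat 8738230890072779517303403315200, .ofNat 0, .ofNat 0, .ofNat 248307970962328128802180929945600, .ofNat 0, .ofNat 0⟩)
    (by decide +kernel)
theorem L00059 : Good (Phi V4.P V4.D 1 1) ⟨1, 0, 2, 0, 2, 3, 1, 1, 3, 3⟩ :=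
  out_sound (S := T4.ds_pp) T4.ok_pp (w := 32) (j := 2) (by decide +kernel)
theorem L00060 : Good (Phi V4.P V4.D 1 1) ⟨2, 0, 3, 2, 2, 3, 2, 0, 3, 0⟩ :=
  leaf_sound (S := T4.ds_pp) T4.ok_pp (w := 168) (c := ⟨⟨.ofNat 225, .negSucc 96, .negSucc 13, .ofNat 43, .negSucc 194, .negSucc 740⟩, ⟨.ofNat 56, .ofNat 23, .negSucc 26, .ofNat 25, .negSucc 64, .negSucc 201⟩, ⟨.ofNat 333, .ofNat 141, .ofNat 40, .negSucc 95, .negSucc 98, .ofNat 318⟩, ⟨.ofNat 649, .negSucc 321, .negSucc 34, .ofNat 87, .negSucc 506, .negSucc 2172⟩, ⟨.ofNat 35, .ofNat 263, .negSucc 2, .ofNat 154, .negSucc 276, .negSucc 103⟩, .ofNat 645, .negSucc 291, .ofNat 0, .negSucc 291, .ofNat 1448, .ofNat 0, .ofNat 582, .ofNat 252, .negSucc 321, .ofNat 0, .ofNat 314, .negSucc 68, .ofNat 0, .ofNat 0, .ofNat 882, .ofNat 6617, .ofNat 0, .ofNat 0, .ofNat 0, .ofNat 0, .ofNat 0, .ofNat 0, .ofNat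 0, .ofNat 0, .ofNat 0, .ofNat 0, .ofNat 0, .ofNat 0, .ofNat 0, .ofNat 0, .ofNat 0, .ofNat 0⟩)
    (by decide +kernel)
theorem L00061 : Good (Phi V4.P V4.D 1 1) ⟨2, 0, 3, 2, 2, 3, 2, 1, 3, 0⟩ :=
  leaf_sound (S := T4.ds_pp) T4.ok_pp (w := 168) (c := ⟨⟨.negSucc 41, .negSucc 59, .negSucc 8, .negSucc 36, .negSucc 122, .negSucc 557⟩, ⟨.negSucc 43, .ofNat 68, .negSucc 35, .ofNat 9, .negSucc 45, .negSucc 149⟩, ⟨.ofNat 245, .ofNat 109, .ofNat 26, .ofNat 0, .negSucc 107, .ofNat 228⟩, ⟨.negSucc 66, .negSucc 209, .ofNat 10, .negSucc 158, .negSucc 305, .negSucc 1648⟩, ⟨.negSucc 329, .ofNat 320, .ofNat 10, .ofNat 189, .negSucc 227, .negSucc 19⟩, .ofNat 851, .negSucc 614, .ofNat 0, .negSucc 614, .ofNat 2483, .ofNat 0, .ofNat 535, .ofNat 337, .negSucc 329, .ofNat 0, .ofNat 301, .negSucc 62, .ofNat 0, .ofNat 0, .ofNat 936, .ofNat 3525, .ofNat 0, .ofNat 0,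 .ofNat 0, .ofNat 0, .ofNat 0, .ofNat 0, .ofNat 0, .ofNat 0, .ofNat 0, .ofNat 0, .ofNat 0, .ofNat 0, .ofNat 0, .ofNat 0, .ofNat 0, .ofNat 0⟩)
    (by decide +kernel)

end Crest.Agent.R097C4.N4pp
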