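import Crest.Agent.R097.T4

/-!
# Row 97, box cover in dimension n = 4 (generated)
-/

set_option autoImplicit false
set_option Elab.async false
set_option maxHeartbeats 0
set_option maxRecDepth 100000

open Crest.Agent.R097 Crest.Agent.R097.KA


namespace Crest.Agent.R097C4.N4pp

theorem L00727 : Good (Phi V4.P V4.D 1 1) ⟨5, 25, 4, 5, 2, 1, 3, 7, 3, 3⟩ :=
  leaf_sound (S := T4.ds_pp) T4.ok_pp (w := 192) (c := ⟨⟨.negSucc 1182, .negSucc 233, .ofNat 10, .negSucc 868, .negSucc 333, .negSucc 51⟩, ⟨.negSucc 443, .negSucc 130, .negSucc 44, .negSucc 347, .negSucc 135, .negSucc 18⟩, ⟨.ofNat 635, .ofNat 215, .negSucc 15, .ofNat 590, .ofNat 333, .ofNat 93⟩, ⟨.negSucc 1944, .negSucc 293, .ofNat 19, .negSucc 1452, .negSucc 539, .negSucc 91⟩, ⟨.negSucc 52, .ofNat 3, .ofNat 0, .ofNat 109, .ofNat 0, .ofNat 16⟩, .ofNat 554, .negSucc 561, .ofNat 0, .negSucc 561, .ofNat 1611, .ofNat 0, .ofNat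 1515, .ofNat 1547, .negSucc 3556, .ofNat 0, .ofNat 1145, .negSucc 1351, .ofNat 0, .ofNat 0, .ofNat 4597, .ofNat 8764, .ofNat 0, .ofNat 5443999396574923745833686002565120000, .ofNat 0, .ofNat 0, .ofNat 0, .ofNat 2024591394845257225351042735886303232000, .ofNat 0, .ofNat 0, .ofNat 0, .ofNat 2126332996107838300464401418452729856000, .ofNat 0, .ofNat 0, .ofNat 0, .ofNat 2523321917069056838999568804303234662400, .ofNat 0, .ofNat 0⟩)
    (by decide +kernel)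
theorem L00728 : Good (Phi V4.P V4.D 1 1) ⟨5, 26, 4, 4, 1, 0, 3, 7, 1, 0⟩ :=
  out_sound (S := T4.ds_pp) T4.ok_pp (w := 64) (j := 3) (by decide +kernel)
theorem L00729 : Good (Phi V4.P V4.D 1 1) ⟨5, 26, 4, 5, 2, 0, 3, 7, 2, 0⟩ :=
  leaf_sound (S := T4.ds_pp) T4.ok_pp (w := 184) (c := ⟨⟨.negSucc 668, .negSucc 178, .negSucc 201, .negSucc 527, .ofNat 365, .ofNat 44⟩, ⟨.negSucc 268, .negSucc 99, .negSucc 113, .negSucc 234, .ofNat 159, .ofNat 24⟩, ⟨.ofNat 75, .ofNat 171, .ofNat 181, .ofNat 411, .negSucc 423, .ofNat 124⟩, ⟨.negSucc 1043, .negSucc 246, .negSucc 310, .negSucc 793, .ofNat 581, .ofNat 29⟩, ⟨.negSucc 60, .ofNat 30, .negSucc 19, .negSucc 105, .ofNat 1, .ofNat 94⟩, .ofNat 1381, .negSucc 2237, .ofNat 0, .negSucc 2237, .ofNat 5146, .ofNat 0, .ofNat 188, .ofNat 296, .negSucc 764, .ofNat 0, .ofNat 181, .negSucc 332, .ofNat 0, .ofNat 0, .ofNat 910, .ofNat 1070, .ofNat 0,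 .ofNat 0, .ofNat 0, .ofNat 0, .ofNat 0, .ofNat 0, .ofNat 3145739969119207708224493977600, .ofNat 0, .ofNat 0, .ofNat 860688251300752866791615050127769600, .ofNat 1968612126402958739406795571200, .ofNat 0, .ofNat 0, .ofNat 4475014161086068448089285070526873600, .ofNat 267319942670516496025780224000, .ofNat 0⟩)
    (by decide +kernel)
theorem L00730 : Good (Phi V4.P V4.D 1 1) ⟨5, 26, 4, 5, 2, 1, 3, 7, 3, 0⟩ :=
  leaf_sound (S := T4.ds_pp) T4.ok_pp (w := 184) (c := ⟨⟨.negSucc 1022, .negSucc 352, .ofNat 144, .negSucc 442, .ofNat 194, .negSucc 485⟩, ⟨.negSucc 421, .negSucc 189, .ofNat 27, .negSucc 186, .ofNat 84, .negSucc 205⟩, ⟨.ofNat 287, .ofNat 351, .negSucc 25, .ofNat 290, .negSucc 293, .ofNat 458⟩, ⟨.negSucc 1506, .negSucc 481, .ofNat 206, .negSucc 756, .ofNat 309, .negSucc 823⟩, ⟨.negSucc 311, .negSucc 34, .ofNat 74, .ofNat 118, .ofNat 0, .ofNat 115⟩, .ofNat 1316, .negSucc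 2100, .ofNat 0, .negSucc 2100, .ofNat 4849, .ofNat 0, .ofNat 209, .ofNat 347, .negSucc 833, .ofNat 0, .ofNat 206, .negSucc 359, .ofNat 0, .ofNat 0, .ofNat 944, .ofNat 288, .ofNat 0, .ofNat 0, .ofNat 91046149745315286103149772800, .ofNat 0, .ofNat 0, .ofNat 691303377466222397129411753567846400, .ofNat 64141022565842340274794764697600, .ofNat 0, .ofNat 0, .ofNat 2978575203025375077642994550675865600, .ofNat 44749233248359601846978032435200, .ofNat 0, .ofNat 0, .ofNat 28136370744216320317879700634048921600, .ofNat 2637489890864987178324826521600, .ofNat 0⟩)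
    (by decide +kernel)
theorem L00731 : Good (Phi V4.P V4.D 1 1) ⟨5, 26, 4, 5, 2, 1, 3, 7, 3, 1⟩ :=
  leaf_sound (S := T4.ds_pp) T4.ok_pp (w := 184) (c := ⟨⟨.negSucc 729, .negSucc 138, .negSucc 297, .negSucc 938, .negSucc 218, .negSucc 300⟩, ⟨.negSucc 269, .negSucc 103, .negSucc 184, .negSucc 399, .negSucc 95, .negSucc 128⟩, ⟨.ofNat 261, .ofNat 265, .ofNat 159, .ofNat 615, .ofNat 154, .ofNat 299⟩, ⟨.negSucc 1090, .negSucc 107, .negSucc 487, .negSucc 1573, .negSucc 350, .negSucc 503⟩, ⟨.negSucc 189, .negSucc 61, .ofNat 44, .ofNat 182, .ofNat 5, .ofNat 56⟩, .ofNat 1382, .negSucc 2238, .ofNat 0, .negSucc 2238, .ofNat 5146, .ofNat 0, .ofNat 183, .ofNat 307, .negSucc 662, .ofNat 0, .ofNat 181, .negSucc 286, .ofNat 0, .ofNat 0, .ofNat 770, .ofNat 544, .ofNat 0, .ofNat 150767322891960725214548628131020800, .ofNat 136852595393496568733211033600, .ofNat 0, .ofNat 0, .ofNat 2264790884414738012960092708877107200,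 .ofNat 63964630801391978084124170649600, .ofNat 0, .ofNat 0, .ofNat 6099221422718740342116568777988505600, .ofNat 38560359076744388258195885260800, .ofNat 0, .ofNat 0, .ofNat 19777619273621129848850329147067596800, .ofNat 15285332257407235359223735910400, .ofNat 0⟩)
    (by decide +kernel)
theorem L00732 : Good (Phi V4.P V4.D 1 1) ⟨5, 26, 4, 5, 2, 0, 3, 7, 2, 1⟩ :=
  leaf_sound (S := T4.ds_pp) T4.ok_pp (w := 184) (c := ⟨⟨.negSucc 981, .negSucc 858, .ofNat 529, .negSucc 1041, .ofNat 260, .negSucc 53⟩, ⟨.negSucc 400, .negSucc 393, .ofNat 202, .negSucc 455, .ofNat 114, .negSucc 22⟩, ⟨.ofNat 529, .ofNat 820, .negSucc 534, .ofNat 891, .negSucc 260, .ofNat 160⟩, ⟨.negSucc 1560, .negSucc 1330, .ofNat 847, .negSucc 1635, .ofNat 410, .negSucc 93⟩, ⟨.negSucc 25, .ofNat 12, .ofNat 2, .negSucc 53, .ofNat 9, .ofNat 17⟩, .ofNat 1373, .negSucc 2221, .ofNat 0, .negSucc 2221, .ofNat 5113,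 .ofNat 0, .ofNat 147, .ofNat 230, .negSucc 549, .ofNat 0, .ofNat 141, .negSucc 239, .ofNat 0, .ofNat 0, .ofNat 677, .ofNat 547, .ofNat 0, .ofNat 786061031782045682870917477171200, .ofNat 15911829829925129446804684800, .ofNat 0, .ofNat 0, .ofNat 0, .ofNat 3738501578064714580912766976000, .ofNat 0, .ofNat 0, .ofNat 0, .ofNat 2793856220498046910369628160000, .ofNat 0, .ofNat 0, .ofNat 2838157313312128693146036187063910400, .ofNat 77722240411033586109304012800, .ofNat 0⟩)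
    (by decide +kernel)
theorem L00733 : Good (Phi V4.P V4.D 1 1) ⟨5, 26, 4, 5, 2, 1, 4, 14, 2, 1⟩ :=
  leaf_sound (S := T4.ds_pp) T4.ok_pp (w := 184) (c := ⟨⟨.negSucc 1284, .negSucc 343, .ofNat 50, .negSucc 985, .negSucc 190, .negSucc 241⟩, ⟨.negSucc 509, .negSucc 185, .negSucc 32, .negSucc 419, .negSucc 82, .negSucc 102⟩, ⟨.ofNat 696, .ofNat 329, .negSucc 48, .ofNat 640, .ofNat 174, .ofNat 307⟩, ⟨.negSucc 2018, .negSucc 457, .ofNat 89, .negSucc 1643, .negSucc 306, .negSucc 409⟩, ⟨.negSucc 81, .negSucc 16, .negSucc 9, .ofNat 172, .ofNat 5, .ofNat 55⟩, .ofNat 1359, .negSucc 2192, .ofNat 0, .negSucc 2192, .ofNat 5048, .ofNat 0, .ofNat 313, .ofNat 511, .negSucc 1024, .ofNat 0, .ofNat 306, .negSucc 445, .ofNat 0, .ofNat 0, .ofNat 1276, .ofNat 4386, .ofNat 0, .ofNat 1025977999500131782672108513080115200, .ofNat 0, .ofNat 0, .ofNat 0, .ofNat 27815332938794946426233963268381081600,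 .ofNat 106085699177502113531278707916800, .ofNat 0, .ofNat 0, .ofNat 42917499955697901174191947509242265600, .ofNat 12801286289663283568113509990400, .ofNat 0, .ofNat 0, .ofNat 55812598612521114275993897305060147200, .ofNat 7144665798036538445580258508800, .ofNat 0⟩)
    (by decide +kernel)
theorem L00734 : Good (Phi V4.P V4.D 1 1) ⟨5, 26, 4, 5, 2, 1, 4, 15, 2, 1⟩ :=
  leaf_sound (S := T4.ds_pp) T4.ok_pp (w := 192) (c := ⟨⟨.negSucc 1342, .negSucc 269, .negSucc 20, .negSucc 1166, .negSucc 197, .negSucc 457⟩, ⟨.negSucc 536, .negSucc 153, .negSucc 60, .negSucc 503, .negSucc 84, .negSucc 196⟩, ⟨.ofNat 741, .ofNat 238, .ofNat 5, .ofNat 857, .ofNat 186, .ofNat 546⟩, ⟨.negSucc 2111, .negSucc 346, .negSucc 31, .negSucc 1895, .negSucc 314, .negSucc 746⟩, ⟨.negSucc 81, .ofNat 2, .ofNat 11, .ofNat 84, .ofNat 0, .ofNat 41⟩, .ofNat 1168, .negSucc 1790, .ofNat 0, .negSucc 1790, .ofNat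 4183, .ofNat 0, .ofNat 1341, .ofNat 2127, .negSucc 5314, .ofNat 0, .ofNat 1291, .negSucc 2314, .ofNat 0, .ofNat 0, .ofNat 6140, .ofNat 10352, .ofNat 0, .ofNat 6803993891683059789086031676126003200, .ofNat 0, .ofNat 0, .ofNat 0, .ofNat 838080724914852612986795174196255129600, .ofNat 2162136299934735282486602052403200, .ofNat 0, .ofNat 0, .ofNat 1205731311934300669764083291994980352000, .ofNat 1797876465467763286129451728896000, .ofNat 0, .ofNat 0, .ofNat 1976384008832478683145828303747258777600, .ofNat 1154375935751432813117754153369600, .ofNat 0⟩)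
    (by decide +kernel)
theorem L00735 : Good (Phi V4.P V4.D 1 1) ⟨5, 27, 3, 2, 1, 0, 3, 7, 1, 0⟩ :=
  out_sound (S := T4.ds_pp) T4.ok_pp (w := 64) (j := 3) (by decide +kernel)
theorem L00736 : Good (Phi V4.P V4.D 1 1) ⟨3, 7, 3, 2, 1, 0, 3, 7, 1, 0⟩ :=
  out_sound (S := T4.ds_pp) T4.ok_pp (w := 48) (j := 3) (by decide +kernel)
theorem L00737 : Good (Phi V4.P V4.D 1 1) ⟨5, 24, 4, 6, 1, 0, 3, 7, 1, 0⟩ :=
  out_sound (S := T4.ds_pp) T4.ok_pp (w := 64) (j := 3) (by decide +kernel)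
theorem L00738 : Good (Phi V4.P V4.D 1 1) ⟨5, 25, 4, 6, 1, 0, 3, 7, 2, 0⟩ :=
  leaf_sound (S := T4.ds_pp) T4.ok_pp (w := 176) (c := ⟨⟨.ofNat 246, .negSucc 974, .ofNat 264, .negSucc 1074, .ofNat 201, .negSucc 310⟩, ⟨.ofNat 127, .negSucc 448, .ofNat 76, .negSucc 468, .ofNat 88, .negSucc 131⟩, ⟨.negSucc 679, .ofNat 829, .negSucc 246, .ofNat 784, .negSucc 279, .ofNat 408⟩, ⟨.ofNat 415, .negSucc 1525, .ofNat 432, .negSucc 1710, .ofNat 312, .negSucc 538⟩, ⟨.negSucc 176, .ofNat 59, .negSucc 6, .negSucc 25, .ofNat 24, .ofNat 94⟩, .ofNat 1719, .negSucc 3013, .ofNat 0, .negSucc 3013, .ofNat 6937, .ofNat 0, .ofNat 169, .ofNat 320, .negSucc 739, .ofNat 0, .ofNat 178, .negSucc 320, .ofNat 0, .ofNat 0, .ofNat 872, .ofNat 657, .ofNat 0, .ofNat 0, .ofNat 22855009557703019293900800, .ofNat 0, .ofNat 0, .ofNat 0, .ofNat 0, .ofNat 0, .ofNat 0, .ofNat 18565999335362696086545230934835200, .ofNat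 860332895091154569343795200, .ofNat 0, .ofNat 0, .ofNat 23953026560761478713506547315507200, .ofNat 443894619283904505839616000, .ofNat 0⟩)
    (by decide +kernel)
theorem L00739 : Good (Phi V4.P V4.D 1 1) ⟨5, 25, 4, 6, 2, 0, 3, 7, 2, 1⟩ :=
  leaf_sound (S := T4.ds_pp) T4.ok_pp (w := 184) (c := ⟨⟨.negSucc 169, .negSucc 365, .negSucc 74, .negSucc 1067, .ofNat 258, .negSucc 40⟩, ⟨.negSucc 53, .negSucc 179, .negSucc 60, .negSucc 467, .ofNat 112, .negSucc 17⟩, ⟨.negSucc 284, .ofNat 364, .ofNat 63, .ofNat 914, .negSucc 262, .ofNat 148⟩, ⟨.negSucc 303, .negSucc 535, .negSucc 126, .negSucc 1687, .ofNat 409, .negSucc 73⟩, ⟨.negSucc 30, .negSucc 0, .ofNat 18, .negSucc 49, .ofNat 14, .ofNat 19⟩, .ofNat 1400, .negSucc 2320, .ofNat 0, .negSucc 2320, .ofNat 5406, .ofNat 0, .ofNat 134, .ofNat 240, .negSucc 550, .ofNat 0, .ofNat 137, .negSucc 239, .ofNat 0, .ofNat 0, .ofNat 679, .ofNat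 635, .ofNat 0, .ofNat 0, .ofNat 0, .ofNat 0, .ofNat 0, .ofNat 0, .ofNat 0, .ofNat 0, .ofNat 0, .ofNat 0, .ofNat 0, .ofNat 0, .ofNat 0, .ofNat 2768104909528354876046584072214937600, .ofNat 0, .ofNat 0⟩)
    (by decide +kernel)
theorem L00740 : Good (Phi V4.P V4.D 1 1) ⟨5, 25, 4, 6, 2, 1, 3, 7, 3, 2⟩ :=
  leaf_sound (S := T4.ds_pp) T4.ok_pp (w := 192) (c := ⟨⟨.negSucc 944, .negSucc 311, .ofNat 44, .negSucc 956, .negSucc 335, .negSucc 149⟩, ⟨.negSucc 376, .negSucc 172, .negSucc 38, .negSucc 410, .negSucc 145, .negSucc 64⟩, ⟨.ofNat 354, .ofNat 309, .negSucc 50, .ofNat 614, .ofNat 309, .ofNat 190⟩, ⟨.negSucc 1574, .negSucc 386, .ofNat 67, .negSucc 1614, .negSucc 541, .negSucc 248⟩, ⟨.negSucc 56, .negSucc 36, .ofNat 6, .ofNat 185, .ofNat 9, .ofNat 19⟩, .ofNat 1650, .negSucc 2859, .ofNat 0, .negSucc 2859, .ofNat 6585, .ofNat 0, .ofNat 286, .ofNat 553, .negSucc 1069, .ofNat 0, .ofNat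 306, .negSucc 466, .ofNat 0, .ofNat 0, .ofNat 1315, .ofNat 1710, .ofNat 0, .ofNat 690452735300035729734421502440243200, .ofNat 0, .ofNat 0, .ofNat 0, .ofNat 0, .ofNat 0, .ofNat 0, .ofNat 0, .ofNat 81907164988378097873025140207596339200, .ofNat 0, .ofNat 0, .ofNat 0, .ofNat 79332274179820779578612161779754598400, .ofNat 0, .ofNat 0⟩)
    (by decide +kernel)
theorem L00741 : Good (Phi V4.P V4.D 1 1) ⟨5, 25, 4, 6, 2, 1, 3, 7, 3, 3⟩ :=
  leaf_sound (S := T4.ds_pp) T4.ok_pp (w := 192) (c := ⟨⟨.negSucc 1125, .negSucc 258, .ofNat 21, .negSucc 928, .negSucc 385, .negSucc 66⟩, ⟨.negSucc 457, .negSucc 147, .negSucc 41, .negSucc 399, .negSucc 168, .negSucc 28⟩, ⟨.ofNat 576, .ofNat 237, .negSucc 18, .ofNat 638, .ofNat 380, .ofNat 108⟩, ⟨.negSucc 1860, .negSucc 326, .ofNat 37, .negSucc 1532, .negSucc 617, .negSucc 112⟩, ⟨.negSucc 47, .negSucc 0, .negSucc 4, .ofNat 104, .negSucc 0, .ofNat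 14⟩, .ofNat 1639, .negSucc 2839, .ofNat 0, .negSucc 2839, .ofNat 6554, .ofNat 0, .ofNat 1007, .ofNat 1896, .negSucc 3477, .ofNat 0, .ofNat 1058, .negSucc 1516, .ofNat 0, .ofNat 0, .ofNat 4541, .ofNat 14401, .ofNat 0, .ofNat 8167669743497810234416592227349299200, .ofNat 0, .ofNat 0, .ofNat 0, .ofNat 1752282083703380511079800909717936537600, .ofNat 0, .ofNat 0, .ofNat 0, .ofNat 2246930148237681829464719300479470796800, .ofNat 1216299776279663070674343375667200, .ofNat 0, .ofNat 0, .ofNat 2486725114193003132446784639282970624000, .ofNat 0, .ofNat 0⟩)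
    (by decide +kernel)
theorem L00742 : Good (Phi V4.P V4.D 1 1) ⟨6, 52, 4, 6, 2, 0, 3, 7, 2, 0⟩ :=
  leaf_sound (S := T4.ds_pp) T4.ok_pp (w := 184) (c := ⟨⟨.negSucc 838, .negSucc 18, .negSucc 148, .negSucc 538, .ofNat 334, .ofNat 76⟩, ⟨.negSucc 365, .negSucc 20, .negSucc 96, .negSucc 250, .ofNat 152, .ofNat 37⟩, ⟨.ofNat 211, .ofNat 13, .ofNat 142, .ofNat 441, .negSucc 397, .ofNat 110⟩, ⟨.negSucc 1309, .ofNat 7, .negSucc 239, .negSucc 798, .ofNat 523, .ofNat 83⟩, ⟨.negSucc 71, .negSucc 18, .ofNat 19, .negSucc 119, .ofNat 15, .ofNat 83⟩, .ofNat 1466, .negSucc 2369, .ofNat 0, .negSucc 2369, .ofNat 5261, .ofNat 0, .ofNat 168, .ofNat 311, .negSucc 820, .ofNat 0, .ofNat 183, .negSucc 373, .ofNat 0, .ofNat 0, .ofNat 961, .ofNat 952, .ofNat 0, .ofNat 0, .ofNat 0, .ofNat 0, .ofNat 0, .ofNat 0, .ofNat 0, .ofNat 0, .ofNat 0, .ofNat 0, .ofNat 0, .ofNat 0, .ofNat 0, .ofNat 81343649339957712562443676010151936000,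 .ofNat 25698056176033600096331366400, .ofNat 0⟩)
    (by decide +kernel)
theorem L00743 : Good (Phi V4.P V4.D 1 1) ⟨6, 52, 4, 6, 2, 1, 3, 7, 3, 0⟩ :=
  leaf_sound (S := T4.ds_pp) T4.ok_pp (w := 192) (c := ⟨⟨.negSucc 954, .negSucc 87, .ofNat 16, .negSucc 360, .ofNat 197, .negSucc 458⟩, ⟨.negSucc 417, .negSucc 57, .negSucc 31, .negSucc 160, .ofNat 90, .negSucc 204⟩, ⟨.ofNat 330, .ofNat 87, .negSucc 38, .ofNat 202, .negSucc 295, .ofNat 433⟩, ⟨.negSucc 1413, .negSucc 105, .ofNat 31, .negSucc 631, .ofNat 315, .negSucc 779⟩, ⟨.negSucc 254, .ofNat 12, .ofNat 0, .ofNat 134, .negSucc 7, .ofNat 119⟩, .ofNat 1470, .negSucc 2372, .ofNat 0, .negSucc 2372, .ofNat 5254, .ofNat 0, .ofNat 186, .ofNat 368, .negSucc 858, .ofNat 0, .ofNat 212, .negSucc 389, .ofNat 0, .ofNat 0, .ofNat 964, .ofNat 481, .ofNat 0, .ofNat 0, .ofNat 0, .ofNat 0, .ofNat 0, .ofNat 0, .ofNat 0, .ofNat 0, .ofNat 0, .ofNat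 0, .ofNat 0, .ofNat 0, .ofNat 0, .ofNat 0, .ofNat 0, .ofNat 0⟩)
    (by decide +kernel)
theorem L00744 : Good (Phi V4.P V4.D 1 1) ⟨6, 52, 4, 6, 3, 2, 3, 7, 3, 1⟩ :=
  leaf_sound (S := T4.ds_pp) T4.ok_pp (w := 200) (c := ⟨⟨.negSucc 1062, .negSucc 187, .ofNat 32, .negSucc 408, .negSucc 139, .negSucc 278⟩, ⟨.negSucc 458, .negSucc 103, .negSucc 32, .negSucc 185, .negSucc 64, .negSucc 125⟩, ⟨.ofNat 441, .ofNat 183, .negSucc 48, .ofNat 276, .ofNat 88, .ofNat 300⟩, ⟨.negSucc 1644, .negSucc 257, .ofNat 57, .negSucc 663, .negSucc 223, .negSucc 466⟩, ⟨.negSucc 128, .ofNat 7, .negSucc 4, .ofNat 40, .ofNat 7, .ofNat 56⟩, .ofNat 1468, .negSucc 2370, .ofNat 0, .negSucc 2370, .ofNat 5259, .ofNat 0, .ofNat 321, .ofNat 620, .negSucc 1440, .ofNat 0, .ofNat 359, .negSucc 656, .ofNat 0, .ofNat 0, .ofNat 1667, .ofNat 1101, .ofNat 0, .ofNat 0, .ofNat 0, .ofNat 0, .ofNat 0, .ofNat 0, .ofNat 0,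 .ofNat 0, .ofNat 0, .ofNat 0, .ofNat 0, .ofNat 0, .ofNat 0, .ofNat 154589069983604715658023494246848895385600, .ofNat 0, .ofNat 0⟩)
    (by decide +kernel)
theorem L00745 : Good (Phi V4.P V4.D 1 1) ⟨6, 52, 4, 6, 3, 3, 3, 7, 3, 1⟩ :=
  leaf_sound (S := T4.ds_pp) T4.ok_pp (w := 200) (c := ⟨⟨.negSucc 1225, .negSucc 260, .ofNat 109, .negSucc 568, .negSucc 479, .negSucc 479⟩, ⟨.negSucc 516, .negSucc 140, .negSucc 20, .negSucc 255, .negSucc 222, .negSucc 218⟩, ⟨.ofNat 536, .ofNat 221, .negSucc 106, .ofNat 355, .ofNat 371, .ofNat 434⟩, ⟨.negSucc 1927, .negSucc 361, .ofNat 178, .negSucc 960, .negSucc 747, .negSucc 791⟩, ⟨.negSucc 87, .ofNat 12, .negSucc 8, .ofNat 134, .negSucc 19, .ofNat 74⟩, .ofNat 1728, .negSucc 2901, .ofNat 0, .negSucc 2901, .ofNat 6354, .ofNat 0, .ofNat 322, .ofNat 677, .negSucc 1435, .ofNat 0, .ofNat 382, .negSucc 656, .ofNat 0, .ofNat 0, .ofNat 1600, .ofNat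 1214, .ofNat 0, .ofNat 746857523470449736410665855590858752000, .ofNat 0, .ofNat 0, .ofNat 0, .ofNat 44191688622634246613033319632301824409600, .ofNat 10822409724450424640886335235686400, .ofNat 0, .ofNat 0, .ofNat 0, .ofNat 0, .ofNat 0, .ofNat 0, .ofNat 164562583070397607127835725673291526963200, .ofNat 0, .ofNat 0⟩)
    (by decide +kernel)
theorem L00746 : Good (Phi V4.P V4.D 1 1) ⟨6, 53, 5, 12, 1, 0, 3, 7, 2, 0⟩ :=
  out_sound (S := T4.ds_pp) T4.ok_pp (w := 72) (j := 3) (by decide +kernel)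
theorem L00747 : Good (Phi V4.P V4.D 1 1) ⟨7, 106, 5, 13, 2, 0, 3, 7, 2, 0⟩ :=
  leaf_sound (S := T4.ds_pp) T4.ok_pp (w := 192) (c := ⟨⟨.negSucc 950, .negSucc 79, .ofNat 45, .negSucc 583, .ofNat 272, .ofNat 64⟩, ⟨.negSucc 441, .negSucc 44, .ofNat 5, .negSucc 283, .ofNat 130, .ofNat 34⟩, ⟨.ofNat 304, .ofNat 42, .negSucc 19, .ofNat 464, .negSucc 322, .ofNat 120⟩, ⟨.negSucc 1469, .negSucc 111, .ofNat 83, .negSucc 858, .ofNat 426, .ofNat 60⟩, ⟨.negSucc 47, .ofNat 0, .negSucc 20, .negSucc 111, .negSucc 0, .ofNat 83⟩, .ofNat 2050, .negSucc 3444, .ofNat 0, .negSucc 3444, .ofNat 7192, .ofNat 0, .ofNat 153, .ofNat 316, .negSucc 825, .ofNat 0, .ofNat 187, .negSucc 394, .ofNat 0, .ofNat 0, .ofNat 961, .ofNat 638, .ofNat 0, .ofNat 0, .ofNat 0, .ofNat 0, .ofNat 0, .ofNat 0, .ofNat 312186115718193438849289420800, .ofNat 0, .ofNat 0, .ofNat 0, .ofNat 0, .ofNat 0, .ofNat 0, .ofNat 6020792941174999854933665111317099315200,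 .ofNat 0, .ofNat 0⟩)
    (by decide +kernel)
theorem L00748 : Good (Phi V4.P V4.D 1 1) ⟨7, 106, 5, 13, 2, 1, 3, 7, 3, 0⟩ :=
  leaf_sound (S := T4.ds_pp) T4.ok_pp (w := 200) (c := ⟨⟨.negSucc 1035, .negSucc 18, .ofNat 92, .negSucc 365, .ofNat 160, .negSucc 585⟩, ⟨.negSucc 485, .negSucc 18, .ofNat 25, .negSucc 170, .ofNat 77, .negSucc 275⟩, ⟨.ofNat 401, .ofNat 26, .negSucc 86, .ofNat 190, .negSucc 258, .ofNat 543⟩, ⟨.negSucc 1509, .negSucc 15, .ofNat 149, .negSucc 629, .ofNat 250, .negSucc 974⟩, ⟨.negSucc 242, .ofNat 11, .negSucc 4, .ofNat 118, .negSucc 1, .ofNat 122⟩, .ofNat 1596, .negSucc 2546, .ofNat 0, .negSucc 2546, .ofNat 5399, .ofNat 0, .ofNat 176, .ofNat 373, .negSucc 876, .ofNat 0, .ofNat 218, .negSucc 415, .ofNat 0, .ofNat 0, .ofNat 980, .ofNat 686, .ofNat 0, .ofNat 0, .ofNat 0, .ofNat 0, .ofNat 0, .ofNat 0, .ofNat 0, .ofNat 0, .ofNat 0, .ofNat 0, .ofNat 0, .ofNat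 0, .ofNat 0, .ofNat 21906087519120101085456845438198376038400, .ofNat 0, .ofNat 0⟩)
    (by decide +kernel)
theorem L00749 : Good (Phi V4.P V4.D 1 1) ⟨7, 106, 5, 13, 2, 1, 4, 14, 3, 1⟩ :=
  leaf_sound (S := T4.ds_pp) T4.ok_pp (w := 200) (c := ⟨⟨.negSucc 1084, .negSucc 166, .ofNat 64, .negSucc 908, .negSucc 171, .negSucc 394⟩, ⟨.negSucc 496, .negSucc 91, .ofNat 1, .negSucc 427, .negSucc 82, .negSucc 186⟩, ⟨.ofNat 496, .ofNat 148, .negSucc 54, .ofNat 559, .ofNat 128, .ofNat 361⟩, ⟨.negSucc 1640, .negSucc 236, .ofNat 117, .negSucc 1517, .negSucc 266, .negSucc 650⟩, ⟨.negSucc 129, .ofNat 2, .negSucc 33, .ofNat 200, .negSucc 4, .ofNat 70⟩, .ofNat 2046, .negSucc 3437, .ofNat 0, .negSucc 3437, .ofNat 7184, .ofNat 0, .ofNat 150, .ofNat 331, .negSucc 682, .ofNat 0, .ofNat 191, .negSucc 325, .ofNat 0, .ofNat 0, .ofNat 785, .ofNat 2163, .ofNat 0, .ofNat 0, .ofNat 0, .ofNat 0, .ofNat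 0, .ofNat 30178695860713589076873008042968350720000, .ofNat 26324682667501206526007810457600, .ofNat 0, .ofNat 0, .ofNat 0, .ofNat 0, .ofNat 0, .ofNat 0, .ofNat 0, .ofNat 0, .ofNat 0⟩)
    (by decide +kernel)
theorem L00750 : Good (Phi V4.P V4.D 1 1) ⟨7, 106, 5, 13, 2, 1, 4, 15, 3, 1⟩ :=
  leaf_sound (S := T4.ds_pp) T4.ok_pp (w := 200) (c := ⟨⟨.negSucc 1154, .negSucc 173, .ofNat 64, .negSucc 1132, .negSucc 199, .negSucc 455⟩, ⟨.negSucc 530, .negSucc 93, .ofNat 3, .negSucc 537, .negSucc 95, .negSucc 216⟩, ⟨.ofNat 503, .ofNat 149, .negSucc 54, .ofNat 760, .ofNat 156, .ofNat 478⟩, ⟨.negSucc 1759, .negSucc 252, .ofNat 116, .negSucc 1846, .negSucc 313, .negSucc 732⟩, ⟨.negSucc 108, .ofNat 14, .negSucc 29, .ofNat 156, .ofNat 3, .ofNat 42⟩, .ofNat 1125, .negSucc 1622, .ofNat 0, .negSucc 1622, .ofNat 3548, .ofNat 0, .ofNat 351, .ofNat 648, .negSucc 1775, .ofNat 0, .ofNat 395, .negSucc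 836, .ofNat 0, .ofNat 0, .ofNat 1910, .ofNat 1298, .ofNat 0, .ofNat 1766596587566847507670239357387669504000, .ofNat 0, .ofNat 0, .ofNat 0, .ofNat 0, .ofNat 0, .ofNat 0, .ofNat 0, .ofNat 0, .ofNat 0, .ofNat 0, .ofNat 0, .ofNat 296894183962239230289338021998783522406400, .ofNat 0, .ofNat 0⟩)
    (by decide +kernel)
theorem L00751 : Good (Phi V4.P V4.D 1 1) ⟨7, 107, 5, 13, 1, 0, 3, 7, 2, 0⟩ :=
  out_sound (S := T4.ds_pp) T4.ok_pp (w := 80) (j := 3) (by decide +kernel)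
theorem L00752 : Good (Phi V4.P V4.D 1 1) ⟨6, 52, 4, 6, 2, 0, 3, 7, 2, 1⟩ :=
  leaf_sound (S := T4.ds_pp) T4.ok_pp (w := 184) (c := ⟨⟨.negSucc 429, .negSucc 277, .ofNat 113, .negSucc 1060, .ofNat 122, .negSucc 101⟩, ⟨.negSucc 173, .negSucc 138, .ofNat 18, .negSucc 487, .ofNat 54, .negSucc 44⟩, ⟨.negSucc 20, .ofNat 281, .negSucc 116, .ofNat 900, .negSucc 130, .ofNat 202⟩, ⟨.negSucc 684, .negSucc 406, .ofNat 183, .negSucc 1654, .ofNat 191, .negSucc 172⟩, ⟨.negSucc 22, .negSucc 4, .negSucc 4, .negSucc 52, .ofNat 11, .ofNat 23⟩, .ofNat 1830, .negSucc 3114, .ofNat 0, .negSucc 3114, .ofNat 6803, .ofNat 0, .ofNat 129, .ofNat 249, .negSucc 565, .ofNat 0, .ofNat 145, .negSucc 259, .ofNat 0, .ofNat 0, .ofNat 693, .ofNat 472, .ofNat 0, .ofNat 249976413242512347214371835242086400, .ofNat 349957222411837776121036800, .ofNat 0, .ofNat 0, .ofNat 15610972715918759117058739017036595200,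 .ofNat 324726429008399041087458508800, .ofNat 0, .ofNat 0, .ofNat 0, .ofNat 0, .ofNat 0, .ofNat 0, .ofNat 57153838174927576676368932527721676800, .ofNat 0, .ofNat 0⟩)
    (by decide +kernel)
theorem L00753 : Good (Phi V4.P V4.D 1 1) ⟨6, 52, 4, 6, 2, 1, 4, 14, 2, 1⟩ :=
  leaf_sound (S := T4.ds_pp) T4.ok_pp (w := 192) (c := ⟨⟨.negSucc 1202, .negSucc 185, .ofNat 53, .negSucc 1025, .negSucc 235, .negSucc 250⟩, ⟨.negSucc 514, .negSucc 104, .negSucc 34, .negSucc 462, .negSucc 108, .negSucc 113⟩, ⟨.ofNat 640, .ofNat 175, .negSucc 64, .ofNat 632, .ofNat 211, .ofNat 299⟩, ⟨.negSucc 1874, .negSucc 240, .ofNat 80, .negSucc 1723, .negSucc 376, .negSucc 426⟩, ⟨.negSucc 116, .negSucc 6, .ofNat 12, .ofNat 223, .ofNat 9, .ofNat 70⟩, .ofNat 606, .negSucc 649, .ofNat 0, .negSucc 649, .ofNat 1647, .ofNat 0, .ofNat 385, .ofNat 469, .negSucc 1083, .ofNat 0, .ofNat 335, .negSucc 461, .ofNat 0,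 .ofNat 0, .ofNat 1311, .ofNat 3246, .ofNat 0, .ofNat 10139018163902733452375425679150284800, .ofNat 0, .ofNat 0, .ofNat 0, .ofNat 0, .ofNat 0, .ofNat 0, .ofNat 0, .ofNat 514263731672827255740706471149777715200, .ofNat 0, .ofNat 0, .ofNat 0, .ofNat 502026360901350761676733171234976563200, .ofNat 0, .ofNat 0⟩)
    (by decide +kernel)
theorem L00754 : Good (Phi V4.P V4.D 1 1) ⟨6, 52, 4, 6, 2, 1, 4, 15, 2, 1⟩ :=
  leaf_sound (S := T4.ds_pp) T4.ok_pp (w := 192) (c := ⟨⟨.negSucc 1338, .negSucc 208, .ofNat 25, .negSucc 1192, .negSucc 240, .negSucc 483⟩, ⟨.negSucc 577, .negSucc 117, .negSucc 43, .negSucc 543, .negSucc 108, .negSucc 219⟩, ⟨.ofNat 730, .ofNat 195, .negSucc 34, .ofNat 855, .ofNat 224, .ofNat 567⟩, ⟨.negSucc 2108, .negSucc 275, .ofNat 37, .negSucc 1929, .negSucc 378, .negSucc 784⟩, ⟨.negSucc 73, .negSucc 6, .ofNat 8, .ofNat 93, .negSucc 5, .ofNat 41⟩, .ofNat 1043, .negSucc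 1506, .ofNat 0, .negSucc 1506, .ofNat 3462, .ofNat 0, .ofNat 655, .ofNat 1100, .negSucc 2810, .ofNat 0, .ofNat 669, .negSucc 1265, .ofNat 0, .ofNat 0, .ofNat 3188, .ofNat 6839, .ofNat 0, .ofNat 69372319674049845962669171782189056000, .ofNat 0, .ofNat 0, .ofNat 0, .ofNat 5657204072344108064830474020963169075200, .ofNat 0, .ofNat 0, .ofNat 0, .ofNat 7784237719504452295371831955901802086400, .ofNat 0, .ofNat 0, .ofNat 0, .ofNat 9211618811162037233766369792740032512000, .ofNat 0, .ofNat 0⟩)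
    (by decide +kernel)
theorem L00755 : Good (Phi V4.P V4.D 1 1) ⟨6, 53, 4, 6, 2, 0, 4, 14, 2, 1⟩ :=
  leaf_sound (S := T4.ds_pp) T4.ok_pp (w := 192) (c := ⟨⟨.negSucc 586, .negSucc 95, .negSucc 106, .negSucc 903, .ofNat 25, .ofNat 7⟩, ⟨.negSucc 247, .negSucc 59, .negSucc 85, .negSucc 434, .ofNat 12, .ofNat 4⟩, ⟨.ofNat 142, .ofNat 92, .ofNat 100, .ofNat 738, .negSucc 30, .ofNat 95⟩, ⟨.negSucc 917, .negSucc 120, .negSucc 159, .negSucc 1388, .ofNat 37, .ofNat 4⟩, ⟨.negSucc 11, .ofNat 0, .negSucc 10, .negSucc 53, .ofNat 4, .ofNat 14⟩, .ofNat 1905, .negSucc 3160, .ofNat 0, .negSucc 3160, .ofNat 6634, .ofNat 0, .ofNat 121, .ofNat 249, .negSucc 538, .ofNat 0, .ofNat 148, .negSucc 257, .ofNat 0, .ofNat 0, .ofNat 673, .ofNat 2100, .ofNat 0, .ofNat 0, .ofNat 0, .ofNat 0, .ofNat 0, .ofNat 113745098047031692499624187422520115200, .ofNat 2502295919310919998518172057600, .ofNat 0, .ofNat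 0, .ofNat 50266441915694930949818537211435417600, .ofNat 3361560280570562613604673126400, .ofNat 0, .ofNat 0, .ofNat 62156819134853284964767340287544524800, .ofNat 913087062425858417323986124800, .ofNat 0⟩)
    (by decide +kernel)
theorem L00756 : Good (Phi V4.P V4.D 1 1) ⟨6, 53, 4, 6, 2, 0, 4, 15, 2, 1⟩ :=
  leaf_sound (S := T4.ds_pp) T4.ok_pp (w := 192) (c := ⟨⟨.negSucc 614, .negSucc 151, .ofNat 255, .negSucc 1448, .ofNat 238, .negSucc 130⟩, ⟨.negSucc 259, .negSucc 85, .ofNat 86, .negSucc 696, .ofNat 114, .negSucc 61⟩, ⟨.ofNat 137, .ofNat 122, .negSucc 237, .ofNat 1284, .negSucc 236, .ofNat 247⟩, ⟨.negSucc 960, .negSucc 211, .ofNat 401, .negSucc 2235, .ofNat 371, .negSucc 207⟩, ⟨.negSucc 18, .ofNat 10, .ofNat 4, .negSucc 61, .ofNat 4, .ofNat 8⟩, .ofNat 1911, .negSucc 3167, .ofNat 0, .negSucc 3167, .ofNat 6637, .ofNat 0, .ofNat 242, .ofNat 500, .negSucc 1357, .ofNat 0,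 .ofNat 296, .negSucc 651, .ofNat 0, .ofNat 0, .ofNat 1567, .ofNat 1328, .ofNat 0, .ofNat 5538144550015902511355293265087692800, .ofNat 0, .ofNat 0, .ofNat 0, .ofNat 71184598238195026344512065704768307200, .ofNat 23243570046582733579379068108800, .ofNat 0, .ofNat 0, .ofNat 0, .ofNat 27569646742338668445418546790400, .ofNat 0, .ofNat 0, .ofNat 965580569995326015174986737293616742400, .ofNat 8921510028694696593068340019200, .ofNat 0⟩)
    (by decide +kernel)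
theorem L00757 : Good (Phi V4.P V4.D 1 1) ⟨6, 53, 4, 6, 2, 1, 4, 14, 2, 1⟩ :=
  leaf_sound (S := T4.ds_pp) T4.ok_pp (w := 192) (c := ⟨⟨.negSucc 1328, .negSucc 266, .ofNat 4, .negSucc 1028, .negSucc 257, .negSucc 254⟩, ⟨.negSucc 578, .negSucc 148, .negSucc 59, .negSucc 485, .negSucc 124, .negSucc 121⟩, ⟨.ofNat 719, .ofNat 223, .ofNat 8, .ofNat 640, .ofNat 243, .ofNat 330⟩, ⟨.negSucc 2053, .negSucc 388, .ofNat 19, .negSucc 1701, .negSucc 395, .negSucc 418⟩, ⟨.negSucc 68, .ofNat 46, .negSucc 19, .ofNat 194, .negSucc 15, .ofNat 43⟩, .ofNat 1590, .negSucc 2535, .ofNat 0, .negSucc 2535, .ofNat 5376, .ofNat 0, .ofNat 270, .ofNat 562, .negSucc 1110, .ofNat 0, .ofNat 330, .negSucc 529, .ofNat 0, .ofNat 0, .ofNat 1342, .ofNat 3161, .ofNat 0, .ofNat 11960752340379070315537578553717555200, .ofNat 0, .ofNat 0, .ofNat 0, .ofNat 432473647081930277062845202669397606400, .ofNat 22314801794402112946867431014400,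 .ofNat 0, .ofNat 0, .ofNat 363008459538665766133756413776127590400, .ofNat 20673351643716108758394549043200, .ofNat 0, .ofNat 0, .ofNat 543019451392596446229587459951296512000, .ofNat 0, .ofNat 0⟩)
    (by decide +kernel)
theorem L00758 : Good (Phi V4.P V4.D 1 1) ⟨6, 53, 4, 6, 2, 1, 4, 15, 2, 1⟩ :=
  leaf_sound (S := T4.ds_pp) T4.ok_pp (w := 200) (c := ⟨⟨.negSucc 1569, .negSucc 253, .ofNat 88, .negSucc 1273, .negSucc 342, .negSucc 531⟩, ⟨.negSucc 699, .negSucc 143, .negSucc 12, .negSucc 607, .negSucc 164, .negSucc 253⟩, ⟨.ofNat 950, .ofNat 242, .negSucc 96, .ofNat 923, .ofNat 320, .ofNat 614⟩, ⟨.negSucc 2426, .negSucc 341, .ofNat 137, .negSucc 2030, .negSucc 529, .negSucc 847⟩, ⟨.negSucc 75, .negSucc 6, .ofNat 6, .ofNat 79, .negSucc 12, .ofNat 34⟩, .ofNat 1603, .negSucc 2559, .ofNat 0, .negSucc 2559, .ofNat 5424, .ofNat 0, .ofNat 1110, .ofNat 2290, .negSucc 5790, .ofNat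 0, .ofNat 1352, .negSucc 2773, .ofNat 0, .ofNat 0, .ofNat 6527, .ofNat 10643, .ofNat 0, .ofNat 120312408768992087892372065080678809600, .ofNat 0, .ofNat 0, .ofNat 0, .ofNat 17754483967801652441365948373722044825600, .ofNat 369005480315148234512935157760000, .ofNat 0, .ofNat 0, .ofNat 21567155697840781886728410327533853081600, .ofNat 375339927582932266533530684620800, .ofNat 0, .ofNat 0, .ofNat 34785712194611987262656727354649765478400, .ofNat 0, .ofNat 0⟩)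
    (by decide +kernel)
theorem L00759 : Good (Phi V4.P V4.D 1 1) ⟨5, 27, 4, 6, 1, 0, 3, 7, 1, 0⟩ :=
  out_sound (S := T4.ds_pp) T4.ok_pp (w := 64) (j := 3) (by decide +kernel)
theorem L00760 : Good (Phi V4.P V4.D 1 1) ⟨4, 12, 4, 7, 1, 0, 3, 7, 1, 0⟩ :=
  out_sound (S := T4.ds_pp) T4.ok_pp (w := 56) (j := 3) (by decide +kernel)
theorem L00761 : Good (Phi V4.P V4.D 1 1) ⟨5, 26, 4, 7, 1, 0, 3, 7, 3, 0⟩ :=
  leaf_sound (S := T4.ds_pp) T4.ok_pp (w := 176) (c := ⟨⟨.negSucc 623, .negSucc 631, .ofNat 376, .negSucc 485, .ofNat 239, .negSucc 313⟩, ⟨.negSucc 282, .negSucc 342, .ofNat 153, .negSucc 236, .ofNat 118, .negSucc 151⟩, ⟨.ofNat 69, .ofNat 610, .negSucc 363, .ofNat 244, .negSucc 341, .ofNat 325⟩, ⟨.negSucc 981, .negSucc 831, .ofNat 530, .negSucc 748, .ofNat 372, .negSucc 545⟩, ⟨.negSucc 71, .negSucc 169, .ofNat 120, .negSucc 22, .ofNat 1, .ofNat 115⟩, .ofNat 1285, .negSucc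 1912, .ofNat 0, .negSucc 1912, .ofNat 4045, .ofNat 0, .ofNat 89, .ofNat 183, .negSucc 469, .ofNat 0, .ofNat 110, .negSucc 227, .ofNat 0, .ofNat 0, .ofNat 525, .ofNat 191, .ofNat 0, .ofNat 0, .ofNat 35788393323019324116172800, .ofNat 0, .ofNat 0, .ofNat 0, .ofNat 0, .ofNat 0, .ofNat 0, .ofNat 0, .ofNat 0, .ofNat 0, .ofNat 0, .ofNat 31356580062249797672480796573696000, .ofNat 0, .ofNat 0⟩)
    (by decide +kernel)
theorem L00762 : Good (Phi V4.P V4.D 1 1) ⟨5, 26, 4, 7, 1, 0, 4, 14, 3, 1⟩ :=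
  leaf_sound (S := T4.ds_pp) T4.ok_pp (w := 184) (c := ⟨⟨.negSucc 461, .negSucc 314, .ofNat 71, .negSucc 1436, .negSucc 98, .negSucc 212⟩, ⟨.negSucc 199, .negSucc 179, .negSucc 13, .negSucc 705, .negSucc 46, .negSucc 102⟩, ⟨.ofNat 63, .ofNat 219, .negSucc 13, .ofNat 962, .ofNat 48, .ofNat 234⟩, ⟨.negSucc 696, .negSucc 473, .ofNat 160, .negSucc 2265, .negSucc 159, .negSucc 357⟩, ⟨.negSucc 150, .ofNat 122, .negSucc 90, .ofNat 56, .ofNat 9, .ofNat 52⟩, .ofNat 1288, .negSucc 1919, .ofNat 0, .negSucc 1919, .ofNat 4060, .ofNat 0, .ofNat 153, .ofNat 311, .negSucc 725, .ofNat 0, .ofNat 188, .negSucc 351, .ofNat 0, .ofNat 0, .ofNat 848, .ofNat 800, .ofNat 0, .ofNat 0, .ofNat 0, .ofNat 0, .ofNat 0, .ofNat 0, .ofNat 0, .ofNat 0, .ofNat 0, .ofNat 119968616875476737221510591571558400, .ofNat 0, .ofNat 0, .ofNat 0, .ofNat 0, .ofNat 0, .ofNat 0⟩)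
    (by decide +kernel)
theorem L00763 : Good (Phi V4.P V4.D 1 1) ⟨5, 26, 4, 7, 2, 0, 4, 15, 3, 1⟩ :=
  leaf_sound (S := T4.ds_pp) T4.ok_pp (w := 192) (c := ⟨⟨.negSucc 572, .negSucc 40, .negSucc 155, .negSucc 913, .ofNat 229, .negSucc 63⟩, ⟨.negSucc 258, .negSucc 39, .negSucc 110, .negSucc 454, .ofNat 113, .negSucc 31⟩, ⟨.ofNat 29, .ofNat 23, .ofNat 163, .ofNat 771, .negSucc 245, .ofNat 150⟩, ⟨.negSucc 912, .negSucc 13, .negSucc 233, .negSucc 1375, .ofNat 351, .negSucc 111⟩, ⟨.negSucc 34, .ofNat 6, .negSucc 6, .negSucc 90, .ofNat 10, .ofNat 26⟩, .ofNat 1279, .negSucc 1900, .ofNat 0, .negSucc 1900, .ofNat 4022, .ofNat 0, .ofNat 308, .ofNat 604, .negSucc 1859, .ofNat 0, .ofNat 370, .negSucc 904, .ofNat 0, .ofNat 0, .ofNat 2082, .ofNat 1818, .ofNat 0, .ofNat 0, .ofNat 0, .ofNat 0, .ofNat 0, .ofNat 0, .ofNat 0, .ofNat 0, .ofNat 0, .ofNat 0, .ofNat 0, .ofNat 0, .ofNat 0, .ofNat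 324402900141055079337307233624627609600, .ofNat 0, .ofNat 0⟩)
    (by decide +kernel)
theorem L00764 : Good (Phi V4.P V4.D 1 1) ⟨5, 26, 4, 7, 2, 1, 4, 15, 3, 1⟩ :=
  leaf_sound (S := T4.ds_pp) T4.ok_pp (w := 192) (c := ⟨⟨.negSucc 735, .negSucc 527, .ofNat 41, .negSucc 1147, .negSucc 287, .negSucc 571⟩, ⟨.negSucc 312, .negSucc 306, .negSucc 44, .negSucc 567, .negSucc 147, .negSucc 282⟩, ⟨.ofNat 143, .ofNat 494, .negSucc 62, .ofNat 746, .ofNat 234, .ofNat 562⟩, ⟨.negSucc 1161, .negSucc 695, .ofNat 60, .negSucc 1868, .negSucc 441, .negSucc 915⟩, ⟨.negSucc 123, .negSucc 37, .ofNat 19, .ofNat 171, .negSucc 6, .ofNat 55⟩, .ofNat 669, .negSucc 752, .ofNat 0, .negSucc 752, .ofNat 1746, .ofNat 0, .ofNat 434, .ofNat 624, .negSucc 2034, .ofNat 0, .ofNat 431, .negSucc 942, .ofNat 0, .ofNat 0, .ofNat 2102, .ofNat 1105, .ofNat 0, .ofNat 1523907512213789719594973916875980800, .ofNat 466656039155679846044427878400,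 .ofNat 0, .ofNat 0, .ofNat 0, .ofNat 0, .ofNat 0, .ofNat 0, .ofNat 192476963483808200256903321430366617600, .ofNat 0, .ofNat 0, .ofNat 0, .ofNat 298649302940471304134840056387574169600, .ofNat 0, .ofNat 0⟩)
    (by decide +kernel)
theorem L00765 : Good (Phi V4.P V4.D 1 1) ⟨6, 52, 4, 7, 2, 0, 4, 14, 2, 1⟩ :=
  leaf_sound (S := T4.ds_pp) T4.ok_pp (w := 192) (c := ⟨⟨.negSucc 811, .ofNat 189, .negSucc 438, .negSucc 923, .ofNat 15, .negSucc 11⟩, ⟨.negSucc 375, .ofNat 76, .negSucc 245, .negSucc 444, .ofNat 7, .negSucc 4⟩, ⟨.ofNat 353, .negSucc 172, .ofNat 448, .ofNat 748, .negSucc 19, .ofNat 106⟩, ⟨.negSucc 1296, .ofNat 340, .negSucc 677, .negSucc 1431, .ofNat 23, .negSucc 29⟩, ⟨.negSucc 3, .negSucc 33, .negSucc 8, .negSucc 38, .ofNat 3, .ofNat 24⟩, .ofNat 2585, .negSucc 4547, .ofNat 0, .negSucc 4547, .ofNat 9474, .ofNat 0, .ofNat 107, .ofNat 254, .negSucc 525, .ofNat 0, .ofNat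 143, .negSucc 252, .ofNat 0, .ofNat 0, .ofNat 659, .ofNat 1855, .ofNat 0, .ofNat 0, .ofNat 0, .ofNat 0, .ofNat 0, .ofNat 0, .ofNat 0, .ofNat 0, .ofNat 0, .ofNat 0, .ofNat 15051662084286380499002405683200, .ofNat 0, .ofNat 0, .ofNat 0, .ofNat 5535957139866079723083792384000, .ofNat 0⟩)
    (by decide +kernel)
theorem L00766 : Good (Phi V4.P V4.D 1 1) ⟨6, 52, 4, 7, 2, 0, 4, 15, 2, 1⟩ :=
  leaf_sound (S := T4.ds_pp) T4.ok_pp (w := 192) (c := ⟨⟨.negSucc 45, .negSucc 383, .ofNat 357, .negSucc 1375, .ofNat 206, .negSucc 84⟩, ⟨.negSucc 10, .negSucc 195, .ofNat 152, .negSucc 661, .ofNat 99, .negSucc 39⟩, ⟨.negSucc 417, .ofNat 383, .negSucc 370, .ofNat 1221, .negSucc 206, .ofNat 202⟩, ⟨.negSucc 88, .negSucc 574, .ofNat 550, .negSucc 2128, .ofNat 320, .negSucc 140⟩, ⟨.negSucc 14, .negSucc 4, .ofNat 15, .negSucc 62, .ofNat 7, .ofNat 15⟩, .ofNat 2583, .negSucc 4545, .ofNat 0, .negSucc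 4545, .ofNat 9472, .ofNat 0, .ofNat 221, .ofNat 523, .negSucc 1409, .ofNat 0, .ofNat 296, .negSucc 677, .ofNat 0, .ofNat 0, .ofNat 1624, .ofNat 1519, .ofNat 0, .ofNat 0, .ofNat 0, .ofNat 0, .ofNat 0, .ofNat 0, .ofNat 0, .ofNat 0, .ofNat 0, .ofNat 371561500722905868662164810276798464000, .ofNat 0, .ofNat 0, .ofNat 0, .ofNat 876518583772284901019938849356880281600, .ofNat 36797188991634917854204133376000, .ofNat 0⟩)
    (by decide +kernel)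
theorem L00767 : Good (Phi V4.P V4.D 1 1) ⟨6, 53, 5, 14, 3, 0, 3, 7, 2, 1⟩ :=
  leaf_sound (S := T4.ds_pp) T4.ok_pp (w := 200) (c := ⟨⟨.negSucc 653, .ofNat 8, .negSucc 47, .negSucc 589, .ofNat 276, .ofNat 2⟩, ⟨.negSucc 311, .negSucc 7, .negSucc 35, .negSucc 291, .ofNat 136, .ofNat 0⟩, ⟨.ofNat 185, .negSucc 15, .ofNat 52, .ofNat 529, .negSucc 275, .ofNat 108⟩, ⟨.negSucc 1019, .ofNat 38, .negSucc 75, .negSucc 895, .ofNat 424, .negSucc 0⟩, ⟨.negSucc 12, .negSucc 1, .ofNat 2, .negSucc 46, .ofNat 11, .ofNat 9⟩, .ofNat 1900, .negSucc 3107, .ofNat 0, .negSucc 3107, .ofNat 6409, .ofNat 0, .ofNat 112, .ofNat 252, .negSucc 614, .ofNat 0, .ofNat 148, .negSucc 301, .ofNat 0, .ofNat 0, .ofNat 736, .ofNat 650, .ofNat 0, .ofNat 0, .ofNat 0, .ofNat 0, .ofNat 0, .ofNat 0, .ofNat 0, .ofNat 0, .ofNat 0, .ofNat 0, .ofNat 0, .ofNat 0, .ofNat 0, .ofNat 36844854433759391622073469444372299776000,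 .ofNat 0, .ofNat 0⟩)
    (by decide +kernel)
theorem L00768 : Good (Phi V4.P V4.D 1 1) ⟨6, 53, 5, 14, 3, 1, 4, 14, 2, 1⟩ :=
  leaf_sound (S := T4.ds_pp) T4.ok_pp (w := 200) (c := ⟨⟨.negSucc 996, .negSucc 121, .ofNat 9, .negSucc 511, .negSucc 110, .negSucc 102⟩, ⟨.negSucc 475, .negSucc 76, .negSucc 16, .negSucc 250, .negSucc 53, .negSucc 48⟩, ⟨.ofNat 477, .ofNat 120, .negSucc 11, .ofNat 402, .ofNat 108, .ofNat 197⟩, ⟨.negSucc 1532, .negSucc 148, .ofNat 16, .negSucc 796, .negSucc 172, .negSucc 172⟩, ⟨.negSucc 65, .negSucc 3, .ofNat 0, .negSucc 1, .ofNat 2, .ofNat 25⟩, .ofNat 2306, .negSucc 3900, .ofNat 0, .negSucc 3900, .ofNat 7972, .ofNat 0, .ofNat 216, .ofNat 510, .negSucc 1068, .ofNat 0, .ofNat 296, .negSucc 525, .ofNat 0, .ofNat 0, .ofNat 1326, .ofNat 4008, .ofNat 0, .ofNat 0, .ofNat 0, .ofNat 0, .ofNat 0, .ofNat 0, .ofNat 13752884687476862590164542265753600, .ofNat 0,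 .ofNat 0, .ofNat 0, .ofNat 0, .ofNat 0, .ofNat 0, .ofNat 0, .ofNat 0, .ofNat 0⟩)
    (by decide +kernel)
theorem L00769 : Good (Phi V4.P V4.D 1 1) ⟨6, 53, 5, 14, 3, 1, 4, 15, 2, 1⟩ :=
  leaf_sound (S := T4.ds_pp) T4.ok_pp (w := 208) (c := ⟨⟨.negSucc 923, .negSucc 211, .ofNat 8, .negSucc 684, .negSucc 104, .negSucc 296⟩, ⟨.negSucc 438, .negSucc 123, .negSucc 16, .negSucc 337, .negSucc 51, .negSucc 145⟩, ⟨.ofNat 399, .ofNat 203, .negSucc 5, .ofNat 573, .ofNat 100, .ofNat 404⟩, ⟨.negSucc 1426, .negSucc 284, .ofNat 12, .negSucc 1058, .negSucc 162, .negSucc 470⟩, ⟨.negSucc 55, .negSucc 5, .ofNat 1, .negSucc 15, .negSucc 0, .ofNat 16⟩, .ofNat 1258, .negSucc 1862, .ofNat 0, .negSucc 1862, .ofNat 3960, .ofNat 0, .ofNat 530, .ofNat 1031, .negSucc 2805, .ofNat 0, .ofNat 631, .negSucc 1361, .ofNat 0, .ofNat 0, .ofNat 3219, .ofNat 2441, .ofNat 0, .ofNat 7655516683329783017742710645695551897600,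 .ofNat 0, .ofNat 0, .ofNat 0, .ofNat 0, .ofNat 0, .ofNat 0, .ofNat 0, .ofNat 0, .ofNat 0, .ofNat 0, .ofNat 0, .ofNat 2332483234140821792716891279346737191321600, .ofNat 0, .ofNat 0⟩)
    (by decide +kernel)
theorem L00770 : Good (Phi V4.P V4.D 1 1) ⟨8, 212, 5, 15, 2, 0, 3, 7, 2, 1⟩ :=
  out_sound (S := T4.ds_pp) T4.ok_pp (w := 80) (j := 3) (by decide +kernel)
theorem L00771 : Good (Phi V4.P V4.D 1 1) ⟨8, 213, 5, 15, 2, 0, 3, 7, 3, 2⟩ :=
  leaf_sound (S := T4.ds_pp) T4.ok_pp (w := 200) (c := ⟨⟨.negSucc 1198, .ofNat 551, .ofNat 553, .negSucc 1080, .ofNat 213, .negSucc 32⟩, ⟨.negSucc 595, .ofNat 271, .ofNat 273, .negSucc 543, .ofNat 107, .negSucc 15⟩, ⟨.ofNat 726, .negSucc 532, .negSucc 590, .ofNat 913, .negSucc 220, .ofNat 88⟩, ⟨.negSucc 1873, .ofNat 878, .ofNat 855, .negSucc 1645, .ofNat 328, .negSucc 56⟩, ⟨.ofNat 10, .negSucc 30, .ofNat 12, .negSucc 64, .ofNat 6, .ofNat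 12⟩, .ofNat 3211, .negSucc 5617, .ofNat 0, .negSucc 5617, .ofNat 11216, .ofNat 0, .ofNat 100, .ofNat 277, .negSucc 644, .ofNat 0, .ofNat 157, .negSucc 322, .ofNat 0, .ofNat 0, .ofNat 769, .ofNat 521, .ofNat 0, .ofNat 0, .ofNat 144180182370217016099340288000, .ofNat 0, .ofNat 0, .ofNat 0, .ofNat 0, .ofNat 0, .ofNat 0, .ofNat 0, .ofNat 0, .ofNat 0, .ofNat 0, .ofNat 268445298234309391096469552491001177702400, .ofNat 3098978387648131684840243200000, .ofNat 0⟩)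
    (by decide +kernel)
theorem L00772 : Good (Phi V4.P V4.D 1 1) ⟨9, 426, 5, 15, 2, 0, 3, 7, 3, 3⟩ :=
  out_sound (S := T4.ds_pp) T4.ok_pp (w := 88) (j := 3) (by decide +kernel)
theorem L00773 : Good (Phi V4.P V4.D 1 1) ⟨9, 427, 5, 15, 3, 0, 3, 7, 3, 3⟩ :=
  leaf_sound (S := T4.ds_pp) T4.ok_pp (w := 216) (c := ⟨⟨.negSucc 56, .negSucc 521, .negSucc 395, .negSucc 776, .ofNat 266, .negSucc 56⟩, ⟨.negSucc 26, .negSucc 263, .negSucc 200, .negSucc 390, .ofNat 133, .negSucc 27⟩, ⟨.negSucc 356, .ofNat 522, .ofNat 399, .ofNat 716, .negSucc 260, .ofNat 105⟩, ⟨.negSucc 86, .negSucc 806, .negSucc 613, .negSucc 1184, .ofNat 408, .negSucc 88⟩, ⟨.negSucc 5, .negSucc 1, .negSucc 0, .negSucc 44, .ofNat 9, .ofNat 3⟩, .ofNat 3327, .negSucc 5842, .ofNat 0, .negSucc 5842, .ofNat 11654, .ofNat 0, .ofNat 90, .ofNat 247, .negSucc 587, .ofNat 0, .ofNat 140, .negSucc 294, .ofNat 0, .ofNat 0, .ofNat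 703, .ofNat 904, .ofNat 0, .ofNat 0, .ofNat 0, .ofNat 0, .ofNat 0, .ofNat 0, .ofNat 0, .ofNat 0, .ofNat 0, .ofNat 0, .ofNat 0, .ofNat 0, .ofNat 0, .ofNat 0, .ofNat 557369614602945984143299077734400, .ofNat 0⟩)
    (by decide +kernel)
theorem L00774 : Good (Phi V4.P V4.D 1 1) ⟨9, 427, 5, 15, 3, 1, 3, 7, 3, 3⟩ :=
  leaf_sound (S := T4.ds_pp) T4.ok_pp (w := 216) (c := ⟨⟨.negSucc 1032, .negSucc 31, .ofNat 34, .negSucc 537, .negSucc 440, .negSucc 31⟩, ⟨.negSucc 514, .negSucc 19, .ofNat 11, .negSucc 269, .negSucc 221, .negSucc 15⟩, ⟨.ofNat 564, .ofNat 26, .negSucc 38, .ofNat 419, .ofNat 446, .ofNat 81⟩, ⟨.negSucc 1583, .negSucc 42, .ofNat 46, .negSucc 836, .negSucc 678, .negSucc 52⟩, ⟨.negSucc 47, .negSucc 2, .ofNat 14, .ofNat 2, .negSucc 12, .ofNat 7⟩, .ofNat 3328, .negSucc 5844, .ofNat 0, .negSucc 5844, .ofNat 11657, .ofNat 0, .ofNat 180, .ofNat 501, .negSucc 1047, .ofNat 0,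 .ofNat 284, .negSucc 526, .ofNat 0, .ofNat 0, .ofNat 1286, .ofNat 1959, .ofNat 0, .ofNat 0, .ofNat 0, .ofNat 0, .ofNat 0, .ofNat 0, .ofNat 0, .ofNat 0, .ofNat 0, .ofNat 1915521516504462666807986429723423793374822400, .ofNat 0, .ofNat 0, .ofNat 0, .ofNat 3687631817746873154770726661211591191769907200, .ofNat 0, .ofNat 0⟩)
    (by decide +kernel)
theorem L00775 : Good (Phi V4.P V4.D 1 1) ⟨7, 107, 5, 15, 2, 0, 4, 14, 2, 1⟩ :=
  leaf_sound (S := T4.ds_pp) T4.ok_pp (w := 200) (c := ⟨⟨.negSucc 710, .ofNat 19, .negSucc 81, .negSucc 908, .negSucc 56, .negSucc 13⟩, ⟨.negSucc 353, .ofNat 3, .negSucc 62, .negSucc 462, .negSucc 28, .negSucc 5⟩, ⟨.ofNat 262, .negSucc 18, .ofNat 70, .ofNat 731, .ofNat 55, .ofNat 118⟩, ⟨.negSucc 1094, .ofNat 47, .negSucc 129, .negSucc 1380, .negSucc 88, .negSucc 26⟩, ⟨.negSucc 23, .negSucc 2, .ofNat 11, .negSucc 49, .ofNat 0, .ofNat 12⟩, .ofNat 3142, .negSucc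 5416, .ofNat 0, .negSucc 5416, .ofNat 10683, .ofNat 0, .ofNat 95, .ofNat 261, .negSucc 545, .ofNat 0, .ofNat 150, .negSucc 276, .ofNat 0, .ofNat 0, .ofNat 677, .ofNat 1326, .ofNat 0, .ofNat 0, .ofNat 0, .ofNat 0, .ofNat 0, .ofNat 0, .ofNat 0, .ofNat 0, .ofNat 0, .ofNat 0, .ofNat 0, .ofNat 0, .ofNat 0, .ofNat 0, .ofNat 0, .ofNat 0⟩)
    (by decide +kernel)
theorem L00776 : Good (Phi V4.P V4.D 1 1) ⟨7, 107, 5, 15, 2, 0, 4, 15, 2, 1⟩ :=
  leaf_sound (S := T4.ds_pp) T4.ok_pp (w := 200) (c := ⟨⟨.negSucc 425, .negSucc 37, .negSucc 86, .negSucc 1589, .ofNat 203, .negSucc 31⟩, ⟨.negSucc 207, .negSucc 25, .negSucc 63, .negSucc 812, .ofNat 104, .negSucc 15⟩, ⟨.negSucc 33, .ofNat 30, .ofNat 95, .ofNat 1414, .negSucc 197, .ofNat 142⟩, ⟨.negSucc 661, .negSucc 42, .negSucc 131, .negSucc 2421, .ofNat 314, .negSucc 54⟩, ⟨.negSucc 10, .ofNat 0, .negSucc 0, .negSucc 68, .negSucc 0, .ofNat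 10⟩, .ofNat 2242, .negSucc 3683, .ofNat 0, .negSucc 3683, .ofNat 7328, .ofNat 0, .ofNat 103, .ofNat 265, .negSucc 747, .ofNat 0, .ofNat 155, .negSucc 380, .ofNat 0, .ofNat 0, .ofNat 846, .ofNat 517, .ofNat 0, .ofNat 186890393146980322294073934884949196800, .ofNat 0, .ofNat 0, .ofNat 0, .ofNat 0, .ofNat 0, .ofNat 0, .ofNat 0, .ofNat 0, .ofNat 0, .ofNat 0, .ofNat 0, .ofNat 16277890901864810234723510481031318732800, .ofNat 0, .ofNat 0⟩)
    (by decide +kernel)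
theorem L00777 : Good (Phi V4.P V4.D 1 1) ⟨5, 26, 4, 7, 2, 1, 4, 14, 2, 1⟩ :=
  leaf_sound (S := T4.ds_pp) T4.ok_pp (w := 184) (c := ⟨⟨.negSucc 1137, .negSucc 363, .ofNat 38, .negSucc 1026, .negSucc 284, .negSucc 261⟩, ⟨.negSucc 515, .negSucc 222, .negSucc 40, .negSucc 503, .negSucc 140, .negSucc 128⟩, ⟨.ofNat 550, .ofNat 335, .negSucc 47, .ofNat 636, .ofNat 265, .ofNat 340⟩, ⟨.negSucc 1802, .negSucc 466, .ofNat 60, .negSucc 1686, .negSucc 439, .negSucc 423⟩, ⟨.negSucc 77, .ofNat 2, .ofNat 4, .ofNat 181, .negSucc 6, .ofNat 32⟩, .ofNat 661, .negSucc 739, .ofNat 0, .negSucc 739, .ofNat 1730, .ofNat 0, .ofNat 361, .ofNat 496, .negSucc 1178, .ofNat 0, .ofNat 349, .negSucc 541, .ofNat 0, .ofNat 0, .ofNat 1390, .ofNat 3511, .ofNat 0, .ofNat 758977264065520999960459975065600000, .ofNat 0, .ofNat 0, .ofNat 0, .ofNat 33679306318249083375355800100169318400, .ofNat 0, .ofNat 0, .ofNat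 0, .ofNat 41212345762078076716806362654520115200, .ofNat 0, .ofNat 0, .ofNat 0, .ofNat 32425652224737024126247598380233523200, .ofNat 0, .ofNat 0⟩)
    (by decide +kernel)
theorem L00778 : Good (Phi V4.P V4.D 1 1) ⟨5, 26, 4, 7, 2, 1, 4, 15, 2, 1⟩ :=
  leaf_sound (S := T4.ds_pp) T4.ok_pp (w := 192) (c := ⟨⟨.negSucc 1228, .negSucc 498, .ofNat 36, .negSucc 1274, .negSucc 386, .negSucc 561⟩, ⟨.negSucc 561, .negSucc 288, .negSucc 42, .negSucc 625, .negSucc 191, .negSucc 275⟩, ⟨.ofNat 618, .ofNat 462, .negSucc 36, .ofNat 912, .ofNat 367, .ofNat 652⟩, ⟨.negSucc 1951, .negSucc 670, .ofNat 62, .negSucc 2023, .negSucc 589, .negSucc 889⟩, ⟨.negSucc 65, .negSucc 3, .negSucc 1, .ofNat 81, .negSucc 22, .ofNat 28⟩, .ofNat 662, .negSucc 741, .ofNat 0, .negSucc 741, .ofNat 1732, .ofNat 0, .ofNat 1538, .ofNat 2105, .negSucc 6614, .ofNat 0, .ofNat 1487, .negSucc 3060, .ofNat 0, .ofNat 0, .ofNat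 7196, .ofNat 10562, .ofNat 0, .ofNat 7229208686833803943286366070531686400, .ofNat 0, .ofNat 0, .ofNat 0, .ofNat 1689179103706827024270710027826757632000, .ofNat 0, .ofNat 0, .ofNat 0, .ofNat 1917356428594424616080471000527719628800, .ofNat 0, .ofNat 0, .ofNat 0, .ofNat 2464614424988662652807594266469597184000, .ofNat 0, .ofNat 0⟩)
    (by decide +kernel)
theorem L00779 : Good (Phi V4.P V4.D 1 1) ⟨6, 54, 5, 14, 1, 0, 3, 7, 2, 0⟩ :=
  out_sound (S := T4.ds_pp) T4.ok_pp (w := 72) (j := 3) (by decide +kernel)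
theorem L00780 : Good (Phi V4.P V4.D 1 1) ⟨7, 108, 6, 30, 1, 0, 3, 7, 2, 0⟩ :=
  out_sound (S := T4.ds_pp) T4.ok_pp (w := 80) (j := 3) (by decide +kernel)
theorem L00781 : Good (Phi V4.P V4.D 1 1) ⟨7, 108, 6, 31, 1, 0, 3, 7, 3, 0⟩ :=
  leaf_sound (S := T4.ds_pp) T4.ok_pp (w := 192) (c := ⟨⟨.negSucc 992, .negSucc 374, .ofNat 216, .negSucc 476, .ofNat 31, .negSucc 417⟩, ⟨.negSucc 510, .negSucc 203, .ofNat 103, .negSucc 249, .ofNat 16, .negSucc 216⟩, ⟨.ofNat 431, .ofNat 290, .negSucc 192, .ofNat 203, .negSucc 147, .ofNat 430⟩, ⟨.negSucc 1486, .negSucc 598, .ofNat 351, .negSucc 706, .ofNat 50, .negSucc 667⟩, ⟨.negSucc 81, .ofNat 81, .negSucc 32, .negSucc 48, .negSucc 5, .ofNat 50⟩, .ofNat 3279, .negSucc 5558, .ofNat 0, .negSucc 5558, .ofNat 10702, .ofNat 0, .ofNat 63, .ofNat 193, .negSucc 477, .ofNat 0, .ofNat 111, .negSucc 248, .ofNat 0, .ofNat 0, .ofNat 530, .ofNat 310, .ofNat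 0, .ofNat 0, .ofNat 0, .ofNat 0, .ofNat 0, .ofNat 0, .ofNat 7448469636835176568219238400, .ofNat 0, .ofNat 0, .ofNat 40103304676216976938735639616657817600, .ofNat 0, .ofNat 0, .ofNat 0, .ofNat 98122777015994999527159081627287552000, .ofNat 610572464685766053671731200, .ofNat 0⟩)
    (by decide +kernel)
theorem L00782 : Good (Phi V4.P V4.D 1 1) ⟨7, 108, 6, 31, 2, 0, 3, 7, 3, 1⟩ :=
  leaf_sound (S := T4.ds_pp) T4.ok_pp (w := 200) (c := ⟨⟨.negSucc 783, .negSucc 54, .ofNat 104, .negSucc 992, .ofNat 104, .negSucc 84⟩, ⟨.negSucc 400, .negSucc 35, .ofNat 44, .negSucc 518, .ofNat 55, .negSucc 42⟩, ⟨.ofNat 255, .ofNat 43, .negSucc 91, .ofNat 832, .negSucc 139, .ofNat 155⟩, ⟨.negSucc 1191, .negSucc 67, .ofNat 164, .negSucc 1478, .ofNat 158, .negSucc 144⟩, ⟨.negSucc 28, .ofNat 4, .negSucc 6, .negSucc 88, .ofNat 3, .ofNat 28⟩, .ofNat 3261, .negSucc 5524, .ofNat 0, .negSucc 5524, .ofNat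 10637, .ofNat 0, .ofNat 108, .ofNat 319, .negSucc 852, .ofNat 0, .ofNat 185, .negSucc 444, .ofNat 0, .ofNat 0, .ofNat 969, .ofNat 693, .ofNat 0, .ofNat 0, .ofNat 0, .ofNat 0, .ofNat 0, .ofNat 0, .ofNat 0, .ofNat 0, .ofNat 0, .ofNat 0, .ofNat 0, .ofNat 0, .ofNat 0, .ofNat 87922788923077889446936404687793736908800, .ofNat 897084336271680641954532556800, .ofNat 0⟩)
    (by decide +kernel)
theorem L00783 : Good (Phi V4.P V4.D 1 1) ⟨7, 108, 6, 31, 2, 1, 4, 14, 3, 1⟩ :=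
  leaf_sound (S := T4.ds_pp) T4.ok_pp (w := 200) (c := ⟨⟨.negSucc 1162, .ofNat 43, .negSucc 87, .negSucc 887, .negSucc 202, .negSucc 421⟩, ⟨.negSucc 596, .ofNat 12, .negSucc 60, .negSucc 458, .negSucc 106, .negSucc 217⟩, ⟨.ofNat 560, .negSucc 44, .ofNat 78, .ofNat 496, .ofNat 169, .ofNat 399⟩, ⟨.negSucc 1714, .ofNat 84, .negSucc 130, .negSucc 1470, .negSucc 301, .negSucc 684⟩, ⟨.negSucc 145, .ofNat 20, .negSucc 9, .ofNat 206, .negSucc 18, .ofNat 70⟩, .ofNat 2458, .negSucc 4025, .ofNat 0, .negSucc 4025, .ofNat 7828, .ofNat 0, .ofNat 118, .ofNat 349, .negSucc 739, .ofNat 0, .ofNat 202, .negSucc 383, .ofNat 0, .ofNat 0, .ofNat 831, .ofNat 1771, .ofNat 0, .ofNat 0, .ofNat 0, .ofNat 0, .ofNat 0, .ofNat 0, .ofNat 0, .ofNat 0, .ofNat 0, .ofNat 43281186374014737482293935588555463065600, .ofNat 0, .ofNat 0, .ofNat 0, .ofNat 85260295474034661091391552908788813004800, .ofNat 33597282255714565059193602048000,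 .ofNat 0⟩)
    (by decide +kernel)
theorem L00784 : Good (Phi V4.P V4.D 1 1) ⟨7, 108, 6, 31, 2, 1, 4, 15, 3, 1⟩ :=
  leaf_sound (S := T4.ds_pp) T4.ok_pp (w := 208) (c := ⟨⟨.negSucc 1168, .negSucc 97, .negSucc 13, .negSucc 1168, .negSucc 438, .negSucc 622⟩, ⟨.negSucc 598, .negSucc 64, .negSucc 22, .negSucc 606, .negSucc 230, .negSucc 323⟩, ⟨.ofNat 522, .ofNat 133, .negSucc 9, .ofNat 741, .ofNat 414, .ofNat 631⟩, ⟨.negSucc 1738, .negSucc 103, .negSucc 29, .negSucc 1882, .negSucc 644, .negSucc 970⟩, ⟨.negSucc 119, .negSucc 28, .ofNat 17, .ofNat 166, .negSucc 57, .ofNat 26⟩, .ofNat 2440, .negSucc 3992, .ofNat 0, .negSucc 3992, .ofNat 7766, .ofNat 0, .ofNat 241, .ofNat 709, .negSucc 1902, .ofNat 0, .ofNat 412, .negSucc 988, .ofNat 0, .ofNat 0, .ofNat 1996, .ofNat 1320, .ofNat 0, .ofNat 8699590229845346272615813332595428556800, .ofNat 0, .ofNat 0, .ofNat 0, .ofNat 0, .ofNat 0,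 .ofNat 0, .ofNat 0, .ofNat 862579257047010077294719005223886939750400, .ofNat 0, .ofNat 0, .ofNat 0, .ofNat 1164492676883380277563132240524262087065600, .ofNat 0, .ofNat 0⟩)
    (by decide +kernel)
theorem L00785 : Good (Phi V4.P V4.D 1 1) ⟨7, 109, 5, 15, 1, 0, 3, 7, 2, 0⟩ :=
  out_sound (S := T4.ds_pp) T4.ok_pp (w := 80) (j := 3) (by decide +kernel)
theorem L00786 : Good (Phi V4.P V4.D 1 1) ⟨6, 54, 5, 14, 1, 0, 3, 7, 2, 1⟩ :=
  out_sound (S := T4.ds_pp) T4.ok_pp (w := 72) (j := 3) (by decide +kernel)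

end Crest.Agent.R097C4.N4pp
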