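import Crest.Agent.R097.T4

/-!
# Row 97, box cover in dimension n = 4 (generated)
-/

set_option autoImplicit false
set_option Elab.async false
set_option maxHeartbeats 0
set_option maxRecDepth 100000

open Crest.Agent.R097 Crest.Agent.R097.KA


namespace Crest.Agent.R097C4.N4pp

theorem L01744 : Good (Phi V4.P V4.D 1 1) ⟨5, 27, 5, 18, 2, 3, 3, 0, 4, 5⟩ :=
  leaf_sound (S := T4.ds_pp) T4.ok_pp (w := 192) (c := ⟨⟨.negSucc 1782, .ofNat 1, .ofNat 2, .negSucc 135, .negSucc 77, .ofNat 196⟩, ⟨.negSucc 998, .negSucc 9, .negSucc 44, .negSucc 76, .negSucc 44, .ofNat 112⟩, ⟨.ofNat 941, .ofNat 2, .ofNat 16, .negSucc 146, .ofNat 46, .negSucc 418⟩, ⟨.negSucc 3382, .negSucc 5, .negSucc 20, .negSucc 972, .negSucc 58, .ofNat 434⟩, ⟨.ofNat 1232, .ofNat 13, .ofNat 35, .ofNat 1338, .negSucc 101, .negSucc 242⟩, .ofNat 823, .negSucc 980, .ofNat 0, .negSucc 980, .ofNat 1968, .ofNat 0, .ofNat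 287, .ofNat 509, .negSucc 258, .ofNat 0, .ofNat 341, .negSucc 118, .ofNat 0, .ofNat 0, .ofNat 996, .ofNat 36185, .ofNat 120180350745975291880406422866886656000, .ofNat 8808547983663211330931243958140928000, .ofNat 1354021326415760799214809907200, .ofNat 0, .ofNat 0, .ofNat 861748415819167658078530320884092108800, .ofNat 908728363835957010811498109337600, .ofNat 0, .ofNat 0, .ofNat 830553367918706083993756190164962508800, .ofNat 0, .ofNat 0, .ofNat 0, .ofNat 1104019193454958233021125107447234560000, .ofNat 0, .ofNat 0⟩)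
    (by decide +kernel)
theorem L01745 : Good (Phi V4.P V4.D 1 1) ⟨6, 54, 5, 19, 2, 3, 3, 0, 4, 5⟩ :=
  out_sound (S := T4.ds_pp) T4.ok_pp (w := 72) (j := 3) (by decide +kernel)
theorem L01746 : Good (Phi V4.P V4.D 1 1) ⟨7, 110, 5, 19, 2, 3, 3, 0, 4, 5⟩ :=
  out_sound (S := T4.ds_pp) T4.ok_pp (w := 80) (j := 3) (by decide +kernel)
theorem L01747 : Good (Phi V4.P V4.D 1 1) ⟨7, 111, 5, 19, 2, 3, 3, 0, 4, 5⟩ :=
  out_sound (S := T4.ds_pp) T4.ok_pp (w := 24) (j := 4) (by decide +kernel)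
theorem L01748 : Good (Phi V4.P V4.D 1 1) ⟨5, 27, 4, 9, 2, 3, 3, 1, 4, 5⟩ :=
  leaf_sound (S := T4.ds_pp) T4.ok_pp (w := 192) (c := ⟨⟨.negSucc 1851, .ofNat 0, .negSucc 4, .negSucc 165, .negSucc 93, .ofNat 197⟩, ⟨.negSucc 1022, .negSucc 38, .negSucc 80, .negSucc 92, .negSucc 53, .ofNat 113⟩, ⟨.ofNat 939, .ofNat 13, .ofNat 17, .negSucc 35, .ofNat 49, .negSucc 364⟩, ⟨.negSucc 3429, .negSucc 5, .negSucc 22, .negSucc 1005, .negSucc 96, .ofNat 419⟩, ⟨.ofNat 1130, .ofNat 9, .ofNat 20, .ofNat 1320, .negSucc 74, .negSucc 213⟩, .ofNat 2237, .negSucc 3409, .ofNat 0, .negSucc 3409, .ofNat 6221, .ofNat 0, .ofNat 165, .ofNat 558, .negSucc 281, .ofNat 0, .ofNat 336, .negSucc 150, .ofNat 0, .ofNat 0, .ofNat 981, .ofNat 15867, .ofNat 0, .ofNat 1690664789253295124497761894295142400, .ofNat 0, .ofNat 0, .ofNat 0, .ofNat 142582039619693350730589173686940467200, .ofNat 1271865068222621639169944007475200,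 .ofNat 0, .ofNat 0, .ofNat 209126403667901425438046823089858150400, .ofNat 0, .ofNat 0, .ofNat 0, .ofNat 173397499008317852022721075059936460800, .ofNat 0, .ofNat 0⟩)
    (by decide +kernel)
theorem L01749 : Good (Phi V4.P V4.D 1 1) ⟨5, 27, 3, 4, 2, 3, 2, 1, 4, 5⟩ :=
  leaf_sound (S := T4.ds_pp) T4.ok_pp (w := 184) (c := ⟨⟨.negSucc 1899, .negSucc 69, .ofNat 38, .negSucc 242, .negSucc 276, .ofNat 187⟩, ⟨.negSucc 970, .negSucc 77, .negSucc 143, .negSucc 120, .negSucc 152, .ofNat 99⟩, ⟨.ofNat 917, .ofNat 24, .ofNat 14, .ofNat 103, .ofNat 147, .negSucc 284⟩, ⟨.negSucc 3440, .negSucc 69, .ofNat 5, .negSucc 1125, .negSucc 404, .ofNat 367⟩, ⟨.ofNat 999, .ofNat 34, .ofNat 14, .ofNat 1371, .negSucc 25, .negSucc 151⟩, .ofNat 764, .negSucc 894, .ofNat 0, .negSucc 894, .ofNat 1877, .ofNat 0, .ofNat 315, .ofNat 534, .negSucc 377, .ofNat 0, .ofNat 356, .negSucc 166, .ofNat 0, .ofNat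 0, .ofNat 992, .ofNat 5931, .ofNat 0, .ofNat 83616457997250247762233514996531200, .ofNat 0, .ofNat 0, .ofNat 0, .ofNat 27676317733500169414663325655603609600, .ofNat 45633255176468756714201756467200, .ofNat 0, .ofNat 0, .ofNat 45529830091877953082051934530253619200, .ofNat 16976972253211647721304437555200, .ofNat 0, .ofNat 0, .ofNat 0, .ofNat 0, .ofNat 0⟩)
    (by decide +kernel)
theorem L01750 : Good (Phi V4.P V4.D 1 1) ⟨4, 13, 3, 5, 2, 3, 1, 0, 4, 5⟩ :=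
  out_sound (S := T4.ds_pp) T4.ok_pp (w := 56) (j := 3) (by decide +kernel)
theorem L01751 : Good (Phi V4.P V4.D 1 1) ⟨3, 6, 2, 3, 2, 3, 1, 0, 3, 2⟩ :=
  out_sound (S := T4.ds_pp) T4.ok_pp (w := 48) (j := 3) (by decide +kernel)
theorem L01752 : Good (Phi V4.P V4.D 1 1) ⟨3, 7, 1, 1, 2, 3, 1, 0, 3, 2⟩ :=
  out_sound (S := T4.ds_pp) T4.ok_pp (w := 16) (j := 4) (by decide +kernel)
theorem L01753 : Good (Phi V4.P V4.D 1 1) ⟨4, 12, 2, 2, 3, 6, 2, 0, 3, 3⟩ :=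
  out_sound (S := T4.ds_pp) T4.ok_pp (w := 56) (j := 3) (by decide +kernel)
theorem L01754 : Good (Phi V4.P V4.D 1 1) ⟨4, 13, 3, 4, 3, 6, 2, 0, 3, 3⟩ :=
  leaf_sound (S := T4.ds_pp) T4.ok_pp (w := 192) (c := ⟨⟨.negSucc 1558, .negSucc 41, .ofNat 3, .negSucc 66, .negSucc 150, .ofNat 0⟩, ⟨.negSucc 775, .negSucc 63, .negSucc 145, .negSucc 33, .negSucc 83, .ofNat 0⟩, ⟨.ofNat 458, .ofNat 39, .ofNat 19, .negSucc 37, .ofNat 152, .ofNat 0⟩, ⟨.negSucc 2912, .negSucc 55, .negSucc 5, .negSucc 385, .negSucc 160, .ofNat 0⟩, ⟨.ofNat 954, .ofNat 48, .ofNat 13, .ofNat 511, .negSucc 124, .ofNat 0⟩, .ofNat 365, .negSucc 258, .ofNat 0, .negSucc 258, .ofNat 687, .ofNat 0, .ofNat 887, .ofNat 726, .negSucc 629, .ofNat 0, .ofNat 703, .negSucc 138, .ofNat 0, .ofNat 0, .ofNat 2078, .ofNat 83235, .ofNat 58202408193060698710299975110728089600, .ofNat 15756437413699443492220515723824332800, .ofNat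 5026068141709892617625193676800, .ofNat 0, .ofNat 1367481876596556726518473816545008025600, .ofNat 974333683332169979423743549948664217600, .ofNat 11115637355804451247787403431116800, .ofNat 0, .ofNat 197378776360627557881866070371231334400, .ofNat 840246614836105034995556743376378265600, .ofNat 0, .ofNat 0, .ofNat 2668261899505981436270999813642570956800, .ofNat 1977013225607527430895212044120542412800, .ofNat 4099884139056921570720527627059200, .ofNat 0⟩)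
    (by decide +kernel)
theorem L01755 : Good (Phi V4.P V4.D 1 1) ⟨4, 13, 3, 5, 3, 6, 2, 0, 3, 3⟩ :=
  out_sound (S := T4.ds_pp) T4.ok_pp (w := 56) (j := 3) (by decide +kernel)
theorem L01756 : Good (Phi V4.P V4.D 1 1) ⟨3, 6, 2, 3, 3, 6, 2, 0, 3, 3⟩ :=
  out_sound (S := T4.ds_pp) T4.ok_pp (w := 48) (j := 3) (by decide +kernel)
theorem L01757 : Good (Phi V4.P V4.D 1 1) ⟨3, 6, 1, 1, 3, 7, 2, 0, 3, 3⟩ :=
  out_sound (S := T4.ds_pp) T4.ok_pp (w := 32) (j := 2) (by decide +kernel)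
theorem L01758 : Good (Phi V4.P V4.D 1 1) ⟨3, 6, 1, 1, 2, 3, 2, 1, 3, 3⟩ :=
  out_sound (S := T4.ds_pp) T4.ok_pp (w := 32) (j := 2) (by decide +kernel)
theorem L01759 : Good (Phi V4.P V4.D 1 1) ⟨3, 7, 1, 1, 2, 3, 1, 0, 3, 3⟩ :=
  out_sound (S := T4.ds_pp) T4.ok_pp (w := 16) (j := 4) (by decide +kernel)
theorem L01760 : Good (Phi V4.P V4.D 1 1) ⟨2, 2, 1, 1, 2, 2, 1, 1, 1, 0⟩ :=
  out_sound (S := T4.ds_pp) T4.ok_pp (w := 40) (j := 3) (by decide +kernel)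
theorem L01761 : Good (Phi V4.P V4.D 1 1) ⟨4, 12, 2, 2, 3, 4, 2, 2, 3, 0⟩ :=
  out_sound (S := T4.ds_pp) T4.ok_pp (w := 56) (j := 3) (by decide +kernel)
theorem L01762 : Good (Phi V4.P V4.D 1 1) ⟨4, 13, 3, 4, 3, 4, 2, 2, 3, 0⟩ :=
  leaf_sound (S := T4.ds_pp) T4.ok_pp (w := 184) (c := ⟨⟨.negSucc 1318, .negSucc 95, .negSucc 26, .negSucc 237, .negSucc 17, .negSucc 569⟩, ⟨.negSucc 641, .negSucc 114, .negSucc 141, .negSucc 124, .negSucc 13, .negSucc 312⟩, ⟨.ofNat 1322, .ofNat 16, .ofNat 51, .ofNat 141, .negSucc 426, .ofNat 128⟩, ⟨.negSucc 2243, .negSucc 127, .negSucc 2, .negSucc 524, .ofNat 164, .negSucc 882⟩, ⟨.ofNat 323, .ofNat 117, .negSucc 16, .ofNat 296, .negSucc 348, .ofNat 33⟩, .ofNat 1808, .negSucc 2735, .ofNat 0, .negSucc 2735, .ofNat 5212, .ofNat 0, .ofNat 129, .ofNat 403, .negSucc 556, .ofNat 0, .ofNat 239, .negSucc 291, .ofNat 0, .ofNat 0, .ofNat 714, .ofNat 1021,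 .ofNat 0, .ofNat 0, .ofNat 0, .ofNat 0, .ofNat 0, .ofNat 0, .ofNat 1315059711842134564864056203673600, .ofNat 0, .ofNat 0, .ofNat 0, .ofNat 0, .ofNat 0, .ofNat 0, .ofNat 0, .ofNat 0, .ofNat 0⟩)
    (by decide +kernel)
theorem L01763 : Good (Phi V4.P V4.D 1 1) ⟨4, 13, 3, 5, 3, 4, 2, 2, 3, 0⟩ :=
  out_sound (S := T4.ds_pp) T4.ok_pp (w := 56) (j := 3) (by decide +kernel)
theorem L01764 : Good (Phi V4.P V4.D 1 1) ⟨3, 6, 2, 2, 3, 4, 2, 2, 3, 1⟩ :=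
  leaf_sound (S := T4.ds_pp) T4.ok_pp (w := 184) (c := ⟨⟨.negSucc 1542, .negSucc 248, .negSucc 102, .negSucc 367, .negSucc 210, .negSucc 54⟩, ⟨.negSucc 680, .negSucc 275, .negSucc 357, .negSucc 200, .negSucc 117, .negSucc 32⟩, ⟨.ofNat 1097, .ofNat 171, .ofNat 13, .ofNat 192, .negSucc 85, .negSucc 152⟩, ⟨.negSucc 2552, .negSucc 340, .negSucc 46, .negSucc 746, .negSucc 225, .negSucc 61⟩, ⟨.ofNat 196, .ofNat 118, .ofNat 25, .ofNat 343, .negSucc 169, .negSucc 39⟩, .ofNat 1899, .negSucc 2879, .ofNat 0, .negSucc 2879, .ofNat 5428, .ofNat 0, .ofNat 113, .ofNat 361, .negSucc 425, .ofNat 0, .ofNat 215, .negSucc 225, .ofNat 0, .ofNat 0, .ofNat 611, .ofNat 1449, .ofNat 0, .ofNat 0, .ofNat 0, .ofNat 0, .ofNat 0, .ofNat 0, .ofNat 2191324812231132749153517856358400, .ofNat 0, .ofNat 0, .ofNat 0, .ofNat 705195962892911791265491294617600, .ofNat 0, .ofNat 0, .ofNat 0, .ofNat 905419486185337763137585152000000,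 .ofNat 0⟩)
    (by decide +kernel)
theorem L01765 : Good (Phi V4.P V4.D 1 1) ⟨3, 7, 2, 2, 3, 4, 2, 2, 2, 0⟩ :=
  out_sound (S := T4.ds_pp) T4.ok_pp (w := 16) (j := 4) (by decide +kernel)
theorem L01766 : Good (Phi V4.P V4.D 1 1) ⟨4, 12, 2, 2, 3, 4, 3, 6, 2, 0⟩ :=
  out_sound (S := T4.ds_pp) T4.ok_pp (w := 56) (j := 3) (by decide +kernel)
theorem L01767 : Good (Phi V4.P V4.D 1 1) ⟨4, 13, 3, 4, 3, 4, 3, 6, 3, 0⟩ :=
  leaf_sound (S := T4.ds_pp) T4.ok_pp (w := 192) (c := ⟨⟨.negSucc 1000, .negSucc 432, .ofNat 142, .negSucc 278, .ofNat 38, .negSucc 880⟩, ⟨.negSucc 471, .negSucc 296, .negSucc 50, .negSucc 150, .ofNat 22, .negSucc 483⟩, ⟨.ofNat 430, .ofNat 563, .negSucc 287, .ofNat 152, .negSucc 225, .ofNat 536⟩, ⟨.negSucc 1535, .negSucc 673, .ofNat 302, .negSucc 568, .ofNat 126, .negSucc 1430⟩, ⟨.negSucc 87, .ofNat 160, .negSucc 62, .ofNat 264, .negSucc 123, .ofNat 170⟩, .ofNat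 773, .negSucc 906, .ofNat 0, .negSucc 906, .ofNat 1889, .ofNat 0, .ofNat 217, .ofNat 418, .negSucc 885, .ofNat 0, .ofNat 275, .negSucc 436, .ofNat 0, .ofNat 0, .ofNat 928, .ofNat 408, .ofNat 0, .ofNat 0, .ofNat 0, .ofNat 0, .ofNat 0, .ofNat 0, .ofNat 0, .ofNat 0, .ofNat 0, .ofNat 0, .ofNat 0, .ofNat 0, .ofNat 0, .ofNat 0, .ofNat 0, .ofNat 0⟩)
    (by decide +kernel)
theorem L01768 : Good (Phi V4.P V4.D 1 1) ⟨4, 13, 3, 5, 3, 4, 3, 6, 3, 0⟩ :=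
  out_sound (S := T4.ds_pp) T4.ok_pp (w := 56) (j := 3) (by decide +kernel)
theorem L01769 : Good (Phi V4.P V4.D 1 1) ⟨5, 26, 3, 4, 3, 4, 3, 6, 3, 1⟩ :=
  out_sound (S := T4.ds_pp) T4.ok_pp (w := 64) (j := 3) (by decide +kernel)
theorem L01770 : Good (Phi V4.P V4.D 1 1) ⟨5, 27, 3, 4, 3, 4, 3, 6, 3, 1⟩ :=
  leaf_sound (S := T4.ds_pp) T4.ok_pp (w := 192) (c := ⟨⟨.negSucc 1703, .negSucc 309, .ofNat 137, .negSucc 547, .negSucc 429, .negSucc 334⟩, ⟨.negSucc 871, .negSucc 239, .negSucc 61, .negSucc 294, .negSucc 234, .negSucc 181⟩, ⟨.ofNat 933, .ofNat 186, .negSucc 82, .ofNat 283, .ofNat 253, .ofNat 185⟩, ⟨.negSucc 2670, .negSucc 417, .ofNat 244, .negSucc 1013, .negSucc 637, .negSucc 549⟩, ⟨.ofNat 84, .ofNat 53, .negSucc 18, .ofNat 329, .negSucc 23, .ofNat 76⟩, .ofNat 1837, .negSucc 2782, .ofNat 0, .negSucc 2782, .ofNat 5283, .ofNat 0, .ofNat 122, .ofNat 385, .negSucc 604, .ofNat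 0, .ofNat 229, .negSucc 322, .ofNat 0, .ofNat 0, .ofNat 704, .ofNat 992, .ofNat 0, .ofNat 5973440323473519625864176998547456000, .ofNat 9012571167971522125235434291200, .ofNat 0, .ofNat 0, .ofNat 22782325800390950162661685412128358400, .ofNat 4186028441359317831537212050636800, .ofNat 0, .ofNat 0, .ofNat 0, .ofNat 0, .ofNat 0, .ofNat 0, .ofNat 0, .ofNat 0, .ofNat 0⟩)
    (by decide +kernel)
theorem L01771 : Good (Phi V4.P V4.D 1 1) ⟨4, 13, 3, 5, 3, 4, 3, 6, 3, 1⟩ :=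
  out_sound (S := T4.ds_pp) T4.ok_pp (w := 56) (j := 3) (by decide +kernel)
theorem L01772 : Good (Phi V4.P V4.D 1 1) ⟨3, 7, 2, 2, 3, 4, 3, 6, 2, 0⟩ :=
  out_sound (S := T4.ds_pp) T4.ok_pp (w := 16) (j := 4) (by decide +kernel)
theorem L01773 : Good (Phi V4.P V4.D 1 1) ⟨4, 12, 2, 2, 3, 4, 4, 14, 2, 0⟩ :=
  out_sound (S := T4.ds_pp) T4.ok_pp (w := 56) (j := 3) (by decide +kernel)
theorem L01774 : Good (Phi V4.P V4.D 1 1) ⟨5, 26, 3, 4, 3, 4, 4, 14, 3, 0⟩ :=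
  out_sound (S := T4.ds_pp) T4.ok_pp (w := 64) (j := 3) (by decide +kernel)
theorem L01775 : Good (Phi V4.P V4.D 1 1) ⟨6, 54, 3, 4, 3, 4, 4, 14, 4, 0⟩ :=
  leaf_sound (S := T4.ds_pp) T4.ok_pp (w := 208) (c := ⟨⟨.negSucc 1146, .negSucc 68, .ofNat 228, .negSucc 111, .ofNat 168, .negSucc 724⟩, ⟨.negSucc 596, .negSucc 50, .ofNat 27, .negSucc 55, .ofNat 90, .negSucc 391⟩, ⟨.ofNat 427, .ofNat 51, .negSucc 224, .ofNat 33, .negSucc 224, .ofNat 527⟩, ⟨.negSucc 1701, .negSucc 72, .ofNat 363, .negSucc 289, .ofNat 276, .negSucc 1174⟩, ⟨.negSucc 121, .negSucc 2, .ofNat 2, .ofNat 217, .negSucc 36, .ofNat 131⟩, .ofNat 1711, .negSucc 2581, .ofNat 0, .negSucc 2581, .ofNat 4981, .ofNat 0, .ofNat 621, .ofNat 1890, .negSucc 4266, .ofNat 0, .ofNat 1119, .negSucc 2245, .ofNat 0, .ofNat 0, .ofNat 4191, .ofNat 4307, .ofNat 0, .ofNat 0, .ofNat 0, .ofNat 0, .ofNat 0, .ofNat 0, .ofNat 0, .ofNat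 0, .ofNat 0, .ofNat 0, .ofNat 0, .ofNat 0, .ofNat 0, .ofNat 0, .ofNat 1315358957243511203519601021498163200, .ofNat 0⟩)
    (by decide +kernel)
theorem L01776 : Good (Phi V4.P V4.D 1 1) ⟨6, 55, 3, 4, 3, 4, 4, 14, 4, 0⟩ :=
  leaf_sound (S := T4.ds_pp) T4.ok_pp (w := 208) (c := ⟨⟨.negSucc 1146, .ofNat 31, .negSucc 42, .negSucc 87, .ofNat 184, .negSucc 686⟩, ⟨.negSucc 629, .negSucc 28, .negSucc 48, .negSucc 49, .ofNat 105, .negSucc 390⟩, ⟨.ofNat 402, .negSucc 65, .ofNat 39, .ofNat 18, .negSucc 250, .ofNat 508⟩, ⟨.negSucc 1665, .ofNat 79, .negSucc 63, .negSucc 253, .ofNat 298, .negSucc 1107⟩, ⟨.negSucc 129, .negSucc 1, .ofNat 20, .ofNat 213, .negSucc 36, .ofNat 128⟩, .ofNat 2140, .negSucc 3257, .ofNat 0, .negSucc 3257, .ofNat 5993, .ofNat 0, .ofNat 264, .ofNat 968, .negSucc 2273, .ofNat 0, .ofNat 580, .negSucc 1255, .ofNat 0, .ofNat 0, .ofNat 2203, .ofNat 746, .ofNat 0, .ofNat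 0, .ofNat 0, .ofNat 0, .ofNat 0, .ofNat 0, .ofNat 729988617035025040946865096779366400, .ofNat 0, .ofNat 0, .ofNat 0, .ofNat 0, .ofNat 0, .ofNat 0, .ofNat 0, .ofNat 547533985441030262754731351447961600, .ofNat 0⟩)
    (by decide +kernel)
theorem L01777 : Good (Phi V4.P V4.D 1 1) ⟨6, 54, 3, 4, 3, 4, 4, 14, 4, 1⟩ :=
  leaf_sound (S := T4.ds_pp) T4.ok_pp (w := 208) (c := ⟨⟨.negSucc 1399, .negSucc 132, .ofNat 17, .negSucc 521, .negSucc 153, .negSucc 676⟩, ⟨.negSucc 711, .negSucc 117, .negSucc 79, .negSucc 281, .negSucc 83, .negSucc 367⟩, ⟨.ofNat 615, .ofNat 81, .negSucc 37, .ofNat 285, .ofNat 54, .ofNat 510⟩, ⟨.negSucc 2145, .negSucc 155, .ofNat 20, .negSucc 935, .negSucc 222, .negSucc 1083⟩, ⟨.negSucc 30, .ofNat 10, .ofNat 13, .ofNat 262, .negSucc 21, .ofNat 100⟩, .ofNat 1730, .negSucc 2611, .ofNat 0, .negSucc 2611, .ofNat 5029, .ofNat 0, .ofNat 583, .ofNat 1782, .negSucc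 3984, .ofNat 0, .ofNat 1055, .negSucc 2105, .ofNat 0, .ofNat 0, .ofNat 3913, .ofNat 6692, .ofNat 0, .ofNat 0, .ofNat 0, .ofNat 0, .ofNat 0, .ofNat 0, .ofNat 0, .ofNat 0, .ofNat 0, .ofNat 0, .ofNat 1557359050177616748824989343416320000, .ofNat 0, .ofNat 0, .ofNat 0, .ofNat 751304352703640920154053552373760000, .ofNat 0⟩)
    (by decide +kernel)
theorem L01778 : Good (Phi V4.P V4.D 1 1) ⟨6, 55, 3, 4, 3, 4, 4, 14, 4, 1⟩ :=
  leaf_sound (S := T4.ds_pp) T4.ok_pp (w := 208) (c := ⟨⟨.negSucc 1551, .negSucc 220, .ofNat 288, .negSucc 547, .negSucc 204, .negSucc 739⟩, ⟨.negSucc 844, .negSucc 198, .ofNat 124, .negSucc 311, .negSucc 117, .negSucc 421⟩, ⟨.ofNat 723, .ofNat 154, .negSucc 249, .ofNat 286, .ofNat 91, .ofNat 556⟩, ⟨.negSucc 2337, .negSucc 286, .ofNat 444, .negSucc 977, .negSucc 296, .negSucc 1175⟩, ⟨.negSucc 31, .negSucc 2, .ofNat 16, .ofNat 268, .negSucc 19, .ofNat 109⟩,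 .ofNat 2173, .negSucc 3308, .ofNat 0, .negSucc 3308, .ofNat 6069, .ofNat 0, .ofNat 491, .ofNat 1827, .negSucc 4244, .ofNat 0, .ofNat 1095, .negSucc 2354, .ofNat 0, .ofNat 0, .ofNat 4085, .ofNat 2637, .ofNat 0, .ofNat 0, .ofNat 0, .ofNat 0, .ofNat 0, .ofNat 0, .ofNat 2968705782839535466627475426613657600, .ofNat 0, .ofNat 0, .ofNat 0, .ofNat 0, .ofNat 0, .ofNat 0, .ofNat 0, .ofNat 0, .ofNat 0⟩)
    (by decide +kernel)
theorem L01779 : Good (Phi V4.P V4.D 1 1) ⟨4, 13, 3, 5, 3, 4, 4, 14, 3, 0⟩ :=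
  out_sound (S := T4.ds_pp) T4.ok_pp (w := 56) (j := 3) (by decide +kernel)
theorem L01780 : Good (Phi V4.P V4.D 1 1) ⟨5, 26, 3, 4, 3, 4, 4, 14, 3, 1⟩ :=
  out_sound (S := T4.ds_pp) T4.ok_pp (w := 64) (j := 3) (by decide +kernel)
theorem L01781 : Good (Phi V4.P V4.D 1 1) ⟨5, 27, 4, 8, 3, 4, 4, 14, 4, 2⟩ :=
  leaf_sound (S := T4.ds_pp) T4.ok_pp (w := 208) (c := ⟨⟨.negSucc 1670, .negSucc 776, .ofNat 230, .negSucc 805, .negSucc 530, .negSucc 522⟩, ⟨.negSucc 849, .negSucc 449, .ofNat 16, .negSucc 434, .negSucc 290, .negSucc 283⟩, ⟨.ofNat 831, .ofNat 533, .negSucc 171, .ofNat 436, .ofNat 368, .ofNat 399⟩, ⟨.negSucc 2609, .negSucc 1143, .ofNat 394, .negSucc 1388, .negSucc 791, .negSucc 828⟩, ⟨.ofNat 51, .ofNat 113, .negSucc 47, .ofNat 299, .negSucc 25, .ofNat 59⟩, .ofNat 1765, .negSucc 2669, .ofNat 0, .negSucc 2669, .ofNat 5118, .ofNat 0, .ofNat 272, .ofNat 847, .negSucc 1818,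 .ofNat 0, .ofNat 501, .negSucc 966, .ofNat 0, .ofNat 0, .ofNat 1794, .ofNat 2447, .ofNat 0, .ofNat 0, .ofNat 0, .ofNat 0, .ofNat 0, .ofNat 0, .ofNat 4809586867157077515950658645550694400, .ofNat 0, .ofNat 0, .ofNat 59250512403926066322877937862751499059200, .ofNat 2305688435063767715684445810642124800, .ofNat 0, .ofNat 0, .ofNat 46291746322345978198753166798835469516800, .ofNat 1486364852474354964957789048274944000, .ofNat 0⟩)
    (by decide +kernel)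
theorem L01782 : Good (Phi V4.P V4.D 1 1) ⟨5, 27, 4, 8, 3, 4, 4, 14, 4, 3⟩ :=
  leaf_sound (S := T4.ds_pp) T4.ok_pp (w := 208) (c := ⟨⟨.negSucc 2183, .negSucc 313, .negSucc 25, .negSucc 761, .negSucc 607, .negSucc 262⟩, ⟨.negSucc 1126, .negSucc 210, .negSucc 120, .negSucc 410, .negSucc 332, .negSucc 141⟩, ⟨.ofNat 1211, .ofNat 246, .negSucc 6, .ofNat 388, .ofNat 459, .ofNat 208⟩, ⟨.negSucc 3426, .negSucc 395, .negSucc 14, .negSucc 1322, .negSucc 906, .negSucc 418⟩, ⟨.ofNat 119, .ofNat 16, .ofNat 3, .ofNat 301, .negSucc 32, .ofNat 34⟩, .ofNat 1757, .negSucc 2658, .ofNat 0, .negSucc 2658, .ofNat 5105, .ofNat 0, .ofNat 256, .ofNat 783, .negSucc 1533, .ofNat 0, .ofNat 463, .negSucc 815, .ofNat 0, .ofNat 0, .ofNat 1588, .ofNat 1770, .ofNat 0, .ofNat 1568266003972546561632583646786145484800, .ofNat 3411270470412013708535983924838400, .ofNat 0, .ofNat 0, .ofNat 5027058592841674265858324453982103142400,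 .ofNat 4550697238933053009350344572508569600, .ofNat 0, .ofNat 0, .ofNat 134634094448556837947975877306219075993600, .ofNat 2505938086402261399723004198387712000, .ofNat 0, .ofNat 0, .ofNat 89827811222603821895167181656342659072000, .ofNat 2775563427821974316204109126539673600, .ofNat 0⟩)
    (by decide +kernel)
theorem L01783 : Good (Phi V4.P V4.D 1 1) ⟨6, 54, 4, 9, 3, 4, 4, 14, 3, 1⟩ :=
  out_sound (S := T4.ds_pp) T4.ok_pp (w := 72) (j := 3) (by decide +kernel)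
theorem L01784 : Good (Phi V4.P V4.D 1 1) ⟨7, 110, 5, 18, 3, 4, 4, 14, 3, 1⟩ :=
  leaf_sound (S := T4.ds_pp) T4.ok_pp (w := 216) (c := ⟨⟨.negSucc 2002, .ofNat 218, .negSucc 292, .negSucc 804, .negSucc 646, .negSucc 797⟩, ⟨.negSucc 1120, .ofNat 95, .negSucc 199, .negSucc 459, .negSucc 369, .negSucc 455⟩, ⟨.ofNat 1039, .negSucc 145, .ofNat 204, .ofNat 406, .ofNat 476, .ofNat 628⟩, ⟨.negSucc 3076, .ofNat 368, .negSucc 443, .negSucc 1387, .negSucc 955, .negSucc 1257⟩, ⟨.ofNat 89, .negSucc 39, .ofNat 37, .ofNat 309, .negSucc 27, .ofNat 103⟩, .ofNat 14665, .negSucc 25056, .ofNat 0, .negSucc 25056, .ofNat 43964, .ofNat 0, .ofNat 45, .ofNat 427, .negSucc 858, .ofNat 0, .ofNat 247, .negSucc 490, .ofNat 0, .ofNat 0, .ofNat 861, .ofNat 1016, .ofNat 0, .ofNat 156118464176784886119686963788038065356800, .ofNat 0, .ofNat 0, .ofNat 0, .ofNat 333829921436772837051729471200256275251200,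 .ofNat 45223816147566214269199965172531200, .ofNat 0, .ofNat 0, .ofNat 0, .ofNat 0, .ofNat 0, .ofNat 0, .ofNat 0, .ofNat 0, .ofNat 0⟩)
    (by decide +kernel)
theorem L01785 : Good (Phi V4.P V4.D 1 1) ⟨7, 111, 5, 18, 3, 4, 4, 14, 3, 1⟩ :=
  out_sound (S := T4.ds_pp) T4.ok_pp (w := 24) (j := 4) (by decide +kernel)
theorem L01786 : Good (Phi V4.P V4.D 1 1) ⟨7, 110, 5, 19, 3, 4, 4, 14, 3, 1⟩ :=
  out_sound (S := T4.ds_pp) T4.ok_pp (w := 80) (j := 3) (by decide +kernel)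
theorem L01787 : Good (Phi V4.P V4.D 1 1) ⟨7, 111, 5, 19, 3, 4, 4, 14, 3, 1⟩ :=
  out_sound (S := T4.ds_pp) T4.ok_pp (w := 24) (j := 4) (by decide +kernel)
theorem L01788 : Good (Phi V4.P V4.D 1 1) ⟨4, 13, 3, 5, 3, 4, 4, 14, 3, 1⟩ :=
  out_sound (S := T4.ds_pp) T4.ok_pp (w := 56) (j := 3) (by decide +kernel)
theorem L01789 : Good (Phi V4.P V4.D 1 1) ⟨3, 7, 2, 2, 3, 4, 4, 14, 2, 0⟩ :=
  out_sound (S := T4.ds_pp) T4.ok_pp (w := 16) (j := 4) (by decide +kernel)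
theorem L01790 : Good (Phi V4.P V4.D 1 1) ⟨4, 12, 2, 2, 3, 4, 4, 15, 2, 0⟩ :=
  out_sound (S := T4.ds_pp) T4.ok_pp (w := 56) (j := 3) (by decide +kernel)
theorem L01791 : Good (Phi V4.P V4.D 1 1) ⟨5, 26, 3, 4, 3, 4, 5, 30, 2, 0⟩ :=
  out_sound (S := T4.ds_pp) T4.ok_pp (w := 64) (j := 3) (by decide +kernel)
theorem L01792 : Good (Phi V4.P V4.D 1 1) ⟨6, 54, 4, 8, 3, 4, 5, 30, 3, 0⟩ :=
  leaf_sound (S := T4.ds_pp) T4.ok_pp (w := 208) (c := ⟨⟨.negSucc 696, .negSucc 175, .ofNat 203, .negSucc 279, .ofNat 58, .negSucc 1894⟩, ⟨.negSucc 354, .negSucc 86, .ofNat 34, .negSucc 147, .ofNat 32, .negSucc 1020⟩, ⟨.negSucc 10, .ofNat 92, .negSucc 153, .ofNat 128, .negSucc 78, .ofNat 1476⟩, ⟨.negSucc 999, .negSucc 241, .ofNat 323, .negSucc 548, .ofNat 89, .negSucc 3009⟩, ⟨.negSucc 154, .ofNat 8, .negSucc 4, .ofNat 228, .negSucc 1, .ofNat 224⟩, .ofNat 1688, .negSucc 2546, .ofNat 0, .negSucc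 2546, .ofNat 4935, .ofNat 0, .ofNat 312, .ofNat 938, .negSucc 2568, .ofNat 0, .ofNat 555, .negSucc 1353, .ofNat 0, .ofNat 0, .ofNat 2373, .ofNat 1298, .ofNat 0, .ofNat 0, .ofNat 0, .ofNat 0, .ofNat 0, .ofNat 0, .ofNat 0, .ofNat 0, .ofNat 0, .ofNat 0, .ofNat 0, .ofNat 0, .ofNat 0, .ofNat 0, .ofNat 0, .ofNat 0⟩)
    (by decide +kernel)
theorem L01793 : Good (Phi V4.P V4.D 1 1) ⟨6, 54, 4, 8, 3, 4, 5, 30, 3, 1⟩ :=
  leaf_sound (S := T4.ds_pp) T4.ok_pp (w := 208) (c := ⟨⟨.negSucc 2036, .negSucc 478, .ofNat 259, .negSucc 869, .negSucc 435, .negSucc 1407⟩, ⟨.negSucc 1051, .negSucc 278, .ofNat 35, .negSucc 463, .negSucc 233, .negSucc 760⟩, ⟨.ofNat 1061, .ofNat 363, .negSucc 214, .ofNat 472, .ofNat 335, .ofNat 1146⟩, ⟨.negSucc 3165, .negSucc 690, .ofNat 425, .negSucc 1469, .negSucc 647, .negSucc 2190⟩, ⟨.ofNat 43, .ofNat 50, .negSucc 39, .ofNat 262, .negSucc 30, .ofNat 85⟩, .ofNat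 1706, .negSucc 2575, .ofNat 0, .negSucc 2575, .ofNat 4979, .ofNat 0, .ofNat 567, .ofNat 1702, .negSucc 4446, .ofNat 0, .ofNat 1007, .negSucc 2354, .ofNat 0, .ofNat 0, .ofNat 4177, .ofNat 9539, .ofNat 0, .ofNat 126536603545494361251306656468780344934400, .ofNat 0, .ofNat 0, .ofNat 0, .ofNat 3050283597934971695960008500789700775116800, .ofNat 0, .ofNat 0, .ofNat 0, .ofNat 8223779587560870103037587466125120320307200, .ofNat 0, .ofNat 0, .ofNat 0, .ofNat 7658837069861145850641005852565370935705600, .ofNat 0, .ofNat 0⟩)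
    (by decide +kernel)
theorem L01794 : Good (Phi V4.P V4.D 1 1) ⟨6, 55, 5, 16, 3, 4, 5, 30, 2, 0⟩ :=
  out_sound (S := T4.ds_pp) T4.ok_pp (w := 72) (j := 3) (by decide +kernel)
theorem L01795 : Good (Phi V4.P V4.D 1 1) ⟨7, 110, 5, 17, 3, 4, 5, 30, 2, 0⟩ :=
  leaf_sound (S := T4.ds_pp) T4.ok_pp (w := 216) (c := ⟨⟨.negSucc 1352, .negSucc 1663, .ofNat 1364, .negSucc 463, .ofNat 5, .negSucc 3989⟩, ⟨.negSucc 732, .negSucc 944, .ofNat 734, .negSucc 259, .ofNat 2, .negSucc 2248⟩, ⟨.ofNat 371, .ofNat 1094, .negSucc 894, .ofNat 218, .negSucc 30, .ofNat 3141⟩, ⟨.negSucc 2018, .negSucc 2568, .ofNat 2151, .negSucc 840, .ofNat 10, .negSucc 6246⟩, ⟨.negSucc 58, .ofNat 131, .negSucc 148, .ofNat 251, .negSucc 2, .ofNat 403⟩, .ofNat 4706, .negSucc 7787, .ofNat 0, .negSucc 7787, .ofNat 14022, .ofNat 0, .ofNat 90, .ofNat 480, .negSucc 1295, .ofNat 0, .ofNat 279, .negSucc 724, .ofNat 0,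 .ofNat 0, .ofNat 1185, .ofNat 717, .ofNat 0, .ofNat 115319358531584866644244617858351995289600, .ofNat 34295002607875992571344007987200, .ofNat 0, .ofNat 0, .ofNat 992295540417529567968314125788724278067200, .ofNat 15811621587569449116054336621772800, .ofNat 0, .ofNat 0, .ofNat 1735727093479627026359409065677471875072000, .ofNat 6458248997112575101243178247782400, .ofNat 0, .ofNat 0, .ofNat 1999247054190206231892991084006815144345600, .ofNat 6176559979630700727048538266009600, .ofNat 0⟩)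
    (by decide +kernel)
theorem L01796 : Good (Phi V4.P V4.D 1 1) ⟨7, 111, 5, 17, 3, 4, 5, 30, 2, 0⟩ :=
  out_sound (S := T4.ds_pp) T4.ok_pp (w := 80) (j := 3) (by decide +kernel)
theorem L01797 : Good (Phi V4.P V4.D 1 1) ⟨6, 54, 4, 9, 3, 4, 5, 30, 2, 0⟩ :=
  out_sound (S := T4.ds_pp) T4.ok_pp (w := 72) (j := 3) (by decide +kernel)
theorem L01798 : Good (Phi V4.P V4.D 1 1) ⟨7, 110, 4, 9, 3, 4, 5, 30, 3, 0⟩ :=
  leaf_sound (S := T4.ds_pp) T4.ok_pp (w := 224) (c := ⟨⟨.negSucc 373, .negSucc 117, .ofNat 48, .negSucc 335, .ofNat 5, .negSucc 2397⟩, ⟨.negSucc 194, .negSucc 93, .ofNat 2, .negSucc 191, .ofNat 2, .negSucc 1372⟩, ⟨.negSucc 305, .ofNat 114, .negSucc 79, .ofNat 143, .negSucc 47, .ofNat 1871⟩, ⟨.negSucc 485, .negSucc 154, .ofNat 83, .negSucc 641, .ofNat 10, .negSucc 3739⟩, ⟨.negSucc 155, .negSucc 8, .ofNat 4, .ofNat 239, .negSucc 0, .ofNat 237⟩, .ofNat 14276, .negSucc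 24393, .ofNat 0, .negSucc 24393, .ofNat 42832, .ofNat 0, .ofNat 105, .ofNat 996, .negSucc 2764, .ofNat 0, .ofNat 576, .negSucc 1577, .ofNat 0, .ofNat 0, .ofNat 2491, .ofNat 735, .ofNat 0, .ofNat 0, .ofNat 1753726585051735092331454398464000, .ofNat 0, .ofNat 0, .ofNat 0, .ofNat 763947540209792197186772686759526400, .ofNat 0, .ofNat 0, .ofNat 0, .ofNat 0, .ofNat 0, .ofNat 0, .ofNat 0, .ofNat 156311293724591055168810414558412800, .ofNat 0⟩)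
    (by decide +kernel)
theorem L01799 : Good (Phi V4.P V4.D 1 1) ⟨7, 111, 4, 9, 3, 4, 5, 30, 3, 0⟩ :=
  out_sound (S := T4.ds_pp) T4.ok_pp (w := 24) (j := 4) (by decide +kernel)
theorem L01800 : Good (Phi V4.P V4.D 1 1) ⟨6, 55, 4, 9, 3, 4, 5, 30, 3, 1⟩ :=
  leaf_sound (S := T4.ds_pp) T4.ok_pp (w := 216) (c := ⟨⟨.negSucc 2245, .negSucc 108, .negSucc 89, .negSucc 970, .negSucc 543, .negSucc 1661⟩, ⟨.negSucc 1256, .negSucc 129, .negSucc 119, .negSucc 553, .negSucc 310, .negSucc 949⟩, ⟨.ofNat 1208, .ofNat 90, .ofNat 59, .ofNat 512, .ofNat 418, .ofNat 1339⟩, ⟨.negSucc 3425, .negSucc 114, .negSucc 99, .negSucc 1621, .negSucc 798, .negSucc 2550⟩, ⟨.ofNat 59, .negSucc 13, .ofNat 5, .ofNat 284, .negSucc 33, .ofNat 93⟩, .ofNat 2225, .negSucc 3390, .ofNat 0, .negSucc 3390, .ofNat 6194, .ofNat 0, .ofNat 467, .ofNat 1775, .negSucc 4927, .ofNat 0, .ofNat 1065, .negSucc 2754, .ofNat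 0, .ofNat 0, .ofNat 4492, .ofNat 1961, .ofNat 0, .ofNat 30115414404014174646828881858618248396800, .ofNat 1380716838408230324840015541043200, .ofNat 0, .ofNat 0, .ofNat 0, .ofNat 0, .ofNat 0, .ofNat 0, .ofNat 5937932890213564186959242827340363857920000, .ofNat 0, .ofNat 0, .ofNat 0, .ofNat 4232112303427036633869314208050988240076800, .ofNat 779204138928792476709617616184934400, .ofNat 0⟩)
    (by decide +kernel)
theorem L01801 : Good (Phi V4.P V4.D 1 1) ⟨4, 13, 3, 5, 3, 4, 5, 30, 2, 0⟩ :=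
  out_sound (S := T4.ds_pp) T4.ok_pp (w := 56) (j := 3) (by decide +kernel)
theorem L01802 : Good (Phi V4.P V4.D 1 1) ⟨5, 26, 3, 4, 3, 4, 5, 31, 2, 0⟩ :=
  out_sound (S := T4.ds_pp) T4.ok_pp (w := 64) (j := 3) (by decide +kernel)
theorem L01803 : Good (Phi V4.P V4.D 1 1) ⟨6, 54, 4, 8, 3, 4, 5, 31, 3, 0⟩ :=
  leaf_sound (S := T4.ds_pp) T4.ok_pp (w := 208) (c := ⟨⟨.negSucc 545, .ofNat 252, .negSucc 188, .negSucc 271, .ofNat 311, .negSucc 2508⟩, ⟨.negSucc 263, .ofNat 121, .negSucc 159, .negSucc 142, .ofNat 167, .negSucc 1363⟩, ⟨.negSucc 205, .negSucc 152, .ofNat 65, .ofNat 116, .negSucc 280, .ofNat 2004⟩, ⟨.negSucc 782, .ofNat 454, .negSucc 317, .negSucc 542, .ofNat 463, .negSucc 3918⟩, ⟨.negSucc 135, .negSucc 64, .ofNat 72, .ofNat 236, .ofNat 22, .ofNat 188⟩, .ofNat 1740, .negSucc 2629, .ofNat 0, .negSucc 2629, .ofNat 5057, .ofNat 0, .ofNat 155, .ofNat 478, .negSucc 1567,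 .ofNat 0, .ofNat 283, .negSucc 834, .ofNat 0, .ofNat 0, .ofNat 1391, .ofNat 378, .ofNat 0, .ofNat 0, .ofNat 0, .ofNat 0, .ofNat 0, .ofNat 0, .ofNat 0, .ofNat 0, .ofNat 0, .ofNat 0, .ofNat 0, .ofNat 0, .ofNat 0, .ofNat 374696638987395103572924651610499029401600, .ofNat 0, .ofNat 0⟩)
    (by decide +kernel)
theorem L01804 : Good (Phi V4.P V4.D 1 1) ⟨6, 54, 4, 8, 3, 4, 5, 31, 3, 1⟩ :=
  leaf_sound (S := T4.ds_pp) T4.ok_pp (w := 216) (c := ⟨⟨.negSucc 2388, .negSucc 505, .ofNat 199, .negSucc 811, .negSucc 439, .negSucc 1795⟩, ⟨.negSucc 1242, .negSucc 299, .ofNat 13, .negSucc 435, .negSucc 235, .negSucc 970⟩, ⟨.ofNat 1316, .ofNat 412, .negSucc 193, .ofNat 446, .ofNat 349, .ofNat 1502⟩, ⟨.negSucc 3699, .negSucc 708, .ofNat 313, .negSucc 1347, .negSucc 649, .negSucc 2767⟩, ⟨.ofNat 36, .ofNat 6, .negSucc 1, .ofNat 207, .negSucc 37, .ofNat 55⟩, .ofNat 744, .negSucc 863, .ofNat 0,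 .negSucc 863, .ofNat 1846, .ofNat 0, .ofNat 3572, .ofNat 6444, .negSucc 25721, .ofNat 0, .ofNat 4263, .negSucc 12895, .ofNat 0, .ofNat 0, .ofNat 22966, .ofNat 40659, .ofNat 0, .ofNat 2269761115750203918172534968602735935488000, .ofNat 0, .ofNat 0, .ofNat 0, .ofNat 561590883871654749855862774456743810092236800, .ofNat 0, .ofNat 0, .ofNat 0, .ofNat 645903046238676505749949509768983757402931200, .ofNat 0, .ofNat 0, .ofNat 0, .ofNat 585790727667067656793739014206557571042508800, .ofNat 0, .ofNat 0⟩)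
    (by decide +kernel)
theorem L01805 : Good (Phi V4.P V4.D 1 1) ⟨6, 55, 5, 16, 3, 4, 5, 31, 2, 0⟩ :=
  out_sound (S := T4.ds_pp) T4.ok_pp (w := 72) (j := 3) (by decide +kernel)
theorem L01806 : Good (Phi V4.P V4.D 1 1) ⟨6, 55, 5, 17, 3, 4, 5, 31, 3, 0⟩ :=
  leaf_sound (S := T4.ds_pp) T4.ok_pp (w := 216) (c := ⟨⟨.ofNat 28, .ofNat 870, .negSucc 458, .negSucc 202, .ofNat 350, .negSucc 2988⟩, ⟨.ofNat 39, .ofNat 481, .negSucc 286, .negSucc 113, .ofNat 196, .negSucc 1681⟩, ⟨.negSucc 587, .negSucc 472, .ofNat 219, .ofNat 54, .negSucc 322, .ofNat 2389⟩, ⟨.ofNat 130, .ofNat 1389, .negSucc 708, .negSucc 437, .ofNat 512, .negSucc 4616⟩, ⟨.negSucc 174, .negSucc 110, .ofNat 50, .ofNat 233, .ofNat 31, .ofNat 188⟩, .ofNat 4637, .negSucc 7671, .ofNat 0, .negSucc 7671, .ofNat 13831, .ofNat 0, .ofNat 188, .ofNat 995, .negSucc 3327, .ofNat 0, .ofNat 578, .negSucc 1860, .ofNat 0, .ofNat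 0, .ofNat 2918, .ofNat 761, .ofNat 0, .ofNat 0, .ofNat 0, .ofNat 0, .ofNat 0, .ofNat 0, .ofNat 4354127627086683961696989653395046400, .ofNat 0, .ofNat 0, .ofNat 3205162948418112363754428745302982577356800, .ofNat 2683693611888000835168319233956249600, .ofNat 0, .ofNat 0, .ofNat 9448047717195292813071115003336920662016000, .ofNat 833567508124047192486996353640038400, .ofNat 0⟩)
    (by decide +kernel)
theorem L01807 : Good (Phi V4.P V4.D 1 1) ⟨6, 55, 5, 17, 3, 4, 5, 31, 3, 1⟩ :=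
  leaf_sound (S := T4.ds_pp) T4.ok_pp (w := 224) (c := ⟨⟨.negSucc 2674, .negSucc 254, .negSucc 78, .negSucc 828, .negSucc 522, .negSucc 2086⟩, ⟨.negSucc 1464, .negSucc 170, .negSucc 93, .negSucc 465, .negSucc 293, .negSucc 1174⟩, ⟨.ofNat 1536, .ofNat 201, .ofNat 52, .ofNat 437, .ofNat 418, .ofNat 1744⟩, ⟨.negSucc 4081, .negSucc 352, .negSucc 96, .negSucc 1369, .negSucc 761, .negSucc 3172⟩, ⟨.ofNat 41, .ofNat 3, .ofNat 0, .ofNat 209, .negSucc 49, .ofNat 40⟩, .ofNat 2045, .negSucc 3108, .ofNat 0, .negSucc 3108, .ofNat 5770, .ofNat 0, .ofNat 4076, .ofNat 14152, .negSucc 46979, .ofNat 0, .ofNat 8474, .negSucc 25902, .ofNat 0, .ofNat 0, .ofNat 42313, .ofNat 81859, .ofNat 0, .ofNat 17262350592569688190881281565829732761600000, .ofNat 0, .ofNat 0, .ofNat 0, .ofNat 2643148346031348220059676543306474639589376000, .ofNat 0, .ofNat 0, .ofNat 0, .ofNat 8845257296583697311356900659250393867983257600,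 .ofNat 800668974530779754336819510966747136000, .ofNat 0, .ofNat 0, .ofNat 10258376767553207802076932789866099191578624000, .ofNat 630961757487212108883160760264215756800, .ofNat 0⟩)
    (by decide +kernel)
theorem L01808 : Good (Phi V4.P V4.D 1 1) ⟨6, 54, 4, 9, 3, 4, 5, 31, 2, 0⟩ :=
  out_sound (S := T4.ds_pp) T4.ok_pp (w := 72) (j := 3) (by decide +kernel)
theorem L01809 : Good (Phi V4.P V4.D 1 1) ⟨7, 110, 6, 36, 3, 4, 5, 31, 3, 0⟩ :=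
  leaf_sound (S := T4.ds_pp) T4.ok_pp (w := 224) (c := ⟨⟨.negSucc 347, .ofNat 293, .negSucc 29, .negSucc 185, .ofNat 559, .negSucc 3163⟩, ⟨.negSucc 189, .ofNat 164, .negSucc 31, .negSucc 105, .ofNat 321, .negSucc 1811⟩, ⟨.negSucc 379, .negSucc 221, .ofNat 2, .ofNat 38, .negSucc 500, .ofNat 2518⟩, ⟨.negSucc 442, .ofNat 426, .negSucc 30, .negSucc 401, .ofNat 826, .negSucc 4865⟩, ⟨.negSucc 150, .ofNat 32, .negSucc 11, .ofNat 215, .ofNat 23, .ofNat 193⟩, .ofNat 5786, .negSucc 9585, .ofNat 0, .negSucc 9585, .ofNat 16994, .ofNat 0, .ofNat 80, .ofNat 498, .negSucc 1690, .ofNat 0, .ofNat 291, .negSucc 960, .ofNat 0, .ofNat 0, .ofNat 1485, .ofNat 645, .ofNat 0, .ofNat 0, .ofNat 0, .ofNat 0, .ofNat 0, .ofNat 0, .ofNat 0, .ofNat 0, .ofNat 0, .ofNat 0, .ofNat 0, .ofNat 0, .ofNat 0, .ofNat 130721362829824311084917536247712944907878400, .ofNat 0, .ofNat 0⟩)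
    (by decide +kernel)
theorem L01810 : Good (Phi V4.P V4.D 1 1) ⟨7, 110, 6, 36, 3, 4, 5, 31, 3, 1⟩ :=
  leaf_sound (S := T4.ds_pp) T4.ok_pp (w := 224) (c := ⟨⟨.negSucc 2759, .negSucc 52, .negSucc 86, .negSucc 843, .negSucc 654, .negSucc 2266⟩, ⟨.negSucc 1558, .negSucc 43, .negSucc 74, .negSucc 483, .negSucc 375, .negSucc 1299⟩, ⟨.ofNat 1596, .ofNat 35, .ofNat 66, .ofNat 442, .ofNat 527, .ofNat 1896⟩, ⟨.negSucc 4185, .negSucc 70, .negSucc 114, .negSucc 1384, .negSucc 953, .negSucc 3425⟩, ⟨.ofNat 41, .ofNat 5, .negSucc 0, .ofNat 204, .negSucc 53, .ofNat 35⟩, .ofNat 2234, .negSucc 3403, .ofNat 0, .negSucc 3403, .ofNat 6213, .ofNat 0, .ofNat 3807, .ofNat 14171, .negSucc 48770, .ofNat 0, .ofNat 8531, .negSucc 27318, .ofNat 0, .ofNat 0, .ofNat 43875, .ofNat 98900, .ofNat 0, .ofNat 1428406952938669193743353932145511791958425600, .ofNat 0, .ofNat 0, .ofNat 0, .ofNat 529420243010794539441023718582551872361673523200,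 .ofNat 0, .ofNat 0, .ofNat 0, .ofNat 668838935313744179024316317771633714482957516800, .ofNat 0, .ofNat 0, .ofNat 0, .ofNat 606395855093066801647693350669177331381803417600, .ofNat 340759414910314602059528927323776614400, .ofNat 0⟩)
    (by decide +kernel)
theorem L01811 : Good (Phi V4.P V4.D 1 1) ⟨8, 220, 6, 37, 3, 4, 5, 31, 2, 0⟩ :=
  out_sound (S := T4.ds_pp) T4.ok_pp (w := 88) (j := 3) (by decide +kernel)
theorem L01812 : Good (Phi V4.P V4.D 1 1) ⟨9, 442, 7, 74, 3, 4, 5, 31, 2, 0⟩ :=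
  out_sound (S := T4.ds_pp) T4.ok_pp (w := 96) (j := 3) (by decide +kernel)
theorem L01813 : Good (Phi V4.P V4.D 1 1) ⟨10, 886, 8, 148, 3, 4, 5, 31, 2, 0⟩ :=
  out_sound (S := T4.ds_pp) T4.ok_pp (w := 104) (j := 3) (by decide +kernel)
theorem L01814 : Good (Phi V4.P V4.D 1 1) ⟨10, 887, 8, 148, 3, 4, 5, 31, 2, 0⟩ :=
  out_sound (S := T4.ds_pp) T4.ok_pp (w := 32) (j := 4) (by decide +kernel)
theorem L01815 : Good (Phi V4.P V4.D 1 1) ⟨9, 443, 8, 149, 3, 4, 5, 31, 2, 0⟩ :=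
  out_sound (S := T4.ds_pp) T4.ok_pp (w := 96) (j := 3) (by decide +kernel)
theorem L01816 : Good (Phi V4.P V4.D 1 1) ⟨8, 221, 7, 75, 3, 4, 5, 31, 2, 0⟩ :=
  out_sound (S := T4.ds_pp) T4.ok_pp (w := 88) (j := 3) (by decide +kernel)
theorem L01817 : Good (Phi V4.P V4.D 1 1) ⟨7, 111, 5, 18, 3, 4, 5, 31, 2, 0⟩ :=
  out_sound (S := T4.ds_pp) T4.ok_pp (w := 24) (j := 4) (by decide +kernel)
theorem L01818 : Good (Phi V4.P V4.D 1 1) ⟨7, 110, 5, 19, 3, 4, 5, 31, 2, 0⟩ :=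
  out_sound (S := T4.ds_pp) T4.ok_pp (w := 80) (j := 3) (by decide +kernel)
theorem L01819 : Good (Phi V4.P V4.D 1 1) ⟨7, 111, 5, 19, 3, 4, 5, 31, 2, 0⟩ :=
  out_sound (S := T4.ds_pp) T4.ok_pp (w := 24) (j := 4) (by decide +kernel)
theorem L01820 : Good (Phi V4.P V4.D 1 1) ⟨4, 13, 3, 5, 3, 4, 5, 31, 2, 0⟩ :=
  out_sound (S := T4.ds_pp) T4.ok_pp (w := 56) (j := 3) (by decide +kernel)
theorem L01821 : Good (Phi V4.P V4.D 1 1) ⟨3, 7, 2, 2, 3, 4, 4, 15, 2, 0⟩ :=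
  out_sound (S := T4.ds_pp) T4.ok_pp (w := 16) (j := 4) (by decide +kernel)
theorem L01822 : Good (Phi V4.P V4.D 1 1) ⟨4, 12, 2, 2, 3, 4, 1, 1, 2, 1⟩ :=
  out_sound (S := T4.ds_pp) T4.ok_pp (w := 56) (j := 3) (by decide +kernel)
theorem L01823 : Good (Phi V4.P V4.D 1 1) ⟨5, 26, 3, 4, 3, 4, 1, 1, 2, 1⟩ :=
  out_sound (S := T4.ds_pp) T4.ok_pp (w := 64) (j := 3) (by decide +kernel)
theorem L01824 : Good (Phi V4.P V4.D 1 1) ⟨5, 27, 4, 8, 3, 4, 2, 2, 2, 1⟩ :=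
  leaf_sound (S := T4.ds_pp) T4.ok_pp (w := 192) (c := ⟨⟨.negSucc 1722, .negSucc 308, .ofNat 112, .negSucc 249, .negSucc 389, .ofNat 334⟩, ⟨.negSucc 895, .negSucc 181, .negSucc 14, .negSucc 132, .negSucc 211, .ofNat 181⟩, ⟨.ofNat 968, .ofNat 200, .negSucc 94, .ofNat 61, .ofNat 235, .negSucc 484⟩, ⟨.negSucc 2743, .negSucc 445, .ofNat 195, .negSucc 535, .negSucc 598, .ofNat 561⟩, ⟨.ofNat 180, .ofNat 62, .negSucc 25, .ofNat 286, .ofNat 12, .negSucc 95⟩, .ofNat 755, .negSucc 880, .ofNat 0, .negSucc 880, .ofNat 1863, .ofNat 0, .ofNat 304, .ofNat 513, .negSucc 527, .ofNat 0, .ofNat 349, .negSucc 249, .ofNat 0, .ofNat 0, .ofNat 986, .ofNat 3430, .ofNat 0, .ofNat 0, .ofNat 0, .ofNat 0, .ofNat 0, .ofNat 0, .ofNat 0, .ofNat 0, .ofNat 0, .ofNat 200769106701112440635882165679371059200, .ofNat 0, .ofNat 0, .ofNat 0, .ofNat 244982288522008742815008531972882432000, .ofNat 0, .ofNat 0⟩)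
    (by decide +kernel)
theorem L01825 : Good (Phi V4.P V4.D 1 1) ⟨5, 27, 4, 8, 3, 4, 4, 12, 2, 1⟩ :=
  leaf_sound (S := T4.ds_pp) T4.ok_pp (w := 192) (c := ⟨⟨.negSucc 1991, .negSucc 167, .ofNat 5, .negSucc 465, .negSucc 247, .negSucc 18⟩, ⟨.negSucc 1029, .negSucc 138, .negSucc 78, .negSucc 248, .negSucc 133, .negSucc 12⟩, ⟨.ofNat 1076, .ofNat 143, .negSucc 31, .ofNat 201, .ofNat 180, .negSucc 38⟩, ⟨.negSucc 3142, .negSucc 164, .ofNat 7, .negSucc 885, .negSucc 379, .negSucc 68⟩, ⟨.ofNat 148, .negSucc 5, .ofNat 19, .ofNat 324, .ofNat 4, .ofNat 73⟩, .ofNat 754, .negSucc 879, .ofNat 0, .negSucc 879, .ofNat 1860, .ofNat 0, .ofNat 349, .ofNat 619, .negSucc 935, .ofNat 0, .ofNat 413, .negSucc 459, .ofNat 0, .ofNat 0, .ofNat 1197, .ofNat 7502, .ofNat 0, .ofNat 77228108839063818052030574801348198400, .ofNat 0, .ofNat 0, .ofNat 0, .ofNat 1415763973893634823664260877129036595200,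 .ofNat 14332437605996150952582794811801600, .ofNat 0, .ofNat 0, .ofNat 1708378616276495962954263879084933120000, .ofNat 0, .ofNat 0, .ofNat 0, .ofNat 2772925050150018223706185057323240652800, .ofNat 0, .ofNat 0⟩)
    (by decide +kernel)
theorem L01826 : Good (Phi V4.P V4.D 1 1) ⟨5, 27, 4, 8, 3, 4, 4, 13, 2, 1⟩ :=
  leaf_sound (S := T4.ds_pp) T4.ok_pp (w := 200) (c := ⟨⟨.negSucc 2160, .negSucc 180, .negSucc 17, .negSucc 565, .negSucc 362, .negSucc 254⟩, ⟨.negSucc 1122, .negSucc 127, .negSucc 109, .negSucc 301, .negSucc 193, .negSucc 128⟩, ⟨.ofNat 1196, .ofNat 149, .negSucc 12, .ofNat 260, .ofNat 274, .ofNat 183⟩, ⟨.negSucc 3402, .negSucc 191, .negSucc 20, .negSucc 1040, .negSucc 547, .negSucc 450⟩, ⟨.ofNat 148, .ofNat 15, .ofNat 14, .ofNat 327, .negSucc 10, .ofNat 114⟩, .ofNat 750, .negSucc 873, .ofNat 0, .negSucc 873, .ofNat 1855, .ofNat 0, .ofNat 736, .ofNat 1321, .negSucc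 2319, .ofNat 0, .ofNat 875, .negSucc 1147, .ofNat 0, .ofNat 0, .ofNat 2667, .ofNat 14602, .ofNat 0, .ofNat 356554387746716036488355943355200307200, .ofNat 0, .ofNat 0, .ofNat 0, .ofNat 19308333126755255241886140019039115673600, .ofNat 0, .ofNat 0, .ofNat 0, .ofNat 39533842299704140819727342226333971251200, .ofNat 34782854308954098326873687929651200, .ofNat 0, .ofNat 0, .ofNat 36566997239201814738689929293633631027200, .ofNat 14909753900341967953985695383552000, .ofNat 0⟩)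
    (by decide +kernel)
theorem L01827 : Good (Phi V4.P V4.D 1 1) ⟨5, 27, 4, 8, 3, 4, 3, 7, 2, 1⟩ :=
  leaf_sound (S := T4.ds_pp) T4.ok_pp (w := 200) (c := ⟨⟨.negSucc 2461, .negSucc 376, .ofNat 16, .negSucc 668, .negSucc 1047, .negSucc 567⟩, ⟨.negSucc 1280, .negSucc 235, .negSucc 96, .negSucc 360, .negSucc 570, .negSucc 309⟩, ⟨.ofNat 1421, .ofNat 310, .negSucc 39, .ofNat 330, .ofNat 836, .ofNat 488⟩, ⟨.negSucc 3871, .negSucc 495, .ofNat 47, .negSucc 1159, .negSucc 1559, .negSucc 896⟩, ⟨.ofNat 158, .ofNat 29, .negSucc 1, .ofNat 261, .negSucc 60, .ofNat 74⟩, .ofNat 1743, .negSucc 2634, .ofNat 0, .negSucc 2634, .ofNat 5066, .ofNat 0, .ofNat 978, .ofNat 2897, .negSucc 5360, .ofNat 0, .ofNat 1723, .negSucc 2847, .ofNat 0, .ofNat 0, .ofNat 5836, .ofNat 11982, .ofNat 0, .ofNat 595744084363346033661040730280925593600, .ofNat 18407197294177685785336715673600, .ofNat 0, .ofNat 0,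 .ofNat 21841909452876634470936197781009098342400, .ofNat 25405381650852436936900372070400000, .ofNat 0, .ofNat 0, .ofNat 137244336359349039838601032700479615795200, .ofNat 0, .ofNat 0, .ofNat 0, .ofNat 215068684797922054775645279134226055168000, .ofNat 17957221500422695680365741840793600, .ofNat 0⟩)
    (by decide +kernel)
theorem L01828 : Good (Phi V4.P V4.D 1 1) ⟨5, 27, 4, 9, 3, 4, 2, 2, 2, 1⟩ :=
  leaf_sound (S := T4.ds_pp) T4.ok_pp (w := 192) (c := ⟨⟨.negSucc 1697, .negSucc 20, .negSucc 56, .negSucc 317, .negSucc 468, .ofNat 271⟩, ⟨.negSucc 941, .negSucc 43, .negSucc 98, .negSucc 181, .negSucc 268, .ofNat 155⟩, ⟨.ofNat 933, .negSucc 6, .ofNat 33, .ofNat 109, .ofNat 290, .negSucc 425⟩, ⟨.negSucc 2659, .negSucc 18, .negSucc 73, .negSucc 652, .negSucc 717, .ofNat 449⟩, ⟨.ofNat 164, .ofNat 6, .ofNat 33, .ofNat 306, .ofNat 25, .negSucc 72⟩, .ofNat 5859, .negSucc 9705, .ofNat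 0, .negSucc 9705, .ofNat 17193, .ofNat 0, .ofNat 103, .ofNat 596, .negSucc 530, .ofNat 0, .ofNat 349, .negSucc 299, .ofNat 0, .ofNat 0, .ofNat 985, .ofNat 2347, .ofNat 0, .ofNat 0, .ofNat 0, .ofNat 0, .ofNat 0, .ofNat 69655105732429341185660907927109632000, .ofNat 350711896986344071092619129651200, .ofNat 0, .ofNat 0, .ofNat 97011478947738490870688184873988915200, .ofNat 93562584268084412945240634163200, .ofNat 0, .ofNat 0, .ofNat 0, .ofNat 0, .ofNat 0⟩)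
    (by decide +kernel)
theorem L01829 : Good (Phi V4.P V4.D 1 1) ⟨6, 54, 4, 9, 3, 4, 2, 3, 2, 1⟩ :=
  out_sound (S := T4.ds_pp) T4.ok_pp (w := 72) (j := 3) (by decide +kernel)
theorem L01830 : Good (Phi V4.P V4.D 1 1) ⟨6, 55, 5, 18, 3, 4, 4, 12, 2, 1⟩ :=
  leaf_sound (S := T4.ds_pp) T4.ok_pp (w := 200) (c := ⟨⟨.negSucc 2070, .negSucc 18, .negSucc 7, .negSucc 475, .negSucc 270, .negSucc 38⟩, ⟨.negSucc 1168, .negSucc 31, .negSucc 46, .negSucc 270, .negSucc 154, .negSucc 21⟩, ⟨.ofNat 1118, .ofNat 27, .negSucc 13, .ofNat 199, .ofNat 194, .negSucc 22⟩, ⟨.negSucc 3212, .negSucc 19, .ofNat 16, .negSucc 905, .negSucc 411, .negSucc 104⟩, ⟨.ofNat 160, .ofNat 7, .negSucc 13, .ofNat 333, .ofNat 9, .ofNat 82⟩, .ofNat 821, .negSucc 977, .ofNat 0, .negSucc 977, .ofNat 1965, .ofNat 0, .ofNat 326, .ofNat 642, .negSucc 965, .ofNat 0, .ofNat 429, .negSucc 499, .ofNat 0, .ofNat 0, .ofNat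 1218, .ofNat 8001, .ofNat 0, .ofNat 4394217767618803901064994227160822579200, .ofNat 0, .ofNat 0, .ofNat 0, .ofNat 0, .ofNat 0, .ofNat 0, .ofNat 0, .ofNat 221811304323623625647841114377504686080000, .ofNat 0, .ofNat 0, .ofNat 0, .ofNat 230760847079724128923326090947061193113600, .ofNat 0, .ofNat 0⟩)
    (by decide +kernel)
theorem L01831 : Good (Phi V4.P V4.D 1 1) ⟨6, 55, 5, 18, 3, 4, 4, 13, 2, 1⟩ :=
  leaf_sound (S := T4.ds_pp) T4.ok_pp (w := 208) (c := ⟨⟨.negSucc 2245, .negSucc 33, .negSucc 34, .negSucc 598, .negSucc 428, .negSucc 315⟩, ⟨.negSucc 1266, .negSucc 43, .negSucc 64, .negSucc 341, .negSucc 244, .negSucc 179⟩, ⟨.ofNat 1245, .ofNat 21, .ofNat 21, .ofNat 269, .ofNat 324, .ofNat 233⟩, ⟨.negSucc 3476, .negSucc 45, .negSucc 24, .negSucc 1092, .negSucc 641, .negSucc 541⟩, ⟨.ofNat 160, .ofNat 15, .negSucc 5, .ofNat 337, .negSucc 4, .ofNat 116⟩, .ofNat 2230, .negSucc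 3398, .ofNat 0, .negSucc 3398, .ofNat 6204, .ofNat 0, .ofNat 392, .ofNat 1435, .negSucc 2222, .ofNat 0, .ofNat 864, .negSucc 1238, .ofNat 0, .ofNat 0, .ofNat 2604, .ofNat 9298, .ofNat 0, .ofNat 13543762921675320237581020404190386585600, .ofNat 0, .ofNat 0, .ofNat 0, .ofNat 0, .ofNat 0, .ofNat 0, .ofNat 0, .ofNat 1274389963948707528566272390459600719052800, .ofNat 0, .ofNat 0, .ofNat 0, .ofNat 1270106525023615123832492240806220503449600, .ofNat 0, .ofNat 0⟩)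
    (by decide +kernel)
theorem L01832 : Good (Phi V4.P V4.D 1 1) ⟨7, 110, 5, 19, 3, 4, 3, 6, 2, 1⟩ :=
  out_sound (S := T4.ds_pp) T4.ok_pp (w := 80) (j := 3) (by decide +kernel)
theorem L01833 : Good (Phi V4.P V4.D 1 1) ⟨7, 111, 5, 19, 3, 4, 3, 6, 2, 1⟩ :=
  out_sound (S := T4.ds_pp) T4.ok_pp (w := 24) (j := 4) (by decide +kernel)
theorem L01834 : Good (Phi V4.P V4.D 1 1) ⟨6, 55, 5, 18, 3, 4, 4, 14, 3, 2⟩ :=
  leaf_sound (S := T4.ds_pp) T4.ok_pp (w := 216) (c := ⟨⟨.negSucc 2644, .negSucc 47, .negSucc 64, .negSucc 683, .negSucc 614, .negSucc 324⟩, ⟨.negSucc 1494, .negSucc 51, .negSucc 85, .negSucc 390, .negSucc 351, .negSucc 184⟩, ⟨.ofNat 1549, .ofNat 34, .ofNat 42, .ofNat 327, .ofNat 490, .ofNat 281⟩, ⟨.negSucc 4084, .negSucc 57, .negSucc 74, .negSucc 1181, .negSucc 907, .negSucc 512⟩, ⟨.ofNat 170, .ofNat 3, .ofNat 7, .ofNat 271, .negSucc 26, .ofNat 45⟩, .ofNat 2237,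 .negSucc 3409, .ofNat 0, .negSucc 3409, .ofNat 6221, .ofNat 0, .ofNat 1617, .ofNat 5929, .negSucc 10989, .ofNat 0, .ofNat 3572, .negSucc 6142, .ofNat 0, .ofNat 0, .ofNat 11839, .ofNat 69137, .ofNat 0, .ofNat 1137885894260526255737826463866582309273600, .ofNat 0, .ofNat 0, .ofNat 0, .ofNat 171346644874494991352675777302816566018048000, .ofNat 0, .ofNat 0, .ofNat 0, .ofNat 412771281556612856947685337937340880912384000, .ofNat 10495849593061471663007871557802393600, .ofNat 0, .ofNat 0, .ofNat 498414806717229354463748093199538998529228800, .ofNat 8428312546013733416435582335608422400, .ofNat 0⟩)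
    (by decide +kernel)
theorem L01835 : Good (Phi V4.P V4.D 1 1) ⟨6, 55, 5, 18, 3, 4, 4, 15, 3, 2⟩ :=
  out_sound (S := T4.ds_pp) T4.ok_pp (w := 40) (j := 2) (by decide +kernel)
theorem L01836 : Good (Phi V4.P V4.D 1 1) ⟨7, 110, 5, 19, 3, 4, 3, 7, 3, 2⟩ :=
  out_sound (S := T4.ds_pp) T4.ok_pp (w := 80) (j := 3) (by decide +kernel)
theorem L01837 : Good (Phi V4.P V4.D 1 1) ⟨7, 111, 5, 19, 3, 4, 3, 7, 3, 2⟩ :=
  out_sound (S := T4.ds_pp) T4.ok_pp (w := 24) (j := 4) (by decide +kernel)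
theorem L01838 : Good (Phi V4.P V4.D 1 1) ⟨6, 55, 4, 9, 3, 4, 3, 7, 3, 3⟩ :=
  out_sound (S := T4.ds_pp) T4.ok_pp (w := 32) (j := 2) (by decide +kernel)
theorem L01839 : Good (Phi V4.P V4.D 1 1) ⟨4, 13, 3, 5, 3, 4, 1, 1, 2, 1⟩ :=
  out_sound (S := T4.ds_pp) T4.ok_pp (w := 56) (j := 3) (by decide +kernel)
theorem L01840 : Good (Phi V4.P V4.D 1 1) ⟨3, 7, 2, 2, 3, 4, 1, 1, 2, 1⟩ :=
  out_sound (S := T4.ds_pp) T4.ok_pp (w := 16) (j := 4) (by decide +kernel)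
theorem L01841 : Good (Phi V4.P V4.D 1 1) ⟨3, 6, 2, 3, 3, 4, 1, 1, 1, 0⟩ :=
  out_sound (S := T4.ds_pp) T4.ok_pp (w := 48) (j := 3) (by decide +kernel)
theorem L01842 : Good (Phi V4.P V4.D 1 1) ⟨3, 7, 2, 3, 3, 4, 1, 1, 1, 0⟩ :=
  out_sound (S := T4.ds_pp) T4.ok_pp (w := 16) (j := 4) (by decide +kernel)
theorem L01843 : Good (Phi V4.P V4.D 1 1) ⟨4, 12, 3, 4, 3, 5, 2, 2, 3, 0⟩ :=
  out_sound (S := T4.ds_pp) T4.ok_pp (w := 56) (j := 3) (by decide +kernel)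
theorem L01844 : Good (Phi V4.P V4.D 1 1) ⟨5, 26, 3, 4, 3, 5, 2, 2, 3, 0⟩ :=
  out_sound (S := T4.ds_pp) T4.ok_pp (w := 64) (j := 3) (by decide +kernel)
theorem L01845 : Good (Phi V4.P V4.D 1 1) ⟨5, 27, 3, 4, 4, 10, 2, 2, 4, 0⟩ :=
  leaf_sound (S := T4.ds_pp) T4.ok_pp (w := 208) (c := ⟨⟨.negSucc 1426, .negSucc 212, .negSucc 3, .negSucc 202, .negSucc 19, .negSucc 564⟩, ⟨.negSucc 725, .negSucc 153, .negSucc 141, .negSucc 107, .negSucc 15, .negSucc 304⟩, ⟨.ofNat 1401, .ofNat 125, .ofNat 42, .ofNat 140, .negSucc 479, .ofNat 231⟩, ⟨.negSucc 2556, .negSucc 333, .ofNat 1, .negSucc 427, .ofNat 205, .negSucc 909⟩, ⟨.ofNat 680, .ofNat 94, .ofNat 7, .ofNat 221, .negSucc 428, .ofNat 93⟩, .ofNat 758, .negSucc 885, .ofNat 0, .negSucc 885, .ofNat 1869, .ofNat 0, .ofNat 863, .ofNat 1745, .negSucc 3253, .ofNat 0, .ofNat 1106, .negSucc 1541, .ofNat 0, .ofNat 0, .ofNat 3459, .ofNat 2263,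 .ofNat 0, .ofNat 0, .ofNat 0, .ofNat 0, .ofNat 0, .ofNat 0, .ofNat 0, .ofNat 0, .ofNat 0, .ofNat 0, .ofNat 0, .ofNat 0, .ofNat 0, .ofNat 0, .ofNat 31286121853324267073480924053949644800, .ofNat 0⟩)
    (by decide +kernel)
theorem L01846 : Good (Phi V4.P V4.D 1 1) ⟨5, 27, 4, 8, 4, 11, 2, 2, 4, 0⟩ :=
  leaf_sound (S := T4.ds_pp) T4.ok_pp (w := 208) (c := ⟨⟨.negSucc 1490, .negSucc 84, .negSucc 141, .negSucc 368, .negSucc 49, .negSucc 747⟩, ⟨.negSucc 754, .negSucc 22, .negSucc 193, .negSucc 195, .negSucc 34, .negSucc 404⟩, ⟨.ofNat 1436, .ofNat 175, .ofNat 62, .ofNat 253, .negSucc 456, .ofNat 331⟩, ⟨.negSucc 2751, .negSucc 85, .negSucc 262, .negSucc 721, .ofNat 162, .negSucc 1222⟩, ⟨.ofNat 861, .ofNat 15, .ofNat 78, .ofNat 296, .negSucc 434, .ofNat 158⟩, .ofNat 1764, .negSucc 2666, .ofNat 0, .negSucc 2666, .ofNat 5111, .ofNat 0, .ofNat 281, .ofNat 995, .negSucc 1647, .ofNat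 0, .ofNat 576, .negSucc 858, .ofNat 0, .ofNat 0, .ofNat 1674, .ofNat 5305, .ofNat 0, .ofNat 0, .ofNat 0, .ofNat 0, .ofNat 0, .ofNat 0, .ofNat 34251901832807856889907186245828608000, .ofNat 0, .ofNat 0, .ofNat 0, .ofNat 23733913561358591579044345054809292800, .ofNat 0, .ofNat 0, .ofNat 0, .ofNat 6940874448927786589474948598307225600, .ofNat 0⟩)
    (by decide +kernel)
theorem L01847 : Good (Phi V4.P V4.D 1 1) ⟨5, 27, 4, 9, 4, 11, 2, 2, 4, 0⟩ :=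
  leaf_sound (S := T4.ds_pp) T4.ok_pp (w := 208) (c := ⟨⟨.negSucc 1632, .negSucc 65, .negSucc 97, .negSucc 449, .negSucc 3, .negSucc 747⟩, ⟨.negSucc 893, .negSucc 79, .negSucc 142, .negSucc 256, .negSucc 2, .negSucc 427⟩, ⟨.ofNat 1585, .ofNat 41, .ofNat 65, .ofNat 310, .negSucc 522, .ofNat 328⟩, ⟨.negSucc 2995, .negSucc 112, .negSucc 161, .negSucc 859, .ofNat 266, .negSucc 1215⟩, ⟨.ofNat 932, .ofNat 40, .ofNat 55, .ofNat 321, .negSucc 474, .ofNat 160⟩, .ofNat 2231, .negSucc 3399, .ofNat 0, .negSucc 3399, .ofNat 6207, .ofNat 0, .ofNat 472, .ofNat 2061, .negSucc 3626, .ofNat 0, .ofNat 1217, .negSucc 1996, .ofNat 0, .ofNat 0, .ofNat 3552, .ofNat 2998, .ofNat 0, .ofNat 0, .ofNat 0, .ofNat 0, .ofNat 0, .ofNat 0, .ofNat 0, .ofNat 0, .ofNat 0, .ofNat 0, .ofNat 0, .ofNat 0, .ofNat 0, .ofNat 0, .ofNat 58968940008294327871879944245084160000, .ofNat 0⟩)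
    (by decide +kernel)
theorem L01848 : Good (Phi V4.P V4.D 1 1) ⟨5, 27, 3, 4, 3, 5, 2, 2, 4, 1⟩ :=
  leaf_sound (S := T4.ds_pp) T4.ok_pp (w := 200) (c := ⟨⟨.negSucc 1862, .negSucc 162, .negSucc 57, .negSucc 682, .negSucc 174, .negSucc 215⟩, ⟨.negSucc 940, .negSucc 177, .negSucc 173, .negSucc 370, .negSucc 100, .negSucc 119⟩, ⟨.ofNat 1515, .ofNat 111, .ofNat 54, .ofNat 425, .negSucc 282, .negSucc 18⟩, ⟨.negSucc 3240, .negSucc 202, .negSucc 126, .negSucc 1361, .negSucc 66, .negSucc 335⟩, ⟨.ofNat 702, .ofNat 101, .ofNat 0, .ofNat 591, .negSucc 360, .ofNat 15⟩, .ofNat 1849, .negSucc 2800, .ofNat 0, .negSucc 2800, .ofNat 5311, .ofNat 0, .ofNat 257, .ofNat 895, .negSucc 1226, .ofNat 0, .ofNat 523, .negSucc 644, .ofNat 0, .ofNat 0, .ofNat 1433, .ofNat 1330, .ofNat 0, .ofNat 0, .ofNat 0, .ofNat 0, .ofNat 0, .ofNat 0, .ofNat 35626514924794351322476656879206400, .ofNat 0, .ofNat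 0, .ofNat 0, .ofNat 0, .ofNat 0, .ofNat 0, .ofNat 0, .ofNat 15422462416277023357254375781171200, .ofNat 0⟩)
    (by decide +kernel)
theorem L01849 : Good (Phi V4.P V4.D 1 1) ⟨3, 7, 3, 4, 3, 5, 2, 2, 3, 0⟩ :=
  out_sound (S := T4.ds_pp) T4.ok_pp (w := 16) (j := 4) (by decide +kernel)
theorem L01850 : Good (Phi V4.P V4.D 1 1) ⟨3, 6, 3, 4, 3, 5, 2, 2, 3, 1⟩ :=
  leaf_sound (S := T4.ds_pp) T4.ok_pp (w := 184) (c := ⟨⟨.negSucc 2073, .negSucc 23, .negSucc 125, .negSucc 531, .negSucc 416, .ofNat 113⟩, ⟨.negSucc 1028, .negSucc 55, .negSucc 299, .negSucc 285, .negSucc 230, .ofNat 58⟩, ⟨.ofNat 1477, .negSucc 39, .ofNat 98, .ofNat 290, .ofNat 31, .negSucc 316⟩, ⟨.negSucc 3589, .ofNat 54, .negSucc 186, .negSucc 1128, .negSucc 542, .ofNat 225⟩, ⟨.ofNat 688, .negSucc 63, .ofNat 99, .ofNat 586, .negSucc 162, .negSucc 96⟩, .ofNat 1841, .negSucc 2787, .ofNat 0, .negSucc 2787, .ofNat 5291,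 .ofNat 0, .ofNat 120, .ofNat 398, .negSucc 446, .ofNat 0, .ofNat 234, .negSucc 234, .ofNat 0, .ofNat 0, .ofNat 611, .ofNat 1167, .ofNat 0, .ofNat 0, .ofNat 8862197690391707690682915225600, .ofNat 0, .ofNat 0, .ofNat 0, .ofNat 1970683093416225614509477409587200, .ofNat 0, .ofNat 0, .ofNat 0, .ofNat 190530649442427207454017611366400, .ofNat 0, .ofNat 0, .ofNat 0, .ofNat 1043244333835535971620411251097600, .ofNat 0⟩)
    (by decide +kernel)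
theorem L01851 : Good (Phi V4.P V4.D 1 1) ⟨3, 7, 3, 4, 3, 5, 2, 2, 3, 1⟩ :=
  out_sound (S := T4.ds_pp) T4.ok_pp (w := 16) (j := 4) (by decide +kernel)
theorem L01852 : Good (Phi V4.P V4.D 1 1) ⟨4, 12, 3, 4, 3, 5, 2, 2, 2, 1⟩ :=
  out_sound (S := T4.ds_pp) T4.ok_pp (w := 56) (j := 3) (by decide +kernel)

end Crest.Agent.R097C4.N4pp
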